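import Mathlib
import Crest.Agent.T15.AjB_55
import Crest.Agent.T15.MumA_4

/-!
# Row 15 (helper55): the odd model in the words of `Mum.Cls`, `Ax.Dat`; action of semilinear automorphisms
-/

set_option autoImplicit false
set_option linter.all false

namespace Crest.Agent.T15.Aj

open Polynomial WithZero Module
open Crest.Agent.R013.RR7_948 Crest.Agent.R013.RR8_948 Crest.Agent.R013.RR9_948
open Crest.Agent.R013.RR11_948 Crest.Agent.R013.RR12_948 Crest.Agent.R013.PicD_398
open Crest.Agent.R013.GR2_921 Crest.Agent.R013.Frob1_914 Crest.Agent.T15.Disc Crest.Agent.T15.Hy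

variable {k K : Type*} [Field k] [Field K] [Algebra k K]
variable [Algebra (RatFunc k) K] [IsScalarTower k (RatFunc k) K] [FiniteDimensional (RatFunc k) K]
  [Algebra.IsSeparable (RatFunc k) K] [IsAlgClosed k]

section

variable {F : k[X]} {x w : K} (h : Hyp F x w)
include h

/-- (A3) with parity -/
theorem A3' {g : ℕ} (hg : F.natDegree = 2 * g + 1) {D : Multiset (k × k)} (hD : On F D)
    (hc : D.card ≤ 2 * g) (h0 : (D.map (cl0 x w)).sum = 0) : ∃ E, D = E + E.map cj := by
  classical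
  have ho : Odd F.natDegree := ⟨g, hg⟩
  rw [sum_cl0, map_sub, sub_eq_zero] at h0
  obtain ⟨A, hA⟩ := count_of_cls h hD (m := g) (by omega) (by
    rw [Dinf_eq h ho, Finsupp.smul_single]
    apply Finsupp.single_le_single.mpr
    simp only [nsmul_eq_mul]; omega) (fun Q hQ => Finsupp.single_eq_of_ne (by
      rintro rfl
      exact absurd (inf_spec h) (not_lt.mpr hQ))) h0
  choose s hs using fun a : k => IsAlgClosed.exists_pow_nat_eq (F.eval a) two_pos
  have hi : Function.Injective fun a : k => (a, s a) := fun a b hab => congrArg Prod.fst hab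
  have hc : ∀ P : k × k, (A.roots.map fun a => (a, s a)).count P =
      if P.2 = s P.1 then rootMultiplicity P.1 A else 0 := by
    rintro ⟨a, b⟩
    split_ifs with h1
    · simp only at h1
      rw [h1, Multiset.count_map_eq_count' (fun a => (a, s a)) _ hi, count_roots]
    · apply Multiset.count_eq_zero_of_notMem
      intro h2
      obtain ⟨c, -, hc⟩ := Multiset.mem_map.mp h2
      obtain ⟨rfl, h3⟩ := Prod.mk.inj hc
      exact h1 h3.symm
  refine ⟨A.roots.map fun a => (a, s a), ?_⟩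
  ext P
  have h5 : ((A.roots.map fun a => (a, s a)).map cj).count P =
      (A.roots.map fun a => (a, s a)).count (cj P) := by
    conv_lhs => rw [← cj_cj P]
    exact Multiset.count_map_eq_count' _ _ cj_inj _
  rw [Multiset.count_add, h5, hc, hc]
  simp only [cj]
  by_cases hP : P.2 ^ 2 = F.eval P.1
  · rw [hA P hP]
    have h6 := sq_eq_sq_iff_eq_or_eq_neg.mp (hP.trans (hs P.1).symm)
    by_cases h7 : P.2 = 0
    · have h8 : s P.1 = 0 := by
        rcases h6 with h6 | h6
        · rw [← h6, h7]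
        · rw [← neg_eq_zero, ← h6, h7]
      simp [h7, h8, mul_two]
    · have h8 : ¬ (P.2 = s P.1 ∧ -P.2 = s P.1) := fun h8 =>
        mul_ne_zero h.two h7 (by linear_combination h8.1 - h8.2)
      rcases h6 with h6 | h6
      · rw [if_neg h7, if_pos h6, if_neg fun h9 => h8 ⟨h6, h9⟩]; simp
      · have h9 : -P.2 = s P.1 := by rw [h6, neg_neg]
        rw [if_neg h7, if_pos h9, if_neg fun h10 => h8 ⟨h10, h9⟩]; simp
  · rw [Multiset.count_eq_zero_of_notMem fun h1 => hP (hD _ h1), if_neg, if_neg]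
    · intro h1; exact hP (by rw [← hs, ← h1, neg_sq])
    · intro h1; exact hP (by rw [← hs, h1])

/-- the odd model satisfies the hypotheses of the Mumford calculus -/
theorem mumCls {g : ℕ} (hg : F.natDegree = 2 * g + 1) : Mum.Cls F g (cl0 x w) where
  deg := hg
  sep := h.sep
  two := h.two
  a1 := fun v => by
    have := A1 h ⟨g, hg⟩ v
    rwa [Mum.Phi, Mum.pts, Multiset.map_map]
  a2 := fun a b hb => A2 h ⟨g, hg⟩ hb
  a3 := fun D hD hc h0 => A3' h hg hD hc h0


end

/-! ### semilinear isomorphisms -/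

section

variable {k' K' : Type*} [Field k'] [Field K'] [Algebra k' K']
variable [Algebra (RatFunc k') K'] [IsScalarTower k' (RatFunc k') K'] [FiniteDimensional (RatFunc k') K']
  [Algebra.IsSeparable (RatFunc k') K'] [IsAlgClosed k']
variable {F : k[X]} {x w : K} (h : Hyp F x w) {F' : k'[X]} {x' w' : K'} (h' : Hyp F' x' w')
  (e : SI k K k' K') (hx : e.f x = x')
include h h' hx

theorem pl_pt (hw : e.f w = w') {a b : k} (hb : b ^ 2 = F.eval a) :
    e.pl (pt x w a b) = pt x' w' (e.s a) (e.s b) := by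
  have := (h.at_pt hb).SI e
  rw [hx, hw] at this
  exact (h'.pt_eq this).symm

theorem pic_cl (hw : e.f w = w') {a b : k} (hb : b ^ 2 = F.eval a) :
    e.pic (cl x w (a, b)) = cl x' w' (e.s a, e.s b) := by
  rw [cl, cl, sp, sp, SI.pic_cls, SI.D_single, pl_pt h h' e hx hw hb]

theorem pl_inf (ho : Odd F'.natDegree) : e.pl (inf k x) = inf k' x' :=
  eq_inf h' ho (by rw [← hx, SI.pl_v_apply]; exact inf_spec h)

theorem pic_cl0 (ho : Odd F'.natDegree) (hw : e.f w = w') {a b : k} (hb : b ^ 2 = F.eval a) :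
    e.pic (cl0 x w (a, b)) = cl0 x' w' (e.s a, e.s b) := by
  rw [cl0, cl0, map_sub, pic_cl h h' e hx hw hb, SI.pic_cls, SI.D_single, pl_inf h h' e hx ho]

end

/-! ### normalised data -/

theorem Dat.shift {F : ℂ[X]} {g : ℕ} {A : Type*} [AddCommGroup A] {c : ℂ × ℂ → A} {δ : A}
    (h : Ax.Dat F g c δ) (a : A) : Ax.Dat F g (fun P => c P - a) (δ - 2 • a) where
  sqf := h.sqf
  lo := h.lo
  hi := h.hi
  h1 := fun s ι _ P p q hc hi hP hq hp hq' hz => by
    rw [Finset.sum_sub_distrib, h.h1 s ι P p q hc hi hP hq hp hq' hz, Finset.sum_const,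
      Finset.card_univ, hc, smul_sub, ← mul_nsmul]
  h2 := fun P Q hP hQ hiP hiQ hs => h.h2 P Q hP hQ hiP hiQ (by
    rwa [Finset.sum_sub_distrib, Finset.sum_sub_distrib, sub_left_inj] at hs)
  h3 := fun x w hw => by rw [← h.h3 x w hw, two_nsmul]; abel
  h4 := fun e₀ T h0 hT hn hne hc => by
    simpa only [sub_sub_sub_cancel_right] using h.h4 e₀ T h0 hT hn hne hc

theorem isExp_shift {F : ℂ[X]} {g : ℕ} {A : Type*} [AddCommGroup A] {c : ℂ × ℂ → A}
    {ex : (Fin g → ℂ) →+ A} (a : A) : Ax.IsExp F g (fun P => c P - a) ex ↔ Ax.IsExp F g c ex := by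
  refine forall_congr' fun C => Filter.eventually_congr (Filter.Eventually.of_forall fun τ => ?_)
  rw [sub_add_eq_add_sub, sub_left_inj]

section

variable {K : Type*} [Field K] [Algebra ℂ K]
variable [Algebra (RatFunc ℂ) K] [IsScalarTower ℂ (RatFunc ℂ) K] [FiniteDimensional (RatFunc ℂ) K]
  [Algebra.IsSeparable (RatFunc ℂ) K]

theorem dat0 {F : ℂ[X]} {x w : K} (h : Hyp F x w) {g : ℕ} (hg : F.natDegree = 2 * g + 1) :
    Ax.Dat F g (cl0 x w) 0 := by
  have h1 := Dat.shift (dat h (g := g) (by omega) (by omega)) (cls (Finsupp.single (inf ℂ x) 1))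
  rwa [dl, Dinf_eq h ⟨g, hg⟩, ← map_nsmul, Finsupp.smul_single, show (2 : ℕ) • (1 : ℤ) = 2 from rfl,
    sub_self] at h1

theorem isExp_cl0 {F : ℂ[X]} {x w : K} {g : ℕ} {ex : (Fin g → ℂ) →+ Pic ℂ K} :
    Ax.IsExp F g (cl0 x w) ex ↔ Ax.IsExp F g (cl x w) ex := isExp_shift _

end

end Crest.Agent.T15.Aj
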