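import Mathlib
import Crest.Agent.T15.Wp1_31
import Crest.Agent.R013.RR22_948
import Crest.Agent.R013.Unr9_957

/-!
# Row 15, block F (helper31): norm and conorm are adjoint for the Weil pairing

`k` algebraically closed, `L / K` finite separable (the `k(X)`-structures are unrelated).
* `push K`, `conH L` on divisors, `pushP K`, `conP L` on classes;
* `nrm_norm` : `(N g)(P) = ∏_{Q | P} g(Q) ^ e(Q)`;
* `wp_con_left` : `e_L (con x, y) = e_K (x, push y)`.
-/

set_option autoImplicit false
set_option linter.all false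

namespace Crest.Agent.T15.Wp

open WithZero Module
open scoped NNReal
open Crest.Agent.R013.RR7_948 Crest.Agent.R013.RR8_948 Crest.Agent.R013.RR9_948
open Crest.Agent.R013.RR11_948 Crest.Agent.R013.RR12_948 Crest.Agent.R013.RR13_948
open Crest.Agent.R013.RR18_948 Crest.Agent.R013.RR19_948 Crest.Agent.R013.RR22_948
open Crest.Agent.R013.WR2_777 Crest.Agent.R013.WR4_777 Crest.Agent.R013.PicD_398
open Crest.Agent.R013.GR2_921 (hc_of_isAlgClosed exists_const degP_eq_one)

theorem prod_sub_prod_lt {E Γ ι : Type*} [CommRing E] [LinearOrderedCommGroupWithZero Γ]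
    (w : Valuation E Γ) (s : Finset ι) (a c : ι → E) (h : ∀ i ∈ s, w (a i - c i) < 1)
    (hc : ∀ i ∈ s, w (c i) ≤ 1) :
    w (∏ i ∈ s, a i - ∏ i ∈ s, c i) < 1 ∧ w (∏ i ∈ s, c i) ≤ 1 := by
  classical
  induction s using Finset.induction_on with
  | empty => simp
  | insert i s hi ih =>
    obtain ⟨h1, h2⟩ := ih (fun j hj => h j (Finset.mem_insert_of_mem hj))
      (fun j hj => hc j (Finset.mem_insert_of_mem hj))
    have h3 := h i (Finset.mem_insert_self _ _)
    have h4 := hc i (Finset.mem_insert_self _ _)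
    have h5 : w (a i) ≤ 1 := by
      have : a i = (a i - c i) + c i := by ring
      rw [this]
      exact (w.map_add _ _).trans (max_le h3.le h4)
    rw [Finset.prod_insert hi, Finset.prod_insert hi]
    refine ⟨?_, by rw [map_mul]; exact mul_le_one' h4 h2⟩
    have : a i * ∏ j ∈ s, a j - c i * ∏ j ∈ s, c j =
        a i * (∏ j ∈ s, a j - ∏ j ∈ s, c j) + (a i - c i) * ∏ j ∈ s, c j := by ring
    rw [this]
    refine lt_of_le_of_lt (w.map_add _ _) (max_lt ?_ ?_)
    · rw [map_mul]
      exact lt_of_le_of_lt (mul_le_mul_left h5 _) (by rwa [one_mul])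
    · rw [map_mul]
      exact lt_of_le_of_lt (mul_le_mul_right h2 _) (by rwa [mul_one])

section A

variable {k : Type*} [Field k] [IsAlgClosed k] {K : Type*} [Field K] [Algebra k K]
  [Algebra (RatFunc k) K] [IsScalarTower k (RatFunc k) K] [FiniteDimensional (RatFunc k) K]
  [Algebra.IsSeparable (RatFunc k) K]
  {L : Type*} [Field L] [Algebra k L] [Algebra K L] [IsScalarTower k K L]
  [FiniteDimensional K L] [Algebra.IsSeparable K L]

theorem v_norm_eq {f : L} (hf : f ≠ 0) (m : Pl k L → ℤ) (hm : ∀ Q : Pl k L, Q.v f = exp (-m Q))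
    (P : Pl k K) : P.v (Algebra.norm K f) = exp (-∑ Q ∈ above L P, m Q) := by
  letI : Algebra (RatFunc k) L := ((algebraMap K L).comp (algebraMap (RatFunc k) K)).toAlgebra
  haveI : IsScalarTower (RatFunc k) K L := IsScalarTower.of_algebraMap_eq fun _ => rfl
  haveI : IsScalarTower k (RatFunc k) L := IsScalarTower.of_algebraMap_eq fun c => by
    show algebraMap k L c = algebraMap K L (algebraMap (RatFunc k) K _)
    rw [← IsScalarTower.algebraMap_apply k (RatFunc k) K, ← IsScalarTower.algebraMap_apply k K L]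
  haveI : FiniteDimensional (RatFunc k) L := Module.Finite.trans K L
  haveI : Algebra.IsSeparable (RatFunc k) L := Algebra.IsSeparable.trans (RatFunc k) K L
  have hN : Algebra.norm K f ≠ 0 := Algebra.norm_ne_zero_iff.mpr hf
  rw [v_eq hN, divf_norm_of_degP hf P (fun Q _ => by rw [degP_eq_one, degP_eq_one])]
  congr 2
  refine Finset.sum_congr rfl fun Q _ => ?_
  have h1 := hm Q
  rw [v_eq hf, exp_inj] at h1
  omega

variable (K) in
/-- push-forward (norm) of divisors -/
noncomputable def push : (Pl k L →₀ ℤ) →+ (Pl k K →₀ ℤ) :=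
  Finsupp.mapDomain.addMonoidHom (under K)

theorem push_eq (D : Pl k L →₀ ℤ) : push K D = D.mapDomain (under K) := rfl

theorem push_single (Q : Pl k L) (n : ℤ) :
    push K (Finsupp.single Q n) = Finsupp.single (under K Q) n := by
  rw [push_eq, Finsupp.mapDomain_single]

theorem push_apply (D : Pl k L →₀ ℤ) (P : Pl k K) : push K D P = ∑ Q ∈ above L P, D Q := by
  classical
  induction D using Finsupp.induction_linear with
  | zero => simp
  | add D E h1 h2 =>
    rw [map_add, Finsupp.add_apply, h1, h2, ← Finset.sum_add_distrib]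
    rfl
  | single Q n =>
    rw [push_single, Finsupp.single_apply]
    simp only [Finsupp.single_apply]
    rw [Finset.sum_ite_eq]
    simp only [mem_above]

variable (L) in
/-- the conorm as a homomorphism -/
noncomputable def conH : (Pl k K →₀ ℤ) →+ (Pl k L →₀ ℤ) where
  toFun := con L
  map_zero' := con_zero
  map_add' := con_add


theorem con_nsmul (n : ℕ) (D : Pl k K →₀ ℤ) : con L (n • D) = n • con L D :=
  map_nsmul (conH L) n D

end A

section B

variable {k : Type*} [Field k] [IsAlgClosed k] {K : Type*} [Field K] [Algebra k K]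
  [Algebra (RatFunc k) K] [IsScalarTower k (RatFunc k) K] [FiniteDimensional (RatFunc k) K]
  [Algebra.IsSeparable (RatFunc k) K]
  {L : Type*} [Field L] [Algebra k L] [Algebra K L] [IsScalarTower k K L]
  [FiniteDimensional K L] [Algebra.IsSeparable K L]
  [Algebra (RatFunc k) L] [IsScalarTower k (RatFunc k) L] [FiniteDimensional (RatFunc k) L]
  [Algebra.IsSeparable (RatFunc k) L]

theorem push_divf {f : L} (hf : f ≠ 0) :
    push K (divf (k := k) f) = divf (k := k) (Algebra.norm K f) := by
  ext P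
  have hN : Algebra.norm K f ≠ 0 := Algebra.norm_ne_zero_iff.mpr hf
  have h1 := v_norm_eq hf (fun Q => divf (k := k) f Q) (fun Q => v_eq hf Q) P
  rw [v_eq hN, exp_inj] at h1
  rw [push_apply]
  omega

theorem con_divf' {f : K} (hf : f ≠ 0) :
    con L (divf (k := k) f) = divf (k := k) (algebraMap K L f) := by
  ext Q
  have hf' : algebraMap K L f ≠ 0 := by simpa using hf
  have h1 := v_algebraMap_exp Q (v_eq hf (under K Q))
  rw [v_eq hf', exp_inj] at h1
  rw [con_apply]
  linarith

theorem degD_push (D : Pl k L →₀ ℤ) : degD (push K D) = degD D := by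
  induction D using Finsupp.induction_linear with
  | zero => simp [degD_zero]
  | add D E h1 h2 => rw [map_add, degD_add, degD_add, h1, h2]
  | single Q n => rw [push_single, degD_single, degD_single, degP_eq_one, degP_eq_one]

theorem push_con (D : Pl k K →₀ ℤ) : push K (con L D) = finrank K L • D := by
  ext P
  have h := sum_eR_degP (L := L) P
  simp only [degP_eq_one, mul_one] at h
  rw [push_apply, Finsupp.smul_apply, nsmul_eq_mul, ← h]
  push_cast
  rw [Finset.sum_mul]
  refine Finset.sum_congr rfl fun Q hQ => ?_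
  rw [con_apply, mem_above.mp hQ]

variable (K) in
/-- the norm on classes -/
noncomputable def pushP : Pic k L →+ Pic k K :=
  QuotientAddGroup.map _ _ (push K) (by
    intro D hD
    obtain ⟨f, hf, rfl⟩ := mem_Prin.mp hD
    exact mem_Prin.mpr ⟨_, Algebra.norm_ne_zero_iff.mpr hf, (push_divf hf).symm⟩)

variable (L) in
/-- the conorm on classes -/
noncomputable def conP : Pic k K →+ Pic k L :=
  QuotientAddGroup.map _ _ (conH L) (by
    intro D hD
    obtain ⟨f, hf, rfl⟩ := mem_Prin.mp hD
    exact mem_Prin.mpr ⟨_, by simpa using hf, (con_divf' hf).symm⟩)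

theorem pushP_cls (D : Pl k L →₀ ℤ) : pushP K (cls D) = cls (push K D) := rfl

theorem conP_cls (D : Pl k K →₀ ℤ) : conP L (cls D) = cls (con L D) := rfl

theorem pushP_conP (x : Pic k K) : pushP K (conP L x) = finrank K L • x := by
  obtain ⟨D, rfl⟩ := cls_surjective x
  rw [conP_cls, pushP_cls, push_con, map_nsmul]

theorem nrm_algebraMap (Q : Pl k L) (f : K) : nrm Q (algebraMap K L f) = nrm (under K Q) f := by
  by_cases hf : (under K Q).v f = 1
  · refine nrm_eq_of_lt ?_
    rw [IsScalarTower.algebraMap_apply k K L, ← map_sub, ← under_lt_one_iff]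
    exact v_sub_nrm hf
  · rw [nrm_of_ne hf, nrm_of_ne]
    rw [v_algebraMap]
    intro h
    exact hf ((pow_eq_one_iff_of_nonneg zero_le (by have := eR_pos (K := K) Q; omega)).mp h)

theorem ev_algebraMap (f : K) (E : Pl k L →₀ ℤ) : ev (algebraMap K L f) E = ev f (push K E) := by
  induction E using Finsupp.induction_linear with
  | zero => simp
  | add D E h1 h2 => rw [map_add, ev_add, ev_add, h1, h2]
  | single Q n => rw [push_single, ev_single, ev_single, nrm_algebraMap]

/-- the places induced by the embeddings -/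
theorem exists_emb_places (P : Pl k K) :
    ∃ (w : Valuation (AlgebraicClosure K) ℝ≥0)
      (q : (L →ₐ[K] AlgebraicClosure K) → Pl k L),
      (∀ f : K, w (algebraMap K _ f) = vR P f) ∧
      (∀ τ, (q τ).v.IsEquiv (w.comap (τ : L →+* AlgebraicClosure K))) ∧ (∀ τ, under K (q τ) = P) ∧
      ∀ Q ∈ above L P, Nat.card {τ // q τ = Q} = eR K Q := by
  classical
  obtain ⟨w, hw⟩ := Crest.Agent.R013.Unr9_957.exists_extend_alg (E := AlgebraicClosure K) (vR P)
  have hw' : ∀ f : K, w (algebraMap K _ f) = vR P f := fun f => by rw [← hw]; rfl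
  have hτ : ∀ (τ : L →ₐ[K] AlgebraicClosure K) (f : K),
      (w.comap (τ : L →+* AlgebraicClosure K)) (algebraMap K L f) = vR P f := fun τ f => by
    rw [Valuation.comap_apply, ← hw']
    congr 1
    exact τ.commutes f
  have hex : ∀ τ : L →ₐ[K] AlgebraicClosure K,
      ∃ Q : Pl k L, Q.v.IsEquiv (w.comap (τ : L →+* AlgebraicClosure K)) := by
    intro τ
    refine exists_place _ (fun c hc => ?_) ?_
    · rw [IsScalarTower.algebraMap_apply k K L, hτ, vR_apply, P.const c hc, map_one]
    · obtain ⟨t, ht0, ht⟩ := exists_v_eq P 1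
      refine ⟨algebraMap K L t, ?_, ?_⟩
      · rw [hτ, vR_apply, ht, toReal_exp]; norm_num
      · rw [hτ, vR_apply, ht, toReal_exp]; norm_num
  choose q hq using hex
  have hu : ∀ τ, under K (q τ) = P := fun τ => by
    rw [under_eq_iff_le]
    intro f hf
    rw [(hq τ).le_one_iff_le_one, hτ, ← (isEquiv_vR P).le_one_iff_le_one]
    exact hf
  refine ⟨w, q, hw', hq, hu, fun Q hQ => ?_⟩
  obtain ⟨h, h0, hh⟩ := exists_prescribed (above L P) (fun Q' => if Q' = Q then -1 else 0)
  have hN : P.v (Algebra.norm K h) = exp (-1) := by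
    rw [v_norm_eq h0 (fun Q => divf (k := k) h Q) (fun Q => v_eq h0 Q) P]
    congr 2
    have : ∀ Q' ∈ above L P, divf (k := k) h Q' = if Q' = Q then 1 else 0 := by
      intro Q' hQ'
      have h1 := hh Q' hQ'
      rw [v_eq h0, exp_inj] at h1
      split_ifs at h1 ⊢ <;> omega
    rw [Finset.sum_congr rfl this, Finset.sum_ite_eq' , if_pos hQ]
  set r : ℝ≥0 := w (algebraMap K _ (Algebra.norm K h)) with hr
  have hr' : r = 2⁻¹ := by rw [hr, hw', vR_apply, hN, toReal_exp]; simp
  have hQP : under K Q = P := mem_above.mp hQ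
  have h1 : ∀ τ : L →ₐ[K] AlgebraicClosure K,
      w (τ h) ^ eR K Q = if q τ = Q then r else 1 := by
    intro τ
    have hmem : q τ ∈ above L P := mem_above.mpr (hu τ)
    have h2 := hh _ hmem
    split_ifs at h2 ⊢ with h3
    · have h4 : (q τ).v (h ^ eR K Q) = (q τ).v (algebraMap K L (Algebra.norm K h)) := by
        rw [map_pow, h2, h3, v_algebraMap, hQP, hN]
      have h5 := ((hq τ).val_eq).mp h4
      rw [hτ, ← hw', map_pow] at h5
      exact h5
    · have h5 := ((hq τ).eq_one_iff_eq_one).mp (h2.trans exp_zero)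
      rw [Valuation.comap_apply] at h5
      have h6 : w (τ h) = 1 := h5
      rw [h6, one_pow]
  have h2 : r ^ eR K Q = r ^ (Finset.univ.filter fun τ => q τ = Q).card := by
    conv_lhs => rw [hr, Algebra.norm_eq_prod_embeddings K (AlgebraicClosure K), map_prod,
      ← Finset.prod_pow]
    rw [Finset.prod_congr rfl fun τ _ => h1 τ, Finset.prod_ite, Finset.prod_const,
      Finset.prod_const_one, mul_one]
  have h3 := pow_right_injective₀ (a := r) (by rw [hr']; norm_num) (by rw [hr']; norm_num) h2
  rw [h3, Nat.card_eq_fintype_card, Fintype.card_subtype]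

/-- **value of a norm** -/
theorem nrm_norm (P : Pl k K) {g : L} (hg : ∀ Q ∈ above L P, Q.v g = 1) :
    nrm P (Algebra.norm K g) = ∏ Q ∈ above L P, nrm Q g ^ eR K Q := by
  classical
  obtain ⟨w, q, hw, hq, hu, hc⟩ := exists_emb_places (L := L) P
  have hmem : ∀ τ, q τ ∈ above L P := fun τ => mem_above.mpr (hu τ)
  have h1 : ∏ Q ∈ above L P, nrm Q g ^ eR K Q = ∏ τ, nrm (q τ) g := by
    rw [← Finset.prod_fiberwise_of_maps_to (s := Finset.univ) (fun τ _ => hmem τ)]
    refine Finset.prod_congr rfl fun Q hQ => ?_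
    rw [Finset.prod_congr rfl (g := fun _ => nrm Q g)
      (fun τ hτ => by rw [(Finset.mem_filter.mp hτ).2]), Finset.prod_const, ← hc Q hQ,
      Nat.card_eq_fintype_card, Fintype.card_subtype]
  rw [h1]
  refine nrm_eq_of_lt ?_
  have h2 := (prod_sub_prod_lt w Finset.univ (fun τ : L →ₐ[K] AlgebraicClosure K => τ g)
    (fun τ => algebraMap K _ (algebraMap k K (nrm (q τ) g : k))) (fun τ _ => ?_)
    (fun τ _ => ?_)).1
  · rw [← Algebra.norm_eq_prod_embeddings, ← map_prod, ← map_prod, ← map_sub, hw,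
      ← (isEquiv_vR P).lt_one_iff_lt_one] at h2
    rw [Units.coe_prod]
    exact h2
  · have h3 := ((hq τ).lt_one_iff_lt_one).mp (v_sub_nrm (hg _ (hmem τ)))
    rw [Valuation.comap_apply, map_sub, IsScalarTower.algebraMap_apply k K L] at h3
    have h4 : (τ : L →+* AlgebraicClosure K) (algebraMap K L (algebraMap k K (nrm (q τ) g : k)))
      = algebraMap K _ (algebraMap k K (nrm (q τ) g : k)) := τ.commutes _
    rw [h4] at h3
    exact h3
  · rw [hw, ← (isEquiv_vR P).le_one_iff_le_one]
    exact v_const_le P _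

theorem pw_sum {G : Type*} [CommGroup G] (φ : Pl k L → G) {ι : Type*} (s : Finset ι)
    (D : ι → (Pl k L →₀ ℤ)) : pw φ (∑ i ∈ s, D i) = ∏ i ∈ s, pw φ (D i) := by
  classical
  induction s using Finset.induction_on with
  | empty => simp
  | insert i s hi ih => rw [Finset.sum_insert hi, Finset.prod_insert hi, pw_add, ih]

theorem pw_con {G : Type*} [CommGroup G] (φ : Pl k L → G) (D : Pl k K →₀ ℤ) :
    pw φ (con L D) = pw (fun P => ∏ Q ∈ above L P, φ Q ^ eR K Q) D := by
  induction D using Finsupp.induction_linear with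
  | zero => simp [con_zero]
  | add D E h1 h2 => rw [con_add, pw_add, pw_add, h1, h2]
  | single P n =>
    rw [con_single, pw_sum, pw_single, ← Finset.prod_zpow]
    refine Finset.prod_congr rfl fun Q _ => ?_
    rw [pw_single, zpow_mul, zpow_natCast]

theorem con_ne_zero {D : Pl k K →₀ ℤ} {Q : Pl k L} : con L D Q ≠ 0 ↔ D (under K Q) ≠ 0 := by
  rw [con_apply]
  have := eR_pos (K := K) Q
  have h : (eR K Q : ℤ) ≠ 0 := by omega
  exact mul_ne_zero_iff.trans ⟨fun a => a.2, fun a => ⟨h, a⟩⟩

theorem ev_norm {g : L} (hg : g ≠ 0) {D : Pl k K →₀ ℤ} (h : Dj (divf (k := k) g) (con L D)) :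
    ev (Algebra.norm K g) D = ev g (con L D) := by
  unfold ev
  rw [pw_con]
  refine pw_congr fun P hP => nrm_norm P fun Q hQ => v_one_of_dj hg h ?_
  rw [con_ne_zero, mem_above.mp hQ]
  exact hP

theorem dj_push {D : Pl k K →₀ ℤ} {E : Pl k L →₀ ℤ} (h : Dj (con L D) E) : Dj D (push K E) := by
  intro P
  by_cases hP : D P = 0
  · left; exact hP
  · right
    rw [push_apply]
    refine Finset.sum_eq_zero fun Q hQ => (h Q).resolve_left ?_
    show con L D Q ≠ 0
    rw [con_ne_zero, mem_above.mp hQ]
    exact hP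

/-- **adjointness** -/
theorem wp_con_left {n : ℕ} (hn : n ≠ 0) {x : Pic k K} {y : Pic k L} (hx : n • x = 0)
    (hy : n • y = 0) : wp n (conP L x) y = wp n x (pushP K y) := by
  obtain ⟨D, f, hf, rfl, hD, -⟩ := exists_move' hx ∅
  obtain ⟨E, g, hg, rfl, hE, hS⟩ := exists_move' hy (con L D).support
  have a1 : Dj (con L D) E := (dj_of_supp hS subset_rfl).symm
  have hf' : algebraMap K L f ≠ 0 := by simpa using hf
  rw [conP_cls, pushP_cls,
    wp_eq hc_of_isAlgClosed hn hf' hg (by rw [← con_divf' hf, hD, con_nsmul]) hE a1,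
    wp_eq hc_of_isAlgClosed hn hf (g := Algebra.norm K g) (Algebra.norm_ne_zero_iff.mpr hg) hD
      (by rw [← push_divf hg, hE, map_nsmul]) (dj_push a1), ev_algebraMap,
    ev_norm hg (hE ▸ a1.symm.nsmul_left n)]



end B

end Crest.Agent.T15.Wp
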