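import Mathlib
import Crest.Agent.T15.Wp2_31
import Crest.Agent.R013.Div6_280

/-!
# Row 15, block F (helper31): the Weil pairing is non-degenerate

`k` algebraically closed, `n` invertible in `k`.
* `DivH k n` : degree zero classes of all function fields over `k` are divisible by `n`
  (`divH` : true in characteristic zero);
* `exists_wp_ne_one`, `eq_zero_of_wp` : non-degeneracy.
-/

set_option autoImplicit false
set_option linter.all false

namespace Crest.Agent.T15.Wp

open WithZero Module Polynomial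
open Crest.Agent.R013.RR7_948 Crest.Agent.R013.RR8_948 Crest.Agent.R013.RR9_948
open Crest.Agent.R013.RR11_948 Crest.Agent.R013.RR12_948 Crest.Agent.R013.RR13_948
open Crest.Agent.R013.RR18_948 Crest.Agent.R013.RR19_948 Crest.Agent.R013.RR22_948
open Crest.Agent.R013.WR2_777 Crest.Agent.R013.WR4_777 Crest.Agent.R013.PicD_398
open Crest.Agent.R013.Frob1_914
open Crest.Agent.R013.GR2_921 (hc_of_isAlgClosed exists_const degP_eq_one)

universe u

section core

variable {k : Type*} [Field k] [IsAlgClosed k] {K : Type*} [Field K] [Algebra k K]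
  [Algebra (RatFunc k) K] [IsScalarTower k (RatFunc k) K] [FiniteDimensional (RatFunc k) K]
  [Algebra.IsSeparable (RatFunc k) K]
  {L : Type*} [Field L] [Algebra k L] [Algebra K L] [IsScalarTower k K L]
  [FiniteDimensional K L] [Algebra.IsSeparable K L]
  [Algebra (RatFunc k) L] [IsScalarTower k (RatFunc k) L] [FiniteDimensional (RatFunc k) L]
  [Algebra.IsSeparable (RatFunc k) L]

variable (k) in
/-- a `K`-automorphism of `L` as a semilinear isomorphism -/
def siOf (σ : L ≃ₐ[K] L) : SI k L k L where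
  s := RingEquiv.refl k
  f := σ.toRingEquiv
  comm c := by
    show σ (algebraMap k L c) = algebraMap k L c
    rw [IsScalarTower.algebraMap_apply k K L]
    exact σ.commutes _

theorem under_siOf (σ : L ≃ₐ[K] L) (Q : Pl k L) : under K ((siOf k σ).pl Q) = under K Q := by
  rw [under_eq_iff_le]
  intro f hf
  rw [SI.pl_v]
  have : (siOf k σ).f.symm (algebraMap K L f) = algebraMap K L f := σ.symm.commutes f
  rw [this, ← under_le_one_iff]
  exact hf


theorem nrm_siOf (σ : L ≃ₐ[K] L) (Q : Pl k L) (a : L) :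
    nrm ((siOf k σ).pl Q) (σ a) = nrm Q a := by
  have := nrm_SI (siOf k σ) Q a
  exact this.trans (Units.ext rfl)

/-- the Kummer form of the pairing -/
theorem wp_kummer {n : ℕ} (hn : n ≠ 0) {D : Pl k K →₀ ℤ} {f : K} (hf : f ≠ 0)
    (hD : divf (k := k) f = n • D) {α : L} (hα : α ^ n = algebraMap K L f) (σ : L ≃ₐ[K] L)
    {c : kˣ} (hc : σ α = algebraMap k L c * α)
    (hdiv : ∀ E : Pl k L →₀ ℤ, degD E = 0 → ∃ x : Pic k L, n • x = cls E) :
    ∃ y : Pic k K, n • y = 0 ∧ wp n (cls D) y = c⁻¹ := by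
  have hf' : algebraMap K L f ≠ 0 := by simpa using hf
  have hα0 : α ≠ 0 := by
    rintro rfl
    rw [zero_pow hn] at hα
    exact hf' hα.symm
  have hc0 : algebraMap k L (c : k) ≠ 0 := by simp
  have hdα : divf (k := k) α = con L D := by
    have h1 : n • divf (k := k) α = n • con L D := by
      rw [← divf_pow hα0, hα, ← con_divf' hf, hD, con_nsmul]
    exact nsmul_right_injective hn h1
  obtain ⟨Q, hQ⟩ := exists_notMem (k := k) (K := L) (con L D).support
  rw [Finsupp.notMem_support_iff] at hQ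
  set e := siOf k σ with he
  have hinv : e.D (con L D) = con L D := by
    rw [← hdα, ← SI.divf_f e hα0]
    show divf (k := k) (σ α) = _
    rw [hc, divf_mul hc0 hα0, divf_const, zero_add]
  have hQ' : con L D (e.pl Q) = 0 := by
    rw [← hinv, SI.D_apply]
    have : e.symm.pl (e.pl Q) = Q := e.plEquiv.symm_apply_apply Q
    rw [this]
    exact hQ
  set Δ : Pl k L →₀ ℤ := Finsupp.single (e.pl Q) 1 - Finsupp.single Q 1 with hΔ
  have hΔ0 : degD Δ = 0 := by
    rw [hΔ, degD_sub, degD_single, degD_single, degP_eq_one, degP_eq_one, sub_self]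
  obtain ⟨x, hx⟩ := hdiv Δ hΔ0
  obtain ⟨W, rfl, hW⟩ := exists_move x (con L D).support
  rw [← map_nsmul] at hx
  obtain ⟨g, hg, hg'⟩ := cls_eq_iff.mp hx
  have a1 : Dj (con L D) W := (dj_of_supp hW subset_rfl).symm
  have a2 : Dj (con L D) Δ := by
    refine Dj.symm (Dj.sub_left ?_ ?_) <;> intro P
    · by_cases h : e.pl Q = P
      · right; rw [← h]; exact hQ'
      · left; exact Finsupp.single_eq_of_ne' h
    · by_cases h : Q = P
      · right; rw [← h]; exact hQ
      · left; exact Finsupp.single_eq_of_ne' h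
  have hdg : divf (k := k) g = n • W - Δ := by rw [hg']; abel
  have a3 : Dj (divf (k := k) g) (con L D) := by
    rw [hdg]
    exact (a1.symm.nsmul_left n).sub_left a2.symm
  have hN : Algebra.norm K g ≠ 0 := Algebra.norm_ne_zero_iff.mpr hg
  have hpΔ : push K Δ = 0 := by
    rw [hΔ, map_sub, push_single, push_single, he, under_siOf, sub_self]
  have hE : divf (k := k) (Algebra.norm K g) = n • push K W := by
    rw [← push_divf hg, hdg, map_sub, hpΔ, sub_zero, map_nsmul]
  refine ⟨cls (push K W), nsmul_cls hN hE, ?_⟩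
  have hv : (e.pl Q).v α = 1 := (v_eq_one_iff hα0 _).mpr (by rw [hdα]; exact hQ')
  have h5 : nrm Q α = c * nrm (e.pl Q) α := by
    rw [← nrm_siOf σ Q α, hc, nrm_mul (Pl.const _ _ c.ne_zero) hv, nrm_const, degP_eq_one, pow_one]
  rw [wp_eq hc_of_isAlgClosed hn hf hN hD hE (dj_push a1), ← ev_algebraMap, ev_norm hg a3, ← hα,
    ev_pow hα0 (hdα ▸ a1), ← ev_nsmul, ← hdα, ev_recip hg hα0 (hdα ▸ a3), ← ev_sub, hdg,
    sub_sub_cancel, hΔ, ev_sub, ev_single, ev_single, zpow_one, zpow_one, h5]
  simp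

end core

/-- degree zero classes of function fields over `k` are divisible by `n` -/
def DivH (k : Type*) [Field k] (n : ℕ) : Prop :=
  ∀ (L : Type u) [Field L] [Algebra k L] [Algebra (RatFunc k) L] [IsScalarTower k (RatFunc k) L]
    [FiniteDimensional (RatFunc k) L] [Algebra.IsSeparable (RatFunc k) L] (E : Pl k L →₀ ℤ),
    degD E = 0 → ∃ x : Pic k L, n • x = cls E

theorem divH (k : Type*) [Field k] [IsAlgClosed k] [CharZero k] {n : ℕ} (hn : n ≠ 0) :
    DivH.{u} k n := by
  intro L _ _ _ _ _ _ E hE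
  obtain ⟨W, g, hg, -, h⟩ := Crest.Agent.R013.Div6_280.exists_div (Nat.pos_of_ne_zero hn) hE
  exact ⟨cls W, by rw [h, map_add, cls_divf hg, add_zero, map_nsmul]⟩

variable {k : Type*} [Field k] [IsAlgClosed k] {K : Type u} [Field K] [Algebra k K]
  [Algebra (RatFunc k) K] [IsScalarTower k (RatFunc k) K] [FiniteDimensional (RatFunc k) K]
  [Algebra.IsSeparable (RatFunc k) K]

/-- **non-degeneracy**, given divisibility -/
theorem exists_wp_ne_one' {n : ℕ} (hn : (n : k) ≠ 0) (hdiv : DivH.{u} k n) {x : Pic k K}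
    (hx : n • x = 0) (h0 : x ≠ 0) : ∃ y : Pic k K, n • y = 0 ∧ wp n x y ≠ 1 := by
  have hn0 : n ≠ 0 := by rintro rfl; simp at hn
  have hnK : (n : K) ≠ 0 := by
    rw [← map_natCast (algebraMap k K)]
    exact (_root_.map_ne_zero _).mpr hn
  obtain ⟨D, f, hf, rfl, hD, -⟩ := exists_move' hx ∅
  set p : K[X] := X ^ n - C f with hp
  have hsep : p.Separable := separable_X_pow_sub_C f hnK hf
  let L := p.SplittingField
  haveI : IsGalois K L := IsGalois.of_separable_splitting_field hsep
  haveI : IsScalarTower k (RatFunc k) L := IsScalarTower.of_algebraMap_eq fun c => by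
    rw [IsScalarTower.algebraMap_apply k K L, IsScalarTower.algebraMap_apply (RatFunc k) K L,
      ← IsScalarTower.algebraMap_apply k (RatFunc k) K]
  haveI : FiniteDimensional (RatFunc k) L := Module.Finite.trans K L
  haveI : Algebra.IsSeparable (RatFunc k) L := Algebra.IsSeparable.trans (RatFunc k) K L
  have hdeg : (p.map (algebraMap K L)).degree ≠ 0 := by
    rw [degree_map, hp, degree_X_pow_sub_C (Nat.pos_of_ne_zero hn0)]
    exact_mod_cast hn0
  obtain ⟨α, hα⟩ := (SplittingField.splits p).exists_eval_eq_zero hdeg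
  have hα' : α ^ n = algebraMap K L f := by
    have h1 : eval α (Polynomial.map (algebraMap K L) (X ^ n - C f)) = 0 := hα
    simpa [sub_eq_zero] using h1
  have hf' : algebraMap K L f ≠ 0 := by simpa using hf
  have hα0 : α ≠ 0 := by
    rintro rfl
    rw [zero_pow hn0] at hα'
    exact hf' hα'.symm
  have hσ : ∃ σ : L ≃ₐ[K] L, σ α ≠ α := by
    by_contra hall
    push Not at hall
    obtain ⟨a, ha⟩ := (IsGalois.mem_range_algebraMap_iff_fixed α).mpr hall
    have ha0 : a ≠ 0 := by
      rintro rfl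
      exact hα0 (by rw [← ha, map_zero])
    have h1 : a ^ n = f := (algebraMap K L).injective (by rw [map_pow, ha, hα'])
    have h2 : divf (k := k) a = D :=
      nsmul_right_injective hn0 (show n • divf (k := k) a = n • D by rw [← divf_pow ha0, h1, hD])
    exact h0 (by rw [← h2, cls_divf ha0])
  obtain ⟨σ, hσ⟩ := hσ
  have h1 : (σ α * α⁻¹) ^ n = 1 := by
    rw [mul_pow, ← map_pow, inv_pow, hα', σ.commutes, mul_inv_cancel₀ hf']
  have h2 : IsIntegral k (σ α * α⁻¹) := IsIntegral.of_pow (Nat.pos_of_ne_zero hn0)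
    (by rw [h1]; exact isIntegral_one)
  obtain ⟨c, hc⟩ : σ α * α⁻¹ ∈ (algebraMap k L).range :=
    minpoly.mem_range_of_degree_eq_one k _
      (IsAlgClosed.degree_eq_one_of_irreducible k (minpoly.irreducible h2))
  have hc0 : c ≠ 0 := by
    rintro rfl
    rw [map_zero] at hc
    rw [← hc, zero_pow hn0] at h1
    exact zero_ne_one h1
  have hc' : σ α = algebraMap k L (Units.mk0 c hc0 : kˣ) * α := by
    rw [Units.val_mk0, hc, inv_mul_cancel_right₀ hα0]
  obtain ⟨y, hy, hy'⟩ := wp_kummer hn0 hf hD hα' σ hc' (fun E hE => hdiv L E hE)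
  refine ⟨y, hy, ?_⟩
  rw [hy', Ne, inv_eq_one]
  intro h
  rw [h] at hc'
  exact hσ (by simpa using hc')

theorem eq_zero_of_wp' {n : ℕ} (hn : (n : k) ≠ 0) (hdiv : DivH.{u} k n) {x : Pic k K}
    (hx : n • x = 0) (h : ∀ y : Pic k K, n • y = 0 → wp n x y = 1) : x = 0 := by
  by_contra h0
  obtain ⟨y, hy, hy'⟩ := exists_wp_ne_one' hn hdiv hx h0
  exact hy' (h y hy)

/-- **non-degeneracy** in characteristic zero -/
theorem eq_zero_of_wp [CharZero k] {n : ℕ} (hn : n ≠ 0) {x : Pic k K}
    (hx : n • x = 0) (h : ∀ y : Pic k K, n • y = 0 → wp n x y = 1) : x = 0 :=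
  eq_zero_of_wp' (by exact_mod_cast hn) (divH k hn) hx h

end Crest.Agent.T15.Wp
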