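import Crest.Agent.T15.Disc_71
import Crest.Agent.R013.RR20_948
import Mathlib
import Crest.Agent.T15.AjC_55
import Crest.Agent.T15.AxC_14
import Crest.Agent.T15.Wp3_31
import Crest.Agent.T15.MoB_29
import Crest.Agent.T15.HtDef_95
import Crest.Agent.T15.HonDef_54
import Crest.Agent.T15.Wp2_31

-- ▼ part T15/AjF_55
section

/-!
# Row 15, AJ (helper55), part F: analytic families of places of a function field over `ℂ`

* `PM x θ H` : plane model of a function field, `exists_PM`; `PM.exists_pl` : every point of the model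
  is the centre of a place;
* `AnF Q D g` : along the family of places `Q t` the value of `g` is holomorphic with derivative the
  value of `D g`;
* `exists_fam` : through every place over a generic value of `x` there is such a family with
  `x (Q t) = x (Q 0) + t`.
-/

set_option autoImplicit false
set_option linter.all false

open Polynomial WithZero Filter Topology
open scoped Polynomial.Bivariate
open Crest.Agent.R013.RR7_948 Crest.Agent.R013.RR8_948 Crest.Agent.R013.RR9_948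
open Crest.Agent.R013.RR11_948 Crest.Agent.R013.RR13_948 Crest.Agent.R013.RR20_948
open Crest.Agent.T15.Disc

noncomputable section

namespace Crest.Agent.T15.Aj

section pm

variable {k L : Type*} [Field k] [Field L] [Algebra k L]

/-- plane model -/
structure PM (x θ : L) (H : k[X][Y]) : Prop where
  monic : H.Monic
  root : aevalAeval x θ H = 0
  dvd : ∀ p : k[X][Y], aevalAeval x θ p = 0 → H ∣ p
  gen : ∀ g : L, ∃ (A : k[X][Y]) (c : k[X]), c ≠ 0 ∧ g * aeval x c = aevalAeval x θ A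
  sep : aevalAeval x θ (derivative H) ≠ 0

theorem aevalAeval_eq [Algebra k[X] L] {x : L} (hx : ∀ c : k[X], algebraMap k[X] L c = aeval x c)
    (θ : L) (p : k[X][Y]) : aevalAeval x θ p = aeval θ p := by
  induction p using Polynomial.induction_on' with
  | add p q hp hq => rw [map_add, map_add, hp, hq]
  | monomial n c =>
    rw [← C_mul_X_pow_eq_monomial, map_mul, map_mul, map_pow, map_pow, aevalAeval_C, aevalAeval_Y,
      aeval_C, aeval_X, hx]

theorem exists_PM_aux [CharZero k] [Algebra (RatFunc k) L] [IsScalarTower k (RatFunc k) L]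
    [FiniteDimensional (RatFunc k) L] : ∃ θ H, PM (k := k) (xK k L) θ H := by
  letI := algPoly k L
  haveI := towerPoly k L
  haveI : CharZero (RatFunc k) := charZero_of_injective_algebraMap (algebraMap k (RatFunc k)).injective
  have hx : ∀ c : k[X], algebraMap k[X] L c = aeval (xK k L) c := by
    intro c
    have h1 : ((IsScalarTower.toAlgHom k (RatFunc k) L).comp
        (IsScalarTower.toAlgHom k k[X] (RatFunc k))) = aeval (xK k L) := by
      apply Polynomial.algHom_ext
      simp [xK]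
    rw [← h1]
    rfl
  have hinj : Function.Injective (algebraMap k[X] L) :=
    (algebraMap (RatFunc k) L).injective.comp (IsFractionRing.injective k[X] (RatFunc k))
  haveI : FaithfulSMul k[X] L := (faithfulSMul_iff_algebraMap_injective _ _).2 hinj
  obtain ⟨θ₀, hθ₀⟩ := Field.exists_primitive_element (RatFunc k) L
  have halg : IsAlgebraic k[X] θ₀ :=
    (IsFractionRing.isAlgebraic_iff k[X] (RatFunc k) L).2 (Algebra.IsAlgebraic.isAlgebraic θ₀)
  obtain ⟨c₀, hc₀, hint⟩ := halg.exists_integral_multiple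
  set θ := c₀ • θ₀ with hθ
  have htop : IntermediateField.adjoin (RatFunc k) {θ} = ⊤ := by
    rw [eq_top_iff, ← hθ₀, IntermediateField.adjoin_simple_le_iff]
    have h1 : θ₀ = (algebraMap k[X] (RatFunc k) c₀)⁻¹ • θ := by
      rw [hθ, ← algebraMap_smul (RatFunc k) c₀ θ₀, smul_smul, inv_mul_cancel₀, one_smul]
      simpa using hc₀
    rw [h1]
    exact IntermediateField.smul_mem _ (IntermediateField.mem_adjoin_simple_self _ _)
  have hmap := minpoly.isIntegrallyClosed_eq_field_fractions' (RatFunc k) hint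
  refine ⟨θ, minpoly k[X] θ, minpoly.monic hint, ?_, ?_, ?_, ?_⟩
  · rw [aevalAeval_eq hx, minpoly.aeval]
  · intro p hp
    rw [aevalAeval_eq hx] at hp
    exact minpoly.isIntegrallyClosed_dvd hint hp
  · intro g
    have hg : g ∈ (IntermediateField.adjoin (RatFunc k) {θ}).toSubalgebra := by
      rw [htop]; trivial
    rw [IntermediateField.adjoin_simple_toSubalgebra_of_isAlgebraic
      (Algebra.IsAlgebraic.isAlgebraic θ), Algebra.adjoin_singleton_eq_range_aeval] at hg
    obtain ⟨q, rfl⟩ := hg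
    obtain ⟨b, hb, hq⟩ := IsLocalization.integerNormalization_spec (nonZeroDivisors k[X]) q
    refine ⟨IsLocalization.integerNormalization (nonZeroDivisors k[X]) q, b,
      nonZeroDivisors.ne_zero hb, ?_⟩
    rw [aevalAeval_eq hx, ← hx, ← aeval_map_algebraMap (RatFunc k) θ
      (IsLocalization.integerNormalization (nonZeroDivisors k[X]) q), hq,
      ← algebraMap_smul (RatFunc k), map_smul, Algebra.smul_def, ← IsScalarTower.algebraMap_apply,
      mul_comm]
    rfl
  · rw [aevalAeval_eq hx, ← aeval_map_algebraMap (RatFunc k), ← derivative_map, ← hmap]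
    exact (Algebra.IsSeparable.isSeparable (RatFunc k) θ).aeval_derivative_ne_zero (minpoly.aeval _ _)

variable [Algebra (RatFunc k) L] [IsScalarTower k (RatFunc k) L] [FiniteDimensional (RatFunc k) L]

theorem exists_PM [CharZero k] {x : L} (hx : Transcendental k x) : ∃ θ H, PM (k := k) x θ H := by
  have h := @exists_PM_aux k L _ _ _ _ (ratAlg x hx) (ratAlg_tower x hx) (ratAlg_finite x hx)
  have h2 : @xK k _ L _ (ratAlg x hx) = x := ratAlg_xK x hx
  rwa [h2] at h

variable [Algebra.IsSeparable (RatFunc k) L]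

/-- every point of the plane model is the centre of a place -/
theorem PM.exists_pl {x θ : L} {H : k[X][Y]} (h : PM x θ H) (hx : Transcendental k x) {a y : k}
    (h0 : evalEval a y H = 0) : ∃ Q : Pl k L, Q.v (x - algebraMap k L a) < 1 ∧
      Q.v (θ - algebraMap k L y) < 1 := by
  let φ : k[X][Y] →+* L := (aevalAeval x θ : k[X][Y] →ₐ[k] L)
  let I : Ideal φ.range := (RingHom.ker (evalEvalRingHom a y)).map φ.rangeRestrict
  have hI : I ≠ ⊤ := by
    intro hI
    have h1 : (1 : φ.range) ∈ I := by rw [hI]; trivial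
    obtain ⟨p, hp, hp1⟩ := (Ideal.mem_map_iff_of_surjective _ φ.rangeRestrict_surjective).1 h1
    have h2 : φ p = 1 := congrArg Subtype.val hp1
    obtain ⟨q, hq⟩ := h.dvd (p - 1) (by rw [map_sub, map_one]; exact sub_eq_zero.2 h2)
    have h3 := congrArg (evalEval a y) hq
    rw [evalEval_mul, h0, zero_mul, evalEval_sub, evalEval_one] at h3
    have h4 : evalEval a y p = 0 := hp
    rw [h4] at h3
    simp at h3
  obtain ⟨B, hB, hB'⟩ := Ideal.image_subset_nonunits_valuationSubring I hI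
  have hlt : ∀ p, evalEval a y p = 0 → B.valuation (φ p) < 1 := by
    intro p hp
    rw [← ValuationSubring.mem_nonunits_iff]
    exact hB' ⟨φ.rangeRestrict p, Ideal.mem_map_of_mem _ hp, rfl⟩
  have hle : ∀ c : k, B.valuation (algebraMap k L c) ≤ 1 := by
    intro c
    rw [B.valuation_le_one_iff]
    exact hB ⟨algebraMap k _ c, (aevalAeval x θ).commutes c⟩
  have e1 : φ (C (X - C a)) = x - algebraMap k L a := by
    show aevalAeval x θ _ = _
    rw [aevalAeval_C]; simp
  have e2 : φ (Y - C (C y)) = θ - algebraMap k L y := by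
    show aevalAeval x θ _ = _
    rw [map_sub, aevalAeval_C, aevalAeval_Y]; simp
  have l1 := hlt (C (X - C a)) (by simp [evalEval_C])
  have l2 := hlt (Y - C (C y)) (by simp [evalEval_C])
  rw [e1] at l1
  rw [e2] at l2
  obtain ⟨Q, hQ⟩ := exists_place (k := k) B.valuation (fun c hc => by
    have h1 := hle c
    have h2 := hle c⁻¹
    rw [map_inv₀, map_inv₀] at h2
    have h3 : B.valuation (algebraMap k L c) ≠ 0 := by simpa using hc
    exact le_antisymm h1 ((inv_le_one₀ (zero_lt_iff.2 h3)).1 h2))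
    ⟨x - algebraMap k L a, by
      rw [Valuation.ne_zero_iff, sub_ne_zero]
      intro hxa
      exact hx (hxa ▸ isAlgebraic_algebraMap a), l1.ne⟩
  exact ⟨Q, hQ.lt_one_iff_lt_one.2 l1, hQ.lt_one_iff_lt_one.2 l2⟩

variable [IsAlgClosed k]

theorem ev_aevalAeval (Q : Pl k L) {x θ : L} (hx : Q.v x ≤ 1) (hθ : Q.v θ ≤ 1) (p : k[X][Y]) :
    Q.v (aevalAeval x θ p) ≤ 1 ∧ ev Q (aevalAeval x θ p) = evalEval (ev Q x) (ev Q θ) p := by
  have hC : ∀ c : k[X], Q.v (aeval x c) ≤ 1 ∧ ev Q (aeval x c) = c.eval (ev Q x) := by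
    intro c
    induction c using Polynomial.induction_on with
    | C c => rw [aeval_C, eval_C]; exact ⟨v_const_le Q c, ev_const Q c⟩
    | add p q hp hq =>
      rw [map_add, eval_add, ev_add Q hp.1 hq.1, hp.2, hq.2]
      exact ⟨(Valuation.map_add _ _ _).trans (max_le hp.1 hq.1), rfl⟩
    | monomial n c ih =>
      rw [pow_succ, ← mul_assoc, map_mul, aeval_X, ev_mul Q ih.1 hx, ih.2, eval_mul (q := X), eval_X,
        map_mul]
      exact ⟨mul_le_one' ih.1 hx, rfl⟩
  induction p using Polynomial.induction_on with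
  | C c => rw [aevalAeval_C, evalEval_C]; exact hC c
  | add p q hp hq =>
    rw [map_add, evalEval_add, ev_add Q hp.1 hq.1, hp.2, hq.2]
    exact ⟨(Valuation.map_add _ _ _).trans (max_le hp.1 hq.1), rfl⟩
  | monomial n c ih =>
    rw [pow_succ, ← mul_assoc, map_mul, aevalAeval_Y, ev_mul Q ih.1 hθ, ih.2, evalEval_mul (q := Y),
      evalEval_X, map_mul]
    exact ⟨mul_le_one' ih.1 hθ, rfl⟩

theorem ev_aeval (Q : Pl k L) {x : L} (hx : Q.v x ≤ 1) (c : k[X]) :
    Q.v (aeval x c) ≤ 1 ∧ ev Q (aeval x c) = c.eval (ev Q x) := by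
  have := ev_aevalAeval Q hx hx (C c)
  rwa [aevalAeval_C, evalEval_C] at this

theorem v_eq_one_of_ev {Q : Pl k L} {u : L} (hu : Q.v u ≤ 1) (h0 : ev Q u ≠ 0) : Q.v u = 1 :=
  le_antisymm hu (not_lt.1 fun h => h0 ((ev_eq_zero_iff Q hu).2 h))

theorem ev_inv {Q : Pl k L} {u : L} (hu : Q.v u ≤ 1) (h0 : ev Q u ≠ 0) :
    Q.v u⁻¹ ≤ 1 ∧ ev Q u⁻¹ = (ev Q u)⁻¹ := by
  have h1 := v_eq_one_of_ev hu h0
  have h2 : Q.v u⁻¹ ≤ 1 := by rw [map_inv₀, h1, inv_one]
  have h3 : u ≠ 0 := by rintro rfl; simp at h1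
  refine ⟨h2, eq_inv_of_mul_eq_one_left ?_⟩
  rw [← ev_mul Q h2 hu, inv_mul_cancel₀ h3, ev_one]

omit [IsAlgClosed k] [Algebra.IsSeparable (RatFunc k) L] [Algebra (RatFunc k) L]
  [IsScalarTower k (RatFunc k) L] [FiniteDimensional (RatFunc k) L] in
theorem PM.v_le {x θ : L} {H : k[X][Y]} (h : PM x θ H) (Q : Pl k L) (hx : Q.v x ≤ 1) :
    Q.v θ ≤ 1 := by
  letI : Algebra k[X] L := (aeval x : k[X] →ₐ[k] L).toRingHom.toAlgebra
  refine le_one_of_integral (S := k[X]) Q.v (fun c => ?_) ⟨H, h.monic, ?_⟩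
  · show Q.v (aeval x c) ≤ 1
    rw [aeval_eq_sum_range]
    refine Valuation.map_sum_le _ fun i _ => ?_
    rw [Algebra.smul_def, map_mul, map_pow]
    exact mul_le_one' (v_const_le Q _) (pow_le_one' hx i)
  · rw [← aeval_def, ← aevalAeval_eq (x := x) (fun c => rfl), h.root]

end pm

section fam

variable {L : Type*} [Field L] [Algebra ℂ L] [Algebra (RatFunc ℂ) L]
  [IsScalarTower ℂ (RatFunc ℂ) L] [FiniteDimensional (RatFunc ℂ) L]
  [Algebra.IsSeparable (RatFunc ℂ) L]

/-- `g` is holomorphic along the family of places `Q`, with derivative `D g` -/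
def AnF (Q : ℂ → Pl ℂ L) (D : Derivation ℂ L L) (g : L) : Prop :=
  ∀ᶠ t in 𝓝 (0 : ℂ), (Q t).v g ≤ 1 ∧ (Q t).v (D g) ≤ 1 ∧
    HasDerivAt (fun s => ev (Q s) g) (ev (Q t) (D g)) t

namespace AnF

variable {Q : ℂ → Pl ℂ L} {D : Derivation ℂ L L} {g g' : L}

theorem const (c : ℂ) : AnF Q D (algebraMap ℂ L c) := by
  refine Eventually.of_forall fun t => ⟨v_const_le _ c, by simp, ?_⟩
  simp only [ev_const, Derivation.map_algebraMap, ev_zero]
  exact hasDerivAt_const t c

theorem reg (h : AnF Q D g) : ∀ᶠ t in 𝓝 (0 : ℂ), (Q t).v g ≤ 1 := h.mono fun _ ht => ht.1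

theorem analyticAt (h : AnF Q D g) : AnalyticAt ℂ (fun s => ev (Q s) g) 0 := by
  obtain ⟨U, hU, hUo, h0⟩ := eventually_nhds_iff.1 h
  exact DifferentiableOn.analyticAt (s := U)
    (fun t ht => (hU t ht).2.2.differentiableAt.differentiableWithinAt) (hUo.mem_nhds h0)

theorem add (h : AnF Q D g) (h' : AnF Q D g') : AnF Q D (g + g') := by
  filter_upwards [h, h', (h.reg.and h'.reg).eventually_nhds] with t a b c
  rw [map_add D]
  refine ⟨(Valuation.map_add _ _ _).trans (max_le a.1 b.1),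
    (Valuation.map_add _ _ _).trans (max_le a.2.1 b.2.1), ?_⟩
  rw [ev_add _ a.2.1 b.2.1]
  exact (a.2.2.add b.2.2).congr_of_eventuallyEq (c.mono fun s hs => ev_add _ hs.1 hs.2)

theorem mul (h : AnF Q D g) (h' : AnF Q D g') : AnF Q D (g * g') := by
  filter_upwards [h, h', (h.reg.and h'.reg).eventually_nhds] with t a b c
  have m1 : (Q t).v (g * D g') ≤ 1 := by rw [map_mul]; exact mul_le_one' a.1 b.2.1
  have m2 : (Q t).v (g' * D g) ≤ 1 := by rw [map_mul]; exact mul_le_one' b.1 a.2.1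
  rw [Derivation.leibniz, smul_eq_mul, smul_eq_mul]
  refine ⟨by rw [map_mul]; exact mul_le_one' a.1 b.1,
    (Valuation.map_add _ _ _).trans (max_le m1 m2), ?_⟩
  rw [ev_add _ m1 m2, ev_mul _ a.1 b.2.1, ev_mul _ b.1 a.2.1]
  refine HasDerivAt.congr_of_eventuallyEq ?_ (c.mono fun s hs => ev_mul _ hs.1 hs.2)
  exact (a.2.2.mul b.2.2).congr_deriv (by ring)

theorem inv (h : AnF Q D g) (h0 : ev (Q 0) g ≠ 0) : AnF Q D g⁻¹ := by
  have h1 : ∀ᶠ t in 𝓝 (0 : ℂ), ev (Q t) g ≠ 0 := h.analyticAt.continuousAt.eventually_ne h0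
  filter_upwards [h, h1, (h.reg.and h1).eventually_nhds] with t a b c
  have i1 := ev_inv a.1 b
  have m1 : (Q t).v (g⁻¹ ^ 2) ≤ 1 := by rw [map_pow]; exact pow_le_one' i1.1 2
  have m2 : (Q t).v (g⁻¹ ^ 2 * D g) ≤ 1 := by rw [map_mul]; exact mul_le_one' m1 a.2.1
  rw [Derivation.leibniz_inv, smul_eq_mul, neg_mul]
  refine ⟨i1.1, by rwa [Valuation.map_neg], ?_⟩
  rw [ev_neg _ m2, ev_mul _ m1 a.2.1, ev_pow _ i1.1, i1.2]
  refine HasDerivAt.congr_of_eventuallyEq ?_ (c.mono fun s hs => (ev_inv hs.1 hs.2).2)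
  exact (a.2.2.inv b).congr_deriv (by field_simp)

theorem aevalAeval {x θ : L} (hx : AnF Q D x) (hθ : AnF Q D θ) (p : ℂ[X][Y]) :
    AnF Q D (aevalAeval x θ p) := by
  have hC : ∀ c : ℂ[X], AnF Q D (aeval x c) := by
    intro c
    induction c using Polynomial.induction_on with
    | C c => rw [aeval_C]; exact const c
    | add p q hp hq => rw [map_add]; exact hp.add hq
    | monomial n c ih => rw [pow_succ, ← mul_assoc, map_mul, aeval_X]; exact ih.mul hx
  induction p using Polynomial.induction_on with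
  | C c => rw [aevalAeval_C]; exact hC c
  | add p q hp hq => rw [map_add]; exact hp.add hq
  | monomial n c ih => rw [pow_succ, ← mul_assoc, map_mul, aevalAeval_Y]; exact ih.mul hθ

end AnF

/-- chain rule, algebraic and analytic -/
theorem chain (p : ℂ[X][Y]) : ∃ pX : ℂ[X][Y],
    (∀ (D : Derivation ℂ L L) (x θ : L), D (aevalAeval x θ p) =
      aevalAeval x θ pX * D x + aevalAeval x θ (derivative p) * D θ) ∧
    ∀ (u y : ℂ → ℂ) (u' y' t : ℂ), HasDerivAt u u' t → HasDerivAt y y' t →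
      HasDerivAt (fun s => evalEval (u s) (y s) p)
        (evalEval (u t) (y t) pX * u' + evalEval (u t) (y t) (derivative p) * y') t := by
  induction p using Polynomial.induction_on with
  | C c =>
    refine ⟨C (derivative c), fun D x θ => ?_, fun u y u' y' t hu hy => ?_⟩
    · rw [aevalAeval_C, aevalAeval_C, Derivation.map_aeval, derivative_C, map_zero, zero_mul,
        add_zero, smul_eq_mul]
    · simp only [evalEval_C, derivative_C, evalEval_zero, zero_mul, add_zero]
      exact (c.hasDerivAt (u t)).comp t hu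
  | add p q hp hq =>
    obtain ⟨pX, p1, p2⟩ := hp
    obtain ⟨qX, q1, q2⟩ := hq
    refine ⟨pX + qX, fun D x θ => ?_, fun u y u' y' t hu hy => ?_⟩
    · simp only [map_add, p1, q1]; ring
    · simp only [map_add, evalEval_add]
      exact ((p2 u y u' y' t hu hy).add (q2 u y u' y' t hu hy)).congr_deriv (by ring)
  | monomial n c ih =>
    obtain ⟨pX, p1, p2⟩ := ih
    rw [pow_succ, ← mul_assoc]
    set p : ℂ[X][Y] := C c * Y ^ n
    refine ⟨pX * Y, fun D x θ => ?_, fun u y u' y' t hu hy => ?_⟩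
    · simp only [derivative_mul, derivative_X, map_add, map_mul, aevalAeval_Y, Derivation.leibniz, p1,
        smul_eq_mul, map_one]
      ring
    · simp only [derivative_mul, derivative_X, evalEval_add, evalEval_mul, evalEval_X, mul_one]
      exact ((p2 u y u' y' t hu hy).mul hy).congr_deriv (by ring)

theorem contDiff_evalEval (p : ℂ[X][Y]) {n : WithTop ℕ∞} :
    ContDiff ℂ n fun z : ℂ × ℂ => evalEval z.1 z.2 p := by
  induction p using Polynomial.induction_on with
  | C c =>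
    simp only [evalEval_C]
    induction c using Polynomial.induction_on with
    | C c => simp only [eval_C]; exact contDiff_const
    | add p q hp hq => simp only [eval_add]; exact hp.add hq
    | monomial n c ih =>
      simp only [pow_succ, ← mul_assoc, eval_mul (q := X), eval_X]
      exact ih.mul contDiff_fst
  | add p q hp hq => simp only [evalEval_add]; exact hp.add hq
  | monomial n c ih =>
    simp only [pow_succ, ← mul_assoc, evalEval_mul (q := Y), evalEval_X]
    exact ih.mul contDiff_snd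

/-- a simple root moves holomorphically -/
theorem exists_root_fun (H : ℂ[X][Y]) {a y₀ : ℂ} (h0 : evalEval a y₀ H = 0)
    (h1 : evalEval a y₀ (derivative H) ≠ 0) :
    ∃ y : ℂ → ℂ, AnalyticAt ℂ y a ∧ y a = y₀ ∧ ∀ᶠ u in 𝓝 a, evalEval u (y u) H = 0 := by
  have hC : ContDiffAt ℂ ⊤ (fun z : ℂ × ℂ => evalEval z.1 z.2 H) (a, y₀) :=
    (contDiff_evalEval H).contDiffAt
  have hd : fderiv ℂ (fun z : ℂ × ℂ => evalEval z.1 z.2 H) (a, y₀) (0, 1) ≠ 0 := by
    obtain ⟨pX, -, p2⟩ := chain (L := RatFunc ℂ) H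
    have e1 := p2 (fun _ => a) id 0 1 y₀ (hasDerivAt_const _ _) (hasDerivAt_id _)
    have e2 : HasDerivAt (fun y : ℂ => ((a, y) : ℂ × ℂ)) (0, 1) y₀ :=
      (hasDerivAt_const y₀ a).prodMk (hasDerivAt_id y₀)
    have e3 := (hC.differentiableAt (by simp)).hasFDerivAt.comp_hasDerivAt y₀ e2
    have e4 := e3.unique e1
    rw [e4]
    simpa using h1
  have hi : (fderiv ℂ (fun z : ℂ × ℂ => evalEval z.1 z.2 H) (a, y₀) ∘L
      ContinuousLinearMap.inr ℂ ℂ ℂ).IsInvertible := by
    refine ⟨ContinuousLinearEquiv.unitsEquivAut ℂ (Units.mk0 _ hd), ?_⟩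
    ext
    simp
  refine ⟨hC.implicitFunction (by simp) hi, (hC.contDiffAt_implicitFunction (by simp) hi).analyticAt,
    hC.implicitFunction_apply_self (by simp) hi, ?_⟩
  have := hC.eventually_apply_implicitFunction (by simp) hi
  simpa [h0] using this

theorem transcendental_of_D {D : Derivation ℂ L L} {x : L} (hD : D x = 1) : Transcendental ℂ x := by
  intro h
  have h1 := IsAlgClosed.degree_eq_one_of_irreducible ℂ (minpoly.irreducible h.isIntegral)
  obtain ⟨c, rfl⟩ := minpoly.mem_range_of_degree_eq_one ℂ x h1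
  simp at hD

/-- **analytic families of places** -/
theorem exists_fam (D : Derivation ℂ L L) {x : L} (hD : D x = 1) (S : Finset L) :
    ∃ B : Finset ℂ, ∀ Q₀ : Pl ℂ L, Q₀.v x ≤ 1 → ev Q₀ x ∉ B → ∃ Q : ℂ → Pl ℂ L, Q 0 = Q₀ ∧
      (∀ᶠ t in 𝓝 (0 : ℂ), ev (Q t) x = ev Q₀ x + t) ∧ AnF Q D x ∧ ∀ g ∈ S, AnF Q D g := by
  classical
  have hx := transcendental_of_D hD
  obtain ⟨θ, H, h⟩ := exists_PM hx
  choose A c hc hA using h.gen
  let g₀ := (aevalAeval x θ (derivative H))⁻¹
  refine ⟨(c g₀ * ∏ g ∈ S, c g).roots.toFinset, fun Q₀ hQ₀ hB => ?_⟩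
  set a := ev Q₀ x with ha
  have hne : c g₀ * ∏ g ∈ S, c g ≠ 0 := mul_ne_zero (hc _) (Finset.prod_ne_zero_iff.2 fun g _ => hc g)
  rw [Multiset.mem_toFinset, mem_roots hne, IsRoot, eval_mul, mul_eq_zero, not_or, eval_prod,
    Finset.prod_eq_zero_iff] at hB
  have hθ₀ := h.v_le Q₀ hQ₀
  have r0 : evalEval a (ev Q₀ θ) H = 0 := by
    rw [← (ev_aevalAeval Q₀ hQ₀ hθ₀ H).2, h.root, ev_zero]
  have r1 : evalEval a (ev Q₀ θ) (derivative H) ≠ 0 := by
    intro h0
    apply hB.1
    have e : aeval x (c g₀) = aevalAeval x θ (derivative H * A g₀) := by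
      rw [map_mul, ← hA, ← mul_assoc, mul_inv_cancel₀ h.sep, one_mul]
    rw [← (ev_aeval Q₀ hQ₀ _).2, e, (ev_aevalAeval Q₀ hQ₀ hθ₀ _).2, evalEval_mul, h0, zero_mul]
  obtain ⟨y, y1, y2, y3⟩ := exists_root_fun H r0 r1
  have ex : ∀ t : ℂ, ∃ Q : Pl ℂ L, (t = 0 → Q = Q₀) ∧ (evalEval (a + t) (y (a + t)) H = 0 →
      Q.v (x - algebraMap ℂ L (a + t)) < 1 ∧ Q.v (θ - algebraMap ℂ L (y (a + t))) < 1) := by
    intro t
    by_cases ht : t = 0
    · refine ⟨Q₀, fun _ => rfl, fun _ => ?_⟩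
      rw [ht, add_zero, y2]
      exact ⟨ev_spec Q₀ hQ₀, ev_spec Q₀ hθ₀⟩
    · by_cases h0 : evalEval (a + t) (y (a + t)) H = 0
      · obtain ⟨Q, hQ⟩ := h.exists_pl hx h0
        exact ⟨Q, fun h => absurd h ht, fun _ => hQ⟩
      · exact ⟨Q₀, fun _ => rfl, fun h => absurd h h0⟩
  choose Q hQ0 hQ using ex
  have tt : Tendsto (fun t : ℂ => a + t) (𝓝 0) (𝓝 a) := by
    simpa using (continuous_add_left a).tendsto 0
  have hy : AnalyticAt ℂ (fun t => y (a + t)) 0 := by
    have : AnalyticAt ℂ y (a + 0) := by rwa [add_zero]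
    exact this.comp (f := fun t => a + t) (by fun_prop)
  have k1 : ∀ᶠ t in 𝓝 (0 : ℂ), (Q t).v x ≤ 1 ∧ (Q t).v θ ≤ 1 ∧ ev (Q t) x = a + t ∧
      ev (Q t) θ = y (a + t) ∧ evalEval (a + t) (y (a + t)) H = 0 := by
    filter_upwards [tt.eventually y3] with t ht
    obtain ⟨q1, q2⟩ := hQ t ht
    exact ⟨v_le_of_sub_lt _ q1, v_le_of_sub_lt _ q2, ev_eq _ q1, ev_eq _ q2, ht⟩
  have hX : AnF Q D x := by
    filter_upwards [k1, k1.eventually_nhds] with t a1 a2
    rw [hD, ev_one]
    refine ⟨a1.1, by simp, ?_⟩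
    exact ((hasDerivAt_id t).const_add a).congr_of_eventuallyEq (a2.mono fun s hs => hs.2.2.1)
  have hT : AnF Q D θ := by
    obtain ⟨pX, p1, p2⟩ := chain (L := L) H
    have e := p1 D x θ
    rw [h.root, map_zero, hD, mul_one] at e
    have e' : D θ = -(aevalAeval x θ pX * (aevalAeval x θ (derivative H))⁻¹) := by
      have hs := h.sep
      rw [← div_eq_mul_inv, ← neg_div, eq_div_iff hs]
      linear_combination -e
    have c1 : ContinuousAt (fun t => evalEval (a + t) (y (a + t)) (derivative H)) 0 :=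
      ((contDiff_evalEval (derivative H) (n := 0)).continuous.continuousAt).comp
        (f := fun t => (a + t, y (a + t))) (ContinuousAt.prodMk (by fun_prop) hy.continuousAt)
    have c2 : ∀ᶠ t in 𝓝 (0 : ℂ), evalEval (a + t) (y (a + t)) (derivative H) ≠ 0 :=
      c1.eventually_ne (by simpa [y2] using r1)
    filter_upwards [k1, k1.eventually_nhds, c2, hy.eventually_analyticAt] with t a1 a2 a3 a4
    obtain ⟨b1, b2⟩ := ev_aevalAeval (Q t) a1.1 a1.2.1 pX
    obtain ⟨b3, b4⟩ := ev_aevalAeval (Q t) a1.1 a1.2.1 (derivative H)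
    rw [a1.2.2.1, a1.2.2.2.1] at b2 b4
    obtain ⟨b5, b6⟩ := ev_inv b3 (by rwa [b4])
    have b7 : (Q t).v (aevalAeval x θ pX * (aevalAeval x θ (derivative H))⁻¹) ≤ 1 := by
      rw [map_mul]; exact mul_le_one' b1 b5
    rw [e']
    refine ⟨a1.2.1, by rwa [Valuation.map_neg], ?_⟩
    rw [ev_neg _ b7, ev_mul _ b1 b5, b6, b2, b4]
    have d1 := a4.differentiableAt.hasDerivAt
    have d2 := p2 (fun t => a + t) (fun t => y (a + t)) 1 _ t ((hasDerivAt_id t).const_add a) d1
    have d3 : HasDerivAt (fun s => evalEval (a + s) (y (a + s)) H) 0 t :=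
      (hasDerivAt_const t (0 : ℂ)).congr_of_eventuallyEq (a2.mono fun s hs => hs.2.2.2.2)
    have d4 := d2.unique d3
    refine HasDerivAt.congr_of_eventuallyEq ?_ (a2.mono fun s hs => hs.2.2.2.1)
    refine d1.congr_deriv ?_
    rw [← div_eq_mul_inv, ← neg_div, eq_div_iff a3]
    linear_combination d4
  refine ⟨Q, hQ0 0 rfl, k1.mono fun t ht => ht.2.2.1, hX, fun g hg => ?_⟩
  have hcx : aeval x (c g) ≠ 0 := fun h0 => hx ⟨c g, hc g, h0⟩
  have e : g = aevalAeval x θ (A g) * (aevalAeval x θ (C (c g)))⁻¹ := by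
    rw [aevalAeval_C, ← hA, mul_inv_cancel_right₀ hcx]
  rw [e]
  refine (hX.aevalAeval hT _).mul ((hX.aevalAeval hT _).inv ?_)
  rw [hQ0 0 rfl, aevalAeval_C, (ev_aeval Q₀ hQ₀ _).2]
  exact fun h0 => hB.2 ⟨g, hg, h0⟩

end fam

end Crest.Agent.T15.Aj
end
end

-- ▼ part T15/AjE_55
section

/-!
# Row 15 (helper55): correspondences act on the analytic Jacobian through their matrix on differentials

`end_abs` (abstract correspondence given by elements of a function field `L`), `end_gal`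
(`pushP ∘ e.pic ∘ conP` for a Galois cover), `end_aut` (isomorphisms).
-/

set_option autoImplicit false
set_option linter.all false

open Polynomial WithZero Filter Topology
open Crest.Agent.R013.RR7_948 Crest.Agent.R013.RR8_948 Crest.Agent.R013.RR9_948
open Crest.Agent.R013.RR11_948 Crest.Agent.R013.RR12_948 Crest.Agent.R013.PicD_398
open Crest.Agent.R013.RR18_948 Crest.Agent.R013.RR19_948 Crest.Agent.R013.RR21_948
open Crest.Agent.R013.RR22_948
open Crest.Agent.R013.GR2_921 Crest.Agent.R013.Frob1_914 Crest.Agent.T15.Disc Crest.Agent.T15.Hy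

noncomputable section

namespace Crest.Agent.T15.Aj

theorem exists_prim {E : Type*} [NormedAddCommGroup E] [NormedSpace ℂ E] [CompleteSpace E]
    {φ : ℂ → E} (h : AnalyticAt ℂ φ 0) :
    ∃ Φ : ℂ → E, Φ 0 = 0 ∧ ∀ᶠ t in 𝓝 (0 : ℂ), HasDerivAt Φ (φ t) t := by
  obtain ⟨r, hr, hb⟩ := Metric.eventually_nhds_iff_ball.1 h.eventually_analyticAt
  obtain ⟨Φ, h0, hΦ⟩ := (DifferentiableOn.isExactOn_ball (f := φ) (c := 0) (r := r)
    fun t ht => (hb t ht).differentiableAt.differentiableWithinAt).with_val_at 0 0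
  exact ⟨Φ, h0, by filter_upwards [Metric.ball_mem_nhds (0 : ℂ) hr] with t ht using hΦ t ht⟩

theorem strict_of_ev {E : Type*} [NormedAddCommGroup E] [NormedSpace ℂ E] [CompleteSpace E]
    {Φ φ : ℂ → E} (h : ∀ᶠ t in 𝓝 (0 : ℂ), HasDerivAt Φ (φ t) t) : HasStrictDerivAt Φ (φ 0) 0 := by
  obtain ⟨U, hU, hUo, h0⟩ := eventually_nhds_iff.1 h
  have : AnalyticAt ℂ Φ 0 := DifferentiableOn.analyticAt (s := U)
    (fun t ht => (hU t ht).differentiableAt.differentiableWithinAt) (hUo.mem_nhds h0)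
  exact (this.contDiffAt (n := 1)).hasStrictDerivAt' (hU 0 h0) one_ne_zero

theorem hom_eq_of_curves {g : ℕ} {A : Type*} [AddCommGroup A] (e e' : (Fin g → ℂ) →+ A)
    (Φ : Fin g → ℂ → Fin g → ℂ) (v : Fin g → Fin g → ℂ) (h0 : ∀ j, Φ j 0 = 0)
    (hd : ∀ j, HasStrictDerivAt (Φ j) (v j) 0) (hv : ∀ z, ∃ σ : Fin g → ℂ, ∑ j, σ j • v j = z)
    (he : ∀ j, ∀ᶠ t in 𝓝 (0 : ℂ), e (Φ j t) = e' (Φ j t)) : e = e' := by
  have h1 : HasStrictFDerivAt (fun σ : Fin g → ℂ => ∑ j, Φ j (σ j))
      (∑ j, (ContinuousLinearMap.toSpanSingleton ℂ (v j)).comp (ContinuousLinearMap.proj j)) 0 :=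
    HasStrictFDerivAt.fun_sum fun j _ =>
      (hd j).hasStrictFDerivAt.comp (0 : Fin g → ℂ) (hasStrictFDerivAt_apply j 0)
  have h2 := h1.map_nhds_eq_of_surj (by
    rw [LinearMap.range_eq_top]
    intro z
    obtain ⟨σ, hσ⟩ := hv z
    exact ⟨σ, by simpa [ContinuousLinearMap.toSpanSingleton_apply] using hσ⟩)
  simp only [Pi.zero_apply, h0, Finset.sum_const_zero] at h2
  apply Ax.hom_ext
  rw [← h2, eventually_map]
  filter_upwards [Ax.ev_pi he] with σ hσ
  rw [map_sum, map_sum]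
  exact Finset.sum_congr rfl fun j _ => hσ j

theorem vand_surj {g : ℕ} {a μ : Fin g → ℂ} (ha : Function.Injective a) (hμ : ∀ j, μ j ≠ 0)
    (z : Fin g → ℂ) : ∃ σ : Fin g → ℂ, ∑ j, σ j • (fun k : Fin g => a j ^ (k : ℕ) * μ j) = z := by
  have h1 : IsUnit (Matrix.vandermonde a).det :=
    (Matrix.det_vandermonde_ne_zero_iff.mpr ha).isUnit
  refine ⟨fun j => Matrix.vecMul z (Matrix.vandermonde a)⁻¹ j / μ j, ?_⟩
  have h2 : Matrix.vecMul (Matrix.vecMul z (Matrix.vandermonde a)⁻¹) (Matrix.vandermonde a) = z := by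
    rw [Matrix.vecMul_vecMul, Matrix.nonsing_inv_mul _ h1, Matrix.vecMul_one]
  ext k
  rw [← congrFun h2 k, Finset.sum_apply, Matrix.vecMul, dotProduct]
  refine Finset.sum_congr rfl fun j _ => ?_
  have := hμ j
  simp only [Pi.smul_apply, smul_eq_mul, Matrix.vandermonde_apply]
  field_simp

section fam

variable {L : Type*} [Field L] [Algebra ℂ L] [Algebra (RatFunc ℂ) L]
  [IsScalarTower ℂ (RatFunc ℂ) L] [FiniteDimensional (RatFunc ℂ) L]
  [Algebra.IsSeparable (RatFunc ℂ) L]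

theorem ev_pow' (Q : Pl ℂ L) {x : L} (hx : Q.v x ≤ 1) (n : ℕ) :
    Q.v (x ^ n) ≤ 1 ∧ ev Q (x ^ n) = ev Q x ^ n := by
  simpa using ev_aeval Q hx (X ^ n)

/-- the path formula along a family of places -/
theorem fam_germ {F : ℂ[X]} {g : ℕ} {A : Type*} [AddCommGroup A] {c : ℂ × ℂ → A}
    {ex : (Fin g → ℂ) →+ A} (hF : Squarefree F) (he : Ax.IsExp F g c ex) {Q : ℂ → Pl ℂ L}
    {D : Derivation ℂ L L} {x w : L} (hw : w ^ 2 = aeval x F) (hw0 : w ≠ 0)
    (ax : AnF Q D x) (aw : AnF Q D w) (aμ : AnF Q D (D x / w)) :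
    ∃ Φ : ℂ → Fin g → ℂ, Φ 0 = 0 ∧ ∀ᶠ t in 𝓝 (0 : ℂ),
      HasDerivAt Φ (fun k => ev (Q t) x ^ (k : ℕ) * ev (Q t) (D x / w)) t ∧
      c (ev (Q t) x, ev (Q t) w) = c (ev (Q 0) x, ev (Q 0) w) + ex (Φ t) := by
  set μ := D x / w with hμ
  have h1 : D x = μ * w := by rw [hμ, div_mul_cancel₀ _ hw0]
  have h2 : D w = μ * aeval x (derivative F * C 2⁻¹) := by
    have h3 := congrArg D hw
    rw [Derivation.leibniz_pow, Derivation.map_aeval, h1] at h3
    have h4 : (2 : L) * algebraMap ℂ L 2⁻¹ = 1 := by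
      rw [← map_ofNat (algebraMap ℂ L) 2, ← map_mul]; simp
    apply mul_left_cancel₀ hw0
    simp only [map_mul, aeval_C, smul_eq_mul, nsmul_eq_mul] at h3 ⊢
    push_cast at h3
    linear_combination algebraMap ℂ L 2⁻¹ * h3 - w * D w * h4
  obtain ⟨Φ, h0, hΦ⟩ := exists_prim (φ := fun t (k : Fin g) => ev (Q t) x ^ (k : ℕ) * ev (Q t) μ)
    (analyticAt_pi_iff.2 fun k => (ax.analyticAt.pow _).mul aμ.analyticAt)
  have h5 := he.germ (𝕜 := ℂ) hF (X := fun t => ev (Q t) x) (Y := fun t => ev (Q t) w)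
    (m := fun t => ev (Q t) μ) (z := Φ) (s₀ := 0) (by
      filter_upwards [ax, aw, aμ, hΦ] with t a b d e
      refine ⟨?_, ?_, ?_, fun k => hasDerivAt_pi.1 e k⟩
      · rw [← (ev_pow' _ b.1 2).2, hw, (ev_aeval _ a.1 F).2]
      · refine a.2.2.congr_deriv ?_
        rw [h1, ev_mul _ d.1 b.1]
      · refine b.2.2.congr_deriv ?_
        rw [h2, ev_mul _ d.1 (ev_aeval _ a.1 _).1, (ev_aeval _ a.1 _).2]
        simp [div_eq_mul_inv, mul_assoc])
  refine ⟨Φ, h0, ?_⟩
  filter_upwards [hΦ, h5] with t a b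
  rw [h0, sub_zero] at b
  exact ⟨a, b⟩

theorem exists_pl_at {x : L} (hx : Transcendental ℂ x) (a : ℂ) :
    ∃ Q : Pl ℂ L, Q.v x ≤ 1 ∧ ev Q x = a := by
  have hne : ∀ c : ℂ, x ≠ algebraMap ℂ L c := fun c hc => hx (hc ▸ isAlgebraic_algebraMap c)
  obtain ⟨P0, hP0⟩ := Hyp.exists_pole (k := ℂ) (f := x - algebraMap ℂ L a) fun c hc =>
    hne (a + c) (by rw [map_add]; linear_combination hc)
  obtain ⟨P, hP⟩ := exists_lt_of_exists_gt (sub_ne_zero.mpr (hne a)) hP0
  exact ⟨P, v_le_of_sub_lt P hP, ev_eq P hP⟩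

variable {F F' : ℂ[X]} {g g' : ℕ} {A A' : Type*} [AddCommGroup A] [AddCommGroup A']
  {c : ℂ × ℂ → A} {c' : ℂ × ℂ → A'} {ex : (Fin g → ℂ) →+ A} {ex' : (Fin g' → ℂ) →+ A'}

theorem end_aux (hF : Squarefree F) (hF' : Squarefree F') (he : Ax.IsExp F g c ex)
    (he' : Ax.IsExp F' g' c' ex') (T : A →+ A') (D : Derivation ℂ L L) {x w : L} (hD : D x = 1)
    (hw : w ^ 2 = aeval x F) (hw0 : w ≠ 0) {ι : Type*} [Fintype ι] (xi wi : ι → L)
    (hwi : ∀ i, wi i ^ 2 = aeval (xi i) F') (hwi0 : ∀ i, wi i ≠ 0) (a : A') (S : Finset (Pl ℂ L))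
    (hT : ∀ Q ∉ S, Q.v x ≤ 1 → Q.v w ≤ 1 → (∀ i, Q.v (xi i) ≤ 1 ∧ Q.v (wi i) ≤ 1) →
      T (c (ev Q x, ev Q w)) = ∑ i, c' (ev Q (xi i), ev Q (wi i)) + a)
    (M : Matrix (Fin g') (Fin g) ℂ)
    (hM : ∀ k : Fin g', ∑ i, xi i ^ (k : ℕ) * (D (xi i) / wi i) =
      ∑ m : Fin g, algebraMap ℂ L (M k m) * (x ^ (m : ℕ) * (D x / w))) (z : Fin g → ℂ) :
    T (ex z) = ex' (M.mulVec z) := by
  classical
  obtain ⟨B, hB⟩ := exists_fam D hD ({w, D x / w} ∪ (Finset.univ.image xi ∪ Finset.univ.image wi ∪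
    Finset.univ.image fun i => D (xi i) / wi i))
  obtain ⟨e⟩ : Nonempty (Fin g ↪ {y : ℂ // y ∉ B ∪ S.image fun Q => ev Q x}) := by
    have : Infinite {y : ℂ // y ∉ B ∪ S.image fun Q => ev Q x} :=
      (B ∪ S.image fun Q => ev Q x).finite_toSet.infinite_compl.to_subtype
    exact ⟨Fin.valEmbedding.trans (Infinite.natEmbedding _)⟩
  choose Q₀ h1 h2 using fun j => exists_pl_at (transcendental_of_D hD) (e j).1
  choose Q q0 q1 q2 q3 using fun j => hB (Q₀ j) (h1 j) (by
    rw [h2]; exact fun h => (e j).2 (Finset.mem_union_left _ h))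
  have aw : ∀ j, AnF (Q j) D w := fun j => q3 j _ (by simp)
  have aμ : ∀ j, AnF (Q j) D (D x / w) := fun j => q3 j _ (by simp)
  have axi : ∀ j i, AnF (Q j) D (xi i) := fun j i => q3 j _ (by simp)
  have awi : ∀ j i, AnF (Q j) D (wi i) := fun j i => q3 j _ (by simp)
  have aμi : ∀ j i, AnF (Q j) D (D (xi i) / wi i) := fun j i => q3 j _ (by
    simp only [Finset.mem_union, Finset.mem_image, Finset.mem_univ, true_and]
    exact Or.inr (Or.inr ⟨i, rfl⟩))
  choose Φ p0 p1 using fun j => fam_germ hF he hw hw0 (q2 j) (aw j) (aμ j)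
  choose Ψ r0 r1 using fun j i => fam_germ hF' he' (hwi i) (hwi0 i) (axi j i) (awi j i) (aμi j i)
  have key := hom_eq_of_curves (T.comp ex) (ex'.comp (Matrix.mulVecLin M).toAddMonoidHom) Φ
    (fun j k => (e j).1 ^ (k : ℕ) * ev (Q j 0) (D x / w)) p0
    (fun j => by
      have := strict_of_ev ((p1 j).mono fun t ht => ht.1)
      rwa [q0, h2, ← q0] at this)
    (vand_surj (fun i j hij => e.injective (Subtype.ext hij)) fun j h0 => by
      have h3 := ev_mul (Q j 0) (aμ j).reg.self_of_nhds (aw j).reg.self_of_nhds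
      rw [div_mul_cancel₀ _ hw0, h0, hD, ev_one] at h3
      simp at h3)
    (fun j => by
      have hS : ∀ᶠ t in 𝓝 (0 : ℂ), Q j t ∉ S := by
        have h3 : ∀ᶠ t in 𝓝 (0 : ℂ), ∀ P ∈ S, (e j).1 + t ≠ ev P x :=
          (Finset.eventually_all S).2 fun P hP =>
            (continuousAt_const.add continuousAt_id).eventually_ne (by
              show (e j).1 + 0 ≠ _
              rw [add_zero]
              intro h
              exact (e j).2 (Finset.mem_union_right _ (Finset.mem_image.2 ⟨P, hP, h.symm⟩)))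
        filter_upwards [h3, q1 j] with t a b h
        exact a _ h (by rw [b, h2])
      have hreg : ∀ᶠ t in 𝓝 (0 : ℂ), ∀ i, (Q j t).v (xi i) ≤ 1 ∧ (Q j t).v (wi i) ≤ 1 :=
        eventually_all.2 fun i => (axi j i).reg.and (awi j i).reg
      have hT' : ∀ᶠ t in 𝓝 (0 : ℂ), T (c (ev (Q j t) x, ev (Q j t) w)) =
          ∑ i, c' (ev (Q j t) (xi i), ev (Q j t) (wi i)) + a := by
        filter_upwards [hS, hreg, (q2 j).reg, (aw j).reg] with t a b d f using hT _ a d f b
      have hder : ∀ k, ∀ᶠ t in 𝓝 (0 : ℂ),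
          HasDerivAt (fun s => ∑ i, Ψ j i s k - ∑ m, M k m * Φ j s m) 0 t := by
        intro k
        filter_upwards [p1 j, eventually_all.2 (r1 j), hreg, (q2 j).reg, (aμ j).reg,
          eventually_all.2 fun i => (aμi j i).reg] with t a b d f u v
        refine ((HasDerivAt.fun_sum fun i _ => hasDerivAt_pi.1 (b i).1 k).fun_sub
          (HasDerivAt.fun_sum fun m _ => (hasDerivAt_pi.1 a.1 m).const_mul (M k m))).congr_deriv ?_
        have m1 : ∀ i, (Q j t).v (xi i ^ (k : ℕ) * (D (xi i) / wi i)) ≤ 1 := fun i => by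
          rw [map_mul]; exact mul_le_one' (ev_pow' _ (d i).1 _).1 (v i)
        have m2 : ∀ m : Fin g, (Q j t).v (x ^ (m : ℕ) * (D x / w)) ≤ 1 := fun m => by
          rw [map_mul]; exact mul_le_one' (ev_pow' _ f _).1 u
        have m3 := congrArg (ev (Q j t)) (hM k)
        rw [ev_sum _ _ _ fun i _ => m1 i, ev_sum _ _ _ fun m _ => by
          rw [map_mul]; exact mul_le_one' (v_const_le _ _) (m2 m)] at m3
        rw [sub_eq_zero]
        convert m3 using 2 with i _ m _
        · rw [ev_mul _ (ev_pow' _ (d i).1 _).1 (v i), (ev_pow' _ (d i).1 _).2]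
        · rw [ev_mul _ (v_const_le _ _) (m2 m), ev_const, ev_mul _ (ev_pow' _ f _).1 u,
            (ev_pow' _ f _).2]
      have hT0 := hT'.self_of_nhds
      filter_upwards [hT', p1 j, eventually_all.2 (r1 j),
        eventually_all.2 fun k => Ax.ev_const1 (𝕜 := ℂ) (hder k)] with t a b d f
      have m4 : (Matrix.mulVecLin M).toAddMonoidHom (Φ j t) = ∑ i, Ψ j i t := by
        ext k
        have := f k
        simp only [p0, r0, Pi.zero_apply, Finset.sum_const_zero, mul_zero, sub_zero] at this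
        rw [Finset.sum_apply, sub_eq_zero.1 this]
        rfl
      rw [b.2, map_add, hT0, Finset.sum_congr rfl fun i _ => (d i).2, Finset.sum_add_distrib,
        add_right_comm, add_left_inj, add_right_inj] at a
      rw [AddMonoidHom.comp_apply, AddMonoidHom.comp_apply, a, m4, map_sum])
  exact DFunLike.congr_fun key z

/-- **END**, abstract form: `D` any derivation with `D x ≠ 0` -/
theorem end_abs (hF : Squarefree F) (hF' : Squarefree F') (he : Ax.IsExp F g c ex)
    (he' : Ax.IsExp F' g' c' ex') (T : A →+ A') (D : Derivation ℂ L L) {x w : L} (hD : D x ≠ 0)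
    (hw : w ^ 2 = aeval x F) (hw0 : w ≠ 0) {ι : Type*} [Fintype ι] (xi wi : ι → L)
    (hwi : ∀ i, wi i ^ 2 = aeval (xi i) F') (hwi0 : ∀ i, wi i ≠ 0) (a : A') (S : Finset (Pl ℂ L))
    (hT : ∀ Q ∉ S, Q.v x ≤ 1 → Q.v w ≤ 1 → (∀ i, Q.v (xi i) ≤ 1 ∧ Q.v (wi i) ≤ 1) →
      T (c (ev Q x, ev Q w)) = ∑ i, c' (ev Q (xi i), ev Q (wi i)) + a)
    (M : Matrix (Fin g') (Fin g) ℂ)
    (hM : ∀ k : Fin g', ∑ i, xi i ^ (k : ℕ) * (D (xi i) / wi i) =
      ∑ m : Fin g, algebraMap ℂ L (M k m) * (x ^ (m : ℕ) * (D x / w))) (z : Fin g → ℂ) :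
    T (ex z) = ex' (M.mulVec z) := by
  refine end_aux hF hF' he he' T ((D x)⁻¹ • D) (by simp [hD]) hw hw0 xi wi hwi hwi0 a S hT M
    (fun k => ?_) z
  have := congrArg (fun y => (D x)⁻¹ * y) (hM k)
  simp only [Finset.mul_sum] at this
  convert this using 2 <;> simp only [Derivation.smul_apply, smul_eq_mul] <;> ring

end fam

section gal

variable {k : Type*} [Field k] [IsAlgClosed k] {K : Type*} [Field K] [Algebra k K]
  [Algebra (RatFunc k) K] [IsScalarTower k (RatFunc k) K] [FiniteDimensional (RatFunc k) K]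
  [Algebra.IsSeparable (RatFunc k) K]
  {L : Type*} [Field L] [Algebra k L] [Algebra K L] [IsScalarTower k K L]
  [FiniteDimensional K L]
  [Algebra (RatFunc k) L] [IsScalarTower k (RatFunc k) L] [FiniteDimensional (RatFunc k) L]
  [Algebra.IsSeparable (RatFunc k) L]

omit [Algebra (RatFunc k) L] [IsScalarTower k (RatFunc k) L] [FiniteDimensional (RatFunc k) L]
  [Algebra.IsSeparable (RatFunc k) L] in
theorem con_single_gal [IsGalois K L] (Q : Pl k L) :
    con L (Finsupp.single (under K Q) (1 : ℤ)) =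
      ∑ σ : L ≃ₐ[K] L, Finsupp.single ((Wp.siOf k σ⁻¹).pl Q) 1 := by
  classical
  letI : Algebra (RatFunc k) L := ((algebraMap K L).comp (algebraMap (RatFunc k) K)).toAlgebra
  haveI : IsScalarTower (RatFunc k) K L := IsScalarTower.of_algebraMap_eq fun _ => rfl
  haveI : IsScalarTower k (RatFunc k) L := IsScalarTower.of_algebraMap_eq fun c => by
    show algebraMap k L c = algebraMap K L (algebraMap (RatFunc k) K _)
    rw [← IsScalarTower.algebraMap_apply k (RatFunc k) K, ← IsScalarTower.algebraMap_apply k K L]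
  haveI : FiniteDimensional (RatFunc k) L := Module.Finite.trans K L
  haveI : Algebra.IsSeparable (RatFunc k) L := Algebra.IsSeparable.trans (RatFunc k) K L
  ext R
  have h1 := sum_galois (K := K) Q fun Q' => Finsupp.single Q' (1 : ℤ) R
  rw [degP_eq_one, degP_eq_one, ← Equiv.sum_comp (Equiv.inv (L ≃ₐ[K] L))] at h1
  rw [con_apply, Finset.sum_apply']
  have h2 : ∑ σ : L ≃ₐ[K] L, Finsupp.single ((Wp.siOf k σ⁻¹).pl Q) (1 : ℤ) R =
      ∑ σ : L ≃ₐ[K] L, Finsupp.single (mapPl ((Equiv.inv (L ≃ₐ[K] L) σ).restrictScalars k) Q)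
        (1 : ℤ) R := rfl
  rw [h2]
  simp only [Nat.cast_one, mul_one, one_mul] at h1
  rw [← h1]
  by_cases hR : under K R = under K Q
  · rw [hR, Finsupp.single_eq_same, Finset.sum_eq_single R, Finsupp.single_eq_same,
      eR_eq_of_under_eq hR]
    · intro b _ hb; exact Finsupp.single_eq_of_ne hb.symm
    · intro h; exact absurd (mem_above.2 hR) h
  · rw [Finsupp.single_eq_of_ne hR, Finset.sum_eq_zero, mul_zero, mul_zero]
    intro b hb
    refine Finsupp.single_eq_of_ne ?_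
    rintro rfl
    exact hR (mem_above.1 hb)

theorem cl_under [Algebra.IsSeparable K L] {F : k[X]} {x w : K} (h : Hyp F x w) {R : Pl k L} {a b : k}
    (ha : R.v (algebraMap K L x - algebraMap k L a) < 1)
    (hb : R.v (algebraMap K L w - algebraMap k L b) < 1) :
    cl x w (a, b) = cls (Finsupp.single (under K R) 1) := by
  have : At (under K R) x w a b := by
    constructor <;> rw [under_lt_one_iff, map_sub, ← IsScalarTower.algebraMap_apply] <;> assumption
  rw [cl, sp, h.pt_eq this]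

end gal

section

variable {K : Type*} [Field K] [Algebra ℂ K]
  [Algebra (RatFunc ℂ) K] [IsScalarTower ℂ (RatFunc ℂ) K] [FiniteDimensional (RatFunc ℂ) K]
  [Algebra.IsSeparable (RatFunc ℂ) K]
  {K' : Type*} [Field K'] [Algebra ℂ K']
  [Algebra (RatFunc ℂ) K'] [IsScalarTower ℂ (RatFunc ℂ) K'] [FiniteDimensional (RatFunc ℂ) K']
  [Algebra.IsSeparable (RatFunc ℂ) K']
  {F F' : ℂ[X]} {g g' : ℕ} {x w : K} {x' w' : K'}
  {ex : (Fin g → ℂ) →+ Pic ℂ K} {ex' : (Fin g' → ℂ) →+ Pic ℂ K'}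

theorem symm_const {L L' : Type*} [Field L] [Algebra ℂ L] [Field L'] [Algebra ℂ L']
    (e : SI ℂ L ℂ L') (hs : ∀ c, e.s c = c) (c : ℂ) :
    e.f.symm (algebraMap ℂ L' c) = algebraMap ℂ L c := by
  rw [RingEquiv.symm_apply_eq, e.comm, hs]

theorem symm_aeval {L L' : Type*} [Field L] [Algebra ℂ L] [Field L'] [Algebra ℂ L']
    (e : SI ℂ L ℂ L') (hs : ∀ c, e.s c = c) (y : L') (p : ℂ[X]) :
    e.f.symm (aeval y p) = aeval (e.f.symm y) p :=
  (aeval_algHom_apply (AlgHom.mk (e.f.symm : L' →+* L) (symm_const e hs)) y p).symm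


variable {L : Type*} [Field L] [Algebra ℂ L] [Algebra K L] [IsScalarTower ℂ K L]
  [FiniteDimensional K L] [IsGalois K L]
  [Algebra (RatFunc ℂ) L] [IsScalarTower ℂ (RatFunc ℂ) L] [FiniteDimensional (RatFunc ℂ) L]
  [Algebra.IsSeparable (RatFunc ℂ) L]
  {L' : Type*} [Field L'] [Algebra ℂ L'] [Algebra K' L'] [IsScalarTower ℂ K' L']
  [FiniteDimensional K' L'] [Algebra.IsSeparable K' L']
  [Algebra (RatFunc ℂ) L'] [IsScalarTower ℂ (RatFunc ℂ) L'] [FiniteDimensional (RatFunc ℂ) L']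
  [Algebra.IsSeparable (RatFunc ℂ) L']

/-- **END** for `pushP ∘ e.pic ∘ conP`, `L / K` Galois -/
theorem end_gal (h : Hyp F x w) (h' : Hyp F' x' w') (he : Ax.IsExp F g (cl x w) ex)
    (he' : Ax.IsExp F' g' (cl x' w') ex') (e : SI ℂ L ℂ L') (hs : ∀ c, e.s c = c)
    (D : Derivation ℂ L L) (hD : D (algebraMap K L x) ≠ 0) (M : Matrix (Fin g') (Fin g) ℂ)
    (hM : ∀ k : Fin g', ∑ σ : L ≃ₐ[K] L, σ (e.f.symm (algebraMap K' L' x')) ^ (k : ℕ) *
      (D (σ (e.f.symm (algebraMap K' L' x'))) / σ (e.f.symm (algebraMap K' L' w'))) =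
      ∑ m : Fin g, algebraMap ℂ L (M k m) *
        (algebraMap K L x ^ (m : ℕ) * (D (algebraMap K L x) / algebraMap K L w))) (z : Fin g → ℂ) :
    Wp.pushP K' (e.pic (Wp.conP L (ex z))) = ex' (M.mulVec z) := by
  refine end_abs (L := L) h.sep.squarefree h'.sep.squarefree he he'
    ((Wp.pushP K').comp (e.pic.toAddMonoidHom.comp (Wp.conP L))) D hD
    (by rw [← map_pow, h.sq, aeval_algebraMap_apply]) (by simpa using h.w_ne)
    (fun σ : L ≃ₐ[K] L => σ (e.f.symm (algebraMap K' L' x')))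
    (fun σ => σ (e.f.symm (algebraMap K' L' w'))) (fun σ => ?_)
    (fun _ => by simpa using h'.w_ne) 0 ∅ (fun Q _ h1 h2 h3 => ?_) M hM z
  · rw [← map_pow, ← map_pow, ← map_pow, h'.sq, ← aeval_algebraMap_apply, symm_aeval e hs]
    exact (aeval_algHom_apply (σ.restrictScalars ℂ) _ F').symm
  · rw [cl_under h (ev_spec Q h1) (ev_spec Q h2), add_zero]
    rw [AddMonoidHom.comp_apply, AddMonoidHom.comp_apply, AddEquiv.coe_toAddMonoidHom, Wp.conP_cls, con_single_gal, map_sum, map_sum, map_sum]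
    refine Finset.sum_congr rfl fun σ _ => ?_
    have h4 : ∀ (y : L') (c : ℂ), (e.pl ((Wp.siOf ℂ (σ⁻¹ : L ≃ₐ[K] L)).pl Q)).v (y - algebraMap ℂ L' c) =
        Q.v (σ (e.f.symm y) - algebraMap ℂ L c) := by
      intro y c
      rw [SI.pl_v, map_sub, symm_const e hs]
      change Q.v (σ (_ - _)) = _
      rw [map_sub]
      exact congrArg (fun u => Q.v (_ - u)) ((σ.restrictScalars ℂ).commutes c)
    rw [cl_under h' (R := e.pl ((Wp.siOf ℂ σ⁻¹).pl Q)) (by rw [h4]; exact ev_spec Q (h3 σ).1)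
      (by rw [h4]; exact ev_spec Q (h3 σ).2), SI.pic_cls, SI.D_single, Wp.pushP_cls, Wp.push_single]

end

end Crest.Agent.T15.Aj
end
end

-- ▼ part T15/AjG_55
section

/-!
# Row 15 (helper55): the quadratic cover `K / Y` of the model, the relation `g r⁻¹ = r` on `Y`
-/

set_option autoImplicit false
set_option linter.all false

open Polynomial
open Crest.Agent.R013.RR8_948 Crest.Agent.R013.RR13_948 Crest.Agent.R013.RR14_948 Crest.Agent.R013.RR20_948
open Crest.Agent.T15.Mo

noncomputable section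

namespace Crest.Agent.T15.Aj

/-- `d / dz` -/
theorem exists_D {k K : Type*} [Field k] [CharZero k] [Field K] [Algebra k K] [Algebra (RatFunc k) K]
    [IsScalarTower k (RatFunc k) K] [FiniteDimensional (RatFunc k) K] {z : K}
    (hz : Transcendental k z) : ∃ D : Derivation k K K, D z = 1 := by
  obtain ⟨D, hD, -⟩ := @exists_del k _ K _ _ (ratAlg z hz) (ratAlg_tower z hz)
    (ratAlg_isSeparable z hz)
  have h2 : @xK k _ K _ (ratAlg z hz) = z := ratAlg_xK z hz
  exact ⟨D, h2 ▸ hD⟩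

theorem algHom_ext_top {C Y K : Type*} [Field C] [Field Y] [Field K] [Algebra C Y] [Algebra C K]
    {s : Set Y} (hs : IntermediateField.adjoin C s = ⊤) {φ ψ : Y →ₐ[C] K}
    (h : ∀ y ∈ s, φ y = ψ y) (y : Y) : φ y = ψ y := by
  have hy : y ∈ IntermediateField.adjoin C s := hs ▸ IntermediateField.mem_top
  induction hy using IntermediateField.adjoin_induction with
  | mem x hx => exact h x hx
  | algebraMap c => rw [φ.commutes, ψ.commutes]
  | add a b _ _ ha hb => rw [map_add, map_add, ha, hb]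
  | inv a _ ha => rw [map_inv₀, map_inv₀, ha]
  | mul a b _ _ ha hb => rw [map_mul, map_mul, ha, hb]

/-- a quadratic extension `K = Y(B)` -/
theorem quad_gal {Y K : Type*} [Field Y] [Field K] [Algebra Y K] [FiniteDimensional Y K]
    [Algebra.IsSeparable Y K] {B : K} {B2 : Y} (hB : B ^ 2 = algebraMap Y K B2)
    (genK : IntermediateField.adjoin Y {B} = ⊤) (nB : B ∉ Set.range (algebraMap Y K)) :
    Module.finrank Y K = 2 ∧ IsGalois Y K ∧ ∃ g : K ≃ₐ[Y] K, g ≠ 1 ∧ g B = -B ∧
      (∀ σ : K ≃ₐ[Y] K, σ = 1 ∨ σ = g) ∧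
      ∀ {M : Type*} [AddCommMonoid M] (f : (K ≃ₐ[Y] K) → M), ∑ σ, f σ = f 1 + f g := by
  classical
  have hi : IsIntegral Y B := Algebra.IsIntegral.isIntegral B
  have h1 : Module.finrank Y K = (minpoly Y B).natDegree := by
    rw [← IntermediateField.adjoin.finrank hi, genK, IntermediateField.finrank_top']
  have h2 : 2 ≤ (minpoly Y B).natDegree := (minpoly.two_le_natDegree_iff hi).2 nB
  have h3 : (minpoly Y B).natDegree ≤ 2 := by
    have h4 := natDegree_le_of_dvd (minpoly.dvd Y B (p := X ^ 2 - C B2) (by simp [hB]))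
      (X_pow_sub_C_ne_zero two_pos B2)
    rwa [natDegree_X_pow_sub_C] at h4
  have h5 : Module.finrank Y K = 2 := by omega
  haveI : Algebra.IsQuadraticExtension Y K := { finrank_eq_two' := h5 }
  have hG : IsGalois Y K := inferInstance
  have h6 : (Finset.univ : Finset (K ≃ₐ[Y] K)).card = 2 := by
    rw [Finset.card_univ, ← Nat.card_eq_fintype_card, IsGalois.card_aut_eq_finrank, h5]
  obtain ⟨g, hg⟩ : ∃ g : K ≃ₐ[Y] K, g ≠ 1 :=
    Fintype.exists_ne_of_one_lt_card (by rw [← Finset.card_univ, h6]; norm_num) 1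
  have h7 : (Finset.univ : Finset (K ≃ₐ[Y] K)) = {1, g} :=
    (Finset.eq_of_subset_of_card_le (Finset.subset_univ _)
      (by rw [h6, Finset.card_pair hg.symm])).symm
  refine ⟨h5, hG, g, hg, ?_, fun σ => by
      have := Finset.mem_univ σ
      rwa [h7, Finset.mem_insert, Finset.mem_singleton] at this,
    fun f => by rw [h7, Finset.sum_pair hg.symm]⟩
  have h8 : g B ^ 2 = B ^ 2 := by rw [← map_pow, hB, AlgEquiv.commutes]
  refine (sq_eq_sq_iff_eq_or_eq_neg.1 h8).resolve_left fun h9 => hg (AlgEquiv.ext fun y => ?_)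
  exact algHom_ext_top genK (φ := (g : K →ₐ[Y] K)) (ψ := AlgHom.id Y K)
    (fun y hy => by rw [Set.mem_singleton_iff.1 hy]; exact h9) y

section formulas

variable {R R' : Type*} [Field R] [Field R']

/-- the second root of the cubic (same text as `Ht.xu`) -/
def xv (P : Par R) (A B u : R) : R :=
  (-2 * (P.p1 * P.p2 + P.p1 * P.p3 + P.p2 * P.p3) - u +
    (P.p1 * P.d1) * (P.p2 * P.d2) * (P.p3 * P.d3) * u * P.V' A (B ^ 2) u * P.R' A (B ^ 2) u *
      (A * B / (P.t * P.d1) / (u + P.p2 * P.p3))) / 2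

/-- the cubic -/
def Cub (P : Par R) (A B2 u : R) : Prop :=
  u ^ 3 + 2 * (P.p1 * P.p2 + P.p1 * P.p3 + P.p2 * P.p3) * u ^ 2 - P.Xc A B2 * u -
    2 * (P.p1 * P.p2 * P.p3) ^ 2 = 0

theorem map_xv (f : R →+* R') (P : Par R) (A B u : R) :
    f (xv P A B u) = xv (P.map f) (f A) (f B) (f u) := by
  simp [xv, map_V', map_R', map_ofNat]

theorem Cub.map (f : R →+* R') {P : Par R} {A B2 u : R} (h : Cub P A B2 u) :
    Cub (P.map f) (f A) (f B2) (f u) := by
  have := congrArg f h
  simpa [Cub, Par.Xc, map_V, map_ofNat] using this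

theorem xv_add (P : Par R) (two : (2 : R) ≠ 0) (A B u : R) :
    xv P A B u + xv P A (-B) u = -2 * (P.p1 * P.p2 + P.p1 * P.p3 + P.p2 * P.p3) - u := by
  unfold xv
  rw [neg_sq]
  field_simp
  ring

/-- `r` permutes the roots of the cubic cyclically -/
theorem xv_cyc (P : Par R) (two : (2 : R) ≠ 0) {A B u u1 : R} (h : Cub P A (B ^ 2) u)
    (h1 : Cub P (-B) (A ^ 2) u1) (e : u1 = xv P A B u) (hne : u ≠ u1)
    (n1 : u + P.p2 * P.p3 ≠ 0) (n2 : u + P.p1 * P.p3 ≠ 0) (n3 : u + P.p1 * P.p2 ≠ 0)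
    (m1 : u1 + P.p2 * P.p3 ≠ 0) (m2 : u1 + P.p1 * P.p3 ≠ 0) (m3 : u1 + P.p1 * P.p2 ≠ 0) :
    xv P (-B) A u1 = xv P A (-B) u := by
  have hV : P.V (-B) (A ^ 2) = P.V A (B ^ 2) := by unfold Par.V; ring
  have hR : P.R (-B) (A ^ 2) = -P.R A (B ^ 2) := by unfold Par.R; ring
  have hs := xv_add P two A B u
  rw [← e] at hs
  set u2 := xv P A (-B) u with hu2
  unfold Cub Par.Xc at h h1
  rw [hV] at h1
  unfold xv Par.V' Par.R' at e ⊢
  rw [hV, hR]
  generalize P.V A (B ^ 2) = V at *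
  generalize P.R A (B ^ 2) = R at *
  have hS : -B * A / (P.t * P.d1) = -(A * B / (P.t * P.d1)) := by ring
  rw [hS]
  generalize A * B / (P.t * P.d1) = S at *
  set W := P.p1 * P.d1 * (P.p2 * P.d2) * (P.p3 * P.d3) * V * R * S with hW
  generalize P.p1 * P.p2 * (4 * P.p3 ^ 2 - P.p1 * P.p2) + P.p1 * P.d1 * (P.p2 * P.d2) * V ^ 2 = X0
    at *
  have hsum := P.sum
  set q := P.p1 * P.p2 + P.p1 * P.p3 + P.p2 * P.p3 with hq
  set π := (P.p1 * P.p2 * P.p3) ^ 2 with hπ
  have hN : ∀ T, (T + P.p1 * P.p2) * (T + P.p1 * P.p3) * (T + P.p2 * P.p3) = T ^ 3 + q * T ^ 2 + π := by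
    intro T
    rw [hq, hπ]
    linear_combination (P.p1 * P.p2 * P.p3 * T) * hsum
  have e1 : (u1 - u2) * (u ^ 3 + q * u ^ 2 + π) = W * u := by
    have : u1 - u2 = 2 * u1 + 2 * q + u := by linear_combination -hs
    rw [this, ← hN, e, hW]
    field_simp
    ring
  have e2 : u ^ 2 + u * u1 + u1 ^ 2 + 2 * q * (u + u1) - X0 = 0 := by
    apply mul_left_cancel₀ (sub_ne_zero.2 hne)
    linear_combination h - h1
  have e3 : 2 * π = u * u1 * u2 := by
    linear_combination -h + u * e2 - u * u1 * hs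
  have u0 : u ≠ 0 := by
    rintro rfl
    exact mul_ne_zero two (pow_ne_zero 2 (mul_ne_zero (mul_ne_zero P.h1 P.h2) P.h3))
      (by rw [← hπ, e3]; ring)
  have e4 : 2 * W = (u1 - u2) * (u - u1) * (u - u2) := by
    apply mul_left_cancel₀ u0
    linear_combination -2 * e1 + (u1 - u2) * e3 + (u1 - u2) * u ^ 2 * hs
  have e5 : 2 * (W * u1) = 2 * ((u2 - u) * (u1 ^ 3 + q * u1 ^ 2 + π)) := by
    linear_combination u1 * e4 - (u2 - u) * e3 - (u2 - u) * u1 ^ 2 * hs
  have e6 := mul_left_cancel₀ two e5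
  rw [← hN] at e6
  have e7 : P.p1 * P.d1 * (P.p2 * P.d2) * (P.p3 * P.d3) * u1 * (V / (u1 + P.p1 * P.p2)) *
      (-R / (u1 + P.p1 * P.p3)) * (-S / (u1 + P.p2 * P.p3)) = u2 - u := by
    field_simp
    linear_combination e6
  rw [e7, div_eq_iff two]
  linear_combination -hs

end formulas

section model

variable {C Y K : Type*} [Field C] [CharZero C] [Field Y] [Field K] [Algebra C Y] [Algebra C K]
  [Algebra Y K] [IsScalarTower C Y K]

omit [CharZero C] in
theorem par_fix (P : Par C) (f : K →+* K) (hf : ∀ c, f (algebraMap C K c) = algebraMap C K c) :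
    (P.map (algebraMap C K)).map f = P.map (algebraMap C K) := by
  unfold Par.map; congr 1 <;> exact hf _

omit [CharZero C] in
theorem par_up (P : Par C) :
    (P.map (algebraMap C Y)).map (algebraMap Y K) = P.map (algebraMap C K) := by
  unfold Par.map; congr 1 <;> exact (IsScalarTower.algebraMap_apply C Y K _).symm

variable {P : Par C} {A B2 u : Y} {B : K} (eqs : Eqs (P.map (algebraMap C Y)) A B2 u)
  (tr : Transcendental C u) (hB : B ^ 2 = algebraMap Y K B2) (r : K ≃ₐ[C] K)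
  (rA : r (algebraMap Y K A) = -B) (rB : r B = algebraMap Y K A)
  (ru : r (algebraMap Y K u) = xv (P.map (algebraMap C K)) (algebraMap Y K A) B (algebraMap Y K u))
  (g : K ≃ₐ[Y] K) (hg : g B = -B)
include eqs tr hB rA rB ru hg

theorem g_rsymm_u : g (r.symm (algebraMap Y K u)) = r (algebraMap Y K u) := by
  by_cases hne : algebraMap Y K u = r (algebraMap Y K u)
  · have : r.symm (algebraMap Y K u) = algebraMap Y K u := by
      rw [AlgEquiv.symm_apply_eq]; exact hne
    rw [this, AlgEquiv.commutes, ← hne]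
  have two : (2 : K) ≠ 0 := by
    rw [← map_ofNat (algebraMap C K) 2]; simp
  have hn : ∀ c : C, algebraMap Y K u + algebraMap C K c ≠ 0 := by
    intro c hc
    rw [IsScalarTower.algebraMap_apply C Y K, ← map_add, map_eq_zero, add_eq_zero_iff_eq_neg,
      ← map_neg] at hc
    exact tr (hc ▸ isAlgebraic_algebraMap _)
  have hm : ∀ c : C, r (algebraMap Y K u) + algebraMap C K c ≠ 0 := by
    intro c hc
    rw [← r.commutes, ← map_add, map_eq_zero] at hc
    exact hn c hc
  have hr := par_fix P (r : K →+* K) r.commutes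
  have hg' := par_fix P (g : K →+* K) (g.restrictScalars C).commutes
  have c0 : Cub (P.map (algebraMap C K)) (algebraMap Y K A) (B ^ 2) (algebraMap Y K u) := by
    have := Cub.map (algebraMap Y K) (show Cub _ A B2 u from eqs.cub)
    rwa [par_up, ← hB] at this
  have c1 : Cub (P.map (algebraMap C K)) (-B) (algebraMap Y K A ^ 2) (r (algebraMap Y K u)) := by
    have := c0.map (r : K →+* K)
    rw [hr] at this
    simpa only [RingHom.coe_coe, map_pow, rA, rB] using this
  have k1 := xv_cyc _ two c0 c1 ru hne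
    (by simpa using hn (P.p2 * P.p3)) (by simpa using hn (P.p1 * P.p3))
    (by simpa using hn (P.p1 * P.p2)) (by simpa using hm (P.p2 * P.p3))
    (by simpa using hm (P.p1 * P.p3)) (by simpa using hm (P.p1 * P.p2))
  have k2 := xv_add (P.map (algebraMap C K)) two (algebraMap Y K A) B (algebraMap Y K u)
  set u2 := xv (P.map (algebraMap C K)) (algebraMap Y K A) (-B) (algebraMap Y K u) with hu2
  have k3 : r (r (algebraMap Y K u)) = u2 := by
    rw [← k1]
    conv_lhs => rw [ru]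
    have := map_xv (r : K →+* K) (P.map (algebraMap C K)) (algebraMap Y K A) B (algebraMap Y K u)
    rw [hr] at this
    simpa only [RingHom.coe_coe, rA, rB] using this
  have k4 : r u2 = algebraMap Y K u := by
    rw [← ru] at k2
    have := congrArg r k2
    simp only [map_add, map_sub, map_mul, map_neg, map_ofNat, Par.map_p1, Par.map_p2, Par.map_p3,
      AlgEquiv.commutes, k3] at this k2
    linear_combination this - k2
  have k5 : g u2 = r (algebraMap Y K u) := by
    have := map_xv (g : K →+* K) (P.map (algebraMap C K)) (algebraMap Y K A) (-B) (algebraMap Y K u)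
    rw [hg'] at this
    rw [ru]
    simpa only [RingHom.coe_coe, AlgEquiv.commutes, map_neg, hg, neg_neg] using this
  rw [← k5, ← k4, AlgEquiv.symm_apply_apply]

/-- `g r⁻¹ = r` on `Y` -/
theorem g_rsymm (gen : IntermediateField.adjoin C {A, B2, u} = ⊤) (y : Y) :
    g (r.symm (algebraMap Y K y)) = r (algebraMap Y K y) := by
  refine algHom_ext_top gen
    (φ := ((g.restrictScalars C : K →ₐ[C] K).comp (r.symm : K →ₐ[C] K)).comp
      (IsScalarTower.toAlgHom C Y K))
    (ψ := (r : K →ₐ[C] K).comp (IsScalarTower.toAlgHom C Y K)) (fun y hy => ?_) y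
  change g (r.symm (algebraMap Y K y)) = r (algebraMap Y K y)
  have hA : r.symm (algebraMap Y K A) = B := by rw [← rB, AlgEquiv.symm_apply_apply]
  have hB' : r.symm B = -algebraMap Y K A := by
    rw [AlgEquiv.symm_apply_eq, map_neg, rA, neg_neg]
  rcases hy with rfl | rfl | rfl
  · rw [hA, hg, rA]
  · rw [← hB, map_pow, map_pow, map_pow, hB', rB, map_neg, AlgEquiv.commutes, neg_sq]
  · exact g_rsymm_u eqs tr hB r rA rB ru g hg

end model

end Crest.Agent.T15.Aj
end
end

-- ▼ part T15/End_55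
section

/-!
# Row 15 (helper55): leaf END of block Ht, and the quadratic cover of a model
-/

set_option autoImplicit false
set_option linter.all false

noncomputable section

namespace Crest.Agent.T15.Ht

open Polynomial Matrix
open Crest.Agent.T15.Mo (Par Eqs)

namespace Mdl

variable {C : Type} [Field C] [CharZero C] {P : Par C} (M : Mdl P)


theorem isGalois : IsGalois M.Y M.K := (Aj.quad_gal.{0, 0, 0} M.hB M.genK M.nB).2.1

/-- the covering involution, and `g r⁻¹ = r` on `Y` -/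
theorem exists_g : ∃ g : M.K ≃ₐ[M.Y] M.K, g ≠ 1 ∧ g M.B = -M.B ∧ (∀ σ, σ = 1 ∨ σ = g) ∧
    (∀ {A : Type} [AddCommMonoid A] (f : (M.K ≃ₐ[M.Y] M.K) → A), ∑ σ, f σ = f 1 + f g) ∧
    ∀ y : M.Y, g (M.r.symm (algebraMap M.Y M.K y)) = M.r (algebraMap M.Y M.K y) := by
  obtain ⟨-, -, g, h1, h2, h3, h4⟩ := Aj.quad_gal.{0, 0, 0} M.hB M.genK M.nB
  exact ⟨g, h1, h2, h3, h4, Aj.g_rsymm M.eqs M.tr M.hB M.r M.rA M.rB M.ru g h2 M.gen⟩

end Mdl

theorem endStmt : EndStmt := by
  intro P M N cl ex h hN hcl he v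
  obtain rfl : cl = Aj.cl M.z M.w := funext fun p => hcl p.1 p.2
  haveI := M.isGalois
  obtain ⟨g, -, -, -, h4, h5⟩ := M.exists_g
  have hz : Transcendental ℂ (algebraMap M.Y M.K M.z) :=
    (transcendental_algebraMap_iff (algebraMap M.Y M.K).injective).2
      (transcendental_iff.2 h.tr)
  obtain ⟨D, hD⟩ := Aj.exists_D hz
  refine Aj.end_gal h h he he M.rS (fun _ => rfl) D (by rw [hD]; exact one_ne_zero) N
    (fun k => ?_) v
  rw [h4]
  change M.r.symm _ ^ _ * (D (M.r.symm _) / M.r.symm _) +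
    g (M.r.symm _) ^ _ * (D (g (M.r.symm _)) / g (M.r.symm _)) = _
  rw [h5, h5, add_comm]
  simpa only [mul_div_assoc] using hN D k

end Crest.Agent.T15.Ht
end
end

-- ▼ part T15/Abel_82
section

/-!
# Row 15, block Ht (helper82): Abel's differential theorem (`AbelStmt`) and linearity (`LinStmt`)
-/

set_option autoImplicit false
set_option linter.all false

noncomputable section

namespace Crest.Agent.T15.Hon

open WithZero TensorProduct
open Crest.Agent.R013.RR7_948 Crest.Agent.R013.RR8_948 Crest.Agent.R013.RR9_948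
open Crest.Agent.R013.RR11_948 Crest.Agent.R013.RR12_948
open Crest.Agent.R013.RR14_948 Crest.Agent.R013.RR17_948 Crest.Agent.R013.RR26_948
open Crest.Agent.R013.RR29_948
open Crest.Agent.T15.Disc
open Crest.Agent.R013.CE2_280 Crest.Agent.R013.CE3_280 Crest.Agent.R013.CE5_280
open Crest.Agent.R013.CE7_280

section chain

variable {C K M : Type*} [Field C] [Field K] [Algebra C K] [Algebra (RatFunc C) K]
  [IsScalarTower C (RatFunc C) K] [Algebra.IsSeparable (RatFunc C) K] [Field M] [Algebra C M]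

/-- the chain rule for a derivation along an embedding -/
theorem chain_82 (φ : K →ₐ[C] M) (δ : Derivation C M M) (y : K) :
    δ (φ y) = φ (del C K y) * δ (φ (xK C K)) := by
  letI : Algebra K M := φ.toRingHom.toAlgebra
  haveI : IsScalarTower C K M := IsScalarTower.of_algebraMap_eq fun c => (φ.commutes c).symm
  have h1 := congrArg (δ.compAlgebraMap K).liftKaehlerDifferential (D_eq C K y)
  rw [map_smul, Derivation.liftKaehlerDifferential_comp_D,
    Derivation.liftKaehlerDifferential_comp_D, Algebra.smul_def] at h1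
  exact h1

end chain

section main

variable {C K Ω L : Type*} [Field C] [IsAlgClosed C] [Field K] [Algebra C K]
  [Algebra (RatFunc C) K] [IsScalarTower C (RatFunc C) K] [FiniteDimensional (RatFunc C) K]
  [Algebra.IsSeparable (RatFunc C) K] [Field Ω] [Algebra C Ω] [IsAlgClosed Ω]
  [Field L] [Algebra Ω L] [Algebra C L] [IsScalarTower C Ω L]
  [Algebra (RatFunc Ω) L] [IsScalarTower Ω (RatFunc Ω) L] [FiniteDimensional (RatFunc Ω) L]
  [Algebra.IsSeparable (RatFunc Ω) L] {ι : K →ₐ[C] L}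

/-- values at a constant place are constants -/
theorem ev_conP (hι : IsCE Ω ι) (P : Pl C K) (y : K) :
    ev (conP hι P) (ι y) = algebraMap C Ω (ev P y) := by
  have hO := conP_Over hι P
  by_cases hy : P.v y ≤ 1
  · apply ev_eq
    have h1 := hO.2 _ (ev_spec P hy)
    rwa [map_sub, AlgHom.commutes, IsScalarTower.algebraMap_apply C Ω L] at h1
  · have h2 : ¬ (conP hι P).v (ι y) ≤ 1 := by rwa [hO.v_iota hι]
    unfold Disc.ev
    rw [dif_neg h2, dif_neg hy, map_zero]

/-- values at a generic point -/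
theorem ev_plQ (hι : IsCE Ω ι) (Q : K →ₐ[C] Ω) (y : K) : ev (plQ hι Q) (ι y) = Q y :=
  ev_eq _ (plQ_At hι Q y)

theorem lam_conP (hι : IsCE Ω ι) (d : Derivation C Ω Ω) (h y : K) (P : Pl C K) (n : ℤ) :
    lam d (ι h) (ι y) (Finsupp.single (conP hι P) n) = 0 := by
  rw [lam_single, ev_conP hι P y, Derivation.map_algebraMap, mul_zero, mul_zero]

theorem lam_plQ (hι : IsCE Ω ι) (d : Derivation C Ω Ω) (h y : K) (Q : K →ₐ[C] Ω) (n : ℤ) :
    lam d (ι h) (ι y) (Finsupp.single (plQ hι Q) n) =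
      n * (Q (h * del C K y) * d (Q (xK C K))) := by
  rw [lam_single, ev_plQ, ev_plQ, chain_82 Q d y, map_mul]
  ring



theorem del_iota (hx : xK Ω L = ι (xK C K)) (y : K) : del Ω L (ι y) = ι (del C K y) := by
  have h1 := chain_82 ι ((del Ω L).restrictScalars C) y
  rw [Derivation.restrictScalars_apply, Derivation.restrictScalars_apply, ← hx, del_xK,
    mul_one] at h1
  exact h1

variable [CharZero C]

theorem canD_conP (hι : IsCE Ω ι) (hx : xK Ω L = ι (xK C K)) (P : Pl C K) :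
    canD Ω L (conP hι P) = canD C K P := by
  haveI : CharZero Ω := charZero_of_injective_algebraMap (algebraMap C Ω).injective
  obtain ⟨t, _, ht⟩ := exists_v_eq P (-1)
  have hO := conP_Over hι P
  have h1 := v_del_eq P ht
  have h2 := v_del_eq (conP hι P) (t := ι t) (by rw [hO.v_iota hι, ht])
  rw [del_iota hx, hO.v_iota hι, h1, exp_inj] at h2
  exact h2.symm

omit [CharZero C] in
theorem del_pi (hx : xK Ω L = ι (xK C K)) (a : Ω) : del Ω L (mu ι (piT C K a)) = 1 := by
  rw [piT, map_sub, mu_tmul, mu_tmul, map_one, map_one, one_mul, mul_one, map_sub, ← hx, del_xK,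
    Derivation.map_algebraMap, sub_zero]

theorem canD_plQ (hι : IsCE Ω ι) (hx : xK Ω L = ι (xK C K)) (Q : K →ₐ[C] Ω) :
    canD Ω L (plQ hι Q) = 0 := by
  haveI : CharZero Ω := charZero_of_injective_algebraMap (algebraMap C Ω).injective
  have h2 := v_del_eq (plQ hι Q) ((plQ_At hι Q).v_pi hι)
  rw [del_pi hx, map_one, ← exp_zero, exp_inj] at h2
  exact h2.symm

/-- **Abel's differential theorem** -/
theorem lam_divf (hι : IsCE Ω ι) (hx : xK Ω L = ι (xK C K)) (d : Derivation C Ω Ω) (h y : K)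
    (hg : h * del C K y ∈ LD (canD C K)) {f : L} (hf : f ≠ 0) :
    lam d (ι h) (ι y) (divf f) = 0 := by
  classical
  haveI : CharZero Ω := charZero_of_injective_algebraMap (algebraMap C Ω).injective
  obtain ⟨D, hD⟩ := exists_ext hι d
  set g := h * del C K y with hgdef
  rw [mem_LD] at hg
  have hcon : ∀ P : Pl C K, (conP hι P).v (ι g * (D f / f)) ≤ exp (canD Ω L (conP hι P)) := by
    intro P
    have hO := conP_Over hι P
    rw [map_mul, canD_conP hι hx, hO.v_iota hι]
    calc _ ≤ exp (canD C K P) * 1 := mul_le_mul' (hg P) (dlog_Over hι hD hO hf)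
      _ = _ := mul_one _
  have hgQ : ∀ Q : K →ₐ[C] Ω, (plQ hι Q).v (ι g) ≤ 1 := fun Q =>
    v_le_of_sub_lt _ (plQ_At hι Q g)
  have hsum := sum_res (k := Ω) (ι g * (D f / f)) (divf (k := Ω) f).support (by
    intro w hw
    rcases cases hι w with ⟨P, rfl⟩ | ⟨Q, rfl⟩
    · exact hcon P
    · rw [Finsupp.notMem_support_iff] at hw
      have h1 : (plQ hι Q).v f = 1 := by rw [v_eq (k := Ω) hf, hw, neg_zero, exp_zero]
      rw [map_mul, canD_plQ hι hx, exp_zero]
      exact mul_le_one' (hgQ Q) (dlog_At_le_one hι hD (plQ_At hι Q) hf (Or.inl h1)))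
  have hterm : ∀ w : Pl Ω L, res w (ι g * (D f / f)) =
      -lam d (ι h) (ι y) (Finsupp.single w (divf (k := Ω) f w)) := by
    intro w
    rcases cases hι w with ⟨P, rfl⟩ | ⟨Q, rfl⟩
    · rw [res_of_le (hcon P), lam_conP, neg_zero]
    · have hA := plQ_At hι Q
      set n := divf (k := Ω) f (plQ hι Q) with hn
      set π := mu ι (piT C K (Q (xK C K))) with hπ
      have h1 := dlog_At hι hD hA hf (k := n) (v_eq (k := Ω) hf _)
      have h2 : res (plQ hι Q) (ι g * (D f / f)) =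
          res (plQ hι Q) ((-(n * d (Q (xK C K))) : Ω) • (ι g * (del Ω L π / π))) := by
        apply res_congr
        have h3 : ι g * (D f / f) - (-(n * d (Q (xK C K))) : Ω) • (ι g * (del Ω L π / π)) =
            ι g * (D f / f - n * (D π / π)) := by
          rw [hπ, hD.pi, del_pi hx, Algebra.smul_def, map_neg, map_mul (algebraMap Ω L),
            map_intCast]
          ring
        rw [h3, map_mul, canD_plQ hι hx, exp_zero]
        exact mul_le_one' (hgQ Q) h1
      rw [h2, map_smul, res_mul_dlog (plQ hι Q) (hA g) (n := 1) (hA.v_pi hι), lam_plQ, smul_eq_mul]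
      push_cast
      ring
  have h4 : lam d (ι h) (ι y) (divf f) =
      ∑ w ∈ (divf (k := Ω) f).support, lam d (ι h) (ι y) (Finsupp.single w (divf (k := Ω) f w)) := by
    conv_lhs => rw [← Finsupp.sum_single (divf (k := Ω) f), Finsupp.sum, map_sum]
  rw [h4, ← neg_eq_zero, ← Finset.sum_neg_distrib, ← hsum]
  exact Finset.sum_congr rfl fun w _ => (hterm w).symm

end main



end Crest.Agent.T15.Hon
end
end

-- ▼ part T15/AbelB_82

/-!
# Row 15, block Ht (helper82): functoriality of `lam` (semilinear isomorphisms, norm, conorm, END)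
-/

set_option autoImplicit false
set_option linter.all false

noncomputable section

namespace Crest.Agent.T15.Hon

open WithZero TensorProduct Module
open Crest.Agent.R013.RR7_948 Crest.Agent.R013.RR8_948 Crest.Agent.R013.RR9_948
open Crest.Agent.R013.RR11_948 Crest.Agent.R013.RR12_948 Crest.Agent.R013.PicD_398
open Crest.Agent.R013.RR14_948 Crest.Agent.R013.RR18_948 Crest.Agent.R013.RR19_948
open Crest.Agent.T15.Disc Crest.Agent.R013.Frob1_914
open Crest.Agent.R013.CE2_280 Crest.Agent.R013.CE3_280 Crest.Agent.R013.CE5_280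

section chain

variable {C K M : Type*} [Field C] [Field K] [Algebra C K] [Algebra (RatFunc C) K]
  [IsScalarTower C (RatFunc C) K] [Algebra.IsSeparable (RatFunc C) K] [Field M] [Algebra C M]

/-- the chain rule for any derivation `D` normalised by `D x = 1` -/
theorem chain_D (D : Derivation C K K) {x : K} (hD : D x = 1) (φ : K →ₐ[C] M)
    (δ : Derivation C M M) (y : K) : δ (φ y) = φ (D y) * δ (φ x) := by
  have h1 := chain_82 (AlgHom.id C K) D y
  have h2 := chain_82 (AlgHom.id C K) D x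
  simp only [AlgHom.id_apply] at h1 h2
  rw [hD] at h2
  have h3 := congrArg φ h2
  rw [map_one, map_mul] at h3
  rw [chain_82 φ δ y, chain_82 φ δ x, h1, map_mul]
  linear_combination (φ (del C K y) * δ (φ (xK C K))) * h3

end chain

section si

variable {Ω L Ω' L' : Type*} [Field Ω] [IsAlgClosed Ω] [Field L] [Algebra Ω L]
  [Algebra (RatFunc Ω) L] [IsScalarTower Ω (RatFunc Ω) L] [FiniteDimensional (RatFunc Ω) L]
  [Algebra.IsSeparable (RatFunc Ω) L] [Field Ω'] [IsAlgClosed Ω'] [Field L'] [Algebra Ω' L']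
  [Algebra (RatFunc Ω') L'] [IsScalarTower Ω' (RatFunc Ω') L'] [FiniteDimensional (RatFunc Ω') L']
  [Algebra.IsSeparable (RatFunc Ω') L']

theorem ev_SI (e : SI Ω L Ω' L') (P : Pl Ω L) (u : L) : ev (e.pl P) (e.f u) = e.s (ev P u) := by
  by_cases hu : P.v u ≤ 1
  · apply ev_eq
    rw [← e.comm, ← map_sub, SI.pl_v_apply]
    exact ev_spec P hu
  · have h2 : ¬ (e.pl P).v (e.f u) ≤ 1 := by rwa [SI.pl_v_apply]
    unfold Disc.ev
    rw [dif_neg h2, dif_neg hu, map_zero]

/-- `lam` and semilinear isomorphisms -/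
theorem lam_SI (e : SI Ω L Ω' L') (d : Ω → Ω) (d' : Ω' → Ω') (c : Ω')
    (hd : ∀ a, d' (e.s a) = c * e.s (d a)) (h y : L) (D : Pl Ω L →₀ ℤ) :
    lam d' (e.f h) (e.f y) (e.D D) = c * e.s (lam d h y D) := by
  induction D using Finsupp.induction_linear with
  | zero => simp
  | add a b ha hb => simp only [map_add, ha, hb, mul_add]
  | single P n =>
    rw [SI.D_single, lam_single, lam_single, ev_SI, ev_SI, hd, map_mul, map_mul, map_intCast]
    ring

end si

section push

variable {Ω L L7 : Type*} [Field Ω] [IsAlgClosed Ω] [Field L] [Algebra Ω L]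
  [Algebra (RatFunc Ω) L] [IsScalarTower Ω (RatFunc Ω) L] [FiniteDimensional (RatFunc Ω) L]
  [Algebra.IsSeparable (RatFunc Ω) L] [Field L7] [Algebra Ω L7]
  [Algebra (RatFunc Ω) L7] [IsScalarTower Ω (RatFunc Ω) L7] [FiniteDimensional (RatFunc Ω) L7]
  [Algebra.IsSeparable (RatFunc Ω) L7] [Algebra L L7] [IsScalarTower Ω L L7]
  [FiniteDimensional L L7] [Algebra.IsSeparable L L7]

theorem ev_under (Q : Pl Ω L7) (u : L) : ev Q (algebraMap L L7 u) = ev (under L Q) u := by
  by_cases hu : (under L Q).v u ≤ 1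
  · apply ev_eq
    rw [IsScalarTower.algebraMap_apply Ω L L7, ← map_sub, ← under_lt_one_iff]
    exact ev_spec _ hu
  · have h2 : ¬ Q.v (algebraMap L L7 u) ≤ 1 := by rwa [← under_le_one_iff]
    unfold Disc.ev
    rw [dif_neg h2, dif_neg hu]

/-- `lam` and the norm of divisors -/
theorem lam_push (d : Ω → Ω) (h y : L) (E : Pl Ω L7 →₀ ℤ) :
    lam d h y (Wp.push L E) = lam d (algebraMap L L7 h) (algebraMap L L7 y) E := by
  induction E using Finsupp.induction_linear with
  | zero => simp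
  | add a b ha hb => simp only [map_add, ha, hb]
  | single Q n => rw [Wp.push_single, lam_single, lam_single, ev_under, ev_under]

end push

section one

variable {C K Ω L : Type*} [Field C] [IsAlgClosed C] [Field K] [Algebra C K]
  [Algebra (RatFunc C) K] [IsScalarTower C (RatFunc C) K] [FiniteDimensional (RatFunc C) K]
  [Algebra.IsSeparable (RatFunc C) K] [Field Ω] [Algebra C Ω] [IsAlgClosed Ω]
  [Field L] [Algebra Ω L] [Algebra C L] [IsScalarTower C Ω L]
  [Algebra (RatFunc Ω) L] [IsScalarTower Ω (RatFunc Ω) L] [FiniteDimensional (RatFunc Ω) L]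
  [Algebra.IsSeparable (RatFunc Ω) L] {ι : K →ₐ[C] L}

theorem lam_plQ' (hι : IsCE Ω ι) (d : Ω → Ω) (h y : K) (Q : K →ₐ[C] Ω) (n : ℤ) :
    lam d (ι h) (ι y) (Finsupp.single (plQ hι Q) n) = n * (Q h * d (Q y)) := by
  rw [lam_single, ev_plQ, ev_plQ]

/-- `lam` is `C`-linear in `h` -/
theorem lam_sum (hι : IsCE Ω ι) (d : Derivation C Ω Ω) {I : Type*} (s : Finset I) (c : I → C)
    (h : I → K) (y : K) (D : Pl Ω L →₀ ℤ) :
    lam d (ι (∑ i ∈ s, c i • h i)) (ι y) D =
      ∑ i ∈ s, algebraMap C Ω (c i) * lam d (ι (h i)) (ι y) D := by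
  induction D using Finsupp.induction_linear with
  | zero => simp
  | add a b ha hb => simp only [map_add, mul_add, Finset.sum_add_distrib, ha, hb]
  | single w n =>
    rcases cases hι w with ⟨P, rfl⟩ | ⟨Q, rfl⟩
    · simp only [lam_conP, mul_zero, Finset.sum_const_zero]
    · rw [lam_plQ', map_sum Q, Finset.sum_mul, Finset.mul_sum]
      refine Finset.sum_congr rfl fun i _ => ?_
      rw [lam_plQ', map_smul Q, Algebra.smul_def]
      ring

/-- change of variable: `h dy = h (D y) dx` -/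
theorem lam_D (hι : IsCE Ω ι) (d : Derivation C Ω Ω) (D : Derivation C K K) {x : K}
    (hD : D x = 1) (h y : K) (E : Pl Ω L →₀ ℤ) :
    lam d (ι h) (ι y) E = lam d (ι (h * D y)) (ι x) E := by
  induction E using Finsupp.induction_linear with
  | zero => simp
  | add a b ha hb => simp only [map_add, ha, hb]
  | single w n =>
    rcases cases hι w with ⟨P, rfl⟩ | ⟨Q, rfl⟩
    · rw [lam_conP, lam_conP]
    · rw [lam_plQ', lam_plQ', chain_D D hD Q d y, map_mul, mul_assoc]

variable [CharZero C]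

/-- `lam` of a regular differential on classes -/
def lamP (hι : IsCE Ω ι) (hx : xK Ω L = ι (xK C K)) (d : Derivation C Ω Ω) (h y : K)
    (hg : h * del C K y ∈ LD (canD C K)) : Pic Ω L →+ Ω :=
  QuotientAddGroup.lift (Prin Ω L) (lam d (ι h) (ι y)) (by
    rintro _ ⟨f, hf, rfl⟩
    exact lam_divf hι hx d h y hg hf)

theorem lamP_cls (hι : IsCE Ω ι) (hx : xK Ω L = ι (xK C K)) (d : Derivation C Ω Ω) (h y : K)
    (hg : h * del C K y ∈ LD (canD C K)) (D : Pl Ω L →₀ ℤ) :
    lamP hι hx d h y hg (cls D) = lam d (ι h) (ι y) D := rfl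


end one

section two

variable {C K K7 Ω L L7 : Type*} [Field C] [IsAlgClosed C] [Field K] [Algebra C K]
  [Algebra (RatFunc C) K] [IsScalarTower C (RatFunc C) K] [FiniteDimensional (RatFunc C) K]
  [Algebra.IsSeparable (RatFunc C) K] [Field K7] [Algebra C K7]
  [Algebra (RatFunc C) K7] [IsScalarTower C (RatFunc C) K7] [FiniteDimensional (RatFunc C) K7]
  [Algebra.IsSeparable (RatFunc C) K7] [Algebra K K7] [IsScalarTower C K K7]
  [FiniteDimensional K K7] [Algebra.IsSeparable K K7]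
  [Field Ω] [Algebra C Ω] [IsAlgClosed Ω]
  [Field L] [Algebra Ω L] [Algebra C L] [IsScalarTower C Ω L]
  [Algebra (RatFunc Ω) L] [IsScalarTower Ω (RatFunc Ω) L] [FiniteDimensional (RatFunc Ω) L]
  [Algebra.IsSeparable (RatFunc Ω) L]
  [Field L7] [Algebra Ω L7] [Algebra C L7] [IsScalarTower C Ω L7]
  [Algebra (RatFunc Ω) L7] [IsScalarTower Ω (RatFunc Ω) L7] [FiniteDimensional (RatFunc Ω) L7]
  [Algebra.IsSeparable (RatFunc Ω) L7] [Algebra L L7] [IsScalarTower Ω L L7]
  [FiniteDimensional L L7] [Algebra.IsSeparable L L7] {ι : K →ₐ[C] L} {ι7 : K7 →ₐ[C] L7}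

theorem finrank_ce_le (hι7 : IsCE Ω ι7)
    (hc : ∀ a, ι7 (algebraMap K K7 a) = algebraMap L L7 (ι a)) :
    finrank L L7 ≤ finrank K K7 := by
  classical
  let b := Module.finBasis K K7
  let S : Submodule L L7 := Submodule.span L (Set.range fun i => ι7 (b i))
  have h1 : ∀ a : K7, ι7 a ∈ S := by
    intro a
    rw [← b.sum_repr a, map_sum]
    refine S.sum_mem fun i _ => ?_
    rw [Algebra.smul_def, map_mul, hc, ← Algebra.smul_def]
    exact S.smul_mem _ (Submodule.subset_span ⟨i, rfl⟩)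
  have h2 : ∀ t : Ω ⊗[C] K7, mu ι7 t ∈ S := by
    intro t
    induction t with
    | zero => simp
    | add s t hs ht => rw [map_add]; exact S.add_mem hs ht
    | tmul c f =>
      rw [mu_tmul, IsScalarTower.algebraMap_apply Ω L L7, ← Algebra.smul_def]
      exact S.smul_mem _ (h1 f)
  have h3 : ∀ (t : Ω ⊗[C] K7), ∀ s ∈ S, mu ι7 t * s ∈ S := by
    intro t s hs
    induction hs using Submodule.span_induction with
    | mem x hx =>
      obtain ⟨i, rfl⟩ := hx
      have := h2 (t * (1 ⊗ₜ b i))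
      rwa [map_mul, mu_tmul, map_one, one_mul] at this
    | zero => simp
    | add x y _ _ hx hy => rw [mul_add]; exact S.add_mem hx hy
    | smul a x _ hx => rw [mul_smul_comm]; exact S.smul_mem _ hx
  have h4 : S = ⊤ := by
    rw [eq_top_iff]
    intro f _
    obtain ⟨a, t, ht, hat⟩ := hι7.frac f
    have hm : mu ι7 t ≠ 0 := hι7.ne_zero ht
    let m : S →ₗ[L] S := (LinearMap.mulLeft L (mu ι7 t)).restrict (h3 t)
    have hinj : Function.Injective m := by
      intro x y hxy
      have h5 : mu ι7 t * (x : L7) = mu ι7 t * (y : L7) := congrArg Subtype.val hxy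
      exact Subtype.ext (mul_left_cancel₀ hm h5)
    obtain ⟨s, hs⟩ := (LinearMap.injective_iff_surjective.mp hinj) ⟨mu ι7 a, h2 a⟩
    have h6 : mu ι7 t * (s : L7) = mu ι7 a := congrArg Subtype.val hs
    have h7 : f = s := by
      apply mul_left_cancel₀ hm
      rw [h6, ← hat, mul_comm]
    rw [h7]
    exact s.2
  calc finrank L L7 = finrank L S := by rw [h4, finrank_top]
    _ ≤ Fintype.card (Fin (finrank K K7)) := finrank_range_le_card _
    _ = finrank K K7 := Fintype.card_fin _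

theorem under_plQ (hι : IsCE Ω ι) (hι7 : IsCE Ω ι7)
    (hc : ∀ a, ι7 (algebraMap K K7 a) = algebraMap L L7 (ι a)) (ψ : K7 →ₐ[C] Ω) :
    under L (plQ hι7 ψ) = plQ hι (ψ.comp (IsScalarTower.toAlgHom C K K7)) := by
  refine At.unique hι (fun f => ?_) (plQ_At hι _)
  rw [under_lt_one_iff, map_sub, ← hc, ← IsScalarTower.algebraMap_apply]
  exact plQ_At hι7 ψ _

/-- **`lam` and the conorm**: the trace of the differential -/
theorem lam_con (hι : IsCE Ω ι) (hι7 : IsCE Ω ι7)
    (hc : ∀ a, ι7 (algebraMap K K7 a) = algebraMap L L7 (ι a)) (d : Derivation C Ω Ω)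
    (D : Derivation C K7 K7) {x : K} (hD : D (algebraMap K K7 x) = 1) (h y : K7)
    (E : Pl Ω L →₀ ℤ) :
    lam d (ι7 h) (ι7 y) (con L7 E) = lam d (ι (Algebra.trace K K7 (h * D y))) (ι x) E := by
  classical
  induction E using Finsupp.induction_linear with
  | zero => rw [con_zero, map_zero, map_zero]
  | add a b ha hb => rw [con_add, map_add, map_add, ha, hb]
  | single w n =>
    rw [con_single, map_sum]
    rcases cases hι w with ⟨P, rfl⟩ | ⟨φ, rfl⟩
    · rw [lam_conP]
      refine Finset.sum_eq_zero fun Q hQ => ?_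
      rcases cases hι7 Q with ⟨P', rfl⟩ | ⟨ψ, rfl⟩
      · rw [lam_conP]
      · rw [mem_above, under_plQ hι hι7 hc] at hQ
        exact absurd hQ.symm (conP_ne_plQ hι _ _)
    · letI : Algebra K Ω := φ.toRingHom.toAlgebra
      haveI : IsScalarTower C K Ω := IsScalarTower.of_algebraMap_eq fun c => (φ.commutes c).symm
      let q : (K7 →ₐ[K] Ω) → Pl Ω L7 := fun σ => plQ hι7 (σ.restrictScalars C)
      have hq : Function.Injective q := fun σ τ hστ =>
        AlgHom.restrictScalars_injective C (plQ_injective hι7 hστ)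
      have hsub : Finset.univ.image q ⊆ above L7 (plQ hι φ) := by
        intro Q hQ
        obtain ⟨σ, -, rfl⟩ := Finset.mem_image.mp hQ
        rw [mem_above, under_plQ hι hι7 hc]
        congr 1
        ext a
        exact σ.commutes a
      have hcard : (Finset.univ.image q).card = finrank K K7 := by
        rw [Finset.card_image_of_injective _ hq, Finset.card_univ, AlgHom.card]
      have hsum : ∑ Q ∈ above L7 (plQ hι φ), eR L Q = finrank L L7 := by
        have := sum_eR_degP (L := L7) (plQ hι φ)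
        simpa only [degP_eq_one, mul_one] using this
      have hle := finrank_ce_le hι7 hc
      have h1 : ∑ Q ∈ above L7 (plQ hι φ), 1 ≤ ∑ Q ∈ above L7 (plQ hι φ), eR L Q :=
        Finset.sum_le_sum fun Q _ => eR_pos Q
      have h2 : ∑ Q ∈ above L7 (plQ hι φ), 1 = (above L7 (plQ hι φ)).card := by simp
      have h3 := Finset.card_le_card hsub
      have heq : Finset.univ.image q = above L7 (plQ hι φ) :=
        Finset.eq_of_subset_of_card_le hsub (by omega)
      have he : ∀ Q ∈ above L7 (plQ hι φ), 1 = eR L Q :=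
        (Finset.sum_eq_sum_iff_of_le fun Q _ => eR_pos Q).mp (by omega)
      rw [Finset.sum_congr rfl fun Q hQ => by rw [← he Q hQ, Nat.cast_one, one_mul], ← heq,
        Finset.sum_image fun σ _ τ _ hστ => hq hστ, lam_plQ']
      have h4 : φ (Algebra.trace K K7 (h * D y)) = ∑ σ : K7 →ₐ[K] Ω, σ (h * D y) :=
        trace_eq_sum_embeddings Ω
      rw [h4, Finset.sum_mul, Finset.mul_sum]
      refine Finset.sum_congr rfl fun σ _ => ?_
      have h5 : (σ.restrictScalars C) (algebraMap K K7 x) = φ x := σ.commutes x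
      rw [lam_plQ', chain_D D hD (σ.restrictScalars C) d y, h5, map_mul, mul_assoc]
      rfl

/-- **END on divisors**: the correspondence `push ∘ e ∘ con`; `h'`, `y'` are the preimages of `h`,
`y` under the automorphism -/
theorem lam_end (hι : IsCE Ω ι) (hι7 : IsCE Ω ι7)
    (hc : ∀ a, ι7 (algebraMap K K7 a) = algebraMap L L7 (ι a)) (d : Derivation C Ω Ω)
    (D : Derivation C K7 K7) {x : K} (hD : D (algebraMap K K7 x) = 1) (e : SI Ω L7 Ω L7)
    (hs : ∀ a, e.s a = a) {h y : K} {h' y' : K7} (hh : e.f (ι7 h') = ι7 (algebraMap K K7 h))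
    (hy : e.f (ι7 y') = ι7 (algebraMap K K7 y)) (E : Pl Ω L →₀ ℤ) :
    lam d (ι h) (ι y) (Wp.push L (e.D (con L7 E))) =
      lam d (ι (Algebra.trace K K7 (h' * D y'))) (ι x) E := by
  rw [lam_push, ← hc, ← hc, ← hh, ← hy, lam_SI e d d 1 (fun a => by rw [hs, hs, one_mul]), hs,
    one_mul, lam_con hι hι7 hc d D hD]

/-- **END with a matrix** -/
theorem lam_end_sum (hι : IsCE Ω ι) (hι7 : IsCE Ω ι7)
    (hc : ∀ a, ι7 (algebraMap K K7 a) = algebraMap L L7 (ι a)) (d : Derivation C Ω Ω)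
    (D : Derivation C K7 K7) {x : K} (hD : D (algebraMap K K7 x) = 1) (e : SI Ω L7 Ω L7)
    (hs : ∀ a, e.s a = a) {h y : K} {h' y' : K7} (hh : e.f (ι7 h') = ι7 (algebraMap K K7 h))
    (hy : e.f (ι7 y') = ι7 (algebraMap K K7 y)) {I : Type*} (s : Finset I) (c : I → C)
    (g : I → K) (htr : Algebra.trace K K7 (h' * D y') = ∑ i ∈ s, c i • g i) (E : Pl Ω L →₀ ℤ) :
    lam d (ι h) (ι y) (Wp.push L (e.D (con L7 E))) =
      ∑ i ∈ s, algebraMap C Ω (c i) * lam d (ι (g i)) (ι x) E := by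
  rw [lam_end hι hι7 hc d D hD e hs hh hy, htr, lam_sum hι]

/-- **END on classes** -/
theorem lamP_end [CharZero C] (hι : IsCE Ω ι) (hx : xK Ω L = ι (xK C K)) (hι7 : IsCE Ω ι7)
    (hc : ∀ a, ι7 (algebraMap K K7 a) = algebraMap L L7 (ι a)) (d : Derivation C Ω Ω)
    (D : Derivation C K7 K7) {x : K} (hD : D (algebraMap K K7 x) = 1) (e : SI Ω L7 Ω L7)
    (hs : ∀ a, e.s a = a) {h y : K} (hg : h * del C K y ∈ LD (canD C K)) {h' y' : K7}
    (hh : e.f (ι7 h') = ι7 (algebraMap K K7 h))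
    (hy : e.f (ι7 y') = ι7 (algebraMap K K7 y)) {I : Type*} (s : Finset I) (c : I → C)
    (g : I → K) (hgi : ∀ i, g i * del C K x ∈ LD (canD C K))
    (htr : Algebra.trace K K7 (h' * D y') = ∑ i ∈ s, c i • g i) (z : Pic Ω L) :
    lamP hι hx d h y hg (Wp.pushP L (e.pic (Wp.conP L7 z))) =
      ∑ i ∈ s, algebraMap C Ω (c i) * lamP hι hx d (g i) x (hgi i) z := by
  obtain ⟨E, rfl⟩ := cls_surjective z
  rw [Wp.conP_cls, SI.pic_cls, Wp.pushP_cls, lamP_cls,
    lam_end_sum hι hι7 hc d D hD e hs hh hy s c g htr]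
  rfl

end two

section sip

variable {C K Ω L : Type*} [Field C] [IsAlgClosed C] [CharZero C] [Field K] [Algebra C K]
  [Algebra (RatFunc C) K] [IsScalarTower C (RatFunc C) K] [FiniteDimensional (RatFunc C) K]
  [Algebra.IsSeparable (RatFunc C) K] [Field Ω] [Algebra C Ω] [IsAlgClosed Ω]
  [Field L] [Algebra Ω L] [Algebra C L] [IsScalarTower C Ω L]
  [Algebra (RatFunc Ω) L] [IsScalarTower Ω (RatFunc Ω) L] [FiniteDimensional (RatFunc Ω) L]
  [Algebra.IsSeparable (RatFunc Ω) L] {ι : K →ₐ[C] L}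

/-- a semilinear automorphism which sends `h dy` to `h' dy'` -/
theorem lam_SI' (hι : IsCE Ω ι) (d : Derivation C Ω Ω) (e : SI Ω L Ω L) (c : Ω)
    (hd : ∀ a, d (e.s a) = c * e.s (d a)) {h y h1 y1 h' y' : K} (hh : e.f (ι h) = ι h1)
    (hy : e.f (ι y) = ι y1) (hω : h1 * del C K y1 = h' * del C K y') (E : Pl Ω L →₀ ℤ) :
    lam d (ι h') (ι y') (e.D E) = c * e.s (lam d (ι h) (ι y) E) := by
  rw [← lam_SI e d d c hd, hh, hy, lam_D hι d (del C K) (del_xK C K) h' y',
    lam_D hι d (del C K) (del_xK C K) h1 y1, hω]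

theorem lamP_SI (hι : IsCE Ω ι) (hx : xK Ω L = ι (xK C K)) (d : Derivation C Ω Ω)
    (e : SI Ω L Ω L) (c : Ω) (hd : ∀ a, d (e.s a) = c * e.s (d a)) {h y h1 y1 h' y' : K}
    (hg : h * del C K y ∈ LD (canD C K)) (hg' : h' * del C K y' ∈ LD (canD C K))
    (hh : e.f (ι h) = ι h1) (hy : e.f (ι y) = ι y1) (hω : h1 * del C K y1 = h' * del C K y')
    (z : Pic Ω L) :
    lamP hι hx d h' y' hg' (e.pic z) = c * e.s (lamP hι hx d h y hg z) := by
  obtain ⟨E, rfl⟩ := cls_surjective z
  rw [SI.pic_cls, lamP_cls, lamP_cls, lam_SI' hι d e c hd hh hy hω]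

end sip

end Crest.Agent.T15.Hon
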