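import Crest.Agent.T15.BetCus_91
import Crest.Agent.R013.GR2_921

-- ▼ part T15/BetPl_91
section

/-!
# T15 / BetPl (helper91): the places of `F Γ` above finite values of `j`

`plz hΓ z : Pl ℂ (F Γ)` (`Γ ≤ Γ₁(4)`), `exists_plz` (exhaustion), `IsK.dvd_divf`.
-/

set_option autoImplicit false

noncomputable section

namespace Crest.Agent.T15.Bet

open UpperHalfPlane hiding I
open CongruenceSubgroup WithZero Polynomial
open scoped MatrixGroups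
open Crest.Agent.T15.Mf Crest.Agent.T15.Hk Crest.Agent.T15.Hs
open Crest.Agent.R007 Crest.Agent.R007.Rat
open Crest.Agent.R013.RR7_948 Crest.Agent.R013.RR8_948 Crest.Agent.R013.RR11_948
open Crest.Agent.R013.RR18_948 Crest.Agent.R013.RR21_948 Crest.Agent.R013.RR22_948

/-- the place `X = c` of the rational function field -/
lemma ratFunc_le_one {k : Type*} [Field k] (P : Pl k (RatFunc k)) {c : k}
    (hc : P.v (RatFunc.X - algebraMap k _ c) < 1) (a : RatFunc k) :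
    P.v a ≤ 1 ↔ a.denom.eval c ≠ 0 := by
  have hC : ∀ b : k, algebraMap k[X] (RatFunc k) (C b) = algebraMap k _ b := fun b => rfl
  have h0 : ∀ b : k, P.v (algebraMap k _ b) ≤ 1 := fun b => by
    rcases eq_or_ne b 0 with rfl | hb
    · simp
    · exact (P.const b hb).le
  have h1 : ∀ p : k[X], P.v (algebraMap k[X] _ p) ≤ 1 := le_one_poly P.v h0 (by
    rw [RatFunc.algebraMap_X, ← sub_add_cancel RatFunc.X (algebraMap k _ c)]
    exact P.v.map_add_le hc.le (h0 c))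
  have h2 : ∀ p : k[X], P.v (algebraMap k[X] _ p - algebraMap k _ (p.eval c)) < 1 := fun p => by
    obtain ⟨q, hq⟩ := X_sub_C_dvd_sub_C_eval (a := c) (p := p)
    rw [← hC, ← map_sub, hq, map_mul, map_mul, map_sub, RatFunc.algebraMap_X, hC]
    exact mul_lt_one_of_lt_of_le hc (h1 q)
  have h3 : ∀ p : k[X], p.eval c ≠ 0 → P.v (algebraMap k[X] _ p) = 1 := fun p hp => by
    rw [← P.const _ hp]
    exact P.v.map_eq_of_sub_lt (by rw [P.const _ hp]; exact h2 p)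
  have hd : P.v (algebraMap k[X] _ a.denom) ≠ 0 :=
    (Valuation.ne_zero_iff _).mpr (RatFunc.algebraMap_ne_zero a.denom_ne_zero)
  conv_lhs => rw [← a.num_div_denom, map_div₀, div_le_one₀ (zero_lt_iff.mpr hd)]
  refine ⟨fun h hd0 => ?_, fun h => by rw [h3 _ h]; exact h1 _⟩
  have h4 := h2 a.denom
  rw [hd0, map_zero, sub_zero] at h4
  obtain ⟨u, w, e⟩ := a.isCoprime_num_denom
  have h5 := congrArg (eval c) e
  rw [eval_add, eval_mul, eval_mul, hd0, mul_zero, add_zero, eval_one] at h5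
  rw [h3 _ (right_ne_zero_of_mul_eq_one h5)] at h
  exact h.not_gt h4

variable {Γ₀ : Subgroup SL(2, ℤ)}

/-- the order of vanishing at `z` -/
def vF (Γ₀ : Subgroup SL(2, ℤ)) (z : ℍ) : Valuation (F Γ₀) ℤᵐ⁰ :=
  (vM z).comap (FF.val.toRingHom.comp (F Γ₀).val.toRingHom)

lemma vF_apply (z : ℍ) (f : F Γ₀) : vF Γ₀ z f = vM z ((f : FF) : Mer) := rfl

/-- the place of `F Γ₀` at `z` -/
def plz (hΓ : Γ₀ ≤ Gamma1 4) (z : ℍ) : Pl ℂ (F Γ₀) where
  v := vF Γ₀ z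
  const _ hc := vM_const z hc
  surj a := by
    rcases eq_or_ne a 0 with rfl | ha
    · exact ⟨0, map_zero _⟩
    · obtain ⟨x, h1, h2⟩ := exists_unif z
      refine ⟨(⟨x, fun γ hγ => h1 γ (hΓ hγ)⟩ : F Γ₀) ^ (-log a), ?_⟩
      rw [map_zpow₀, vF_apply, h2, ← exp_zsmul, smul_eq_mul, neg_mul_neg, mul_one, exp_log ha]

lemma plz_v (hΓ : Γ₀ ≤ Gamma1 4) (z : ℍ) (f : F Γ₀) : (plz hΓ z).v f = vM z ((f : FF) : Mer) := rfl

lemma coe_xK : ((xK ℂ (F Γ₀) : F Γ₀) : FF) = jj := algebraMap_X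

lemma vM_jj_sub {z : ℍ} {c : ℂ} :
    vM z ((jj - algebraMap ℂ FF c : FF) : Mer) < 1 ↔ e4 z ^ 3 = c * dl z := by
  have e : jj - algebraMap ℂ FF c = quo (e4 ^ 3 - c • dl) dl := by
    rw [sub_eq_iff_eq_add, jj]
    apply Subtype.ext
    have h1 := isF_e4_cube.sub (isF_dl.smul c)
    have h2 := mer_ne_zero isF_dl.holo dl_ne_zero
    rw [AddMemClass.coe_add, coe_quo one_ne_zero isF_e4_cube isF_dl, coe_quo one_ne_zero h1 isF_dl,
      mer_sub isF_e4_cube.holo (isF_dl.smul c).holo, mer_smul isF_dl.holo]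
    change _ = _ + algebraMap ℂ Mer c
    field_simp
    ring
  have h1 := isF_e4_cube.sub (isF_dl.smul c)
  rw [e, coe_quo one_ne_zero h1 isF_dl, map_div₀, (vM_mer_eq_one isF_dl.holo).mpr (Mf.dl_ne z),
    div_one, vM_mer_lt_one h1.holo]
  simp [sub_eq_zero]

lemma vM_jj_le (z : ℍ) : vM z (jj : Mer) ≤ 1 := by
  rw [jj, coe_quo one_ne_zero isF_e4_cube isF_dl, map_div₀,
    (vM_mer_eq_one isF_dl.holo).mpr (Mf.dl_ne z), div_one]
  exact vM_mer_le z isF_e4_cube.holo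

/-- **every place at which `j` is finite is a point of the upper half plane** -/
theorem exists_plz [Γ₀.FiniteIndex] (hΓ : Γ₀ ≤ Gamma1 4) (P : Pl ℂ (F Γ₀))
    (h : P.v (xK ℂ (F Γ₀)) ≤ 1) : ∃ z, P = plz hΓ z := by
  let N := Γ₀.normalCore
  have : Fact (N ≤ Γ₀) := ⟨Γ₀.normalCore_le⟩
  have hN : N ≤ Gamma1 4 := Γ₀.normalCore_le.trans hΓ
  obtain ⟨Q, hQ⟩ := above_nonempty (L := F N) P
  rw [mem_above] at hQ
  subst hQ
  obtain ⟨c, hc⟩ := R013.GR2_921.exists_const _ h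
  obtain ⟨z, hz⟩ := j_onto c
  have e : ∀ R : Pl ℂ (F N), (under (RatFunc ℂ) R).v (RatFunc.X - algebraMap ℂ _ c) < 1 ↔
      R.v (xK ℂ (F N) - algebraMap ℂ _ c) < 1 := fun R => by
    rw [under_lt_one_iff, map_sub, ← IsScalarTower.algebraMap_apply]; rfl
  have h1 := (e (plz hN z)).mpr (by
    rw [plz_v, AddSubgroupClass.coe_sub (xK ℂ (F N)), coe_xK, coe_algebraMap_F]
    exact vM_jj_sub.mpr hz)
  have h2 := (e Q).mpr (by
    rwa [under_lt_one_iff, map_sub, ← IsScalarTower.algebraMap_apply, xK,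
      ← IsScalarTower.algebraMap_apply] at hc)
  obtain ⟨σ, hσ⟩ := exists_mapPl_eq (K := RatFunc ℂ) (Q := plz hN z) (Q' := Q)
    (pl_eq_of_le fun f => by rw [ratFunc_le_one _ h1, ratFunc_le_one _ h2]; exact id)
  obtain ⟨γ, rfl⟩ := act_surjective N σ
  refine ⟨rr (Mf.sq γ) • z, pl_eq_of_le fun f hf => ?_⟩
  rw [under_le_one_iff, ← hσ, mapPl_v, plz_v] at hf
  rw [plz_v, ← vM_inv_smul, ← Mf.coe_smul, ← map_inv, ← sl_smul]
  have e2 : (((act N γ).restrictScalars ℂ).symm (algebraMap (F Γ₀) (F N) f) : FF) = γ⁻¹ • (f : FF) := by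
    rw [← coe_algebraMap_FF Γ₀ N, ← coe_act, map_inv]; rfl
  rwa [e2] at hf

variable {n : ℕ} [NeZero n]

/-- off the cusps the divisor of a Kummer function is divisible by `n` -/
theorem IsK.dvd_divf_fin [Γ₀.FiniteIndex] (hΓ : Γ₀ ≤ Gamma1 4) {f : F Γ₀}
    {φ : HH (Γ₀.map Mf.sq) (ZMod n)} (hK : IsK n (Γ₀.map Mf.sq) (f : FF) φ) (P : Pl ℂ (F Γ₀))
    (h : P.v (xK ℂ (F Γ₀)) ≤ 1) : (n : ℤ) ∣ divf (k := ℂ) f P := by
  obtain ⟨z, rfl⟩ := exists_plz hΓ P h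
  have h0 : f ≠ 0 := fun h => hK.ne (by rw [h]; rfl)
  have := hK.dvd z
  rwa [← plz_v hΓ, v_eq h0, log_exp, dvd_neg] at this


end Crest.Agent.T15.Bet
end
end

-- ▼ part T15/BetAz_91

/-!
# T15 / BetAz (helper91): `Aut ℂ` permutes the points of the open modular curve

`aut_jj`, `autF`, `aut_vM`, `IsK.aut`.
-/

set_option autoImplicit false

noncomputable section

namespace Crest.Agent.T15.Bet

open UpperHalfPlane hiding I
open CongruenceSubgroup WithZero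
open scoped MatrixGroups
open Crest.Agent.T15.Mf Crest.Agent.T15.Hk Crest.Agent.T15.Hs Crest.Agent.T15.Lv
open Crest.Agent.R007 Crest.Agent.R007.Rat
open Crest.Agent.R013.RR7_948 Crest.Agent.R013.RR8_948 Crest.Agent.R013.RR11_948

lemma hm_qf_of_coeffIn (σ : ℂ →+* ℂ) {M : ℕ} (hM : M ≠ 0) {k : ℤ} {G : ℍ → ℂ} (hG : IsF M k G)
    (h : CoeffIn (σ.eqLocus (RingHom.id ℂ)) (qe M G)) : hm σ (qf G) = qf G := by
  ext r
  rw [coeff_hm]
  by_cases hr : (qf G).coeff r = 0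
  · rw [hr, map_zero]
  obtain ⟨m, rfl⟩ := lev_qf hM hG r hr
  rw [coeff_qf hM hG]
  exact h m

theorem gal_jj (σ : ℂ →+* ℂ) : gal σ jj = jj := qx_injective (by
  rw [qx_gal, jj, qx_quo one_ne_zero isF_e4_cube isF_dl, qf_pow one_ne_zero isF_e4, map_div₀, map_pow,
    hm_qf_of_coeffIn σ one_ne_zero isF_e4 coeffIn_e4,
    hm_qf_of_coeffIn σ one_ne_zero isF_dl coeffIn_dl])

theorem aut_jj (σ : ℂ ≃+* ℂ) : σ • jj = jj := gal_jj _

variable {L : ℕ} {H : Subgroup (ZMod L)ˣ}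

theorem aut_mem_F (hL : L ≠ 0) (σ : ℂ ≃+* ℂ) {x : FF} (hx : x ∈ F (GH L H)) : σ • x ∈ F (GH L H) :=
  fun γ hγ => Cg.aut_fixed hL σ (H := H) (by rintro _ ⟨δ, hδ, rfl⟩; exact hx δ hδ) _ (sq_mem.2 hγ)

/-- `σ` as a ring automorphism of `F (GH L H)` -/
def autF (hL : L ≠ 0) (H : Subgroup (ZMod L)ˣ) (σ : ℂ ≃+* ℂ) : F (GH L H) ≃+* F (GH L H) where
  toFun x := ⟨σ • (x : FF), aut_mem_F hL σ x.2⟩
  invFun x := ⟨σ⁻¹ • (x : FF), aut_mem_F hL σ⁻¹ x.2⟩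
  left_inv _ := Subtype.ext (inv_smul_smul _ _)
  right_inv _ := Subtype.ext (smul_inv_smul _ _)
  map_mul' x y := Subtype.ext (smul_mul' σ (x : FF) (y : FF))
  map_add' x y := Subtype.ext (smul_add σ (x : FF) (y : FF))


/-- `Aut ℂ` permutes the points -/
theorem aut_vM (hL : L ≠ 0) (h4 : GH L H ≤ Gamma1 4) (σ : ℂ ≃+* ℂ) (z : ℍ) :
    ∃ z', ∀ x ∈ F (GH L H), vM z ((σ • x : FF) : Mer) = vM z' (x : Mer) := by
  have : NeZero L := ⟨hL⟩
  let P : Pl ℂ (F (GH L H)) :=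
    { v := (plz h4 z).v.comap (autF hL H σ).toRingHom
      const := fun c hc => by
        change vM z ((gal (σ : ℂ →+* ℂ) (algebraMap ℂ FF c) : FF) : Mer) = 1
        rw [gal_algebraMap]
        exact vM_const z ((map_ne_zero _).mpr hc)
      surj := (plz h4 z).surj.comp (autF hL H σ).surjective }
  have e : ∀ x : F (GH L H), P.v x = vM z ((σ • (x : FF) : FF) : Mer) := fun _ => rfl
  obtain ⟨z', hz⟩ := exists_plz h4 P (by rw [e, coe_xK, aut_jj]; exact vM_jj_le z)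
  exact ⟨z', fun x hx => by rw [← e ⟨x, hx⟩, hz, plz_v]⟩

variable {n : ℕ} [NeZero n]

theorem aut_dvd (hL : L ≠ 0) (h4 : GH L H ≤ Gamma1 4) (σ : ℂ ≃+* ℂ) {m : ℤ} {x : FF}
    (hx : x ∈ F (GH L H)) (h : ∀ z, m ∣ log (vM z (x : Mer))) (z : ℍ) :
    m ∣ log (vM z ((σ • x : FF) : Mer)) := by
  obtain ⟨z', hz⟩ := aut_vM hL h4 σ z
  rw [hz x hx]; exact h z'

/-- the conjugate of a Kummer function is a Kummer function -/
theorem IsK.aut (hL : L ≠ 0) (h4 : GH L H ≤ Gamma1 4) (σ : ℂ ≃+* ℂ) {x : FF}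
    {φ : HH (Gq L H) (ZMod n)} (hK : IsK n (Gq L H) x φ) : ∃ φ', IsK n (Gq L H) (σ • x) φ' :=
  exists_isK (Cg.aut_ne σ hK.ne) (Cg.aut_fixed hL σ hK.fixed)
    (aut_dvd hL h4 σ (IsK.mem_F hK) hK.dvd)

theorem exists_galFun (hL : L ≠ 0) (h4 : GH L H ≤ Gamma1 4) (σ : ℂ ≃+* ℂ)
    (φ : HH (Gq L H) (ZMod n)) :
    ∃ φ', ∀ x, IsK n (Gq L H) x φ → IsK n (Gq L H) (σ • x) φ' := by
  have hneg : (-1 : SL(2, ℤ)) ∉ GH L H := fun h => by
    have := ((Gamma1_mem _ _).1 (h4 h)).1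
    revert this; decide
  obtain ⟨x, hx⟩ := exists_of_hom' hL Gamma_le_GH hneg φ
  obtain ⟨φ', h'⟩ := IsK.aut hL h4 σ hx
  refine ⟨φ', fun x' hx' => ?_⟩
  obtain ⟨y, h0, h1, rfl⟩ := hx'.exists_mul_pow hx hL fun γ hγ => sq_mem.2 (Gamma_le_GH hγ)
  have := h'.mul (IsK.of_fixed (n := n) (Cg.aut_ne σ h0) (Cg.aut_fixed hL σ h1))
  rwa [add_zero, ← smul_pow', ← smul_mul'] at this

/-- **the action of `Aut ℂ` on `H¹(Γ_H(L), ℤ/n)`** (with the cyclotomic twist of Kummer theory) -/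
theorem exists_galH (hL : L ≠ 0) (h4 : GH L H ≤ Gamma1 4) :
    ∃ ρ : (ℂ ≃+* ℂ) →* AddMonoid.End (HH (Gq L H) (ZMod n)),
      ∀ σ φ x, IsK n (Gq L H) x φ → IsK n (Gq L H) (σ • x) (ρ σ φ) := by
  have hneg : (-1 : SL(2, ℤ)) ∉ GH L H := fun h => by
    have := ((Gamma1_mem _ _).1 (h4 h)).1
    revert this; decide
  have hex : ∀ φ : HH (Gq L H) (ZMod n), ∃ x, IsK n (Gq L H) x φ :=
    exists_of_hom' hL Gamma_le_GH hneg
  choose r hr using exists_galFun (n := n) hL h4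
  refine ⟨⟨⟨fun σ => AddMonoidHom.mk' (r σ) fun φ ψ => ?_, AddMonoidHom.ext fun φ => ?_⟩,
    fun σ τ => AddMonoidHom.ext fun φ => ?_⟩, hr⟩
  · obtain ⟨x, hx⟩ := hex φ
    obtain ⟨y, hy⟩ := hex ψ
    exact (hr σ _ _ (hx.mul hy)).unique (by rw [smul_mul']; exact (hr σ _ _ hx).mul (hr σ _ _ hy))
  · obtain ⟨x, hx⟩ := hex φ
    exact (hr 1 _ _ hx).unique (by rwa [one_smul])
  · obtain ⟨x, hx⟩ := hex φ
    exact (hr (σ * τ) _ _ hx).unique (by rw [mul_smul]; exact hr σ _ _ (hr τ _ _ hx))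

end Crest.Agent.T15.Bet
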