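import Crest.Agent.R018.Places3_484
import Crest.Agent.R007.RatDesc

/-!
# Row 15, block T: a place of `ℚ̄` as a complete norm of `ℂ` (helper84)

`P` a place of an algebraic closure `E` of `ℚ`, `ι : E →+* ℂ`.  `CP P` is the completion of `E` at
`P`, `psi ι P : CP P ≃+* ℂ` extends `ι`, `vC ι P` is the transported norm and `lft ι P` lifts the
decomposition group to isometric automorphisms of `ℂ`.
-/

set_option autoImplicit false

noncomputable section

namespace Crest.Agent.T15.Cg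

open NumberField Cardinal
open scoped NNReal
open Crest.Agent.R018.Placesx484

variable {E : Type} [Field E] [CharZero E] [IsGalois ℚ E]

lemma place_rat_ext {P Q : Place ℚ} (h : P.rchar = Q.rchar) : P = Q := by
  have key : ∀ (P : Place ℚ) (x : 𝓞 ℚ), x ∈ P.ideal ↔
      P.rchar ∣ (Rat.ringOfIntegersEquiv x).natAbs := fun P x => by
    rw [← P.natCast_mem_iff]
    obtain ⟨z, rfl⟩ := Rat.ringOfIntegersEquiv.symm.surjective x
    rw [RingEquiv.apply_symm_apply, eq_intCast]
    rcases Int.natAbs_eq z with h | h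
    · rw [← Int.cast_natCast, ← h]
    · rw [← Int.cast_natCast, ← neg_mem_iff (H := P.ideal) (x := ((z.natAbs : ℤ) : 𝓞 ℚ)),
        ← Int.cast_neg, ← h]
  ext x
  rw [key, key, h]

theorem exists_av (P : Place E) : ∃ v : AbsoluteValue E ℝ, IsNonarchimedean v ∧
    (∀ x, v x ≤ 1 ↔ x ∈ P.val) ∧ v (P.rchar : E) = (P.rchar : ℝ)⁻¹ := by
  have : Fact P.rchar.Prime := ⟨P.rchar_prime⟩
  let j : E →ₐ[ℚ] PadicAlgCl P.rchar := IsAlgClosed.lift
  let w : Valuation E ℝ≥0 := (NormedField.valuation (K := PadicAlgCl P.rchar)).comap j.toRingHom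
  have hw : ∀ x, (w x : ℝ) = ‖j x‖ := fun x => rfl
  have hp : ‖j (P.rchar : E)‖ = (P.rchar : ℝ)⁻¹ := by
    rw [map_natCast, ← Padic.norm_p, ← PadicAlgCl.norm_extends]
    congr 1
  have hp1 : (1 : ℝ) < P.rchar := by exact_mod_cast P.rchar_prime.one_lt
  have hO : w.valuationSubring ≠ ⊤ := fun h => by
    have h1 : (P.rchar : E)⁻¹ ∈ w.valuationSubring := by rw [h]; trivial
    rw [Valuation.mem_valuationSubring_iff, ← NNReal.coe_le_coe, hw, map_inv₀, norm_inv, hp,
      inv_inv] at h1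
    exact absurd h1 (not_le.2 hp1)
  let Q := Place.ofVal w.valuationSubring hO
  have hQ : Q.rchar = P.rchar := by
    refine Q.rchar_eq_of_mem P.rchar_prime ?_
    rw [Place.mem_ofVal, ← (Valuation.isEquiv_valuation_valuationSubring w).lt_one_iff_lt_one,
      ← NNReal.coe_lt_coe, hw, map_natCast, hp]
    exact inv_lt_one_of_one_lt₀ hp1
  obtain ⟨g, hg⟩ := Place.exists_smul_eq_of_res_eq (M := ℚ) Q P
    (place_rat_ext (by rw [Place.rchar_res, Place.rchar_res, hQ]))
  refine ⟨(NormedField.toAbsoluteValue (PadicAlgCl P.rchar)).comp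
    (f := j.toRingHom.comp (g⁻¹ : E ≃ₐ[ℚ] E).toRingEquiv.toRingHom) (RingHom.injective _),
    fun x y => ?_, fun x => ?_, ?_⟩
  · change ‖j (g⁻¹ (x + y))‖ ≤ max ‖j (g⁻¹ x)‖ ‖j (g⁻¹ y)‖
    rw [map_add, map_add]
    exact IsUltrametricDist.norm_add_le_max _ _
  · change ‖j (g⁻¹ x)‖ ≤ 1 ↔ _
    have e : x ∈ P.val ↔ x ∈ (g • Q).val := by rw [hg]
    rw [e, Place.mem_smul_val, Place.val_ofVal, Valuation.mem_valuationSubring_iff,
      ← NNReal.coe_le_coe, hw]
    rfl
  · change ‖j (g⁻¹ (P.rchar : E))‖ = _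
    rw [map_natCast, hp]

/-- the normalised absolute value of a place -/
def av (P : Place E) : AbsoluteValue E ℝ := (exists_av P).choose

lemma av_nonarch (P : Place E) : IsNonarchimedean (av P) := (exists_av P).choose_spec.1
lemma av_le_one_iff (P : Place E) (x : E) : av P x ≤ 1 ↔ x ∈ P.val :=
  (exists_av P).choose_spec.2.1 x
lemma av_rchar (P : Place E) : av P (P.rchar : E) = (P.rchar : ℝ)⁻¹ :=
  (exists_av P).choose_spec.2.2

lemma av_le_one_iff' (P : Place E) (x : E) : av P x ≤ 1 ↔ P.v x ≤ 1 := by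
  rw [av_le_one_iff, P.v_le_one_iff]

lemma av_lt_one_iff (P : Place E) (x : E) : av P x < 1 ↔ P.v x < 1 := by
  by_cases hx : x = 0
  · simp [hx]
  rw [P.v_lt_one_iff hx, ← av_le_one_iff, map_inv₀, not_le,
    one_lt_inv₀ ((av P).pos hx)]

lemma av_smul (P : Place E) {g : E ≃ₐ[ℚ] E} (hg : g • P = P) (x : E) : av P (g x) = av P x := by
  by_cases hx : x = 0
  · simp [hx]
  have h : P.v (g x / x) = 1 := by
    rw [map_div₀, show g x = g • x from rfl, P.v_smul_eq g hg, div_self]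
    exact (Valuation.ne_zero_iff _).2 hx
  have h1 : av P (g x / x) = 1 := le_antisymm ((av_le_one_iff' P _).2 h.le)
    (not_lt.1 fun h2 => absurd ((av_lt_one_iff P _).1 h2) (by rw [h]; exact lt_irrefl _))
  rwa [map_div₀, div_eq_one_iff_eq ((av P).ne_zero hx)] at h1

/-- the completion at a place -/
abbrev CP (P : Place E) : Type := (av P).Completion

/-- the embedding in the completion -/
def emb (P : Place E) : E →+* CP P :=
  UniformSpace.Completion.coeRingHom.comp (WithAbs.equiv (av P)).symm.toRingHom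

lemma norm_emb (P : Place E) (x : E) : ‖emb P x‖ = av P x :=
  UniformSpace.Completion.norm_coe (WithAbs.toAbs (av P) x)

lemma dense_emb (P : Place E) : DenseRange (emb P) :=
  UniformSpace.Completion.denseRange_coe.comp
    (WithAbs.equiv (av P)).symm.surjective.denseRange (UniformSpace.Completion.continuous_coe _)

instance (P : Place E) : IsUltrametricDist (CP P) := by
  refine IsUltrametricDist.isUltrametricDist_of_forall_norm_add_le_max_norm fun x y => ?_
  refine (dense_emb P).induction_on₂ (p := fun x y => ‖x + y‖ ≤ max ‖x‖ ‖y‖)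
    (isClosed_le (by fun_prop) (by fun_prop)) (fun a b => ?_) x y
  rw [← map_add, norm_emb, norm_emb, norm_emb]
  exact av_nonarch P a b

instance (P : Place E) : NontriviallyNormedField (CP P) where
  non_trivial := ⟨emb P (P.rchar : E)⁻¹, by
    rw [norm_emb, map_inv₀, av_rchar, inv_inv]
    exact_mod_cast P.rchar_prime.one_lt⟩

instance (P : Place E) : CharZero (CP P) :=
  charZero_of_injective_ringHom (emb P).injective

instance [IsAlgClosed E] (P : Place E) : IsAlgClosed (CP P) := by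
  let := (emb P).toAlgebra
  exact IsAlgClosed.of_denseRange (K := E) (dense_emb P)

lemma countable_E : Countable E := by
  have h := Algebra.IsAlgebraic.cardinalMk_le_max ℚ E
  rw [mk_eq_aleph0 ℚ, max_self] at h
  exact mk_le_aleph0_iff.1 h

lemma mk_CP (P : Place E) : #(CP P) = 𝔠 := by
  refine le_antisymm ?_ (continuum_le_cardinal_of_nontriviallyNormedField _)
  have := countable_E (E := E)
  have h : Function.Surjective fun u : ℕ → E => Filter.limUnder Filter.atTop fun n => emb P (u n) := by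
    intro x
    obtain ⟨u, hu, hx⟩ := mem_closure_iff_seq_limit.1 (dense_emb P x)
    choose a ha using hu
    refine ⟨a, ?_⟩
    simp only [ha]
    exact hx.limUnder_eq
  refine (mk_le_of_surjective h).trans ?_
  rw [← power_def, mk_nat, ← aleph0_power_aleph0]
  exact power_le_power_right mk_le_aleph0

theorem exists_psi [IsAlgClosed E] (ι : E →+* ℂ) (P : Place E) :
    ∃ ψ : CP P ≃+* ℂ, ∀ x, ψ (emb P x) = ι x := by
  obtain ⟨ψ⟩ := IsAlgClosed.ringEquiv_of_equiv_of_charZero (K := CP P) (L := ℂ)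
    (by rw [mk_CP]; exact aleph0_lt_continuum) (Cardinal.eq.1 (by rw [mk_CP, mk_complex]))
  let := ι.toAlgebra
  have : IsScalarTower ℚ E ℂ := IsScalarTower.of_algebraMap_eq fun q => by
    simp [RingHom.algebraMap_toAlgebra]
  let φ : E →ₐ[ℚ] ℂ := (ψ.toRingHom.comp (emb P)).toRatAlgHom
  let g : E ≃ₐ[ℚ] E := φ.restrictNormal' E
  obtain ⟨σ, hσ⟩ := Crest.Agent.R007.RatAlg.exists_extend (F := E) g.toRingEquiv
  refine ⟨ψ.trans σ.symm, fun x => ?_⟩
  rw [RingEquiv.trans_apply, RingEquiv.symm_apply_eq]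
  refine Eq.trans ?_ (hσ x).symm
  exact (φ.restrictNormal_commutes E x).symm

variable [IsAlgClosed E] (ι : E →+* ℂ) (P : Place E)

/-- an isomorphism of the completion with `ℂ` extending `ι` -/
def psi : CP P ≃+* ℂ := (exists_psi ι P).choose

lemma psi_emb (x : E) : psi ι P (emb P x) = ι x := (exists_psi ι P).choose_spec x

lemma psi_symm (x : E) : (psi ι P).symm (ι x) = emb P x := by
  rw [← psi_emb ι P, RingEquiv.symm_apply_apply]

/-- the norm of `ℂ` over the place `P` -/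
def vC : Valuation ℂ ℝ≥0 := (NormedField.valuation (K := CP P)).comap (psi ι P).symm.toRingHom

lemma coe_vC (a : ℂ) : (vC ι P a : ℝ) = ‖(psi ι P).symm a‖ := rfl

lemma vC_psi (a : CP P) : vC ι P (psi ι P a) = ‖a‖₊ := by
  ext; rw [coe_vC, RingEquiv.symm_apply_apply]; rfl

lemma vC_iota (x : E) : (vC ι P (ι x) : ℝ) = av P x := by rw [coe_vC, psi_symm, norm_emb]

lemma vC_iota_le_one (x : E) : vC ι P (ι x) ≤ 1 ↔ P.v x ≤ 1 := by
  rw [← NNReal.coe_le_coe, vC_iota, ← av_le_one_iff']; rfl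

lemma vC_iota_lt_one (x : E) : vC ι P (ι x) < 1 ↔ P.v x < 1 := by
  rw [← NNReal.coe_lt_coe, vC_iota, ← av_lt_one_iff]; rfl

lemma vC_int_le_one (x : 𝓞 E) : vC ι P (ι x) ≤ 1 := (vC_iota_le_one ι P _).2 (P.v_int_le_one x)

lemma vC_int_lt_one (x : 𝓞 E) : vC ι P (ι x) < 1 ↔ x ∈ P.ideal :=
  (vC_iota_lt_one ι P _).trans (P.v_int_lt_one_iff x)

lemma vC_rchar : vC ι P (P.rchar : ℂ) = (P.rchar : ℝ≥0)⁻¹ := by
  ext
  rw [← map_natCast ι, vC_iota, av_rchar]
  simp

lemma vC_rchar_lt_one : vC ι P (P.rchar : ℂ) < 1 := by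
  rw [vC_rchar]
  exact inv_lt_one_of_one_lt₀ (by exact_mod_cast P.rchar_prime.one_lt)

lemma vC_natCast_eq_one {n : ℕ} (hn : ¬ P.rchar ∣ n) : vC ι P (n : ℂ) = 1 := by
  have h1 := vC_int_le_one ι P (n : 𝓞 E)
  have h2 := (vC_int_lt_one ι P (n : 𝓞 E)).not.2 (by rwa [P.natCast_mem_iff])
  have h3 : ι ((n : 𝓞 E) : E) = n := by
    rw [show ((n : 𝓞 E) : E) = (n : E) from map_natCast (algebraMap (𝓞 E) E) n, map_natCast]
  rw [h3] at h1 h2
  exact le_antisymm h1 (not_lt.1 h2)

/-- `ι E` is dense -/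
lemma exists_near (a : ℂ) {ε : ℝ≥0} (hε : 0 < ε) : ∃ x : E, vC ι P (a - ι x) < ε := by
  obtain ⟨x, hx⟩ := (dense_emb P).exists_dist_lt ((psi ι P).symm a) (show (0 : ℝ) < ε from hε)
  refine ⟨x, ?_⟩
  rw [← NNReal.coe_lt_coe, coe_vC, map_sub, psi_symm, ← dist_eq_norm]
  exact hx

/-- residues come from algebraic integers -/
lemma exists_int {a : ℂ} (ha : vC ι P a ≤ 1) : ∃ x : 𝓞 E, vC ι P (a - ι x) < 1 := by
  obtain ⟨x, hx⟩ := exists_near ι P a one_pos
  have h1 : vC ι P (ι x) ≤ 1 := by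
    have : ι x = a - (a - ι x) := by ring
    rw [this]
    exact (Valuation.map_sub _ _ _).trans (max_le ha hx.le)
  obtain ⟨b, s, hs, h⟩ := (P.v_le_one_iff x).1 ((vC_iota_le_one ι P x).1 h1)
  obtain ⟨t, u, hu, htu⟩ := P.isMaximal.exists_inv hs
  refine ⟨t * b, ?_⟩
  have e : a - ι ((t * b : 𝓞 E) : E) = (a - ι x) + ι x * ι u := by
    have h2 : algebraMap (𝓞 E) E t * algebraMap (𝓞 E) E s + algebraMap (𝓞 E) E u = 1 := by
      rw [← map_mul, ← map_add, htu, map_one]
    have h3 : ((t * b : 𝓞 E) : E) = x - x * (u : E) := by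
      change algebraMap (𝓞 E) E (t * b) = x - x * algebraMap (𝓞 E) E u
      rw [map_mul, ← h]
      linear_combination x * h2
    rw [h3, map_sub, map_mul]; ring
  rw [e]
  refine lt_of_le_of_lt (Valuation.map_add _ _ _) (max_lt hx ?_)
  rw [map_mul]
  exact mul_lt_one_of_nonneg_of_lt_one_right h1 zero_le ((vC_int_lt_one ι P u).2 hu)

/-! ### the decomposition group acts on `ℂ` -/

omit [IsAlgClosed E] in
lemma isometry_congr {g : E ≃ₐ[ℚ] E} (hg : g • P = P) :
    Isometry (WithAbs.congr (av P) (av P) g.toRingEquiv) :=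
  AddMonoidHomClass.isometry_of_norm _ fun x => av_smul P hg x.ofAbs

/-- extension by continuity -/
def extC (g : MulAction.stabilizer (E ≃ₐ[ℚ] E) P) : CP P ≃+* CP P :=
  UniformSpace.Completion.mapRingEquiv (WithAbs.congr (av P) (av P) g.1.toRingEquiv)
    (isometry_congr P g.2).continuous (isometry_congr P g⁻¹.2).continuous

omit [IsAlgClosed E] in
lemma continuous_extC (g : MulAction.stabilizer (E ≃ₐ[ℚ] E) P) : Continuous (extC P g) :=
  UniformSpace.Completion.continuous_map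

omit [IsAlgClosed E] in
lemma extC_emb (g : MulAction.stabilizer (E ≃ₐ[ℚ] E) P) (x : E) :
    extC P g (emb P x) = emb P (g.1 x) :=
  UniformSpace.Completion.mapRingHom_coe
    (f := (WithAbs.congr (av P) (av P) g.1.toRingEquiv).toRingHom)
    (isometry_congr P g.2).continuous (WithAbs.toAbs (av P) x)

omit [IsAlgClosed E] in
lemma norm_extC (g : MulAction.stabilizer (E ≃ₐ[ℚ] E) P) (x : CP P) : ‖extC P g x‖ = ‖x‖ := by
  refine (dense_emb P).induction_on (p := fun x => ‖extC P g x‖ = ‖x‖) x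
    (isClosed_eq (continuous_extC P g).norm continuous_norm) fun a => ?_
  rw [extC_emb, norm_emb, norm_emb, av_smul P g.2]

/-- the action of the decomposition group on the completion -/
def extH : MulAction.stabilizer (E ≃ₐ[ℚ] E) P →* (CP P ≃+* CP P) :=
  MonoidHom.mk' (extC P) fun g h => RingEquiv.ext fun x => by
    refine (dense_emb P).induction_on (p := fun x => extC P (g * h) x = extC P g (extC P h x)) x
      (isClosed_eq (continuous_extC P _) ((continuous_extC P g).comp (continuous_extC P h)))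
      fun a => ?_
    rw [extC_emb, extC_emb, extC_emb]
    rfl

/-- the action of the decomposition group on `ℂ` -/
def lft : MulAction.stabilizer (E ≃ₐ[ℚ] E) P →* (ℂ ≃+* ℂ) :=
  MonoidHom.mk' (fun g => (psi ι P).symm.trans ((extH P g).trans (psi ι P))) fun g h =>
    RingEquiv.ext fun x => by simp

lemma lft_apply (g : MulAction.stabilizer (E ≃ₐ[ℚ] E) P) (a : ℂ) :
    lft ι P g a = psi ι P (extC P g ((psi ι P).symm a)) := rfl

lemma lft_iota (g : MulAction.stabilizer (E ≃ₐ[ℚ] E) P) (x : E) :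
    lft ι P g (ι x) = ι (g.1 x) := by rw [lft_apply, psi_symm, extC_emb, psi_emb]

lemma vC_lft (g : MulAction.stabilizer (E ≃ₐ[ℚ] E) P) (a : ℂ) :
    vC ι P (lft ι P g a) = vC ι P a := by
  ext; rw [lft_apply, vC_psi, coe_nnnorm, norm_extC, coe_vC]

/-- residue action: it is read on algebraic integers -/
lemma vC_lft_sub_pow (g : MulAction.stabilizer (E ≃ₐ[ℚ] E) P) (q : ℕ)
    (hg : ∀ x : 𝓞 E, g.1 • x - x ^ q ∈ P.ideal) {a : ℂ} (ha : vC ι P a ≤ 1) :
    vC ι P (lft ι P g a - a ^ q) < 1 := by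
  obtain ⟨x, hx⟩ := exists_int ι P ha
  have h1 : vC ι P (lft ι P g a - ι (g.1 x)) < 1 := by rwa [← lft_iota, ← map_sub, vC_lft]
  have h2 : vC ι P (ι (g.1 x) - ι x ^ q) < 1 := by
    have := (vC_int_lt_one ι P _).2 (hg x)
    rwa [show ((g.1 • x - x ^ q : 𝓞 E) : E) = g.1 x - (x : E) ^ q from by
      change algebraMap (𝓞 E) E _ = _
      rw [map_sub, map_pow, Place.smul_coe]; rfl, map_sub, map_pow] at this
  have h3 : vC ι P (a ^ q - ι x ^ q) < 1 := by
    rw [← Commute.geom_sum₂_mul (Commute.all _ _), map_mul]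
    refine mul_lt_one_of_nonneg_of_lt_one_right (Valuation.map_sum_le _ fun i _ => ?_) zero_le hx
    rw [map_mul, map_pow, map_pow]
    exact mul_le_one' (pow_le_one' ha _) (pow_le_one' (vC_int_le_one ι P x) _)
  have e : lft ι P g a - a ^ q =
      (lft ι P g a - ι (g.1 x)) + (ι (g.1 x) - ι x ^ q) - (a ^ q - ι x ^ q) := by ring
  rw [e]
  exact lt_of_le_of_lt (Valuation.map_sub _ _ _)
    (max_lt (lt_of_le_of_lt (Valuation.map_add _ _ _) (max_lt h1 h2)) h3)

lemma vC_lft_sub (g : MulAction.stabilizer (E ≃ₐ[ℚ] E) P)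
    (hg : g.1 ∈ P.ideal.inertia (E ≃ₐ[ℚ] E)) {a : ℂ} (ha : vC ι P a ≤ 1) :
    vC ι P (lft ι P g a - a) < 1 := by
  have := vC_lft_sub_pow ι P g 1 (fun x => by rw [pow_one]; exact hg x) ha
  rwa [pow_one] at this

omit [IsAlgClosed E] in
/-- a Frobenius element lies in the decomposition group -/
lemma frob_mem {g : E ≃ₐ[ℚ] E} {q : ℕ} (hq : q ≠ 0) (hg : ∀ x : 𝓞 E, g • x - x ^ q ∈ P.ideal) :
    g ∈ MulAction.stabilizer (E ≃ₐ[ℚ] E) P := by
  rw [MulAction.mem_stabilizer_iff]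
  refine Place.ext_of_ideal_le fun x hx => ?_
  rw [Place.mem_smul_ideal] at hx
  have h1 := hg (g⁻¹ • x)
  rw [smul_inv_smul] at h1
  simpa using add_mem h1 (Ideal.pow_mem_of_mem _ hx q (Nat.pos_of_ne_zero hq))


omit [IsGalois ℚ E] [IsAlgClosed E] in
/-- every automorphism of `E` lifts to `ℂ` -/
theorem exists_lift (g : E ≃ₐ[ℚ] E) : ∃ σ : ℂ ≃+* ℂ, ∀ x, σ (ι x) = ι (g x) := by
  let := ι.toAlgebra
  exact Crest.Agent.R007.RatAlg.exists_extend (F := E) g.toRingEquiv

omit [IsAlgClosed E] in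
/-- every automorphism of `ℂ` restricts to `E` -/
theorem exists_restrict (σ : ℂ ≃+* ℂ) : ∃ g : E ≃ₐ[ℚ] E, ∀ x, σ (ι x) = ι (g x) := by
  let := ι.toAlgebra
  have : IsScalarTower ℚ E ℂ := IsScalarTower.of_algebraMap_eq fun q => by
    simp [RingHom.algebraMap_toAlgebra]
  let φ : E →ₐ[ℚ] ℂ := (σ.toRingHom.comp ι).toRatAlgHom
  exact ⟨φ.restrictNormal' E, fun x => (φ.restrictNormal_commutes E x).symm⟩

/-- the restriction `Aut ℂ → Gal(E/ℚ)` -/
def resA : (ℂ ≃+* ℂ) →* (E ≃ₐ[ℚ] E) :=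
  MonoidHom.mk' (fun σ => (exists_restrict ι σ).choose) fun σ τ => AlgEquiv.ext fun x =>
    ι.injective (by
      rw [← (exists_restrict ι (σ * τ)).choose_spec, AlgEquiv.mul_apply,
        ← (exists_restrict ι σ).choose_spec, ← (exists_restrict ι τ).choose_spec]
      rfl)

omit [IsAlgClosed E] in
lemma iota_resA (σ : ℂ ≃+* ℂ) (x : E) : ι (resA ι σ x) = σ (ι x) :=
  ((exists_restrict ι σ).choose_spec x).symm

omit [IsAlgClosed E] in
lemma resA_eq {σ : ℂ ≃+* ℂ} {g : E ≃ₐ[ℚ] E} (h : ∀ x, σ (ι x) = ι (g x)) : resA ι σ = g :=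
  AlgEquiv.ext fun x => ι.injective (by rw [iota_resA, h])

omit [IsAlgClosed E] in
lemma resA_surjective : Function.Surjective (resA ι) := fun g =>
  let ⟨σ, h⟩ := exists_lift ι g
  ⟨σ, resA_eq ι h⟩

lemma resA_lft (g : MulAction.stabilizer (E ≃ₐ[ℚ] E) P) : resA ι (lft ι P g) = g.1 :=
  resA_eq ι (lft_iota ι P g)

end Crest.Agent.T15.Cg

end
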