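import Mathlib
import Crest.Agent.R013.GR7_921
import Crest.Agent.R013.GR9_921
import Crest.Agent.R013.GR3_921
import Crest.Agent.R013.Ins3_240
import Crest.Agent.R013.Kumv_275
import Crest.Agent.R013.Frob1_914

-- ▼ part T15/CtA_92
section

/-!
# Row 15, block F (helper92): several norms on a function field, part A

* `bg` : Birkhoff-Grothendieck basis of `L` over `C(z)` in polynomial words;
* `sep_one`, `exists_e`, `approx1`, `approx` : independence of distinct norms;
* `deg_le` : the degrees of the reductions add up to at most the degree.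
-/

set_option autoImplicit false
set_option linter.all false

namespace Crest.Agent.T15.Ct

open Polynomial WithZero Module IsDedekindDomain
open scoped NNReal
open Crest.Agent.R013.RR2_948 Crest.Agent.R013.RR4_948 Crest.Agent.R013.RR5_948
open Crest.Agent.R013.RR6_948
open Crest.Agent.R013.RR7_948 Crest.Agent.R013.RR8_948 Crest.Agent.R013.RR9_948
open Crest.Agent.R013.RR11_948 Crest.Agent.R013.RR12_948
open Crest.Agent.R013.RR18_948 Crest.Agent.R013.RR19_948 Crest.Agent.R013.RR20_948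
open Crest.Agent.R013.GR2_921 Crest.Agent.R013.GR4_921
open Crest.Agent.R013.GR5_921 Crest.Agent.R013.GR6_921 Crest.Agent.R013.GR7_921

section bg

variable {C L : Type*} [Field C] [Field L] [Algebra C L]

/-- a Birkhoff-Grothendieck basis for the function `z` -/
structure BG (C : Type*) {L : Type*} [Field C] [Field L] [Algebra C L] (z : L) {d : ℕ}
    (β : Fin d → L) (δ : Fin d → ℤ) : Prop where
  ind : ∀ p : Fin d → C[X], ∑ j, aeval z (p j) * β j = 0 → ∀ j, p j = 0
  span : ∀ u : L, ∃ s : C[X], s ≠ 0 ∧ ∃ p : Fin d → C[X],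
    aeval z s * u = ∑ j, aeval z (p j) * β j
  fin : ∀ u : L, (∀ P : Pl C L, P.v z ≤ 1 → P.v u ≤ 1) ↔
    ∃ p : Fin d → C[X], u = ∑ j, aeval z (p j) * β j
  inf : ∀ (m : ℕ) (u : L) (p : Fin d → C[X]), z ^ m * u = ∑ j, aeval z (p j) * β j →
    ((∀ P : Pl C L, 1 < P.v z → P.v u ≤ 1) ↔
      ∀ j (n : ℕ), (m : ℤ) + δ j < n → (p j).coeff n = 0)

theorem alg_poly [Algebra (RatFunc C) L] [IsScalarTower C (RatFunc C) L] (p : C[X]) :
    algebraMap (RatFunc C) L (algebraMap C[X] (RatFunc C) p) = aeval (xK C L) p := by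
  have h1 : algebraMap C[X] (RatFunc C) p = aeval (RatFunc.X : RatFunc C) p := by
    rw [RatFunc.aeval_X_left_eq_algebraMap]
  rw [h1]
  exact (aeval_algHom_apply (IsScalarTower.toAlgHom C (RatFunc C) L) RatFunc.X p).symm

theorem bg0 [Algebra (RatFunc C) L] [IsScalarTower C (RatFunc C) L]
    [FiniteDimensional (RatFunc C) L] [Algebra.IsSeparable (RatFunc C) L] :
    ∃ (d : ℕ) (β : Fin d → L) (δ : Fin d → ℤ), BG C (xK C L) β δ := by
  classical
  use_charts C, L
  obtain ⟨b0, hb0⟩ := exists_basis_fid C[X] (RatFunc C) L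
    (cut (integralClosure C[X] L) (0 : Pl C L →₀ ℤ))
  obtain ⟨c, hc⟩ := exists_basis_fid (Rinf C) (RatFunc C) L
    (cut (integralClosure (Rinf C) L) (0 : Pl C L →₀ ℤ))
  obtain ⟨b, δ, h1, h2⟩ := exists_common_basis b0 c
  have H0 : ∀ u : L, (∀ P : Pl C L, P.v (xK C L) ≤ 1 → P.v u ≤ 1) ↔
      ∀ j, b.repr u j ∈ polyS C := by
    intro u
    rw [← h1]
    have h3 : u ∈ NA (integralClosure C[X] L) (0 : Pl C L →₀ ℤ) ↔
        u ∈ Submodule.span C[X] (Set.range b0) := by
      rw [hb0]; rfl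
    rw [b0.mem_span_iff_repr_mem C[X], mem_NA] at h3
    simp only [mem_polyS]
    rw [← h3]
    constructor
    · intro h w
      rw [Finsupp.zero_apply, exp_zero]
      exact h _ (ofH₀_le w)
    · intro h P hP
      obtain ⟨w, rfl⟩ := exists_ofH₀ (A₀ := integralClosure C[X] L) P hP
      have := h w
      rwa [Finsupp.zero_apply, exp_zero] at this
  have H1 : ∀ u : L, (∀ P : Pl C L, 1 < P.v (xK C L) → P.v u ≤ 1) ↔
      ∀ j, vinf C (b.repr u j) ≤ exp (δ j) := by
    intro u
    rw [← h2]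
    have h3 : u ∈ NA (integralClosure (Rinf C) L) (0 : Pl C L →₀ ℤ) ↔
        u ∈ Submodule.span (Rinf C) (Set.range c) := by
      rw [hc]; rfl
    rw [c.mem_span_iff_repr_mem (Rinf C), mem_NA] at h3
    have h4 : (∀ i, vinf C (c.repr u i) ≤ 1) ↔
        ∀ i, c.repr u i ∈ Set.range (algebraMap (Rinf C) (RatFunc C)) := by
      refine forall_congr' fun j => ?_
      constructor
      · intro h; exact ⟨⟨_, h⟩, rfl⟩
      · rintro ⟨s, hs⟩; rw [← hs]; exact s.2
    rw [h4, ← h3]
    constructor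
    · intro h w
      rw [Finsupp.zero_apply, exp_zero]
      exact h _ (ofH₁_lt w)
    · intro h P hP
      obtain ⟨w, rfl⟩ := exists_ofH₁ (A₁ := integralClosure (Rinf C) L) P hP
      have := h w
      rwa [Finsupp.zero_apply, exp_zero] at this
  have hsum : ∀ p : Fin (finrank (RatFunc C) L) → C[X], ∑ j, aeval (xK C L) (p j) * b j =
      ∑ j, algebraMap C[X] (RatFunc C) (p j) • b j := by
    intro p
    refine Finset.sum_congr rfl fun j _ => ?_
    rw [Algebra.smul_def, alg_poly]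
  have hrepr : ∀ (p : Fin (finrank (RatFunc C) L) → C[X]) j,
      b.repr (∑ j, aeval (xK C L) (p j) * b j) j = algebraMap C[X] (RatFunc C) (p j) := by
    intro p j
    rw [hsum, b.repr_sum_self]
  refine ⟨_, b, δ, ?_, ?_, ?_, ?_⟩
  · intro p hp j
    have h3 := hrepr p j
    rw [hp, map_zero, Finsupp.zero_apply] at h3
    exact (FaithfulSMul.algebraMap_injective C[X] (RatFunc C)) (by rw [← h3, map_zero])
  · intro u
    obtain ⟨s, hs⟩ := IsLocalization.exist_integer_multiples_of_finite (nonZeroDivisors C[X])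
      (fun j => b.repr u j)
    choose p hp using hs
    refine ⟨s, nonZeroDivisors.ne_zero s.2, p, ?_⟩
    rw [hsum]
    conv_lhs => rw [← b.sum_repr u]
    rw [← alg_poly, ← Algebra.smul_def, Finset.smul_sum]
    refine Finset.sum_congr rfl fun j _ => ?_
    rw [hp j, smul_smul, Algebra.smul_def (s : C[X])]
  · intro u
    rw [H0]
    constructor
    · intro h
      simp only [mem_polyS] at h
      choose p hp using h
      refine ⟨p, ?_⟩
      rw [hsum]
      conv_lhs => rw [← b.sum_repr u]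
      exact Finset.sum_congr rfl fun j _ => by rw [hp j]
    · rintro ⟨p, rfl⟩ j
      rw [hrepr, mem_polyS]
      exact ⟨_, rfl⟩
  · intro m u p hp
    rw [H1]
    refine forall_congr' fun j => ?_
    have h3 : RatFunc.X ^ m * b.repr u j = algebraMap C[X] (RatFunc C) (p j) := by
      rw [← hrepr, ← hp]
      have h4 : xK C L ^ m * u = (RatFunc.X ^ m : RatFunc C) • u := by
        rw [Algebra.smul_def, map_pow]; rfl
      rw [h4, map_smul, Finsupp.smul_apply, smul_eq_mul]
    have h5 : exp (m : ℤ) * vinf C (b.repr u j) = vinf C (algebraMap C[X] (RatFunc C) (p j)) := by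
      rw [← h3, map_mul, map_pow, vinf_X, ← exp_nsmul]; simp
    have h6 : vinf C (b.repr u j) ≤ exp (δ j) ↔
        vinf C (algebraMap C[X] (RatFunc C) (p j)) ≤ exp ((m : ℤ) + δ j) := by
      rw [← h5, exp_add, mul_le_mul_iff_right₀ (by simp)]
    rw [h6]
    by_cases h0 : p j = 0
    · rw [h0, map_zero, map_zero]
      simp
    · rw [vinf_poly C h0, exp_le_exp]
      constructor
      · intro h n hn
        exact coeff_eq_zero_of_natDegree_lt (by omega)
      · intro h
        by_contra hcon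
        exact h0 (leadingCoeff_eq_zero.mp (h _ (not_le.mp hcon)))

theorem bg [CharZero C] [Algebra (RatFunc C) L] [IsScalarTower C (RatFunc C) L]
    [FiniteDimensional (RatFunc C) L] (z : L) (hz : Transcendental C z) :
    ∃ (d : ℕ) (β : Fin d → L) (δ : Fin d → ℤ), BG C z β δ := by
  have hfin := ratAlg_finite (k := C) z hz
  have hsep := ratAlg_isSeparable (k := C) z hz
  have hx := ratAlg_xK (k := C) z hz
  letI := ratAlg z hz
  haveI := ratAlg_tower z hz
  haveI : FiniteDimensional (RatFunc C) L := hfin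
  haveI : Algebra.IsSeparable (RatFunc C) L := hsep
  have h := bg0 (C := C) (L := L)
  rw [hx] at h
  exact h

/-- common denominators -/
theorem common {z : L} {d : ℕ} {β : Fin d → L}
    (hs : ∀ u : L, ∃ s : C[X], s ≠ 0 ∧ ∃ p : Fin d → C[X],
      aeval z s * u = ∑ j, aeval z (p j) * β j) {A : Type*} [Fintype A] (v : A → L) :
    ∃ Q : C[X], Q ≠ 0 ∧ ∃ P : A → Fin d → C[X], ∀ a,
      aeval z Q * v a = ∑ j, aeval z (P a j) * β j := by
  classical
  choose s hs0 p hp using fun a => hs (v a)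
  refine ⟨∏ a, s a, Finset.prod_ne_zero_iff.mpr fun a _ => hs0 a,
    fun a j => (∏ a' ∈ Finset.univ.erase a, s a') * p a j, fun a => ?_⟩
  rw [← Finset.prod_erase_mul _ _ (Finset.mem_univ a), map_mul, mul_assoc, hp, Finset.mul_sum]
  refine Finset.sum_congr rfl fun j _ => ?_
  rw [map_mul, mul_assoc]

end bg

section approx

variable {C L k : Type*} [Field C] [Field L] [Algebra C L] [Field k]
  {ι : Type*} [Fintype ι] {κ : ι → Type*} [∀ i, Field (κ i)] [∀ i, Algebra k (κ i)]
  {vC : Valuation C ℝ≥0} {ρC : C → k} {w : ι → Valuation L ℝ≥0} {ρ : ∀ i, L → κ i}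

theorem sep_one (h : ∀ i, Red vC ρC (w i) (ρ i)) (hw : Function.Injective w) {i j : ι}
    (hij : i ≠ j) : ∃ x : L, w i x = 1 ∧ w j x < 1 := by
  have hne : ∃ f, w i f ≠ w j f := by
    by_contra hcon
    push Not at hcon
    exact hij (hw (Valuation.ext hcon))
  obtain ⟨f, hf⟩ := hne
  have hf0 : f ≠ 0 := by rintro rfl; simp at hf
  obtain ⟨c, hc0, hc1, hc2⟩ := (h i).normalise hf0
  have hvc : vC c ≠ 0 := (Valuation.ne_zero_iff _).mpr hc0
  have hxj : w j (f * algebraMap C L c⁻¹) ≠ 1 := by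
    intro h1
    apply hf
    rw [hc1]
    rw [map_mul, (h j).norm, map_inv₀, mul_inv_eq_one₀ hvc] at h1
    exact h1.symm
  rcases lt_or_gt_of_ne hxj with h1 | h1
  · exact ⟨_, hc2, h1⟩
  · refine ⟨(f * algebraMap C L c⁻¹)⁻¹, by rw [map_inv₀, hc2, inv_one], ?_⟩
    rw [map_inv₀]; exact inv_lt_one_of_one_lt₀ h1

theorem bound [Infinite k] (h : ∀ i, Red vC ρC (w i) (ρ i)) (x : L) :
    ∃ x' : L, ∀ m, (w m x ≤ 1 → w m x' = w m x) ∧ w m x' ≤ 1 := by
  classical
  by_cases hι : Nonempty ι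
  swap
  · exact ⟨0, fun m => absurd ⟨m⟩ hι⟩
  obtain ⟨i0⟩ := hι
  have hfin : (⋃ m, {c : k | algebraMap k (κ m) c = ρ m x}).Finite := by
    refine Set.finite_iUnion fun m => Set.Subsingleton.finite ?_
    intro a ha b hb
    exact (algebraMap k (κ m)).injective (ha.trans hb.symm)
  obtain ⟨cb, hcb⟩ := hfin.infinite_compl.nonempty
  obtain ⟨c, hc1, hc2⟩ := (h i0).resC.surj cb
  refine ⟨x / (x - algebraMap C L c), fun m => ?_⟩
  have hcw : w m (algebraMap C L c) ≤ 1 := by rw [(h m).norm]; exact hc1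
  have key : w m x ≤ 1 → w m (x / (x - algebraMap C L c)) = w m x := by
    intro hx
    have h1 : ρ m (x - algebraMap C L c) ≠ 0 := by
      rw [(h m).res.sub hx hcw, (h m).comp c hc1, hc2, sub_ne_zero]
      intro h2
      exact hcb (Set.mem_iUnion.mpr ⟨m, h2.symm⟩)
    rw [(h m).res.ne_zero_iff ((Valuation.map_sub _ _ _).trans (max_le hx hcw))] at h1
    rw [map_div₀, h1, div_one]
  refine ⟨key, ?_⟩
  by_cases hx : w m x ≤ 1
  · rw [key hx]; exact hx
  · rw [not_le] at hx
    rw [map_div₀, Valuation.map_sub_eq_of_lt_left _ (hcw.trans_lt hx)]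
    exact div_self_le_one _

theorem exists_e [Infinite k] (h : ∀ i, Red vC ρC (w i) (ρ i)) (hw : Function.Injective w)
    (i : ι) : ∃ e : L, w i (e - 1) < 1 ∧ ∀ j, j ≠ i → w j e < 1 := by
  classical
  have h1 : ∀ j, ∃ x : L, (∀ m, w m x ≤ 1) ∧ w i x = 1 ∧ (j ≠ i → w j x < 1) := by
    intro j
    by_cases hj : j = i
    · exact ⟨1, fun m => by simp, by simp, fun h => absurd hj h⟩
    · obtain ⟨x, hx1, hx2⟩ := sep_one h hw (Ne.symm hj)
      obtain ⟨x', hx'⟩ := bound h x
      exact ⟨x', fun m => (hx' m).2, ((hx' i).1 hx1.le).trans hx1,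
        fun _ => by rw [(hx' j).1 hx2.le]; exact hx2⟩
  choose x hx1 hx2 hx3 using h1
  set y := ∏ j, x j with hy
  have hyi : w i y = 1 := by
    rw [hy, map_prod]; exact Finset.prod_eq_one fun j _ => hx2 j
  have hyj : ∀ j, j ≠ i → w j y < 1 := by
    intro j hj
    rw [hy, ← Finset.mul_prod_erase _ _ (Finset.mem_univ j), map_mul, map_prod]
    exact mul_lt_one_of_lt_of_le (hx3 j hj) (Finset.prod_le_one' fun m _ => hx1 m j)
  have hy0 : y ≠ 0 := by rintro h0; rw [h0] at hyi; simp at hyi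
  by_cases hne : (Finset.univ.filter fun j => j ≠ i).Nonempty
  swap
  · refine ⟨1, by simp, fun j hj => absurd ⟨j, by simp [hj]⟩ hne⟩
  obtain ⟨j0, hj0, hmax⟩ := Finset.exists_max_image _ (fun j => w j y) hne
  have hj0' : j0 ≠ i := (Finset.mem_filter.mp hj0).2
  obtain ⟨c, hc0, hc⟩ := (h j0).val_ne hy0
  have hθ1 : vC c < 1 := by rw [← hc]; exact hyj j0 hj0'
  have hθ0 : 0 < vC c := by rw [Valuation.pos_iff]; exact hc0
  have hden : w i (y ^ 2 + algebraMap C L c) = 1 := by
    rw [Valuation.map_add_eq_of_lt_left, map_pow, hyi, one_pow]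
    rw [map_pow, hyi, one_pow, (h i).norm]; exact hθ1
  have hden0 : y ^ 2 + algebraMap C L c ≠ 0 := by
    intro h0; rw [h0] at hden; simp at hden
  refine ⟨y ^ 2 / (y ^ 2 + algebraMap C L c), ?_, fun j hj => ?_⟩
  · have e : y ^ 2 / (y ^ 2 + algebraMap C L c) - 1 =
        -(algebraMap C L c) / (y ^ 2 + algebraMap C L c) := by
      field_simp; ring
    rw [e, map_div₀, hden, div_one, Valuation.map_neg, (h i).norm]; exact hθ1
  · have h2 : w j y ≤ vC c := by
      rw [← hc]; exact hmax j (by simp [hj])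
    have h3 : w j (y ^ 2) < vC c := by
      rw [map_pow, pow_two]
      calc w j y * w j y ≤ vC c * vC c := mul_le_mul' h2 h2
        _ < vC c := mul_lt_of_lt_one_right hθ0 hθ1
    rw [map_div₀, Valuation.map_add_eq_of_lt_right, (h j).norm, div_lt_one hθ0]
    · exact h3
    · rw [(h j).norm]; exact h3

theorem approx1 [Infinite k] (h : ∀ i, Red vC ρC (w i) (ρ i)) (hw : Function.Injective w)
    (i : ι) (a : κ i) : ∃ u : L, (∀ m, w m u ≤ 1) ∧ ρ i u = a ∧ ∀ j, j ≠ i → ρ j u = 0 := by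
  classical
  obtain ⟨e, he1, he2⟩ := exists_e h hw i
  obtain ⟨g, hg1, hg2⟩ := (h i).res.surj a
  have hei : w i e = 1 := by
    have : e = 1 + (e - 1) := by ring
    rw [this, Valuation.map_add_eq_of_lt_left, map_one]
    rw [map_one]; exact he1
  have hρe : ρ i e = 1 := by
    rw [← (h i).res.one, (h i).res.eq_iff hei.le (by simp)]; exact he1
  have h1 : ∀ j, ∃ M : ℕ, j ≠ i → w j g * w j e ^ M < 1 := by
    intro j
    by_cases hj : j = i
    · exact ⟨0, fun h => absurd hj h⟩
    · obtain ⟨M, hM⟩ := exists_pow_lt_of_lt_one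
        (show (0 : ℝ≥0) < (w j g + 1)⁻¹ by positivity) (he2 j hj)
      refine ⟨M, fun _ => ?_⟩
      calc w j g * w j e ^ M ≤ (w j g + 1) * w j e ^ M := mul_le_mul_left (by simp) _
        _ < (w j g + 1) * (w j g + 1)⁻¹ := mul_lt_mul_of_pos_left hM (by positivity)
        _ = 1 := mul_inv_cancel₀ (by positivity)
  choose M hM using h1
  set N := Finset.univ.sup M with hN
  have hlt : ∀ j, j ≠ i → w j (g * e ^ N) < 1 := by
    intro j hj
    rw [map_mul, map_pow]
    refine lt_of_le_of_lt (mul_le_mul_right ?_ _) (hM j hj)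
    exact pow_le_pow_of_le_one zero_le (he2 j hj).le (Finset.le_sup (f := M) (Finset.mem_univ j))
  have hpow : w i (e ^ N) ≤ 1 := by rw [map_pow, hei, one_pow]
  refine ⟨g * e ^ N, fun m => ?_, ?_, fun j hj => ?_⟩
  · by_cases hm : m = i
    · subst hm
      rw [map_mul]; exact mul_le_one' hg1 hpow
    · exact (hlt m hm).le
  · rw [(h i).res.mul _ _ hg1 hpow, (h i).res.pow hei.le, hρe, one_pow, mul_one, hg2]
  · rw [(h j).res.zero_iff _ (hlt j hj).le]; exact hlt j hj

theorem approx [Infinite k] (h : ∀ i, Red vC ρC (w i) (ρ i)) (hw : Function.Injective w)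
    (a : ∀ i, κ i) : ∃ u : L, (∀ m, w m u ≤ 1) ∧ ∀ i, ρ i u = a i := by
  classical
  choose u h1 h2 h3 using fun i => approx1 h hw i (a i)
  refine ⟨∑ i, u i, fun m => Valuation.map_sum_le _ fun i _ => h1 i m, fun i => ?_⟩
  rw [(h i).res.sum _ _ fun j _ => h1 j i, Finset.sum_eq_single i, h2]
  · intro j _ hj; exact h3 j i (Ne.symm hj)
  · intro h'; exact absurd (Finset.mem_univ i) h'

/-- normalisation of a family of polynomials -/
theorem norm_fam (vC : Valuation C ℝ≥0) {J : Type*} [Fintype J] (Φ : J → C[X]) {i1 : J}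
    (hi1 : Φ i1 ≠ 0) : ∃ (c : C) (i0 : J) (n0 : ℕ), c ≠ 0 ∧
      (∀ i n, vC ((Polynomial.C c * Φ i).coeff n) ≤ 1) ∧ (Polynomial.C c * Φ i0).coeff n0 = 1 := by
  classical
  let N := Finset.univ.sup fun i => (Φ i).natDegree
  have hN : ∀ i, (Φ i).natDegree ≤ N := fun i =>
    Finset.le_sup (f := fun i => (Φ i).natDegree) (Finset.mem_univ i)
  obtain ⟨⟨i0, n0⟩, _, hmax⟩ := Finset.exists_max_image
    (Finset.univ ×ˢ Finset.range (N + 1) : Finset (J × ℕ)) (fun x => vC ((Φ x.1).coeff x.2))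
    ⟨(i1, 0), by simp⟩
  have hmax' : ∀ i n, vC ((Φ i).coeff n) ≤ vC ((Φ i0).coeff n0) := by
    intro i n
    by_cases hn : n < N + 1
    · exact hmax (i, n) (by simp; omega)
    · rw [coeff_eq_zero_of_natDegree_lt (by have := hN i; omega), map_zero]
      exact zero_le
  set c := (Φ i0).coeff n0 with hc
  have hc0 : c ≠ 0 := by
    intro h0
    have h1 := hmax' i1 (Φ i1).natDegree
    rw [h0, map_zero] at h1
    have h2 := (Valuation.zero_iff vC).mp (le_antisymm h1 zero_le)
    exact hi1 (leadingCoeff_eq_zero.mp h2)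
  have hvc : 0 < vC c := by rw [Valuation.pos_iff]; exact hc0
  refine ⟨c⁻¹, i0, n0, inv_ne_zero hc0, fun i n => ?_, ?_⟩
  · rw [coeff_C_mul, map_mul, map_inv₀, inv_mul_le_iff₀ hvc, mul_one]
    exact hmax' i n
  · rw [coeff_C_mul, ← hc, inv_mul_cancel₀ hc0]

end approx

section deg

variable {C : Type*} [Field C] [IsAlgClosed C] [CharZero C] {L : Type*} [Field L] [Algebra C L]
  [Algebra (RatFunc C) L] [IsScalarTower C (RatFunc C) L] [FiniteDimensional (RatFunc C) L]
  {k : Type*} [Field k] [IsAlgClosed k]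
  {ι : Type*} [Fintype ι] {κ : ι → Type*} [∀ i, Field (κ i)] [∀ i, Algebra k (κ i)]
  [∀ i, Algebra (RatFunc k) (κ i)] [∀ i, IsScalarTower k (RatFunc k) (κ i)]
  [∀ i, FiniteDimensional (RatFunc k) (κ i)] [∀ i, Algebra.IsSeparable (RatFunc k) (κ i)]
  {vC : Valuation C ℝ≥0} {ρC : C → k} {w : ι → Valuation L ℝ≥0} {ρ : ∀ i, L → κ i}

theorem card_le_deg {t : L} (htr : Transcendental C t) {J : Type*} [Fintype J] (g : J → L)
    (hind : ∀ Φ : J → C[X], ∑ i, aeval t (Φ i) * g i = 0 → ∀ i, Φ i = 0) :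
    (Fintype.card J : ℤ) ≤ degD (poles (k := C) t) := by
  have hfin := ratAlg_finite (k := C) t htr
  have hsep := ratAlg_isSeparable (k := C) t htr
  have hdeg := degD_poles_eq (k := C) t htr hsep
  have hx := ratAlg_xK (k := C) t htr
  have hle : Fintype.card J ≤ @finrank (RatFunc C) L _ _ (ratAlg t htr).toModule := by
    letI := ratAlg t htr
    haveI := ratAlg_tower t htr
    haveI : FiniteDimensional (RatFunc C) L := hfin
    letI : Algebra C[X] L :=
      ((algebraMap (RatFunc C) L).comp (algebraMap C[X] (RatFunc C))).toAlgebra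
    haveI : IsScalarTower C[X] (RatFunc C) L := IsScalarTower.of_algebraMap_eq fun _ => rfl
    have hmap : ∀ f : C[X], algebraMap C[X] L f = aeval t f := by
      intro f
      have h1 := alg_poly (C := C) (L := L) f
      rw [hx] at h1
      exact h1
    have hli : LinearIndependent C[X] g := by
      rw [Fintype.linearIndependent_iff]
      intro Φ hΦ
      apply hind Φ
      rw [← hΦ]
      refine Finset.sum_congr rfl fun i _ => ?_
      rw [Algebra.smul_def, hmap]
    have hli2 : LinearIndependent (RatFunc C) g :=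
      (LinearIndependent.iff_fractionRing C[X] (RatFunc C)).mp hli
    exact hli2.fintype_card_le_finrank
  rw [hdeg]
  exact_mod_cast hle

/-- **(DEG)** for several norms -/
theorem deg_le (h : ∀ i, Red vC ρC (w i) (ρ i)) (hw : Function.Injective w) {u : L}
    (htr : Transcendental C u) (hu : ∀ i, w i u = 1) :
    ∑ i, degD (poles (k := k) (ρ i u)) ≤ degD (poles (k := C) u) := by
  classical
  haveI : Infinite k := IsAlgClosed.instInfinite
  have hu0 : u ≠ 0 := by rintro rfl; exact htr isAlgebraic_zero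
  have hρu0 : ∀ i, ρ i u ≠ 0 := fun i => by rw [(h i).res.ne_zero_iff (hu i).le]; exact hu i
  set t := u⁻¹ with ht
  have hwt : ∀ i, w i t = 1 := fun i => by rw [ht, map_inv₀, hu, inv_one]
  have hρt : ∀ i, ρ i t = (ρ i u)⁻¹ := fun i => (h i).res.inv (hu i)
  have hρt0 : ∀ i, ρ i t ≠ 0 := fun i => by rw [hρt]; exact inv_ne_zero (hρu0 i)
  have htt : Transcendental C t := fun ha => htr (by simpa [ht] using ha.inv)
  choose J instJ η hcard hη using fun i => exists_indep (k := k) (hρt0 i)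
  choose g hg1 hg2 hg3 using fun x : (Σ i, J i) => approx1 h hw x.1 (η x.1 x.2)
  have hind : ∀ Φ : (Σ i, J i) → C[X], ∑ x, aeval t (Φ x) * g x = 0 → ∀ x, Φ x = 0 := by
    intro Φ hΦ
    by_contra hcon
    push Not at hcon
    obtain ⟨x1, hx1⟩ := hcon
    obtain ⟨c, ⟨i0, a0⟩, n0, hc0, hΨ, hone⟩ := norm_fam vC Φ hx1
    have hsum : ∑ x, aeval t (Polynomial.C c * Φ x) * g x = 0 := by
      have h1 : ∑ x, aeval t (Polynomial.C c * Φ x) * g x =
          algebraMap C L c * ∑ x, aeval t (Φ x) * g x := by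
        rw [Finset.mul_sum]
        refine Finset.sum_congr rfl fun i _ => ?_
        rw [map_mul, aeval_C]; ring
      rw [h1, hΦ, mul_zero]
    have hle : ∀ x, w i0 (aeval t (Polynomial.C c * Φ x)) ≤ 1 := fun x =>
      w_aeval_le (h i0) (hΨ x) (hwt i0).le
    have hred := hη i0 (fun a => redP ρC (Polynomial.C c * Φ ⟨i0, a⟩)) (by
      have h1 := congrArg (ρ i0) hsum
      rw [(h i0).res.zero, (h i0).res.sum _ _ fun x _ => by
        rw [map_mul]; exact mul_le_one' (hle x) (hg1 x i0), Fintype.sum_sigma,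
        Finset.sum_eq_single i0] at h1
      · rw [← h1]
        refine Finset.sum_congr rfl fun a _ => ?_
        rw [(h i0).res.mul _ _ (hle _) (hg1 _ i0), res_aeval (h i0) (hΨ _) (hwt i0).le,
          hg2 ⟨i0, a⟩]
      · intro i _ hi
        refine Finset.sum_eq_zero fun a _ => ?_
        rw [(h i0).res.mul _ _ (hle _) (hg1 _ i0), hg3 ⟨i, a⟩ i0 (Ne.symm hi), mul_zero]
      · intro h'; exact absurd (Finset.mem_univ i0) h') a0
    have h1 := congrArg (fun q => Polynomial.coeff q n0) hred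
    simp only [coeff_redP (h i0), coeff_zero] at h1
    rw [hone, (h i0).resC.one] at h1
    exact one_ne_zero h1
  have hle := card_le_deg htt g hind
  have h2 : degD (poles (k := C) u) = degD (poles (k := C) t) := by
    rw [ht, poles_inv hu0]; exact (degD_zeros_eq_poles hu0).symm
  rw [h2]
  refine le_trans (le_of_eq ?_) hle
  rw [Fintype.card_sigma]
  push_cast
  refine Finset.sum_congr rfl fun i _ => ?_
  rw [hcard i, ← poles_inv (hρt0 i), hρt, inv_inv]

end deg

end Crest.Agent.T15.Ct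
end

-- ▼ part T15/CtB_92
section

/-!
# Row 15, block F (helper92): several norms on a function field, part B

`ON w z g` : `g` is an orthonormal basis of `L` over `C(z)` for the maximum of the norms `w i`.
* `ON.exists_on` orthonormal bases of finite dimensional `C`-subspaces;
* `bt` bounded torsion of `H^1`, `conn` connectedness of the special fibre;
* `mg0` : `∑ gen (κ i) ≤ gen L`.
-/

set_option autoImplicit false
set_option linter.all false

namespace Crest.Agent.T15.Ct

open Polynomial WithZero Module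
open scoped NNReal
open Crest.Agent.R013.RR2_948
open Crest.Agent.R013.RR7_948 Crest.Agent.R013.RR8_948 Crest.Agent.R013.RR9_948
open Crest.Agent.R013.RR11_948 Crest.Agent.R013.RR12_948
open Crest.Agent.R013.RR18_948 Crest.Agent.R013.RR19_948 Crest.Agent.R013.RR20_948
open Crest.Agent.R013.GR2_921 Crest.Agent.R013.GR4_921
open Crest.Agent.R013.GR5_921 Crest.Agent.R013.GR6_921 Crest.Agent.R013.GR7_921
open Crest.Agent.R013.GR9_921

section on

variable {C L k : Type*} [Field C] [Field L] [Algebra C L] [Field k] [IsAlgClosed k]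
  {ι : Type*} [Fintype ι] {κ : ι → Type*} [∀ i, Field (κ i)] [∀ i, Algebra k (κ i)]
  {vC : Valuation C ℝ≥0} {ρC : C → k} {w : ι → Valuation L ℝ≥0} {ρ : ∀ i, L → κ i}

/-- orthonormal basis over `C(z)` for the maximum of the norms -/
structure ON (C : Type*) {L : Type*} [Field C] [Field L] [Algebra C L] {ι : Type*}
    (w : ι → Valuation L ℝ≥0) (z : L) {d : ℕ} (g : Fin d → L) : Prop where
  le : ∀ i j, w i (g j) ≤ 1
  span : ∀ u : L, ∃ s : C[X], s ≠ 0 ∧ ∃ r : Fin d → C[X],
    aeval z s * u = ∑ l, aeval z (r l) * g l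
  ge : ∀ (r : Fin d → C[X]) l, ∃ i, w i (aeval z (r l)) ≤ w i (∑ l, aeval z (r l) * g l)

/-- all norms lie over the Gauss norm of `z` -/
structure Ga (k : Type*) {L : Type*} [Field k] [Field L] {ι : Type*} {κ : ι → Type*}
    [∀ i, Field (κ i)] [∀ i, Algebra k (κ i)] (w : ι → Valuation L ℝ≥0) (ρ : ∀ i, L → κ i)
    (z : L) : Prop where
  le : ∀ i, w i z ≤ 1
  nc : ∀ i, ρ i z ∉ Set.range (algebraMap k (κ i))

theorem aeval_shift (z : L) (a : C) (p : C[X]) :
    aeval (z - algebraMap C L a) (p.comp (X + Polynomial.C a)) = aeval z p := by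
  rw [aeval_comp]; simp

theorem aeval_shift' (z : L) (a : C) (p : C[X]) :
    aeval z (p.comp (X - Polynomial.C a)) = aeval (z - algebraMap C L a) p := by
  rw [aeval_comp]; simp

theorem ON.shift {z : L} {d : ℕ} {g : Fin d → L} (o : ON C w z g) (a : C) :
    ON C w (z - algebraMap C L a) g where
  le := o.le
  span u := by
    obtain ⟨s, hs, r, hr⟩ := o.span u
    refine ⟨s.comp (X + Polynomial.C a), ?_, fun l => (r l).comp (X + Polynomial.C a), ?_⟩
    · intro h0
      rw [comp_X_add_C_eq_zero_iff] at h0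
      exact hs h0
    · simp only [aeval_shift]; exact hr
  ge r l := by
    have h := o.ge (fun l => (r l).comp (X - Polynomial.C a)) l
    simp only [aeval_shift'] at h
    exact h

theorem Ga.shift (h : ∀ i, Red vC ρC (w i) (ρ i)) {z : L} (G : Ga k w ρ z) {a : C}
    (ha : vC a ≤ 1) : Ga k w ρ (z - algebraMap C L a) where
  le i := (Valuation.map_sub _ _ _).trans (max_le (G.le i) (by rw [(h i).norm]; exact ha))
  nc i := by
    rintro ⟨c, hc⟩
    rw [(h i).res.sub (G.le i) (by rw [(h i).norm]; exact ha), (h i).comp a ha] at hc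
    exact G.nc i ⟨c + ρC a, by rw [map_add, hc]; ring⟩

theorem Ga.eq_one (h : ∀ i, Red vC ρC (w i) (ρ i)) {z : L} (G : Ga k w ρ z) (i : ι) :
    w i z = 1 := by
  rw [← (h i).res.ne_zero_iff (G.le i)]
  intro h0
  exact G.nc i ⟨0, by rw [h0, map_zero]⟩

theorem Ga.coeff_le (h : ∀ i, Red vC ρC (w i) (ρ i)) {z : L} (G : Ga k w ρ z) (i : ι) (p : C[X])
    (n : ℕ) : vC (p.coeff n) ≤ w i (aeval z p) := gauss_of_res (h i) (G.le i) (G.nc i) p n

theorem Ga.le_of_coeff (h : ∀ i, Red vC ρC (w i) (ρ i)) {z : L} (G : Ga k w ρ z) (i : ι)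
    {p : C[X]} {M : ℝ≥0} (hp : ∀ n, vC (p.coeff n) ≤ M) : w i (aeval z p) ≤ M := by
  rw [aeval_eq_sum_range]
  refine Valuation.map_sum_le _ fun n _ => ?_
  rw [Algebra.smul_def, map_mul, map_pow, (h i).norm, G.eq_one h i, one_pow, mul_one]
  exact hp n

theorem Ga.eq (h : ∀ i, Red vC ρC (w i) (ρ i)) {z : L} (G : Ga k w ρ z) (i j : ι) (p : C[X]) :
    w i (aeval z p) = w j (aeval z p) :=
  le_antisymm (G.le_of_coeff h i (G.coeff_le h j p)) (G.le_of_coeff h j (G.coeff_le h i p))

theorem Ga.ne_zero (h : ∀ i, Red vC ρC (w i) (ρ i)) {z : L} (G : Ga k w ρ z) (i : ι) {p : C[X]}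
    (hp : p ≠ 0) : 0 < w i (aeval z p) := by
  refine lt_of_lt_of_le ?_ (G.coeff_le h i p p.natDegree)
  rw [Valuation.pos_iff]
  exact leadingCoeff_ne_zero.mpr hp

theorem Ga.transcendental (h : ∀ i, Red vC ρC (w i) (ρ i)) {z : L} (G : Ga k w ρ z) (i : ι) :
    Transcendental C z := by
  rw [transcendental_iff]
  intro p hp
  by_contra h0
  have := G.ne_zero h i h0
  rw [hp, map_zero] at this
  exact lt_irrefl _ this

/-- primitive multiples -/
theorem Ga.prim (h : ∀ i, Red vC ρC (w i) (ρ i)) {z : L} (G : Ga k w ρ z) {s : C[X]}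
    (hs : s ≠ 0) : ∃ c : C, c ≠ 0 ∧ (∀ n, vC ((Polynomial.C c * s).coeff n) ≤ 1) ∧
      (∃ n, (Polynomial.C c * s).coeff n = 1) ∧ ∀ i, w i (aeval z (Polynomial.C c * s)) = 1 := by
  obtain ⟨c, _, n0, hc, h1, h2⟩ := norm_fam vC (fun _ : Unit => s) (i1 := ()) hs
  refine ⟨c, hc, h1 (), ⟨n0, h2⟩, fun i => le_antisymm (G.le_of_coeff h i (h1 ())) ?_⟩
  have := G.coeff_le h i (Polynomial.C c * s) n0
  rwa [h2, map_one] at this

/-- orthonormal bases of finite dimensional subspaces -/
theorem ON.exists_on (h : ∀ i, Red vC ρC (w i) (ρ i)) {z : L} (G : Ga k w ρ z) {d : ℕ}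
    {g : Fin d → L} (o : ON C w z g) (i0 : ι) (V : Submodule C L) [FiniteDimensional C V] :
    ∃ (m : ℕ) (b : Fin m → L), (∀ j, b j ∈ V) ∧ V ≤ Submodule.span C (Set.range b) ∧
      (∀ i j, w i (b j) ≤ 1) ∧ ∀ (c : Fin m → C) j, ∃ i, vC (c j) ≤ w i (∑ l, c l • b l) := by
  classical
  let B := Module.finBasis C V
  obtain ⟨Q, hQ, P, hP⟩ := common o.span (fun a => (B a : L))
  obtain ⟨c, hc0, -, -, hc⟩ := G.prim h hQ
  obtain ⟨s, hs⟩ : ∃ s, s = aeval z (Polynomial.C c * Q) := ⟨_, rfl⟩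
  rw [← hs] at hc
  obtain ⟨N, hN0⟩ := Finite.exists_le
    (fun x : Fin (finrank C V) × Fin d => (Polynomial.C c * P x.1 x.2).natDegree)
  have hN : ∀ a l, (Polynomial.C c * P a l).natDegree ≤ N := fun a l => by
    have h1 := hN0 (a, l)
    dsimp only at h1
    exact h1
  clear hN0
  obtain ⟨Θ, hΘ0⟩ : ∃ Θ : (Fin d × Fin (N + 1) → C) →ₗ[C] L,
      ∀ y, Θ y = ∑ x, y x • (s⁻¹ * (z ^ (x.2 : ℕ) * g x.1)) :=
    ⟨Fintype.linearCombination C fun x => s⁻¹ * (z ^ (x.2 : ℕ) * g x.1), fun y => by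
      rw [Fintype.linearCombination_apply]⟩
  obtain ⟨pl, hpl0⟩ : ∃ pl : (Fin d × Fin (N + 1) → C) → Fin d → C[X],
      ∀ y l, pl y l = ∑ n : Fin (N + 1), monomial n (y (l, n)) := ⟨_, fun _ _ => rfl⟩
  have hpl : ∀ y l (n : Fin (N + 1)), (pl y l).coeff n = y (l, n) := by
    intro y l n
    rw [hpl0, finsetSum_coeff, Finset.sum_eq_single n, coeff_monomial, if_pos rfl]
    · intro m _ hm
      rw [coeff_monomial, if_neg fun h' => hm (Fin.ext h')]
    · intro h'; exact absurd (Finset.mem_univ n) h'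
  have hΘ : ∀ y, Θ y = s⁻¹ * ∑ l, aeval z (pl y l) * g l := by
    intro y
    rw [hΘ0, Fintype.sum_prod_type, Finset.mul_sum]
    refine Finset.sum_congr rfl fun l _ => ?_
    rw [hpl0, map_sum, Finset.sum_mul, Finset.mul_sum]
    refine Finset.sum_congr rfl fun n _ => ?_
    rw [aeval_monomial, Algebra.smul_def]
    ring
  have hsi : ∀ i, w i s⁻¹ = 1 := fun i => by rw [map_inv₀, hc i, inv_one]
  have hge : ∀ y x, ∃ i, vC (y x) ≤ w i (Θ y) := by
    rintro y ⟨l, n⟩
    obtain ⟨i, hi⟩ := o.ge (pl y) l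
    refine ⟨i, ?_⟩
    rw [hΘ, map_mul, hsi, one_mul, ← hpl y l n]
    exact (G.coeff_le h i _ _).trans hi
  have hle : ∀ y, (∀ x, vC (y x) ≤ 1) → ∀ i, w i (Θ y) ≤ 1 := by
    intro y hy i
    rw [hΘ0]
    refine Valuation.map_sum_le _ fun x _ => ?_
    rw [Algebra.smul_def, map_mul, (h i).norm]
    refine mul_le_one' (hy x) ?_
    rw [map_mul, hsi, one_mul, map_mul, map_pow, G.eq_one h i, one_pow, one_mul]
    exact o.le i _
  have hrange : V ≤ LinearMap.range Θ := by
    have h1 : ∀ a, (B a : L) ∈ LinearMap.range Θ := by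
      intro a
      have hs0 : s ≠ 0 := by
        intro h0
        have := hc i0
        rw [h0] at this; simp at this
      refine ⟨fun x => (Polynomial.C c * P a x.1).coeff x.2, ?_⟩
      rw [hΘ, inv_mul_eq_iff_eq_mul₀ hs0, hs, map_mul, mul_assoc, hP, Finset.mul_sum]
      refine Finset.sum_congr rfl fun l _ => ?_
      rw [← mul_assoc, ← map_mul]
      have h3 : pl (fun x => (Polynomial.C c * P a x.1).coeff x.2) l = Polynomial.C c * P a l := by
        rw [hpl0]
        show ∑ n : Fin (N + 1), monomial (n : ℕ) ((Polynomial.C c * P a l).coeff n) = _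
        rw [Fin.sum_univ_eq_sum_range (fun n => monomial n ((Polynomial.C c * P a l).coeff n))]
        exact (as_sum_range' _ _ (Nat.lt_succ_of_le (hN a l))).symm
      rw [h3]
    intro v hv
    have h2 : v = ∑ a, B.repr ⟨v, hv⟩ a • (B a : L) := by
      have h3 := congrArg Subtype.val (B.sum_repr ⟨v, hv⟩)
      rw [Submodule.coe_sum] at h3
      exact h3.symm
    rw [h2]
    exact Submodule.sum_mem _ fun a _ => Submodule.smul_mem _ _ (h1 a)
  obtain ⟨m, y, hy1, hy2, hy3, hy4⟩ := echelon vC _ (V.comap Θ) le_rfl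
  refine ⟨m, fun j => Θ (y j), hy1, ?_, fun i j => hle _ (hy3 j) i, fun c j => ?_⟩
  · intro v hv
    obtain ⟨x, rfl⟩ := hrange hv
    have h1 := Submodule.mem_map_of_mem (f := Θ) (hy2 (show x ∈ V.comap Θ from hv))
    rw [Submodule.map_span, ← Set.range_comp] at h1
    exact h1
  · obtain ⟨x, hx⟩ := hy4 c j
    obtain ⟨i, hi⟩ := hge (∑ l, c l • y l) x
    refine ⟨i, hx.trans (hi.trans (le_of_eq ?_))⟩
    rw [map_sum]
    simp only [map_smul]

/-- coordinates in any basis are bounded by the norm -/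
theorem ON.bd (h : ∀ i, Red vC ρC (w i) (ρ i)) {z : L} (G : Ga k w ρ z) {d : ℕ}
    {g : Fin d → L} (o : ON C w z g) (i0 : ι) {e : ℕ} {β : Fin e → L} {δ : Fin e → ℤ}
    (b : BG C z β δ) : ∃ M : ℝ≥0, ∀ (p : Fin e → C[X]) (ε : ℝ≥0),
      (∀ i, w i (∑ j, aeval z (p j) * β j) ≤ ε) → ∀ j n, vC ((p j).coeff n) ≤ M * ε := by
  classical
  obtain ⟨Q, hQ, P, hP⟩ := common b.span g
  let B : ℝ≥0 := Finset.univ.sup fun x : Fin d × Fin e => w i0 (aeval z (P x.1 x.2))
  have hB : ∀ l j, w i0 (aeval z (P l j)) ≤ B := fun l j =>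
    Finset.le_sup (f := fun x : Fin d × Fin e => w i0 (aeval z (P x.1 x.2))) (Finset.mem_univ (l, j))
  have hQ0 := G.ne_zero h i0 hQ
  refine ⟨B / w i0 (aeval z Q), fun p ε hp j n => ?_⟩
  obtain ⟨s, hs, r, hr⟩ := o.span (∑ j, aeval z (p j) * β j)
  have hs0 := G.ne_zero h i0 hs
  have h1 : ∀ l, w i0 (aeval z (r l)) ≤ w i0 (aeval z s) * ε := by
    intro l
    obtain ⟨i, hi⟩ := o.ge r l
    rw [← hr, map_mul] at hi
    rw [G.eq h i0 i, G.eq h i0 i s]
    exact hi.trans (mul_le_mul_right (hp i) _)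
  have h2 : Q * s * p j - ∑ l, r l * P l j = 0 := by
    refine b.ind (fun j => Q * s * p j - ∑ l, r l * P l j) ?_ j
    have h3 : aeval z Q * (aeval z s * ∑ j, aeval z (p j) * β j) =
        ∑ l, aeval z (r l) * ∑ j, aeval z (P l j) * β j := by
      rw [hr, Finset.mul_sum]
      refine Finset.sum_congr rfl fun l _ => ?_
      rw [← hP]; ring
    simp only [map_sub, map_mul, map_sum, sub_mul, Finset.sum_sub_distrib]
    rw [sub_eq_zero]
    simp only [Finset.mul_sum, Finset.sum_mul] at h3 ⊢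
    rw [Finset.sum_comm] at h3
    simp only [mul_assoc]
    exact h3
  rw [sub_eq_zero] at h2
  have h3 : w i0 (aeval z Q) * w i0 (aeval z s) * w i0 (aeval z (p j)) ≤
      w i0 (aeval z s) * ε * B := by
    rw [← map_mul, ← map_mul, ← map_mul, ← map_mul, h2, map_sum]
    refine Valuation.map_sum_le _ fun l _ => ?_
    rw [map_mul, map_mul]
    exact mul_le_mul' (h1 l) (hB l j)
  refine (G.coeff_le h i0 _ n).trans ?_
  rw [div_mul_eq_mul_div, le_div_iff₀ hQ0]
  refine le_of_mul_le_mul_left (a := w i0 (aeval z s)) ?_ hs0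
  calc _ = w i0 (aeval z Q) * w i0 (aeval z s) * w i0 (aeval z (p j)) := by ring
    _ ≤ _ := h3
    _ = _ := by ring

end on

section reg

variable {C L : Type*} [Field C] [Field L] [Algebra C L]

/-- functions regular on a set of places -/
def Rg (T : Set (Pl C L)) : Subalgebra C L where
  carrier := {u | ∀ P ∈ T, P.v u ≤ 1}
  mul_mem' ha hb P hP := by rw [map_mul]; exact mul_le_one' (ha P hP) (hb P hP)
  add_mem' ha hb P hP := (Valuation.map_add _ _ _).trans (max_le (ha P hP) (hb P hP))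
  algebraMap_mem' c P _ := by
    by_cases hc : c = 0
    · simp [hc]
    · rw [P.const c hc]

variable {k : Type*} [Field k]
  {ι : Type*} {κ : ι → Type*} [∀ i, Field (κ i)] [∀ i, Algebra k (κ i)]
  {vC : Valuation C ℝ≥0} {ρC : C → k} {w : ι → Valuation L ℝ≥0} {ρ : ∀ i, L → κ i}

/-- the joint reduction of a subalgebra -/
def redA (h : ∀ i, Red vC ρC (w i) (ρ i)) (hC : IsRes vC ρC) (R : Subalgebra C L) :
    Subalgebra k (∀ i, κ i) where
  carrier := {a | ∃ u ∈ R, (∀ i, w i u ≤ 1) ∧ ∀ i, ρ i u = a i}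
  mul_mem' := by
    rintro a b ⟨u, hu, hu1, hu2⟩ ⟨v, hv, hv1, hv2⟩
    refine ⟨u * v, mul_mem hu hv, fun i => by rw [map_mul]; exact mul_le_one' (hu1 i) (hv1 i),
      fun i => ?_⟩
    rw [(h i).res.mul _ _ (hu1 i) (hv1 i), hu2, hv2, Pi.mul_apply]
  add_mem' := by
    rintro a b ⟨u, hu, hu1, hu2⟩ ⟨v, hv, hv1, hv2⟩
    refine ⟨u + v, add_mem hu hv, fun i => (Valuation.map_add _ _ _).trans (max_le (hu1 i) (hv1 i)),
      fun i => ?_⟩
    rw [(h i).res.add _ _ (hu1 i) (hv1 i), hu2, hv2, Pi.add_apply]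
  algebraMap_mem' r := by
    obtain ⟨c, hc, rfl⟩ := hC.surj r
    exact ⟨algebraMap C L c, R.algebraMap_mem c, fun i => by rw [(h i).norm]; exact hc,
      fun i => by rw [(h i).comp c hc]; rfl⟩

end reg

section conn

variable {C : Type*} [Field C] [IsAlgClosed C] [CharZero C] {L : Type*} [Field L] [Algebra C L]
  [Algebra (RatFunc C) L] [IsScalarTower C (RatFunc C) L] [FiniteDimensional (RatFunc C) L]
  {k : Type*} [Field k] [IsAlgClosed k]
  {ι : Type*} [Fintype ι] {κ : ι → Type*} [∀ i, Field (κ i)] [∀ i, Algebra k (κ i)]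
  {vC : Valuation C ℝ≥0} {ρC : C → k} {w : ι → Valuation L ℝ≥0} {ρ : ∀ i, L → κ i}

theorem exists_pow_mul {z u : L} (hu : u ∈ Rg {P : Pl C L | 1 ≤ P.v z}) :
    ∃ m : ℕ, z ^ m * u ∈ Rg {P : Pl C L | P.v z ≤ 1} := by
  classical
  by_cases hu0 : u = 0
  · exact ⟨0, by rw [hu0, mul_zero]; exact zero_mem _⟩
  let D := poles (k := C) u
  let m := D.support.sup fun P => (D P).toNat
  refine ⟨m, fun P hP => ?_⟩
  rw [map_mul, map_pow]
  rcases eq_or_lt_of_le (show P.v z ≤ 1 from hP) with h1 | h1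
  · rw [h1, one_pow, one_mul]; exact hu P h1.ge
  · rw [lt_one_iff] at h1
    have h2 : P.v u ≤ exp (D P) := mem_LD.mp (mem_LD_poles hu0) P
    have h3 : D P ≤ m := by
      by_cases hP : P ∈ D.support
      · have h4 : (D P).toNat ≤ m := Finset.le_sup (f := fun P => (D P).toNat) hP
        omega
      · rw [Finsupp.notMem_support_iff.mp hP]; omega
    calc P.v z ^ m * P.v u ≤ exp (-1) ^ m * exp (D P) := mul_le_mul' (pow_le_pow_left' h1 m) h2
      _ = exp (-(m : ℤ) + D P) := by rw [← exp_nsmul, ← exp_add]; simp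
      _ ≤ 1 := by rw [← exp_zero, exp_le_exp]; omega

/-- **bounded torsion** -/
theorem bt (h : ∀ i, Red vC ρC (w i) (ρ i)) {z : L} (G : Ga k w ρ z) {d : ℕ}
    {g : Fin d → L} (o : ON C w z g) (i0 : ι) : ∃ M : ℝ≥0, ∀ (u0 u1 : L) (ε : ℝ≥0),
      u0 ∈ Rg {P : Pl C L | P.v z ≤ 1} → u1 ∈ Rg {P : Pl C L | 1 ≤ P.v z} →
      (∀ i, w i (u0 - u1) ≤ ε) → ∃ c : C, ∀ i, w i (u0 - algebraMap C L c) ≤ M * ε := by
  classical
  obtain ⟨e, β, δ, b⟩ := bg z (G.transcendental h i0)
  obtain ⟨M, hM⟩ := o.bd h G i0 b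
  let B : ℝ≥0 := Finset.univ.sup fun x : ι × Fin e => w x.1 (β x.2)
  have hB : ∀ i j, w i (β j) ≤ B := fun i j =>
    Finset.le_sup (f := fun x : ι × Fin e => w x.1 (β x.2)) (Finset.mem_univ (i, j))
  refine ⟨M * B, fun u0 u1 ε h0 h1 hε => ?_⟩
  obtain ⟨p, hp⟩ := (b.fin u0).mp h0
  obtain ⟨m, hm⟩ := exists_pow_mul h1
  obtain ⟨q, hq⟩ := (b.fin _).mp hm
  have hq0 := (b.inf m u1 q hq).mp fun P hP => h1 P hP.le
  have h2 := hM (fun j => X ^ m * p j - q j) ε (by
    intro i
    have h3 : ∑ j, aeval z (X ^ m * p j - q j) * β j = z ^ m * (u0 - u1) := by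
      rw [mul_sub, hq, hp, Finset.mul_sum, ← Finset.sum_sub_distrib]
      refine Finset.sum_congr rfl fun j _ => ?_
      rw [map_sub, map_mul, map_pow, aeval_X]; ring
    rw [h3, map_mul, map_pow, G.eq_one h i, one_pow, one_mul]
    exact hε i)
  have h3 : ∀ j (n : ℕ), δ j < n → vC ((p j).coeff n) ≤ M * ε := by
    intro j n hn
    have h4 := h2 j (n + m)
    rwa [coeff_sub, coeff_X_pow_mul, hq0 j (n + m) (by push_cast; omega), sub_zero] at h4
  let lo : Fin e → C[X] := fun j => ∑ n ∈ Finset.range ((p j).natDegree + 1),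
    monomial n (if (n : ℤ) ≤ δ j then (p j).coeff n else 0)
  have hlo : ∀ j n, (lo j).coeff n = if (n : ℤ) ≤ δ j then (p j).coeff n else 0 := by
    intro j n
    show (∑ n ∈ Finset.range ((p j).natDegree + 1),
      monomial n (if (n : ℤ) ≤ δ j then (p j).coeff n else 0)).coeff n = _
    rw [finsetSum_coeff, Finset.sum_eq_single n, coeff_monomial, if_pos rfl]
    · intro m _ hm
      rw [coeff_monomial, if_neg hm]
    · intro hn
      rw [Finset.mem_range, not_lt] at hn
      rw [coeff_eq_zero_of_natDegree_lt (p := p j) (by omega)]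
      simp
  have hU : ∑ j, aeval z (lo j) * β j ∈ LD (0 : Pl C L →₀ ℤ) := by
    rw [mem_LD]
    intro P
    rw [Finsupp.zero_apply, exp_zero]
    rcases le_or_gt (P.v z) 1 with hP | hP
    · exact (b.fin _).mpr ⟨lo, rfl⟩ P hP
    · refine (b.inf 0 _ lo (by rw [pow_zero, one_mul])).mpr (fun j n hn => ?_) P hP
      rw [hlo, if_neg (by omega)]
  rw [LD_zero hc_of_isAlgClosed, Submodule.mem_one] at hU
  obtain ⟨c, hc⟩ := hU
  refine ⟨c, fun i => ?_⟩
  rw [hc, hp, ← Finset.sum_sub_distrib]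
  refine Valuation.map_sum_le _ fun j _ => ?_
  rw [← sub_mul, ← map_sub, map_mul, mul_right_comm]
  refine mul_le_mul' (G.le_of_coeff h i fun n => ?_) (hB i j)
  rw [coeff_sub, hlo]
  split_ifs with hn
  · rw [sub_self, map_zero]; exact zero_le
  · rw [sub_zero]; exact h3 j n (by omega)

theorem idem (v : Valuation L ℝ≥0) {u : L} {θ : ℝ≥0} (a : ℕ) :
    (v (u - 1) ≤ θ → θ ≤ 1 → 0 < a → v ((1 - (1 - u ^ a) ^ a) - 1) ≤ θ ^ a) ∧
    (v u ≤ θ → θ ≤ 1 → v (1 - (1 - u ^ a) ^ a) ≤ θ ^ a) := by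
  have aux : ∀ (x : L) (t : ℝ≥0), v (x - 1) ≤ t → t ≤ 1 → v (x ^ a - 1) ≤ t := by
    intro x t hx ht
    rw [← mul_geom_sum, map_mul]
    have hx1 : v x ≤ 1 := by
      have : x = (x - 1) + 1 := by ring
      rw [this]
      exact (Valuation.map_add _ _ _).trans (max_le (hx.trans ht) (by rw [map_one]))
    refine (mul_le_mul' hx (Valuation.map_sum_le _ fun j _ => ?_)).trans (mul_one t).le
    rw [map_pow]
    exact pow_le_one' hx1 j
  constructor
  · intro h1 h2 _
    have e : (1 - (1 - u ^ a) ^ a) - 1 = -(1 - u ^ a) ^ a := by ring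
    rw [e, Valuation.map_neg, map_pow, Valuation.map_sub_swap]
    exact pow_le_pow_left' (aux u θ h1 h2) a
  · intro h1 h2
    rw [Valuation.map_sub_swap]
    refine aux _ _ ?_ (pow_le_one' h2 a)
    have e : (1 - u ^ a) - 1 = -u ^ a := by ring
    rw [e, Valuation.map_neg, map_pow]
    exact pow_le_pow_left' h1 a

/-- **connectedness** -/
theorem conn (h : ∀ i, Red vC ρC (w i) (ρ i)) {z : L} (G : Ga k w ρ z) {d : ℕ}
    {g : Fin d → L} (o : ON C w z g) (hC : IsRes vC ρC) (e : ι → k)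
    (h0 : (fun i => algebraMap k (κ i) (e i)) ∈ redA h hC (Rg {P : Pl C L | P.v z ≤ 1}))
    (h1 : (fun i => algebraMap k (κ i) (e i)) ∈ redA h hC (Rg {P : Pl C L | 1 ≤ P.v z}))
    (i1 i2 : ι) : e i1 = e i2 := by
  classical
  by_contra hne
  obtain ⟨M, hM⟩ := bt h G o i1
  -- the idempotent
  let χ : ∀ i, κ i := fun i => if e i = e i1 then 1 else 0
  have hχ : ∀ R : Subalgebra k (∀ i, κ i), (fun i => algebraMap k (κ i) (e i)) ∈ R → χ ∈ R := by
    intro R hR
    have h2 : χ = ∏ j ∈ Finset.univ.filter (fun j => e j ≠ e i1), (e i1 - e j)⁻¹ •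
        ((fun i => algebraMap k (κ i) (e i)) - algebraMap k (∀ i, κ i) (e j)) := by
      funext i
      rw [Finset.prod_apply]
      show (if e i = e i1 then 1 else 0) = _
      split_ifs with hi
      · refine (Finset.prod_eq_one fun j hj => ?_).symm
        rw [Pi.smul_apply, Pi.sub_apply, Pi.algebraMap_apply, ← map_sub, Algebra.smul_def,
          ← map_mul, hi, inv_mul_cancel₀ (sub_ne_zero.mpr (Finset.mem_filter.mp hj).2.symm),
          map_one]
      · refine (Finset.prod_eq_zero (i := i) (by simp [hi]) ?_).symm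
        rw [Pi.smul_apply, Pi.sub_apply, Pi.algebraMap_apply, sub_self, smul_zero]
    rw [h2]
    exact prod_mem fun j _ => R.smul_mem (sub_mem hR (R.algebraMap_mem _)) _
  obtain ⟨u0, hu0, hu01, hu02⟩ := hχ _ h0
  obtain ⟨u1, hu1, hu11, hu12⟩ := hχ _ h1
  -- distance to the idempotent
  let t : ι → L := fun i => if e i = e i1 then 1 else 0
  have hlt : ∀ u : L, (∀ i, w i u ≤ 1) → (∀ i, ρ i u = χ i) → ∀ i, w i (u - t i) < 1 := by
    intro u h2 h3 i
    have h4 := h3 i
    simp only [χ, t] at h4 ⊢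
    split_ifs at h4 ⊢ with hi
    · rw [← (h i).res.eq_iff (h2 i) (by simp), h4, (h i).res.one]
    · rw [sub_zero, ← (h i).res.zero_iff _ (h2 i), h4]
  let θ : ℝ≥0 := Finset.univ.sup fun i => max (w i (u0 - t i)) (w i (u1 - t i))
  have hθ : θ < 1 := by
    rw [Finset.sup_lt_iff (by simp)]
    exact fun i _ => max_lt (hlt u0 hu01 hu02 i) (hlt u1 hu11 hu12 i)
  have hθ' : ∀ i, max (w i (u0 - t i)) (w i (u1 - t i)) ≤ θ := fun i =>
    Finset.le_sup (f := fun i => max (w i (u0 - t i)) (w i (u1 - t i))) (Finset.mem_univ i)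
  obtain ⟨a0, ha0⟩ := exists_pow_lt_of_lt_one (show (0 : ℝ≥0) < (M + 1)⁻¹ by positivity) hθ
  set a := a0 + 1 with ha
  have ha1 : θ ^ a < (M + 1)⁻¹ :=
    lt_of_le_of_lt (pow_le_pow_of_le_one zero_le hθ.le (by omega)) ha0
  have hθa : θ ^ a < 1 := pow_lt_one₀ zero_le hθ (by omega)
  have hU : ∀ u : L, (∀ i, w i (u - t i) ≤ θ) → ∀ i,
      w i ((1 - (1 - u ^ a) ^ a) - t i) ≤ θ ^ a := by
    intro u hu i
    have h2 := hu i
    simp only [t] at h2 ⊢
    split_ifs at h2 ⊢ with hi
    · exact (idem (w i) a).1 h2 hθ.le (by omega)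
    · rw [sub_zero] at h2 ⊢
      exact (idem (w i) a).2 h2 hθ.le
  have hU0 := hU u0 fun i => (le_max_left _ _).trans (hθ' i)
  have hU1 := hU u1 fun i => (le_max_right _ _).trans (hθ' i)
  obtain ⟨c, hc⟩ := hM (1 - (1 - u0 ^ a) ^ a) (1 - (1 - u1 ^ a) ^ a) (θ ^ a)
    (sub_mem (one_mem _) (pow_mem (sub_mem (one_mem _) (pow_mem hu0 a)) a))
    (sub_mem (one_mem _) (pow_mem (sub_mem (one_mem _) (pow_mem hu1 a)) a)) (by
      intro i
      have e : (1 - (1 - u0 ^ a) ^ a) - (1 - (1 - u1 ^ a) ^ a) =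
          ((1 - (1 - u0 ^ a) ^ a) - t i) - ((1 - (1 - u1 ^ a) ^ a) - t i) := by ring
      rw [e]
      exact (Valuation.map_sub _ _ _).trans (max_le (hU0 i) (hU1 i)))
  have hMθ : M * θ ^ a < 1 := by
    calc M * θ ^ a ≤ (M + 1) * θ ^ a := mul_le_mul_left (by simp) _
      _ < (M + 1) * (M + 1)⁻¹ := mul_lt_mul_of_pos_left ha1 (by positivity)
      _ = 1 := mul_inv_cancel₀ (by positivity)
  have hct : ∀ i, w i (algebraMap C L c - t i) < 1 := by
    intro i
    have e : algebraMap C L c - t i =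
        ((1 - (1 - u0 ^ a) ^ a) - t i) - ((1 - (1 - u0 ^ a) ^ a) - algebraMap C L c) := by ring
    rw [e]
    exact (Valuation.map_sub _ _ _).trans_lt
      (max_lt ((hU0 i).trans_lt hθa) ((hc i).trans_lt hMθ))
  have h2 := hct i1
  have h3 := hct i2
  simp only [t, if_pos rfl, if_neg (Ne.symm hne)] at h2 h3
  rw [sub_zero, (h i2).norm] at h3
  rw [← map_one (algebraMap C L), ← map_sub, (h i1).norm] at h2
  have h4 : vC (1 : C) < 1 := by
    have e : (1 : C) = c - (c - 1) := by ring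
    rw [e]
    exact (Valuation.map_sub _ _ _).trans_lt (max_lt h3 h2)
  rw [map_one] at h4
  exact lt_irrefl _ h4

end conn

end Crest.Agent.T15.Ct
end

-- ▼ part T15/CtC_92
section

/-!
# Row 15, block F (helper92): the genus inequality for several norms

* `mg0` : all norms over one Gauss norm, with an orthonormal basis;
* `mg` : any finite set of distinct norms, `∑ gen (κ i) ≤ gen L`.
-/

set_option autoImplicit false
set_option linter.all false

namespace Crest.Agent.T15.Ct

open Polynomial WithZero Module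
open scoped NNReal
open Crest.Agent.R013.RR2_948
open Crest.Agent.R013.RR7_948 Crest.Agent.R013.RR8_948 Crest.Agent.R013.RR9_948
open Crest.Agent.R013.RR11_948 Crest.Agent.R013.RR12_948
open Crest.Agent.R013.RR18_948 Crest.Agent.R013.RR19_948 Crest.Agent.R013.RR20_948
open Crest.Agent.R013.GR2_921 Crest.Agent.R013.GR3_921 Crest.Agent.R013.GR4_921
open Crest.Agent.R013.GR5_921 Crest.Agent.R013.GR6_921 Crest.Agent.R013.GR7_921
open Crest.Agent.R013.GR9_921

section main

variable {C : Type*} [Field C] [IsAlgClosed C] [CharZero C] {L : Type*} [Field L] [Algebra C L]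
  [Algebra (RatFunc C) L] [IsScalarTower C (RatFunc C) L] [FiniteDimensional (RatFunc C) L]
  {k : Type*} [Field k] [IsAlgClosed k]
  {ι : Type*} [Fintype ι] {κ : ι → Type*} [∀ i, Field (κ i)] [∀ i, Algebra k (κ i)]
  {vC : Valuation C ℝ≥0} {ρC : C → k} {w : ι → Valuation L ℝ≥0} {ρ : ∀ i, L → κ i}

/-- the conductor is not zero -/
theorem exists_cond (h : ∀ i, Red vC ρC (w i) (ρ i)) (hw : Function.Injective w) {z : L}
    (G : Ga k w ρ z) (hC : IsRes vC ρC) (i0 : ι) :
    ∃ q : k[X], q ≠ 0 ∧ ∀ e : ι → k, (fun i => algebraMap k (κ i) (e i) * aeval (ρ i z) q) ∈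
      redA h hC (Rg {P : Pl C L | P.v z ≤ 1}) := by
  classical
  haveI : Infinite k := IsAlgClosed.instInfinite
  obtain ⟨d, β, δ, b⟩ := bg z (G.transcendental h i0)
  choose u hu1 hu2 hu3 using fun i => approx1 h hw i (1 : κ i)
  obtain ⟨Q, hQ, P, hP⟩ := common b.span u
  obtain ⟨c, hc0, hc1, ⟨n0, hn0⟩, hc2⟩ := G.prim h hQ
  refine ⟨redP ρC (Polynomial.C c * Q), ?_, fun e => ?_⟩
  · intro h0
    have h1 := congrArg (fun q => Polynomial.coeff q n0) h0
    simp only [coeff_redP (h i0), coeff_zero] at h1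
    rw [hn0, hC.one] at h1
    exact one_ne_zero h1
  · have h1 : ∀ j, (fun i => if i = j then aeval (ρ i z) (redP ρC (Polynomial.C c * Q)) else 0) ∈
        redA h hC (Rg {P : Pl C L | P.v z ≤ 1}) := by
      intro j
      refine ⟨aeval z (Polynomial.C c * Q) * u j, ?_, fun i => ?_, fun i => ?_⟩
      · rw [map_mul, mul_assoc, hP, aeval_C]
        exact mul_mem (Subalgebra.algebraMap_mem _ c) ((b.fin _).mpr ⟨P j, rfl⟩)
      · rw [map_mul, hc2, one_mul]; exact hu1 j i
      · rw [(h i).res.mul _ _ (hc2 i).le (hu1 j i), res_aeval (h i) hc1 (G.le i)]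
        by_cases hij : i = j
        · subst hij
          rw [hu2, mul_one]; simp
        · rw [hu3 j i hij, mul_zero]; simp [hij]
    have h2 : (fun i => algebraMap k (κ i) (e i) * aeval (ρ i z) (redP ρC (Polynomial.C c * Q))) =
        ∑ j, e j • (fun i => if i = j then aeval (ρ i z) (redP ρC (Polynomial.C c * Q)) else 0) := by
      funext i
      rw [Finset.sum_apply, Finset.sum_eq_single i]
      · rw [Pi.smul_apply, if_pos rfl, Algebra.smul_def]
      · intro j _ hj
        rw [Pi.smul_apply, if_neg (Ne.symm hj), smul_zero]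
      · intro h'; exact absurd (Finset.mem_univ i) h'
    rw [h2]
    exact sum_mem fun j _ => Subalgebra.smul_mem _ (h1 j) _

/-- constants times `z ^ n` in the reduction of `L(n (z)_∞)` -/
theorem const_of (h : ∀ i, Red vC ρC (w i) (ρ i)) {z : L} (G : Ga k w ρ z) {d : ℕ}
    {g : Fin d → L} (o : ON C w z g) (hC : IsRes vC ρC) {q : k[X]} (hq : q.eval 0 ≠ 0)
    (hcond : ∀ e : ι → k, (fun i => algebraMap k (κ i) (e i) * aeval (ρ i z) q) ∈
      redA h hC (Rg {P : Pl C L | P.v z ≤ 1})) (n : ℕ) (e : ι → k) {v : L}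
    (hv : v ∈ LD (n • poles (k := C) z)) (hv1 : ∀ i, w i v ≤ 1)
    (hv2 : ∀ i, ρ i v = algebraMap k (κ i) (e i) * ρ i z ^ n) (i1 i2 : ι) : e i1 = e i2 := by
  have hz1 := G.eq_one h
  have hz0 : z ≠ 0 := by
    intro h0
    have := hz1 i1
    rw [h0] at this; simp at this
  have hρz : ∀ i, ρ i z ≠ 0 := fun i => by rw [(h i).res.ne_zero_iff (G.le i)]; exact hz1 i
  rw [mem_LD] at hv
  refine conn h G o hC e ?_ ?_ i1 i2
  · set R := redA h hC (Rg {P : Pl C L | P.v z ≤ 1}) with hR
    have hzR : (fun i => ρ i z) ∈ R := ⟨z, fun P hP => hP, G.le, fun i => rfl⟩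
    have hpR : ∀ p : k[X], (fun i => aeval (ρ i z) p) ∈ R := by
      intro p
      induction p using Polynomial.induction_on' with
      | add p q hp hq =>
        have := add_mem hp hq
        simp only [map_add]
        exact this
      | monomial n a =>
        have := R.smul_mem (pow_mem hzR n) a
        simp only [aeval_monomial, ← Algebra.smul_def]
        exact this
    have hvR : (fun i => algebraMap k (κ i) (e i) * ρ i z ^ n) ∈ R := by
      refine ⟨v, fun P hP => ?_, hv1, hv2⟩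
      have h1 := hv P
      have h2 : poles (k := C) z P = 0 := by
        have h3 : P.v z ≤ 1 := hP
        rw [v_eq hz0, ← exp_zero, exp_le_exp] at h3
        rw [poles_apply]; omega
      rwa [Finsupp.smul_apply, h2, smul_zero, exp_zero] at h1
    have hcop : IsCoprime (X ^ n : k[X]) q := by
      refine IsCoprime.pow_left ?_
      rw [(irreducible_X (R := k)).coprime_iff_not_dvd, X_dvd_iff, coeff_zero_eq_eval_zero]
      exact hq
    obtain ⟨α, β, hαβ⟩ := hcop
    have h1 := add_mem (mul_mem (hpR α) hvR) (mul_mem (hpR β) (hcond e))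
    convert h1 using 1
    funext i
    have h2 := congrArg (aeval (ρ i z)) hαβ
    rw [map_add, map_mul, map_mul, map_pow, aeval_X, map_one] at h2
    simp only [Pi.add_apply, Pi.mul_apply]
    linear_combination (-(algebraMap k (κ i) (e i))) * h2
  · refine ⟨v / z ^ n, fun P hP => ?_, fun i => ?_, fun i => ?_⟩
    · have h1 := hv P
      have h3 : 1 ≤ P.v z := hP
      rw [map_div₀, map_pow]
      rw [v_eq hz0, ← exp_zero, exp_le_exp] at h3
      have h2 : poles (k := C) z P = -divf (k := C) z P := by rw [poles_apply]; omega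
      rw [Finsupp.smul_apply, h2] at h1
      rw [v_eq hz0, ← exp_nsmul, div_le_one₀ (by simp)]
      exact h1
    · rw [map_div₀, map_pow, hz1, one_pow, div_one]; exact hv1 i
    · rw [(h i).res.div (hv1 i) (by rw [map_pow, hz1, one_pow]), (h i).res.pow (G.le i), hv2,
        mul_div_assoc, div_self (pow_ne_zero n (hρz i)), mul_one]

variable [∀ i, Algebra (RatFunc k) (κ i)] [∀ i, IsScalarTower k (RatFunc k) (κ i)]
  [∀ i, FiniteDimensional (RatFunc k) (κ i)] [∀ i, Algebra.IsSeparable (RatFunc k) (κ i)]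

theorem mg1 (h : ∀ i, Red vC ρC (w i) (ρ i)) (hw : Function.Injective w) {z : L}
    (G : Ga k w ρ z) {d : ℕ} {g : Fin d → L} (o : ON C w z g) (i0 : ι) {q : k[X]}
    (hq : q.eval 0 ≠ 0)
    (hcond : ∀ e : ι → k, (fun i => algebraMap k (κ i) (e i) * aeval (ρ i z) q) ∈
      redA h (h i0).resC (Rg {P : Pl C L | P.v z ≤ 1})) :
    ∑ i, gen k (κ i) ≤ gen C L := by
  classical
  haveI : Infinite k := IsAlgClosed.instInfinite
  have hC := (h i0).resC
  have hz1 := G.eq_one h
  have hz0 : z ≠ 0 := by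
    intro h0
    have := hz1 i0
    rw [h0] at this; simp at this
  have hρz : ∀ i, ρ i z ≠ 0 := fun i => by rw [(h i).res.ne_zero_iff (G.le i)]; exact hz1 i
  set n : ℕ := 2 * ∑ i, gen k (κ i) + 1 with hn
  set D : Pl C L →₀ ℤ := n • poles (k := C) z with hD
  have hD0 : ∀ P, 0 ≤ D P := fun P => by
    rw [hD, Finsupp.smul_apply, poles_apply, nsmul_eq_mul]; positivity
  haveI := LD_finite D
  obtain ⟨m, b, hb1, hb2, hb3, hb4⟩ := o.exists_on h G i0 (LD D)
  have hm : ell D ≤ m := by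
    haveI := FiniteDimensional.span_of_finite C (Set.finite_range b)
    refine (Submodule.finrank_mono hb2).trans ?_
    exact (finrank_range_le_card (R := C) b).trans (Fintype.card_fin m).le
  -- reductions
  have hsm : ∀ (c : Fin m → C), (∀ j, vC (c j) ≤ 1) → ∀ i, w i (∑ j, c j • b j) ≤ 1 ∧
      ρ i (∑ j, c j • b j) = ∑ j, ρC (c j) • ρ i (b j) := by
    intro c hc i
    have hw1 : ∀ j, w i (c j • b j) ≤ 1 := fun j => by
      rw [Algebra.smul_def, map_mul, (h i).norm]; exact mul_le_one' (hc j) (hb3 i j)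
    refine ⟨Valuation.map_sum_le _ fun j _ => hw1 j, ?_⟩
    rw [(h i).res.sum _ _ fun j _ => hw1 j]
    refine Finset.sum_congr rfl fun j _ => ?_
    rw [Algebra.smul_def, (h i).res.mul _ _ (by rw [(h i).norm]; exact hc j) (hb3 i j),
      (h i).comp _ (hc j), ← Algebra.smul_def]
  let A : (Fin m → k) →ₗ[k] (∀ i, κ i) := Fintype.linearCombination k fun j i => ρ i (b j)
  have hA : ∀ r i, A r i = ∑ j, r j • ρ i (b j) := by
    intro r i
    show (Fintype.linearCombination k (fun j i => ρ i (b j)) r) i = _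
    rw [Fintype.linearCombination_apply, Finset.sum_apply]
    rfl
  have hlift : ∀ r, ∃ v ∈ LD D, (∀ i, w i v ≤ 1) ∧ (∀ i, ρ i v = A r i) ∧
      ((∀ i, w i v < 1) → r = 0) := by
    intro r
    choose c hc1 hc2 using fun j => hC.surj (r j)
    refine ⟨∑ j, c j • b j, Submodule.sum_mem _ fun j _ => Submodule.smul_mem _ _ (hb1 j),
      fun i => (hsm c hc1 i).1, fun i => ?_, fun hlt => ?_⟩
    · rw [(hsm c hc1 i).2, hA]
      simp only [hc2]
    · funext j
      obtain ⟨i, hi⟩ := hb4 c j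
      rw [← hc2 j, Pi.zero_apply, hC.zero_iff _ (hc1 j)]
      exact hi.trans_lt (hlt i)
  have hred : ∀ v ∈ LD D, (∀ i, w i v ≤ 1) → ∃ r, ∀ i, ρ i v = A r i := by
    intro v hv hv1
    have h1 := hb2 hv
    rw [← Fintype.range_linearCombination, LinearMap.mem_range] at h1
    obtain ⟨c, hc⟩ := h1
    rw [Fintype.linearCombination_apply] at hc
    have hc1 : ∀ j, vC (c j) ≤ 1 := fun j => by
      obtain ⟨i, hi⟩ := hb4 c j
      exact hi.trans (by rw [hc]; exact hv1 i)
    exact ⟨fun j => ρC (c j), fun i => by rw [← hc, (hsm c hc1 i).2, hA]⟩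
  -- the supremum divisors
  let F : ∀ i, Submodule k (κ i) := fun i => LinearMap.range ((LinearMap.proj i).comp A)
  have hF : ∀ v ∈ LD D, (∀ i, w i v ≤ 1) → ∀ i, ρ i v ∈ F i := by
    intro v hv hv1 i
    obtain ⟨r, hr⟩ := hred v hv hv1
    exact ⟨r, (hr i).symm⟩
  have h1D : (1 : L) ∈ LD D := by
    rw [mem_LD]; intro P
    rw [map_one, ← exp_zero, exp_le_exp]; exact hD0 P
  have hzD : z ^ n ∈ LD D := by
    rw [mem_LD]; intro P
    rw [map_pow, hD, Finsupp.smul_apply, exp_nsmul]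
    exact pow_le_pow_left' (mem_LD.mp (mem_LD_poles hz0) P) n
  have h1F : ∀ i, (1 : κ i) ∈ F i := fun i => by
    have := hF 1 h1D (fun i => by simp) i
    rwa [(h i).res.one] at this
  have hzF : ∀ i, ρ i z ^ n ∈ F i := fun i => by
    have := hF _ hzD (fun i => by rw [map_pow, hz1, one_pow]) i
    rwa [(h i).res.pow (G.le i)] at this
  have hsup : ∀ i, ∃ E, IsSup (F i) E := fun i => exists_isSup inferInstance (by
    intro h0
    have := h1F i
    rw [h0, Submodule.mem_bot] at this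
    exact one_ne_zero this)
  choose E hE using hsup
  have hE0 : ∀ i P, 0 ≤ E i P := by
    intro i P
    have h3 := mem_LD.mp ((hE i).1 (h1F i)) P
    rwa [map_one, ← exp_zero, exp_le_exp] at h3
  have hpole : ∀ i, ∃ P, (n : ℤ) ≤ E i P := by
    intro i
    obtain ⟨P, hP⟩ := exists_pole (G.nc i)
    refine ⟨P, ?_⟩
    have h3 := mem_LD.mp ((hE i).1 (hzF i)) P
    have h4 := divf_neg_of_pole hP
    rw [map_pow, v_eq (hρz i), ← exp_nsmul, exp_le_exp, nsmul_eq_mul] at h3
    nlinarith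
  have hEn : ∀ i, (n : ℤ) ≤ degD (E i) := by
    intro i
    obtain ⟨P, hP⟩ := hpole i
    have h3 : degD (Finsupp.single P (n : ℤ)) ≤ degD (E i) := by
      refine degD_mono fun Q => ?_
      rw [Finsupp.single_apply]
      split_ifs with h4
      · rw [← h4]; exact hP
      · exact hE0 i Q
    rwa [degD_single, degP_eq_one, Nat.cast_one, mul_one] at h3
  -- a generic element
  have hgen : ∃ r, ∀ i, ∀ P ∈ (E i).support, ¬ P.v (A r i) ≤ exp (E i P - 1) := by
    let Gs : (Σ i, Pl k (κ i)) → Submodule k (Fin m → k) := fun x =>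
      (ball x.2 (E x.1 x.2 - 1)).comap ((LinearMap.proj x.1).comp A)
    let s : Finset (Subspace k (Fin m → k)) := (Finset.univ.sigma fun i => (E i).support).image Gs
    have hs : ⊤ ∉ s := by
      intro ht
      rw [Finset.mem_image] at ht
      obtain ⟨⟨i, P⟩, _, hb⟩ := ht
      obtain ⟨_, ⟨r, rfl⟩, hzb⟩ := (hE i).2 P
      have h1 : r ∈ Gs ⟨i, P⟩ := by rw [hb]; trivial
      have h2 : P.v (((LinearMap.proj i).comp A) r) ≤ exp (E i P - 1) := h1
      rw [hzb, exp_le_exp] at h2
      omega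
    have hne := Subspace.biUnion_ne_univ_of_top_notMem hs
    obtain ⟨r, hr⟩ := (Set.ne_univ_iff_exists_notMem _).mp hne
    refine ⟨r, fun i P hP hcon => hr ?_⟩
    rw [Set.mem_iUnion₂]
    exact ⟨Gs ⟨i, P⟩, Finset.mem_image_of_mem Gs (by simp [hP]), hcon⟩
  obtain ⟨r, hr⟩ := hgen
  obtain ⟨u, hu, hu1, hu2, -⟩ := hlift r
  have hsupp : ∀ i, ∃ P ∈ (E i).support, (n : ℤ) ≤ E i P := fun i => by
    obtain ⟨P, hP⟩ := hpole i
    exact ⟨P, Finsupp.mem_support_iff.mpr (by omega), hP⟩
  have hρu0 : ∀ i, ρ i u ≠ 0 := by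
    intro i h0
    obtain ⟨P, hP, -⟩ := hsupp i
    exact hr i P hP (by rw [← hu2, h0, map_zero]; exact zero_le)
  have hwu : ∀ i, w i u = 1 := fun i => ((h i).res.ne_zero_iff (hu1 i)).mp (hρu0 i)
  have hEle : ∀ i P, E i P ≤ poles (k := k) (ρ i u) P := by
    intro i P
    rw [poles_apply]
    by_cases hP : P ∈ (E i).support
    · have h3 := hr i P hP
      rw [← hu2, v_eq (hρu0 i), exp_le_exp] at h3
      omega
    · rw [Finsupp.notMem_support_iff.mp hP]; exact le_max_right _ _
  have hu0 : u ≠ 0 := by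
    intro h0
    have := hwu i0
    rw [h0] at this; simp at this
  have htr : Transcendental C u := by
    intro halg
    have h1 : u ∈ algebraicClosure C L := mem_algebraicClosure_iff.mpr halg
    rw [hc_of_isAlgClosed (k := C) (K := L), IntermediateField.mem_bot] at h1
    obtain ⟨c, hc⟩ := h1
    have hc1 : vC c = 1 := by rw [← (h i0).norm, hc, hwu]
    have h2 : ρ i0 u = algebraMap k (κ i0) (ρC c) := by rw [← hc, (h i0).comp c hc1.le]
    obtain ⟨P, -, hP⟩ := hsupp i0
    have h3 := hEle i0 P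
    have h4 : ρC c ≠ 0 := by rw [hC.ne_zero_iff hc1.le]; exact hc1
    have h5 := P.const _ h4
    rw [← h2, v_eq (hρu0 i0), ← exp_zero, exp_inj] at h5
    rw [poles_apply] at h3
    omega
  have hdeg : ∑ i, degD (E i) ≤ degD D := by
    refine (Finset.sum_le_sum fun i _ => degD_mono (hEle i)).trans ((deg_le h hw htr hwu).trans
      (degD_mono (k := C) (κ := L) fun P => ?_))
    rw [mem_LD_iff hu0] at hu
    rw [poles_apply]
    have h3 : 0 ≤ D P + divf (k := C) u P := hu P
    exact max_le (by linarith) (hD0 P)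
  -- the dimension count
  haveI : ∀ i, Module.Finite k (LD (E i)) := fun i => LD_finite (E i)
  let Ψ : (∀ i, LD (E i)) →ₗ[k] (∀ i, κ i) :=
    LinearMap.pi fun i => (LD (E i)).subtype.comp (LinearMap.proj i)
  let Z : (ι → k) →ₗ[k] (∀ i, κ i) :=
    LinearMap.pi fun i => (LinearMap.toSpanSingleton k (κ i) (ρ i z ^ n)).comp (LinearMap.proj i)
  have hZ : ∀ e i, Z e i = e i • ρ i z ^ n := fun e i => rfl
  let T : ((Fin m → k) × (ι → k)) →ₗ[k] (∀ i, κ i) := A.coprod (-Z)
  have hT : ∀ x i, T x i = A x.1 i - x.2 i • ρ i z ^ n := fun x i => by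
    show (A x.1 + (-Z) x.2) i = _
    rw [LinearMap.neg_apply, Pi.add_apply, Pi.neg_apply, hZ, sub_eq_add_neg]
  have hrange : LinearMap.range T ≤ LinearMap.range Ψ := by
    rintro _ ⟨x, rfl⟩
    refine ⟨fun i => ⟨T x i, (hE i).1 ?_⟩, rfl⟩
    rw [hT]
    exact sub_mem ⟨x.1, rfl⟩ (Submodule.smul_mem _ _ (hzF i))
  have hker : finrank k (LinearMap.ker T) ≤ 1 := by
    let ev : LinearMap.ker T →ₗ[k] k :=
      ((LinearMap.proj i0).comp (LinearMap.snd k (Fin m → k) (ι → k))).comp
        (LinearMap.ker T).subtype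
    have hinj : Function.Injective ev := by
      rw [injective_iff_map_eq_zero]
      rintro ⟨⟨r, e⟩, hx⟩ h0
      have h0' : e i0 = 0 := h0
      have hx' : ∀ i, A r i = e i • ρ i z ^ n := fun i => by
        have h1 := congrFun (LinearMap.mem_ker.mp hx) i
        rw [hT, Pi.zero_apply, sub_eq_zero] at h1
        exact h1
      obtain ⟨v, hv, hv1, hv2, hv3⟩ := hlift r
      have he : ∀ i, e i = 0 := fun i => by
        rw [← h0']
        exact const_of h G o hC hq hcond n e hv hv1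
          (fun i => by rw [hv2, hx', Algebra.smul_def]) i i0
      have hr0 : r = 0 := hv3 fun i => by
        rw [← (h i).res.zero_iff _ (hv1 i), hv2, hx', he, zero_smul]
      apply Subtype.ext
      exact Prod.ext hr0 (funext he)
    simpa using LinearMap.finrank_le_finrank_of_injective hinj
  have h1 := LinearMap.finrank_range_add_finrank_ker T
  rw [Module.finrank_prod, Module.finrank_fintype_fun_eq_card, Module.finrank_fintype_fun_eq_card,
    Fintype.card_fin] at h1
  have h2 : finrank k (LinearMap.range T) ≤ ∑ i, ell (E i) := by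
    refine (Submodule.finrank_mono hrange).trans ((LinearMap.finrank_range_le Ψ).trans ?_)
    rw [Module.finrank_pi_fintype]
    rfl
  have h3 : ∀ i, (ell (E i) : ℤ) = degD (E i) + 1 - gen k (κ i) := by
    intro i
    have h4 : gen k (κ i) ≤ ∑ i, gen k (κ i) :=
      Finset.single_le_sum (f := fun i => gen k (κ i)) (fun _ _ => Nat.zero_le _) (Finset.mem_univ i)
    have h5 := hEn i
    rw [ell_eq_of_lt hc_of_isAlgClosed (by omega)]
  have h4 := ell_ge (k := C) (K := L) hc_of_isAlgClosed D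
  have h5 : ((∑ i, ell (E i) : ℕ) : ℤ) =
      ∑ i, degD (E i) + Fintype.card ι - ((∑ i, gen k (κ i) : ℕ) : ℤ) := by
    push_cast
    rw [Finset.sum_congr rfl fun i _ => h3 i, Finset.sum_sub_distrib, Finset.sum_add_distrib]
    simp
  omega

/-- **genus inequality**, all norms over a Gauss norm -/
theorem mg0 (h : ∀ i, Red vC ρC (w i) (ρ i)) (hw : Function.Injective w) {z : L}
    (G : Ga k w ρ z) {d : ℕ} {g : Fin d → L} (o : ON C w z g) (i0 : ι) :
    ∑ i, gen k (κ i) ≤ gen C L := by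
  classical
  haveI : Infinite k := IsAlgClosed.instInfinite
  have hC := (h i0).resC
  obtain ⟨q, hq, hcond⟩ := exists_cond h hw G hC i0
  obtain ⟨ab, hab⟩ := Infinite.exists_notMem_finset q.roots.toFinset
  rw [Multiset.mem_toFinset, mem_roots hq] at hab
  obtain ⟨a, ha, rfl⟩ := hC.surj ab
  refine mg1 h hw (G.shift h ha) (o.shift a) i0 (q := q.comp (X + Polynomial.C (ρC a))) ?_
    fun e => ?_
  · rw [eval_comp]; simpa using hab
  · have h1 : {P : Pl C L | P.v (z - algebraMap C L a) ≤ 1} = {P : Pl C L | P.v z ≤ 1} := by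
      ext P
      have hPa : P.v (algebraMap C L a) ≤ 1 := (Rg {P}).algebraMap_mem a P rfl
      constructor
      · intro h1
        have e : z = (z - algebraMap C L a) + algebraMap C L a := by ring
        show P.v z ≤ 1
        rw [e]
        exact (Valuation.map_add _ _ _).trans (max_le h1 hPa)
      · intro h1
        exact (Valuation.map_sub _ _ _).trans (max_le h1 hPa)
    rw [h1]
    convert hcond e using 3 with i
    rw [(h i).res.sub (G.le i) (by rw [(h i).norm]; exact ha), (h i).comp a ha, aeval_shift]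

end main

end Crest.Agent.T15.Ct
end

-- ▼ part T15/CtD_92
section

/-!
# Row 15, block F (helper92): the genus inequality for any finite set of norms

* `exists_red` : a norm over a Gauss norm has a function field as residue field;
* `red_equiv` : uniqueness of residue fields;
* `mg` : `∑ gen (κ i) ≤ gen L` for distinct norms.
-/

set_option autoImplicit false
set_option linter.all false

namespace Crest.Agent.T15.Ct

open Polynomial WithZero Module
open scoped NNReal
open Crest.Agent.R013.RR2_948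
open Crest.Agent.R013.RR7_948 Crest.Agent.R013.RR8_948 Crest.Agent.R013.RR9_948
open Crest.Agent.R013.RR11_948 Crest.Agent.R013.RR12_948
open Crest.Agent.R013.RR18_948 Crest.Agent.R013.RR19_948 Crest.Agent.R013.RR20_948
open Crest.Agent.R013.GR2_921 Crest.Agent.R013.GR3_921 Crest.Agent.R013.GR4_921
open Crest.Agent.R013.GR5_921 Crest.Agent.R013.GR6_921 Crest.Agent.R013.GR7_921
open Crest.Agent.R013.GR8_921 Crest.Agent.R013.GR9_921

section equiv

variable {C L k κ κ' : Type*} [Field C] [Field L] [Algebra C L] [Field k] [Field κ] [Algebra k κ]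
  [Field κ'] [Algebra k κ'] {vC : Valuation C ℝ≥0} {ρC : C → k} {w : Valuation L ℝ≥0}
  {ρ : L → κ} {ρ' : L → κ'}

theorem res_hom (h : IsRes w ρ) (h' : IsRes w ρ') :
    ∃ e : κ →+* κ', ∀ x, w x ≤ 1 → e (ρ x) = ρ' x := by
  choose s hs1 hs2 using h.surj
  have key : ∀ x, w x ≤ 1 → ρ' (s (ρ x)) = ρ' x := fun x hx => by
    rw [h'.eq_iff (hs1 _) hx, ← h.eq_iff (hs1 _) hx, hs2]
  refine ⟨{ toFun := fun a => ρ' (s a), map_one' := ?_, map_mul' := fun a b => ?_,
            map_zero' := ?_, map_add' := fun a b => ?_ }, key⟩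
  · rw [← h.one, key 1 (by simp), h'.one]
  · rw [← h'.mul _ _ (hs1 a) (hs1 b), ← key (s a * s b) (by
      rw [map_mul]; exact mul_le_one' (hs1 a) (hs1 b)), h.mul _ _ (hs1 a) (hs1 b), hs2, hs2]
  · rw [← h.zero, key 0 (by simp), h'.zero]
  · rw [← h'.add _ _ (hs1 a) (hs1 b), ← key (s a + s b)
      ((Valuation.map_add _ _ _).trans (max_le (hs1 a) (hs1 b))), h.add _ _ (hs1 a) (hs1 b),
      hs2, hs2]

/-- uniqueness of the residue field -/
theorem red_equiv (h : Red vC ρC w ρ) (h' : Red vC ρC w ρ') :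
    ∃ e : κ ≃+* κ', (∀ x, w x ≤ 1 → e (ρ x) = ρ' x) ∧
      ∀ c : k, e (algebraMap k κ c) = algebraMap k κ' c := by
  obtain ⟨e, he⟩ := res_hom h.res h'.res
  have hs : Function.Surjective e := fun y => by
    obtain ⟨x, hx, rfl⟩ := h'.res.surj y
    exact ⟨ρ x, he x hx⟩
  refine ⟨RingEquiv.ofBijective e ⟨e.injective, hs⟩, he, fun c => ?_⟩
  obtain ⟨a, ha, rfl⟩ := h.resC.surj c
  rw [← h.comp a ha, ← h'.comp a ha]
  exact he _ (by rw [h.norm]; exact ha)

theorem hasGen_of_red [IsAlgClosed k] (h : Red vC ρC w ρ) (h' : Red vC ρC w ρ') {g : ℕ}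
    (hg : HasGen k κ g) : HasGen k κ' g := by
  obtain ⟨e, -, he⟩ := red_equiv h h'
  exact HasGen.transport (RingEquiv.refl k) e he hg

end equiv

section red

universe u

variable {C : Type*} [Field C] [IsAlgClosed C] [CharZero C] {L : Type u} [Field L] [Algebra C L]
  [Algebra (RatFunc C) L] [IsScalarTower C (RatFunc C) L] [FiniteDimensional (RatFunc C) L]
  {k : Type*} [Field k] [IsAlgClosed k] {vC : Valuation C ℝ≥0} {ρC : C → k}

theorem gauss_val' {W : Valuation L ℝ≥0} (hn : ∀ c, W (algebraMap C L c) = vC c) {z : L}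
    (hz : W z ≤ 1) (hga : ∀ (p : C[X]) n, vC (p.coeff n) ≤ W (aeval z p)) (p : C[X]) :
    ∃ n, W (aeval z p) = vC (p.coeff n) := by
  obtain ⟨n, -, hn'⟩ := Finset.exists_max_image (Finset.range (p.natDegree + 1))
    (fun n => vC (p.coeff n)) ⟨0, by simp⟩
  refine ⟨n, le_antisymm ?_ (hga p n)⟩
  rw [aeval_eq_sum_range]
  refine Valuation.map_sum_le _ fun i hi => ?_
  rw [Algebra.smul_def, map_mul, map_pow, hn]
  exact (mul_le_mul' (hn' i hi) (pow_le_one' hz i)).trans (mul_one _).le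

theorem transc_of_gauss {W : Valuation L ℝ≥0} {z : L}
    (hga : ∀ (p : C[X]) n, vC (p.coeff n) ≤ W (aeval z p)) : Transcendental C z := by
  rw [transcendental_iff]
  intro f hf
  ext i
  have h1 := hga f i
  rw [hf, map_zero] at h1
  rw [coeff_zero]
  exact (Valuation.zero_iff vC).mp (le_antisymm h1 zero_le)

/-- the value group does not grow -/
theorem val_of_gauss {W : Valuation L ℝ≥0} (hn : ∀ c, W (algebraMap C L c) = vC c) {z : L}
    (hz : W z ≤ 1) (hga : ∀ (p : C[X]) n, vC (p.coeff n) ≤ W (aeval z p)) (f : L) (hf : f ≠ 0) :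
    ∃ c : C, W f = vC c := by
  classical
  have htr := transc_of_gauss hga
  obtain ⟨N, hN⟩ : ∃ N : ℕ, degD (poles (k := C) z) < N := ⟨(degD (poles (k := C) z)).toNat + 1, by
    push_cast; omega⟩
  have h1 : ∃ Φ : Fin N → C[X], ∑ i, aeval z (Φ i) * f ^ (i : ℕ) = 0 ∧ ∃ i, Φ i ≠ 0 := by
    by_contra hcon
    push Not at hcon
    have := card_le_deg htr (fun i : Fin N => f ^ (i : ℕ)) hcon
    rw [Fintype.card_fin] at this
    omega
  obtain ⟨Φ, hΦ, i1, hi1⟩ := h1
  have hWf : W f ≠ 0 := (Valuation.ne_zero_iff _).mpr hf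
  have hne : ∀ i, Φ i ≠ 0 → W (aeval z (Φ i) * f ^ (i : ℕ)) ≠ 0 := fun i hi =>
    (Valuation.ne_zero_iff _).mpr (mul_ne_zero (fun h0 => hi (transcendental_iff.mp htr _ h0))
      (pow_ne_zero _ hf))
  obtain ⟨i0, -, hmax⟩ := Finset.exists_max_image Finset.univ
    (fun i : Fin N => W (aeval z (Φ i) * f ^ (i : ℕ))) ⟨i1, Finset.mem_univ _⟩
  have h0 : W (aeval z (Φ i0) * f ^ (i0 : ℕ)) ≠ 0 := fun h0 =>
    hne i1 hi1 (le_antisymm (h0 ▸ hmax i1 (Finset.mem_univ _)) zero_le)
  have h2 : ∃ j, j ≠ i0 ∧ W (aeval z (Φ j) * f ^ (j : ℕ)) = W (aeval z (Φ i0) * f ^ (i0 : ℕ)) := by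
    by_contra hcon
    push Not at hcon
    have h3 := Valuation.map_sum_eq_of_lt W (s := Finset.univ)
      (f := fun i : Fin N => aeval z (Φ i) * f ^ (i : ℕ)) (Finset.mem_univ i0) (fun i hi =>
        lt_of_le_of_ne (hmax i (Finset.mem_univ _)) (hcon i (by simpa using hi)))
    rw [hΦ, map_zero] at h3
    exact h0 h3.symm
  obtain ⟨j, hj, hj2⟩ := h2
  have key : ∀ (i j : Fin N), (i : ℕ) < j → W (aeval z (Φ j) * f ^ (j : ℕ)) ≠ 0 →
      W (aeval z (Φ j) * f ^ (j : ℕ)) = W (aeval z (Φ i) * f ^ (i : ℕ)) → ∃ c : C, W f = vC c := by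
    intro i j hij h3 h4
    obtain ⟨n, hn1⟩ := gauss_val' hn hz hga (Φ i)
    obtain ⟨m, hm1⟩ := gauss_val' hn hz hga (Φ j)
    rw [map_mul, map_pow, hm1] at h3
    rw [map_mul, map_mul, map_pow, map_pow, hn1, hm1] at h4
    obtain ⟨t, ht⟩ := Nat.exists_eq_add_of_lt hij
    obtain ⟨c, hc⟩ := IsAlgClosed.exists_pow_nat_eq ((Φ i).coeff n / (Φ j).coeff m) (Nat.succ_pos t)
    refine ⟨c, (pow_left_inj₀ zero_le zero_le (Nat.succ_ne_zero t)).mp ?_⟩
    rw [← map_pow vC, hc, map_div₀, eq_div_iff (left_ne_zero_of_mul h3)]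
    rw [ht, add_assoc, pow_add] at h4
    refine mul_right_cancel₀ (pow_ne_zero (i : ℕ) hWf) ?_
    rw [← h4, Nat.succ_eq_add_one]; ring
  rcases lt_or_gt_of_ne hj with h3 | h3
  · exact key j i0 h3 h0 hj2.symm
  · exact key i0 j h3 (hj2 ▸ h0) hj2

/-- **a norm over a Gauss norm has a function field as residue field** -/
theorem exists_red (hC : IsRes vC ρC) {W : Valuation L ℝ≥0}
    (hn : ∀ c, W (algebraMap C L c) = vC c) {z : L} (hz : W z ≤ 1)
    (hga : ∀ (p : C[X]) n, vC (p.coeff n) ≤ W (aeval z p)) :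
    ∃ (κ : Type u) (_ : Field κ) (_ : Algebra k κ) (ρ : L → κ) (g : ℕ),
      Red vC ρC W ρ ∧ HasGen k κ g ∧ ρ z ∉ Set.range (algebraMap k κ) := by
  classical
  obtain ⟨κ, iκ, ρ, hρ⟩ : ∃ (κ : Type u) (_ : Field κ) (ρ : L → κ), IsRes W ρ := by
    obtain ⟨ρ, hρ, -⟩ := exists_isRes W
    exact ⟨_, inferInstance, ρ, hρ⟩
  choose s hs1 hs2 using hC.surj
  have hw1 : ∀ c, vC c ≤ 1 → W (algebraMap C L c) ≤ 1 := fun c hc => by rw [hn]; exact hc
  have key : ∀ c, vC c ≤ 1 → ρ (algebraMap C L (s (ρC c))) = ρ (algebraMap C L c) := fun c hc => by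
    rw [hρ.eq_iff (hw1 _ (hs1 _)) (hw1 _ hc), ← map_sub, hn, ← hC.eq_iff (hs1 _) hc, hs2]
  let φ : k →+* κ :=
    { toFun := fun a => ρ (algebraMap C L (s a))
      map_one' := by rw [← hC.one, key 1 (by simp), map_one, hρ.one]
      map_mul' := fun a b => by
        rw [← hρ.mul _ _ (hw1 _ (hs1 a)) (hw1 _ (hs1 b)), ← map_mul, ← key (s a * s b) (by
          rw [map_mul]; exact mul_le_one' (hs1 a) (hs1 b)), hC.mul _ _ (hs1 a) (hs1 b), hs2, hs2]
      map_zero' := by rw [← hC.zero, key 0 (by simp), map_zero, hρ.zero]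
      map_add' := fun a b => by
        rw [← hρ.add _ _ (hw1 _ (hs1 a)) (hw1 _ (hs1 b)), ← map_add, ← key (s a + s b)
          ((Valuation.map_add _ _ _).trans (max_le (hs1 a) (hs1 b))), hC.add _ _ (hs1 a) (hs1 b),
          hs2, hs2] }
  letI : Algebra k κ := φ.toAlgebra
  have hR : Red vC ρC W ρ :=
    ⟨hC, hρ, hn, fun c hc => (key c hc).symm, val_of_gauss hn hz hga⟩
  have hnc : ρ z ∉ Set.range (algebraMap k κ) := by
    rintro ⟨c, hc⟩
    have h1 : W (z - algebraMap C L (s c)) < 1 := by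
      rw [← hρ.eq_iff hz (hw1 _ (hs1 _))]; exact hc.symm
    have h2 := hga (X - Polynomial.C (s c)) 1
    rw [map_sub, aeval_X, aeval_C] at h2
    simp only [coeff_sub, coeff_X_one, coeff_C_succ, sub_zero, map_one] at h2
    exact absurd h1 (not_lt.mpr h2)
  have htr : Transcendental k (ρ z) := by
    intro halg
    have h2 : ρ z ∈ algebraicClosure k κ := mem_algebraicClosure_iff.mpr halg
    rw [hc_of_isAlgClosed (k := k) (K := κ), IntermediateField.mem_bot] at h2
    exact hnc h2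
  have hx := ratAlg_xK (k := k) (ρ z) htr
  letI := ratAlg (ρ z) htr
  haveI := ratAlg_tower (ρ z) htr
  haveI : FiniteDimensional (RatFunc k) κ := by
    have h1 : Module.rank (RatFunc k) κ ≤ (degD (poles (k := C) z)).toNat := by
      refine rank_le fun t ht => ?_
      choose g hg1 hg2 using fun x : t => hρ.surj x
      have h2 := card_le_deg (transc_of_gauss hga) g (by
        intro Φ hΦ
        by_contra hcon
        push Not at hcon
        obtain ⟨x1, hx1⟩ := hcon
        obtain ⟨c, x0, n0, hc0, hΨ, hone⟩ := norm_fam vC Φ hx1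
        have hsum : ∑ x, aeval z (Polynomial.C c * Φ x) * g x = 0 := by
          have h1 : ∑ x, aeval z (Polynomial.C c * Φ x) * g x =
              algebraMap C L c * ∑ x, aeval z (Φ x) * g x := by
            rw [Finset.mul_sum]
            refine Finset.sum_congr rfl fun i _ => ?_
            rw [map_mul, aeval_C]; ring
          rw [h1, hΦ, mul_zero]
        have hle : ∀ x, W (aeval z (Polynomial.C c * Φ x)) ≤ 1 := fun x =>
          w_aeval_le hR (hΨ x) hz
        have h3 := Fintype.linearIndependent_iff.mp ht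
          (fun x => algebraMap k[X] (RatFunc k) (redP ρC (Polynomial.C c * Φ x))) (by
            have h1 := congrArg ρ hsum
            rw [hρ.zero, hρ.sum _ _ fun x _ => by
              rw [map_mul]; exact mul_le_one' (hle x) (hg1 x)] at h1
            rw [← h1]
            refine Finset.sum_congr rfl fun x _ => ?_
            rw [hρ.mul _ _ (hle x) (hg1 x), res_aeval hR (hΨ x) hz, hg2, Algebra.smul_def,
              alg_poly, hx]) x0
        have h4 : redP ρC (Polynomial.C c * Φ x0) = 0 :=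
          (FaithfulSMul.algebraMap_injective k[X] (RatFunc k)) (by rw [h3, map_zero])
        have h5 := congrArg (fun q => Polynomial.coeff q n0) h4
        simp only [coeff_redP hR, coeff_zero] at h5
        rw [hone, hC.one] at h5
        exact one_ne_zero h5)
      rw [Fintype.card_coe] at h2
      omega
    exact Module.rank_lt_aleph0_iff.mp (h1.trans_lt (Cardinal.natCast_lt_aleph0))
  obtain ⟨y, hy, h1, h2⟩ := Crest.Agent.R013.Ins_240.exists_separating (k := k) (K := κ)
  exact ⟨κ, inferInstance, inferInstance, ρ, _, hR,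
    ⟨ratAlg y hy, ratAlg_tower y hy, h1, h2, rfl⟩, hnc⟩

open Crest.Agent.R013.StabF_83 Crest.Agent.R013.StabR_460 in
/-- all norms over the Gauss norm of `z`, with an orthonormal basis -/
theorem exists_all {W : Valuation L ℝ≥0} (hn : ∀ c, W (algebraMap C L c) = vC c) {z : L}
    (hz : W z ≤ 1) (hga : ∀ (p : C[X]) n, vC (p.coeff n) ≤ W (aeval z p))
    (p : ℕ) [hpp : Fact p.Prime] (hp : vC (p : C) < 1) :
    ∃ (I : Type u) (_ : Fintype I) (w : I → Valuation L ℝ≥0) (d : ℕ) (g : Fin d → L),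
      Function.Injective w ∧ ON C w z g ∧ (∀ i q, w i (aeval z q) = W (aeval (R := C) z q)) ∧
      ∀ W' : Valuation L ℝ≥0, (∀ q : C[X], W' (aeval z q) = W (aeval z q)) → ∃ i, W' = w i := by
  classical
  have hxt := transc_of_gauss hga
  have hfd : FiniteDimensional (IntermediateField.adjoin C {z}) L :=
    Crest.Agent.R013.CLiftN_903.fd_adjoin z hxt
  let F := IntermediateField.adjoin C {z}
  let xF : F := ⟨z, IntermediateField.subset_adjoin C {z} rfl⟩
  let w0 : Valuation F ℝ≥0 := W.comap (algebraMap F L)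
  have hval : ∀ f : C[X], algebraMap F L (aeval xF f) = aeval z f := fun f =>
    (aeval_algebraMap_apply L xF f).symm
  have hfrac : ∀ y : F, ∃ f g : C[X], g ≠ 0 ∧ y = aeval xF f / aeval xF g := by
    rintro ⟨y, hy⟩
    obtain ⟨f, g, hfg⟩ := IntermediateField.mem_adjoin_simple_iff C y |>.mp hy
    by_cases hg : g = 0
    · refine ⟨0, 1, one_ne_zero, ?_⟩
      apply Subtype.ext
      rw [map_zero, zero_div]
      show y = 0
      rw [hfg, hg, map_zero, div_zero]
    · refine ⟨f, g, hg, (algebraMap F L).injective ?_⟩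
      rw [map_div₀, hval, hval]
      exact hfg
  have hinj : ∀ g : C[X], g ≠ 0 → aeval xF g ≠ 0 := by
    intro g hg h0
    refine hg (transcendental_iff.mp hxt _ ?_)
    rw [← hval, h0, map_zero]
  obtain ⟨E, i1, i2, i3, i4, hd, hE, I, i5, ⟨o⟩⟩ := out_of_gauss (C := C) F w0 p
    (by
      show W (algebraMap F L (p : F)) < 1
      rw [map_natCast, ← map_natCast (algebraMap C L), hn]; exact hp)
    xF hz
    (by
      intro f i
      show W (algebraMap F L (algebraMap C F (f.coeff i))) ≤ W (algebraMap F L (aeval xF f))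
      rw [← IsScalarTower.algebraMap_apply, hn, hval]; exact hga f i)
    hfrac L
  let e := Fintype.equivFin (Σ i, Fin (o.d i))
  refine ⟨I, i5, o.w, _, fun l => o.b (e.symm l), ?_, ⟨fun i j => o.b_le i _, fun u => ?_,
    fun r l => ?_⟩, fun i q => ?_, fun W' hW' => ?_⟩
  · intro i j hij
    by_contra hne
    obtain ⟨y, hy⟩ := o.approx (fun m => if m = i then 1 else 0) 1 one_pos
    have h1 := hy i
    have h2 := hy j
    rw [if_pos rfl] at h1
    rw [if_neg (Ne.symm hne), sub_zero, ← hij] at h2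
    have h3 : o.w i 1 < 1 := by
      have e : (1 : L) = y - (y - 1) := by ring
      rw [e]
      exact (Valuation.map_sub _ _ _).trans_lt (max_lt h2 h1)
    rw [map_one] at h3
    exact lt_irrefl _ h3
  · obtain ⟨q, r, hq, hr⟩ := common_den (C := C) (x := xF) (fun y => by
      obtain ⟨f, g, hg, hfg⟩ := hfrac y
      exact ⟨f, g, hinj g hg, by rw [hfg, div_mul_cancel₀ _ (hinj g hg)]⟩)
      (fun j => o.b.repr u j)
    refine ⟨q, fun h0 => hq (by rw [h0, map_zero]), fun l => r (e.symm l), ?_⟩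
    rw [Equiv.sum_comp e.symm (fun j => aeval z (r j) * o.b j)]
    conv_lhs => rw [← o.b.sum_repr u, Finset.mul_sum]
    refine Finset.sum_congr rfl fun j _ => ?_
    rw [← hval, ← hval, ← hr, Algebra.smul_def, map_mul]; ring
  · obtain ⟨i, hi⟩ := o.ge (fun j => aeval xF (r (e j))) (e.symm l)
    refine ⟨i, ?_⟩
    rw [← o.w_alg i, hval, e.apply_symm_apply] at hi
    refine hi.trans (le_of_eq ?_)
    congr 1
    rw [← Equiv.sum_comp e.symm]
    refine Finset.sum_congr rfl fun j _ => ?_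
    rw [e.apply_symm_apply, Algebra.smul_def, hval]
  · rw [← hval, o.w_alg, hE]; rfl
  · refine o.complete W' fun f => ?_
    obtain ⟨a, b, -, rfl⟩ := hfrac f
    rw [hE]
    show _ = W (algebraMap F L _)
    rw [map_div₀, map_div₀, map_div₀, hval, hval, hW', hW']

/-- **genus inequality for several norms** -/
theorem mg {ι : Type*} [Fintype ι] {κ : ι → Type*} [∀ i, Field (κ i)] [∀ i, Algebra k (κ i)]
    {w : ι → Valuation L ℝ≥0} {ρ : ∀ i, L → κ i} (h : ∀ i, Red vC ρC (w i) (ρ i))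
    (hw : Function.Injective w) {g : ι → ℕ} (hg : ∀ i, HasGen k (κ i) (g i))
    (p : ℕ) [hpp : Fact p.Prime] (hp : vC (p : C) < 1) : ∑ i, g i ≤ gen C L := by
  classical
  haveI : Infinite k := IsAlgClosed.instInfinite
  rcases isEmpty_or_nonempty ι with hι | ⟨⟨i0⟩⟩
  · simp
  have h1 : ∀ i, ∃ a : κ i, a ∉ Set.range (algebraMap k (κ i)) := fun i => by
    obtain ⟨i1, i2, i3, i4, -⟩ := hg i
    exact exists_notMem_range
  choose a ha using h1
  obtain ⟨z, hz1, hz2⟩ := approx h hw a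
  have G : Ga k w ρ z := ⟨hz1, fun i => by rw [hz2]; exact ha i⟩
  obtain ⟨I, i5, w', d, b, hw', o, hq, hall⟩ :=
    exists_all (h i0).norm (hz1 i0) (G.coeff_le h i0) p hp
  have h2 : ∀ j, ∃ (κ : Type u) (_ : Field κ) (_ : Algebra k κ) (ρ : L → κ) (g : ℕ),
      Red vC ρC (w' j) ρ ∧ HasGen k κ g ∧ ρ z ∉ Set.range (algebraMap k κ) := fun j => by
    refine exists_red (h i0).resC (fun c => ?_) ?_ fun q n => ?_
    · rw [← aeval_C z, hq, aeval_C, (h i0).norm]
    · have := hq j X
      rw [aeval_X] at this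
      rw [this]; exact hz1 i0
    · rw [hq]; exact G.coeff_le h i0 q n
  choose κ' f1 f2 ρ' g' h' hg' hnc using h2
  choose j hj using fun i => hall (w i) (G.eq h i i0)
  have hjinj : Function.Injective j := fun i i' hii => hw (by rw [hj, hj, hii])
  have hgg : ∀ i, g i = g' (j i) := fun i =>
    HasGen.unique (hasGen_of_red (h i) (by rw [hj]; exact h' (j i)) (hg i)) (hg' (j i))
  choose i1 i2 i3 i4 i6 using hg'
  have h3 := mg0 h' hw' (z := z) ⟨fun j => by
    have := hq j X
    rw [aeval_X] at this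
    rw [this]; exact hz1 i0, hnc⟩ o (j i0)
  refine le_trans ?_ h3
  simp only [i6, hgg]
  rw [← Finset.sum_image (s := Finset.univ) (g := j) (f := g') fun x _ y _ h => hjinj h]
  exact Finset.sum_le_sum_of_subset (Finset.subset_univ _)

end red

end Crest.Agent.T15.Ct
end

-- ▼ part T15/CtE_92

/-!
# Row 15, block F (helper92): Neron-Ogg-Shafarevich for several norms (compact type)

`w i` distinct norms of `K / C` with `gen K ≤ ∑ gen (κ i)`, `n` prime to the residue characteristic.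
* `inj_pow` : `n ∣ div f`, `f` an `n`-th power modulo every `w i` ⇒ `f` is an `n`-th power;
* `nos` : a semilinear automorphism which is trivial on all residue fields is trivial on `Pic[n]`.
-/

set_option autoImplicit false
set_option linter.all false

namespace Crest.Agent.T15.Ct

open Polynomial WithZero Module
open scoped NNReal IntermediateField
open Crest.Agent.R013.RR7_948 Crest.Agent.R013.RR8_948 Crest.Agent.R013.RR9_948
open Crest.Agent.R013.RR11_948 Crest.Agent.R013.RR12_948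
open Crest.Agent.R013.RR18_948 Crest.Agent.R013.RR19_948 Crest.Agent.R013.RR20_948
open Crest.Agent.R013.GR2_921 Crest.Agent.R013.GR3_921 Crest.Agent.R013.GR4_921
open Crest.Agent.R013.Kumv_275 Crest.Agent.R013.PicD_398 Crest.Agent.R013.Frob1_914

universe u

section dense

variable {C K L k κ : Type*} [Field C] [Field K] [Field L] [Algebra C K] [Algebra C L] [Algebra K L]
  [IsScalarTower C K L] [Field k] [Field κ] [Algebra k κ]
  {vC : Valuation C ℝ≥0} {ρC : C → k} {w : Valuation K ℝ≥0} {ρ : K → κ}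

/-- immediate extensions have the same residue field -/
theorem red_of_dense (h : Red vC ρC w ρ) {W : Valuation L ℝ≥0}
    (hW : ∀ x, W (algebraMap K L x) = w x)
    (hd : ∀ z : L, z ≠ 0 → ∃ c : K, W (z - algebraMap K L c) < W z ∧ w c = W z) :
    ∃ ρ' : L → κ, Red vC ρC W ρ' ∧ ∀ x, w x ≤ 1 → ρ' (algebraMap K L x) = ρ x := by
  have h1 : ∀ z : L, ∃ c : K, W z ≤ 1 → w c ≤ 1 ∧ W (z - algebraMap K L c) < 1 := by
    intro z
    by_cases hz : z = 0
    · exact ⟨0, fun _ => by simp [hz]⟩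
    · obtain ⟨c, h1, h2⟩ := hd z hz
      exact ⟨c, fun h3 => ⟨h2.trans_le h3, h1.trans_le h3⟩⟩
  choose s hs using h1
  have key : ∀ (z : L) (c : K), W z ≤ 1 → W (z - algebraMap K L c) < 1 → ρ (s z) = ρ c := by
    intro z c hz hc
    have hc1 : w c ≤ 1 := by
      have e : algebraMap K L c = z - (z - algebraMap K L c) := by ring
      rw [← hW, e]
      exact (Valuation.map_sub _ _ _).trans (max_le hz hc.le)
    rw [h.res.eq_iff (hs z hz).1 hc1, ← hW, map_sub]
    have e : algebraMap K L (s z) - algebraMap K L c =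
        (z - algebraMap K L c) - (z - algebraMap K L (s z)) := by ring
    rw [e]
    exact (Valuation.map_sub _ _ _).trans_lt (max_lt hc (hs z hz).2)
  have key2 : ∀ x, w x ≤ 1 → ρ (s (algebraMap K L x)) = ρ x := fun x hx =>
    key _ x (by rw [hW]; exact hx) (by simp)
  refine ⟨fun z => ρ (s z), ⟨h.resC, ⟨fun x y hx hy => ?_, fun x y hx hy => ?_, ?_, fun x hx => ?_,
    fun y => ?_⟩, fun c => ?_, fun c hc => ?_, fun f hf => ?_⟩, key2⟩
  · rw [← h.res.add _ _ (hs x hx).1 (hs y hy).1]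
    refine key _ _ ((Valuation.map_add _ _ _).trans (max_le hx hy)) ?_
    rw [map_add, add_sub_add_comm]
    exact (Valuation.map_add _ _ _).trans_lt (max_lt (hs x hx).2 (hs y hy).2)
  · rw [← h.res.mul _ _ (hs x hx).1 (hs y hy).1]
    refine key _ _ (by rw [map_mul]; exact mul_le_one' hx hy) ?_
    have e : x * y - algebraMap K L (s x * s y) =
        (y - algebraMap K L (s y)) * x + (x - algebraMap K L (s x)) * algebraMap K L (s y) := by
      rw [map_mul]; ring
    rw [e]
    refine (Valuation.map_add _ _ _).trans_lt (max_lt ?_ ?_)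
    · rw [map_mul]; exact mul_lt_one_of_lt_of_le (hs y hy).2 hx
    · rw [map_mul, hW]; exact mul_lt_one_of_lt_of_le (hs x hx).2 (hs y hy).1
  · rw [← h.res.one]
    exact key 1 1 (by simp) (by simp)
  · show ρ (s x) = 0 ↔ _
    rw [h.res.zero_iff _ (hs x hx).1, ← hW]
    constructor
    · intro h1
      have e : x = (x - algebraMap K L (s x)) + algebraMap K L (s x) := by ring
      rw [e]
      exact (Valuation.map_add _ _ _).trans_lt (max_lt (hs x hx).2 h1)
    · intro h1
      have e : algebraMap K L (s x) = x - (x - algebraMap K L (s x)) := by ring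
      rw [e]
      exact (Valuation.map_sub _ _ _).trans_lt (max_lt h1 (hs x hx).2)
  · obtain ⟨x, hx, rfl⟩ := h.res.surj y
    exact ⟨algebraMap K L x, by rw [hW]; exact hx, key2 x hx⟩
  · rw [IsScalarTower.algebraMap_apply C K L, hW, h.norm]
  · rw [IsScalarTower.algebraMap_apply C K L]
    exact (key2 _ (by rw [h.norm]; exact hc)).trans (h.comp c hc)
  · obtain ⟨c, h1, h2⟩ := hd f hf
    have hc0 : c ≠ 0 := by
      rintro rfl
      rw [map_zero] at h2
      exact hf ((Valuation.zero_iff W).mp h2.symm)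
    obtain ⟨a, ha⟩ := h.val c hc0
    exact ⟨a, by rw [← h2, ha]⟩

end dense

section prime

variable {C : Type*} [Field C] [IsAlgClosed C] [CharZero C] {K : Type u} [Field K] [Algebra C K]
  [Algebra (RatFunc C) K] [IsScalarTower C (RatFunc C) K] [FiniteDimensional (RatFunc C) K]
  {k : Type*} [Field k] [IsAlgClosed k]
  {ι : Type*} [Fintype ι] {κ : ι → Type*} [∀ i, Field (κ i)] [∀ i, Algebra k (κ i)]
  {vC : Valuation C ℝ≥0} {ρC : C → k} {w : ι → Valuation K ℝ≥0} {ρ : ∀ i, K → κ i}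

/-- Kummer extensions of prime degree with divisible divisor are unramified -/
theorem eR_kummer {L : Type*} [Field L] [Algebra C L] [Algebra K L] [IsScalarTower C K L]
    [FiniteDimensional K L] [Algebra.IsSeparable K L] {l : ℕ} (hl : l.Prime) {f : K} (hf : f ≠ 0)
    (hdiv : ∀ P : Pl C K, (l : ℤ) ∣ divf (k := C) f P) {y : L} (hy : y ^ l = algebraMap K L f)
    (htop : K⟮y⟯ = ⊤) (Q : Pl C L) : eR K Q = 1 := by
  haveI : NeZero l := ⟨hl.ne_zero⟩
  obtain ⟨ζ, hζ⟩ := HasEnoughRootsOfUnity.exists_primitiveRoot C l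
  have hζK := hζ.map_of_injective (algebraMap C K).injective
  have h2 : (1 : ℝ≥0) < 2 := one_lt_two
  have hsm := WithZeroMulInt.toNNReal_strictMono h2
  let W : Valuation L ℝ≥0 := Q.v.map (WithZeroMulInt.toNNReal two_ne_zero) hsm.monotone
  have hWv : ∀ x, W x = WithZeroMulInt.toNNReal two_ne_zero (Q.v x) := fun x => rfl
  obtain ⟨m, hm⟩ := hdiv (under K Q)
  obtain ⟨t, ht0, ht⟩ := exists_v_eq (under K Q) (-m)
  have hu : (under K Q).v (f / t ^ l) = 1 := by
    rw [map_div₀, map_pow, v_eq hf, hm, ht, ← exp_nsmul, nsmul_eq_mul, mul_neg,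
      div_self exp_ne_zero]
  obtain ⟨c, hc⟩ := exists_const (under K Q) hu.le
  have hc0 : c ≠ 0 := by
    rintro rfl
    rw [map_zero, sub_zero, hu] at hc
    exact lt_irrefl _ hc
  obtain ⟨d, hd⟩ := IsAlgClosed.exists_pow_nat_eq c hl.pos
  have h1 : (W.comap (algebraMap K L)) (f / (t * algebraMap C K d) ^ l - 1) < 1 := by
    have e2 : f / (t * algebraMap C K d) ^ l - 1 =
        (f / t ^ l - algebraMap C K c) / algebraMap C K c := by
      rw [mul_pow, ← map_pow, hd]
      have : algebraMap C K c ≠ 0 := (_root_.map_ne_zero _).2 hc0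
      field_simp
    rw [Valuation.comap_apply, hWv, ← map_one (WithZeroMulInt.toNNReal two_ne_zero),
      hsm.lt_iff_lt, ← under_lt_one_iff, e2, map_div₀, (under K Q).const c hc0, div_one]
    exact hc
  have hvl : (W.comap (algebraMap K L)) (l : K) = 1 := by
    rw [Valuation.comap_apply, hWv, map_natCast, ← map_natCast (algebraMap C L),
      Q.const _ (Nat.cast_ne_zero.mpr hl.ne_zero), map_one]
  obtain ⟨z, hz⟩ := Q.surj (exp (-1))
  have hz0 : z ≠ 0 := by
    rintro rfl
    rw [map_zero] at hz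
    exact exp_ne_zero hz.symm
  obtain ⟨a, -, ha⟩ := split_val _ hl hvl hζK hy htop h1 W rfl z hz0
  rw [Valuation.comap_apply, hWv, hWv, hsm.injective.eq_iff, hz] at ha
  have ha0 : a ≠ 0 := by
    rintro rfl
    rw [map_zero, map_zero] at ha
    exact exp_ne_zero ha.symm
  have h3 := v_algebraMap_exp (K := K) Q (v_eq ha0 (under K Q))
  rw [ha, exp_inj] at h3
  have h4 : ((eR K Q : ℕ) : ℤ) ∣ 1 := ⟨divf (k := C) a (under K Q), by linarith⟩
  exact Nat.dvd_one.mp (by exact_mod_cast h4)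

theorem inj_aux (h : ∀ i, Red vC ρC (w i) (ρ i)) (hw : Function.Injective w) {g : ι → ℕ}
    (hg : ∀ i, HasGen k (κ i) (g i)) (p : ℕ) [Fact p.Prime] (hp : vC (p : C) < 1)
    (hsum : gen C K ≤ ∑ i, g i) {l : ℕ} (hl : l.Prime) (hvl : vC (l : C) = 1) {f : K}
    (hf : f ≠ 0) (hdiv : ∀ P : Pl C K, (l : ℤ) ∣ divf (k := C) f P)
    (hpow : ∀ i, ∃ a : K, w i (f / a ^ l - 1) < 1) (hh : ∀ a : K, a ^ l ≠ f)
    {L : Type u} [Field L] [Algebra C L] [Algebra K L] [IsScalarTower C K L]
    [Algebra (RatFunc C) L] [IsScalarTower C (RatFunc C) L] [IsScalarTower (RatFunc C) K L]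
    {y : L} (hy : y ^ l = algebraMap K L f) (htop : K⟮y⟯ = ⊤) : False := by
  classical
  haveI : NeZero l := ⟨hl.ne_zero⟩
  haveI := finDim hl hy htop
  haveI : FiniteDimensional (RatFunc C) L := FiniteDimensional.trans (RatFunc C) K L
  haveI : CharZero K := charZero_of_injective_algebraMap (algebraMap C K).injective
  obtain ⟨ζ, hζ⟩ := HasEnoughRootsOfUnity.exists_primitiveRoot C l
  have hζK := hζ.map_of_injective (algebraMap C K).injective
  have hvl' : ∀ i, w i (l : K) = 1 := fun i => by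
    rw [← map_natCast (algebraMap C K), (h i).norm, hvl]
  choose a ha using hpow
  choose W hW1 hW2 using fun x : ι × Fin l =>
    split_exists (w x.1) hl (hvl' x.1) hζK hy htop hh (ha x.1) x.2.2
  have hWv : ∀ x f, W x (algebraMap K L f) = w x.1 f := fun x f => by rw [← hW1 x]; rfl
  choose ρ' h' _ using fun x : ι × Fin l => red_of_dense (h x.1) (hWv x)
    (split_val (w x.1) hl (hvl' x.1) hζK hy htop (ha x.1) (W x) (hW1 x))
  have hinj : Function.Injective W := by
    rintro ⟨i, r⟩ ⟨j, s⟩ hij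
    have h1 : i = j := hw (by rw [← hW1 (i, r), ← hW1 (j, s), hij])
    subst h1
    have h2 := hW2 (i, s)
    rw [← hij] at h2
    exact Prod.ext rfl (Fin.ext (split_idx_unique (w i) hl (hvl' i) hζK (W (i, r)) (hW1 (i, r))
      r.2 s.2 (hW2 (i, r)) h2))
  have h1 := mg (κ := fun x : ι × Fin l => κ x.1) h' hinj (g := fun x => g x.1)
    (fun x => hg x.1) p hp
  rw [Fintype.sum_prod_type] at h1
  simp only [Finset.sum_const, Finset.card_univ, Fintype.card_fin, smul_eq_mul] at h1
  rw [← Finset.mul_sum] at h1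
  have h2 := hurwitz_unramified (k := C) (K := K) (L := L) hc_of_isAlgClosed hc_of_isAlgClosed
    (eR_kummer hl hf hdiv hy htop)
  rw [finrank_L hl hy htop hh] at h2
  have h3 : l * gen C K ≤ gen C L := (Nat.mul_le_mul_left l hsum).trans h1
  have h4 : (l : ℤ) * gen C K ≤ gen C L := by exact_mod_cast h3
  have h5 : (2 : ℤ) ≤ l := by exact_mod_cast hl.two_le
  nlinarith

theorem inj_prime (h : ∀ i, Red vC ρC (w i) (ρ i)) (hw : Function.Injective w) {g : ι → ℕ}
    (hg : ∀ i, HasGen k (κ i) (g i)) (p : ℕ) [Fact p.Prime] (hp : vC (p : C) < 1)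
    (hsum : gen C K ≤ ∑ i, g i) {l : ℕ} (hl : l.Prime) (hvl : vC (l : C) = 1) {f : K}
    (hf : f ≠ 0) (hdiv : ∀ P : Pl C K, (l : ℤ) ∣ divf (k := C) f P)
    (hpow : ∀ i, ∃ a : K, w i (f / a ^ l - 1) < 1) : ∃ a : K, a ^ l = f := by
  by_contra hh
  push Not at hh
  haveI : Fact (Irreducible (X ^ l - Polynomial.C f : K[X])) :=
    ⟨X_pow_sub_C_irreducible_of_prime hl hh⟩
  refine inj_aux h hw hg p hp hsum hl hvl hf hdiv hpow hh
    (L := AdjoinRoot (X ^ l - Polynomial.C f : K[X])) (y := AdjoinRoot.root _) ?_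
    (IntermediateField.adjoin_root_eq_top _)
  exact root_X_pow_sub_C_pow l f

/-- **(INJ)** -/
theorem inj_pow (h : ∀ i, Red vC ρC (w i) (ρ i)) (hw : Function.Injective w) {g : ι → ℕ}
    (hg : ∀ i, HasGen k (κ i) (g i)) (p : ℕ) [Fact p.Prime] (hp : vC (p : C) < 1)
    (hsum : gen C K ≤ ∑ i, g i) {n : ℕ} (hn : vC (n : C) = 1) {f : K}
    (hf : f ≠ 0) (hdiv : ∀ P : Pl C K, (n : ℤ) ∣ divf (k := C) f P)
    (hpow : ∀ i, ∃ a : K, w i (f / a ^ n - 1) < 1) : ∃ a : K, a ^ n = f := by
  have hle : ∀ m : ℕ, vC (m : C) ≤ 1 := by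
    intro m
    induction m with
    | zero => simp
    | succ m ih =>
      rw [Nat.cast_succ]
      exact (Valuation.map_add _ _ _).trans (max_le ih (by simp))
  induction n using induction_on_primes generalizing f with
  | zero => simp at hn
  | one => exact ⟨f, pow_one f⟩
  | prime_mul l m hl ih =>
    haveI : NeZero l := ⟨hl.ne_zero⟩
    rw [Nat.cast_mul, map_mul] at hn
    have hvl : vC (l : C) = 1 := le_antisymm (hle l) (by
      rw [← hn]; exact mul_le_of_le_one_right' (hle m))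
    have hvm : vC (m : C) = 1 := by rwa [hvl, one_mul] at hn
    obtain ⟨a, ha⟩ := inj_prime h hw hg p hp hsum hl hvl hf
      (fun P => dvd_trans (by push_cast; exact dvd_mul_right _ _) (hdiv P))
      (fun i => by
        obtain ⟨a, ha⟩ := hpow i
        exact ⟨a ^ m, by rw [← pow_mul, mul_comm]; exact ha⟩)
    have ha0 : a ≠ 0 := by
      rintro rfl
      rw [zero_pow hl.ne_zero] at ha
      exact hf ha.symm
    have hm0 : m ≠ 0 := by rintro rfl; simp at hvm
    obtain ⟨ζ, hζ⟩ := HasEnoughRootsOfUnity.exists_primitiveRoot C l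
    have hζK := hζ.map_of_injective (algebraMap C K).injective
    obtain ⟨b, hb⟩ := ih hvm ha0 (fun P => by
      have h1 := hdiv P
      have h2 := v_eq (k := C) hf P
      rw [← ha, map_pow, v_eq (k := C) ha0, ← exp_nsmul, exp_inj, nsmul_eq_mul] at h2
      rw [← ha] at h1
      have h3 : divf (k := C) (a ^ l) P = l * divf (k := C) a P := by linarith
      rw [h3, Nat.cast_mul] at h1
      exact Int.dvd_of_mul_dvd_mul_left (Nat.cast_ne_zero.mpr hl.ne_zero) h1) (fun i => by
      obtain ⟨c, hc⟩ := hpow i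
      have hvl' : w i (l : K) = 1 := by rw [← map_natCast (algebraMap C K), (h i).norm, hvl]
      obtain ⟨j, -, hj⟩ := split_idx (L := K) (y := a) (h := f) (g := c ^ m) (w i) hl hvl' hζK
        ha (by rw [← pow_mul, mul_comm]; exact hc) (w i) rfl
      obtain ⟨d, hd⟩ := IsAlgClosed.exists_pow_nat_eq (ζ ^ j) (Nat.pos_of_ne_zero hm0)
      refine ⟨c * algebraMap C K d, ?_⟩
      have h1 : w i (algebraMap C K ζ ^ j) = 1 := by
        rw [map_pow, val_root (w i) hl.ne_zero hζK.pow_eq_one, one_pow]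
      have h2 : algebraMap C K ζ ^ j ≠ 0 := by
        intro h0; rw [h0] at h1; simp at h1
      have e : a / (c * algebraMap C K d) ^ m - 1 =
          (a / c ^ m - algebraMap C K ζ ^ j) / algebraMap C K ζ ^ j := by
        rw [mul_pow, ← map_pow, hd, map_pow, sub_div, div_self h2, div_div]
      rw [e, map_div₀, h1, div_one]
      exact hj)
    exact ⟨b, by rw [mul_comm, pow_mul, hb, ha]⟩

/-- **(NOS)** a semilinear automorphism which is trivial on the residue fields of a family of norms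
of full genus acts trivially on the torsion of order prime to the residue characteristic -/
theorem nos (h : ∀ i, Red vC ρC (w i) (ρ i)) (hw : Function.Injective w) {g : ι → ℕ}
    (hg : ∀ i, HasGen k (κ i) (g i)) (p : ℕ) [Fact p.Prime] (hp : vC (p : C) < 1)
    (hsum : gen C K ≤ ∑ i, g i) (e : SI C K C K)
    (he : ∀ i x, w i x = 1 → w i (e.f x - x) < 1) {n : ℕ} (hn : vC (n : C) = 1) {x : Pic C K}
    (hx : n • x = 0) : e.pic x = x := by
  obtain ⟨D, rfl⟩ := cls_surjective x
  rw [← map_nsmul, cls_eq_zero_iff] at hx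
  obtain ⟨f, hf, hD⟩ := hx
  have hn0 : n ≠ 0 := by rintro rfl; simp at hn
  have hef : e.f f ≠ 0 := by simpa using hf
  have hF : divf (k := C) (e.f f / f) = n • (e.D D - D) := by
    rw [div_eq_mul_inv, divf_mul hef (inv_ne_zero hf), divf_inv hf, e.divf_f hf, hD, map_nsmul,
      smul_sub, sub_eq_add_neg]
  obtain ⟨a, ha⟩ := inj_pow h hw hg p hp hsum hn (div_ne_zero hef hf) (fun P => by
    rw [hF, Finsupp.smul_apply, nsmul_eq_mul]; exact dvd_mul_right _ _) (fun i => by
    obtain ⟨c, hc0, -, hc⟩ := (h i).normalise hf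
    obtain ⟨d, hd⟩ := IsAlgClosed.exists_pow_nat_eq (e.s c / c) (Nat.pos_of_ne_zero hn0)
    refine ⟨algebraMap C K d, ?_⟩
    have h1 := he i _ hc
    have h2 : algebraMap C K c ≠ 0 := (_root_.map_ne_zero _).2 hc0
    have h3 : algebraMap C K (e.s c) ≠ 0 := (_root_.map_ne_zero _).2 (by simpa using hc0)
    have e2 : e.f f / f / algebraMap C K d ^ n - 1 =
        (e.f (f * algebraMap C K c⁻¹) - f * algebraMap C K c⁻¹) / (f * algebraMap C K c⁻¹) := by
      rw [← map_pow, hd, map_mul, e.comm, map_inv₀, map_inv₀, map_inv₀, map_div₀]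
      field_simp
    rw [e2, map_div₀, hc, div_one]
    exact h1)
  have ha0 : a ≠ 0 := by
    rintro rfl
    rw [zero_pow hn0] at ha
    exact div_ne_zero hef hf ha.symm
  rw [SI.pic_cls, cls_eq_iff]
  refine ⟨a, ha0, ?_⟩
  ext P
  have h1 := v_eq (k := C) (div_ne_zero hef hf) P
  rw [hF, ← ha, map_pow, v_eq (k := C) ha0, ← exp_nsmul, exp_inj, nsmul_eq_mul,
    Finsupp.smul_apply, nsmul_eq_mul, Finsupp.sub_apply, mul_neg, neg_inj] at h1
  have h2 := mul_left_cancel₀ (Nat.cast_ne_zero.mpr hn0 : (n : ℤ) ≠ 0) h1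
  rw [Finsupp.add_apply, h2]; ring

end prime

end Crest.Agent.T15.Ct
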