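import Crest.Agent.T15.FlDef_80

/-!
# Row 15, block Fl: totally ramified extensions are monogenic (helper80)
-/

set_option autoImplicit false

noncomputable section

namespace Crest.Agent.T15.Fl

open scoped NNReal
open Polynomial Module

variable {F Ω : Type*} [Field F] [Field Ω] [Algebra F Ω] {w : Valuation Ω ℝ≥0}

variable (F w) in
/-- the residue field of `F` is that of `Ω` (so `Gal(Ω/F)` is the inertia group) -/
def Full : Prop := ∀ y : Ω, w y ≤ 1 → ∃ a : F, w (y - algebraMap F Ω a) < 1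

variable (F w) in
/-- the owner's name for `Full` -/
abbrev Res : Prop := Full F w


/-- a sum of terms with pairwise different valuations -/
lemma le_map_sum {ι : Type*} (s : Finset ι) (f : ι → Ω)
    (h : ∀ i ∈ s, ∀ j ∈ s, f i ≠ 0 → w (f i) = w (f j) → i = j)
    {i : ι} (hi : i ∈ s) : w (f i) ≤ w (∑ j ∈ s, f j) := by
  obtain ⟨k, hk, hmax⟩ := s.exists_max_image (fun j => w (f j)) ⟨i, hi⟩
  rcases eq_or_ne (f k) 0 with h0 | h0
  · exact (hmax i hi).trans (by simp [h0])
  · classical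
    rw [w.map_sum_eq_of_lt hk fun j hj => ?_]
    · exact hmax i hi
    · simp only [Finset.mem_sdiff, Finset.mem_singleton] at hj
      exact (hmax j hj.1).lt_of_ne fun e => hj.2 (h k hk j hj.1 h0 e.symm).symm

lemma w_eq_zero {x : Ω} (h : w x = 0) : x = 0 := (Valuation.zero_iff w).1 h

lemma w3_pos [CharZero Ω] : 0 < w 3 := (Valuation.pos_iff w).2 three_ne_zero

namespace Ctx

variable [CharZero Ω] (hc : Ctx F w)
include hc

omit [CharZero Ω] in
lemma w_algHom [Normal F Ω] {L : IntermediateField F Ω} (τ : L →ₐ[F] Ω) (y : L) :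
    w (τ y) = w y := by
  have h := hc.inv (AlgEquiv.ofBijective (τ.liftNormal Ω) (AlgHom.normal_bijective F Ω Ω _)) y
  rw [← h]
  exact congrArg w (τ.liftNormal_commutes Ω y).symm

variable [IsGalois F Ω] [IsAlgClosed Ω]

omit [CharZero Ω] in
/-- the valuation of a norm -/
lemma w_norm (L : IntermediateField F Ω) [FiniteDimensional F L] (y : L) :
    w (algebraMap F Ω (Algebra.norm F y)) = w y ^ finrank F L := by
  rw [Algebra.norm_eq_prod_embeddings F Ω y, map_prod]
  simp only [hc.w_algHom]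
  rw [Finset.prod_const, Finset.card_univ, AlgHom.card]

omit [CharZero Ω] in
lemma w_trace (L : IntermediateField F Ω) [FiniteDimensional F L] (y : L) :
    w (algebraMap F Ω (Algebra.trace F L y)) ≤ w y := by
  rw [trace_eq_sum_embeddings Ω]
  exact w.map_sum_le fun τ _ => (hc.w_algHom τ y).le

omit [CharZero Ω] in
/-- linear forms on a finite extension are bounded -/
lemma exists_bound (L : IntermediateField F Ω) [FiniteDimensional F L] (φ : L →ₗ[F] F) :
    ∃ C : ℝ≥0, ∀ y : L, w (algebraMap F Ω (φ y)) ≤ C * w y := by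
  obtain ⟨t, ht⟩ := ((Algebra.traceForm F L).toDual (traceForm_nondegenerate F L)).surjective φ
  refine ⟨w t, fun y => ?_⟩
  rw [← ht, LinearMap.BilinForm.toDual_def, Algebra.traceForm_apply]
  exact (hc.w_trace L _).trans (by simp)

omit [IsGalois F Ω] [IsAlgClosed Ω] in
/-- an element of `F` of valuation `< |3|⁻¹` is integral -/
lemma le_one_of_lt {a : F} (h : w (algebraMap F Ω a) * w 3 < 1) : w (algebraMap F Ω a) ≤ 1 := by
  rcases eq_or_ne a 0 with rfl | h0
  · simp
  obtain ⟨n, hn⟩ := hc.disc a h0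
  rw [hn] at h ⊢
  rw [← zpow_add_one₀ w3_pos.ne', zpow_lt_one_iff_right_of_lt_one₀ w3_pos hc.w3] at h
  exact zpow_le_one₀ w3_pos hc.w3.le (by omega)

/-- the value group of a finite extension is cyclic -/
lemma exists_gen (L : IntermediateField F Ω) [FiniteDimensional F L] :
    ∃ α : L, 0 < w α ∧ w α < 1 ∧ ∀ y : L, y ≠ 0 → ∃ n : ℤ, w y = w α ^ n := by
  classical
  have hn : finrank F L ≠ 0 := finrank_pos.ne'
  have hex : ∃ m : ℕ, 0 < m ∧ ∃ y : L, w y ^ finrank F L = w 3 ^ m :=
    ⟨finrank F L, finrank_pos, 3, rfl⟩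
  obtain ⟨hm0, α, hα⟩ := Nat.find_spec hex
  set m0 := Nat.find hex with hm0d
  have h3 : 0 < w 3 := w3_pos
  have hα0 : 0 < w α := by
    rcases (zero_le : 0 ≤ w α).eq_or_lt with h | h
    · rw [← h, zero_pow hn] at hα
      exact absurd hα (pow_pos h3 _).ne
    · exact h
  refine ⟨α, hα0, ?_, fun y hy => ?_⟩
  · by_contra h
    have := one_le_pow₀ (n := finrank F L) (not_lt.1 h)
    rw [hα] at this
    exact absurd (pow_lt_one₀ h3.le hc.w3 hm0.ne') (not_lt.2 this)
  · obtain ⟨m, hm⟩ := hc.disc (Algebra.norm F y) (Algebra.norm_ne_zero_iff.2 hy)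
    rw [hc.w_norm] at hm
    have hm0' : (0 : ℤ) < m0 := by exact_mod_cast hm0
    have hr := Int.emod_nonneg m hm0'.ne'
    have hr' := Int.emod_lt_of_pos m hm0'
    have hcoe : ((y * α ^ (-(m / m0)) : L) : Ω) = y * (α : Ω) ^ (-(m / m0)) := by
      rw [MulMemClass.coe_mul]; exact congrArg _ (map_zpow₀ L.val α _)
    have key : w ((y * α ^ (-(m / m0)) : L) : Ω) ^ finrank F L = w 3 ^ (m % m0).toNat := by
      rw [hcoe, map_mul, map_zpow₀, mul_pow, hm, ← zpow_natCast (w α ^ _), ← zpow_mul, mul_comm (-(m / m0)),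
        zpow_mul, zpow_natCast, hα, ← zpow_natCast, ← zpow_mul, ← zpow_add₀ h3.ne', ← zpow_natCast]
      congr 1
      rw [Int.toNat_of_nonneg hr, Int.emod_def]; ring
    have hz : (m % m0).toNat = 0 := by
      by_contra h
      exact Nat.find_min hex (m := (m % m0).toNat) (by omega) ⟨Nat.pos_of_ne_zero h, _, key⟩
    rw [hz, pow_zero, pow_eq_one_iff_of_nonneg zero_le hn] at key
    refine ⟨m / m0, ?_⟩
    rw [hcoe, map_mul, map_zpow₀, zpow_neg, mul_inv_eq_one₀ (zpow_pos hα0 _).ne'] at key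
    exact key

omit [IsGalois F Ω] [IsAlgClosed Ω] in
/-- the terms of a polynomial of degree `< e` in an `e`-th root of the uniformiser -/
lemma term_le {α : Ω} {e : ℕ} (hα : w α ^ e = w 3) (a : ℕ → F) {i : ℕ} (hi : i < e) :
    w (algebraMap F Ω (a i) * α ^ i) ≤ w (∑ j ∈ Finset.range e, algebraMap F Ω (a j) * α ^ j) := by
  have h3 : 0 < w 3 := w3_pos
  have he : e ≠ 0 := by omega
  have hα0 : 0 < w α := by
    rcases (zero_le : 0 ≤ w α).eq_or_lt with h | h
    · rw [← h, zero_pow he] at hα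
      exact absurd hα h3.ne
    · exact h
  have hα1 : w α < 1 := by
    by_contra h
    have := one_le_pow₀ (n := e) (not_lt.1 h)
    rw [hα] at this
    exact absurd hc.w3 (not_lt.2 this)
  refine le_map_sum _ (fun j => algebraMap F Ω (a j) * α ^ j) (fun j hj k hk h0 h => ?_)
    (Finset.mem_range.2 hi)
  have hj0 : a j ≠ 0 := fun h => h0 (by simp [h])
  have hk0 : a k ≠ 0 := fun h' => h0 (w_eq_zero (w := w) (h.trans (by simp [h'])))
  obtain ⟨m, hm⟩ := hc.disc _ hj0
  obtain ⟨n, hn⟩ := hc.disc _ hk0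
  simp only [map_mul, map_pow, hm, hn, ← hα] at h
  simp only [← zpow_natCast, ← zpow_mul, ← zpow_add₀ hα0.ne'] at h
  have h' := zpow_right_injective₀ hα0 hα1.ne h
  rw [Finset.mem_range] at hj hk
  have h1 : ((e : ℤ) * m + j) % e = ((e : ℤ) * n + k) % e := by rw [h']
  rw [Int.mul_add_emod_self_left, Int.mul_add_emod_self_left,
    Int.emod_eq_of_lt (by positivity) (by exact_mod_cast hj),
    Int.emod_eq_of_lt (by positivity) (by exact_mod_cast hk)] at h1
  exact_mod_cast h1

/-- **a finite extension of `F` is totally ramified and monogenic** when the residue field of `F` is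
that of `Ω` -/
theorem exists_unif (hf : Full F w) (L : IntermediateField F Ω) [FiniteDimensional F L] :
    ∃ α : L, w α ^ finrank F L = w 3 ∧ (∀ y : L, y ≠ 0 → ∃ n : ℤ, w y = w α ^ n) ∧
      (∀ y : L, ∃ a : ℕ → F,
        (y : Ω) = ∑ j ∈ Finset.range (finrank F L), algebraMap F Ω (a j) * (α : Ω) ^ j) ∧
      ∀ y : L, w y ≤ 1 → ∃ p : (OF F w)[X], p.natDegree < finrank F L ∧ aeval (α : Ω) p = y := by
  classical
  obtain ⟨α, hα0, hα1, hα⟩ := hc.exists_gen L
  have h3 : 0 < w 3 := w3_pos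
  obtain ⟨e', he'⟩ := hα 3 three_ne_zero
  have he'3 : w 3 = w α ^ e' := he'
  have he'0 : 0 < e' := by
    rw [← zpow_lt_one_iff_right_of_lt_one₀ hα0 hα1, ← he'3]; exact hc.w3
  obtain ⟨e, rfl⟩ := Int.eq_ofNat_of_zero_le he'0.le
  rw [zpow_natCast] at he'3
  have he0 : 0 < e := by exact_mod_cast he'0
  have hαne : α ≠ 0 := fun h => by simp [h] at hα0
  have hle : ∀ y : L, w y < 1 → w y ≤ w α := fun y hy => by
    rcases eq_or_ne y 0 with rfl | h0
    · simp
    obtain ⟨n, hn⟩ := hα y h0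
    rw [hn] at hy ⊢
    rw [zpow_lt_one_iff_right_of_lt_one₀ hα0 hα1] at hy
    simpa using zpow_le_zpow_right_of_le_one₀ hα0 hα1.le (show (1 : ℤ) ≤ n by omega)
  let b : Fin e → L := fun i => α ^ (i : ℕ)
  let M : Submodule F L := Submodule.span F (Set.range b)
  -- one step
  have h1 : ∀ k ≤ e, ∀ y : L, w y ≤ 1 → ∃ m ∈ M, w ((y - m : L) : Ω) ≤ w α ^ k := by
    intro k
    induction k with
    | zero => exact fun _ y hy => ⟨0, M.zero_mem, by simpa using hy⟩
    | succ k ih =>
      intro hk y hy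
      obtain ⟨m, hm, hym⟩ := ih (by omega) y hy
      have hp : (0 : ℝ≥0) < w α ^ k := pow_pos hα0 _
      obtain ⟨a, ha⟩ := hf (((y - m) / α ^ k : L) : Ω) (by
        push_cast at hym ⊢
        rw [map_div₀, map_pow, div_le_one hp]; exact hym)
      have ha' := hle ((y - m) / α ^ k - algebraMap F L a) (by simpa using ha)
      refine ⟨m + a • b ⟨k, hk⟩, M.add_mem hm (M.smul_mem _ (Submodule.subset_span ⟨_, rfl⟩)), ?_⟩
      have : y - (m + a • b ⟨k, hk⟩) = ((y - m) / α ^ k - algebraMap F L a) * α ^ k := by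
        simp only [b, Algebra.smul_def]; field_simp; ring
      rw [this, MulMemClass.coe_mul, map_mul, pow_succ']
      exact mul_le_mul' ha' (by simp)
  have h2 : ∀ k : ℕ, ∀ y : L, w y ≤ 1 → ∃ m ∈ M, w ((y - m : L) : Ω) ≤ w 3 ^ k := by
    intro k
    induction k with
    | zero => exact fun y hy => ⟨0, M.zero_mem, by simpa using hy⟩
    | succ k ih =>
      intro y hy
      obtain ⟨m, hm, hym⟩ := ih y hy
      have hp : (0 : ℝ≥0) < w 3 ^ k := pow_pos h3 _
      have hc3 : (((3 : L) ^ k : L) : Ω) = 3 ^ k := by push_cast; rfl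
      obtain ⟨m', hm', h'⟩ := h1 e le_rfl ((y - m) / 3 ^ k) (by
        rw [IntermediateField.coe_div, hc3, map_div₀, map_pow, div_le_one hp]; exact hym)
      refine ⟨m + (3 ^ k : F) • m', M.add_mem hm (M.smul_mem _ hm'), ?_⟩
      have : y - (m + (3 ^ k : F) • m') = ((y - m) / 3 ^ k - m') * 3 ^ k := by
        simp only [Algebra.smul_def, map_pow, map_ofNat]; field_simp; ring
      rw [this, MulMemClass.coe_mul, map_mul, pow_succ', hc3, map_pow]
      exact mul_le_mul' (h'.trans he'3.ge) le_rfl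
  have hM : M = ⊤ := by
    by_contra hne
    obtain ⟨φ, hφ0, hφ⟩ := M.exists_le_ker_of_lt_top (lt_top_iff_ne_top.2 hne)
    obtain ⟨C, hC⟩ := hc.exists_bound L φ
    have hz : ∀ y : L, w y ≤ 1 → φ y = 0 := fun y hy => by
      by_contra h0
      have hp : 0 < w (algebraMap F Ω (φ y)) := (Valuation.pos_iff w).2 (by simpa using h0)
      obtain ⟨k, hk⟩ := exists_pow_lt_of_lt_one (div_pos hp (show 0 < C + 1 by positivity)) hc.w3
      obtain ⟨m, hm, hym⟩ := h2 k y hy
      have h4 := hC (y - m)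
      rw [map_sub φ, LinearMap.mem_ker.1 (hφ hm), sub_zero] at h4
      rw [lt_div_iff₀ (by positivity)] at hk
      refine absurd (h4.trans ((mul_le_mul' (le_self_add : C ≤ C + 1) hym))) (not_le.2 ?_)
      rwa [mul_comm]
    refine hφ0 (LinearMap.ext fun y => ?_)
    rcases eq_or_ne y 0 with rfl | h0
    · simp
    have hy0 : 0 < w y := (Valuation.pos_iff w).2 (by simpa using h0)
    obtain ⟨k, hk⟩ := exists_pow_lt_of_lt_one (inv_pos.2 hy0) hc.w3
    have := hz ((3 ^ k : F) • y) (by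
      have : (((3 ^ k : F) • y : L) : Ω) = 3 ^ k * y := by
        rw [IntermediateField.coe_smul, Algebra.smul_def, map_pow, map_ofNat]
      rw [this, map_mul, map_pow, ← le_div_iff₀ hy0, one_div]; exact hk.le)
    have _ : CharZero F := (algebraMap F Ω).charZero
    simpa using this
  have hsum : ∀ a : Fin e → F, ((∑ i, a i • b i : L) : Ω) = ∑ j ∈ Finset.range e,
      algebraMap F Ω (if h : j < e then a ⟨j, h⟩ else 0) * (α : Ω) ^ j := fun a => by
    rw [Finset.sum_range]
    push_cast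
    refine Finset.sum_congr rfl fun i _ => ?_
    simp [b, Algebra.smul_def]
  have hli : LinearIndependent F b := by
    rw [Fintype.linearIndependent_iff]
    intro a ha i
    have := hc.term_le he'3.symm (fun j => if h : j < e then a ⟨j, h⟩ else 0) i.2
    rw [← hsum, ha] at this
    simpa [hα0.ne', hαne] using this
  have hfe : finrank F L = e := by
    rw [← finrank_top, ← hM, finrank_span_eq_card hli, Fintype.card_fin]
  have hrep : ∀ y : L, ∃ a : ℕ → F,
      (y : Ω) = ∑ j ∈ Finset.range e, algebraMap F Ω (a j) * (α : Ω) ^ j := fun y => by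
    obtain ⟨a, ha⟩ := (Submodule.mem_span_range_iff_exists_fun F).1 (hM ▸ Submodule.mem_top : y ∈ M)
    exact ⟨_, ha ▸ hsum a⟩
  rw [hfe]
  refine ⟨α, he'3.symm, hα, hrep, fun y hy => ?_⟩
  obtain ⟨a, ha⟩ := hrep y
  have hint : ∀ j < e, a j ∈ OF F w := fun j hj => by
    refine hc.le_one_of_lt ?_
    have := hc.term_le he'3.symm a hj
    rw [← ha, map_mul, map_pow] at this
    rcases eq_or_ne (a j) 0 with h0 | h0
    · simp [h0]
    have hp : 0 < w (algebraMap F Ω (a j)) := (Valuation.pos_iff w).2 (by simpa using h0)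
    exact (mul_lt_mul_of_pos_left (he'3 ▸ pow_lt_pow_right_of_lt_one₀ hα0 hα1 hj) hp).trans_le
      (this.trans hy)
  refine ⟨∑ j ∈ Finset.range e, monomial j (if h : j < e then ⟨a j, hint j h⟩ else 0), ?_, ?_⟩
  · refine lt_of_le_of_lt (natDegree_sum_le_of_forall_le _ _ (n := e - 1) fun j hj => ?_) (by omega)
    exact (natDegree_monomial_le _).trans (by have := Finset.mem_range.1 hj; omega)
  · rw [ha, map_sum]
    refine Finset.sum_congr rfl fun j hj => ?_
    rw [aeval_monomial, dif_pos (Finset.mem_range.1 hj)]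
    rfl

/-- **MONO** in the form used for Fontaine's bound: automorphisms are determined on `L` by the image of
`α` -/
theorem mono (hf : Full F w) (L : IntermediateField F Ω) [FiniteDimensional F L] :
    ∃ α : Ω, α ∈ L ∧ w α ≤ 1 ∧ w α ^ finrank F L = w 3 ∧
      (∀ y ∈ L, y ≠ 0 → ∃ n : ℤ, w y = w α ^ n) ∧
      (∀ y ∈ L, w y ≤ 1 → ∃ p : (OF F w)[X], aeval α p = y) ∧
      ∀ σ τ : Ω ≃ₐ[F] Ω, σ α = τ α → ∀ y ∈ L, σ y = τ y := by
  obtain ⟨α, h1, h2, h3, h4⟩ := hc.exists_unif hf L
  refine ⟨α, α.2, ?_, h1, fun y hy h0 => h2 ⟨y, hy⟩ fun h => h0 (congrArg Subtype.val h),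
    fun y hy h => (h4 ⟨y, hy⟩ h).imp fun p hp => hp.2, fun σ τ h y hy => ?_⟩
  · rw [← pow_le_one_iff_of_nonneg zero_le (finrank_pos (R := F) (M := L)).ne', h1]
    exact hc.w3.le
  · obtain ⟨a, ha⟩ := h3 ⟨y, hy⟩
    simp only at ha
    rw [ha]
    simp [h]

end Ctx

end Crest.Agent.T15.Fl
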