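import Crest.Agent.T15.FlDef_80
import Crest.Agent.T15.FlL_80
import Crest.Agent.T15.CgB_84

-- ▼ part T15/Unr_75
section

/-!
# Row 15, block Fl: the maximal unramified extension at `3` (helper75)

`Tei Ω` is the set of Teichmüller representatives, `Fnr F Ω = F(Tei Ω)`.  It has the value group of
`F`, the residue field of `Ω`, and its fixing subgroup is the inertia group.
-/

set_option autoImplicit false

noncomputable section

namespace Crest.Agent.T15.Fl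

open scoped NNReal
open Polynomial

/-- Teichmüller representatives -/
def Tei (Ω : Type*) [Field Ω] : Set Ω := {z | ∃ n : ℕ, 0 < n ∧ z ^ 3 ^ n = z}

/-- the maximal unramified extension -/
def Fnr (F Ω : Type*) [Field F] [Field Ω] [Algebra F Ω] : IntermediateField F Ω :=
  IntermediateField.adjoin F (Tei Ω)

namespace Unr

variable {Ω : Type*} [Field Ω] {w : Valuation Ω ℝ≥0}

lemma w_natCast_le (w : Valuation Ω ℝ≥0) (n : ℕ) : w n ≤ 1 := natCast_mem w.integer n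

lemma w_intCast_le (w : Valuation Ω ℝ≥0) (n : ℤ) : w n ≤ 1 := intCast_mem w.integer n

lemma w_natCast (h3 : w 3 < 1) {n : ℕ} (hn : ¬ 3 ∣ n) : w n = 1 := by
  refine le_antisymm (w_natCast_le w n) (not_lt.1 fun h => ?_)
  obtain ⟨a, b, hab⟩ := Nat.isCoprime_iff_coprime.2
    ((Nat.Prime.coprime_iff_not_dvd Nat.prime_three).2 hn)
  have e : (a : Ω) * 3 + (b : Ω) * n = 1 := by exact_mod_cast congrArg (Int.cast : ℤ → Ω) hab
  have : w ((a : Ω) * 3 + (b : Ω) * n) < 1 := by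
    refine lt_of_le_of_lt (w.map_add _ _) (max_lt ?_ ?_) <;> rw [map_mul]
    · exact mul_lt_one_of_nonneg_of_lt_one_right (w_intCast_le w a) zero_le h3
    · exact mul_lt_one_of_nonneg_of_lt_one_right (w_intCast_le w b) zero_le h
  rw [e, map_one] at this
  exact lt_irrefl _ this

lemma pow_pow_mul {z : Ω} {n : ℕ} (h : z ^ 3 ^ n = z) : ∀ m : ℕ, z ^ 3 ^ (n * m) = z
  | 0 => by simp
  | m + 1 => by rw [Nat.mul_succ, pow_add, pow_mul, pow_pow_mul h m, h]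

lemma pow_sub_one_eq {z : Ω} {n : ℕ} (h : z ^ 3 ^ n = z) (hz : z ≠ 0) : z ^ (3 ^ n - 1) = 1 := by
  refine mul_right_cancel₀ hz ?_
  rw [← pow_succ, Nat.sub_add_cancel (Nat.one_le_pow _ _ (by norm_num)), h, one_mul]

lemma three_pow_sub_one_ne {n : ℕ} (hn : 0 < n) : 3 ^ n - 1 ≠ 0 :=
  Nat.sub_ne_zero_of_lt (Nat.one_lt_pow hn.ne' (by norm_num))

lemma not_dvd_three_pow_sub_one {n : ℕ} (hn : 0 < n) : ¬ 3 ∣ 3 ^ n - 1 := fun h => by
  have h1 : 3 ∣ 3 ^ n := dvd_pow_self 3 hn.ne'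
  have h2 := Nat.dvd_sub h1 h
  rw [Nat.sub_sub_self (Nat.one_le_pow _ _ (by norm_num))] at h2
  exact absurd h2 (by norm_num)

lemma w_eq_one_of_pow {z : Ω} {m : ℕ} (hm : m ≠ 0) (h : z ^ m = 1) : w z = 1 := by
  have := congrArg w h
  rw [map_pow, map_one] at this
  exact (pow_eq_one_iff_of_nonneg zero_le hm).1 this

lemma w_tei {z : Ω} (hz : z ∈ Tei Ω) (h0 : z ≠ 0) : w z = 1 := by
  obtain ⟨n, hn, h⟩ := hz
  exact w_eq_one_of_pow (three_pow_sub_one_ne hn) (pow_sub_one_eq h h0)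

lemma w_tei_le {z : Ω} (hz : z ∈ Tei Ω) : w z ≤ 1 := by
  by_cases h0 : z = 0
  · simp [h0]
  · exact (w_tei hz h0).le



lemma map_mem_tei {Ω' Φ : Type*} [Field Ω'] [FunLike Φ Ω Ω'] [MonoidHomClass Φ Ω Ω'] (σ : Φ)
    {z : Ω} (hz : z ∈ Tei Ω) : σ z ∈ Tei Ω' := by
  obtain ⟨n, hn, h⟩ := hz
  exact ⟨n, hn, by rw [← map_pow, h]⟩

/-- a root of unity of order prime to `3` is a Teichmüller representative -/
lemma mem_tei_of_pow {z : Ω} {m : ℕ} (hm : ¬ 3 ∣ m) (h : z ^ m = 1) : z ∈ Tei Ω := by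
  have hm0 : 0 < m := Nat.pos_of_ne_zero fun h0 => hm (h0 ▸ dvd_zero 3)
  have hc : Nat.Coprime 3 m := (Nat.Prime.coprime_iff_not_dvd Nat.prime_three).2 hm
  refine ⟨m.totient, Nat.totient_pos.2 hm0, ?_⟩
  obtain ⟨k, hk⟩ := (Nat.modEq_iff_dvd' (Nat.one_le_pow _ _ (by norm_num))).1
    (Nat.ModEq.pow_totient hc).symm
  rw [show 3 ^ m.totient = m * k + 1 by
    rw [← hk, Nat.sub_add_cancel (Nat.one_le_pow _ _ (by norm_num))], pow_succ, pow_mul, h, one_pow,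
    one_mul]

/-- Teichmüller representatives are distinct modulo the maximal ideal -/
lemma tei_eq (h3 : w 3 < 1) {z z' : Ω} (hz : z ∈ Tei Ω) (hz' : z' ∈ Tei Ω)
    (h : w (z - z') < 1) : z = z' := by
  have h1 := w_tei_le (w := w) hz'
  obtain ⟨n, hn, e⟩ := hz
  obtain ⟨m, hm, e'⟩ := hz'
  have e1 := pow_pow_mul e m
  have e2 := pow_pow_mul e' n
  rw [mul_comm] at e2
  obtain ⟨r, hr⟩ := exists_add_pow_prime_pow_eq (R := w.integer) Nat.prime_three ⟨z', h1⟩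
    ⟨z - z', h.le⟩ (n * m)
  have hr' : (z' + (z - z')) ^ 3 ^ (n * m) =
      z' ^ 3 ^ (n * m) + (z - z') ^ 3 ^ (n * m) + 3 * z' * (z - z') * (r : Ω) := by
    have := congrArg (w.integer.subtype) hr
    simp only [map_add, map_mul, map_pow, map_natCast] at this
    exact_mod_cast this
  rw [add_sub_cancel, e1, e2] at hr'
  by_contra hne
  have hd : z - z' ≠ 0 := sub_ne_zero.2 hne
  have hq := three_pow_sub_one_ne (Nat.mul_pos hn hm)
  have e3 : (1 : Ω) = (z - z') ^ (3 ^ (n * m) - 1) + 3 * z' * r := by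
    refine mul_right_cancel₀ hd ?_
    rw [add_mul, ← pow_succ, Nat.sub_add_cancel (Nat.one_le_pow _ _ (by norm_num))]
    linear_combination hr'
  have : w ((z - z') ^ (3 ^ (n * m) - 1) + 3 * z' * r) < 1 := by
    refine lt_of_le_of_lt (w.map_add _ _) (max_lt ?_ ?_)
    · rw [map_pow]; exact pow_lt_one₀ zero_le h hq
    · rw [map_mul, map_mul, mul_assoc]
      exact mul_lt_one_of_nonneg_of_lt_one_left zero_le h3 (mul_le_one' h1 r.2)
  rw [← e3, map_one] at this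
  exact lt_irrefl _ this

/-- an approximate Teichmüller representative is close to a true one -/
lemma exists_tei [IsAlgClosed Ω] {x : Ω} {n : ℕ} (hn : 0 < n) (h : w (x ^ 3 ^ n - x) < 1) :
    ∃ z ∈ Tei Ω, w (x - z) < 1 := by
  have hq : 1 < 3 ^ n := Nat.one_lt_pow hn.ne' (by norm_num)
  let f : Polynomial Ω := X ^ 3 ^ n - X
  have hf : f.Monic := monic_X_pow_sub (by rw [degree_X]; exact_mod_cast hq)
  have e : f.eval x = (f.roots.map fun a => x - a).prod := by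
    conv_lhs => rw [(IsAlgClosed.splits f).eq_prod_roots_of_monic hf]
    rw [eval_multiset_prod, Multiset.map_map]
    simp
  by_contra hc
  push Not at hc
  have : 1 ≤ w (f.eval x) := by
    rw [e, map_multiset_prod, Multiset.map_map]
    refine Multiset.one_le_prod_of_one_le fun a ha => ?_
    obtain ⟨z, hz, rfl⟩ := Multiset.mem_map.1 ha
    refine hc z ⟨n, hn, ?_⟩
    have := (mem_roots hf.ne_zero).1 hz
    simpa [f, sub_eq_zero] using this
  simp only [f, eval_sub, eval_pow, eval_X] at this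
  exact absurd h (not_lt.2 this)

/-- residues of algebraic integers are algebraic over `𝔽₃` -/
lemma exists_pow_of_integral (h3 : w 3 < 1) {x : Ω} (hx : IsIntegral ℤ x) :
    ∃ n : ℕ, 0 < n ∧ w (x ^ 3 ^ n - x) < 1 := by
  let O := w.valuationSubring
  have hxO : x ∈ O := by
    have : IsIntegral O x := hx.tower_top
    obtain ⟨y, hy⟩ := IsIntegrallyClosed.isIntegral_iff.1 this
    rw [← hy]; exact y.2
  have hlt : ∀ y : O, IsLocalRing.residue O y = 0 ↔ w y < 1 := fun y => by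
    rw [IsLocalRing.residue_eq_zero_iff, ValuationSubring.valuation_lt_one_iff,
      (Valuation.isEquiv_valuation_valuationSubring w).lt_one_iff_lt_one]
  have : Fact (Nat.Prime 3) := ⟨Nat.prime_three⟩
  have : CharP (IsLocalRing.ResidueField O) 3 := by
    refine (CharP.charP_iff_prime_eq_zero Nat.prime_three).2 ?_
    rw [← map_natCast (IsLocalRing.residue O), hlt]
    exact h3
  let := ZMod.algebra (IsLocalRing.ResidueField O) 3
  let y := IsLocalRing.residue O ⟨x, hxO⟩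
  have h1 : IsIntegral ℤ (⟨x, hxO⟩ : O) :=
    (isIntegral_algHom_iff (O.subtype.toIntAlgHom) Subtype.val_injective).1 hx
  have h4 : IsIntegral (ZMod 3) y := by
    obtain ⟨g, hg, hg0⟩ := h1
    refine ⟨g.map (Int.castRingHom _), hg.map _, ?_⟩
    have := congrArg (IsLocalRing.residue O) hg0
    rw [hom_eval₂, map_zero] at this
    rw [eval₂_map, RingHom.ext_int (RingHom.comp _ _)
      ((IsLocalRing.residue O).comp (algebraMap ℤ O))]
    exact this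
  let K := IntermediateField.adjoin (ZMod 3) {y}
  have : FiniteDimensional (ZMod 3) K := IntermediateField.adjoin.finiteDimensional h4
  have : Finite K := Module.finite_of_finite (ZMod 3)
  have := Fintype.ofFinite K
  have : CharP K 3 := charP_of_injective_algebraMap (algebraMap (ZMod 3) K).injective 3
  obtain ⟨n, -, hn⟩ := FiniteField.card K 3
  have h5 := FiniteField.pow_card (⟨y, IntermediateField.mem_adjoin_simple_self _ y⟩ : K)
  rw [hn] at h5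
  have h6 : y ^ 3 ^ (n : ℕ) = y := congrArg Subtype.val h5
  refine ⟨n, n.pos, ?_⟩
  have := (hlt (⟨x, hxO⟩ ^ 3 ^ (n : ℕ) - ⟨x, hxO⟩)).1 (by rw [map_sub, map_pow]; exact sub_eq_zero.2 h6)
  simpa using this

variable {F : Type*} [Field F] [Algebra F Ω]

lemma tei_mem {z : Ω} (hz : z ∈ Tei Ω) : z ∈ Fnr F Ω := IntermediateField.subset_adjoin _ _ hz

lemma mem_fix_iff (σ : Ω ≃ₐ[F] Ω) :
    σ ∈ (Fnr F Ω).fixingSubgroup ↔ ∀ z ∈ Tei Ω, σ z = z := by
  rw [IntermediateField.mem_fixingSubgroup_iff]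
  refine ⟨fun h z hz => h z (tei_mem hz), fun h x hx => ?_⟩
  induction hx using IntermediateField.adjoin_induction with
  | mem x hx => exact h x hx
  | algebraMap x => exact σ.commutes x
  | add x y _ _ hx hy => rw [map_add, hx, hy]
  | inv x _ hx => rw [map_inv₀, hx]
  | mul x y _ _ hx hy => rw [map_mul, hx, hy]

/-- the fixing subgroup of `Fnr` is the inertia group -/
theorem mem_fix_iff_res (h3 : w 3 < 1) (hinv : ∀ (σ : Ω ≃ₐ[F] Ω) x, w (σ x) = w x)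
    (hT : ∀ x, w x ≤ 1 → ∃ z ∈ Tei Ω, w (x - z) < 1) (σ : Ω ≃ₐ[F] Ω) :
    σ ∈ (Fnr F Ω).fixingSubgroup ↔ ∀ x, w x ≤ 1 → w (σ x - x) < 1 := by
  rw [mem_fix_iff]
  refine ⟨fun h x hx => ?_, fun h z hz => tei_eq h3 (map_mem_tei σ hz) hz (h z (w_tei_le hz))⟩
  obtain ⟨z, hz, hxz⟩ := hT x hx
  have e : σ x - x = σ (x - z) - (x - z) := by rw [map_sub, h z hz]; ring
  rw [e]
  exact lt_of_le_of_lt (w.map_sub _ _) (max_lt (by rwa [hinv]) hxz)

/-- commutators lie in the inertia group -/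
theorem comm_mem_fix (σ τ : Ω ≃ₐ[F] Ω) : σ * τ * σ⁻¹ * τ⁻¹ ∈ (Fnr F Ω).fixingSubgroup := by
  rw [mem_fix_iff]
  intro z hz
  by_cases h0 : z = 0
  · simp [h0]
  obtain ⟨n, hn, h⟩ := hz
  have hq := three_pow_sub_one_ne hn
  have : NeZero (3 ^ n - 1) := ⟨hq⟩
  let u : rootsOfUnity (3 ^ n - 1) Ω := rootsOfUnity.mkOfPowEq z (pow_sub_one_eq h h0)
  have key : ∀ ρ : Ω ≃ₐ[F] Ω, ∃ m : ℕ, ∀ t : rootsOfUnity (3 ^ n - 1) Ω,
      ρ ((t : Ωˣ) : Ω) = ((t ^ m : rootsOfUnity (3 ^ n - 1) Ω) : Ωˣ) := fun ρ => by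
    obtain ⟨m, hm⟩ := rootsOfUnity.integer_power_of_ringEquiv' (3 ^ n - 1) ρ.toRingEquiv
    refine ⟨(m % ((3 ^ n - 1 : ℕ) : ℤ)).toNat, fun t => ?_⟩
    refine (hm t.1 t.2).trans ?_
    congr 1
    have ht : (t : Ωˣ) ^ (3 ^ n - 1) = 1 := t.2
    rw [SubgroupClass.coe_pow, ← zpow_natCast,
      Int.toNat_of_nonneg (Int.emod_nonneg _ (by exact_mod_cast hq)),
      ← zpow_eq_zpow_emod' m ht]
  obtain ⟨a, ha⟩ := key σ⁻¹
  obtain ⟨b, hb⟩ := key τ⁻¹
  have e : σ⁻¹ (τ⁻¹ z) = τ⁻¹ (σ⁻¹ z) := by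
    change σ⁻¹ (τ⁻¹ ((u : Ωˣ) : Ω)) = τ⁻¹ (σ⁻¹ ((u : Ωˣ) : Ω))
    rw [ha, hb, ha, hb, ← pow_mul, ← pow_mul, mul_comm]
  simp only [AlgEquiv.mul_apply]
  rw [e]
  simp

/-- **the value group of `Fnr` is that of `F`** -/
theorem exists_w_eq [IsGalois F Ω] (h3 : w 3 < 1) (hinv : ∀ (σ : Ω ≃ₐ[F] Ω) x, w (σ x) = w x)
    {a : Ω} (ha : a ∈ Fnr F Ω) : ∃ b : F, w (algebraMap F Ω b) = w a := by
  classical
  obtain ⟨S, hS, haS⟩ := IntermediateField.exists_finset_of_mem_adjoin ha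
  obtain ⟨n, hn, hSn⟩ : ∃ n : ℕ, 0 < n ∧ ∀ z ∈ S, z ^ 3 ^ n = z := by
    clear haS
    induction S using Finset.induction_on with
    | empty => exact ⟨1, one_pos, by simp⟩
    | insert z S _ ih =>
      obtain ⟨n, hn, h⟩ := ih fun y hy => hS (by simp [show y ∈ S from hy])
      obtain ⟨m, hm, h'⟩ := hS (show z ∈ ((insert z S : Finset Ω) : Set Ω) by simp)
      refine ⟨n * m, Nat.mul_pos hn hm, fun y hy => ?_⟩
      rcases Finset.mem_insert.1 hy with rfl | hy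
      · rw [mul_comm]; exact pow_pow_mul h' n
      · exact pow_pow_mul (h y hy) m
  have hq := three_pow_sub_one_ne hn
  have : NeZero (3 ^ n - 1) := ⟨hq⟩
  set U := rootsOfUnity (3 ^ n - 1) Ω
  have := Fintype.ofFinite U
  let K : IntermediateField F Ω := IntermediateField.adjoin F (Set.range fun t : U => ((t : Ωˣ) : Ω))
  have haK : a ∈ K := by
    refine (IntermediateField.adjoin_le_iff.2 fun z hz => ?_ :
      IntermediateField.adjoin F (S : Set Ω) ≤ K) haS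
    by_cases h0 : z = 0
    · rw [h0]; exact K.zero_mem
    · exact IntermediateField.subset_adjoin _ _
        ⟨rootsOfUnity.mkOfPowEq z (pow_sub_one_eq (hSn z hz) h0), rfl⟩
  have hUK : ∀ t : U, ((t : Ωˣ) : Ω) ∈ K := fun t => IntermediateField.subset_adjoin _ _ ⟨t, rfl⟩
  have : FiniteDimensional F K :=
    IntermediateField.finiteDimensional_adjoin fun x _ => Algebra.IsIntegral.isIntegral x
  have hUm : ∀ (σ : Ω ≃ₐ[F] Ω) (t : U), ∃ s : U, σ ((t : Ωˣ) : Ω) = ((s : Ωˣ) : Ω) := fun σ t =>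
    ⟨restrictRootsOfUnity σ _ t, rfl⟩
  have : Normal F K := by
    refine (IntermediateField.normal_iff_forall_map_le').2 fun σ => ?_
    rw [IntermediateField.adjoin_map, IntermediateField.adjoin_le_iff]
    rintro _ ⟨_, ⟨t, rfl⟩, rfl⟩
    obtain ⟨s, hs⟩ := hUm σ t
    exact hs ▸ hUK s
  have : IsGalois F K := {}
  let u : U → K := fun t => ⟨_, hUK t⟩
  let a' : K := ⟨a, haK⟩
  have hw : ∀ (σ : K ≃ₐ[F] K) (x : K), w (σ x : Ω) = w x := fun σ x => by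
    rw [← hinv (σ.liftNormal Ω) x]
    exact congrArg w (σ.liftNormal_commutes Ω x).symm
  have hwu : ∀ t, w (u t : Ω) = 1 := fun t =>
    w_eq_one_of_pow hq ((Units.val_pow_eq_pow_val _ _).symm.trans
      (congrArg Units.val (show (t : Ωˣ) ^ (3 ^ n - 1) = 1 from t.2)))
  have hu0 : ∀ t, u t ≠ 0 := fun t h => by
    have := hwu t
    rw [h] at this
    simp at this
  -- orthogonality
  have horth : ∀ σ : K ≃ₐ[F] K, σ ≠ 1 → ∑ t, σ (u t) * (u t)⁻¹ = 0 := fun σ hσ => by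
    let χ : U →* K := MonoidHom.mk' (M := U) (G := Kˣ)
      (fun t => Units.mk0 (σ (u t) * (u t)⁻¹) (by simp [hu0 t]))
      (fun s t => by
        have e : u (s * t) = u s * u t := rfl
        ext1
        simp only [Units.val_mk0, Units.val_mul, e, map_mul, mul_inv]
        ring) |> (Units.coeHom K).comp
    refine sum_hom_units_eq_zero χ fun h => hσ ?_
    have h1 : ∀ t, σ (u t) = u t := fun t => by
      have : σ (u t) * (u t)⁻¹ = 1 := DFunLike.congr_fun h t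
      rwa [mul_inv_eq_one₀ (hu0 t)] at this
    have h2 : σ.liftNormal Ω ∈ K.fixingSubgroup := by
      rw [IntermediateField.mem_fixingSubgroup_iff]
      intro x hx
      induction hx using IntermediateField.adjoin_induction with
      | mem x hx =>
        obtain ⟨t, rfl⟩ := hx
        exact (σ.liftNormal_commutes Ω (u t)).trans (congrArg Subtype.val (h1 t))
      | algebraMap x => exact AlgEquiv.commutes _ x
      | add x y _ _ hx hy => rw [map_add, hx, hy]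
      | inv x _ hx => rw [map_inv₀, hx]
      | mul x y _ _ hx hy => rw [map_mul, hx, hy]
    ext x
    exact (σ.liftNormal_commutes Ω x).symm.trans
      ((IntermediateField.mem_fixingSubgroup_iff _ _).1 h2 x x.2)
  have hsum : ∑ t, (∑ σ : K ≃ₐ[F] K, σ (a' * u t)) * (u t)⁻¹ = (Fintype.card U : K) * a' := by
    simp only [Finset.sum_mul, map_mul, mul_assoc]
    rw [Finset.sum_comm, Finset.sum_eq_single 1]
    · simp [hu0]
    · intro σ _ hσ
      rw [← Finset.mul_sum, horth σ hσ, mul_zero]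
    · simp
  have hcard : w (Fintype.card U : Ω) = 1 := by
    refine w_natCast h3 fun h => not_dvd_three_pow_sub_one hn (h.trans ?_)
    obtain ⟨g, hg⟩ := IsCyclic.exists_ofOrder_eq_natCard (α := U)
    rw [← Nat.card_eq_fintype_card, ← hg]
    exact orderOf_dvd_of_pow_eq_one (Subtype.ext g.2)
  have hle : ∀ t, w ((∑ σ : K ≃ₐ[F] K, σ (a' * u t) : K) : Ω) ≤ w a := fun t => by
    rw [AddSubmonoidClass.coe_finsetSum]
    refine w.map_sum_le fun σ _ => ?_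
    rw [hw, MulMemClass.coe_mul, map_mul, hwu, mul_one]
  by_cases h0 : a = 0
  · exact ⟨0, by simp [h0]⟩
  obtain ⟨t, ht⟩ : ∃ t, w ((∑ σ : K ≃ₐ[F] K, σ (a' * u t) : K) : Ω) = w a := by
    by_contra hc
    push Not at hc
    have h1 := congrArg (fun x : K => w (x : Ω)) hsum
    beta_reduce at h1
    rw [AddSubmonoidClass.coe_finsetSum, MulMemClass.coe_mul, map_mul, SubringClass.coe_natCast,
      hcard, one_mul] at h1
    refine absurd h1 (ne_of_lt (w.map_sum_lt ((Valuation.ne_zero_iff _).2 h0) fun t _ => ?_))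
    rw [MulMemClass.coe_mul, IntermediateField.coe_inv, map_mul, map_inv₀, hwu, inv_one, mul_one]
    exact lt_of_le_of_ne (hle t) (hc t)
  refine ⟨Algebra.trace F K (a' * u t), ?_⟩
  rw [← ht, ← trace_eq_sum_automorphisms]
  rfl

/-- the local context passes to `Fnr` -/
theorem ctx_nr [IsGalois F Ω] (h : Ctx F w) : Ctx (Fnr F Ω) w where
  inv σ x := h.inv (σ.restrictScalars F) x
  w3 := h.w3
  disc a ha := by
    obtain ⟨b, hb⟩ := exists_w_eq h.w3 h.inv a.2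
    have h0 : b ≠ 0 := fun h0 => by
      rw [h0, map_zero, map_zero, eq_comm, Valuation.zero_iff] at hb
      exact ha (Subtype.ext hb)
    obtain ⟨n, hn⟩ := h.disc b h0
    exact ⟨n, hb.symm.trans hn⟩

/-- an open normal subgroup is the fixing subgroup of a finite Galois extension -/
theorem exists_field [IsGalois F Ω] (H : Subgroup (Ω ≃ₐ[F] Ω)) (hH : IsOpen (H : Set (Ω ≃ₐ[F] Ω))) :
    ∃ L : IntermediateField F Ω, FiniteDimensional F L ∧ L.fixingSubgroup = H ∧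
      (H.Normal → IsGalois F L) := by
  have e : (IntermediateField.fixedField H).fixingSubgroup = H :=
    InfiniteGalois.fixingSubgroup_fixedField ⟨H, H.isClosed_of_isOpen hH⟩
  refine ⟨IntermediateField.fixedField H, (InfiniteGalois.isOpen_iff_finite _).1 (by rw [e]; exact hH),
    e, fun hn => (InfiniteGalois.normal_iff_isGalois _).1 (by rwa [e])⟩

end Unr

end Crest.Agent.T15.Fl

end
end

-- ▼ part T15/Fl3Def_75

/-!
# Row 15, block Fl: `ℂ` as an algebraic closure of `ℚ₃` over a given place (helper75)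

`E` is an algebraic closure of `ℚ`, `ι : E →+* ℂ`, `P` a place of `E` above `3`.  `Loc3 ι P` is the
datum of a copy `F0 ⊆ ℂ` of `ℚ₃` over which `ℂ` is algebraic, of the valuation `w`, and of the
identification `r` of `Gal(ℂ/F0)` with the decomposition group of `P`.
-/

set_option autoImplicit false

noncomputable section

namespace Crest.Agent.T15.Fl

open NumberField MulAction
open scoped NNReal
open Crest.Agent.R018.Placesx484

variable {E : Type} [Field E] [CharZero E] [IsGalois ℚ E]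

/-- the local data at a place above `3` -/
structure Loc3 (ι : E →+* ℂ) (P : Place E) where
  F0 : IntermediateField ℚ ℂ
  w : Valuation ℂ ℝ≥0
  gal : IsGalois F0 ℂ
  ctx0 : Ctx F0 w
  dense0 : ∀ a ∈ F0, ∀ ε : ℝ≥0, 0 < ε → ∃ q : ℚ, w (a - q) < ε
  near : ∀ (a : ℂ) (ε : ℝ≥0), 0 < ε → ∃ x : E, w (a - ι x) < ε
  w_iota : ∀ x : E, (w (ι x) : ℝ) = Cg.av P x
  r : (ℂ ≃ₐ[F0] ℂ) ≃* stabilizer (E ≃ₐ[ℚ] E) P
  r_spec : ∀ σ x, ι ((r σ : E ≃ₐ[ℚ] E) x) = σ (ι x)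

/-- existence of the local data -/
def SetupStmt : Prop := ∀ (E : Type) [Field E] [CharZero E] [IsGalois ℚ E] [IsAlgClosed E]
  (ι : E →+* ℂ) (P : Place E), P.rchar = 3 → Nonempty (Loc3 ι P)

namespace Loc3

variable {ι : E →+* ℂ} {P : Place E} (Λ : Loc3 ι P)

instance : IsGalois Λ.F0 ℂ := Λ.gal

/-- the maximal unramified extension of `F0` -/
abbrev Fn : IntermediateField Λ.F0 ℂ := Fnr Λ.F0 ℂ

/-- the local Galois group -/
abbrev D : Type := ℂ ≃ₐ[Λ.F0] ℂ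

/-- the inertia group, as a Galois group -/
abbrev G : Type := ℂ ≃ₐ[Λ.Fn] ℂ

/-- the inertia group, as a subgroup of `D` -/
abbrev I : Subgroup Λ.D := Λ.Fn.fixingSubgroup

/-- restriction `D → Gal(E/ℚ)` -/
def rD : Λ.D →* (E ≃ₐ[ℚ] E) := (stabilizer (E ≃ₐ[ℚ] E) P).subtype.comp Λ.r.toMonoidHom

/-- `G → D` -/
def inc : Λ.G →* Λ.D := MonoidHom.mk' (fun σ => σ.restrictScalars Λ.F0) fun _ _ => rfl

/-- restriction `G → Gal(E/ℚ)` -/
def rG : Λ.G →* (E ≃ₐ[ℚ] E) := Λ.rD.comp Λ.inc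

lemma rD_apply (σ : Λ.D) : Λ.rD σ = Λ.r σ := rfl

lemma iota_rD (σ : Λ.D) (x : E) : ι (Λ.rD σ x) = σ (ι x) := Λ.r_spec σ x

@[simp] lemma inc_apply (σ : Λ.G) (x : ℂ) : Λ.inc σ x = σ x := rfl

lemma rG_apply (σ : Λ.G) : Λ.rG σ = Λ.rD (Λ.inc σ) := rfl

lemma iota_rG (σ : Λ.G) (x : E) : ι (Λ.rG σ x) = σ (ι x) := Λ.r_spec (Λ.inc σ) x


lemma resA_G (σ : Λ.G) : Cg.resA ι σ.toRingEquiv = Λ.rG σ :=
  Cg.resA_eq ι fun x => (Λ.iota_rG σ x).symm





lemma exists_rD {g : E ≃ₐ[ℚ] E} (hg : g ∈ stabilizer (E ≃ₐ[ℚ] E) P) : ∃ σ, Λ.rD σ = g :=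
  ⟨Λ.r.symm ⟨g, hg⟩, by rw [rD_apply, MulEquiv.apply_symm_apply]⟩


lemma inc_mem (σ : Λ.G) : Λ.inc σ ∈ Λ.I :=
  (IntermediateField.mem_fixingSubgroup_iff _ _).2 fun x hx => σ.commutes ⟨x, hx⟩

lemma exists_inc {σ : Λ.D} (h : σ ∈ Λ.I) : ∃ τ, Λ.inc τ = σ :=
  ⟨IntermediateField.fixingSubgroupEquiv Λ.Fn ⟨σ, h⟩, rfl⟩


lemma w3 : Λ.w 3 < 1 := Λ.ctx0.w3

lemma w_D (σ : Λ.D) (x : ℂ) : Λ.w (σ x) = Λ.w x := Λ.ctx0.inv σ x

lemma w_G (σ : Λ.G) (x : ℂ) : Λ.w (σ x) = Λ.w x := Λ.ctx0.inv (Λ.inc σ) x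

lemma w_iota_le_one (x : E) : Λ.w (ι x) ≤ 1 ↔ P.v x ≤ 1 := by
  rw [← NNReal.coe_le_coe, Λ.w_iota, ← Cg.av_le_one_iff']; rfl


lemma w_iota_lt_one (x : E) : Λ.w (ι x) < 1 ↔ P.v x < 1 := by
  rw [← NNReal.coe_lt_coe, Λ.w_iota, ← Cg.av_lt_one_iff]; rfl

lemma w_int_le_one (x : 𝓞 E) : Λ.w (ι x) ≤ 1 := (Λ.w_iota_le_one _).2 (P.v_int_le_one x)

lemma w_int_lt_one (x : 𝓞 E) : Λ.w (ι x) < 1 ↔ x ∈ P.ideal :=
  (Λ.w_iota_lt_one _).trans (P.v_int_lt_one_iff x)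

include Λ in
lemma rchar : P.rchar = 3 := by
  refine P.rchar_eq_of_mem Nat.prime_three ((Λ.w_int_lt_one _).1 ?_)
  rw [show (((3 : ℕ) : 𝓞 E) : E) = ((3 : ℕ) : E) from map_natCast (algebraMap (𝓞 E) E) 3,
    map_natCast]
  exact_mod_cast Λ.w3


lemma w_natCast {n : ℕ} (hn : ¬ 3 ∣ n) : Λ.w n = 1 := Unr.w_natCast Λ.w3 hn

/-- residues come from algebraic integers -/
lemma exists_int {a : ℂ} (ha : Λ.w a ≤ 1) : ∃ x : 𝓞 E, Λ.w (a - ι x) < 1 := by
  obtain ⟨x, hx⟩ := Λ.near a 1 one_pos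
  have h1 : Λ.w (ι x) ≤ 1 := by
    have : ι x = a - (a - ι x) := by ring
    rw [this]
    exact (Valuation.map_sub _ _ _).trans (max_le ha hx.le)
  obtain ⟨b, s, hs, h⟩ := (P.v_le_one_iff x).1 ((Λ.w_iota_le_one x).1 h1)
  obtain ⟨t, u, hu, htu⟩ := P.isMaximal.exists_inv hs
  refine ⟨t * b, ?_⟩
  have e : a - ι ((t * b : 𝓞 E) : E) = (a - ι x) + ι x * ι u := by
    have h2 : algebraMap (𝓞 E) E t * algebraMap (𝓞 E) E s + algebraMap (𝓞 E) E u = 1 := by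
      rw [← map_mul, ← map_add, htu, map_one]
    have h3 : ((t * b : 𝓞 E) : E) = x - x * (u : E) := by
      change algebraMap (𝓞 E) E (t * b) = x - x * algebraMap (𝓞 E) E u
      rw [map_mul, ← h]
      linear_combination x * h2
    rw [h3, map_sub, map_mul]; ring
  rw [e]
  refine lt_of_le_of_lt (Valuation.map_add _ _ _) (max_lt hx ?_)
  rw [map_mul]
  exact mul_lt_one_of_nonneg_of_lt_one_right h1 zero_le ((Λ.w_int_lt_one u).2 hu)

/-- the residue field is algebraic over `𝔽₃` -/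
lemma exists_pow {a : ℂ} (ha : Λ.w a ≤ 1) : ∃ z ∈ Tei ℂ, Λ.w (a - z) < 1 := by
  obtain ⟨x, hx⟩ := Λ.exists_int ha
  obtain ⟨n, hn, h⟩ := Unr.exists_pow_of_integral Λ.w3
    (x := ι x) ((RingOfIntegers.isIntegral_coe x).map ι.toIntAlgHom)
  obtain ⟨z, hz, h'⟩ := Unr.exists_tei hn h
  refine ⟨z, hz, ?_⟩
  rw [show a - z = (a - ι x) + (ι x - z) by ring]
  exact lt_of_le_of_lt (Valuation.map_add _ _ _) (max_lt hx h')

theorem ctx : Ctx Λ.Fn Λ.w := Unr.ctx_nr Λ.ctx0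

theorem full : Full Λ.Fn Λ.w := fun _ hy =>
  let ⟨z, hz, h⟩ := Λ.exists_pow hy
  ⟨⟨z, Unr.tei_mem hz⟩, h⟩

theorem mem_I_iff (σ : Λ.D) : σ ∈ Λ.I ↔ ∀ x, Λ.w x ≤ 1 → Λ.w (σ x - x) < 1 :=
  Unr.mem_fix_iff_res Λ.w3 Λ.w_D (fun _ => Λ.exists_pow) σ

theorem w_G_sub (σ : Λ.G) {x : ℂ} (hx : Λ.w x ≤ 1) : Λ.w (σ x - x) < 1 :=
  (Λ.mem_I_iff _).1 (Λ.inc_mem σ) x hx

theorem comm_mem_I (σ τ : Λ.D) : σ * τ * σ⁻¹ * τ⁻¹ ∈ Λ.I := Unr.comm_mem_fix σ τ

/-- an element of `ℂ` fixed by the inertia group lies in `Fn` -/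
theorem mem_Fn_iff (x : ℂ) : x ∈ Λ.Fn ↔ ∀ σ ∈ Λ.I, σ x = x := by
  conv_lhs => rw [← InfiniteGalois.fixedField_fixingSubgroup Λ.Fn]
  rw [IntermediateField.mem_fixedField_iff]

theorem disc_I {x : ℂ} (h0 : x ≠ 0) (hx : ∀ σ ∈ Λ.I, σ x = x) : ∃ m : ℤ, Λ.w x = Λ.w 3 ^ m :=
  Λ.ctx.disc ⟨x, (Λ.mem_Fn_iff x).2 hx⟩ fun h => h0 (congrArg Subtype.val h)

theorem res_I {x : ℂ} (hx : Λ.w x ≤ 1) : ∃ z, (∀ σ ∈ Λ.I, σ z = z) ∧ Λ.w (x - z) < 1 :=
  let ⟨z, hz, h⟩ := Λ.exists_pow hx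
  ⟨z, (Λ.mem_Fn_iff z).1 (Unr.tei_mem hz), h⟩

/-- the residue action is read on algebraic integers -/
theorem pow_iff (σ : Λ.D) (q : ℕ) : (∀ x : 𝓞 E, Λ.rD σ • x - x ^ q ∈ P.ideal) ↔
    ∀ a, Λ.w a ≤ 1 → Λ.w (σ a - a ^ q) < 1 := by
  have e0 : ∀ x : 𝓞 E, ι ((Λ.rD σ • x - x ^ q : 𝓞 E) : E) = σ (ι x) - ι x ^ q := fun x => by
    rw [show ((Λ.rD σ • x - x ^ q : 𝓞 E) : E) = Λ.rD σ x - (x : E) ^ q from by
      change algebraMap (𝓞 E) E _ = _
      rw [map_sub, map_pow, Place.smul_coe]; rfl, map_sub, map_pow, iota_rD]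
  refine ⟨fun hg a ha => ?_, fun h x => (Λ.w_int_lt_one _).1 (e0 x ▸ h _ (Λ.w_int_le_one x))⟩
  obtain ⟨x, hx⟩ := Λ.exists_int ha
  have h1 : Λ.w (σ a - σ (ι x)) < 1 := by rwa [← map_sub, w_D]
  have h2 : Λ.w (σ (ι x) - ι x ^ q) < 1 := e0 x ▸ (Λ.w_int_lt_one _).2 (hg x)
  have h3 : Λ.w (a ^ q - ι x ^ q) < 1 := by
    rw [← Commute.geom_sum₂_mul (Commute.all _ _), map_mul]
    refine mul_lt_one_of_nonneg_of_lt_one_right (Valuation.map_sum_le _ fun i _ => ?_) zero_le hx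
    rw [map_mul, map_pow, map_pow]
    exact mul_le_one' (pow_le_one' ha _) (pow_le_one' (Λ.w_int_le_one x) _)
  rw [show σ a - a ^ q = (σ a - σ (ι x)) + (σ (ι x) - ι x ^ q) - (a ^ q - ι x ^ q) by ring]
  exact lt_of_le_of_lt (Valuation.map_sub _ _ _)
    (max_lt (lt_of_le_of_lt (Valuation.map_add _ _ _) (max_lt h1 h2)) h3)

/-- `r` identifies the inertia groups -/
theorem rD_mem_inertia (σ : Λ.D) : Λ.rD σ ∈ P.ideal.inertia (E ≃ₐ[ℚ] E) ↔ σ ∈ Λ.I := by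
  have := Λ.pow_iff σ 1
  simp only [pow_one] at this
  rw [mem_I_iff, ← this]
  rfl

theorem rG_mem (σ : Λ.G) : Λ.rG σ ∈ P.ideal.inertia (E ≃ₐ[ℚ] E) :=
  (Λ.rD_mem_inertia _).2 (Λ.inc_mem σ)

theorem exists_rG {g : E ≃ₐ[ℚ] E} (hg : g ∈ P.ideal.inertia (E ≃ₐ[ℚ] E)) : ∃ σ, Λ.rG σ = g := by
  obtain ⟨σ, rfl⟩ := Λ.exists_rD (P.inertia_le_stabilizer hg)
  obtain ⟨τ, rfl⟩ := Λ.exists_inc ((Λ.rD_mem_inertia σ).1 hg)
  exact ⟨τ, rfl⟩

theorem range_rG : Λ.rG.range = P.ideal.inertia (E ≃ₐ[ℚ] E) :=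
  Subgroup.ext fun _ => ⟨fun ⟨σ, h⟩ => h ▸ Λ.rG_mem σ, Λ.exists_rG⟩

/-- a Frobenius lift -/
theorem exists_frob : ∃ φ : Λ.D, ∀ a, Λ.w a ≤ 1 → Λ.w (φ a - a ^ 3) < 1 := by
  obtain ⟨φ, hφ, h⟩ := Place.exists_frob (F := ℚ) P
  obtain ⟨σ, rfl⟩ := Λ.exists_rD hφ
  rw [Λ.pow_iff] at h
  have hq : P.qv ℚ = 3 := by
    have hm : ∀ x : 𝓞 ℚ, x ∈ (P.res ℚ).ideal ↔ (3 : ℤ) ∣ Rat.ringOfIntegersEquiv x := fun x => by
      have h3 : (P.res ℚ).rchar = 3 := by rw [Place.rchar_res, Λ.rchar]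
      obtain ⟨z, rfl⟩ := Rat.ringOfIntegersEquiv.symm.surjective x
      rw [RingEquiv.apply_symm_apply, eq_intCast, ← Int.natAbs_dvd_natAbs,
        show (3 : ℤ).natAbs = 3 from rfl, ← h3, ← Place.natCast_mem_iff]
      rcases Int.natAbs_eq z with h | h
      · rw [← Int.cast_natCast, ← h]
      · rw [← Int.cast_natCast,
          ← neg_mem_iff (H := (P.res ℚ).ideal) (x := ((z.natAbs : ℤ) : 𝓞 ℚ)), ← Int.cast_neg, ← h]
    have hk : RingHom.ker ((Int.castRingHom (ZMod 3)).comp Rat.ringOfIntegersEquiv.toRingHom) =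
        (P.res ℚ).ideal := Ideal.ext fun x => by
      rw [hm, RingHom.mem_ker]
      exact ZMod.intCast_zmod_eq_zero_iff_dvd _ 3
    rw [Place.qv_def, ← hk, Nat.card_congr (RingHom.quotientKerEquivOfSurjective
      (ZMod.ringHom_surjective _)).toEquiv, Nat.card_zmod]
  exact ⟨σ, hq ▸ h⟩

omit [IsGalois ℚ E] in
/-- continuity of the restriction to `E` -/
theorem isOpen_comap {F : Type} [Field F] [Algebra F ℂ] [Algebra.IsAlgebraic F ℂ]
    (s : (ℂ ≃ₐ[F] ℂ) →* (E ≃ₐ[ℚ] E)) (hs : ∀ σ x, ι (s σ x) = σ (ι x))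
    {N : Subgroup (E ≃ₐ[ℚ] E)} (hN : IsOpen (N : Set (E ≃ₐ[ℚ] E))) :
    IsOpen (N.comap s : Set (ℂ ≃ₐ[F] ℂ)) := by
  obtain ⟨L, hL, hLN⟩ := (krullTopology_mem_nhds_one_iff ℚ E _).1 (hN.mem_nhds N.one_mem)
  let b := Module.finBasis ℚ L
  let L' := IntermediateField.adjoin F (Set.range fun i => ι (b i))
  have : FiniteDimensional F L' :=
    IntermediateField.finiteDimensional_adjoin fun x _ => Algebra.IsIntegral.isIntegral x
  refine Subgroup.isOpen_mono (H₁ := L'.fixingSubgroup) (fun σ hσ => hLN ?_)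
    (IntermediateField.fixingSubgroup_isOpen L')
  rw [IntermediateField.mem_fixingSubgroup_iff] at hσ
  refine (IntermediateField.mem_fixingSubgroup_iff _ _).2 fun x hx => ?_
  have e := congrArg Subtype.val (b.sum_repr ⟨x, hx⟩)
  simp only [AddSubmonoidClass.coe_finsetSum, Algebra.smul_def, MulMemClass.coe_mul, eq_ratCast,
    SubfieldClass.coe_ratCast] at e
  rw [← e, map_sum]
  refine Finset.sum_congr rfl fun i _ => ?_
  rw [map_mul, map_ratCast, ι.injective ((hs σ _).trans (hσ _ (IntermediateField.subset_adjoin _ _ ⟨i, rfl⟩)))]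


theorem isOpen_comap_rG {N : Subgroup (E ≃ₐ[ℚ] E)} (hN : IsOpen (N : Set (E ≃ₐ[ℚ] E))) :
    IsOpen (N.comap Λ.rG : Set Λ.G) := isOpen_comap Λ.rG Λ.iota_rG hN


/-- an open subgroup of `Gal(E/ℚ)` cuts out a finite extension of `Fn` -/
theorem exists_field_G {N : Subgroup (E ≃ₐ[ℚ] E)} (hN : IsOpen (N : Set (E ≃ₐ[ℚ] E))) :
    ∃ L : IntermediateField Λ.Fn ℂ, FiniteDimensional Λ.Fn L ∧ L.fixingSubgroup = N.comap Λ.rG ∧
      (N.Normal → IsGalois Λ.Fn L) :=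
  let ⟨L, h1, h2, h3⟩ := Unr.exists_field _ (Λ.isOpen_comap_rG hN)
  ⟨L, h1, h2, fun h => h3 (h.comap _)⟩

end Loc3

end Crest.Agent.T15.Fl

end
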