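import Mathlib
import Crest.Agent.T15.HyB_90

/-!
# Row 15 (helper51): the height pairing on a constant hyperelliptic curve, definitions
-/

set_option autoImplicit false
set_option linter.all false

namespace Crest.Agent.T15.Fa

open Polynomial WithZero Module
open scoped NNReal IntermediateField
open Crest.Agent.R013.RR7_948 Crest.Agent.R013.RR8_948 Crest.Agent.R013.RR9_948
open Crest.Agent.R013.RR11_948 Crest.Agent.R013.RR12_948 Crest.Agent.R013.PicD_398
open Crest.Agent.R013.Frob1_914
open Crest.Agent.T15.Hy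

section pf

variable (k : Type*) {Om : Type*} [Field k] [Field Om] [Algebra k Om]

/-- automorphisms of `Om` that fix `k` and `S` pointwise -/
def Gs (S : Finset Om) (s : Om ≃+* Om) : Prop :=
  (∀ c : k, s (algebraMap k Om c) = algebraMap k Om c) ∧ ∀ y ∈ S, s y = y

/-- a family of valuations with a product formula on the elements fixed by `G` -/
structure PF {T : Type*} (ν : T → Valuation Om ℝ≥0) (G : (Om ≃+* Om) → Prop) : Prop where
  const : ∀ t (c : k), c ≠ 0 → ν t (algebraMap k Om c) = 1
  fin : ∀ z : Om, z ≠ 0 → {t | ν t z ≠ 1}.Finite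
  prod : ∀ z : Om, z ≠ 0 → (∀ s, G s → s z = z) → HasSum (fun t => Real.log (ν t z)) 0
  int : ∀ z : Om, z ≠ 0 → (∀ s, G s → s z = z) → ∀ t, ∃ (e : ℕ) (n : ℤ),
    (ringExpChar k : ℝ) ^ e * Real.log (ν t z) = n
  cst : ∀ z : Om, (∀ s, G s → ∀ t, ν t (s z) ≤ 1) → z ∈ Set.range (algebraMap k Om)

end pf


section gam

variable (k : Type*) {Om L : Type*} [Field k] [Field Om] [Field L] [Algebra k Om] [Algebra Om L]

/-- semilinear automorphisms that fix `x`, `w`, `k` and `S` -/
def Fx (S : Finset Om) (x w : L) (e : SI Om L Om L) : Prop := e.f x = x ∧ e.f w = w ∧ Gs k S e.s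

/-- places with coordinates in `k` -/
def Con (x w : L) (P : Pl Om L) : Prop :=
  1 < P.v x ∨ ∃ a b : k, At P x w (algebraMap k Om a) (algebraMap k Om b)

variable [Algebra (RatFunc Om) L] [IsScalarTower Om (RatFunc Om) L]
  [FiniteDimensional (RatFunc Om) L] [Algebra.IsSeparable (RatFunc Om) L]

/-- invariant classes -/
def Gam (S : Finset Om) (x w : L) : AddSubgroup (Pic Om L) where
  carrier := {c | ∀ e : SI Om L Om L, Fx k S x w e → e.pic c = c}
  add_mem' := fun {a b} ha hb e he => by rw [map_add, ha e he, hb e he]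
  zero_mem' := fun e _ => map_zero _
  neg_mem' := fun {a} ha e he => by rw [map_neg, ha e he]


/-- constant classes -/
def ConC (x w : L) (c : Pic Om L) : Prop :=
  ∃ D : Pl Om L →₀ ℤ, cls D = c ∧ ∀ P, D P ≠ 0 → Con k x w P

end gam

end Crest.Agent.T15.Fa
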