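import Mathlib
import Crest.Agent.T15.FaDef_51
import Crest.Agent.R013.CE5_280

/-!
# Row 15 (helper49): homomorphisms out of a hyperelliptic function field, constant extensions

`exists_hom`, `hom_ext`, `exists_SI`, `exists_Fx`, `hyp_of_isCE`, `con_iff`, `conC_iff`, `fx_iff`.
-/

set_option autoImplicit false
set_option linter.all false

namespace Crest.Agent.T15.Fa

open Polynomial WithZero Module
open scoped TensorProduct
open Crest.Agent.R013.RR7_948 Crest.Agent.R013.RR8_948 Crest.Agent.R013.RR9_948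
open Crest.Agent.R013.RR11_948 Crest.Agent.R013.RR12_948 Crest.Agent.R013.PicD_398
open Crest.Agent.R013.Frob1_914
open Crest.Agent.T15.Hy
open Crest.Agent.R013.CE3_280 (IsCE mu mu_tmul conP plQ conP_Over plQ_At conP_injective)
open Crest.Agent.R013.CE5_280 (base)

section hom

variable {k K k' K' : Type*} [Field k] [Field K] [Algebra k K] [Field k'] [Field K'] [Algebra k' K']
  {F : k[X]} {x w : K}

theorem hom_aeval (φ : K →+* K') (s : k →+* k')
    (hφ : ∀ c, φ (algebraMap k K c) = algebraMap k' K' (s c)) (x : K) (p : k[X]) :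
    φ (aeval x p) = aeval (φ x) (p.map s) := by
  induction p using Polynomial.induction_on' with
  | add p q hp hq => rw [map_add, map_add, Polynomial.map_add, map_add, hp, hq]
  | monomial n a =>
    rw [aeval_monomial, map_mul, map_pow, hφ, Polynomial.map_monomial, aeval_monomial]

theorem hom_el (φ : K →+* K') (s : k →+* k')
    (hφ : ∀ c, φ (algebraMap k K c) = algebraMap k' K' (s c)) (x w : K) (A B : k[X]) :
    φ (el x w A B) = el (φ x) (φ w) (A.map s) (B.map s) := by
  simp only [el, map_add, map_mul, hom_aeval φ s hφ]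

/-- the image of `f` -/
noncomputable def hmF (h : Hyp F x w) (s : k →+* k') (x' w' : K') (f : K) : K' :=
  el x' w' ((h.gen f).choose.map s) ((h.gen f).choose_spec.choose.map s) /
    aeval x' ((h.gen f).choose_spec.choose_spec.choose.map s)

theorem hmF_spec (h : Hyp F x w) (s : k →+* k') {x' w' : K'}
    (ht : ∀ p : k[X], aeval x' (p.map s) = 0 → p = 0) {f : K} {A B c : k[X]}
    (hf : f * aeval x c = el x w A B) :
    hmF h s x' w' f * aeval x' (c.map s) = el x' w' (A.map s) (B.map s) := by
  obtain ⟨hc, hs⟩ := (h.gen f).choose_spec.choose_spec.choose_spec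
  unfold hmF
  set A' := (h.gen f).choose
  set B' := (h.gen f).choose_spec.choose
  set c' := (h.gen f).choose_spec.choose_spec.choose
  have h1 : el x w (A * c') (B * c') = el x w (A' * c) (B' * c) := by
    rw [← el_mul_aeval, ← el_mul_aeval, ← hf, ← hs]; ring
  obtain ⟨h2, h3⟩ := h.el_inj h1
  rw [div_mul_eq_mul_div, div_eq_iff (fun h0 => hc (ht _ h0)), el_mul_aeval, el_mul_aeval,
    ← Polynomial.map_mul, ← Polynomial.map_mul, ← Polynomial.map_mul, ← Polynomial.map_mul, h2, h3]

/-- a point `(x', w')` of the curve with `x'` transcendental gives a homomorphism -/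
theorem exists_hom (h : Hyp F x w) (s : k →+* k') {x' w' : K'}
    (ht : ∀ p : k[X], aeval x' (p.map s) = 0 → p = 0) (hw : w' ^ 2 = aeval x' (F.map s)) :
    ∃ φ : K →+* K', (∀ c, φ (algebraMap k K c) = algebraMap k' K' (s c)) ∧ φ x = x' ∧ φ w = w' := by
  have hel : ∀ A B : k[X], hmF h s x' w' (el x w A B) = el x' w' (A.map s) (B.map s) := by
    intro A B
    have := hmF_spec h s (w' := w') ht (f := el x w A B) (c := 1) (A := A) (B := B) (by simp)
    simpa using this
  have hne : ∀ {c : k[X]}, c ≠ 0 → aeval x' (c.map s) ≠ 0 := fun hc h0 => hc (ht _ h0)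
  refine ⟨{ toFun := hmF h s x' w', map_one' := ?_, map_mul' := ?_, map_zero' := ?_,
            map_add' := ?_ }, ?_, ?_, ?_⟩
  · have := hel 1 0
    simpa [el] using this
  · intro f g
    obtain ⟨A, B, c, hc, hf⟩ := h.gen f
    obtain ⟨A', B', c', hc', hg⟩ := h.gen g
    have h1 : (f * g) * aeval x (c * c') = el x w (A * A' + B * B' * F) (A * B' + B * A') := by
      rw [← el_mul h.sq, ← hf, ← hg, map_mul]; ring
    apply mul_right_cancel₀ (hne (mul_ne_zero hc hc'))
    have h2 : hmF h s x' w' f * hmF h s x' w' g * aeval x' ((c * c').map s) =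
        (hmF h s x' w' f * aeval x' (c.map s)) * (hmF h s x' w' g * aeval x' (c'.map s)) := by
      rw [Polynomial.map_mul, map_mul]; ring
    rw [hmF_spec h s ht h1, h2, hmF_spec h s ht hf, hmF_spec h s ht hg, el_mul hw]
    simp only [Polynomial.map_add, Polynomial.map_mul]
  · have := hel 0 0
    simpa [el] using this
  · intro f g
    obtain ⟨A, B, c, hc, hf⟩ := h.gen f
    obtain ⟨A', B', c', hc', hg⟩ := h.gen g
    have h1 : (f + g) * aeval x (c * c') = el x w (A * c' + A' * c) (B * c' + B' * c) := by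
      rw [← el_add, ← el_mul_aeval, ← el_mul_aeval, ← hf, ← hg, map_mul]; ring
    apply mul_right_cancel₀ (hne (mul_ne_zero hc hc'))
    rw [hmF_spec h s ht h1]
    simp only [Polynomial.map_add, Polynomial.map_mul]
    rw [← el_add, ← el_mul_aeval, ← el_mul_aeval, ← hmF_spec h s ht hf, ← hmF_spec h s ht hg,
      map_mul]
    ring
  · intro c
    have := hel (C c) 0
    simpa [el] using this
  · have := hel X 0
    simpa [el] using this
  · have := hel 0 1
    simpa [el] using this

/-- homomorphisms are determined by the constants, `x` and `w` -/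
theorem hom_ext {R : Type*} [Field R] (h : Hyp F x w) {φ ψ : K →+* R}
    (hc : ∀ c, φ (algebraMap k K c) = ψ (algebraMap k K c)) (hx : φ x = ψ x) (hw : φ w = ψ w) :
    φ = ψ := by
  have ha : ∀ p : k[X], φ (aeval x p) = ψ (aeval x p) := by
    intro p
    induction p using Polynomial.induction_on' with
    | add p q hp hq => rw [map_add, map_add, map_add, hp, hq]
    | monomial n a => rw [aeval_monomial, map_mul, map_mul, map_pow, map_pow, hc, hx]
  ext f
  obtain ⟨A, B, c, hc0, hf⟩ := h.gen f
  have h1 := congrArg φ hf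
  have h2 := congrArg ψ hf
  simp only [el, map_add, map_mul, ha, hw] at h1 h2
  exact mul_right_cancel₀ ((map_ne_zero ψ).mpr (h.aeval_ne hc0)) (h1.trans h2.symm)

/-- semilinear isomorphism of two models -/
theorem exists_SI {F' : k'[X]} {x' w' : K'} (h : Hyp F x w) (h' : Hyp F' x' w') (s : k ≃+* k')
    (hF : F.map (s : k →+* k') = F') :
    ∃ e : SI k K k' K', e.s = s ∧ e.f x = x' ∧ e.f w = w' := by
  obtain ⟨φ, h1, h2, h3⟩ := exists_hom h (s : k →+* k') (x' := x') (w' := w')
    (fun p hp => (Polynomial.map_eq_zero_iff (s : k →+* k').injective).mp (h'.tr _ hp))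
    (by rw [hF]; exact h'.sq)
  have hsurj : Function.Surjective φ := by
    intro g
    obtain ⟨A, B, c, hc, hg⟩ := h'.gen g
    obtain ⟨A0, rfl⟩ := Polynomial.map_surjective (s : k →+* k') s.surjective A
    obtain ⟨B0, rfl⟩ := Polynomial.map_surjective (s : k →+* k') s.surjective B
    obtain ⟨c0, rfl⟩ := Polynomial.map_surjective (s : k →+* k') s.surjective c
    refine ⟨el x w A0 B0 / aeval x c0, ?_⟩
    rw [map_div₀, hom_el φ _ h1, hom_aeval φ _ h1, h2, h3, div_eq_iff (h'.aeval_ne hc), hg]
  exact ⟨⟨s, RingEquiv.ofBijective φ ⟨φ.injective, hsurj⟩, h1⟩, rfl, h2, h3⟩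

theorem SI_ext (h : Hyp F x w) {e e' : SI k K k' K'} (hs : ∀ c, e.s c = e'.s c)
    (hx : e.f x = e'.f x) (hw : e.f w = e'.f w) (f : K) : e.f f = e'.f f := by
  have := hom_ext h (φ := (e.f : K →+* K')) (ψ := (e'.f : K →+* K'))
    (fun c => by show e.f _ = e'.f _; rw [e.comm, e'.comm, hs]) hx hw
  exact DFunLike.congr_fun this f



end hom

section fx

variable {k Om L : Type*} [Field k] [Field Om] [Field L] [Algebra k Om] [Algebra Om L]
  {F : k[X]} {x w : L}

/-- every automorphism of `Om / k` extends to `L` and fixes `x`, `w` -/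
theorem exists_SI_fix (h : Hyp (F.map (algebraMap k Om)) x w) (s : Om ≃+* Om)
    (hs : ∀ c : k, s (algebraMap k Om c) = algebraMap k Om c) :
    ∃ e : SI Om L Om L, e.s = s ∧ e.f x = x ∧ e.f w = w :=
  exists_SI h h s (by
    rw [Polynomial.map_map]
    congr 1
    ext c
    exact hs c)

theorem exists_Fx (h : Hyp (F.map (algebraMap k Om)) x w) {S : Finset Om} {s : Om ≃+* Om}
    (hs : Gs k S s) : ∃ e : SI Om L Om L, e.s = s ∧ Fx k S x w e := by
  obtain ⟨e, h1, h2, h3⟩ := exists_SI_fix h s hs.1
  exact ⟨e, h1, h2, h3, h1 ▸ hs⟩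

end fx

section ce

variable {k K Om L : Type*} [Field k] [Field K] [Algebra k K] [Field Om] [Algebra k Om]
  [Field L] [Algebra Om L] [Algebra k L] [IsScalarTower k Om L] {ι : K →ₐ[k] L}
  {F : k[X]} {x0 w0 : K}







variable [IsAlgClosed k] [IsAlgClosed Om]
  [Algebra (RatFunc k) K] [IsScalarTower k (RatFunc k) K] [FiniteDimensional (RatFunc k) K]
  [Algebra.IsSeparable (RatFunc k) K]
  [Algebra (RatFunc Om) L] [IsScalarTower Om (RatFunc Om) L] [FiniteDimensional (RatFunc Om) L]
  [Algebra.IsSeparable (RatFunc Om) L]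







end ce

end Crest.Agent.T15.Fa
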