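import Mathlib
import Crest.Agent.T15.MoB_29
import Crest.Agent.T15.FaS_49
import Crest.Agent.T15.Rk1_31
import Crest.Agent.T15.HtDef_95

-- ▼ part T15/GalA_31
section

/-!
# Row 15 (helper31): semilinear automorphisms of the curve `Y` and of its double cover

* `hom_ext_adjoin`, `exists_ext`, `exists_SI_ext` : homomorphisms out of `K = Y(√B2)`;
* `of_zw` : a homomorphism which respects `z`, `w` respects `A`, `B2`, `u`;
* `exists_fx`, `exists_y`.
-/

set_option autoImplicit false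
set_option linter.all false

namespace Crest.Agent.T15.GalA

open Polynomial
open Crest.Agent.R013.Frob1_914
open Crest.Agent.T15.Mo Crest.Agent.T15.Hy

theorem hom_ext_adjoin {C Y R : Type*} [Field C] [Field Y] [Algebra C Y] [DivisionRing R]
    {S : Set Y} (h : IntermediateField.adjoin C S = ⊤) {φ ψ : Y →+* R}
    (hc : ∀ c, φ (algebraMap C Y c) = ψ (algebraMap C Y c)) (hS : ∀ x ∈ S, φ x = ψ x) : φ = ψ := by
  ext x
  have hx : x ∈ IntermediateField.adjoin C S := h ▸ IntermediateField.mem_top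
  induction hx using IntermediateField.adjoin_induction with
  | mem x hx => exact hS x hx
  | algebraMap c => exact hc c
  | add x y _ _ h1 h2 => rw [map_add, map_add, h1, h2]
  | inv x _ h1 => rw [map_inv₀, map_inv₀, h1]
  | mul x y _ _ h1 h2 => rw [map_mul, map_mul, h1, h2]

theorem SI_eq {k K k' K' : Type*} [Field k] [Field K] [Algebra k K] [Field k'] [Field K']
    [Algebra k' K'] {e e' : SI k K k' K'} (hs : e.s = e'.s) (hf : ∀ x, e.f x = e'.f x) :
    e = e' := by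
  have h : e.f = e'.f := RingEquiv.ext hf
  cases e
  cases e'
  simp only at hs h
  subst hs h
  rfl

section quad

variable {Y K : Type*} [Field Y] [Field K] [Algebra Y K] {B2 : Y} {B : K}

theorem minpoly_eq (hB : B ^ 2 = algebraMap Y K B2) (nB : B ∉ Set.range (algebraMap Y K)) :
    minpoly Y B = X ^ 2 - C B2 := by
  refine (minpoly.eq_of_irreducible_of_monic ?_ (by simp [hB]) (monic_X_pow_sub_C _ two_ne_zero)).symm
  refine X_pow_sub_C_irreducible_of_prime Nat.prime_two fun b hb => nB ?_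
  have h1 : B ^ 2 = algebraMap Y K b ^ 2 := by rw [hB, ← hb, map_pow]
  rcases sq_eq_sq_iff_eq_or_eq_neg.mp h1 with h | h
  · exact ⟨b, h.symm⟩
  · exact ⟨-b, by rw [map_neg, h]⟩

theorem isIntegral_B (hB : B ^ 2 = algebraMap Y K B2) : IsIntegral Y B :=
  ⟨X ^ 2 - C B2, monic_X_pow_sub_C _ two_ne_zero, by simp [hB]⟩


theorem exists_ext (hB : B ^ 2 = algebraMap Y K B2) (hg : IntermediateField.adjoin Y {B} = ⊤)
    (nB : B ∉ Set.range (algebraMap Y K)) {K' : Type*} [Field K'] (φ : Y →+* K') {B' : K'}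
    (hB' : B' ^ 2 = φ B2) : ∃ ψ : K →+* K', (∀ y, ψ (algebraMap Y K y) = φ y) ∧ ψ B = B' := by
  letI : Algebra Y K' := φ.toAlgebra
  have hi := isIntegral_B hB
  have h1 : Algebra.adjoin Y {B} = ⊤ := by
    rw [← IntermediateField.adjoin_simple_toSubalgebra_of_isAlgebraic hi.isAlgebraic, hg]
    rfl
  let pb := PowerBasis.ofAdjoinEqTop hi h1
  have h2 : aeval B' (minpoly Y pb.gen) = 0 := by
    rw [PowerBasis.ofAdjoinEqTop_gen, minpoly_eq hB nB]
    simp [hB', RingHom.algebraMap_toAlgebra]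
  exact ⟨(pb.lift B' h2).toRingHom, fun y => (pb.lift B' h2).commutes y, pb.lift_gen B' h2⟩

/-- extension of a semilinear isomorphism to the double covers -/
theorem exists_SI_ext {C C' Y' K' : Type*} [Field C] [Field C'] [Field Y'] [Field K']
    [Algebra C Y] [Algebra C K] [IsScalarTower C Y K] [Algebra C' Y'] [Algebra C' K']
    [Algebra Y' K'] [IsScalarTower C' Y' K'] {B2' : Y'} {B' : K'}
    (hB : B ^ 2 = algebraMap Y K B2) (hg : IntermediateField.adjoin Y {B} = ⊤)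
    (nB : B ∉ Set.range (algebraMap Y K))
    (hB' : B' ^ 2 = algebraMap Y' K' B2') (hg' : IntermediateField.adjoin Y' {B'} = ⊤)
    (nB' : B' ∉ Set.range (algebraMap Y' K')) (e : SI C Y C' Y') (he : e.f B2 = B2') :
    ∃ e' : SI C K C' K', e'.s = e.s ∧ (∀ y, e'.f (algebraMap Y K y) = algebraMap Y' K' (e.f y)) ∧
      e'.f B = B' := by
  obtain ⟨ψ, h1, h2⟩ := exists_ext hB hg nB ((algebraMap Y' K').comp (e.f : Y →+* Y')) (B' := B')
    (by rw [hB', ← he]; rfl)
  obtain ⟨ψ', h1', h2'⟩ := exists_ext hB' hg' nB' ((algebraMap Y K).comp (e.f.symm : Y' →+* Y))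
    (B' := B) (by rw [hB, ← he]; simp)
  have h3 : ψ'.comp ψ = RingHom.id K := hom_ext_adjoin hg (fun y => by simp [h1, h1'])
    (by rintro _ rfl; simp [h2, h2'])
  have h4 : ψ.comp ψ' = RingHom.id K' := hom_ext_adjoin hg' (fun y => by simp [h1, h1'])
    (by rintro _ rfl; simp [h2, h2'])
  refine ⟨⟨e.s, RingEquiv.ofRingHom ψ ψ' h4 h3, fun c => ?_⟩, rfl, fun y => h1 y, h2⟩
  show ψ _ = _
  rw [IsScalarTower.algebraMap_apply C Y K, h1, IsScalarTower.algebraMap_apply C' Y' K', ← e.comm]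
  rfl

end quad

theorem par_ext {C : Type*} [Field C] {P Q : Par C} (h1 : P.p1 = Q.p1) (h2 : P.p2 = Q.p2)
    (h3 : P.p3 = Q.p3) (ht : P.t = Q.t) (ha : P.al = Q.al) (hb : P.be = Q.be) : P = Q := by
  cases P
  cases Q
  simp only at h1 h2 h3 ht ha hb
  subst h1 h2 h3 ht ha hb
  rfl

theorem of_zw {Y Y' : Type*} [Field Y] [Field Y'] (f : Y →+* Y') {P : Par Y} {A B2 u : Y}
    {A' B2' u' : Y'} (h : Eqs P A B2 u) (h' : Eqs (P.map f) A' B2' u')
    (hb : P.z A B2 u ^ 2 - P.b ≠ 0) (hz : f (P.z A B2 u) = (P.map f).z A' B2' u')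
    (hw : f (P.w A B2 u) = (P.map f).w A' B2' u') : f A = A' ∧ f B2 = B2' ∧ f u = u' := by
  have hb' : (P.map f).z A' B2' u' ^ 2 - (P.map f).b ≠ 0 := by
    rw [← hz, Par.map_b, ← map_pow, ← map_sub]
    exact (_root_.map_ne_zero f).mpr hb
  have hu : f u = u' := by
    rw [h'.u_eq, ← hz]
    conv_lhs => rw [h.u_eq]
    simp [Par.N, map_ofNat]
  refine ⟨?_, ?_, hu⟩
  · rw [h'.A_eq hb', ← hz, ← hw]
    conv_lhs => rw [h.A_eq hb]
    simp
  · rw [h'.B_eq, h'.V_eq, h'.R_eq, h'.V'_eq, h'.R'_eq, ← hz, ← hu]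
    conv_lhs => rw [h.B_eq, h.V_eq, h.R_eq, h.V'_eq, h.R'_eq]
    simp [map_ofNat]

variable {C Y : Type*} [Field C] [Field Y] [Algebra C Y] {P : Par C} {A B2 u : Y}

theorem isY_map (h : IsY P A B2 u) {s : C →+* C} (h1 : s P.p1 = P.p1) (h2 : s P.p2 = P.p2)
    (ht : s P.t = P.t) : IsY (P.map s) A B2 u := by
  have h3 : s P.p3 = P.p3 := by rw [P.p3_eq, map_sub, map_neg, h1, h2]
  refine ⟨h.two, ?_, ?_, h.tr, h.gen⟩
  · have := h.k0
    simpa [Par.d1, Par.d2, Par.d3, h1, h2, h3, ht] using this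
  · have := h.cub
    simpa [Par.Xc, Par.V, Par.d1, Par.d2, Par.d3, h1, h2, h3, ht] using this

/-- the Galois action on `Y` -/
theorem exists_fx (h : IsY P A B2 u) (s : C ≃+* C) (h1 : s P.p1 = P.p1) (h2 : s P.p2 = P.p2)
    (ht : s P.t = P.t) : ∃ e : SI C Y C Y, e.s = s ∧ e.f A = A ∧ e.f B2 = B2 ∧ e.f u = u := by
  have h' := isY_map h (s := (s : C →+* C)) h1 h2 ht
  obtain ⟨e, hs, hz, hw⟩ := Fa.exists_SI h.hyp h'.hyp s (P.map_F _).symm
  have hP : (P.up Y).map (e.f : Y →+* Y) = (P.map (s : C →+* C)).up Y := by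
    refine par_ext ?_ ?_ ?_ ?_ ?_ ?_ <;> exact (e.comm _).trans (by rw [hs]; rfl)
  exact ⟨e, hs, of_zw (e.f : Y →+* Y) h.eqs (hP ▸ h'.eqs) h.b_ne (by rw [hP]; exact hz)
    (by rw [hP]; exact hw)⟩

/-- the automorphism of order four -/
theorem exists_y {c a1 a2 a3 : C} {z w : Y} (h : Hyp (Fm c a1 a2 a3) z w) {i : C}
    (hi : i ^ 2 = -1) : ∃ y : Y ≃ₐ[C] Y, y z = -z ∧ y w = algebraMap C Y i * w := by
  have hi0 : i ≠ 0 := by
    rintro rfl
    simp at hi
  have h' : Hyp (Fm c a1 a2 a3) (-z) (algebraMap C Y i * w) := by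
    refine h.chart (c := 0) (p := -1) (r := -i) (by simp) (neg_ne_zero.mpr hi0) (by simp) ?_ ?_
    · rw [← mul_assoc, ← map_mul, neg_mul, ← pow_two, hi]
      simp
    · rw [neg_sq, hi]
      simp [Fm]
  obtain ⟨e, hs, hz, hw⟩ := Fa.exists_SI h h' (RingEquiv.refl C) (by simp)
  exact ⟨{ e.f with commutes' := fun c => (e.comm c).trans (by rw [hs]; rfl) }, hz, hw⟩

end Crest.Agent.T15.GalA
end

-- ▼ part T15/Gal_31

/-!
# Row 15 (helper31): the leaves `GalStmt` and `MoStmt`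
-/

set_option autoImplicit false
set_option linter.all false

namespace Crest.Agent.T15.Ht

open Crest.Agent.R013.PicD_398 Crest.Agent.R013.Frob1_914
open Crest.Agent.T15.Mo Crest.Agent.T15.GalA

theorem xu_fix {R : Type*} [Field R] (f : R →+* R) {P : Par R} (h1 : f P.p1 = P.p1)
    (h2 : f P.p2 = P.p2) (ht : f P.t = P.t) {A B u : R} (hA : f A = A) (hB : f B = B)
    (hu : f u = u) : f (xu P A B u) = xu P A B u := by
  have h3 : f P.p3 = P.p3 := by rw [P.p3_eq, map_sub, map_neg, h1, h2]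
  simp [xu, Par.V', Par.R', Par.V, Par.R, Par.d1, Par.d2, Par.d3, map_ofNat, h1, h2, h3, ht, hA,
    hB, hu]

namespace Mdl

variable {C : Type} [Field C] [IsAlgClosed C] {P : Par C} (M : Mdl P)

theorem isY31 : IsY P M.A M.B2 M.u := by
  refine ⟨fun h => M.eqs.two ?_, M.eqs.k0, M.eqs.cub, M.tr, M.gen⟩
  rw [← map_ofNat (algebraMap C M.Y) 2, h, map_zero]

theorem hyp31 : Hy.Hyp P.F M.z M.w := M.isY31.hyp

/-- homomorphisms out of `K` -/
theorem homK_ext {R : Type*} [DivisionRing R] {φ ψ : M.K →+* R}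
    (hc : ∀ c, φ (algebraMap C M.K c) = ψ (algebraMap C M.K c))
    (hA : φ (algebraMap M.Y M.K M.A) = ψ (algebraMap M.Y M.K M.A)) (hB : φ M.B = ψ M.B)
    (hu : φ (algebraMap M.Y M.K M.u) = ψ (algebraMap M.Y M.K M.u)) : φ = ψ := by
  have h1 : φ.comp (algebraMap M.Y M.K) = ψ.comp (algebraMap M.Y M.K) := by
    refine hom_ext_adjoin M.gen (fun c => ?_) ?_
    · rw [RingHom.comp_apply, RingHom.comp_apply, ← IsScalarTower.algebraMap_apply, hc]
    · rintro x (rfl | rfl | rfl)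
      · exact hA
      · rw [RingHom.comp_apply, RingHom.comp_apply, ← M.hB, map_pow, map_pow, hB]
      · exact hu
  exact hom_ext_adjoin M.genK (fun y => RingHom.congr_fun h1 y) (by rintro _ rfl; exact hB)

/-- the Galois action extends to `K` and commutes with `r` -/
theorem exists_ext31 {e : SI C M.Y C M.Y} (he : M.Fx e) :
    ∃ e' : SI C M.K C M.K, e'.s = e.s ∧
      (∀ y, e'.f (algebraMap M.Y M.K y) = algebraMap M.Y M.K (e.f y)) ∧ e'.f M.B = M.B ∧
      ∀ x, e'.f (M.r x) = M.r (e'.f x) := by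
  obtain ⟨hA, hB2, hu, h1, h2, ht⟩ := he
  obtain ⟨e', hs, hY, hB⟩ := exists_SI_ext M.hB M.genK M.nB M.hB M.genK M.nB e hB2
  have hA' : e'.f (algebraMap M.Y M.K M.A) = algebraMap M.Y M.K M.A := by rw [hY, hA]
  have hu' : e'.f (algebraMap M.Y M.K M.u) = algebraMap M.Y M.K M.u := by rw [hY, hu]
  refine ⟨e', hs, hY, hB, fun x => ?_⟩
  have h : (e'.f : M.K →+* M.K).comp (M.r : M.K →+* M.K) =
      (M.r : M.K →+* M.K).comp (e'.f : M.K →+* M.K) := by
    refine M.homK_ext (fun c => ?_) ?_ ?_ ?_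
    · show e'.f (M.r _) = M.r (e'.f _)
      rw [M.r.commutes, e'.comm, M.r.commutes]
    · show e'.f (M.r _) = M.r (e'.f _)
      rw [hA', M.rA, map_neg, hB]
    · show e'.f (M.r _) = M.r (e'.f _)
      rw [hB, M.rB, hA']
    · show e'.f (M.r _) = M.r (e'.f _)
      rw [hu', M.ru]
      refine xu_fix (e'.f : M.K →+* M.K) ?_ ?_ ?_ hA' hB hu'
      · exact (e'.comm _).trans (by rw [hs, h1]; rfl)
      · exact (e'.comm _).trans (by rw [hs, h2]; rfl)
      · exact (e'.comm _).trans (by rw [hs, ht]; rfl)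
  exact RingHom.congr_fun h x

theorem pic_j {e : SI C M.Y C M.Y} (he : M.Fx e) (x : Pic C M.Y) :
    e.pic (M.j x) = M.j (e.pic x) := by
  obtain ⟨e', -, hY, -, hr⟩ := M.exists_ext31 he
  show e.pic (Wp.pushP M.Y (M.rS.pic (Wp.conP M.K x))) =
    Wp.pushP M.Y (M.rS.pic (Wp.conP M.K (e.pic x)))
  rw [← Rk.pushP_SI hY, Rk.conP_SI hY, ← SI.pic_trans, ← SI.pic_trans]
  congr 1
  exact Rk.pic_ext (fun f => hr f) _

end Mdl

theorem galStmt : GalStmt := by
  intro C _ _ _ P M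
  refine ⟨fun s h1 h2 ht => ?_, fun e e' he he' hs => ?_, fun e he x => M.pic_j he x⟩
  · obtain ⟨e, hs, hA, hB, hu⟩ := exists_fx M.isY31 s h1 h2 ht
    exact ⟨e, ⟨hA, hB, hu, by rw [hs, h1], by rw [hs, h2], by rw [hs, ht]⟩, hs⟩
  · have h : (e.f : M.Y →+* M.Y) = (e'.f : M.Y →+* M.Y) := by
      refine hom_ext_adjoin M.gen (fun c => (e.comm c).trans (hs ▸ (e'.comm c).symm)) ?_
      rintro x (rfl | rfl | rfl)
      · exact he.1.trans he'.1.symm
      · exact he.2.1.trans he'.2.1.symm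
      · exact he.2.2.1.trans he'.2.2.1.symm
    exact SI_eq hs fun x => RingHom.congr_fun h x

theorem moStmt : MoStmt := by
  intro C _ _ _ P M
  exact ⟨M.hyp31, P.natDegree_F two_ne_zero, fun i hi => exists_y M.hyp31 hi⟩

end Crest.Agent.T15.Ht
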