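import Crest.Agent.T15.Lv_10

/-!
# Row 15, block T (helper10): the Hecke elements are central correspondences and commute
-/

set_option autoImplicit false
set_option linter.unusedSectionVars false

noncomputable section

namespace Crest.Agent.T15.Lv

open Finset CongruenceSubgroup Matrix.SpecialLinearGroup
open scoped MatrixGroups
open Crest.Agent.T15.Hk Crest.Agent.T15.Mf

variable {L : ℕ} {H H' : Subgroup (ZMod L)ˣ} {O : Type*} [CommRing O]

/-- integral matrices of determinant `n`, upper triangular modulo `L` with upper left entry `u` -/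
def Dl (L : ℕ) (n : ℤ) (u : ZMod L) : Set GQ :=
  {x | ∃ a b c d : ℤ, x = gm a b c d ∧ a * d - b * c = n ∧ (c : ZMod L) = 0 ∧ (a : ZMod L) = u}

lemma Dl_mul {n n' : ℤ} (hn : 0 < n) (hn' : 0 < n') {u u' : ZMod L} {x y : GQ} (hx : x ∈ Dl L n u)
    (hy : y ∈ Dl L n' u') : x * y ∈ Dl L (n * n') (u * u') := by
  obtain ⟨a, b, c, d, rfl, rfl, hc, ha⟩ := hx
  obtain ⟨a', b', c', d', rfl, rfl, hc', ha'⟩ := hy
  refine ⟨_, _, _, _, gm_mul hn hn', by ring, ?_, ?_⟩ <;> push_cast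
  · rw [hc, hc']; ring
  · rw [hc', ha, ha']; ring

lemma sq_mem_Dl {γ : SL(2, ℤ)} (h : γ ∈ GH L ⊤) : Mf.sq γ ∈ Dl L 1 (γ 0 0 : ℤ) :=
  ⟨_, _, _, _, sq_eq_gm γ, det_eq γ, h.1, rfl⟩

lemma Dl_conj {n : ℤ} (hn : 0 < n) {u : ZMod L} {x γ : GQ} (hγ : γ ∈ Gq L ⊤) (hx : x ∈ Dl L n u) :
    γ⁻¹ * x * γ ∈ Dl L n u := by
  obtain ⟨γ, hγ, rfl⟩ := hγ
  have h := Dl_mul (by simpa using hn) one_pos
    (Dl_mul one_pos hn (sq_mem_Dl (inv_mem hγ)) hx) (sq_mem_Dl hγ)
  rwa [map_inv, one_mul, mul_one, (inv_apply γ).1, show ((γ 1 1 : ℤ) : ZMod L) * u * (γ 0 0 : ℤ) = u by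
    linear_combination u * a_mul_d hγ.1] at h

lemma gm_mem_bot {a b c d : ℤ} (h : a * d - b * c = 1) (hc : (c : ZMod L) = 0)
    (ha : (a : ZMod L) = 1) : gm a b c d ∈ Gq L H :=
  Gq_mono bot_le ⟨⟨!![a, b; c, d], by rw [Matrix.det_fin_two_of]; exact h⟩,
    mem_GH_bot'.2 ⟨hc, ha⟩, sq_eq_gm _⟩

lemma gm_mem_top {a b c d : ℤ} (h : a * d - b * c = 1) (hc : (c : ZMod L) = 0) :
    gm a b c d ∈ Gq L ⊤ ∧ (dU L (gm a b c d) : ZMod L) = d := by
  set γ : SL(2, ℤ) := ⟨!![a, b; c, d], by rw [Matrix.det_fin_two_of]; exact h⟩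
  have e : Mf.sq γ = gm a b c d := sq_eq_gm γ
  have hγ : γ ∈ GH L ⊤ := mem_GH_top.2 hc
  rw [← e]
  exact ⟨sq_mem.2 hγ, dU_sq hγ⟩


variable {p : ℕ}

lemma cop (hp : p.Prime) (h : ¬ p ∣ L) : IsCoprime (p : ℤ) L :=
  Nat.isCoprime_iff_coprime.2 (hp.coprime_iff_not_dvd.2 h)

lemma up_mem_Dl (p i : ℕ) : up p i ∈ Dl L p 1 := ⟨_, _, _, _, rfl, by ring, by simp, by simp⟩

lemma sq_mul_dg (hp : 0 < p) (γ : SL(2, ℤ)) :
    Mf.sq γ * dg p = gm (γ 0 0 * p) (γ 0 1) (γ 1 0 * p) (γ 1 1) := by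
  rw [sq_eq_gm, dg, gm_mul (by rw [det_eq]; exact one_pos) (by simpa using hp)]
  simp

lemma sq_mul_up (hp : 0 < p) (γ : SL(2, ℤ)) (j : ℕ) :
    Mf.sq γ * up p j = gm (γ 0 0) (γ 0 0 * j + γ 0 1 * p) (γ 1 0) (γ 1 0 * j + γ 1 1 * p) := by
  rw [sq_eq_gm, up, gm_mul (by rw [det_eq]; exact one_pos) (by simpa using hp)]
  simp

lemma sgdg_mem_Dl (hp : p.Prime) (h : ¬ p ∣ L) : sg L p * dg p ∈ Dl L p 1 := by
  have h1 := det_eq (sgZ L p)
  have h2 := a_mul_d (sgZ_mem L p).1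
  refine ⟨_, _, _, _, sq_mul_dg hp.pos _, by linear_combination (p : ℤ) * h1, ?_, ?_⟩
  · push_cast; rw [(sgZ_mem L p).1, zero_mul]
  · rw [sgZ_d (cop hp h)] at h2; push_cast at h2 ⊢; exact h2

lemma Dl_cases (hp : p.Prime) {x : GQ} (hx : x ∈ Dl L p 1) :
    (∃ i < p, x * (up p i)⁻¹ ∈ Gq L H) ∨ (¬ p ∣ L ∧ x * (sg L p * dg p)⁻¹ ∈ Gq L H) := by
  have := Fact.mk hp
  obtain ⟨a, b, c, d, rfl, h, hc, ha⟩ := hx
  have hp0 : (p : ℤ) ≠ 0 := by exact_mod_cast hp.ne_zero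
  by_cases h1 : (a : ZMod p) = 0 ∧ (c : ZMod p) = 0
  · obtain ⟨a, rfl⟩ := (ZMod.intCast_zmod_eq_zero_iff_dvd a p).1 h1.1
    obtain ⟨c, rfl⟩ := (ZMod.intCast_zmod_eq_zero_iff_dvd c p).1 h1.2
    have hL : ¬ p ∣ L := fun hL => by
      have := congrArg (ZMod.castHom hL (ZMod p)) ha
      rw [map_intCast, map_one, h1.1] at this
      exact zero_ne_one this
    have hd : a * d - b * c = 1 := mul_left_cancel₀ hp0 (by linear_combination h)
    have hc' : (c : ZMod L) = 0 := (ZMod.intCast_zmod_eq_zero_iff_dvd c L).2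
      ((cop hp hL).symm.dvd_of_dvd_mul_left ((ZMod.intCast_zmod_eq_zero_iff_dvd _ L).1 hc))
    refine Or.inr ⟨hL, ?_⟩
    have e : gm (p * a) b (p * c) d = gm a b c d * dg p := by
      rw [dg, gm_mul (by rw [hd]; exact one_pos) (by simpa using hp.pos)]; simp [mul_comm]
    rw [e, mul_inv_rev, mul_assoc, mul_inv_cancel_left]
    refine mul_inv_mem (gm_mem_top hd hc').1 (sg_mem L p) (Units.ext ?_)
    rw [(gm_mem_top hd hc').2, dU_sg (cop hp hL)]
    have := congrArg (Int.cast : ℤ → ZMod L) h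
    rw [Int.cast_sub, Int.cast_mul (p * a), Int.cast_mul b, ha, hc] at this
    simpa using this
  · have h2 : (a : ZMod p) * d - b * c = 0 := by
      have := congrArg (Int.cast : ℤ → ZMod p) h
      simpa using this
    obtain ⟨t, ht1, ht2⟩ : ∃ t : ZMod p, (b : ZMod p) - a * t = 0 ∧ (d : ZMod p) - c * t = 0 := by
      by_cases h3 : (a : ZMod p) = 0
      · have h4 : (c : ZMod p) ≠ 0 := fun h4 => h1 ⟨h3, h4⟩
        refine ⟨d / c, ?_, by field_simp; ring⟩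
        rw [h3, zero_mul, zero_sub, neg_eq_zero, mul_eq_zero] at h2
        rw [h3, h2.resolve_right h4]; simp
      · exact ⟨b / a, by field_simp; ring, by field_simp; linear_combination h2⟩
    obtain ⟨b', hb⟩ := (ZMod.intCast_zmod_eq_zero_iff_dvd (b - a * t.val) p).1 (by simpa using ht1)
    obtain ⟨d', hd⟩ := (ZMod.intCast_zmod_eq_zero_iff_dvd (d - c * t.val) p).1 (by simpa using ht2)
    have hd1 : a * d' - b' * c = 1 :=
      mul_left_cancel₀ hp0 (by linear_combination h - a * hd + c * hb)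
    refine Or.inl ⟨t.val, t.val_lt, ?_⟩
    have e : gm a b c d = gm a b' c d' * up p t.val := by
      rw [up, gm_mul (by rw [hd1]; exact one_pos) (by simpa using hp.pos)]
      congr 1 <;> linarith
    rw [e, mul_inv_cancel_right]
    exact gm_mem_bot hd1 hc ha

lemma up_inj {i j : ℕ} (hi : i < p) (hj : j < p) {γ : SL(2, ℤ)}
    (h : Mf.sq γ = up p i * (up p j)⁻¹) : i = j := by
  have hp : 0 < p := by omega
  rw [eq_mul_inv_iff_mul_eq, sq_mul_up hp, up] at h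
  obtain ⟨h1, h2, -, -⟩ := gm_inj (by nlinarith [det_eq γ]) (by simpa using hp) h
  rw [h1, one_mul] at h2
  have : γ 0 1 = 0 := by
    rcases lt_trichotomy (γ 0 1) 0 with h3 | h3 | h3
    · nlinarith
    · exact h3
    · nlinarith
  rw [this] at h2
  omega

lemma up_ne (hp : 1 < p) {i : ℕ} {γ σ : SL(2, ℤ)} (h : Mf.sq γ = up p i * (Mf.sq σ * dg p)⁻¹) :
    False := by
  rw [eq_mul_inv_iff_mul_eq, ← mul_assoc, ← map_mul, sq_mul_dg (by omega), up] at h
  have h1 := (gm_inj (by nlinarith [det_eq (γ * σ)]) (by simp; omega) h).1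
  have := Int.eq_one_of_mul_eq_one_left (by positivity) h1
  omega

lemma cen_of_reps {ι : Type*} [Fintype ι] {α : ι → GQ} {n : ℤ} (hn : 0 < n)
    (hm : ∀ i, α i ∈ Dl L n 1) (hs : ∀ x ∈ Dl L n 1, ∃ i, x * (α i)⁻¹ ∈ Gq L ⊥)
    (hi : ∀ i j, α i * (α j)⁻¹ ∈ Gq L ⊥ → i = j) :
    ∑ i, e O (α i) ∈ Cen O (Gq L ⊤) (Gq L ⊥) := sum_mem_cen (Gq_mono le_top) fun γ hγ => by
  choose σ hσ using fun i => hs _ (Dl_conj hn hγ (hm i))
  have hσ' : ∀ i, α i * γ * (α (σ i))⁻¹ * γ⁻¹ ∈ Gq L ⊥ := fun i => by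
    simpa [mul_assoc] using conj_mem hγ (hσ i)
  have hinj : Function.Injective σ := fun i j hij => hi i j (by
    have := mul_mem (hσ' i) (inv_mem (hσ' j))
    rw [hij] at this
    simpa [mul_assoc] using this)
  exact ⟨Equiv.ofBijective σ (Finite.injective_iff_bijective.1 hinj), hσ'⟩

/-- the representatives -/
def rep (L p : ℕ) : Option (Fin p) → GQ
  | none => sg L p * dg p
  | some i => up p i

lemma U_eq (p : ℕ) : U O p = ∑ i : Fin p, e O (up p i) :=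
  (Fin.sum_univ_eq_sum_range (fun i => e O (up p i)) p).symm

lemma Tp_eq (h : ¬ p ∣ L) : Tp O L p = ∑ i, e O (rep L p i) := by
  rw [Tp, if_neg h, U_eq, Fintype.sum_option, add_comm]; rfl

lemma rep_mem (hp : p.Prime) (h : ¬ p ∣ L) : ∀ i, rep L p i ∈ Dl L p 1
  | none => sgdg_mem_Dl hp h
  | some i => up_mem_Dl p i

lemma rep_surj (hp : p.Prime) {x : GQ} (hx : x ∈ Dl L p 1) : ∃ i, x * (rep L p i)⁻¹ ∈ Gq L H := by
  rcases Dl_cases (H := H) hp hx with ⟨i, hi, h⟩ | h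
  · exact ⟨some ⟨i, hi⟩, h⟩
  · exact ⟨none, h.2⟩

lemma rep_inj (hp : 1 < p) : ∀ i j, rep L p i * (rep L p j)⁻¹ ∈ Gq L H → i = j
  | none, none, _ => rfl
  | some _, none, ⟨_, _, h⟩ => (up_ne hp h).elim
  | none, some _, h => by
    obtain ⟨_, _, h⟩ := inv_mem h
    rw [mul_inv_rev, inv_inv] at h
    exact (up_ne hp h).elim
  | some i, some j, ⟨_, _, h⟩ => congrArg some (Fin.ext (up_inj i.2 j.2 h))

/-- **`T_p` (and `U_p`) commutes with the diamond operators and is a correspondence** -/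
theorem Tp_cen (hp : p.Prime) : Tp O L p ∈ Cen O (Gq L ⊤) (Gq L ⊥) := by
  have hp' : (0 : ℤ) < p := by exact_mod_cast hp.pos
  by_cases h : p ∣ L
  · rw [Tp_of_dvd h, U_eq]
    refine cen_of_reps hp' (fun i => up_mem_Dl p i) (fun x hx => ?_)
      fun i j hij => Option.some_injective _ (rep_inj hp.one_lt (some i) (some j) hij)
    rcases Dl_cases (H := ⊥) hp hx with ⟨i, hi, h⟩ | h'
    · exact ⟨⟨i, hi⟩, h⟩
    · exact (h'.1 h).elim
  · rw [Tp_eq h]
    exact cen_of_reps hp' (rep_mem hp h) (fun x hx => rep_surj hp hx) (rep_inj hp.one_lt)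



/-! ### commutation -/

lemma U_mul (hp : 0 < p) {l : ℕ} (hl : 0 < l) : U O p * U O l = U O (p * l) := by
  rw [U_eq, U_eq, U_eq, sum_mul_sum, ← finProdFinEquiv.sum_comp, Fintype.sum_prod_type]
  refine sum_congr rfl fun i _ => sum_congr rfl fun j _ => ?_
  rw [← e_mul, up, up, up, gm_mul (by simpa using hp) (by simpa using hl)]
  simp [mul_comm]

lemma dg_mul (hp : 0 < p) {l : ℕ} (hl : 0 < l) : dg p * dg l = dg (p * l) := by
  rw [dg, dg, dg, gm_mul (by simpa using hp) (by simpa using hl)]; simp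

lemma dg_U (hp : 0 < p) {l : ℕ} (hl : 0 < l) (h : p.Coprime l) :
    e O (dg p) * U O l - U O l * e O (dg p) ∈ Null O (Gq L H) := by
  have hi : Function.Injective fun j : Fin l => (⟨p * j % l, Nat.mod_lt _ hl⟩ : Fin l) :=
    fun i j hij => Fin.ext (Nat.ModEq.eq_of_lt_of_lt
      (Nat.ModEq.cancel_left_of_coprime h.symm (congrArg Fin.val hij)) i.2 j.2)
  simp only [U_eq, sum_mul, mul_sum, ← e_mul]
  refine sum_sub_mem (Equiv.ofBijective _ (Finite.injective_iff_bijective.1 hi)) fun j => ?_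
  have e : dg p * up l j = gm 1 (p * j / l : ℕ) 0 1 * (up l (p * j % l) * dg p) := by
    have h1 : ((p * j % l : ℕ) : ℤ) + ((p * j / l : ℕ) : ℤ) * l = p * j := by
      exact_mod_cast Nat.mod_add_div' _ _
    rw [dg, up, up, gm_mul (by simpa using hp) (by simpa using hl),
      gm_mul (by simpa using hl) (by simpa using hp), gm_mul (by simp) (by simp [hp, hl])]
    congr 1 <;> linarith
  rw [e]
  change _ * (up l (p * j % l) * dg p)⁻¹ ∈ _
  rw [mul_inv_cancel_right]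
  exact gm_T_mem _

theorem Tp_comm (hp : p.Prime) {l : ℕ} (hl : l.Prime) :
    Tp O L p * Tp O L l - Tp O L l * Tp O L p ∈ Null O (Gq L H) := by
  refine null_mono (Gq_mono bot_le) ?_
  rcases eq_or_ne p l with rfl | hne
  · simp
  have hc := (Nat.coprime_primes hp hl).2 hne
  have hV : ∀ p : ℕ, ∃ V ∈ Cen O (Gq L ⊤) (Gq L ⊥), Tp O L p = U O p + V * e O (dg p) ∧
      ∀ t ∈ Cen O (Gq L ⊤) (Gq L ⊥), t * V - V * t ∈ Null O (Gq L ⊥) := fun p => by
    by_cases h : p ∣ L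
    · exact ⟨0, zero_mem _, by simp [Tp_of_dvd h], by simp⟩
    · exact ⟨_, Dia_cen p, Tp_of_not_dvd h, fun t ht => cen_comm ht (sg_mem L p)⟩
  obtain ⟨V, hV1, hV2, hV3⟩ := hV p
  obtain ⟨V', hV1', hV2', hV3'⟩ := hV l
  have h1 := null_mul (hV3' _ (Tp_cen hp)) (e O (dg l))
  have h2 := null_mul (hV3 _ (Tp_cen hl)) (e O (dg p))
  have h3 := corr_mul_null hV1.1 (dg_U (O := O) hp.pos hl.pos hc)
  have h4 := corr_mul_null hV1'.1 (dg_U (O := O) hl.pos hp.pos hc.symm)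
  have h5 := null_mul (hV3 _ hV1') (e O (dg p) * e O (dg l))
  have e1 : U O p * U O l = U O l * U O p := by
    rw [U_mul hp.pos hl.pos, U_mul hl.pos hp.pos, mul_comm]
  have e2 : e O (dg l) * e O (dg p) = e O (dg p) * e O (dg l) := by
    rw [← e_mul, ← e_mul, dg_mul hp.pos hl.pos, dg_mul hl.pos hp.pos, mul_comm]
  have := add_mem (sub_mem (add_mem (sub_mem h1 h2) h3) h4) h5
  convert this using 1
  rw [hV2, hV2']
  simp only [mul_add, add_mul, mul_sub, sub_mul, mul_assoc, e1, e2]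
  abel



/-- change of the level: diamonds -/
theorem Dia_level {L' : ℕ} (h : L ∣ L') {n : ℤ} (hn : IsCoprime n L') :
    Dia O L' n - Dia O L n ∈ Null O (Gq L H) := by
  have h1 : sgZ L' n ∈ GH L ⊤ := GH_le h (fun _ _ => Subgroup.mem_top _) (sgZ_mem L' n)
  have hn' : IsCoprime n L := hn.of_isCoprime_of_dvd_right (Int.natCast_dvd_natCast.2 h)
  exact e_sub_mem (mul_inv_mem (sq_mem.2 h1) (sg_mem L n) (Units.ext (by
    rw [dU_sg hn', sg, dU_sq h1, sgZ_d hn])))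

/-- change of the level: `T_p` -/
theorem Tp_level {L' : ℕ} (h : L ∣ L') (hp : p.Prime) (hL : ¬ p ∣ L' ∨ p ∣ L) :
    Tp O L' p - Tp O L p ∈ Null O (Gq L H) := by
  rcases hL with hL | hL
  · rw [Tp_of_not_dvd hL, Tp_of_not_dvd fun h' => hL (h'.trans h), add_sub_add_left_eq_sub, ← sub_mul]
    exact null_mul (Dia_level h (cop hp hL)) _
  · rw [Tp_of_dvd hL, Tp_of_dvd (hL.trans h), sub_self]; exact zero_mem _

end Crest.Agent.T15.Lv

end
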