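import Mathlib

/-!
# Row 15, block T (helper62): Hecke correspondences on `Hom(Γ, A)`

`G` any group, `O` a commutative ring, `O[G] = MonoidAlgebra O G`, `e g` the basis elements.

* `lin F : O[G] →ₗ A` extends `F : G → A`;  `deg` is the augmentation;
* `Null Γ` = kernel of `O[G] → O[Γ\G]`;  `Corr Γ Γ'` = the `c` with `c γ' ≡ c` for `γ' ∈ Γ'`;
* `HH Γ A = Hom(Γ, A)`, `val φ γ`;  `T c : HH Γ A →ₗ HH Γ' A` for `c : Corr Γ Γ'`;
* `T_model`, `compat` (any right `G`-module), `T_family`, `T_mul`, `T_congr`, `T_comp`, `T_map`.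
-/

set_option autoImplicit false
set_option linter.unusedSectionVars false

noncomputable section

namespace Crest.Agent.T15.Hk

open Finset

variable {G : Type*} [Group G] {O : Type*} [CommRing O]
variable {A B : Type*} [AddCommGroup A] [Module O A] [AddCommGroup B] [Module O B]

/-- basis element of the group ring -/
def e (O : Type*) [CommRing O] (g : G) : MonoidAlgebra O G := MonoidAlgebra.single g 1

lemma e_mul (g h : G) : e O (g * h) = e O g * e O h := by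
  simp [e, MonoidAlgebra.single_mul_single]

lemma e_one : e O (1 : G) = 1 := rfl

lemma single_eq (g : G) (r : O) : MonoidAlgebra.single g r = r • e O g := by
  simp [e]

/-- linear extension -/
def lin (O : Type*) [CommRing O] [Module O A] (F : G → A) : MonoidAlgebra O G →ₗ[O] A :=
  Finsupp.linearCombination O F ∘ₗ (MonoidAlgebra.coeffLinearEquiv O).toLinearMap

@[simp] lemma lin_e (F : G → A) (g : G) : lin O F (e O g) = F g := by
  simp [lin, e]

lemma lin_ext {f f' : MonoidAlgebra O G →ₗ[O] A} (h : ∀ g, f (e O g) = f' (e O g)) : f = f' := by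
  refine LinearMap.ext fun z => ?_
  induction z using MonoidAlgebra.induction_linear with
  | zero => simp
  | add x y hx hy => simp [hx, hy]
  | single g r => rw [single_eq, map_smul, map_smul, h]

lemma eq_lin (f : MonoidAlgebra O G →ₗ[O] A) (z : MonoidAlgebra O G) :
    f z = lin O (fun g => f (e O g)) z :=
  LinearMap.congr_fun (lin_ext (f := f) (f' := lin O fun g => f (e O g)) fun g => by simp) z

lemma map_lin (f : A →ₗ[O] B) (F : G → A) (z : MonoidAlgebra O G) :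
    f (lin O F z) = lin O (fun g => f (F g)) z := by
  simpa using eq_lin (f ∘ₗ lin O F) z

lemma lin_mul (F : G → A) (c z : MonoidAlgebra O G) :
    lin O F (c * z) = lin O (fun g => lin O F (c * e O g)) z := by
  simpa using eq_lin (lin O F ∘ₗ LinearMap.mulLeft O c) z

lemma lin_mul' (F : G → A) (z c : MonoidAlgebra O G) :
    lin O F (z * c) = lin O (fun g => lin O F (e O g * c)) z := by
  simpa using eq_lin (lin O F ∘ₗ LinearMap.mulRight O c) z

lemma lin_mul_e (F : G → A) (z : MonoidAlgebra O G) (h : G) :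
    lin O F (z * e O h) = lin O (fun g => F (g * h)) z := by
  rw [lin_mul']; simp only [← e_mul, lin_e]

lemma lin_e_mul (F : G → A) (h : G) (z : MonoidAlgebra O G) :
    lin O F (e O h * z) = lin O (fun g => F (h * g)) z := by
  rw [lin_mul]; simp only [← e_mul, lin_e]

lemma lin_add (F F' : G → A) (z : MonoidAlgebra O G) :
    lin O (fun g => F g + F' g) z = lin O F z + lin O F' z := by
  simpa using (eq_lin (lin O F + lin O F') z).symm

lemma lin_sub (F F' : G → A) (z : MonoidAlgebra O G) :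
    lin O (fun g => F g - F' g) z = lin O F z - lin O F' z := by
  simpa using (eq_lin (lin O F - lin O F') z).symm

lemma lin_smul (r : O) (F : G → A) (z : MonoidAlgebra O G) :
    lin O (fun g => r • F g) z = r • lin O F z := by
  simpa using (eq_lin (r • lin O F) z).symm

/-- augmentation -/
def deg : MonoidAlgebra O G →ₐ[O] O := MonoidAlgebra.lift O O G 1

@[simp] lemma deg_e (g : G) : deg (e O g) = 1 := by simp [deg, e]

lemma lin_const (a : A) (z : MonoidAlgebra O G) : lin O (fun _ : G => a) z = deg z • a := by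
  simpa using (eq_lin ((LinearMap.toSpanSingleton O A a) ∘ₗ deg.toLinearMap) z).symm

/-- right cosets -/
abbrev RC (Γ : Subgroup G) := Quotient (QuotientGroup.rightRel Γ)

/-- the coset `Γ g` -/
def cs (Γ : Subgroup G) (g : G) : RC Γ := Quotient.mk _ g

lemma cs_eq {Γ : Subgroup G} {g h : G} : cs Γ g = cs Γ h ↔ h * g⁻¹ ∈ Γ :=
  Quotient.eq.trans QuotientGroup.rightRel_apply

lemma cs_mul {Γ : Subgroup G} {γ : G} (hγ : γ ∈ Γ) (g : G) : cs Γ (γ * g) = cs Γ g :=
  (cs_eq.2 (by simpa using hγ)).symm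

lemma mul_out_mem (Γ : Subgroup G) (g : G) : g * ((cs Γ g).out)⁻¹ ∈ Γ :=
  cs_eq.1 (Quotient.out_eq (cs Γ g))

/-- kernel of `O[G] → O[Γ\G]` -/
def Null (O : Type*) [CommRing O] (Γ : Subgroup G) : Submodule O (MonoidAlgebra O G) :=
  LinearMap.ker (lin O fun g => Finsupp.single (cs Γ g) (1 : O))

variable {Γ Γ' Γ'' : Subgroup G}

lemma null_lin {z : MonoidAlgebra O G} (hz : z ∈ Null O Γ) {F : G → A}
    (hF : ∀ γ ∈ Γ, ∀ g, F (γ * g) = F g) : lin O F z = 0 := by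
  have h1 := map_lin (Finsupp.linearCombination O fun x : RC Γ => F x.out)
    (fun g => Finsupp.single (cs Γ g) (1 : O)) z
  rw [LinearMap.mem_ker.1 hz, map_zero] at h1
  rw [h1]
  congr 2
  funext g
  rw [Finsupp.linearCombination_single, one_smul, ← hF _ (mul_out_mem Γ g) (cs Γ g).out,
    inv_mul_cancel_right]

lemma mem_null {z : MonoidAlgebra O G}
    (h : ∀ F : G → (RC Γ →₀ O), (∀ γ ∈ Γ, ∀ g, F (γ * g) = F g) → lin O F z = 0) :
    z ∈ Null O Γ := h _ fun γ hγ g => by rw [cs_mul hγ]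

lemma e_sub_mem {g h : G} (hγ : g * h⁻¹ ∈ Γ) : e O g - e O h ∈ Null O Γ :=
  mem_null fun F hF => by
    rw [map_sub, lin_e, lin_e, ← hF _ hγ h]; simp

lemma null_mul {z : MonoidAlgebra O G} (hz : z ∈ Null O Γ) (w : MonoidAlgebra O G) :
    z * w ∈ Null O Γ :=
  mem_null fun F hF => by
    rw [lin_mul']
    refine null_lin hz fun γ hγ g => ?_
    rw [lin_e_mul, lin_e_mul]
    simp only [mul_assoc, hF γ hγ]

lemma null_mono (h : Γ ≤ Γ') {z : MonoidAlgebra O G} (hz : z ∈ Null O Γ) : z ∈ Null O Γ' :=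
  mem_null fun _ hF => null_lin hz fun γ hγ => hF γ (h hγ)


lemma e_mul_sub_mem {γ : G} (hγ : γ ∈ Γ) (z : MonoidAlgebra O G) : e O γ * z - z ∈ Null O Γ := by
  have := null_mul (e_sub_mem (O := O) (Γ := Γ) (g := γ) (h := 1) (by simpa using hγ)) z
  rwa [sub_mul, e_one, one_mul] at this

/-- two families with the same cosets -/
lemma sum_sub_mem {ι κ : Type*} [Fintype ι] [Fintype κ] {α : ι → G} {β : κ → G} (σ : ι ≃ κ)
    (h : ∀ i, α i * (β (σ i))⁻¹ ∈ Γ) : ∑ i, e O (α i) - ∑ k, e O (β k) ∈ Null O Γ := by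
  rw [← σ.sum_comp, ← sum_sub_distrib]
  exact Submodule.sum_mem _ fun i _ => e_sub_mem (h i)

/-- correspondences -/
def Corr (O : Type*) [CommRing O] (Γ Γ' : Subgroup G) : Submodule O (MonoidAlgebra O G) where
  carrier := {c | ∀ γ ∈ Γ', c * e O γ - c ∈ Null O Γ}
  add_mem' {a b} ha hb γ hγ := by
    have := (Null O Γ).add_mem (ha γ hγ) (hb γ hγ)
    rwa [show a * e O γ - a + (b * e O γ - b) = (a + b) * e O γ - (a + b) by
      rw [add_mul]; abel] at this
  zero_mem' γ _ := by simp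
  smul_mem' r c hc γ hγ := by
    have := (Null O Γ).smul_mem r (hc γ hγ)
    rwa [smul_sub, ← smul_mul_assoc] at this


lemma corr_mul_null {c z : MonoidAlgebra O G} (hc : c ∈ Corr O Γ Γ') (hz : z ∈ Null O Γ') :
    c * z ∈ Null O Γ :=
  mem_null fun F hF => by
    rw [lin_mul]
    refine null_lin hz fun γ hγ g => ?_
    rw [← sub_eq_zero, ← map_sub, e_mul, ← mul_assoc, ← sub_mul]
    exact null_lin (null_mul (hc γ hγ) _) hF

lemma corr_mul {c c' : MonoidAlgebra O G} (hc : c ∈ Corr O Γ Γ') (hc' : c' ∈ Corr O Γ' Γ'') :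
    c * c' ∈ Corr O Γ Γ'' := fun γ hγ => by
  rw [mul_assoc, ← mul_sub]; exact corr_mul_null hc (hc' γ hγ)

lemma null_corr {z : MonoidAlgebra O G} (hz : z ∈ Null O Γ) : z ∈ Corr O Γ Γ' :=
  fun _ _ => (Null O Γ).sub_mem (null_mul hz _) hz

lemma corr_congr {c c' : MonoidAlgebra O G} (hc : c ∈ Corr O Γ Γ') (h : c' - c ∈ Null O Γ) :
    c' ∈ Corr O Γ Γ' := by
  have := (Corr O Γ Γ').add_mem (null_corr h) hc
  rwa [sub_add_cancel] at this


/-- conjugation (and restriction) -/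
lemma e_mem_corr {g : G} (h : ∀ γ ∈ Γ', g * γ * g⁻¹ ∈ Γ) : e O g ∈ Corr O Γ Γ' := fun γ hγ => by
  rw [← e_mul]; exact e_sub_mem (h γ hγ)

lemma one_mem_corr (h : Γ' ≤ Γ) : (1 : MonoidAlgebra O G) ∈ Corr O Γ Γ' :=
  e_mem_corr (g := 1) fun γ hγ => by simpa using h hγ

/-- a family whose cosets are permuted -/
lemma sum_mem_corr {ι : Type*} [Fintype ι] {α : ι → G}
    (h : ∀ γ ∈ Γ', ∃ σ : ι ≃ ι, ∀ i, α i * γ * (α (σ i))⁻¹ ∈ Γ) :
    ∑ i, e O (α i) ∈ Corr O Γ Γ' := fun γ hγ => by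
  obtain ⟨σ, hσ⟩ := h γ hγ
  simp only [sum_mul, ← e_mul]
  exact sum_sub_mem σ hσ


/-! ### homomorphisms -/

/-- `Hom(Γ, A)` -/
abbrev HH (Γ : Subgroup G) (A : Type*) [AddCommGroup A] := Additive Γ →+ A

open Classical in
/-- value of a homomorphism (zero outside `Γ`) -/
def val (φ : HH Γ A) (γ : G) : A := if h : γ ∈ Γ then φ (Additive.ofMul ⟨γ, h⟩) else 0

lemma val_eq (φ : HH Γ A) {γ : G} (h : γ ∈ Γ) : val φ γ = φ (Additive.ofMul ⟨γ, h⟩) := dif_pos h

lemma val_mul (φ : HH Γ A) {γ γ' : G} (h : γ ∈ Γ) (h' : γ' ∈ Γ) :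
    val φ (γ * γ') = val φ γ + val φ γ' := by
  rw [val_eq φ h, val_eq φ h', val_eq φ (Γ.mul_mem h h'), ← map_add]; rfl

@[simp] lemma val_one (φ : HH Γ A) : val φ 1 = 0 := by
  rw [val_eq φ Γ.one_mem]; exact map_zero φ

lemma val_inv (φ : HH Γ A) {γ : G} (h : γ ∈ Γ) : val φ γ⁻¹ = -val φ γ := by
  rw [eq_neg_iff_add_eq_zero, ← val_mul φ (Γ.inv_mem h) h]; simp

lemma val_add (φ ψ : HH Γ A) (γ : G) : val (φ + ψ) γ = val φ γ + val ψ γ := by
  unfold val; split_ifs <;> simp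

lemma val_sub (φ ψ : HH Γ A) (γ : G) : val (φ - ψ) γ = val φ γ - val ψ γ := by
  unfold val; split_ifs <;> simp

@[simp] lemma val_zero (γ : G) : val (0 : HH Γ A) γ = 0 := by
  unfold val; split_ifs <;> simp

lemma val_smul {S : Type*} [Monoid S] [DistribMulAction S A] (r : S) (φ : HH Γ A) (γ : G) :
    val (r • φ) γ = r • val φ γ := by
  unfold val; split_ifs <;> simp


lemma val_comp (f : A →+ B) (φ : HH Γ A) (γ : G) : val (f.comp φ) γ = f (val φ γ) := by
  unfold val; split_ifs <;> simp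

lemma HH.ext {φ ψ : HH Γ A} (h : ∀ γ ∈ Γ, val φ γ = val ψ γ) : φ = ψ :=
  AddMonoidHom.ext fun γ => by
    have := h _ (Additive.toMul γ).2
    rwa [val_eq φ (Additive.toMul γ).2, val_eq ψ (Additive.toMul γ).2] at this

/-- a homomorphism from a function -/
def mk (Γ : Subgroup G) (f : G → A) (h : ∀ γ ∈ Γ, ∀ γ' ∈ Γ, f (γ * γ') = f γ + f γ') : HH Γ A :=
  AddMonoidHom.mk' (fun γ => f (Additive.toMul γ).1) fun γ γ' => h _ γ.toMul.2 _ γ'.toMul.2

lemma val_mk (f : G → A) (h : ∀ γ ∈ Γ, ∀ γ' ∈ Γ, f (γ * γ') = f γ + f γ') {γ : G} (hγ : γ ∈ Γ) :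
    val (mk Γ f h) γ = f γ := val_eq _ hγ

/-- `Φ` is a model of `φ` -/
def IsMod (φ : HH Γ A) (Φ : G → A) : Prop := ∀ γ ∈ Γ, ∀ g, Φ (γ * g) = val φ γ + Φ g

/-- the standard model -/
def mdl (φ : HH Γ A) (g : G) : A := val φ (g * ((cs Γ g).out)⁻¹)

lemma isMod_mdl (φ : HH Γ A) : IsMod φ (mdl φ) := fun γ hγ g => by
  rw [mdl, mdl, cs_mul hγ, mul_assoc, val_mul φ hγ (mul_out_mem Γ g)]

/-- evaluation (canonical on `Null Γ`) -/
def ev (O : Type*) [CommRing O] [Module O A] (φ : HH Γ A) : MonoidAlgebra O G →ₗ[O] A :=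
  lin O (mdl φ)

lemma IsMod.ev_eq {φ : HH Γ A} {Φ : G → A} (h : IsMod φ Φ) {z : MonoidAlgebra O G}
    (hz : z ∈ Null O Γ) : ev O φ z = lin O Φ z := by
  rw [← sub_eq_zero, ev, ← lin_sub]
  exact null_lin hz fun γ hγ g => by rw [isMod_mdl φ γ hγ, h γ hγ]; abel

lemma ev_e_sub (φ : HH Γ A) {g h : G} (hγ : g * h⁻¹ ∈ Γ) :
    ev O φ (e O g - e O h) = val φ (g * h⁻¹) := by
  have := isMod_mdl φ _ hγ h
  rw [inv_mul_cancel_right] at this
  rw [ev, map_sub, lin_e, lin_e, this, add_sub_cancel_right]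

lemma ev_mul_e (φ : HH Γ A) {z : MonoidAlgebra O G} (hz : z ∈ Null O Γ) (h : G) :
    ev O φ (z * e O h) = ev O φ z := by
  have : IsMod φ fun g => mdl φ (g * h) := fun γ hγ g => by
    simp only [mul_assoc]; exact isMod_mdl φ γ hγ _
  rw [this.ev_eq hz, ev, lin_mul_e]

lemma ev_mul (φ : HH Γ A) {z : MonoidAlgebra O G} (hz : z ∈ Null O Γ) (w : MonoidAlgebra O G) :
    ev O φ (z * w) = deg w • ev O φ z := by
  rw [← lin_const, ev, lin_mul]
  congr 2
  funext g
  exact ev_mul_e φ hz g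

lemma ev_add (φ ψ : HH Γ A) (z : MonoidAlgebra O G) : ev O (φ + ψ) z = ev O φ z + ev O ψ z := by
  rw [ev, ev, ev, ← lin_add]; congr 2; funext g; exact val_add _ _ _

lemma ev_smul (r : O) (φ : HH Γ A) (z : MonoidAlgebra O G) : ev O (r • φ) z = r • ev O φ z := by
  rw [ev, ev, ← lin_smul]; congr 2; funext g; exact val_smul _ _ _

lemma ev_comp (f : A →ₗ[O] B) (φ : HH Γ A) (z : MonoidAlgebra O G) :
    ev O (f.toAddMonoidHom.comp φ) z = f (ev O φ z) := by
  rw [ev, ev, map_lin]; congr 2; funext g; exact val_comp _ _ _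

/-- **the operator of a correspondence** -/
def T (A : Type*) [AddCommGroup A] [Module O A] (c : Corr O Γ Γ') : HH Γ A →ₗ[O] HH Γ' A where
  toFun φ := mk Γ' (fun γ => ev O φ (c.1 * e O γ - c.1)) fun γ hγ γ' _ => by
    rw [← ev_mul_e φ (c.2 γ hγ) γ', ← map_add, e_mul, sub_mul, mul_assoc]; congr 1; abel
  map_add' φ ψ := AddMonoidHom.ext fun _ => ev_add _ _ _
  map_smul' r φ := AddMonoidHom.ext fun _ => ev_smul _ _ _

lemma val_T (c : Corr O Γ Γ') (φ : HH Γ A) {γ : G} (hγ : γ ∈ Γ') :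
    val (T A c φ) γ = ev O φ (c.1 * e O γ - c.1) := val_eq _ hγ

lemma T_model (c : Corr O Γ Γ') {φ : HH Γ A} {Φ : G → A} (h : IsMod φ Φ) :
    IsMod (T A c φ) fun g => lin O Φ (c.1 * e O g) := fun γ hγ g => by
  beta_reduce
  rw [val_T c φ hγ, ← ev_mul_e φ (c.2 γ hγ) g, h.ev_eq (null_mul (c.2 γ hγ) _), ← map_add, e_mul,
    sub_mul, mul_assoc, sub_add_cancel]

lemma ev_T (c : Corr O Γ Γ') (φ : HH Γ A) {z : MonoidAlgebra O G} (hz : z ∈ Null O Γ') :
    ev O (T A c φ) z = ev O φ (c.1 * z) := by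
  rw [(T_model c (isMod_mdl φ)).ev_eq hz, ev, lin_mul]

lemma T_mul (c : Corr O Γ Γ') (c' : Corr O Γ' Γ'') (φ : HH Γ A) :
    T A c' (T A c φ) = T A ⟨c.1 * c'.1, corr_mul c.2 c'.2⟩ φ := HH.ext fun γ hγ => by
  rw [val_T _ _ hγ, val_T _ _ hγ, ev_T _ _ (c'.2 γ hγ), mul_sub, mul_assoc]

lemma T_congr {c c' : Corr O Γ Γ'} (h : c.1 - c'.1 ∈ Null O Γ) : T A c = T A c' :=
  LinearMap.ext fun φ => HH.ext fun γ hγ => by
    rw [val_T _ _ hγ, val_T _ _ hγ, ← sub_eq_zero, ← map_sub,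
      show c.1 * e O γ - c.1 - (c'.1 * e O γ - c'.1) = (c.1 - c'.1) * e O γ - (c.1 - c'.1) by
        rw [sub_mul]; abel, map_sub, ev_mul_e φ h, sub_self]

lemma T_add (c c' : Corr O Γ Γ') : T A (c + c') = T A c + T A c' :=
  LinearMap.ext fun φ => HH.ext fun γ hγ => by
    rw [LinearMap.add_apply, val_add, val_T _ _ hγ, val_T _ _ hγ, val_T _ _ hγ, ← map_add,
      Submodule.coe_add, add_mul]
    congr 1; abel

lemma T_smul (r : O) (c : Corr O Γ Γ') : T A (r • c) = r • T A c :=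
  LinearMap.ext fun φ => HH.ext fun γ hγ => by
    rw [LinearMap.smul_apply, val_smul, val_T _ _ hγ, val_T _ _ hγ, ← map_smul, Submodule.coe_smul,
      smul_sub, smul_mul_assoc]

/-- `T` as a linear map in the correspondence -/
def TL (A : Type*) [AddCommGroup A] [Module O A] (Γ Γ' : Subgroup G) :
    Corr O Γ Γ' →ₗ[O] HH Γ A →ₗ[O] HH Γ' A where
  toFun := T A
  map_add' := T_add
  map_smul' := T_smul

lemma T_sub (c c' : Corr O Γ Γ') : T A (c - c') = T A c - T A c' := map_sub (TL A Γ Γ') c c'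

lemma T_sum {ι : Type*} (s : Finset ι) (c : ι → Corr O Γ Γ') :
    T A (∑ i ∈ s, c i) = ∑ i ∈ s, T A (c i) := map_sum (TL A Γ Γ') c s

lemma val_T_e {g : G} (h : e O g ∈ Corr O Γ Γ') (φ : HH Γ A) {γ : G} (hγ : γ ∈ Γ')
    (h' : g * γ * g⁻¹ ∈ Γ) : val (T A ⟨_, h⟩ φ) γ = val φ (g * γ * g⁻¹) := by
  rw [val_T _ _ hγ, ← e_mul, ev_e_sub φ h']

lemma val_T_one (h : Γ' ≤ Γ) (φ : HH Γ A) {γ : G} (hγ : γ ∈ Γ') :
    val (T A ⟨1, one_mem_corr (O := O) h⟩ φ) γ = val φ γ := by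
  have := val_T_e (g := 1) (one_mem_corr (O := O) h) φ hγ (by simpa using h hγ)
  rwa [one_mul, inv_one, mul_one] at this

lemma T_one : T A ⟨1, one_mem_corr (O := O) (le_refl Γ)⟩ = LinearMap.id :=
  LinearMap.ext fun φ => HH.ext fun _ hγ => val_T_one le_rfl φ hγ

/-- explicit formula -/
lemma T_family {ι : Type*} [Fintype ι] {α : ι → G} (h : ∑ i, e O (α i) ∈ Corr O Γ Γ')
    (φ : HH Γ A) {γ : G} (hγ : γ ∈ Γ') (σ : ι ≃ ι) (hσ : ∀ i, α i * γ * (α (σ i))⁻¹ ∈ Γ) :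
    val (T A ⟨_, h⟩ φ) γ = ∑ i, val φ (α i * γ * (α (σ i))⁻¹) := by
  rw [val_T _ _ hγ]
  simp only [sum_mul, ← e_mul]
  rw [← σ.sum_comp fun i => e O (α i), ← sum_sub_distrib, map_sum]
  exact sum_congr rfl fun i _ => ev_e_sub φ (hσ i)

/-- naturality in the coefficients -/
lemma T_comp (c : Corr O Γ Γ') (f : A →ₗ[O] B) (φ : HH Γ A) :
    T B c (f.toAddMonoidHom.comp φ) = f.toAddMonoidHom.comp (T A c φ) := HH.ext fun γ hγ => by
  rw [val_comp, val_T _ _ hγ, val_T _ _ hγ, ev_comp]; rfl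

/-- **compatibility lemma**: `B` a right `G`-module with constants `ι : A → B`, `b | γ - b = φ γ` -/
theorem compat (sl : G → B →ₗ[O] B) (hsl : ∀ g h b, sl (g * h) b = sl h (sl g b)) (ι : A →ₗ[O] B)
    (hι : ∀ g a, sl g (ι a) = ι a) {φ : HH Γ A} {b : B} (hb : ∀ γ ∈ Γ, sl γ b = ι (val φ γ) + b)
    (c : Corr O Γ Γ') {γ : G} (hγ : γ ∈ Γ') :
    sl γ (lin O (fun g => sl g b) c.1) = ι (val (T A c φ) γ) + lin O (fun g => sl g b) c.1 := by
  have h1 := null_lin (c.2 γ hγ) (F := fun g => sl g b - ι (mdl φ g)) fun δ hδ g => by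
    rw [hsl, hb δ hδ, map_add, hι, isMod_mdl φ δ hδ, map_add]; abel
  rw [lin_sub, sub_eq_zero, ← map_lin, map_sub, lin_mul_e, sub_eq_iff_eq_add] at h1
  rw [val_T _ _ hγ, ev, ← h1, map_lin]
  simp only [hsl]

lemma lin_sum_e {ι : Type*} (s : Finset ι) (F : G → A) (α : ι → G) :
    lin O F (∑ i ∈ s, e O (α i)) = ∑ i ∈ s, F (α i) := by simp [map_sum]

/-! ### change of the ring -/

section map
variable {O' : Type*} [CommRing O'] [Algebra O O']

/-- base change of the group ring -/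
def bc (O' : Type*) [CommRing O'] [Algebra O O'] : MonoidAlgebra O G →+* MonoidAlgebra O' G :=
  MonoidAlgebra.mapRingHom G (algebraMap O O')

@[simp] lemma bc_e (g : G) : bc O' (e O g) = e O' g := by simp [bc, e]

lemma lin_bc {A : Type*} [AddCommGroup A] [Module O A] [Module O' A] [IsScalarTower O O' A]
    (F : G → A) (z : MonoidAlgebra O G) : lin O' F (bc O' z) = lin O F z := by
  induction z using MonoidAlgebra.induction_linear with
  | zero => simp
  | add x y hx hy => simp [hx, hy]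
  | single g r =>
    rw [bc, MonoidAlgebra.mapRingHom_single, single_eq, single_eq, map_smul, map_smul, lin_e, lin_e,
      algebraMap_smul]


lemma null_bc {z : MonoidAlgebra O G} (hz : z ∈ Null O Γ) : bc O' z ∈ Null O' Γ :=
  mem_null fun F hF => by rw [lin_bc]; exact null_lin hz hF

lemma corr_bc {c : MonoidAlgebra O G} (hc : c ∈ Corr O Γ Γ') : bc O' c ∈ Corr O' Γ Γ' :=
  fun γ hγ => by simpa using null_bc (O' := O') (hc γ hγ)

lemma T_bc {A : Type*} [AddCommGroup A] [Module O A] [Module O' A] [IsScalarTower O O' A]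
    (c : Corr O Γ Γ') (φ : HH Γ A) : T A ⟨bc O' c.1, corr_bc c.2⟩ φ = T A c φ :=
  HH.ext fun γ hγ => by
    rw [val_T _ _ hγ, val_T _ _ hγ, ev, ev, ← lin_bc (O' := O') _ (c.1 * e O γ - c.1)]; simp

end map

end Crest.Agent.T15.Hk

end
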