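import Mathlib
import Crest.Agent.T15.Hk_62

/-!
# Row 15, block T (helper62): `Γ₁(4)` is free on `T` and `(1 0; 4 1)`

`closure_G4`, `basis_G4`, freeness and finite generation of the subgroups of finite index and of
their images; `HH Γ A ≃ (ι → A)` for a basis of a free group `Γ`.
-/

set_option autoImplicit false

noncomputable section

namespace Crest.Agent.T15.Hk

open CongruenceSubgroup Matrix ModularGroup
open scoped MatrixGroups Pointwise

/-- the second generator -/
def U4 : SL(2, ℤ) := ⟨!![1, 0; 4, 1], by simp [det_fin_two]⟩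

lemma coe_U4 : U4.1 = !![1, 0; 4, 1] := rfl

lemma coe_U4_inv : (U4⁻¹).1 = !![1, 0; -4, 1] := by
  simp [coe_U4, adjugate_fin_two]

/-- the two generators -/
def gen4 : Bool → SL(2, ℤ)
  | true => ModularGroup.T
  | false => U4

lemma T_mem_G4 : ModularGroup.T ∈ Gamma1 4 := by
  rw [Gamma1_mem]; simp [coe_T]

lemma U4_mem_G4 : U4 ∈ Gamma1 4 := by
  rw [Gamma1_mem]; simp [coe_U4]; decide

theorem closure_G4 : Subgroup.closure {ModularGroup.T, U4} = Gamma1 4 := by
  refine le_antisymm ((Subgroup.closure_le _).2 ?_) fun g hg => ?_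
  · rintro _ (rfl | rfl)
    exacts [T_mem_G4, U4_mem_G4]
  have hT : ModularGroup.T ∈ Subgroup.closure {ModularGroup.T, U4} := Subgroup.subset_closure (by simp)
  have hU : U4 ∈ Subgroup.closure {ModularGroup.T, U4} := Subgroup.subset_closure (by simp)
  induction hn : (g 1 0).natAbs + (g 1 1).natAbs using Nat.strong_induction_on generalizing g with
  | _ n ih =>
  have step : ∀ u ∈ Subgroup.closure {ModularGroup.T, U4}, u ∈ Gamma1 4 →
      ((g * u) 1 0).natAbs + ((g * u) 1 1).natAbs < n → g ∈ Subgroup.closure {ModularGroup.T, U4} :=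
    fun u hu hu' hlt => by
      simpa using mul_mem (ih _ hlt _ (mul_mem hg hu') rfl) (inv_mem hu)
  obtain ⟨-, h1, h0⟩ := (Gamma1_mem 4 g).1 hg
  have h1' : (4 : ℤ) ∣ g 1 1 - 1 := by
    have := (ZMod.intCast_zmod_eq_zero_iff_dvd (g 1 1 - 1) 4).1 (by push_cast; rw [h1, sub_self])
    exact_mod_cast this
  have h0' : (4 : ℤ) ∣ g 1 0 := by exact_mod_cast (ZMod.intCast_zmod_eq_zero_iff_dvd _ 4).1 h0
  by_cases hc : g 1 0 = 0
  · have hd := g.det_coe
    rw [det_fin_two, hc, mul_zero, sub_zero] at hd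
    have h11 : g 1 1 = 1 := by rcases Int.eq_one_or_neg_one_of_mul_eq_one' hd with h | h <;> omega
    have h00 : g 0 0 = 1 := by simpa [h11] using hd
    have : g = ModularGroup.T ^ g 0 1 := by
      ext i j
      rw [coe_T_zpow]
      fin_cases i <;> fin_cases j <;> simp [hc, h11, h00]
    rw [this]; exact zpow_mem hT _
  have s1 := step _ hT T_mem_G4
  have s2 := step _ (inv_mem hT) (inv_mem T_mem_G4)
  have s3 := step _ hU U4_mem_G4
  have s4 := step _ (inv_mem hU) (inv_mem U4_mem_G4)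
  simp only [Matrix.SpecialLinearGroup.coe_mul, coe_T, coe_T_inv, coe_U4, coe_U4_inv, mul_apply,
    Fin.sum_univ_two, of_apply, cons_val', cons_val_zero, cons_val_one, cons_val_fin_one] at s1 s2 s3 s4
  by_contra hg'
  have := mt s1 hg'
  have := mt s2 hg'
  have := mt s3 hg'
  have := mt s4 hg'
  omega

/-- non-zero integer vectors -/
@[ext] structure NV : Type where
  /-- the vector -/
  val : Fin 2 → ℤ
  ne : val ≠ 0

instance : SMul SL(2, ℤ) NV where
  smul g v := ⟨g.1 *ᵥ v.1, fun h => v.2 (by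
    have := congrArg (fun w => (g⁻¹).1 *ᵥ w) h
    simpa only [mulVec_mulVec, ← Matrix.SpecialLinearGroup.coe_mul, inv_mul_cancel,
      Matrix.SpecialLinearGroup.coe_one, one_mulVec, mulVec_zero] using this)⟩

lemma NV.smul_val (g : SL(2, ℤ)) (v : NV) : (g • v).1 = g.1 *ᵥ v.1 := rfl

instance : MulAction SL(2, ℤ) NV where
  one_smul v := NV.ext (by simp [NV.smul_val])
  mul_smul g h v := NV.ext (by
    rw [NV.smul_val, NV.smul_val, NV.smul_val, mulVec_mulVec, Matrix.SpecialLinearGroup.coe_mul])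

lemma NV.smul_apply (g : SL(2, ℤ)) (v : NV) (i : Fin 2) :
    (g • v).1 i = g.1 i 0 * v.1 0 + g.1 i 1 * v.1 1 := by
  simp [NV.smul_val, mulVec, dotProduct]

lemma NV.pos (v : NV) : 0 < v.1 0 ^ 2 + v.1 1 ^ 2 := by
  by_contra h
  refine v.2 (funext fun i => ?_)
  fin_cases i <;> simp <;> nlinarith [sq_nonneg (v.1 0), sq_nonneg (v.1 1)]

theorem lift_gen4_injective : Function.Injective (FreeGroup.lift gen4) := by
  refine FreeGroup.injective_lift_of_ping_pong (α := NV) gen4
    (fun b => match b with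
      | true => {v | v.1 1 ≠ 0 ∧ v.1 1 ^ 2 ≤ 2 * v.1 0 * v.1 1}
      | false => {v | 0 ≤ v.1 0 * v.1 1 ∧ 2 * v.1 0 * v.1 1 < v.1 1 ^ 2})
    (fun b => match b with
      | true => {v | v.1 1 = 0 ∨ 2 * v.1 0 * v.1 1 < -v.1 1 ^ 2}
      | false => {v | v.1 0 * v.1 1 < 0 ∧ -v.1 1 ^ 2 ≤ 2 * v.1 0 * v.1 1}) ?_ ?_ ?_ ?_ ?_ ?_
  · rintro (_ | _)
    · exact ⟨⟨![0, 1], by simp⟩, by simp⟩
    · exact ⟨⟨![1, 1], by simp⟩, by simp⟩
  · rintro (_ | _) (_ | _) h <;> simp only [ne_eq, not_true] at h <;>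
      refine Set.disjoint_left.2 fun v h1 h2 => ?_ <;> linarith [h1.2, h2.2]
  · rintro (_ | _) (_ | _) h <;> simp only [ne_eq, not_true] at h <;>
      refine Set.disjoint_left.2 fun v h1 h2 => ?_
    · rcases h2 with h2 | h2
      · simpa [h2] using h1.1
      · linarith [h1.2]
    · rcases h1 with h1 | h1
      · simpa [h1] using h2.1
      · linarith [h2.2]
  · rintro (_ | _) (_ | _) <;> refine Set.disjoint_left.2 fun v h1 h2 => ?_
    · linarith [h1.1, h2.1]
    · rcases h2 with h2 | h2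
      · simpa [h2] using h1.2
      · nlinarith [h1.1, sq_nonneg (v.1 1)]
    · nlinarith [h1.2, h2.1, sq_nonneg (v.1 1)]
    · rcases h2 with h2 | h2
      · exact h1.1 h2
      · nlinarith [h1.2, sq_nonneg (v.1 1)]
  · rintro (_ | _) _ ⟨v, hv, rfl⟩ <;> have := v.pos <;>
      simp only [Set.mem_compl_iff, Set.mem_ofPred_eq, not_and_or, not_or, not_lt, not_le] at hv <;>
      simp only [gen4, Set.mem_ofPred_eq, NV.smul_apply, coe_U4, coe_T, of_apply, cons_val',
        cons_val_zero, cons_val_one, cons_val_fin_one]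
    · rcases hv with hv | hv <;> constructor <;>
        nlinarith [sq_nonneg (v.1 0), sq_nonneg (v.1 1), sq_nonneg (2 * v.1 0 + v.1 1)]
    · exact ⟨by simpa using hv.1, by nlinarith [hv.2]⟩
  · rintro (_ | _) _ ⟨v, hv, rfl⟩ <;> have := v.pos <;>
      simp only [Set.mem_compl_iff, Set.mem_ofPred_eq, not_and_or, not_lt, not_le, not_not] at hv <;>
      simp only [gen4, Pi.inv_apply, Set.mem_ofPred_eq, NV.smul_apply, coe_U4_inv, coe_T_inv,
        of_apply, cons_val', cons_val_zero, cons_val_one, cons_val_fin_one]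
    · rcases hv with hv | hv <;> constructor <;>
        nlinarith [sq_nonneg (v.1 0), sq_nonneg (v.1 1), sq_nonneg (2 * v.1 0 - v.1 1)]
    · exact hv.imp (fun h => by simpa using h) fun h => by nlinarith

lemma range_lift_gen4 : (FreeGroup.lift gen4).range = Gamma1 4 := by
  rw [FreeGroup.range_lift_eq_closure, ← closure_G4]
  congr 1
  ext g
  simp [gen4, or_comm]

/-- the basis `T`, `U4` of `Γ₁(4)` -/
def basis_G4 : FreeGroupBasis Bool (Gamma1 4) :=
  .ofRepr ((MonoidHom.ofInjective lift_gen4_injective).trans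
    (MulEquiv.subgroupCongr range_lift_gen4)).symm


instance : IsFreeGroup (Gamma1 4) := basis_G4.isFreeGroup

instance : Group.FG (Gamma1 4) :=
  (Group.fg_iff_subgroup_fg _).2 ((Subgroup.fg_iff _).2 ⟨_, closure_G4, Set.toFinite _⟩)

theorem free_of_le {Γ : Subgroup SL(2, ℤ)} (h : Γ ≤ Gamma1 4) : IsFreeGroup Γ :=
  IsFreeGroup.ofMulEquiv (Subgroup.subgroupOfEquivOfLe h)

theorem fg_of_le {Γ : Subgroup SL(2, ℤ)} [Γ.FiniteIndex] (h : Γ ≤ Gamma1 4) : Group.FG Γ :=
  Group.fg_of_surjective (f := (Subgroup.subgroupOfEquivOfLe h).toMonoidHom)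
    (Subgroup.subgroupOfEquivOfLe h).surjective

variable {G : Type*} [Group G]

theorem free_map {f : SL(2, ℤ) →* G} (hf : Function.Injective f) {Γ : Subgroup SL(2, ℤ)}
    (h : Γ ≤ Gamma1 4) : IsFreeGroup (Γ.map f) :=
  have := free_of_le h
  IsFreeGroup.ofMulEquiv (Γ.equivMapOfInjective f hf)

theorem fg_map (f : SL(2, ℤ) →* G) {Γ : Subgroup SL(2, ℤ)} [Γ.FiniteIndex]
    (h : Γ ≤ Gamma1 4) : Group.FG (Γ.map f) :=
  have := fg_of_le h
  Group.fg_of_surjective (f := f.subgroupMap Γ) (f.subgroupMap_surjective Γ)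

/-! ### homomorphisms on a free group -/

variable {Γ : Subgroup G} {ι : Type*} (O : Type*) [CommRing O] (A : Type*) [AddCommGroup A]
  [Module O A]

variable {A} in
lemma hh_ext_basis (b : FreeGroupBasis ι Γ) {φ ψ : HH Γ A} (h : ∀ i, val φ (b i) = val ψ (b i)) :
    φ = ψ := by
  refine AddMonoidHom.toMultiplicativeRight.injective (b.ext_hom _ _ fun i => ?_)
  have := h i
  rw [val_eq _ (b i).2, val_eq _ (b i).2] at this
  exact congrArg Multiplicative.ofAdd this

variable {A} in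
lemma hh_exists_basis (b : FreeGroupBasis ι Γ) (f : ι → A) :
    ∃ φ : HH Γ A, ∀ i, val φ (b i) = f i := by
  obtain ⟨F, hF⟩ := (b.lift (H := Multiplicative A)).symm.surjective
    fun i => Multiplicative.ofAdd (f i)
  refine ⟨AddMonoidHom.toMultiplicativeRight.symm F, fun i => ?_⟩
  rw [val_eq _ (b i).2]
  exact congrArg Multiplicative.toAdd (congrFun hF i)

/-- coordinates -/
def coordL (b : ι → G) : HH Γ A →ₗ[O] (ι → A) where
  toFun φ i := val φ (b i)
  map_add' φ ψ := funext fun i => val_add φ ψ (b i)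
  map_smul' r φ := funext fun i => val_smul r φ (b i)

/-- coordinates -/
def coord (b : FreeGroupBasis ι Γ) : HH Γ A ≃ₗ[O] (ι → A) :=
  LinearEquiv.ofBijective (coordL O A fun i => (b i).1)
    ⟨fun _ _ h => hh_ext_basis b (congrFun h), fun f => by
      obtain ⟨φ, h⟩ := hh_exists_basis b f
      exact ⟨φ, funext h⟩⟩

lemma coord_apply (b : FreeGroupBasis ι Γ) (φ : HH Γ A) (i : ι) : coord O A b φ i = val φ (b i) := rfl

lemma fin_HH [Group.FG Γ] [Finite A] : Finite (HH Γ A) := by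
  obtain ⟨S, hS, hf⟩ := Group.fg_iff.1 (inferInstance : Group.FG Γ)
  have := hf.to_subtype
  refine Finite.of_injective (fun (φ : HH Γ A) (s : S) => φ (Additive.ofMul s.1)) fun φ ψ h => ?_
  refine AddMonoidHom.toMultiplicativeRight.injective (MonoidHom.eq_of_eqOn_dense hS fun s hs => ?_)
  exact congrArg Multiplicative.ofAdd (congrFun h ⟨s, hs⟩)

lemma finite_basis [Group.FG Γ] (b : FreeGroupBasis ι Γ) : Finite ι := by
  classical
  have := fin_HH (Γ := Γ) (ZMod 2)
  have := Finite.of_equiv _ (coord ℤ (ZMod 2) b).toEquiv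
  refine Finite.of_injective (fun i : ι => (Pi.single i 1 : ι → ZMod 2)) fun i j h => ?_
  by_contra hij
  simpa [hij] using congrFun h i

theorem moduleFree_HH [IsFreeGroup Γ] [Group.FG Γ] [Module.Free O A] : Module.Free O (HH Γ A) :=
  have := finite_basis (IsFreeGroup.basis Γ)
  Module.Free.of_equiv (coord O A (IsFreeGroup.basis Γ)).symm

theorem moduleFinite_HH [IsFreeGroup Γ] [Group.FG Γ] [Module.Finite O A] : Module.Finite O (HH Γ A) :=
  have := finite_basis (IsFreeGroup.basis Γ)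
  Module.Finite.equiv (coord O A (IsFreeGroup.basis Γ)).symm

variable {A} {B : Type*} [AddCommGroup B]

/-- lifting of homomorphisms -/
theorem exists_comp [IsFreeGroup Γ] (f : A →+ B) {ψ : HH Γ B} (h : ∀ γ ∈ Γ, val ψ γ ∈ f.range) :
    ∃ φ : HH Γ A, f.comp φ = ψ := by
  let b := IsFreeGroup.basis Γ
  choose a ha using fun i => h _ (b i).2
  refine ⟨(coord ℤ A b).symm a, (coord ℤ B b).injective (funext fun i => ?_)⟩
  rw [coord_apply, coord_apply, val_comp, ← coord_apply ℤ, LinearEquiv.apply_symm_apply, ha]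

theorem comp_surj [IsFreeGroup Γ] {f : A →+ B} (hf : Function.Surjective f) (ψ : HH Γ B) :
    ∃ φ : HH Γ A, f.comp φ = ψ := exists_comp f fun _ _ => hf _

end Crest.Agent.T15.Hk

end
private theorem rz_32cac04b74 : type_of% @_root_.Crest.Agent.T15.Hk.gen4.eq_1 := @_root_.Crest.Agent.T15.Hk.gen4.eq_1 -- L29
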