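import Mathlib
import Crest.Agent.T15.HkLev_62
import Crest.Agent.T15.HkFree_62
import Crest.Agent.T15.Lv_10
import Crest.Agent.T15.LvT_10

-- ▼ part T15/HkLevB_62
section

/-!
# Row 15, block T (helper62): level lowering on simultaneous generalised eigenspaces

`GE t a` = the vectors on which all `t k - a k` are locally nilpotent.  `Lev.Cp u u'` = a pair of
operators compatible with the degeneracy map.  `Lev.tr_comm`, `Lev.old`, `Lev.bijOn`.
-/

set_option autoImplicit false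

noncomputable section

namespace Crest.Agent.T15.Hk

open Finset Polynomial

variable {O : Type*} [CommRing O] {M M' : Type*} [AddCommGroup M] [Module O M] [AddCommGroup M']
  [Module O M']

/-- simultaneous generalised eigenspace -/
def GE {κ : Type*} (t : κ → Module.End O M) (a : κ → O) : Submodule O M :=
  ⨅ k, (t k).maxGenEigenspace (a k)

lemma mem_GE {κ : Type*} {t : κ → Module.End O M} {a : κ → O} {x : M} :
    x ∈ GE t a ↔ ∀ k, LN (t k - a k • 1) x := by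
  simp only [GE, Submodule.mem_iInf, LN.iff_mem]

lemma GE_map {κ : Type*} {t : κ → Module.End O M} {t' : κ → Module.End O M'} {a : κ → O}
    (φ : M →ₗ[O] M') (h : ∀ k x, φ (t k x) = t' k (φ x)) {x : M} (hx : x ∈ GE t a) :
    φ x ∈ GE t' a := mem_GE.2 fun k => (mem_GE.1 hx k).map φ fun y => by simp [h]

lemma commute_aeval {T u : Module.End O M} (h : Commute u T) (f : O[X]) :
    Commute u (aeval T f) := by
  induction f using Polynomial.induction_on' with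
  | add f g hf hg => rw [map_add]; exact hf.add_right hg
  | monomial k r =>
    rw [aeval_monomial]
    exact (Algebra.commute_algebraMap_right r _).mul_right (h.pow_right k)

lemma commute_sub {T u : Module.End O M} (h : Commute u T) (s : O) : Commute u (T - s • 1) :=
  h.sub_right ((Commute.one_right _).smul_right _)

namespace Lev
variable {q s α : O} {i : M →ₗ[O] M'} {tr : M' →ₗ[O] M} {W U : Module.End O M'}
  {T : Module.End O M}

/-- the unit conditions at a Taylor–Wiles prime -/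
structure Un (q s α : O) : Prop where
  h0 : IsNilpotent (α ^ 2 - s * α + q)
  hα : IsUnit α
  hq : IsUnit q
  h1 : IsUnit (s - 2 * α)
  h2 : IsUnit (s - (q + 1) * α)
  h3 : IsUnit (α ^ 2 - 1)

/-- compatible pair of operators -/
structure Cp (i : M →ₗ[O] M') (U : Module.End O M') (T u : Module.End O M)
    (u' : Module.End O M') : Prop where
  hi : ∀ x, i (u x) = u' (i x)
  hU : Commute u' U
  hT : Commute u T

lemma Cp.sub {u : Module.End O M} {u' : Module.End O M'} (c : Cp i U T u u') (a : O) :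
    Cp i U T (u - a • 1) (u' - a • 1) :=
  ⟨fun x => by simp [c.hi], (commute_sub c.hU.symm a).symm, (commute_sub c.hT.symm a).symm⟩

variable (h : Lev q i tr W U T)
include h

lemma W_i (x : M) : W (i x) = i (T x) - U (i x) := by
  rw [← h.tr_W, ← h.UW]; abel

lemma W_i_comm {u : Module.End O M} {u' : Module.End O M'} (c : Cp i U T u u') (x : M) :
    W (i (u x)) = u' (W (i x)) := by
  rw [h.W_i, h.W_i, map_sub, ← c.hi, c.hi x, ← Module.End.mul_apply U, ← c.hU.eq,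
    ← Module.End.mul_apply T, ← c.hT.eq]
  rfl

/-- the trace commutes with compatible operators on the `U ≡ α` part -/
theorem tr_comm (hu : Un q s α) {u : Module.End O M} {u' : Module.End O M'} (c : Cp i U T u u')
    {v : M'} (hv : LN (U - α • 1) v) : tr (u' v) = u (tr v) := by
  obtain ⟨f, g, h1, h2⟩ := h.surj hu.h0 hu.h1 hu.h2 (h.maps hu.h0 hu.hα hv)
  have h3 : v = W (i (aeval T f (tr v))) - i (aeval T g (tr v)) := sub_eq_zero.1
    (h.inj hu.h0 hu.hα hu.hq hu.h1 hu.h2 hu.h3 (hv.sub_vec h1) (by rw [map_sub, h2, sub_self]))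
  have h4 : ∀ x y, tr (u' (W (i x) - i y)) = u (tr (W (i x) - i y)) := fun x y => by
    rw [map_sub, ← h.W_i_comm c, ← c.hi, map_sub, map_sub, h.tr_W, h.tr_W, h.tr_i, h.tr_i, map_sub,
      map_smul, ← Module.End.mul_apply T, ← c.hT.eq, Module.End.mul_apply]
  rw [h3, h4]

theorem ln_tr (hu : Un q s α) {u : Module.End O M} {u' : Module.End O M'} (c : Cp i U T u u')
    {v : M'} (hv : LN (U - α • 1) v) (hv' : LN u' v) : LN u (tr v) := by
  obtain ⟨k, hk⟩ := hv'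
  have : ∀ k : ℕ, LN (U - α • 1) ((u' ^ k) v) ∧ tr ((u' ^ k) v) = (u ^ k) (tr v) := fun k => by
    induction k with
    | zero => exact ⟨hv, rfl⟩
    | succ k ih =>
      rw [pow_succ', pow_succ', Module.End.mul_apply, Module.End.mul_apply]
      exact ⟨ih.1.comm (commute_sub c.hU α), by rw [h.tr_comm hu c ih.1, ih.2]⟩
  exact ⟨k, by rw [← (this k).2, hk, map_zero]⟩

variable {κ : Type*} {t : κ → Module.End O M} {t' : κ → Module.End O M'} {a a' : κ → O} {k₀ : κ}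

/-- every vector of the small eigenspace has an old preimage -/
theorem exists_old (hu : Un q (a k₀) (a' k₀)) (hT : t k₀ = T) (hU : t' k₀ = U)
    (hc : ∀ k, k ≠ k₀ → Cp i U T (t k) (t' k) ∧ a k = a' k) {x : M} (hx : x ∈ GE t a) :
    ∃ y ∈ GE t a, ∃ z ∈ GE t a, W (i y) - i z ∈ GE t' a' ∧ tr (W (i y) - i z) = x := by
  obtain ⟨f, g, h1, h2⟩ := h.surj hu.h0 hu.h1 hu.h2 (hT ▸ mem_GE.1 hx k₀)
  have h3 : ∀ f : O[X], aeval T f x ∈ GE t a := fun f => GE_map _ (fun k y => by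
    by_cases hk : k = k₀
    · rw [hk, hT]; exact LinearMap.congr_fun (commute_aeval (Commute.refl T) f).symm.eq y
    · exact LinearMap.congr_fun (commute_aeval (hc k hk).1.hT f).symm.eq y) hx
  refine ⟨_, h3 f, _, h3 g, mem_GE.2 fun k => ?_, h2⟩
  by_cases hk : k = k₀
  · rwa [hk, hU]
  · rw [← (hc k hk).2]
    have c := (hc k hk).1.sub (a k)
    exact ((mem_GE.1 (h3 f) k).map (W ∘ₗ i) (h.W_i_comm c)).sub_vec ((mem_GE.1 (h3 g) k).map i c.hi)

/-- **level lowering**: the trace is a bijection of simultaneous generalised eigenspaces -/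
theorem bijOn (hu : Un q (a k₀) (a' k₀)) (hT : t k₀ = T) (hU : t' k₀ = U)
    (hc : ∀ k, k ≠ k₀ → Cp i U T (t k) (t' k) ∧ a k = a' k) :
    Set.BijOn tr (GE t' a') (GE t a) := by
  have h0 : ∀ v ∈ GE t' a', LN (U - a' k₀ • 1) v := fun v hv => hU ▸ mem_GE.1 hv k₀
  refine ⟨fun v hv => mem_GE.2 fun k => ?_, fun v hv w hw hvw => sub_eq_zero.1 ?_, fun x hx => ?_⟩
  · by_cases hk : k = k₀
    · rw [hk, hT]; exact h.maps hu.h0 hu.hα (h0 v hv)
    · exact h.ln_tr hu ((hc k hk).1.sub _) (h0 v hv) ((hc k hk).2 ▸ mem_GE.1 hv k)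
  · exact h.inj hu.h0 hu.hα hu.hq hu.h1 hu.h2 hu.h3 ((h0 v hv).sub_vec (h0 w hw))
      (by rw [map_sub, hvw, sub_self])
  · obtain ⟨y, -, z, -, h1, h2⟩ := h.exists_old hu hT hU hc hx
    exact ⟨_, h1, h2⟩

/-- the big eigenspace is old -/
theorem old (hu : Un q (a k₀) (a' k₀)) (hT : t k₀ = T) (hU : t' k₀ = U)
    (hc : ∀ k, k ≠ k₀ → Cp i U T (t k) (t' k) ∧ a k = a' k) {v : M'} (hv : v ∈ GE t' a') :
    ∃ y ∈ GE t a, ∃ z ∈ GE t a, v = W (i y) - i z := by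
  have hb := h.bijOn hu hT hU hc
  obtain ⟨y, hy, z, hz, h1, h2⟩ := h.exists_old hu hT hU hc (hb.mapsTo hv)
  exact ⟨y, hy, z, hz, hb.injOn hv h1 h2.symm⟩

end Lev

end Crest.Agent.T15.Hk

end
end

-- ▼ part T15/HkW_62
section

/-!
# Row 15, block T (helper62): the relations `Lev` from an Atkin–Lehner element

`AL Γ Γ' w u` : `w` normalises `Γ' = Γ ∩ w⁻¹ Γ w`, `w²` is central modulo `Γ'`, `w⁻¹ u_i ∈ Γ`,
`U = ∑ u_i` and `T = U + w` are correspondences.  Then `Lev (card ι) res tr W U T`.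
-/

set_option autoImplicit false
set_option linter.unusedSectionVars false

noncomputable section

namespace Crest.Agent.T15.Hk

open Finset

variable {G : Type*} [Group G] {O : Type*} [CommRing O]
variable {A : Type*} [AddCommGroup A] [Module O A] {Γ Γ' : Subgroup G}

lemma lin_congr_span {z : MonoidAlgebra O G} (hz : z ∈ Submodule.span O (e O '' Γ))
    {F F' : G → A} (h : ∀ γ ∈ Γ, F γ = F' γ) : lin O F z = lin O F' z :=
  LinearMap.eqOn_span' (by rintro _ ⟨γ, hγ, rfl⟩; simp [h γ hγ]) hz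

lemma span_mul_e {z : MonoidAlgebra O G} (hz : z ∈ Submodule.span O (e O '' Γ)) {γ : G}
    (hγ : γ ∈ Γ) : z * e O γ ∈ Submodule.span O (e O '' Γ) := by
  have : Submodule.span O (e O '' Γ) ≤
      (Submodule.span O (e O '' Γ)).comap (LinearMap.mulRight O (e O γ)) :=
    Submodule.span_le.2 (by
      rintro _ ⟨δ, hδ, rfl⟩
      exact Submodule.subset_span ⟨δ * γ, Γ.mul_mem hδ hγ, e_mul _ _⟩)
  exact this hz

/-- `Γ' \ Γ → Γ \ G`, `γ ↦ w γ` is injective -/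
lemma null_of_conj {w : G} (hw : ∀ γ ∈ Γ, w * γ * w⁻¹ ∈ Γ → γ ∈ Γ') {z : MonoidAlgebra O G}
    (hz : z ∈ Submodule.span O (e O '' Γ)) (h : e O w * z ∈ Null O Γ) : z ∈ Null O Γ' :=
  mem_null fun F hF => by
    classical
    let F' : G → (RC Γ' →₀ O) := fun g =>
      if h : ∃ γ ∈ Γ, cs Γ (w * γ) = cs Γ g then F h.choose else 0
    have h1 := null_lin h (F := F') fun γ hγ g => by simp only [F', cs_mul hγ]
    rw [lin_e_mul] at h1
    rw [← h1]
    refine lin_congr_span hz fun γ hγ => ?_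
    have h2 : ∃ δ ∈ Γ, cs Γ (w * δ) = cs Γ (w * γ) := ⟨γ, hγ, rfl⟩
    simp only [F', dif_pos h2]
    obtain ⟨h3, h4⟩ := h2.choose_spec
    rw [← hF _ (hw _ (Γ.mul_mem hγ (Γ.inv_mem h3)) (by simpa [mul_assoc] using cs_eq.1 h4))
      h2.choose, inv_mul_cancel_right]

lemma val_conj (φ : HH Γ A) {δ γ : G} (hδ : δ ∈ Γ) (hγ : γ ∈ Γ) :
    val φ (δ * γ * δ⁻¹) = val φ γ := by
  rw [val_mul φ (Γ.mul_mem hδ hγ) (Γ.inv_mem hδ), val_mul φ hδ hγ, val_inv φ hδ]; abel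

/-- Atkin–Lehner data -/
structure AL (O : Type*) [CommRing O] (Γ Γ' : Subgroup G) (w : G) {ι : Type*} [Fintype ι]
    (u : ι → G) : Prop where
  le : Γ' ≤ Γ
  norm : ∀ γ ∈ Γ', w * γ * w⁻¹ ∈ Γ'
  inter : ∀ γ ∈ Γ, w * γ * w⁻¹ ∈ Γ → γ ∈ Γ'
  sq : ∃ z ∈ Subgroup.center G, ∃ γ ∈ Γ', w * w = z * γ
  hu : ∀ i, w⁻¹ * u i ∈ Γ
  hU : ∑ i, e O (u i) ∈ Corr O Γ' Γ'
  hT : ∑ i, e O (u i) + e O w ∈ Corr O Γ Γ

namespace AL
variable {w : G} {ι : Type*} [Fintype ι] {u : ι → G} (h : AL O Γ Γ' w u)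
include h

omit h in
lemma tr_eq : e O w⁻¹ * (∑ i, e O (u i) + e O w) = ∑ i, e O (w⁻¹ * u i) + 1 := by
  simp only [mul_add, mul_sum, ← e_mul, inv_mul_cancel, e_one]

omit h in
lemma w_tr (z : MonoidAlgebra O G) : e O w * (e O w⁻¹ * z) = z := by
  rw [← mul_assoc, ← e_mul, mul_inv_cancel, e_one, one_mul]

lemma tr_corr : e O w⁻¹ * (∑ i, e O (u i) + e O w) ∈ Corr O Γ' Γ := fun γ hγ => by
  have h1 : e O w⁻¹ * (∑ i, e O (u i) + e O w) ∈ Submodule.span O (e O '' Γ) := by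
    rw [tr_eq]
    exact add_mem (Submodule.sum_mem _ fun i _ => Submodule.subset_span ⟨_, h.hu i, rfl⟩)
      (Submodule.subset_span ⟨1, Γ.one_mem, rfl⟩)
  refine null_of_conj h.inter (sub_mem (span_mul_e h1 hγ) h1) ?_
  rw [mul_sub, ← mul_assoc, w_tr]
  exact h.hT γ hγ

variable (A)

/-- the trace -/
def tr : HH Γ' A →ₗ[O] HH Γ A := T A ⟨_, h.tr_corr⟩

/-- the involution -/
def W : Module.End O (HH Γ' A) := T A ⟨e O w, e_mem_corr h.norm⟩

lemma val_W (φ : HH Γ' A) {γ : G} (hγ : γ ∈ Γ') : val (h.W A φ) γ = val φ (w * γ * w⁻¹) :=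
  val_T_e _ φ hγ (h.norm γ hγ)


theorem lev : Lev (Fintype.card ι : O) (res O A h.le) (h.tr A) (h.W A) (T A ⟨_, h.hU⟩)
    (T A ⟨_, h.hT⟩) where
  tr_i x := by
    rw [tr, res, T_mul]
    have := T_smul (A := A) ((Fintype.card ι : O) + 1) ⟨1, one_mem_corr (O := O) (le_refl Γ)⟩
    rw [T_one] at this
    refine Eq.trans ?_ (LinearMap.congr_fun this x)
    refine LinearMap.congr_fun (T_congr ?_) x
    have h2 : ∑ i, (e O (w⁻¹ * u i) - 1) ∈ Null O Γ :=
      Submodule.sum_mem _ fun i _ => e_mul_sub_one (h.hu i)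
    convert h2 using 1
    rw [Submodule.coe_smul]
    simp only [one_mul, tr_eq, sum_sub_distrib, sum_const, card_univ, add_smul,
      one_smul, Nat.cast_smul_eq_nsmul]
    abel
  tr_W x := by
    rw [tr, W, res, T_mul, T_mul]
    refine LinearMap.congr_fun (T_congr ?_) x
    simp only [one_mul, w_tr, sub_self, zero_mem]
  UW v := by
    rw [tr, W, res, T_mul, T_mul, ← LinearMap.add_apply, ← T_add]
    refine LinearMap.congr_fun (T_congr ?_) v
    simp only [mul_one, w_tr, Submodule.coe_add, sub_self, zero_mem]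
  WW v := HH.ext fun γ hγ => by
    obtain ⟨z, hz, δ, hδ, hw⟩ := h.sq
    rw [val_W _ _ _ hγ, val_W _ _ _ (h.norm γ hγ), ← val_conj v hδ hγ]
    congr 1
    calc w * (w * γ * w⁻¹) * w⁻¹ = (w * w) * γ * (w * w)⁻¹ := by group
      _ = z * (δ * γ * δ⁻¹) * z⁻¹ := by rw [hw]; group
      _ = _ := by rw [← Subgroup.mem_center_iff.1 hz, mul_inv_cancel_right]

end AL

end Crest.Agent.T15.Hk

end
end

-- ▼ part T15/HkQ_62
section

/-!
# Row 15, block T (helper62): the Atkin–Lehner element `W_q = σ_q diag(q,1)`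

`Stp q H H'` : the level `(L', H')` is `Γ_H(L) ∩ Γ₀(q)`.  `Stp.al`, `Stp.lev`.
-/

set_option autoImplicit false
set_option linter.unusedSectionVars false

noncomputable section

namespace Crest.Agent.T15.Hk

open Finset
open scoped MatrixGroups
open Crest.Agent.T15.Mf Crest.Agent.T15.Lv

variable {L L' q : ℕ} {H : Subgroup (ZMod L)ˣ} {H' : Subgroup (ZMod L')ˣ} {O : Type*} [CommRing O]

/-- `Γ_{H'}(L') = Γ_H(L) ∩ Γ₀(q)`, and `±q ∈ H` -/
structure Stp (q : ℕ) {L L' : ℕ} (H : Subgroup (ZMod L)ˣ) (H' : Subgroup (ZMod L')ˣ) : Prop where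
  prime : q.Prime
  ndvd : ¬ q ∣ L
  eq : L' = L * q
  mem : ∀ (hd : L ∣ L') u, u ∈ H' ↔ ZMod.unitsMap hd u ∈ H
  pm : ∃ u ∈ H, (u : ZMod L) = q ∨ (u : ZMod L) = -q

/-- the Atkin–Lehner element -/
def wq (L q : ℕ) : GQ := sg L q * dg q

lemma gm_center {c : ℤ} (hc : c ≠ 0) : gm c 0 0 c ∈ Subgroup.center GQ :=
  Subgroup.mem_center_iff.2 fun g => GQ_ext (by
    rw [Subgroup.coe_mul, Subgroup.coe_mul, Units.val_mul, Units.val_mul,
      gm_val (by simpa using mul_self_pos.2 hc)]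
    ext i j
    fin_cases i <;> fin_cases j <;> simp [Matrix.mul_apply, Fin.sum_univ_two, mul_comm])

namespace Stp
variable (h : Stp q H H')
include h

lemma dvd : L ∣ L' := h.eq ▸ dvd_mul_right L q

lemma dvd' : q ∣ L' := h.eq ▸ dvd_mul_left q L

lemma cop : IsCoprime (q : ℤ) L :=
  Nat.isCoprime_iff_coprime.2 ((Nat.Prime.coprime_iff_not_dvd h.prime).2 h.ndvd)

lemma pos : (0 : ℤ) < q := by exact_mod_cast h.prime.pos

lemma le : Gq L' H' ≤ Gq L H := Gq_le h.dvd fun u => (h.mem h.dvd u).1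

lemma mem_GH {γ : SL(2, ℤ)} : γ ∈ GH L' H' ↔ γ ∈ GH L H ∧ (q : ℤ) ∣ γ 1 0 := by
  refine ⟨fun hγ => ⟨GH_le h.dvd (fun u => (h.mem h.dvd u).1) hγ, ?_⟩, fun ⟨hγ, hq⟩ => ?_⟩
  · exact (Int.natCast_dvd_natCast.2 h.dvd').trans ((ZMod.intCast_zmod_eq_zero_iff_dvd _ _).1 hγ.1)
  · have h1 : ((γ 1 0 : ℤ) : ZMod L') = 0 := (ZMod.intCast_zmod_eq_zero_iff_dvd _ _).2 (by
      rw [h.eq, Nat.cast_mul]
      exact h.cop.symm.mul_dvd ((ZMod.intCast_zmod_eq_zero_iff_dvd _ _).1 hγ.1) hq)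
    obtain ⟨-, v, -, hv⟩ := mem_GH_top.2 h1
    obtain ⟨-, u, hu, hu'⟩ := hγ
    refine ⟨h1, v, (h.mem h.dvd v).2 ?_, hv⟩
    rwa [show ZMod.unitsMap h.dvd v = u from Units.ext (by
      rw [ZMod.unitsMap_val, hv, ZMod.cast_intCast h.dvd, hu'])]

lemma exists_ab : ∃ a b : ℤ, a * q - b * L = 1 ∧ sg L q = gm a b L q ∧
    wq L q = gm (a * q) b (L * q) q := by
  have h1 := det_eq (sgZ L q)
  have h2 := sq_eq_gm (sgZ L q)
  rw [sgZ_d h.cop, sgZ_c h.cop] at h1 h2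
  refine ⟨_, _, h1, h2, ?_⟩
  rw [wq, sg, h2, dg, gm_mul (by omega) (by simpa using h.pos)]
  simp

lemma dg_conj {x y z t : ℤ} (hd : x * t - y * (z * q) = 1) :
    dg q * gm x y (z * q) t * (dg q)⁻¹ = gm x (q * y) z t := by
  have := h.pos
  rw [mul_inv_eq_iff_eq_mul, dg, gm_mul (by simpa) (by omega), gm_mul (by nlinarith) (by simpa)]
  congr 1 <;> ring

lemma norm {γ : GQ} (hγ : γ ∈ Gq L' H') : wq L q * γ * (wq L q)⁻¹ ∈ Gq L' H' := by
  obtain ⟨γ, hγ, rfl⟩ := hγ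
  obtain ⟨⟨h1, u, hu, hu'⟩, z, hz⟩ := h.mem_GH.1 hγ
  rw [mul_comm] at hz
  have hd := det_eq γ
  rw [hz] at hd
  let δ : SL(2, ℤ) := ⟨!![γ 0 0, q * γ 0 1; z, γ 1 1], by rw [Matrix.det_fin_two_of]; linarith⟩
  have hδ : δ ∈ GH L H := ⟨(ZMod.intCast_zmod_eq_zero_iff_dvd _ _).2 (h.cop.symm.dvd_of_dvd_mul_right
    (hz ▸ (ZMod.intCast_zmod_eq_zero_iff_dvd _ _).1 h1)), u, hu, hu'⟩
  have e : wq L q * Mf.sq γ * (wq L q)⁻¹ = Mf.sq (sgZ L q * δ * (sgZ L q)⁻¹) := by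
    rw [map_mul, map_mul, map_inv, sq_eq_gm δ, sq_eq_gm γ, hz]
    change _ = sg L q * gm (γ 0 0) (q * γ 0 1) z (γ 1 1) * (sg L q)⁻¹
    rw [← h.dg_conj hd, wq]; group
  rw [e, sq_mem, h.mem_GH]
  refine ⟨sq_mem.1 ?_, ?_⟩
  · rw [map_mul, map_mul, map_inv]; exact conj_mem (sg_mem L q) (sq_mem.2 hδ)
  · rw [Lv.mul_apply, Lv.mul_apply, Lv.mul_apply, (Lv.inv_apply _).1, (Lv.inv_apply _).2.2.1,
      sgZ_d h.cop, sgZ_c h.cop]
    refine ⟨L * γ 0 0 + q * z - L * (L * γ 0 1 + γ 1 1), ?_⟩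
    simp [δ]; ring

lemma inter {γ : GQ} (hγ : γ ∈ Gq L H) (h' : wq L q * γ * (wq L q)⁻¹ ∈ Gq L H) : γ ∈ Gq L' H' := by
  obtain ⟨γ, hγ, rfl⟩ := hγ
  obtain ⟨δ, -, hδ⟩ := conj_mem (inv_mem (sg_mem L q)) h'
  have := h.pos
  have e : Mf.sq δ * dg q = dg q * Mf.sq γ := by rw [hδ, wq]; group
  rw [sq_eq_gm, sq_eq_gm, dg, gm_mul (by rw [det_eq]; exact one_pos) (by simpa),
    gm_mul (by simpa) (by rw [det_eq]; exact one_pos)] at e
  have := (gm_inj (by nlinarith [det_eq δ]) (by nlinarith [det_eq γ]) e).2.2.1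
  exact sq_mem.2 (h.mem_GH.2 ⟨hγ, δ 1 0, by linarith⟩)

lemma gm_mem' {a b c d : ℤ} (hd : a * d - b * (L * q * c) = 1) {u : (ZMod L)ˣ} (hu : u ∈ H)
    (hu' : (u : ZMod L) = d) : gm a b (L * q * c) d ∈ Gq L' H' :=
  ⟨⟨!![a, b; L * q * c, d], by rw [Matrix.det_fin_two_of]; exact hd⟩,
    h.mem_GH.2 ⟨⟨by simp, u, hu, hu'⟩, L * c, by simp; ring⟩, sq_eq_gm _⟩

lemma sq' : ∃ z ∈ Subgroup.center GQ, ∃ γ ∈ Gq L' H', wq L q * wq L q = z * γ := by
  obtain ⟨a, b, hab, -, hw⟩ := h.exists_ab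
  obtain ⟨u, hu, hu'⟩ := h.pm
  have hq := h.pos
  have h1 : (a * a * q + b * L) * (b * L + q) - b * (a + 1) * (L * q * (a + 1)) = 1 := by
    have : b * L = a * q - 1 := by linarith
    calc _ = (a * a * q + b * L) * (b * L + q) - (b * L) * (a + 1) * (q * (a + 1)) := by ring
      _ = 1 := by rw [this]; ring
  have h2 : 0 < a * q * q - b * (L * q) := by nlinarith
  rw [hw, gm_mul h2 h2]
  rcases hu' with hu' | hu'
  · refine ⟨_, gm_center hq.ne', _, h.gm_mem' h1 hu (by simp [hu']), ?_⟩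
    rw [gm_mul (by simpa using mul_pos hq hq) (by omega)]
    congr 1 <;> ring
  · refine ⟨_, gm_center (neg_ne_zero.2 hq.ne'), _, h.gm_mem' (a := -(a * a * q + b * L))
      (b := -(b * (a + 1))) (c := -(a + 1)) (d := -(b * L + q)) (by linarith) hu (by simp [hu']), ?_⟩
    rw [gm_mul (by simpa using mul_pos hq hq) (by linarith)]
    congr 1 <;> ring

lemma inv_mul_up (i : ℕ) : (wq L q)⁻¹ * up q i ∈ Gq L H := by
  obtain ⟨a, b, hab, -, hw⟩ := h.exists_ab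
  have hq := h.pos
  have h1 : 1 * (a * q - L * i) - (i - b) * -L = 1 := by linarith
  have e : up q i = wq L q * gm 1 (i - b) (-L) (a * q - L * i) := by
    rw [hw, gm_mul (by nlinarith) (by omega), up]
    congr 1
    · linarith
    · linear_combination (-i) * hab
    · ring
    · linear_combination (-q) * hab
  rw [e, inv_mul_cancel_left]
  refine gm_mem h1 (by simp) H.one_mem ?_
  rw [show a * q - L * i = 1 + (b - i) * L by linarith]; simp

omit h in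
lemma U_eq : ∑ i : Fin q, e O (up q i) = U O q := (sum_range fun i => e O (up q i)).symm

lemma T_eq : ∑ i : Fin q, e O (up q i) + e O (wq L q) = Tp O L q := by
  rw [U_eq, Tp, if_neg h.ndvd, wq]

theorem al (hU : Tp O L' q ∈ Corr O (Gq L' H') (Gq L' H'))
    (hT : Tp O L q ∈ Corr O (Gq L H) (Gq L H)) :
    AL O (Gq L H) (Gq L' H') (wq L q) fun i : Fin q => up q i where
  le := h.le
  norm _ := h.norm
  inter _ := h.inter
  sq := h.sq'
  hu i := h.inv_mul_up i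
  hU := by rwa [U_eq, ← Tp_of_dvd h.dvd']
  hT := by rwa [h.T_eq]

variable (O) (A : Type*) [AddCommGroup A] [Module O A]

/-- the involution `W_q` -/
def W : Module.End O (HH (Gq L' H') A) := T A ⟨e O (wq L q), e_mem_corr fun _ => h.norm⟩

variable {O}

/-- **the four relations** -/
theorem lev (hU : Tp O L' q ∈ Corr O (Gq L' H') (Gq L' H'))
    (hT : Tp O L q ∈ Corr O (Gq L H) (Gq L H)) :
    Lev (q : O) (res O A h.le) ((h.al hU hT).tr A) (h.W O A) (T A ⟨_, hU⟩) (T A ⟨_, hT⟩) := by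
  have := (h.al hU hT).lev A
  rw [Fintype.card_fin] at this
  convert this using 3
  · rfl
  · rw [U_eq, Tp_of_dvd h.dvd']
  · exact h.T_eq.symm

end Stp

end Crest.Agent.T15.Hk

end
end

-- ▼ part T15/HkCh_62
section

/-!
# Row 15, block T (helper62): level lowering along a set of auxiliary primes

`Tw S H H'` : the level `(L', H')` is `Γ_H(L) ∩ Γ₀(∏ S)`.  `Tw.chain`: a Hecke-equivariant bijection
of the generalised eigenspaces, where `U_q ≡ α q` for `q ∈ S`.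
-/

set_option autoImplicit false
set_option linter.unusedSectionVars false

noncomputable section

namespace Crest.Agent.T15.Hk

open Finset
open scoped MatrixGroups
open Crest.Agent.T15.Mf Crest.Agent.T15.Lv

variable {L L' q : ℕ} {H : Subgroup (ZMod L)ˣ} {H' : Subgroup (ZMod L')ˣ} {O : Type*} [CommRing O]

lemma Tp_corr (O : Type*) [CommRing O] (L : ℕ) (H : Subgroup (ZMod L)ˣ) (p : Nat.Primes) :
    Tp O L p ∈ Corr O (Gq L H) (Gq L H) := cen_corr₁ (cen_of le_rfl (Tp_cen p.2))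

variable (O) (A : Type*) [AddCommGroup A] [Module O A]

/-- the Hecke operator -/
def tp (L : ℕ) (H : Subgroup (ZMod L)ˣ) (p : Nat.Primes) : Module.End O (HH (Gq L H) A) :=
  T A ⟨Tp O L p, Tp_corr O L H p⟩

lemma tp_comm (p l : Nat.Primes) : Commute (tp O A L H p) (tp O A L H l) :=
  LinearMap.ext fun φ => by
    rw [Module.End.mul_apply, Module.End.mul_apply, tp, tp, T_mul, T_mul]
    refine LinearMap.congr_fun (T_congr ?_) φ
    exact Tp_comm l.2 p.2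

lemma res_tp (hd : L ∣ L') (h : Gq L' H' ≤ Gq L H) {p : Nat.Primes} (hp : ¬ p.1 ∣ L' ∨ p.1 ∣ L)
    (φ : HH (Gq L H) A) : res O A h (tp O A L H p φ) = tp O A L' H' p (res O A h φ) := by
  rw [res, tp, tp, T_mul, T_mul]
  refine LinearMap.congr_fun (T_congr ?_) φ
  simpa using (Null O _).neg_mem (Tp_level (O := O) (H := H) hd p.2 hp)

namespace Stp
variable (h : Stp q H H')
include h

/-- the trace -/
def tr : HH (Gq L' H') A →ₗ[O] HH (Gq L H) A :=
  (h.al (Tp_corr O L' H' ⟨q, h.prime⟩) (Tp_corr O L H ⟨q, h.prime⟩)).tr A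

theorem lev' : Lev (q : O) (res O A h.le) (h.tr O A) (h.W O A) (tp O A L' H' ⟨q, h.prime⟩)
    (tp O A L H ⟨q, h.prime⟩) := h.lev A _ _

lemma cp {p : Nat.Primes} (hp : p.1 ≠ q) : Lev.Cp (res O A h.le) (tp O A L' H' ⟨q, h.prime⟩)
    (tp O A L H ⟨q, h.prime⟩) (tp O A L H p) (tp O A L' H' p) :=
  ⟨res_tp O A h.dvd h.le (by
    rw [h.eq, p.2.dvd_mul, Nat.prime_dvd_prime_iff_eq p.2 h.prime]; tauto),
    tp_comm O A _ _, tp_comm O A _ _⟩

lemma dg_mem {γ : GQ} (hγ : γ ∈ Gq L' H') : dg q * γ * (dg q)⁻¹ ∈ Gq L H := by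
  have := conj_mem (inv_mem (sg_mem L q)) (h.le (h.norm hγ))
  convert this using 1
  rw [wq]; group

/-- the second degeneracy map -/
def dgn : HH (Gq L H) A →ₗ[O] HH (Gq L' H') A := T A ⟨e O (dg q), e_mem_corr fun _ => h.dg_mem⟩

lemma val_dgn (φ : HH (Gq L H) A) {γ : GQ} (hγ : γ ∈ Gq L' H') :
    val (h.dgn O A φ) γ = val φ (dg q * γ * (dg q)⁻¹) := val_T_e _ φ hγ (h.dg_mem hγ)

lemma val_sg (φ : HH (Gq L H) A) {γ : GQ} (hγ : γ ∈ Gq L H) :
    val φ (sg L q * γ * (sg L q)⁻¹) = val φ γ := by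
  obtain ⟨u, hu, hu' | hu'⟩ := h.pm
  · exact val_conj φ (mem_Gq_iff.2 ⟨sg_mem L q, by
      rwa [show dU L (sg L q) = u from Units.ext (by rw [dU_sg h.cop, hu']; simp)]⟩) hγ
  · have h1 := gm_mem_top (L := L) (a := -1) (b := 0) (c := 0) (d := -1) (by simp) (by simp)
    rw [← val_conj φ (δ := sg L q * gm (-1) 0 0 (-1)) (mem_Gq_iff.2 ⟨mul_mem (sg_mem L q) h1.1, by
      rwa [show dU L (sg L q * gm (-1) 0 0 (-1)) = u from Units.ext (by
        rw [dU_mul (sg_mem L q) h1.1, Units.val_mul, dU_sg h.cop, hu', h1.2]; simp)]⟩) hγ,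
      mul_assoc (sg L q) (gm _ _ _ _),
      ← Subgroup.mem_center_iff.1 (gm_center (c := -1) (by simp)) γ]
    congr 1; group

lemma W_res (φ : HH (Gq L H) A) : h.W O A (res O A h.le φ) = h.dgn O A φ := HH.ext fun γ hγ => by
  rw [val_dgn _ _ _ _ hγ, ← h.val_sg A φ (h.dg_mem hγ), W, val_T_e _ _ hγ (h.norm hγ),
    val_res _ _ (h.norm hγ), wq]
  congr 1; group

variable {O} {κ : Type*} {pr : κ → Nat.Primes} {a a' : κ → O} {k₀ : κ}

theorem bijOn (hk : ∀ k, (pr k).1 = q ↔ k = k₀) (hu : Lev.Un (q : O) (a k₀) (a' k₀))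
    (ha : ∀ k, k ≠ k₀ → a k = a' k) :
    Set.BijOn (h.tr O A) (GE (fun k => tp O A L' H' (pr k)) a') (GE (fun k => tp O A L H (pr k)) a) :=
  have e : pr k₀ = ⟨q, h.prime⟩ := Subtype.ext ((hk k₀).2 rfl)
  (h.lev' O A).bijOn hu (by rw [e]) (by rw [e]) fun k hk' => ⟨h.cp O A (mt (hk k).1 hk'), ha k hk'⟩

/-- the `U_q ≡ α` part is old -/
theorem old (hk : ∀ k, (pr k).1 = q ↔ k = k₀) (hu : Lev.Un (q : O) (a k₀) (a' k₀))
    (ha : ∀ k, k ≠ k₀ → a k = a' k) {v : HH (Gq L' H') A}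
    (hv : v ∈ GE (fun k => tp O A L' H' (pr k)) a') :
    ∃ y ∈ GE (fun k => tp O A L H (pr k)) a, ∃ z ∈ GE (fun k => tp O A L H (pr k)) a,
      v = res O A h.le y + h.dgn O A z := by
  have e : pr k₀ = ⟨q, h.prime⟩ := Subtype.ext ((hk k₀).2 rfl)
  obtain ⟨y, hy, z, hz, rfl⟩ := (h.lev' O A).old (t := fun k => tp O A L H (pr k)) hu (by rw [e])
    (by rw [e]) (fun k hk' => ⟨h.cp O A (mt (hk k).1 hk'), ha k hk'⟩) hv
  exact ⟨-z, neg_mem hz, y, hy, by rw [W_res, map_neg]; abel⟩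

end Stp

/-- `Γ_{H'}(L') = Γ_H(L) ∩ Γ₀(∏ S)` -/
structure Tw (S : Finset ℕ) {L L' : ℕ} (H : Subgroup (ZMod L)ˣ) (H' : Subgroup (ZMod L')ˣ) :
    Prop where
  prime : ∀ q ∈ S, q.Prime
  ndvd : ∀ q ∈ S, ¬ q ∣ L
  eq : L' = L * ∏ q ∈ S, q
  mem : ∀ (hd : L ∣ L') u, u ∈ H' ↔ ZMod.unitsMap hd u ∈ H
  pm : ∀ q ∈ S, ∃ u ∈ H, (u : ZMod L) = q ∨ (u : ZMod L) = -q

namespace Tw
variable {S : Finset ℕ}

lemma sub (h : Tw S H H') {S' : Finset ℕ} (hS : S' ⊆ S) :
    Tw S' H (H.comap (ZMod.unitsMap (dvd_mul_right L (∏ q ∈ S', q)))) :=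
  ⟨fun q hq => h.prime q (hS hq), fun q hq => h.ndvd q (hS hq), rfl, fun _ _ => Iff.rfl,
    fun q hq => h.pm q (hS hq)⟩

lemma stp {L₁ : ℕ} {H₁ : Subgroup (ZMod L₁)ˣ} (h : Tw S H H') (hq : q ∈ S)
    (h₁ : Tw (S.erase q) H H₁) : Stp q H₁ H' := by
  have hd : L ∣ L₁ := h₁.eq ▸ dvd_mul_right _ _
  have hp := h.prime q hq
  have hn : ¬ q ∣ L₁ := by
    rw [h₁.eq, hp.dvd_mul, Prime.dvd_finsetProd_iff hp.prime]
    rintro (h' | ⟨l, hl, h'⟩)
    · exact h.ndvd q hq h'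
    · exact (mem_erase.1 hl).1 ((Nat.prime_dvd_prime_iff_eq hp (h₁.prime l hl)).1 h').symm
  refine ⟨hp, hn, by rw [h.eq, h₁.eq, mul_assoc, prod_erase_mul _ _ hq], fun hd' u => ?_, ?_⟩
  · rw [h.mem (hd.trans hd'), h₁.mem hd, ← ZMod.unitsMap_comp hd hd']; rfl
  · let v := ZMod.unitOfCoprime q ((Nat.Prime.coprime_iff_not_dvd hp).2 hn)
    have hv : ((ZMod.unitsMap hd v : (ZMod L)ˣ) : ZMod L) = q := by
      rw [ZMod.unitsMap_val, ZMod.coe_unitOfCoprime, ZMod.cast_natCast hd]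
    obtain ⟨u, hu, hu' | hu'⟩ := h.pm q hq
    · exact ⟨v, (h₁.mem hd v).2 (by rwa [show ZMod.unitsMap hd v = u from
        Units.ext (hv.trans hu'.symm)]), .inl rfl⟩
    · refine ⟨-v, (h₁.mem hd _).2 ?_, .inr rfl⟩
      rwa [show ZMod.unitsMap hd (-v) = u from Units.ext (by
        rw [hu', ← hv, ZMod.unitsMap_val, ZMod.unitsMap_val, Units.val_neg,
          ← ZMod.castHom_apply (h := hd), map_neg, ZMod.castHom_apply])]

variable {O} {κ : Type*} {pr : κ → Nat.Primes} {a α : κ → O}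

/-- **level lowering along `S`** -/
theorem chain (hpr : Function.Injective pr) (h : Tw S H H') (hS : ∀ q ∈ S, ∃ k, (pr k).1 = q)
    (hu : ∀ k, (pr k).1 ∈ S → Lev.Un ((pr k).1 : O) (a k) (α k)) :
    ∃ tr : HH (Gq L' H') A →ₗ[O] HH (Gq L H) A,
      Set.BijOn tr (GE (fun k => tp O A L' H' (pr k)) fun k => if (pr k).1 ∈ S then α k else a k)
        (GE (fun k => tp O A L H (pr k)) a) ∧
      ∀ p : Nat.Primes, p.1 ∉ S →
        ∀ v ∈ GE (fun k => tp O A L' H' (pr k)) fun k => if (pr k).1 ∈ S then α k else a k,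
          tr (tp O A L' H' p v) = tp O A L H p (tr v) := by
  induction S using Finset.induction_on generalizing L' with
  | empty =>
    obtain rfl : L' = L := by simpa using h.eq
    obtain rfl : H' = H := Subgroup.ext fun u => by rw [h.mem dvd_rfl, ZMod.unitsMap_self]; rfl
    exact ⟨LinearMap.id, by simpa using Set.bijOn_id _, fun _ _ _ _ => rfl⟩
  | insert q S hq ih =>
    have h₁ := h.sub (subset_insert q S)
    have hs := h.stp (mem_insert_self q S) (by rwa [erase_insert hq])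
    obtain ⟨tr, h1, h2⟩ := ih h₁ (fun l hl => hS l (mem_insert_of_mem hl))
      fun k hk => hu k (mem_insert_of_mem hk)
    obtain ⟨k₀, hk₀⟩ := hS q (mem_insert_self q S)
    have hk : ∀ k, (pr k).1 = q ↔ k = k₀ := fun k =>
      ⟨fun e => hpr (Subtype.ext (e.trans hk₀.symm)), fun e => e ▸ hk₀⟩
    have hu' : Lev.Un (q : O) (if (pr k₀).1 ∈ S then α k₀ else a k₀)
        (if (pr k₀).1 ∈ insert q S then α k₀ else a k₀) := by
      rw [hk₀, if_neg hq, if_pos (mem_insert_self q S), ← hk₀]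
      exact hu k₀ (hk₀ ▸ mem_insert_self q S)
    have h3 := hs.bijOn A (a := fun k => if (pr k).1 ∈ S then α k else a k)
      (a' := fun k => if (pr k).1 ∈ insert q S then α k else a k) hk hu'
      fun k hk' => by simp [mt (hk k).1 hk']
    refine ⟨tr ∘ₗ hs.tr O A, h1.comp h3, fun p hp v hv => ?_⟩
    rw [mem_insert, not_or] at hp
    have h4 := mem_GE.1 hv k₀
    rw [show pr k₀ = ⟨q, hs.prime⟩ from Subtype.ext hk₀] at h4 hu'
    rw [LinearMap.comp_apply, (hs.lev' O A).tr_comm hu' (hs.cp O A hp.1) h4, h2 p hp.2 _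
      (h3.mapsTo hv), LinearMap.comp_apply]

end Tw

end Crest.Agent.T15.Hk

end
end

-- ▼ part T15/HkChi_62

/-!
# Row 15, block T (helper62): the Taylor–Wiles levels

`H0 L`, `LQ L q`, `Dl m r`, `chi`, `H1`, the covering `covQ` and the towers `tw0`, `stpQ`.
-/

set_option autoImplicit false
set_option linter.unusedSectionVars false

noncomputable section

namespace Crest.Agent.T15.Hk

open Finset Function
open Crest.Agent.T15.Mf Crest.Agent.T15.Lv

/-- the units which are `1` modulo `4` -/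
def H0 (L : ℕ) : Subgroup (ZMod L)ˣ := (ZMod.unitsMap (Nat.gcd_dvd_right 4 L)).ker

lemma mem_H0 {L : ℕ} (h : 4 ∣ L) {u : (ZMod L)ˣ} : u ∈ H0 L ↔ ZMod.unitsMap h u = 1 := by
  have : ∀ (d : ℕ) (hd : d ∣ L), d = 4 → (ZMod.unitsMap hd u = 1 ↔ ZMod.unitsMap h u = 1) := by
    rintro _ _ rfl; rfl
  exact this _ _ (Nat.gcd_eq_left h)

lemma mem_H0_level {L L' : ℕ} (h : 4 ∣ L) (hd : L ∣ L') {u : (ZMod L')ˣ} :
    u ∈ H0 L' ↔ ZMod.unitsMap hd u ∈ H0 L := by
  rw [mem_H0 h, mem_H0 (h.trans hd), ← ZMod.unitsMap_comp h hd]; rfl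

lemma mem_or_neg_mem_H0 {L : ℕ} (h : 4 ∣ L) (u : (ZMod L)ˣ) : u ∈ H0 L ∨ -u ∈ H0 L := by
  have e : ZMod.unitsMap h (-u) = -ZMod.unitsMap h u := Units.ext (by
    rw [Units.val_neg, ZMod.unitsMap_val, ZMod.unitsMap_val, Units.val_neg,
      ← ZMod.castHom_apply (h := h), map_neg, ZMod.castHom_apply])
  rw [mem_H0 h, mem_H0 h, e]
  generalize ZMod.unitsMap h u = v
  revert v; decide

lemma free_H {L : ℕ} (h : 4 ∣ L) {H : Subgroup (ZMod L)ˣ} (hH : H ≤ H0 L) : IsFreeGroup (Gq L H) :=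
  free_Gq h fun _ hu => (mem_H0 h).1 (hH hu)

lemma fg_H {L : ℕ} [NeZero L] (h : 4 ∣ L) {H : Subgroup (ZMod L)ˣ} (hH : H ≤ H0 L) :
    Group.FG (Gq L H) := fg_Gq h fun _ hu => (mem_H0 h).1 (hH hu)

lemma tw_H0 {L L' : ℕ} (h : 4 ∣ L) {S : Finset ℕ} (hp : ∀ q ∈ S, q.Prime) (hn : ∀ q ∈ S, ¬ q ∣ L)
    (e : L' = L * ∏ q ∈ S, q) : Tw S (H0 L) (H0 L') :=
  ⟨hp, hn, e, fun hd _ => mem_H0_level h hd, fun q hq => by
    let v := ZMod.unitOfCoprime q ((Nat.Prime.coprime_iff_not_dvd (hp q hq)).2 (hn q hq))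
    exact (mem_or_neg_mem_H0 h v).elim (fun h => ⟨v, h, .inl rfl⟩) fun h => ⟨-v, h, .inr rfl⟩⟩

/-- the diamond group -/
abbrev Dl (m r : ℕ) : Type := Fin r → Multiplicative (ZMod m)

/-- its generators -/
def del (m : ℕ) {r : ℕ} (i : Fin r) : Dl m r := Pi.mulSingle i (Multiplicative.ofAdd 1)

lemma exists_chi1 {q m : ℕ} (hq : q.Prime) (hm : m ∣ q - 1) :
    ∃ f : (ZMod q)ˣ →* Multiplicative (ZMod m), Surjective f := by
  have := Fact.mk hq
  let e := zmodCyclicMulEquiv (inferInstance : IsCyclic (ZMod q)ˣ)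
  have hc : m ∣ Nat.card (ZMod q)ˣ := by rwa [Nat.card_eq_fintype_card, ZMod.card_units]
  exact ⟨(ZMod.castHom hc (ZMod m)).toAddMonoidHom.toMultiplicative.comp e.symm.toMonoidHom,
    (ZMod.castHom_surjective hc).comp e.symm.surjective⟩

open Classical in
/-- a character of order `m` modulo `q` -/
def chi1 (q m : ℕ) : (ZMod q)ˣ →* Multiplicative (ZMod m) :=
  if h : q.Prime ∧ m ∣ q - 1 then (exists_chi1 h.1 h.2).choose else 1

lemma chi1_surj {q m : ℕ} (hq : q.Prime) (hm : m ∣ q - 1) : Surjective (chi1 q m) := by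
  rw [chi1, dif_pos ⟨hq, hm⟩]; exact (exists_chi1 hq hm).choose_spec

variable {r : ℕ} (L : ℕ) (q : Fin r → ℕ) (m : ℕ)

/-- the level with the auxiliary primes -/
def LQ : ℕ := L * ∏ i, q i

/-- the level without the `i`-th auxiliary prime -/
def LQ' (i : Fin r) : ℕ := L * ∏ j ∈ univ.erase i, q j

lemma dvd_LQ : L ∣ LQ L q := dvd_mul_right _ _

lemma dvd_LQ' (i : Fin r) : L ∣ LQ' L q i := dvd_mul_right _ _

lemma q_dvd_LQ (i : Fin r) : q i ∣ LQ L q := (dvd_prod_of_mem q (mem_univ i)).mul_left _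

/-- the character with values in the diamond group -/
def chi : (ZMod (LQ L q))ˣ →* Dl m r :=
  MonoidHom.pi fun i => (chi1 (q i) m).comp (ZMod.unitsMap (q_dvd_LQ L q i))

lemma chi_apply (u : (ZMod (LQ L q))ˣ) (i : Fin r) :
    chi L q m u i = chi1 (q i) m (ZMod.unitsMap (q_dvd_LQ L q i) u) := rfl

/-- the Taylor–Wiles level structure -/
def H1 : Subgroup (ZMod (LQ L q))ˣ := H0 (LQ L q) ⊓ (chi L q m).ker

lemma H1_le : H1 L q m ≤ H0 (LQ L q) := inf_le_left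

/-- auxiliary primes -/
structure Aux : Prop where
  pos : 0 < L
  four : 4 ∣ L
  inj : Injective q
  prime : ∀ i, (q i).Prime
  ndvd : ∀ i, ¬ q i ∣ L
  dvd : ∀ i, m ∣ q i - 1

namespace Aux
variable {L q m} (h : Aux L q m)
include h

lemma neZero : NeZero (LQ L q) :=
  ⟨mul_ne_zero h.pos.ne' (prod_ne_zero_iff.2 fun i _ => (h.prime i).ne_zero)⟩

lemma neZero' (i : Fin r) : NeZero (LQ' L q i) :=
  ⟨mul_ne_zero h.pos.ne' (prod_ne_zero_iff.2 fun i _ => (h.prime i).ne_zero)⟩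

lemma four' : 4 ∣ LQ L q := h.four.trans (dvd_LQ L q)

lemma tw : Tw (univ.image q) (H0 L) (H0 (LQ L q)) :=
  tw_H0 h.four (by simpa using h.prime) (by simpa using h.ndvd)
    (by rw [prod_image h.inj.injOn, LQ])

lemma tw' (i : Fin r) : Tw ((univ.image q).erase (q i)) (H0 L) (H0 (LQ' L q i)) :=
  tw_H0 h.four (fun l hl => h.tw.prime l (mem_of_mem_erase hl))
    (fun l hl => h.tw.ndvd l (mem_of_mem_erase hl))
    (by rw [← image_erase h.inj, prod_image h.inj.injOn, LQ'])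

lemma stp (i : Fin r) : Stp (q i) (H0 (LQ' L q i)) (H0 (LQ L q)) :=
  h.tw.stp (mem_image_of_mem q (mem_univ i)) (h.tw' i)

/-- a unit with prescribed residue at one auxiliary prime, `1` elsewhere -/
lemma exists_unit (i : Fin r) (v : (ZMod (q i))ˣ) : ∃ u : (ZMod (LQ L q))ˣ,
    ZMod.unitsMap (q_dvd_LQ L q i) u = v ∧ ZMod.unitsMap (h.stp i).dvd u = 1 := by
  have hs := h.stp i
  have hc : (LQ' L q i).Coprime (q i) := ((Nat.Prime.coprime_iff_not_dvd hs.prime).2 hs.ndvd).symm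
  have : ∀ (M : ℕ) (e : M = LQ' L q i * q i) (h1 : q i ∣ M) (h2 : LQ' L q i ∣ M),
      ∃ u : (ZMod M)ˣ, ZMod.unitsMap h1 u = v ∧ ZMod.unitsMap h2 u = 1 := by
    rintro _ rfl h1 h2
    let e := ZMod.chineseRemainder hc
    refine ⟨Units.map e.symm.toMonoidHom (MulEquiv.prodUnits.symm (1, v)), Units.ext ?_, Units.ext ?_⟩
    · have := congrArg Prod.snd (e.apply_symm_apply (1, v))
      rw [ZMod.unitsMap_val]
      simpa [e, ZMod.chineseRemainder, MulEquiv.prodUnits] using this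
    · have := congrArg Prod.fst (e.apply_symm_apply (1, v))
      rw [ZMod.unitsMap_val]
      simpa [e, ZMod.chineseRemainder, MulEquiv.prodUnits] using this
  exact this _ hs.eq _ _

lemma chi_single (i : Fin r) {u : (ZMod (LQ L q))ˣ} (hu : ZMod.unitsMap (h.stp i).dvd u = 1) :
    u ∈ H0 (LQ L q) ∧
      chi L q m u = Pi.mulSingle i (chi1 (q i) m (ZMod.unitsMap (q_dvd_LQ L q i) u)) := by
  refine ⟨((h.stp i).mem _ u).2 (hu ▸ one_mem _), funext fun j => ?_⟩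
  by_cases hj : j = i
  · subst hj; rw [Pi.mulSingle_eq_same, chi_apply]
  · have hd : q j ∣ LQ' L q i := (dvd_prod_of_mem q (by simpa using hj)).mul_left _
    rw [Pi.mulSingle_eq_of_ne hj, chi_apply, ← ZMod.unitsMap_comp hd (h.stp i).dvd,
      MonoidHom.comp_apply, hu, map_one, map_one]

lemma chi_surj (δ : Dl m r) : ∃ u ∈ H0 (LQ L q), chi L q m u = δ := by
  have : ∀ i, ∃ u ∈ H0 (LQ L q), chi L q m u = Pi.mulSingle i (δ i) := fun i => by
    obtain ⟨v, hv⟩ := chi1_surj (h.prime i) (h.dvd i) (δ i)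
    obtain ⟨u, h1, h2⟩ := h.exists_unit i v
    exact ⟨u, (h.chi_single i h2).1, by rw [(h.chi_single i h2).2, h1, hv]⟩
  choose u hu hu' using this
  exact ⟨∏ i, u i, prod_mem fun i _ => hu i, by simp only [map_prod, hu', univ_prod_mulSingle]⟩

theorem cov : Cov ((chi L q m).comp (dch (LQ L q) (H0 (LQ L q)))) (Gq (LQ L q) (H1 L q m)) :=
  Lv.cov _ h.chi_surj fun _ => Iff.rfl

end Aux

lemma isPGroup_Dl (p n r : ℕ) : IsPGroup p (Dl (p ^ n) r) := fun g => ⟨n, funext fun i => by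
  rw [Pi.pow_apply, Pi.one_apply, ← ofAdd_toAdd (g i), ← ofAdd_nsmul, nsmul_eq_mul,
    ZMod.natCast_self, zero_mul, ofAdd_zero]⟩

end Crest.Agent.T15.Hk

end
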