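import Mathlib
import Crest.Agent.R013.GR9_921
import Crest.Agent.R013.RR28_948
import Crest.Agent.R013.GR7_921
import Crest.Agent.T15.IgT_61
import Crest.Agent.T15.CgF_84

-- ▼ part T15/IgA_61
section

/-!
# Row 15, block T (helper61), Igusa part A: decomposition groups of a norm

* `exists_sep` : approximation; `descent` : an element fixed by the decomposition group has the
  residue of an element of the base field;
* `res_ratFunc` : the residue field of the Gauss norm of `C(x)` is `k(x̄)`;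
* `const_of_unit` : an element fixed by the decomposition group which is, together with its inverse,
  integral over `O[x]`, has a constant residue;
* `bar` : the automorphism of the residue field; `finrank_res_le`; `isGalois_res`.
-/

set_option autoImplicit false
set_option linter.unusedSectionVars false

namespace Crest.Agent.T15.Ig

open Polynomial Module
open scoped NNReal
open Crest.Agent.R013.RR8_948 Crest.Agent.R013.RR20_948
open Crest.Agent.R013.GR4_921 Crest.Agent.R013.GR6_921 Crest.Agent.R013.GR9_921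

section approx

variable {T : Type*} [Field T]

theorem w_eq_one_of_lt (w : Valuation T ℝ≥0) {u : T} (h : w (u - 1) < 1) : w u = 1 := by
  have := w.map_one_add_of_lt h
  rwa [add_sub_cancel] at this

theorem w_mul_sub_one (w : Valuation T ℝ≥0) {u v : T} (hu : w (u - 1) < 1) (hv : w (v - 1) < 1) :
    w (u * v - 1) < 1 := by
  have e : u * v - 1 = u * (v - 1) + (u - 1) := by ring
  rw [e]
  refine w.map_add_lt ?_ hu
  rwa [map_mul, w_eq_one_of_lt w hu, one_mul]

theorem w_pow_sub_one (w : Valuation T ℝ≥0) {u : T} (hu : w (u - 1) < 1) (n : ℕ) :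
    w (u ^ n - 1) < 1 := by
  induction n with
  | zero => simp
  | succ n ih => rw [pow_succ]; exact w_mul_sub_one w ih hu

theorem w_prod_sub_one (w : Valuation T ℝ≥0) {ι : Type*} (s : Finset ι) {u : ι → T}
    (hu : ∀ i ∈ s, w (u i - 1) < 1) : w (∏ i ∈ s, u i - 1) < 1 := by
  classical
  induction s using Finset.induction_on with
  | empty => simp
  | insert a s ha ih =>
    rw [Finset.prod_insert ha]
    exact w_mul_sub_one w (hu a (by simp)) (ih fun i hi => hu i (by simp [hi]))

theorem exists_pow_mul_lt {ι : Type*} (s : Finset ι) (a b : ι → ℝ≥0) (ha : ∀ i ∈ s, a i < 1) :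
    ∃ N : ℕ, ∀ i ∈ s, a i ^ N * b i < 1 := by
  have h : ∀ i ∈ s, ∀ᶠ N : ℕ in Filter.atTop, a i ^ N * b i < 1 := by
    intro i hi
    have h1 := (NNReal.tendsto_pow_atTop_nhds_zero_of_lt_one (ha i hi)).mul_const (b i)
    rw [zero_mul] at h1
    exact h1.eventually (gt_mem_nhds zero_lt_one)
  exact ((Filter.eventually_all_finset s).2 h).exists

/-- approximation -/
theorem exists_sep {ι : Type*} (w : Valuation T ℝ≥0) (v : ι → Valuation T ℝ≥0) (s : Finset ι)
    (h : ∀ i ∈ s, ∃ y, w (y - 1) < 1 ∧ v i y < 1) :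
    ∃ u, w (u - 1) < 1 ∧ ∀ i ∈ s, v i u < 1 := by
  classical
  induction s using Finset.induction_on with
  | empty => exact ⟨1, by simp, by simp⟩
  | insert j s hj ih =>
    obtain ⟨u, hu, hus⟩ := ih fun i hi => h i (by simp [hi])
    obtain ⟨y, hy, hyj⟩ := h j (by simp)
    by_cases hju : v j u ≤ 1
    · obtain ⟨N, hN⟩ := exists_pow_mul_lt s (fun i => v i u) (fun i => v i y) hus
      refine ⟨u ^ N * y, w_mul_sub_one w (w_pow_sub_one w hu N) hy, fun i hi => ?_⟩
      rw [map_mul, map_pow]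
      rcases Finset.mem_insert.1 hi with rfl | hi
      · exact (mul_le_of_le_one_left' (pow_le_one' hju N)).trans_lt hyj
      · exact hN i hi
    · rw [not_le] at hju
      have hd : w ((1 - u + u ^ 2) - 1) < 1 := by
        have e : (1 - u + u ^ 2) - 1 = u * (u - 1) := by ring
        rwa [e, map_mul, w_eq_one_of_lt w hu, one_mul]
      have hd1 := w_eq_one_of_lt w hd
      have hd0 : (1 - u + u ^ 2) ≠ 0 := fun e => by simp [e] at hd1
      refine ⟨u / (1 - u + u ^ 2), ?_, fun i hi => ?_⟩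
      · have e : u / (1 - u + u ^ 2) - 1 = -((u - 1) * (u - 1)) / (1 - u + u ^ 2) := by
          field_simp
          ring
        rw [e, map_div₀, hd1, div_one, Valuation.map_neg, map_mul]
        exact (mul_le_of_le_one_left' hu.le).trans_lt hu
      · rcases Finset.mem_insert.1 hi with rfl | hi
        · have h1 : v i (1 - u) < v i (u ^ 2) := by
            rw [map_pow]
            have h2 : v i u < v i u ^ 2 := by
              rw [sq]; exact lt_mul_of_one_lt_left (zero_lt_one.trans hju) hju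
            refine (v i).map_sub_lt ?_ h2
            rw [map_one]
            exact hju.trans h2
          rw [map_div₀, (v i).map_add_eq_of_lt_right h1, map_pow, div_lt_one (by positivity), sq]
          exact lt_mul_of_one_lt_left (zero_lt_one.trans hju) hju
        · have h1 : v i ((1 - u + u ^ 2) - 1) < 1 := by
            have e : (1 - u + u ^ 2) - 1 = u * u - u := by ring
            rw [e]
            refine (v i).map_sub_lt ?_ (hus i hi)
            rw [map_mul]
            exact (mul_le_of_le_one_left' (hus i hi).le).trans_lt (hus i hi)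
          rw [map_div₀, w_eq_one_of_lt _ h1, div_one]
          exact hus i hi

end approx

section red

variable {C T k κ : Type*} [Field C] [Field T] [Algebra C T] [Field k] [Field κ] [Algebra k κ]
  {vC : Valuation C ℝ≥0} {ρC : C → k} {w : Valuation T ℝ≥0} {ρ : T → κ}

/-- an automorphism that keeps the valuation ring keeps the norm -/
theorem w_eq_of_le (h : Red vC ρC w ρ) (g : T ≃ₐ[C] T) (hg : ∀ a, w a ≤ 1 → w (g a) ≤ 1) (f : T) :
    w (g f) = w f := by
  by_cases hf : f = 0
  · simp [hf]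
  obtain ⟨c, hc0, hc, h1⟩ := h.normalise hf
  set z := f * algebraMap C T c⁻¹ with hz
  have hz0 : z ≠ 0 := fun e => by simp [e] at h1
  have h2 := hg z h1.le
  have h3 := hg z⁻¹ (by rw [map_inv₀, h1, inv_one])
  have hgz : w (g z) ≠ 0 := by simpa using hz0
  rw [map_inv₀, map_inv₀, inv_le_one₀ (pos_iff_ne_zero.2 hgz)] at h3
  have h4 : w (g z) = 1 := le_antisymm h2 h3
  have hvc : vC c ≠ 0 := by simpa using hc0
  rw [hz, map_mul, AlgEquiv.commutes, map_mul, h.norm, map_inv₀, mul_inv_eq_one₀ hvc] at h4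
  rw [h4, hc]

theorem exists_sep_one (h : Red vC ρC w ρ) (g : T ≃ₐ[C] T) (hg : ¬ ∀ f, w (g f) = w f) :
    ∃ y, w (y - 1) < 1 ∧ w (g y) < 1 := by
  have h1 : ¬ ∀ a, w a ≤ 1 → w (g a) ≤ 1 := fun e => hg (w_eq_of_le h g e)
  have h2 : ¬ ∀ a, w a ≤ 1 → w (g.symm a) ≤ 1 := fun e => hg fun f => by
    rw [← w_eq_of_le h g.symm e (g f), g.symm_apply_apply]
  push Not at h1 h2
  obtain ⟨a, ha, ha'⟩ := h1
  obtain ⟨b, hb, hb'⟩ := h2
  have ha0 : a ≠ 0 := by rintro rfl; simp at ha'
  have hwa : 0 < w a := pos_iff_ne_zero.2 (by simpa using ha0)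
  set x := g.symm b / a with hx
  have hx1 : 1 < w x := by
    rw [hx, map_div₀, one_lt_div hwa]
    exact ha.trans_lt hb'
  have hx2 : w (g x) < 1 := by
    rw [hx, map_div₀, map_div₀, g.apply_symm_apply, div_lt_one (zero_lt_one.trans ha')]
    exact hb.trans_lt ha'
  have hx3 : w (1 + x) = w x := w.map_add_eq_of_lt_right (by rwa [map_one])
  have hx0 : 1 + x ≠ 0 := fun e => by
    rw [e, map_zero] at hx3
    exact absurd (hx3 ▸ hx1) (by simp)
  refine ⟨x / (1 + x), ?_, ?_⟩
  · have e : x / (1 + x) - 1 = -(1 + x)⁻¹ := by field_simp; ring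
    rw [e, Valuation.map_neg, map_inv₀, hx3]
    exact inv_lt_one_of_one_lt₀ hx1
  · rw [map_div₀, map_div₀, map_add, map_one, w.map_one_add_of_lt hx2, div_one]
    exact hx2

variable {K : Type*} [Field K] [Algebra C K] [Algebra K T] [IsScalarTower C K T]

/-- the decomposition group -/
def stab (K : Type*) [Field K] [Algebra K T] (w : Valuation T ℝ≥0) : Subgroup (T ≃ₐ[K] T) where
  carrier := {g | ∀ f, w (g f) = w f}
  mul_mem' := fun {a b} ha hb f => by rw [AlgEquiv.mul_apply, ha, hb]
  one_mem' := fun f => rfl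
  inv_mem' := fun {a} ha f => by
    rw [← ha (a⁻¹ f)]
    exact congrArg w (a.apply_symm_apply f)


/-- **descent**: the residue of an element fixed by the decomposition group comes from the base -/
theorem descent [FiniteDimensional K T] [IsGalois K T] (h : Red vC ρC w ρ) {y : T} (hy : w y ≤ 1)
    (hfix : ∀ g : T ≃ₐ[K] T, (∀ f, w (g f) = w f) → g y = y) :
    ∃ a : K, w (algebraMap K T a) ≤ 1 ∧ ρ (algebraMap K T a) = ρ y := by
  classical
  set D := stab K w with hD
  let s : Finset (T ≃ₐ[K] T) := Finset.univ.filter fun g => g ∉ D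
  obtain ⟨u, hu, hus⟩ := exists_sep w (fun g : T ≃ₐ[K] T => w.comap (g : T →+* T)) s fun g hg => by
    have hg' : g ∉ D := (Finset.mem_filter.1 hg).2
    exact exists_sep_one h (g.restrictScalars C) hg'
  have hus' : ∀ g : T ≃ₐ[K] T, g ∉ D → w (g u) < 1 := fun g hg =>
    hus g (Finset.mem_filter.2 ⟨Finset.mem_univ _, hg⟩)
  let U : T := ∏ d : D, (d : T ≃ₐ[K] T) u
  have hU1 : w (U - 1) < 1 := w_prod_sub_one w _ fun d _ => by
    have := d.2 (u - 1)
    rw [map_sub, map_one] at this
    rwa [this]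
  have hUD : ∀ d ∈ D, d U = U := fun d hd => by
    simp only [U, map_prod]
    exact Fintype.prod_equiv (Equiv.mulLeft (⟨d, hd⟩ : D)) _ _ fun e => rfl
  have hUs : ∀ g ∈ s, w (g U) < 1 := fun g hg => by
    have hg' : g ∉ D := (Finset.mem_filter.1 hg).2
    have hlt : ∀ d : D, w (g ((d : T ≃ₐ[K] T) u)) < 1 := fun d =>
      hus' (g * d) fun e => hg' (by simpa using D.mul_mem e (D.inv_mem d.2))
    simp only [U, map_prod]
    rw [← Finset.mul_prod_erase _ _ (Finset.mem_univ (1 : D))]
    exact (mul_le_of_le_one_right' (Finset.prod_le_one' fun d _ => (hlt d).le)).trans_lt (hlt 1)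
  obtain ⟨N, hN⟩ := exists_pow_mul_lt s (fun g => w (g U)) (fun g => w (g y)) hUs
  set Y := U ^ N * y with hY
  have hYD : ∀ d ∈ D, d Y = Y := fun d hd => by rw [hY, map_mul, map_pow, hUD d hd, hfix d hd]
  have hYs : ∀ g : T ≃ₐ[K] T, g ∉ D → w (g Y) < 1 := fun g hg => by
    rw [hY, map_mul, map_pow, map_mul, map_pow]
    exact hN g (Finset.mem_filter.2 ⟨Finset.mem_univ _, hg⟩)
  have hUN := w_pow_sub_one w hU1 N
  have hY1 : w Y ≤ 1 := by rw [hY, map_mul, w_eq_one_of_lt w hUN, one_mul]; exact hy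
  have hYy : w (Y - y) < 1 := by
    have e : Y - y = (U ^ N - 1) * y := by rw [hY]; ring
    rw [e, map_mul]
    exact (mul_le_of_le_one_right' hy).trans_lt hUN
  let F : (T ≃ₐ[K] T) ⧸ D → T := fun c => c.out Y
  have hF : ∀ g : T ≃ₐ[K] T, F (g : (T ≃ₐ[K] T) ⧸ D) = g Y := fun g => by
    obtain ⟨d, hd⟩ := QuotientGroup.mk_out_eq_mul D g
    simp only [F]
    rw [hd, AlgEquiv.mul_apply, hYD _ d.2]
  have hinv : ∀ g : T ≃ₐ[K] T, g (∑ c, F c) = ∑ c, F c := fun g => by
    rw [map_sum]
    refine Fintype.sum_equiv (MulAction.toPerm g) _ _ fun c => ?_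
    obtain ⟨a, rfl⟩ := QuotientGroup.mk_surjective c
    rw [hF, MulAction.toPerm_apply, MulAction.Quotient.smul_mk, smul_eq_mul, hF, AlgEquiv.mul_apply]
  obtain ⟨a, ha⟩ := (IsGalois.mem_range_algebraMap_iff_fixed (F := K) (∑ c, F c)).2 hinv
  have hsum : w (∑ c, F c - Y) < 1 := by
    rw [← Finset.add_sum_erase _ _ (Finset.mem_univ ((1 : T ≃ₐ[K] T) : (T ≃ₐ[K] T) ⧸ D)), hF,
      AlgEquiv.one_apply, add_sub_cancel_left]
    refine w.map_sum_lt one_ne_zero fun c hc => ?_
    obtain ⟨g, rfl⟩ := QuotientGroup.mk_surjective c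
    rw [hF]
    refine hYs g fun hg => (Finset.mem_erase.1 hc).1 ?_
    rw [QuotientGroup.eq]
    simpa using hg
  have hay : w (algebraMap K T a - y) < 1 := by
    have e : algebraMap K T a - y = (∑ c, F c - Y) + (Y - y) := by rw [ha]; ring
    rw [e]
    exact w.map_add_lt hsum hYy
  have ha1 : w (algebraMap K T a) ≤ 1 := by
    have e : algebraMap K T a = (algebraMap K T a - y) + y := by ring
    rw [e]
    exact (w.map_add _ _).trans (max_le hay.le hy)
  exact ⟨a, ha1, (h.res.eq_iff ha1 hy).2 hay⟩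

/-! ### the residue automorphism -/

theorem res_congr (h : IsRes w ρ) (g : T ≃+* T) (hg : ∀ f, w (g f) = w f) {a b : T} (ha : w a ≤ 1)
    (hb : w b ≤ 1) (e : ρ a = ρ b) : ρ (g a) = ρ (g b) := by
  rw [h.eq_iff ha hb] at e
  rwa [h.eq_iff (by rwa [hg]) (by rwa [hg]), ← map_sub, hg]

/-- the map of residue fields as a function -/
noncomputable def barF (h : IsRes w ρ) (g : T ≃+* T) (z : κ) : κ := ρ (g (h.surj z).choose)

theorem barF_res (h : IsRes w ρ) (g : T ≃+* T) (hg : ∀ f, w (g f) = w f) {a : T} (ha : w a ≤ 1) :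
    barF h g (ρ a) = ρ (g a) :=
  res_congr h g hg (h.surj (ρ a)).choose_spec.1 ha (h.surj (ρ a)).choose_spec.2

/-- the automorphism of the residue field induced by an isometric automorphism -/
noncomputable def bar (h : Red vC ρC w ρ) (g : T ≃ₐ[C] T) (hg : ∀ f, w (g f) = w f) : κ ≃ₐ[k] κ where
  toFun := barF h.res g.toRingEquiv
  invFun := barF h.res g.symm.toRingEquiv
  left_inv z := by
    obtain ⟨a, ha, rfl⟩ := h.res.surj z
    have hg' : ∀ f, w (g.symm f) = w f := fun f => by rw [← hg, g.apply_symm_apply]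
    rw [barF_res h.res _ hg ha, barF_res h.res g.symm.toRingEquiv hg' (by rwa [← hg a] at ha)]
    exact congrArg ρ (g.symm_apply_apply a)
  right_inv z := by
    obtain ⟨a, ha, rfl⟩ := h.res.surj z
    have hg' : ∀ f, w (g.symm f) = w f := fun f => by rw [← hg, g.apply_symm_apply]
    rw [barF_res h.res g.symm.toRingEquiv hg' ha, barF_res h.res _ hg (by rwa [← hg' a] at ha)]
    exact congrArg ρ (g.apply_symm_apply a)
  map_mul' z z' := by
    obtain ⟨a, ha, rfl⟩ := h.res.surj z
    obtain ⟨b, hb, rfl⟩ := h.res.surj z'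
    rw [← h.res.mul a b ha hb, barF_res h.res _ hg ha, barF_res h.res _ hg hb,
      barF_res h.res _ hg (by rw [map_mul]; exact mul_le_one' ha hb), map_mul,
      h.res.mul _ _ (by rwa [← hg a] at ha) (by rwa [← hg b] at hb)]
  map_add' z z' := by
    obtain ⟨a, ha, rfl⟩ := h.res.surj z
    obtain ⟨b, hb, rfl⟩ := h.res.surj z'
    rw [← h.res.add a b ha hb, barF_res h.res _ hg ha, barF_res h.res _ hg hb,
      barF_res h.res _ hg ((w.map_add _ _).trans (max_le ha hb)), map_add,
      h.res.add _ _ (by rwa [← hg a] at ha) (by rwa [← hg b] at hb)]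
  commutes' c := by
    obtain ⟨a, ha, rfl⟩ := h.resC.surj c
    rw [← h.comp a ha, barF_res h.res _ hg (by rwa [h.norm])]
    exact congrArg ρ (g.commutes a)

theorem bar_res (h : Red vC ρC w ρ) (g : T ≃ₐ[C] T) (hg : ∀ f, w (g f) = w f) {a : T}
    (ha : w a ≤ 1) : bar h g hg (ρ a) = ρ (g a) := barF_res h.res _ hg ha


/-! ### degrees of residue fields -/

theorem card_le_of_li {L κL : Type*} [Field L] [Field κL] [Algebra L T] [Algebra κL κ]
    [FiniteDimensional L T] (h : IsRes w ρ)
    (hL : ∀ a : L, w (algebraMap L T a) ≤ 1 → ρ (algebraMap L T a) ∈ Set.range (algebraMap κL κ))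
    {ι : Type*} [Fintype ι] {z : ι → κ} (hz : LinearIndependent κL z) :
    Fintype.card ι ≤ finrank L T := by
  classical
  choose t ht hρ using fun i => h.surj (z i)
  refine LinearIndependent.fintype_card_le_finrank (b := t) ?_
  rw [Fintype.linearIndependent_iff]
  intro a ha
  by_contra hne
  push Not at hne
  obtain ⟨i1, hi1⟩ := hne
  obtain ⟨i0, -, hi0⟩ := Finset.exists_max_image Finset.univ (fun i => w (algebraMap L T (a i)))
    ⟨i1, Finset.mem_univ _⟩
  have hpos : 0 < w (algebraMap L T (a i0)) :=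
    lt_of_lt_of_le (pos_iff_ne_zero.2 (by simpa using hi1)) (hi0 i1 (Finset.mem_univ _))
  have h0 : a i0 ≠ 0 := by rintro e; simp [e] at hpos
  have hb : ∀ i, w (algebraMap L T (a i / a i0)) ≤ 1 := fun i => by
    rw [map_div₀, map_div₀, div_le_one hpos]
    exact hi0 i (Finset.mem_univ _)
  choose b hbρ using fun i => hL _ (hb i)
  have hsum : ∑ i, algebraMap L T (a i / a i0) * t i = 0 := by
    have := congrArg (fun x => (a i0)⁻¹ • x) ha
    simp only [Finset.smul_sum, smul_smul, smul_zero] at this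
    rw [← this]
    exact Finset.sum_congr rfl fun i _ => by rw [Algebra.smul_def, div_eq_inv_mul]
  have hsum' : ∑ i, b i • z i = 0 := by
    have := congrArg ρ hsum
    rw [h.sum _ _ fun i _ => by rw [map_mul]; exact mul_le_one' (hb i) (ht i), h.zero] at this
    rw [← this]
    exact Finset.sum_congr rfl fun i _ => by
      rw [Algebra.smul_def, h.mul _ _ (hb i) (ht i), hbρ, hρ]
  have := Fintype.linearIndependent_iff.1 hz b hsum' i0
  have h1 := hbρ i0
  rw [this, div_self h0, map_one, map_zero, h.one] at h1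
  exact zero_ne_one h1

theorem finrank_res_le {L κL : Type*} [Field L] [Field κL] [Algebra L T] [Algebra κL κ]
    [FiniteDimensional L T] (h : IsRes w ρ)
    (hL : ∀ a : L, w (algebraMap L T a) ≤ 1 → ρ (algebraMap L T a) ∈ Set.range (algebraMap κL κ)) :
    FiniteDimensional κL κ ∧ finrank κL κ ≤ finrank L T := by
  have hr : Module.rank κL κ ≤ finrank L T := rank_le fun s hs => by
    simpa using card_le_of_li h hL hs
  have hfin : FiniteDimensional κL κ :=
    Module.rank_lt_aleph0_iff.1 (hr.trans_lt Cardinal.natCast_lt_aleph0)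
  exact ⟨hfin, finrank_le_of_rank_le hr⟩

/-- The homomorphism of Galois groups when the norm is invariant. -/
noncomputable def barHom {L κL : Type*} [Field L] [Field κL] [Algebra L T] [Algebra κL κ]
    [Algebra C L] [IsScalarTower C L T] (h : Red vC ρC w ρ)
    (hw : ∀ (g : T ≃ₐ[L] T) f, w (g f) = w f)
    (hL : ∀ z : κL, ∃ a : L, w (algebraMap L T a) ≤ 1 ∧ ρ (algebraMap L T a) = algebraMap κL κ z) :
    (T ≃ₐ[L] T) →* (κ ≃ₐ[κL] κ) :=
  MonoidHom.mk' (fun g => AlgEquiv.ofRingEquiv (f := (bar h (g.restrictScalars C) (hw g)).toRingEquiv)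
    fun z => by
      obtain ⟨a, ha, e⟩ := hL z
      rw [← e]
      exact (bar_res h _ (hw g) ha).trans (congrArg ρ (g.commutes a)))
    fun g g' => by
      ext z
      obtain ⟨a, ha, rfl⟩ := h.res.surj z
      refine (bar_res h _ (hw (g * g')) ha).trans ?_
      change _ = bar h (g.restrictScalars C) (hw g) (bar h (g'.restrictScalars C) (hw g') (ρ a))
      rw [bar_res h _ (hw g') ha, bar_res h _ (hw g) (by rw [← hw g' a] at ha; exact ha)]
      rfl

theorem barHom_res {L κL : Type*} [Field L] [Field κL] [Algebra L T] [Algebra κL κ]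
    [Algebra C L] [IsScalarTower C L T] (h : Red vC ρC w ρ)
    (hw : ∀ (g : T ≃ₐ[L] T) f, w (g f) = w f)
    (hL : ∀ z : κL, ∃ a : L, w (algebraMap L T a) ≤ 1 ∧ ρ (algebraMap L T a) = algebraMap κL κ z)
    (g : T ≃ₐ[L] T) {a : T} (ha : w a ≤ 1) : barHom h hw hL g (ρ a) = ρ (g a) :=
  bar_res h _ (hw g) ha

/-- **Trivial inertia and full decomposition group**: the residue extension is Galois with the same
group. -/
theorem isGalois_res {L κL : Type*} [Field L] [Field κL] [Algebra L T] [Algebra κL κ]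
    [Algebra C L] [IsScalarTower C L T] [FiniteDimensional L T] [IsGalois L T] (h : Red vC ρC w ρ)
    (hw : ∀ (g : T ≃ₐ[L] T) f, w (g f) = w f)
    (hL : ∀ z : κL, ∃ a : L, w (algebraMap L T a) ≤ 1 ∧ ρ (algebraMap L T a) = algebraMap κL κ z)
    (hL' : ∀ a : L, w (algebraMap L T a) ≤ 1 → ρ (algebraMap L T a) ∈ Set.range (algebraMap κL κ))
    (hI : ∀ g : T ≃ₐ[L] T, (∀ f, w f ≤ 1 → w (g f - f) < 1) → g = 1) :
    FiniteDimensional κL κ ∧ IsGalois κL κ ∧ finrank κL κ = finrank L T ∧
      Function.Bijective (barHom h hw hL) := by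
  classical
  obtain ⟨hfin, hle⟩ := finrank_res_le (κL := κL) h.res hL'
  have hinj : Function.Injective (barHom h hw hL) := (injective_iff_map_eq_one _).2 fun g hg =>
    hI g fun f hf => by
      rw [← h.res.eq_iff (by rwa [hw]) hf, ← barHom_res h hw hL g hf, hg]
      rfl
  have h1 : Nat.card (T ≃ₐ[L] T) ≤ Nat.card (κ ≃ₐ[κL] κ) := Nat.card_le_card_of_injective _ hinj
  have h2 : Nat.card (κ ≃ₐ[κL] κ) ≤ finrank κL κ := by
    rw [Nat.card_eq_fintype_card]
    exact AlgEquiv.card_le
  have h3 := IsGalois.card_aut_eq_finrank L T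
  exact ⟨hfin, IsGalois.of_card_aut_eq_finrank κL κ (by omega), by omega,
    (Nat.bijective_iff_injective_and_card _).2 ⟨hinj, by omega⟩⟩

end red

section gauss

variable {C T k κ : Type*} [Field C] [Field T] [Algebra C T] [Field k] [IsAlgClosed k] [Field κ]
  [Algebra k κ] {vC : Valuation C ℝ≥0} {ρC : C → k} {w : Valuation T ℝ≥0} {ρ : T → κ}

theorem transcendental_of_notMem {z : κ} (hz : z ∉ Set.range (algebraMap k κ)) :
    Transcendental k z := fun ha => hz
  (minpoly.mem_range_of_degree_eq_one k z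
    (IsAlgClosed.degree_eq_one_of_irreducible k (minpoly.irreducible ha.isIntegral)))

/-- polynomials of norm `≤ 1` reduce to polynomials -/
theorem res_poly (h : Red vC ρC w ρ) {x : T} (hx : w x ≤ 1)
    (hρ : ρ x ∉ Set.range (algebraMap k κ)) {p : C[X]} (hp : w (aeval x p) ≤ 1) :
    ρ (aeval x p) = aeval (ρ x) (redP ρC p) :=
  res_aeval h (fun n => (gauss_of_res h hx hρ p n).trans hp) hx

/-- every polynomial lifts -/
theorem lift_poly (h : Red vC ρC w ρ) {x : T} (hx : w x ≤ 1) (q : k[X]) :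
    ∃ p : C[X], w (aeval x p) ≤ 1 ∧ ρ (aeval x p) = aeval (ρ x) q := by
  induction q using Polynomial.induction_on' with
  | add q q' hq hq' =>
    obtain ⟨p, h1, h2⟩ := hq
    obtain ⟨p', h1', h2'⟩ := hq'
    refine ⟨p + p', ?_, ?_⟩
    · rw [map_add]; exact (w.map_add _ _).trans (max_le h1 h1')
    · rw [map_add, map_add, h.res.add _ _ h1 h1', h2, h2']
  | monomial n c =>
    obtain ⟨a, ha, rfl⟩ := h.resC.surj c
    have h1 : w (algebraMap C T a) ≤ 1 := by rwa [h.norm]
    have h2 : w (x ^ n) ≤ 1 := by rw [map_pow]; exact pow_le_one' hx n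
    refine ⟨monomial n a, ?_, ?_⟩
    · rw [aeval_monomial, map_mul]; exact mul_le_one' h1 h2
    · rw [aeval_monomial, aeval_monomial, h.res.mul _ _ h1 h2, h.comp a ha, h.res.pow hx]

variable [Algebra (RatFunc C) T] [IsScalarTower C (RatFunc C) T]

theorem algebraMap_poly (p : C[X]) :
    algebraMap (RatFunc C) T (algebraMap C[X] (RatFunc C) p) = aeval (xK C T) p := by
  have h1 : aeval (RatFunc.X : RatFunc C) p = algebraMap C[X] (RatFunc C) p := by
    rw [← RatFunc.algebraMap_X, aeval_algebraMap_apply, aeval_X_left_apply]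
  rw [← h1, xK, aeval_algebraMap_apply]

theorem ratHom_poly {z : κ} (hz : Transcendental k z) (p : k[X]) :
    ratHom z hz (algebraMap k[X] (RatFunc k) p) = aeval z p := by
  have h1 : aeval (RatFunc.X : RatFunc k) p = algebraMap k[X] (RatFunc k) p := by
    rw [← RatFunc.algebraMap_X, aeval_algebraMap_apply, aeval_X_left_apply]
  rw [← h1, ← aeval_algHom_apply, ratHom_X]

/-- the residue field of the Gauss norm is the rational function field -/
theorem res_ratFunc (h : Red vC ρC w ρ) (hx : w (xK C T) ≤ 1)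
    (hρ : ρ (xK C T) ∉ Set.range (algebraMap k κ)) {a : RatFunc C}
    (ha : w (algebraMap (RatFunc C) T a) ≤ 1) :
    ρ (algebraMap (RatFunc C) T a) ∈ Set.range (ratHom _ (transcendental_of_notMem hρ)) := by
  have hd : aeval (xK C T) a.denom ≠ 0 := by
    rw [← algebraMap_poly]
    simpa using a.denom_ne_zero
  obtain ⟨c, hc0, -, h1⟩ := h.normalise hd
  have e1 : aeval (xK C T) a.denom * algebraMap C T c⁻¹ = aeval (xK C T) (a.denom * Polynomial.C c⁻¹) := by
    simp
  have e2 : algebraMap (RatFunc C) T a * aeval (xK C T) (a.denom * Polynomial.C c⁻¹) =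
      aeval (xK C T) (a.num * Polynomial.C c⁻¹) := by
    have e3 : a * algebraMap C[X] (RatFunc C) a.denom = algebraMap C[X] (RatFunc C) a.num := by
      rw [← eq_div_iff (by simpa using a.denom_ne_zero), RatFunc.num_div_denom]
    rw [map_mul, map_mul, ← mul_assoc, ← algebraMap_poly a.denom, ← algebraMap_poly a.num,
      ← map_mul, e3]
  rw [e1] at h1
  have h2 : w (aeval (xK C T) (a.num * Polynomial.C c⁻¹)) ≤ 1 := by rw [← e2, map_mul, h1, mul_one]; exact ha
  have h3 := congrArg ρ e2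
  rw [h.res.mul _ _ ha h1.le, res_poly h hx hρ h2] at h3
  have h4 := (h.res.ne_zero_iff h1.le).2 h1
  rw [← eq_div_iff h4, res_poly h hx hρ h1.le] at h3
  exact ⟨algebraMap k[X] _ (redP ρC (a.num * Polynomial.C c⁻¹)) /
    algebraMap k[X] _ (redP ρC (a.denom * Polynomial.C c⁻¹)),
    by rw [map_div₀, ratHom_poly, ratHom_poly, h3]⟩

/-- every rational function lifts -/
theorem lift_ratFunc (h : Red vC ρC w ρ) (hx : w (xK C T) ≤ 1)
    (hρ : ρ (xK C T) ∉ Set.range (algebraMap k κ)) (r : RatFunc k) :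
    ∃ a : RatFunc C, w (algebraMap (RatFunc C) T a) ≤ 1 ∧
      ρ (algebraMap (RatFunc C) T a) = ratHom _ (transcendental_of_notMem hρ) r := by
  obtain ⟨p, h1, h2⟩ := lift_poly h hx r.num
  obtain ⟨q, h3, h4⟩ := lift_poly h hx r.denom
  have h5 : ρ (aeval (xK C T) q) ≠ 0 := by
    rw [h4, ← ratHom_poly (transcendental_of_notMem hρ)]
    simpa using r.denom_ne_zero
  have h6 := (h.res.ne_zero_iff h3).1 h5
  refine ⟨algebraMap C[X] _ p / algebraMap C[X] _ q, ?_, ?_⟩
  · rw [map_div₀, algebraMap_poly, algebraMap_poly, map_div₀, h6, div_one]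
    exact h1
  · rw [map_div₀, algebraMap_poly, algebraMap_poly, h.res.div h1 h6, h2, h4,
      ← ratHom_poly (transcendental_of_notMem hρ), ← ratHom_poly (transcendental_of_notMem hρ),
      ← map_div₀, RatFunc.num_div_denom]

variable [FiniteDimensional (RatFunc C) T] [IsGalois (RatFunc C) T]

/-- An element of a stable ring `A` whose invariants are polynomials, fixed by the decomposition
group, with all conjugates of norm `≤ 1`, reduces to a polynomial. -/
theorem poly_of_integral (h : Red vC ρC w ρ) (hx : w (xK C T) ≤ 1)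
    (hρ : ρ (xK C T) ∉ Set.range (algebraMap k κ)) (A : Subring T)
    (hA : ∀ (g : T ≃ₐ[RatFunc C] T), ∀ a ∈ A, g a ∈ A)
    (hA' : ∀ a ∈ A, (∀ g : T ≃ₐ[RatFunc C] T, g a = a) → ∃ p : C[X], a = aeval (xK C T) p)
    {y : T} (hyA : y ∈ A) (hy : ∀ g : T ≃ₐ[RatFunc C] T, w (g y) ≤ 1)
    (hfix : ∀ g : T ≃ₐ[RatFunc C] T, (∀ f, w (g f) = w f) → g y = y) :
    ∃ q : k[X], ρ y = aeval (ρ (xK C T)) q := by
  classical
  have hy1 : w y ≤ 1 := hy 1
  have ht := transcendental_of_notMem hρ
  obtain ⟨a, ha, e⟩ := descent (K := RatFunc C) h hy1 hfix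
  obtain ⟨r, hr⟩ := res_ratFunc h hx hρ ha
  rw [e] at hr
  -- the characteristic polynomial
  let B : Subring T := A ⊓ w.integer
  let P : T[X] := MulSemiringAction.charpoly (T ≃ₐ[RatFunc C] T) y
  have hPm : P.Monic := MulSemiringAction.monic_charpoly _ y
  have hPl : P ∈ lifts B.subtype := by
    simp only [P, MulSemiringAction.charpoly_eq]
    refine Subsemiring.prod_mem _ fun g _ => ?_
    exact ⟨X - Polynomial.C ⟨g • y, hA g y hyA, hy g⟩, by simp⟩
  have hPc : ∀ n, P.coeff n ∈ B := fun n => by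
    obtain ⟨b, hb⟩ := (lifts_iff_coeff_lifts P).1 hPl n
    rw [← hb]; exact b.2
  have hq : ∀ n, ∃ q : k[X], ρ (P.coeff n) = aeval (ρ (xK C T)) q := fun n => by
    obtain ⟨p, hp⟩ := hA' _ (hPc n).1 fun g => MulSemiringAction.smul_coeff_charpoly y n g
    have h2 : w (P.coeff n) ≤ 1 := (hPc n).2
    rw [hp] at h2 ⊢
    exact ⟨_, res_poly h hx hρ h2⟩
  choose q hq using hq
  have hev : y ^ P.natDegree + ∑ i ∈ Finset.range P.natDegree, P.coeff i * y ^ i = 0 := by
    have := MulSemiringAction.eval_charpoly (T ≃ₐ[RatFunc C] T) y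
    change P.eval y = 0 at this
    rw [eval_eq_sum_range, Finset.sum_range_succ, hPm.coeff_natDegree, one_mul, add_comm] at this
    exact this
  have hyi : ∀ i : ℕ, w (y ^ i) ≤ 1 := fun i => by rw [map_pow]; exact pow_le_one' hy1 i
  have hci : ∀ i : ℕ, w (P.coeff i * y ^ i) ≤ 1 := fun i => by
    rw [map_mul]; exact mul_le_one' (hPc i).2 (hyi i)
  have hev' := congrArg ρ hev
  rw [h.res.add _ _ (hyi _) (w.map_sum_le fun i _ => hci i), h.res.sum _ _ fun i _ => hci i,
    h.res.zero, h.res.pow hy1] at hev'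
  have hint : IsIntegral k[X] r := by
    refine ⟨X ^ P.natDegree + ∑ i ∈ Finset.range P.natDegree, Polynomial.C (q i) * X ^ i, ?_, ?_⟩
    · refine monic_X_pow_add ?_
      refine (degree_sum_le _ _).trans_lt ?_
      rw [Finset.sup_lt_iff (by exact WithBot.bot_lt_coe _)]
      intro i hi
      exact (degree_C_mul_X_pow_le i _).trans_lt (by exact_mod_cast Finset.mem_range.1 hi)
    · have hinj : Function.Injective (ratHom _ ht) := (ratHom _ ht).injective
      apply hinj
      rw [eval₂_add, eval₂_finsetSum, map_add, map_sum, map_zero, ← hev', eval₂_X_pow, map_pow, hr]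
      congr 1
      refine Finset.sum_congr rfl fun i _ => ?_
      rw [eval₂_mul, eval₂_C, eval₂_X_pow, map_mul, map_pow, hr, ratHom_poly,
        h.res.mul _ _ (hPc i).2 (hyi i), hq, h.res.pow hy1]
  obtain ⟨p, hp⟩ := IsIntegrallyClosed.isIntegral_iff.1 hint
  exact ⟨p, by rw [← hr, ← hp, ratHom_poly]⟩

/-- **units have constant residues** -/
theorem const_of_unit (h : Red vC ρC w ρ) (hx : w (xK C T) ≤ 1)
    (hρ : ρ (xK C T) ∉ Set.range (algebraMap k κ)) (A : Subring T)
    (hA : ∀ (g : T ≃ₐ[RatFunc C] T), ∀ a ∈ A, g a ∈ A)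
    (hA' : ∀ a ∈ A, (∀ g : T ≃ₐ[RatFunc C] T, g a = a) → ∃ p : C[X], a = aeval (xK C T) p)
    {y : T} (hyA : y ∈ A) (hyA' : y⁻¹ ∈ A)
    (hy : ∀ g : T ≃ₐ[RatFunc C] T, w (g y) = 1)
    (hfix : ∀ g : T ≃ₐ[RatFunc C] T, (∀ f, w (g f) = w f) → g y = y) :
    ρ y ∈ Set.range (algebraMap k κ) := by
  have h1 : w y = 1 := hy 1
  obtain ⟨q, hq⟩ := poly_of_integral h hx hρ A hA hA' hyA (fun g => (hy g).le) hfix
  obtain ⟨q', hq'⟩ := poly_of_integral h hx hρ A hA hA' hyA'
    (fun g => by rw [map_inv₀, map_inv₀, hy, inv_one]) (fun g hg => by rw [map_inv₀, hfix g hg])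
  have h0 := (h.res.ne_zero_iff h1.le).2 h1
  have h2 : q * q' = 1 := by
    apply transcendental_iff_injective.1 (transcendental_of_notMem hρ)
    rw [map_mul, ← hq, ← hq', h.res.inv h1, mul_inv_cancel₀ h0, map_one]
  obtain ⟨c, -, hc⟩ := Polynomial.isUnit_iff.1 (IsUnit.of_mul_eq_one _ h2)
  exact ⟨c, by rw [hq, ← hc, aeval_C]⟩

end gauss

end Crest.Agent.T15.Ig
end

-- ▼ part T15/IgB_61
section

/-!
# Row 15, block T (helper61), Igusa part B: the genus of a cover branched at `0, 1, ∞`

* `Zr u` the zeros of `u`, `ncusp k K` the number of places over `0, 1, ∞`;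
* `gen_ge` : `[K : k(x)] - ncusp ≤ 2 g - 2`; `gen_le_of_unr` : equality in characteristic zero when
  there is no other ramification;
* `card_above_le` : comparison of the numbers of places in two Galois situations;
* `mem_zpowers_of_fix` : the stabiliser of a place.
-/

set_option autoImplicit false
set_option linter.unusedSectionVars false

namespace Crest.Agent.T15.Ig

open Polynomial Module WithZero
open scoped NNReal
open Crest.Agent.R013.RR7_948 Crest.Agent.R013.RR8_948 Crest.Agent.R013.RR9_948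
open Crest.Agent.R013.RR11_948 Crest.Agent.R013.RR12_948 Crest.Agent.R013.RR13_948
open Crest.Agent.R013.RR14_948
open Crest.Agent.R013.RR18_948 Crest.Agent.R013.RR19_948 Crest.Agent.R013.RR20_948
open Crest.Agent.R013.RR21_948 Crest.Agent.R013.RR22_948
open Crest.Agent.R013.GR2_921 (exists_const degP_eq_one hc_of_isAlgClosed)
open Crest.Agent.R013.Car5_700 (v_del_eq v_del_le v_del_le')
open Crest.Agent.R013.RR28_948 (ratFunc_finite ratFunc_infinite v_C v_C_le)

section count

variable {k : Type*} [Field k] [IsAlgClosed k] {K : Type*} [Field K] [Algebra k K]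
  [Algebra (RatFunc k) K] [IsScalarTower k (RatFunc k) K] [FiniteDimensional (RatFunc k) K]
  [Algebra.IsSeparable (RatFunc k) K]

variable (k) in
/-- the zeros of `u` -/
noncomputable def Zr (u : K) : Finset (Pl k K) :=
  (divf (k := k) u).support.filter fun P => 0 < divf (k := k) u P

theorem mem_Zr' {u : K} {P : Pl k K} : P ∈ Zr k u ↔ 0 < divf (k := k) u P := by
  simp only [Zr, Finset.mem_filter, Finsupp.mem_support_iff]
  exact ⟨fun h => h.2, fun h => ⟨h.ne', h⟩⟩

theorem mem_Zr {u : K} (hu : u ≠ 0) {P : Pl k K} : P ∈ Zr k u ↔ P.v u < 1 := by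
  rw [mem_Zr', v_eq hu, ← exp_zero, exp_lt_exp]
  omega

/-- the reduced divisor of a finite set of places -/
noncomputable def indD (S : Finset (Pl k K)) : Pl k K →₀ ℤ := ∑ P ∈ S, Finsupp.single P 1

open Classical in
theorem indD_apply (S : Finset (Pl k K)) (P : Pl k K) : indD S P = if P ∈ S then 1 else 0 := by
  simp [indD, Finsupp.finsetSum_apply, Finsupp.single_apply]

theorem degD_indD (S : Finset (Pl k K)) : degD (indD S) = S.card := by
  rw [indD, degD_sum]
  simp [degD_single, degP_eq_one]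










theorem v_del_tame (P : Pl k K) {f : K} {n : ℤ} (hf : P.v f = exp (-n)) (hn : (n : k) ≠ 0) :
    P.v (del k K f) = exp (-n + canD k K P + 1) := by
  obtain ⟨s, hs0, hs⟩ := exists_v_eq P (-1)
  set u := f * s ^ (-n) with hu
  have hvu : P.v u = 1 := by
    rw [hu, map_mul, map_zpow₀, hf, hs, ← exp_zsmul, ← exp_add]; simp
  have hf' : f = s ^ n * u := by
    rw [hu, mul_comm f, ← mul_assoc, ← zpow_add₀ hs0]; simp
  have h3 : del k K f = s ^ n * del k K u + u * ((n : K) * (s ^ (n - 1) * del k K s)) := by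
    conv_lhs => rw [hf']
    rw [Derivation.leibniz, Derivation.leibniz_zpow, smul_eq_mul, smul_eq_mul, smul_eq_mul,
      zsmul_eq_mul]
  have hve : P.v (n : K) = 1 := by
    have h4 : (n : K) = algebraMap k K (n : k) := by simp
    rw [h4, P.const _ hn]
  have hA : P.v (u * ((n : K) * (s ^ (n - 1) * del k K s))) = exp (-n + canD k K P + 1) := by
    rw [map_mul, hvu, one_mul, map_mul, hve, one_mul, map_mul, map_zpow₀, hs, ← exp_zsmul,
      v_del_eq P hs, ← exp_add]
    congr 1
    simp only [smul_eq_mul]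
    ring
  have hB : P.v (s ^ n * del k K u) < exp (-n + canD k K P + 1) := by
    rw [map_mul, map_zpow₀, hs, ← exp_zsmul]
    calc exp (n • (-1)) * P.v (del k K u) ≤ exp (n • (-1)) * exp (canD k K P) :=
        mul_le_mul_right (v_del_le P hvu.le) _
      _ < _ := by rw [← exp_add, exp_lt_exp, smul_eq_mul]; omega
  rw [h3, Valuation.map_add_eq_of_lt_right, hA]
  rw [hA]; exact hB


end count

section rat

variable {k : Type*} [Field k] [IsAlgClosed k]

/-- the three functions `X`, `1 - X`, `1 / X` -/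
noncomputable def tri (k : Type*) [Field k] (i : Fin 3) : RatFunc k :=
  ![RatFunc.X, 1 - RatFunc.X, RatFunc.X⁻¹] i

theorem eq_of_lt_fin (a : k) {P P' : Pl k (RatFunc k)} (h : P.v (RatFunc.X - RatFunc.C a) < 1)
    (h' : P'.v (RatFunc.X - RatFunc.C a) < 1) : P = P' := by
  have hle : ∀ R : Pl k (RatFunc k), R.v (RatFunc.X - RatFunc.C a) < 1 → R.v RatFunc.X ≤ 1 :=
    fun R hR => by
      have e : (RatFunc.X : RatFunc k) = (RatFunc.X - RatFunc.C a) + RatFunc.C a := by ring
      rw [e]
      exact (R.v.map_add _ _).trans (max_le hR.le (v_C_le R a))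
  obtain ⟨b, hb, hb'⟩ := ratFunc_finite P (hle P h)
  have hab : a = b := by
    by_contra hne
    have h1 : P.v (RatFunc.C (b - a)) < 1 := by
      have e : RatFunc.C (b - a) = (RatFunc.X - RatFunc.C a) - (RatFunc.X - RatFunc.C b) := by
        rw [map_sub]; ring
      rw [e]
      refine P.v.map_sub_lt h ?_
      rw [hb, ← exp_zero, exp_lt_exp]; norm_num
    rw [v_C P (sub_ne_zero.2 (Ne.symm hne))] at h1
    exact lt_irrefl _ h1
  subst hab
  by_contra hne
  rw [hb' P' (Ne.symm hne) (hle P' h')] at h'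
  exact lt_irrefl _ h'

theorem eq_of_tri (i : Fin 3) {P P' : Pl k (RatFunc k)} (h : P.v (tri k i) < 1)
    (h' : P'.v (tri k i) < 1) : P = P' := by
  fin_cases i
  · exact eq_of_lt_fin 0 (by simpa [tri] using h) (by simpa [tri] using h')
  · refine eq_of_lt_fin 1 ?_ ?_
    · rw [← Valuation.map_neg]; simpa [tri] using h
    · rw [← Valuation.map_neg]; simpa [tri] using h'
  · have key : ∀ R : Pl k (RatFunc k), R.v (tri k 2) < 1 → 1 < R.v RatFunc.X := fun R hR => by
      have h0 : R.v RatFunc.X ≠ 0 := by simpa using RatFunc.X_ne_zero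
      have : R.v (RatFunc.X⁻¹) < 1 := by simpa [tri] using hR
      rwa [map_inv₀, inv_lt_one₀ (pos_iff_ne_zero.2 h0)] at this
    exact ((ratFunc_infinite P' (key P' h')).2 P (key P h))

theorem tri_ne_zero (i : Fin 3) : tri k i ≠ 0 := by
  fin_cases i
  · simpa [tri] using RatFunc.X_ne_zero
  · have := Crest.Agent.R013.RR28_948.X_sub_C_ne (1 : k)
    intro h
    apply this
    have h' : (1 - RatFunc.X : RatFunc k) = 0 := by simpa [tri] using h
    rw [map_one, ← neg_sub, h', neg_zero]
  · simpa [tri] using RatFunc.X_ne_zero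

variable {K : Type*} [Field K] [Algebra k K]
  [Algebra (RatFunc k) K] [IsScalarTower k (RatFunc k) K] [FiniteDimensional (RatFunc k) K]
  [Algebra.IsSeparable (RatFunc k) K]


theorem Zr_eq_above (i : Fin 3) {P : Pl k (RatFunc k)} (h : P.v (tri k i) < 1) :
    Zr k (algebraMap (RatFunc k) K (tri k i)) = above K P := by
  ext Q
  rw [mem_Zr (by simpa using tri_ne_zero i), mem_above, ← under_lt_one_iff]
  exact ⟨fun h' => eq_of_tri i h' h, fun h' => h' ▸ h⟩

end rat

section compare

variable {C : Type*} [Field C] {K L T : Type*} [Field K] [Field L] [Field T]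
  [Algebra C K] [Algebra (RatFunc C) K] [IsScalarTower C (RatFunc C) K]
  [FiniteDimensional (RatFunc C) K] [Algebra.IsSeparable (RatFunc C) K]
  [Algebra C L] [Algebra (RatFunc C) L] [IsScalarTower C (RatFunc C) L]
  [FiniteDimensional (RatFunc C) L] [Algebra.IsSeparable (RatFunc C) L]
  [Algebra C T] [Algebra (RatFunc C) T] [IsScalarTower C (RatFunc C) T]
  [FiniteDimensional (RatFunc C) T] [Algebra.IsSeparable (RatFunc C) T]
  [Algebra K L] [Algebra K T] [Algebra L T] [IsScalarTower C K L] [IsScalarTower C K T]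
  [IsScalarTower C L T] [IsScalarTower K L T] [IsScalarTower (RatFunc C) K L]
  [IsScalarTower (RatFunc C) K T] [IsScalarTower (RatFunc C) L T]
  [FiniteDimensional K L] [FiniteDimensional K T] [FiniteDimensional L T]
  [Algebra.IsSeparable K L] [IsGalois L T]
  {k : Type*} [Field k] {K' L' T' : Type*} [Field K'] [Field L'] [Field T']
  [Algebra k K'] [Algebra (RatFunc k) K'] [IsScalarTower k (RatFunc k) K']
  [FiniteDimensional (RatFunc k) K'] [Algebra.IsSeparable (RatFunc k) K']
  [Algebra k L'] [Algebra (RatFunc k) L'] [IsScalarTower k (RatFunc k) L']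
  [FiniteDimensional (RatFunc k) L'] [Algebra.IsSeparable (RatFunc k) L']
  [Algebra k T'] [Algebra (RatFunc k) T'] [IsScalarTower k (RatFunc k) T']
  [FiniteDimensional (RatFunc k) T'] [Algebra.IsSeparable (RatFunc k) T']
  [Algebra K' L'] [Algebra K' T'] [Algebra L' T'] [IsScalarTower k K' L'] [IsScalarTower k K' T']
  [IsScalarTower k L' T'] [IsScalarTower K' L' T'] [IsScalarTower (RatFunc k) K' L']
  [IsScalarTower (RatFunc k) K' T'] [IsScalarTower (RatFunc k) L' T']
  [FiniteDimensional K' L'] [FiniteDimensional K' T'] [FiniteDimensional L' T']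
  [Algebra.IsSeparable K' L'] [Algebra.IsSeparable L' T'] [IsGalois K' T']

/-- fewer places downstairs -/
theorem card_above_le (θ : (T ≃ₐ[K] T) →* (T' ≃ₐ[K'] T')) (hθ : Function.Surjective θ)
    (hH : ∀ (g : T ≃ₐ[L] T) (z : L'),
      θ (g.restrictScalars K) (algebraMap L' T' z) = algebraMap L' T' z)
    (Q : Pl C T) (Q' : Pl k T')
    (hst : ∀ g : T ≃ₐ[K] T, mapPl (g.restrictScalars C) Q = Q →
      mapPl ((θ g).restrictScalars k) Q' = Q') :
    (above L' (under K' Q')).card ≤ (above L (under K Q)).card := by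
  classical
  have hex : ∀ P' : Pl k L', ∃ g : T ≃ₐ[K] T, P' ∈ above L' (under K' Q') →
      under L' (mapPl ((θ g).restrictScalars k) Q') = P' := by
    intro P'
    by_cases hP : P' ∈ above L' (under K' Q')
    · obtain ⟨R, hR⟩ := above_nonempty (L := T') P'
      rw [mem_above] at hR hP
      have h1 : under K' Q' = under K' R := by rw [← under_under (L := L') R, hR, hP]
      obtain ⟨s, hs⟩ := exists_mapPl_eq h1
      obtain ⟨g, rfl⟩ := hθ s
      exact ⟨g, fun _ => by rw [hs, hR]⟩
    · exact ⟨1, fun h => absurd h hP⟩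
  choose γ hγ using hex
  refine Finset.card_le_card_of_injOn (fun P' => under L (mapPl ((γ P').restrictScalars C) Q))
    (fun P' _ => ?_) (fun P₁ h₁ P₂ h₂ e => ?_)
  · rw [Finset.mem_coe, mem_above, under_under, under_mapPl]
  · obtain ⟨h, hh⟩ := exists_mapPl_eq (K := L) e
    have h1 : mapPl (((γ P₂)⁻¹ * h.restrictScalars K * γ P₁).restrictScalars C) Q = Q := by
      have : mapPl (((γ P₂).restrictScalars C).symm) (mapPl (h.restrictScalars C)
        (mapPl ((γ P₁).restrictScalars C) Q)) = Q := by rw [hh, mapPl_symm_mapPl]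
      exact this
    have h2 := hst _ h1
    rw [map_mul, map_mul, map_inv] at h2
    let hb : T' ≃ₐ[L'] T' := AlgEquiv.ofRingEquiv (f := (θ (h.restrictScalars K)).toRingEquiv) (hH h)
    have h3 : mapPl (hb.restrictScalars k) (mapPl ((θ (γ P₁)).restrictScalars k) Q') =
        mapPl ((θ (γ P₂)).restrictScalars k) Q' := by
      conv_rhs => rw [← h2]
      exact (mapPl_mapPl_symm ((θ (γ P₂)).restrictScalars k) _).symm
    rw [← hγ P₁ h₁, ← hγ P₂ h₂, ← h3, under_mapPl]

end compare

section stab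

variable {C : Type*} [Field C] [IsAlgClosed C] {K T : Type*} [Field K] [Field T]
  [Algebra C K] [Algebra (RatFunc C) K] [IsScalarTower C (RatFunc C) K]
  [FiniteDimensional (RatFunc C) K] [Algebra.IsSeparable (RatFunc C) K]
  [Algebra C T] [Algebra (RatFunc C) T] [IsScalarTower C (RatFunc C) T]
  [FiniteDimensional (RatFunc C) T] [Algebra.IsSeparable (RatFunc C) T]
  [Algebra K T] [IsScalarTower C K T] [IsScalarTower (RatFunc C) K T] [FiniteDimensional K T]
  [IsGalois K T]

open Classical in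
theorem card_stab (Q : Pl C T) :
    (Finset.univ.filter fun g : T ≃ₐ[K] T => mapPl (g.restrictScalars C) Q = Q).card = eR K Q := by
  have h := sum_galois (K := K) Q fun R => if R = Q then 1 else 0
  rw [Finset.sum_ite_eq' , if_pos (mem_above.2 rfl), degP_eq_one, degP_eq_one, Finset.sum_boole] at h
  simp only [Nat.cast_one, mul_one, one_mul] at h
  exact_mod_cast h.symm

/-- the stabiliser of a place is generated by an element whose order is the ramification index -/
theorem mem_zpowers_of_fix (Q : Pl C T) (t : T ≃ₐ[K] T) (ht : mapPl (t.restrictScalars C) Q = Q)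
    (he : eR K Q ≤ orderOf t) {g : T ≃ₐ[K] T} (hg : mapPl (g.restrictScalars C) Q = Q) :
    g ∈ Submonoid.powers t := by
  classical
  have hpow : ∀ n : ℕ, mapPl ((t ^ n).restrictScalars C) Q = Q := fun n => by
    induction n with
    | zero => exact mapPl_one Q
    | succ n ih =>
      rw [pow_succ]
      change mapPl ((t ^ n).restrictScalars C) (mapPl (t.restrictScalars C) Q) = Q
      rw [ht, ih]
  have hsub : (Finset.range (orderOf t)).image (t ^ ·) ⊆
      Finset.univ.filter fun g : T ≃ₐ[K] T => mapPl (g.restrictScalars C) Q = Q := by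
    intro x hx
    obtain ⟨n, -, rfl⟩ := Finset.mem_image.1 hx
    exact Finset.mem_filter.2 ⟨Finset.mem_univ _, hpow n⟩
  have hc : ((Finset.range (orderOf t)).image (t ^ ·)).card = orderOf t := by
    rw [Finset.card_image_of_injOn, Finset.card_range]
    rw [Finset.coe_range]
    exact pow_injOn_Iio_orderOf
  have heq := Finset.eq_of_subset_of_card_le hsub (by rw [hc]; convert he using 1; exact card_stab Q)
  have : g ∈ (Finset.range (orderOf t)).image (t ^ ·) := by
    rw [heq]; exact Finset.mem_filter.2 ⟨Finset.mem_univ _, hg⟩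
  obtain ⟨n, -, rfl⟩ := Finset.mem_image.1 this
  exact ⟨n, rfl⟩

end stab

end Crest.Agent.T15.Ig
end

-- ▼ part T15/IgC_61
section

/-!
# Row 15, block T (helper61), Igusa part C: the abstract good reduction theorem

`C(x) ⊆ L ⊆ T`, `T / C(x)` Galois, `w` an invariant norm with trivial inertia over the Gauss norm,
`L / C(x)` unramified outside `0, 1, ∞`, and over each of these three points a place of `T` whose
stabiliser fixes a place of the residue field over the same point. Then the residue field of `L` has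
the genus of `L` (`hasGen_res`).
-/

set_option autoImplicit false
set_option linter.unusedSectionVars false

namespace Crest.Agent.T15.Ig

open Polynomial Module WithZero
open scoped NNReal
open Crest.Agent.R013.RR7_948 Crest.Agent.R013.RR8_948 Crest.Agent.R013.RR9_948
open Crest.Agent.R013.RR11_948 Crest.Agent.R013.RR12_948 Crest.Agent.R013.RR13_948
open Crest.Agent.R013.RR18_948 Crest.Agent.R013.RR19_948 Crest.Agent.R013.RR20_948
open Crest.Agent.R013.RR21_948 Crest.Agent.R013.RR22_948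
open Crest.Agent.R013.GR3_921 Crest.Agent.R013.GR4_921

theorem algebraMap_eq_ratHom {k κ : Type*} [Field k] [Field κ] [Algebra k κ]
    [Algebra (RatFunc k) κ] [IsScalarTower k (RatFunc k) κ] {z : κ} (hz : Transcendental k z)
    (e : xK k κ = z) (r : RatFunc k) : algebraMap (RatFunc k) κ r = ratHom z hz r := by
  have h1 : ∀ p : k[X], aeval (RatFunc.X : RatFunc k) p = algebraMap k[X] (RatFunc k) p := fun p => by
    rw [← RatFunc.algebraMap_X, aeval_algebraMap_apply, aeval_X_left_apply]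
  rw [← RatFunc.num_div_denom r, map_div₀, map_div₀, algebraMap_poly, algebraMap_poly, e, ← h1, ← h1,
    ← aeval_algHom_apply, ← aeval_algHom_apply, ratHom_X]

universe u

variable {C : Type*} [Field C] [IsAlgClosed C] [CharZero C] {L : Type u} {T : Type*} [Field L]
  [Field T] [Algebra C L] [Algebra (RatFunc C) L] [IsScalarTower C (RatFunc C) L]
  [FiniteDimensional (RatFunc C) L]
  [Algebra C T] [Algebra (RatFunc C) T] [IsScalarTower C (RatFunc C) T]
  [FiniteDimensional (RatFunc C) T] [IsGalois (RatFunc C) T]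
  [Algebra L T] [IsScalarTower C L T] [IsScalarTower (RatFunc C) L T]
  {k κL κ : Type*} [Field k] [IsAlgClosed k] [Field κL] [Field κ] [Algebra k κL] [Algebra k κ]
  [Algebra κL κ] [IsScalarTower k κL κ]
  {vC : Valuation C ℝ≥0} {ρC : C → k} {w : Valuation T ℝ≥0} {ρ : T → κ}
  {wL : Valuation L ℝ≥0} {ρL : L → κL}

/-- the residue extension of `T / L` -/
theorem isGalois_res' (hT : Red vC ρC w ρ) (hL : Red vC ρC wL ρL)
    (hw : ∀ a, w (algebraMap L T a) = wL a)
    (hρ : ∀ a, wL a ≤ 1 → ρ (algebraMap L T a) = algebraMap κL κ (ρL a))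
    [FiniteDimensional L T] [IsGalois L T]
    (hinv : ∀ (g : T ≃ₐ[L] T) f, w (g f) = w f)
    (hI : ∀ g : T ≃ₐ[L] T, (∀ f, w f ≤ 1 → w (g f - f) < 1) → g = 1) :
    FiniteDimensional κL κ ∧ IsGalois κL κ ∧ finrank κL κ = finrank L T ∧
      ∀ s : κ ≃ₐ[κL] κ, ∃ g : T ≃ₐ[L] T, ∀ f, w f ≤ 1 → s (ρ f) = ρ (g f) := by
  have h1 : ∀ z : κL, ∃ a : L, w (algebraMap L T a) ≤ 1 ∧
      ρ (algebraMap L T a) = algebraMap κL κ z := fun z => by
    obtain ⟨a, ha, rfl⟩ := hL.res.surj z
    exact ⟨a, by rwa [hw], hρ a ha⟩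
  obtain ⟨a, b, c, d⟩ := isGalois_res hT hinv h1
    (fun a ha => ⟨_, (hρ a (by rwa [hw] at ha)).symm⟩) hI
  refine ⟨a, b, c, fun s => ?_⟩
  obtain ⟨g, rfl⟩ := d.2 s
  exact ⟨g, fun f hf => barHom_res hT hinv h1 g hf⟩



end Crest.Agent.T15.Ig
end

-- ▼ part T15/IgD_61
section

/-!
# Row 15, block T (helper61), Igusa part D: good reduction over the `j`-line

`x = j`, `t ∈ L` with `j t (t - 1) = 16 (16 t² - 16 t + 1)³`, `L / C(t)` unramified outside the poles
of `j`; `hasGen_j`.
-/

set_option autoImplicit false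
set_option linter.unusedSectionVars false

namespace Crest.Agent.T15.Ig

open Polynomial Module WithZero
open scoped NNReal
open Crest.Agent.R013.RR7_948 Crest.Agent.R013.RR8_948 Crest.Agent.R013.RR9_948
open Crest.Agent.R013.RR11_948 Crest.Agent.R013.RR12_948 Crest.Agent.R013.RR13_948
open Crest.Agent.R013.RR14_948
open Crest.Agent.R013.RR18_948 Crest.Agent.R013.RR19_948 Crest.Agent.R013.RR20_948
open Crest.Agent.R013.RR21_948 Crest.Agent.R013.RR22_948
open Crest.Agent.R013.GR3_921 Crest.Agent.R013.GR4_921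
open Crest.Agent.R013.GR2_921 (exists_const degP_eq_one hc_of_isAlgClosed)
open Crest.Agent.R013.Car5_700 (v_del_eq v_del_le v_del_le')

/-- the modular equation of level four -/
def RelJ {K : Type*} [CommRing K] (j t : K) : Prop :=
  j * (t * (t - 1)) = 16 * (16 * t ^ 2 - 16 * t + 1) ^ 3

theorem RelJ.map {K K' F : Type*} [CommRing K] [CommRing K'] [FunLike F K K'] [RingHomClass F K K']
    (f : F) {j t : K} (h : RelJ j t) : RelJ (f j) (f t) := by
  have := congrArg f h
  unfold RelJ
  simpa only [map_mul, map_sub, map_add, map_pow, map_one, map_ofNat] using this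

section val

variable {K Γ : Type*} [Field K] [LinearOrderedCommGroupWithZero Γ] (v : Valuation K Γ)

theorem RelJ.val (h16 : v 16 = 1) {j t : K} (h : RelJ j t) :
    v j * (v t * v (1 - t)) = v (16 * (t * (t - 1)) + 1) ^ 3 := by
  have := congrArg v h
  rw [map_mul, map_mul, map_mul, map_pow, h16, one_mul, Valuation.map_sub_swap,
    show 16 * t ^ 2 - 16 * t + 1 = 16 * (t * (t - 1)) + 1 by ring] at this
  exact this

/-- the four cases -/
theorem RelJ.cases (h16 : v 16 = 1) {j t : K} (h : RelJ j t) :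
    (v t < 1 ∧ v (1 - t) = 1 ∧ v j * v t = 1) ∨ (v t = 1 ∧ v (1 - t) < 1 ∧ v j * v (1 - t) = 1) ∨
    (1 < v t ∧ v (1 - t) = v t ∧ v j = v t ^ 4) ∨ (v t = 1 ∧ v (1 - t) = 1 ∧ v j ≤ 1) := by
  have h1 := h.val v h16
  have h2 : v (16 * (t * (t - 1))) = v t * v (1 - t) := by
    rw [map_mul, map_mul, h16, one_mul, Valuation.map_sub_swap]
  rcases lt_trichotomy (v t) 1 with a | a | a
  · have b := v.map_one_sub_of_lt a
    rw [b, mul_one] at h1 h2
    rw [v.map_add_eq_of_lt_right (by rwa [h2, map_one]), map_one, one_pow] at h1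
    exact Or.inl ⟨a, b, h1⟩
  · have b : v (1 - t) ≤ 1 := (v.map_sub _ _).trans (by rw [map_one, a, max_self])
    rw [a, one_mul] at h1 h2
    rcases b.lt_or_eq with b | b
    · rw [v.map_add_eq_of_lt_right (by rwa [h2, map_one]), map_one, one_pow] at h1
      exact Or.inr (Or.inl ⟨a, b, h1⟩)
    · refine Or.inr (Or.inr (Or.inr ⟨a, b, ?_⟩))
      rw [b, mul_one] at h1
      rw [h1]
      exact pow_le_one' ((v.map_add _ _).trans (by rw [h2, b, map_one, max_self])) 3
  · have b : v (1 - t) = v t := v.map_sub_eq_of_lt_right (by rwa [map_one])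
    rw [b] at h1 h2
    rw [v.map_add_eq_of_lt_left (by rw [h2, map_one]; exact one_lt_mul'' a a), h2] at h1
    refine Or.inr (Or.inr (Or.inl ⟨a, b, ?_⟩))
    have h0 : v t * v t ≠ 0 := mul_ne_zero (zero_lt_one.trans a).ne' (zero_lt_one.trans a).ne'
    apply mul_right_cancel₀ h0
    rw [h1, ← pow_two, ← pow_mul, ← pow_add]

end val

section count

variable {k : Type*} [Field k] [IsAlgClosed k] {K : Type*} [Field K] [Algebra k K]
  [Algebra (RatFunc k) K] [IsScalarTower k (RatFunc k) K] [FiniteDimensional (RatFunc k) K]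
  [Algebra.IsSeparable (RatFunc k) K] {t : K}

theorem v_sixteen (h2 : (2 : k) ≠ 0) (P : Pl k K) : P.v 16 = 1 := by
  rw [show (16 : K) = algebraMap k K (2 ^ 4) by rw [map_pow, map_ofNat]; norm_num]
  exact P.const _ (pow_ne_zero 4 h2)

theorem RelJ.mul_ne (h2 : (2 : k) ≠ 0) (h : RelJ (xK k K) t) : t * (t - 1) ≠ 0 := fun e => by
  have h1 : (16 : K) = 0 := by
    unfold RelJ at h
    rw [show 16 * t ^ 2 - 16 * t + 1 = 16 * (t * (t - 1)) + 1 by ring, e] at h
    simpa using h.symm
  rw [show (16 : K) = algebraMap k K (2 ^ 4) by rw [map_pow, map_ofNat]; norm_num,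
    map_eq_zero] at h1
  exact pow_ne_zero 4 h2 h1

theorem RelJ.del_ne (h2 : (2 : k) ≠ 0) (h : RelJ (xK k K) t) : del k K t ≠ 0 := fun e => by
  have h16 : del k K 16 = 0 := by exact_mod_cast (del k K).map_natCast 16
  have := congrArg (del k K) h
  simp only [Derivation.leibniz, Derivation.leibniz_pow, map_sub, map_add, e, del_xK, h16,
    Derivation.map_one_eq_zero, smul_zero, add_zero, sub_zero, smul_eq_mul, mul_one, mul_zero,
    zero_add] at this
  exact h.mul_ne h2 this

theorem RelJ.ord (h2 : (2 : k) ≠ 0) (h : RelJ (xK k K) t) (P : Pl k K) :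
    (0 < divf (k := k) t P ∧ divf (k := k) (1 - t) P = 0 ∧
      divf (k := k) (xK k K) P = -divf (k := k) t P) ∨
    (divf (k := k) t P = 0 ∧ 0 < divf (k := k) (1 - t) P ∧
      divf (k := k) (xK k K) P = -divf (k := k) (1 - t) P) ∨
    (divf (k := k) t P < 0 ∧ divf (k := k) (1 - t) P = divf (k := k) t P ∧
      divf (k := k) (xK k K) P = 4 * divf (k := k) t P) ∨
    (divf (k := k) t P = 0 ∧ divf (k := k) (1 - t) P = 0 ∧ 0 ≤ divf (k := k) (xK k K) P) := by
  have h0 := left_ne_zero_of_mul (h.mul_ne h2)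
  have h1 : 1 - t ≠ 0 := fun e => right_ne_zero_of_mul (h.mul_ne h2) (by linear_combination -e)
  have hc := h.cases P.v (v_sixteen h2 P)
  rw [v_eq h0, v_eq h1, v_eq xK_ne_zero, ← exp_zero] at hc
  simp only [← exp_add, ← exp_nsmul, exp_lt_exp, exp_le_exp, exp_inj, nsmul_eq_mul] at hc
  push_cast at hc
  omega

variable (k) in
/-- the auxiliary divisor -/
noncomputable def auxJ (t : K) : Pl k K →₀ ℤ :=
  canD k K + divf (del k K t) - divf t - divf (1 - t) - poles t + indD (Zr k (xK k K)⁻¹)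

theorem degD_auxJ (h2 : (2 : k) ≠ 0) (h : RelJ (xK k K) t) : 6 * degD (auxJ k t) =
    6 * (2 * gen k K - 2) - finrank (RatFunc k) K + 6 * (Zr k (xK k K)⁻¹).card := by
  have h0 := left_ne_zero_of_mul (h.mul_ne h2)
  have h1 : 1 - t ≠ 0 := fun e => right_ne_zero_of_mul (h.mul_ne h2) (by linear_combination -e)
  have e : poles (k := k) (xK k K) = poles t + poles t + poles t + poles t + poles t + poles t +
      divf t + divf (1 - t) := by
    ext P
    have := h.ord h2 P
    simp only [Finsupp.add_apply, poles_apply]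
    omega
  have e' := congrArg degD e
  simp only [degD_add, degD_divf h0, degD_divf h1, degD_poles_xK] at e'
  simp only [auxJ, degD_add, degD_sub, degD_indD, degD_divf h0, degD_divf h1,
    degD_divf (h.del_ne h2), degD_canD hc_of_isAlgClosed]
  linarith

theorem auxJ_apply (P : Pl k K) : auxJ k t P =
    canD k K P + divf (k := k) (del k K t) P - divf (k := k) t P - divf (k := k) (1 - t) P -
      max (-divf (k := k) t P) 0 + (if 0 < -divf (k := k) (xK k K) P then 1 else 0) := by
  simp only [auxJ, Finsupp.add_apply, Finsupp.sub_apply, indD_apply, mem_Zr', poles_apply,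
    divf_inv (xK_ne_zero (k := k) (K := K)), Finsupp.neg_apply]

theorem del_one_sub' : del k K (1 - t) = -del k K t := by
  rw [map_sub, Derivation.map_one_eq_zero, zero_sub]

/-- **lower bound for the genus** -/
theorem gen_ge_j (h2 : (2 : k) ≠ 0) (h : RelJ (xK k K) t) :
    (finrank (RatFunc k) K : ℤ) - 6 * (Zr k (xK k K)⁻¹).card ≤ 6 * (2 * gen k K - 2) := by
  have h0 := left_ne_zero_of_mul (h.mul_ne h2)
  have h1 : 1 - t ≠ 0 := fun e => right_ne_zero_of_mul (h.mul_ne h2) (by linear_combination -e)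
  have hd := h.del_ne h2
  have hn : 0 ≤ degD (auxJ k t) := Crest.Agent.R013.PicD_398.degD_nonneg fun P => by
    have a1 := v_del_le' P t
    rw [v_eq hd, v_eq h0, ← exp_add, exp_le_exp] at a1
    have a2 := v_del_le' P (1 - t)
    rw [del_one_sub', Valuation.map_neg, v_eq hd, v_eq h1, ← exp_add, exp_le_exp] at a2
    have a3 : divf (k := k) t P = 0 → -divf (k := k) (del k K t) P ≤ canD k K P := fun e => by
      have := v_del_le P (f := t) (by rw [v_eq h0, e]; simp)
      rwa [v_eq hd, exp_le_exp] at this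
    have := h.ord h2 P
    show 0 ≤ auxJ k t P
    rw [auxJ_apply]
    split_ifs <;> omega
  have := degD_auxJ h2 h
  linarith

/-- **the genus in characteristic zero** -/
theorem gen_eq_j [CharZero k] (h : RelJ (xK k K) t)
    (hunr : ∀ P : Pl k K, P.v (xK k K) ≤ 1 → ∃ c : k, P.v (t - algebraMap k K c) = exp (-1)) :
    6 * (2 * (gen k K : ℤ) - 2) = finrank (RatFunc k) K - 6 * (Zr k (xK k K)⁻¹).card := by
  have h2 : (2 : k) ≠ 0 := two_ne_zero
  have h0 := left_ne_zero_of_mul (h.mul_ne h2)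
  have h1 : 1 - t ≠ 0 := fun e => right_ne_zero_of_mul (h.mul_ne h2) (by linear_combination -e)
  have hd := h.del_ne h2
  have hz : auxJ k t = 0 := by
    ext P
    have a1 : divf (k := k) t P ≠ 0 → -divf (k := k) (del k K t) P =
        -divf (k := k) t P + canD k K P + 1 := fun e => by
      have := v_del_tame P (v_eq h0 P) (Int.cast_ne_zero.2 e)
      rwa [v_eq hd, exp_inj] at this
    have a2 : divf (k := k) (1 - t) P ≠ 0 → -divf (k := k) (del k K t) P =
        -divf (k := k) (1 - t) P + canD k K P + 1 := fun e => by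
      have := v_del_tame P (v_eq h1 P) (Int.cast_ne_zero.2 e)
      rwa [del_one_sub', Valuation.map_neg, v_eq hd, exp_inj] at this
    have a3 : 0 ≤ divf (k := k) (xK k K) P → -divf (k := k) (del k K t) P = canD k K P := fun e => by
      obtain ⟨c, hc⟩ := hunr P (by rw [v_eq xK_ne_zero, ← exp_zero, exp_le_exp]; omega)
      have := v_del_eq P hc
      rwa [map_sub, Derivation.map_algebraMap, sub_zero, v_eq hd, exp_inj] at this
    have := h.ord h2 P
    rw [auxJ_apply, Finsupp.zero_apply]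
    split_ifs <;> omega
  have := degD_auxJ h2 h
  rw [hz, degD_zero] at this
  linarith

end count

section res

variable {L κ : Type*} [Field L] [Field κ] {w : Valuation L ℝ≥0} {ρ : L → κ}

/-- the residue map as a ring homomorphism -/
def resHom (h : IsRes w ρ) : w.valuationSubring →+* κ where
  toFun x := ρ x
  map_one' := h.one
  map_mul' x y := h.mul _ _ x.2 y.2
  map_zero' := h.zero
  map_add' x y := h.add _ _ x.2 y.2

theorem RelJ.res (h : IsRes w ρ) {j t : L} (hj : w j ≤ 1) (ht : w t ≤ 1) (e : RelJ j t) :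
    RelJ (ρ j) (ρ t) :=
  RelJ.map (resHom h) (j := ⟨j, hj⟩) (t := ⟨t, ht⟩) (w.valuationSubring.subtype_injective (by
    simp only [map_mul, map_sub, map_add, map_pow, map_one, map_ofNat]
    exact e))

theorem RelJ.w_eq (h16 : w 16 = 1) {j t : L} (hj : w j = 1) (e : RelJ j t) :
    w t = 1 ∧ w (1 - t) = 1 := by
  rcases e.cases w h16 with ⟨a, -, c⟩ | ⟨-, b, c⟩ | ⟨a, -, c⟩ | ⟨a, b, -⟩
  · rw [hj, one_mul] at c; exact absurd c a.ne
  · rw [hj, one_mul] at c; exact absurd c b.ne
  · rw [hj] at c; exact absurd c (one_lt_pow' a (by norm_num)).ne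
  · exact ⟨a, b⟩

/-- the universal property of the residue field -/
theorem exists_resLift (h : IsRes w ρ) {R : Type*} [CommRing R] (φ : L → R)
    (hadd : ∀ x y, w x ≤ 1 → w y ≤ 1 → φ (x + y) = φ x + φ y)
    (hmul : ∀ x y, w x ≤ 1 → w y ≤ 1 → φ (x * y) = φ x * φ y) (h1 : φ 1 = 1)
    (h0 : ∀ x, w x < 1 → φ x = 0) : ∃ ψ : κ →+* R, ∀ x, w x ≤ 1 → ψ (ρ x) = φ x := by
  choose s hs hs' using h.surj
  have key : ∀ x, w x ≤ 1 → φ (s (ρ x)) = φ x := fun x hx => by
    have e := (h.eq_iff (hs _) hx).1 (hs' (ρ x))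
    rw [← sub_add_cancel (s (ρ x)) x, hadd _ _ e.le hx, h0 _ e, zero_add]
  refine ⟨⟨⟨⟨fun y => φ (s y), ?_⟩, fun a b => ?_⟩, ?_, fun a b => ?_⟩, key⟩
  · rw [← h.one, key 1 (by simp), h1]
  · show φ (s (a * b)) = φ (s a) * φ (s b)
    rw [← hmul _ _ (hs a) (hs b), ← key (s a * s b) (by
      rw [map_mul]; exact mul_le_one' (hs a) (hs b)), h.mul _ _ (hs a) (hs b), hs', hs']
  · show φ (s 0) = 0
    rw [← h.zero, key 0 (by simp), h0 0 (by simp)]
  · show φ (s (a + b)) = φ (s a) + φ (s b)
    rw [← hadd _ _ (hs a) (hs b), ← key (s a + s b)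
      ((w.map_add _ _).trans (max_le (hs a) (hs b))), h.add _ _ (hs a) (hs b), hs', hs']

end res

universe u

variable {C : Type*} [Field C] [IsAlgClosed C] [CharZero C] {L : Type u} {T : Type*} [Field L]
  [Field T] [Algebra C L] [Algebra (RatFunc C) L] [IsScalarTower C (RatFunc C) L]
  [FiniteDimensional (RatFunc C) L]
  [Algebra C T] [Algebra (RatFunc C) T] [IsScalarTower C (RatFunc C) T]
  [FiniteDimensional (RatFunc C) T] [IsGalois (RatFunc C) T]
  [Algebra L T] [IsScalarTower C L T] [IsScalarTower (RatFunc C) L T]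
  {k κL κ : Type*} [Field k] [IsAlgClosed k] [Field κL] [Field κ] [Algebra k κL] [Algebra k κ]
  [Algebra κL κ] [IsScalarTower k κL κ]
  {vC : Valuation C ℝ≥0} {ρC : C → k} {w : Valuation T ℝ≥0} {ρ : T → κ}
  {wL : Valuation L ℝ≥0} {ρL : L → κL}

theorem gen_res_j [Algebra (RatFunc k) κL] [IsScalarTower k (RatFunc k) κL]
    [Algebra (RatFunc k) κ] [IsScalarTower k (RatFunc k) κ] [IsScalarTower (RatFunc k) κL κ]
    (hT : Red vC ρC w ρ) (hL : Red vC ρC wL ρL)
    (hw : ∀ a, w (algebraMap L T a) = wL a)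
    (hρ : ∀ a, wL a ≤ 1 → ρ (algebraMap L T a) = algebraMap κL κ (ρL a))
    (hx : wL (xK C L) ≤ 1) (hxx : xK k κL = ρL (xK C L))
    (hinv : ∀ (g : T ≃ₐ[RatFunc C] T) f, w (g f) = w f)
    (hI : ∀ g : T ≃ₐ[RatFunc C] T, (∀ f, w f ≤ 1 → w (g f - f) < 1) → g = 1)
    (h2 : vC 2 = 1) {t : L} (ht : RelJ (xK C L) t)
    (hunr : ∀ P : Pl C L, P.v (xK C L) ≤ 1 → ∃ c : C, P.v (t - algebraMap C L c) = exp (-1))
    (hcusp : [FiniteDimensional (RatFunc k) κ] → [Algebra.IsSeparable (RatFunc k) κ] →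
      ∃ (Q : Pl C T) (Q' : Pl k κ), 1 < Q.v (xK C T) ∧ 1 < Q'.v (xK k κ) ∧
      ∀ g : T ≃ₐ[RatFunc C] T, mapPl (g.restrictScalars C) Q = Q →
        mapPl (bar hT (g.restrictScalars C) (hinv g)) Q' = Q')
    (p : ℕ) [Fact p.Prime] (hp : vC (p : C) < 1) :
    ∃ (_ : FiniteDimensional (RatFunc k) κL) (_ : Algebra.IsSeparable (RatFunc k) κL),
      gen k κL = gen C L ∧ finrank (RatFunc k) κL = finrank (RatFunc C) L ∧
      (Zr k (xK k κL)⁻¹).card = (Zr C (xK C L)⁻¹).card := by
  have hxT : xK C T = algebraMap L T (xK C L) := IsScalarTower.algebraMap_apply _ _ _ _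
  have hxκ : xK k κ = ρ (xK C T) := by
    rw [hxT, hρ _ hx, ← hxx]
    exact IsScalarTower.algebraMap_apply _ _ _ _
  have hx' : w (xK C T) ≤ 1 := by rwa [hxT, hw]
  have hnm : ρ (xK C T) ∉ Set.range (algebraMap k κ) := by
    rintro ⟨c, hc⟩
    exact transcendental_xK (k := k) (K := κ) (by rw [hxκ, ← hc]; exact isAlgebraic_algebraMap c)
  have hnmL : ρL (xK C L) ∉ Set.range (algebraMap k κL) := by
    rintro ⟨c, hc⟩
    exact transcendental_xK (k := k) (K := κL) (by rw [hxx, ← hc]; exact isAlgebraic_algebraMap c)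
  have halg := algebraMap_eq_ratHom (transcendental_of_notMem hnm) hxκ
  have hlift : ∀ z : RatFunc k, ∃ a : RatFunc C, w (algebraMap (RatFunc C) T a) ≤ 1 ∧
      ρ (algebraMap (RatFunc C) T a) = algebraMap (RatFunc k) κ z := fun z => by
    rw [halg]; exact lift_ratFunc hT hx' hnm z
  obtain ⟨f1, g1, r1, b1⟩ := isGalois_res (κL := RatFunc k) hT hinv hlift (fun a ha => by
    obtain ⟨r, hr⟩ := res_ratFunc hT hx' hnm ha
    exact ⟨r, by rw [halg, hr]⟩) hI
  have : FiniteDimensional L T := Module.Finite.right (RatFunc C) L T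
  have : IsGalois L T := IsGalois.tower_top_of_isGalois (RatFunc C) L T
  obtain ⟨f2, g2, r2, -⟩ := isGalois_res' hT hL hw hρ
    (fun g => hinv (g.restrictScalars (RatFunc C))) fun g hg => by
      have := hI (g.restrictScalars (RatFunc C)) hg
      ext f
      exact DFunLike.congr_fun this f
  have i1 : FiniteDimensional (RatFunc k) κL := Module.Finite.left (RatFunc k) κL κ
  have i2 : Algebra.IsSeparable (RatFunc k) κL :=
    Algebra.isSeparable_tower_bot_of_isSeparable (RatFunc k) κL κ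
  have hrank : finrank (RatFunc k) κL = finrank (RatFunc C) L := by
    have e1 := Module.finrank_mul_finrank (RatFunc k) κL κ
    have e2 := Module.finrank_mul_finrank (RatFunc C) L T
    rw [r1, r2, ← e2] at e1
    exact Nat.eq_of_mul_eq_mul_right Module.finrank_pos e1
  have hw1 : wL (xK C L) = 1 := (hL.res.ne_zero_iff hx).1 fun e => hnmL ⟨0, by rw [e, map_zero]⟩
  have h16 : wL 16 = 1 := by
    rw [show (16 : L) = algebraMap C L (2 ^ 4) by rw [map_pow, map_ofNat]; norm_num, hL.norm,
      map_pow, h2, one_pow]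
  have hk2 : (2 : k) ≠ 0 := by
    have := (hL.resC.ne_zero_iff h2.le).2 h2
    rwa [← one_add_one_eq_two, hL.resC.add _ _ (by simp) (by simp), hL.resC.one,
      one_add_one_eq_two] at this
  have ht' : RelJ (xK k κL) (ρL t) := hxx ▸ ht.res hL.res hx (ht.w_eq h16 hw1).1.le
  have hc : (Zr k (xK k κL)⁻¹).card ≤ (Zr C (xK C L)⁻¹).card := by
    obtain ⟨Q, Q', h1, h2, h3⟩ := hcusp
    have a1 : (under (RatFunc C) Q).v (tri C 2) < 1 := by
      rw [under_lt_one_iff]
      change Q.v (algebraMap (RatFunc C) T RatFunc.X⁻¹) < 1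
      rw [map_inv₀, map_inv₀]
      exact inv_lt_one_of_one_lt₀ h1
    have a2 : (under (RatFunc k) Q').v (tri k 2) < 1 := by
      rw [under_lt_one_iff]
      change Q'.v (algebraMap (RatFunc k) κ RatFunc.X⁻¹) < 1
      rw [map_inv₀, map_inv₀]
      exact inv_lt_one_of_one_lt₀ h2
    have e1 : (xK C L)⁻¹ = algebraMap (RatFunc C) L (tri C 2) := (map_inv₀ _ _).symm
    have e2 : (xK k κL)⁻¹ = algebraMap (RatFunc k) κL (tri k 2) := (map_inv₀ _ _).symm
    rw [e1, e2, Zr_eq_above 2 a1, Zr_eq_above 2 a2]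
    refine card_above_le (barHom hT hinv hlift) b1.2 (fun g z => ?_) Q Q' h3
    obtain ⟨a, ha, rfl⟩ := hL.res.surj z
    rw [← hρ a ha, barHom_res hT hinv hlift _ (by rwa [hw])]
    exact congrArg ρ (g.commutes a)
  have h1 := gen_ge_j hk2 ht'
  have h2 := gen_eq_j ht hunr
  have h3 := Crest.Agent.R013.GR7_921.gen_le hL
    (Crest.Agent.R013.GR9_921.orth hL ⟨_, hnmL⟩ p hp)
  rw [hrank] at h1
  exact ⟨i1, i2, by omega, hrank, by omega⟩

end Crest.Agent.T15.Ig
end

-- ▼ part T15/IgL_61

/-!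
# Row 15, block T (helper61), Igusa part L: the field of level `Γ(M)` as an interface
-/

set_option autoImplicit false
set_option linter.unusedSectionVars false

noncomputable section

namespace Crest.Agent.T15.Ig

open UpperHalfPlane ModularForm CongruenceSubgroup Polynomial
open scoped MatrixGroups NNReal
open Crest.Agent.R007 Crest.Agent.R007.Rat Crest.Agent.T15.Mf Crest.Agent.T15.Bet
open Crest.Agent.T15.Hs Crest.Agent.T15.Cg
open Crest.Agent.R013.RR7_948 Crest.Agent.R013.RR8_948 Crest.Agent.R013.RR9_948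
open Crest.Agent.R013.GR4_921

/-- the modular invariant -/
def jF : FF := quo (e4 ^ 3) dl

theorem smul_jF (γ : SL(2, ℤ)) : γ • jF = jF :=
  gamma_smul_quo one_ne_zero isF_e43 isF_dl (by simp [Gamma_one_top])

theorem relJ_tt : RelJ jF tt := tt_rel

/-- `ι` identifies `T` with the functions of level `Γ(M)`, `x = j`, and the Galois group over the
`j`-line is induced by `SL(2, ℤ)` -/
structure Lvl (M : ℕ) {T : Type*} [Field T] [Algebra ℂ T] [Algebra (RatFunc ℂ) T]
    (ι : T →ₐ[ℂ] FF) : Prop where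
  mem : ∀ x : FF, (∃ y, ι y = x) ↔ ∀ γ ∈ Gamma M, γ • x = x
  xj : ι (xK ℂ T) = jF
  gal : ∀ g : T ≃ₐ[RatFunc ℂ] T, ∃ γ : SL(2, ℤ), ∀ x, ι (g x) = γ • ι x

variable {M : ℕ} {T : Type*} [Field T] [Algebra ℂ T] [Algebra (RatFunc ℂ) T]
  [IsScalarTower ℂ (RatFunc ℂ) T] {ι : T →ₐ[ℂ] FF}

theorem smul_aeval_jF (γ : SL(2, ℤ)) (p : ℂ[X]) : γ • aeval jF p = aeval jF p := by
  have := aeval_algHom_apply (MulSemiringAction.toAlgHom ℂ FF γ) jF p
  rw [MulSemiringAction.toAlgHom_apply, MulSemiringAction.toAlgHom_apply, smul_jF] at this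
  exact this.symm

theorem smul_rat (hj : ι (xK ℂ T) = jF) (γ : SL(2, ℤ)) (r : RatFunc ℂ) :
    γ • ι (algebraMap (RatFunc ℂ) T r) = ι (algebraMap (RatFunc ℂ) T r) := by
  rw [← RatFunc.num_div_denom r, map_div₀, algebraMap_poly, algebraMap_poly, map_div₀,
    ← aeval_algHom_apply, ← aeval_algHom_apply, hj]
  have := map_div₀ (MulSemiringAction.toRingHom SL(2, ℤ) FF γ) (aeval jF r.num) (aeval jF r.denom)
  simp only [MulSemiringAction.toRingHom_apply] at this
  rw [this, smul_aeval_jF, smul_aeval_jF]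

theorem Lvl.lev (h : Lvl M ι) (x : T) {γ : SL(2, ℤ)} (hγ : γ ∈ Gamma M) : γ • ι x = ι x :=
  (h.mem _).1 ⟨x, rfl⟩ γ hγ

theorem Lvl.exists_smul (h : Lvl M ι) (γ : SL(2, ℤ)) (x : T) : ∃ y, ι y = γ • ι x :=
  (h.mem _).2 fun δ hδ => by
    have := h.lev x ((Gamma_normal M).conj_mem' δ hδ γ)
    rw [mul_smul, mul_smul, inv_smul_eq_iff] at this
    exact this

/-- the automorphism induced by a matrix -/
theorem Lvl.exists_act (h : Lvl M ι) (γ : SL(2, ℤ)) :
    ∃ g : T ≃ₐ[RatFunc ℂ] T, ∀ x, ι (g x) = γ • ι x := by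
  choose f hf using h.exists_smul
  have hi : Function.Injective ι := (ι : T →+* FF).injective
  exact ⟨{
    toFun := f γ
    invFun := f γ⁻¹
    left_inv := fun x => hi (by rw [hf, hf, inv_smul_smul])
    right_inv := fun x => hi (by rw [hf, hf, smul_inv_smul])
    map_mul' := fun x y => hi (by rw [hf, map_mul, map_mul, hf, hf, smul_mul'])
    map_add' := fun x y => hi (by rw [hf, map_add, map_add, hf, hf, smul_add])
    commutes' := fun r => hi (by rw [hf, smul_rat h.xj]) }, hf γ⟩

/-- the residue field embeds into the Hahn series over `k` -/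
theorem exists_psi {v : Valuation ℂ ℝ≥0} {w : Valuation FF ℝ≥0} (hG : IsG v qx w)
    {k κ : Type*} [Field k] [Field κ] {r : ℂ → k} (hr : IsRes v r) {wT : Valuation T ℝ≥0}
    (hw : ∀ x, wT x = w (ι x)) {ρ : T → κ} (hρ : IsRes wT ρ) :
    ∃ ψ : κ →+* HS k, ∀ (x : T) (a b : HS ℂ), IntS v a → UnS v b → qx (ι x) * b = a →
      wT x ≤ 1 ∧ ψ (ρ x) * rd hr b = rd hr a := by
  classical
  have hex : ∀ x : T, ∃ y : HS k, ∀ a b : HS ℂ, IntS v a → UnS v b → qx (ι x) * b = a →
      y * rd hr b = rd hr a := fun x => by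
    by_cases h : ∃ a b : HS ℂ, IntS v a ∧ UnS v b ∧ qx (ι x) * b = a
    · obtain ⟨a, b, ha, hb, e⟩ := h
      have hb0 := ((unS_iff hr).1 hb).2
      refine ⟨rd hr a / rd hr b, fun a' b' ha' hb' e' => ?_⟩
      rw [div_mul_eq_mul_div, div_eq_iff hb0, ← rd_mul hr ha hb'.1, ← rd_mul hr ha' hb.1]
      congr 1
      rw [← e, ← e']; ring
    · exact ⟨0, fun a b ha hb e => absurd ⟨a, b, ha, hb, e⟩ h⟩
  choose φ hφ using hex
  have hadd : ∀ {a b : HS ℂ}, IntS v a → IntS v b → IntS v (a + b) ∧
      rd hr (a + b) = rd hr a + rd hr b := fun {a b} ha hb =>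
    ⟨fun g => (v.map_add _ _).trans (max_le (ha g) (hb g)), by
      ext g; exact hr.add _ _ (ha g) (hb g)⟩
  have hle : ∀ (x : T) (a b : HS ℂ), IntS v a → UnS v b → qx (ι x) * b = a → wT x ≤ 1 := by
    intro x a b ha hb e
    by_contra hlt
    rw [not_le, hw] at hlt
    have hx0 : ι x ≠ 0 := fun h0 => by simp [h0] at hlt
    obtain ⟨c, a', b', ha', hb', e', hc⟩ := hG _ hx0
    obtain ⟨g, hg⟩ := (ha'.mul hb).2
    have h1 : HahnSeries.C c * (a' * b) = a * b' := by linear_combination b' * e - b * e'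
    have h2 := (ha.mul hb'.1) g
    rw [← h1, HahnSeries.C_mul_eq_smul, HahnSeries.coeff_smul, smul_eq_mul, map_mul, hg,
      mul_one, ← hc] at h2
    exact absurd h2 (not_le.2 hlt)
  obtain ⟨ψ, hψ⟩ := exists_resLift hρ φ (fun x y hx hy => by
      obtain ⟨a, b, ha, hb, e⟩ := hG.int_rep (hw x ▸ hx)
      obtain ⟨a', b', ha', hb', e'⟩ := hG.int_rep (hw y ▸ hy)
      obtain ⟨s1, s2⟩ := hadd (ha.mul hb'.1) (ha'.mul hb.1)
      have := hφ (x + y) _ _ s1 (hb.mul hb') (by
        rw [map_add, map_add]; linear_combination b' * e + b * e')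
      rw [s2, rd_mul hr hb.1 hb'.1, rd_mul hr ha hb'.1, rd_mul hr ha' hb.1, ← hφ x a b ha hb e,
        ← hφ y a' b' ha' hb' e'] at this
      apply mul_right_cancel₀ (mul_ne_zero ((unS_iff hr).1 hb).2 ((unS_iff hr).1 hb').2)
      rw [this]; ring)
    (fun x y hx hy => by
      obtain ⟨a, b, ha, hb, e⟩ := hG.int_rep (hw x ▸ hx)
      obtain ⟨a', b', ha', hb', e'⟩ := hG.int_rep (hw y ▸ hy)
      have := hφ (x * y) _ _ (ha.mul ha') (hb.mul hb') (by
        rw [map_mul, map_mul, ← e, ← e']; ring)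
      rw [rd_mul hr hb.1 hb'.1, rd_mul hr ha ha', ← hφ x a b ha hb e,
        ← hφ y a' b' ha' hb' e'] at this
      apply mul_right_cancel₀ (mul_ne_zero ((unS_iff hr).1 hb).2 ((unS_iff hr).1 hb').2)
      rw [this]; ring)
    (by
      have := hφ 1 1 1 IntS.one UnS.one (by simp)
      rwa [rd_one, mul_one] at this)
    (fun x hx => by
      by_cases h0 : x = 0
      · have := hφ x 0 1 (fun g => by simp) UnS.one (by simp [h0])
        rw [rd_one, mul_one] at this
        rw [this]; ext g; exact hr.zero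
      obtain ⟨c, a, b, ha, hb, e, hc⟩ := hG (ι x) (by simpa using h0)
      rw [hw, hc] at hx
      have := hφ x _ _ (ha.1.C_mul hx.le) hb e
      refine (mul_eq_zero.1 (this.trans ?_)).resolve_right ((unS_iff hr).1 hb).2
      ext g
      rw [rd_coeff, HahnSeries.C_mul_eq_smul, HahnSeries.coeff_smul, smul_eq_mul]
      have : v (c * a.coeff g) < 1 := by
        rw [map_mul]; exact mul_lt_one_of_lt_of_le hx (ha.1 g)
      exact (hr.zero_iff _ this.le).2 this)
  exact ⟨ψ, fun x a b ha hb e => ⟨hle x a b ha hb e, by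
    rw [hψ x (hle x a b ha hb e), hφ x a b ha hb e]⟩⟩

end Crest.Agent.T15.Ig
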