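import Mathlib
import Crest.Agent.T15.CgF_84
import Crest.Agent.R007.Wp8
import Crest.Agent.R007.RatL1
import Crest.Agent.T15.IgL_61
import Crest.Agent.T15.Lv_10
import Crest.Agent.R007.DGrp

-- ▼ part T15/IgI_71
section

/-!
# Row 15, block T (helper71), Igusa part I: the inertia group of the Gauss norm is trivial

`inert` : an element of `SL(2,ℤ)` acting trivially on the residues of the functions of level `M`
lies in `±Γ(M)`.  Also `intS_qf`, `unS_e4`, `unS_e6`, `unS_dl`, `IsG.le_one`.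
-/

set_option autoImplicit false
set_option linter.all false

noncomputable section

namespace Crest.Agent.T15.Ig

open UpperHalfPlane ModularForm CongruenceSubgroup
open scoped MatrixGroups NNReal Matrix
open Crest.Agent.R007 Crest.Agent.R007.Rat Crest.Agent.T15.Mf Crest.Agent.T15.Hs
open Crest.Agent.T15.Cg

variable {v : Valuation ℂ ℝ≥0} {w : Valuation FF ℝ≥0}

theorem intS_qf {M : ℕ} (hM : M ≠ 0) {k : ℤ} {F : ℍ → ℂ} (hF : IsF M k F)
    (h : CoeffIn v.integer (qe M F)) : IntS v (qf F) := by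
  intro r
  by_cases hr : (qf F).coeff r = 0
  · rw [hr]; simp
  obtain ⟨n, rfl⟩ := lev_qf hM hF r hr
  rw [coeff_qf hM hF]
  exact h n

theorem unS_qf {M : ℕ} (hM : M ≠ 0) {k : ℤ} {F : ℍ → ℂ} (hF : IsF M k F)
    (h : CoeffIn v.integer (qe M F)) {n : ℕ} (hn : v ((qe M F).coeff n) = 1) : UnS v (qf F) :=
  ⟨intS_qf hM hF h, (n : ℚ) / M, by rw [coeff_qf hM hF]; exact hn⟩

theorem unS_e4 : UnS v (qf e4) :=
  unS_qf one_ne_zero isF_e4 coeffIn_e4 (n := 0) (by rw [coeff_zero_e4, map_one])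

theorem unS_e6 : UnS v (qf e6) :=
  unS_qf one_ne_zero isF_e6 coeffIn_e6 (n := 0) (by rw [coeff_zero_e6, map_one])

theorem unS_dl : UnS v (qf dl) :=
  unS_qf one_ne_zero isF_dl coeffIn_dl (n := 1) (by rw [coeff_one_dl, map_one])

theorem isG_le_one {K L : Type*} [Field K] [Field L] {v : Valuation K ℝ≥0} {qx : L →+* HS K}
    {w : Valuation L ℝ≥0} (h : IsG v qx w) {f : L} {a b : HS K} (ha : IntS v a) (hb : UnS v b)
    (e : qx f * b = a) : w f ≤ 1 := by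
  by_cases hf : f = 0
  · simp [hf]
  obtain ⟨c, a', b', ha', hb', e', hw⟩ := h f hf
  obtain ⟨g, hg⟩ := (ha'.mul hb).2
  have h1 : a * b' = HahnSeries.C c * (a' * b) := by
    rw [← e, mul_right_comm, e', mul_assoc]
  have h2 := (ha.mul hb'.1) g
  rwa [h1, HahnSeries.C_mul_eq_smul, HahnSeries.coeff_smul, smul_eq_mul, map_mul, hg, mul_one,
    ← hw] at h2

section level

variable {M : ℕ} (hM : v (M : ℂ) = 1)
include hM

theorem lev_ne : M ≠ 0 := by rintro rfl; simp at hM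

theorem zeta_int : Wp.zeta M ∈ v.integer :=
  (v_root (lev_ne hM) (Wp.zeta_pow M (lev_ne hM))).le

theorem inv_int : ((M : ℂ))⁻¹ ∈ v.integer := by
  show v _ ≤ 1
  rw [map_inv₀, hM, inv_one]

theorem chi_int (s : ℕ) (a b : ℤ) (d e : ℕ) : Wp.chi M s a b d e ∈ v.integer := by
  unfold Wp.chi
  have h1 : ∀ n : ℤ, Wp.zeta M ^ n ∈ v.integer :=
    Wp.zeta_zpow_mem_sub (lev_ne hM) (zeta_int hM)
  refine add_mem ?_ (mul_mem (pow_mem (neg_mem (one_mem _)) _) ?_)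
  · split_ifs
    · exact mul_mem (pow_mem (natCast_mem _ _) _) (pow_mem (h1 _) _)
    · exact zero_mem _
  · split_ifs
    · exact mul_mem (pow_mem (natCast_mem _ _) _) (pow_mem (h1 _) _)
    · exact zero_mem _

theorem cP_int {x : Fin 2 → ℤ} (hx : (x 0 : ZMod M) ≠ 0 ∨ (x 1 : ZMod M) ≠ 0) (n : ℕ) :
    Wp.cP M x n - (if n = 0 then 1 / 12 else 0) ∈ v.integer := by
  unfold Wp.cP
  rw [add_sub_right_comm]
  refine add_mem ?_ (sum_mem fun p _ => sub_mem (chi_int hM _ _ _ _ _) (chi_int hM _ _ _ _ _))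
  split_ifs
  · rw [Wp.cP0_eq (lev_ne hM) hx, add_sub_cancel_left]
    split_ifs with h
    · rw [div_eq_mul_inv, ← inv_pow]
      exact mul_mem (Wp.zeta_zpow_mem_sub (lev_ne hM) (zeta_int hM) _)
        (pow_mem (Wp.inv_one_sub_mem (lev_ne hM) (zeta_int hM) (inv_int hM)
          (hx.resolve_left (not_not.mpr h))) _)
    · exact zero_mem _
  · rw [sub_zero]; exact zero_mem _

theorem coeff_PP (x y : Fin 2 → ℤ) (n : ℕ) :
    (qf (Wp.P M x - Wp.P M y)).coeff ((n : ℚ) / M) = Wp.cP M x n - Wp.cP M y n := by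
  have h0 := lev_ne hM
  haveI : NeZero M := ⟨h0⟩
  rw [qf_sub h0 (Wp.isF_P h0 x) (Wp.isF_P h0 y), HahnSeries.coeff_sub, coeff_qf h0 (Wp.isF_P h0 x),
    coeff_qf h0 (Wp.isF_P h0 y), Wp.qe_P, Wp.qe_P, PowerSeries.coeff_mk, PowerSeries.coeff_mk]

theorem intS_PP {x y : Fin 2 → ℤ} (hx : (x 0 : ZMod M) ≠ 0 ∨ (x 1 : ZMod M) ≠ 0)
    (hy : (y 0 : ZMod M) ≠ 0 ∨ (y 1 : ZMod M) ≠ 0) : IntS v (qf (Wp.P M x - Wp.P M y)) := by
  have h0 := lev_ne hM
  have hF := (Wp.isF_P h0 x).sub (Wp.isF_P h0 y)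
  refine intS_qf h0 hF fun n => ?_
  rw [← coeff_qf h0 hF, coeff_PP hM, ← sub_sub_sub_cancel_right _ _ (if n = 0 then 1 / 12 else 0)]
  exact sub_mem (cP_int hM hx n) (cP_int hM hy n)

theorem zeta_cong {b c : ℤ} (h : v (Wp.zeta M ^ b - Wp.zeta M ^ c) < 1) : (b : ZMod M) = c := by
  by_contra hne
  obtain ⟨h1, h2⟩ := Wp.sub_unit (lev_ne hM) (zeta_int hM) (inv_int hM) hne
  have h3 : v (Wp.zeta M ^ b - Wp.zeta M ^ c)⁻¹ ≤ 1 := h2
  have h4 := mul_lt_one_of_lt_of_le h h3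
  rw [← map_mul, mul_inv_cancel₀ h1, map_one] at h4
  exact lt_irrefl _ h4

end level

theorem cP_one_sub (M : ℕ) (x y : Fin 2 → ℤ) : Wp.cP M x 1 - Wp.cP M y 1 =
    Wp.chi M 1 (x 0) (x 1) 1 1 - Wp.chi M 1 (y 0) (y 1) 1 1 := by
  simp [Wp.cP]

theorem chi_one (M : ℕ) (a b : ℤ) : Wp.chi M 1 a b 1 1 =
    (if (1 : ZMod M) = a then Wp.zeta M ^ b else 0) +
      if (-1 : ZMod M) = a then Wp.zeta M ^ (-b) else 0 := by
  simp [Wp.chi]

theorem neg_one_ne {M : ℕ} (h4 : 4 ∣ M) : (-1 : ZMod M) ≠ 1 := by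
  intro h
  have := congrArg (ZMod.castHom h4 (ZMod 4)) h
  rw [map_neg, map_one] at this
  revert this; decide

theorem two_ne_zero' {M : ℕ} (h4 : 4 ∣ M) : ((2 : ℤ) : ZMod M) ≠ 0 := by
  intro h
  have := congrArg (ZMod.castHom h4 (ZMod 4)) h
  rw [map_intCast, map_zero] at this
  revert this; decide

theorem chi_even {M : ℕ} (h4 : 4 ∣ M) (a b : ℤ) : Wp.chi M 1 (2 * a) b 1 1 = 0 := by
  have h2 : 2 ∣ M := Dvd.dvd.trans (by norm_num) h4
  have h0 : ((2 * a : ℤ) : ZMod 2) = 0 := by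
    rw [ZMod.intCast_zmod_eq_zero_iff_dvd]; exact Dvd.intro _ rfl
  rw [chi_one, if_neg, if_neg, add_zero]
  · intro h
    have := congrArg (ZMod.castHom h2 (ZMod 2)) h
    rw [map_neg, map_one, map_intCast, h0] at this
    revert this; decide
  · intro h
    have := congrArg (ZMod.castHom h2 (ZMod 2)) h
    rw [map_one, map_intCast, h0] at this
    revert this; decide

theorem chi_cong {M : ℕ} (h4 : 4 ∣ M) (hM : v (M : ℂ) = 1) {a b e : ℤ}
    (h : v (Wp.chi M 1 a b 1 1 - Wp.zeta M ^ e) < 1) :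
    ((a : ZMod M) = 1 ∧ (b : ZMod M) = e) ∨ ((a : ZMod M) = -1 ∧ (b : ZMod M) = -e) := by
  rw [chi_one] at h
  by_cases h1 : (1 : ZMod M) = a
  · rw [if_pos h1, if_neg (by rw [← h1]; exact neg_one_ne h4), add_zero] at h
    exact Or.inl ⟨h1.symm, zeta_cong hM h⟩
  by_cases h2 : (-1 : ZMod M) = a
  · rw [if_neg h1, if_pos h2, zero_add] at h
    refine Or.inr ⟨h2.symm, ?_⟩
    have := zeta_cong hM h
    rw [← this]; simp
  · rw [if_neg h1, if_neg h2, add_zero, zero_sub, Valuation.map_neg, map_zpow₀,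
      v_root (lev_ne hM) (Wp.zeta_pow M (lev_ne hM)), one_zpow] at h
    exact absurd h (lt_irrefl _)

theorem inert_row (h : IsG v qx w) {M : ℕ} (h4 : 4 ∣ M) (hM : v (M : ℂ) = 1) (g : SL(2, ℤ))
    (hg : ∀ f : FF, (∀ d ∈ Gamma M, d • f = f) → w f ≤ 1 → w (g⁻¹ • f - f) < 1) (e : ℤ) :
    (((g 0 0 + e * g 1 0 : ℤ) : ZMod M) = 1 ∧ ((g 0 1 + e * g 1 1 : ℤ) : ZMod M) = e) ∨
      (((g 0 0 + e * g 1 0 : ℤ) : ZMod M) = -1 ∧ ((g 0 1 + e * g 1 1 : ℤ) : ZMod M) = -e) := by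
  have h0 := lev_ne hM
  have hone : (1 : ZMod M) ≠ 0 := fun h1 => two_ne_zero' h4 (by
    rw [← mul_one ((2 : ℤ) : ZMod M), h1, mul_zero])
  have hu : (((![1, e] : Fin 2 → ℤ) 0 : ℤ) : ZMod M) ≠ 0 ∨ (((![1, e] : Fin 2 → ℤ) 1 : ℤ) : ZMod M) ≠ 0 :=
    Or.inl (by simpa using hone)
  have h2 : (((![2, 0] : Fin 2 → ℤ) 0 : ℤ) : ZMod M) ≠ 0 ∨ (((![2, 0] : Fin 2 → ℤ) 1 : ℤ) : ZMod M) ≠ 0 :=
    Or.inl (two_ne_zero' h4)
  have hE : IsF M (4 + 6) (e4 * e6) := (isF_e4.mul isF_e6).mono (one_dvd M)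
  have hD : IsF M (2 + (4 + 6)) dl := (isF_dl.mono (one_dvd M)).cast (by norm_num)
  have hUE : UnS v (qf (e4 * e6)) := by
    rw [qf_mul one_ne_zero isF_e4 isF_e6]; exact unS_e4.mul unS_e6
  have hA : ∀ x y, IsF M 2 (Wp.P M x - Wp.P M y) := fun x y => (Wp.isF_P h0 x).sub (Wp.isF_P h0 y)
  have hq : ∀ {A : ℍ → ℂ}, IsF M 2 A → qx (quo (A * (e4 * e6)) dl) * qf dl = qf A * qf (e4 * e6) := by
    intro A hA
    rw [qx_quo h0 (hA.mul hE) hD, div_mul_cancel₀ _ (unS_dl (v := v)).ne_zero, qf_mul h0 hA hE]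
  have h3 := hg (quo ((Wp.P M ![1, e] - Wp.P M ![2, 0]) * (e4 * e6)) dl)
    (fun d hd => gamma_smul_quo h0 ((hA _ _).mul hE) hD hd)
    (isG_le_one h ((intS_PP hM hu h2).mul hUE.1) unS_dl (hq (hA _ _)))
  have hdl : dl ∣[(2 + (4 + 6) : ℤ)] g = dl := (isF_dl.cast (by norm_num)).slash_one_level g
  rw [inv_sl_smul_quo h0 ((hA _ _).mul hE) hD, hdl, mul_slash_SL2,
    (isF_e4.mul isF_e6).slash_one_level g, sub_eq_add_neg (Wp.P M ![1, e]), SlashAction.add_slash,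
    SlashAction.neg_slash, Wp.P_slash, Wp.P_slash, ← sub_eq_add_neg, ← sub_eq_add_neg,
    ← quo_sub h0 ((hA _ _).mul hE) ((hA _ _).mul hE) hD, ← sub_mul] at h3
  have hB := (hA (![1, e] ᵥ* (g : Matrix (Fin 2) (Fin 2) ℤ)) (![2, 0] ᵥ* (g : Matrix (Fin 2) (Fin 2) ℤ))).sub
    (hA ![1, e] ![2, 0])
  have hI : IntS v (qf (Wp.P M (![1, e] ᵥ* (g : Matrix (Fin 2) (Fin 2) ℤ)) -
      Wp.P M (![2, 0] ᵥ* (g : Matrix (Fin 2) (Fin 2) ℤ)) - (Wp.P M ![1, e] - Wp.P M ![2, 0]))) := by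
    rw [qf_sub h0 (hA _ _) (hA _ _)]
    exact (intS_PP hM (Wp.vecMul_ne hu g) (Wp.vecMul_ne h2 g)).sub (intS_PP hM hu h2)
  have h5 := lt_of_le_of_ne (hI (((1 : ℕ) : ℚ) / M)) fun h6 => by
    have h7 := h.w_eq (c := 1) (UnS.mul ⟨hI, _, h6⟩ hUE) unS_dl (by rw [hq hB, map_one, one_mul])
    rw [h7, map_one] at h3
    exact lt_irrefl _ h3
  rw [qf_sub h0 (hA _ _) (hA _ _), HahnSeries.coeff_sub, coeff_PP hM, coeff_PP hM, cP_one_sub,
    cP_one_sub] at h5
  have e1 : (![2, 0] ᵥ* (g : Matrix (Fin 2) (Fin 2) ℤ)) 0 = 2 * g 0 0 := by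
    simp [Matrix.vecMul, dotProduct, Fin.sum_univ_two]
  have e2 : (![1, e] ᵥ* (g : Matrix (Fin 2) (Fin 2) ℤ)) 0 = g 0 0 + e * g 1 0 := by
    simp [Matrix.vecMul, dotProduct, Fin.sum_univ_two]
  have e3 : (![1, e] ᵥ* (g : Matrix (Fin 2) (Fin 2) ℤ)) 1 = g 0 1 + e * g 1 1 := by
    simp [Matrix.vecMul, dotProduct, Fin.sum_univ_two]
  have e4' : Wp.chi M 1 ((![2, 0] : Fin 2 → ℤ) 0) ((![2, 0] : Fin 2 → ℤ) 1) 1 1 = 0 :=
    chi_even h4 1 0
  have e5 : Wp.chi M 1 ((![1, e] : Fin 2 → ℤ) 0) ((![1, e] : Fin 2 → ℤ) 1) 1 1 = Wp.zeta M ^ e := by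
    show Wp.chi M 1 1 e 1 1 = _
    rw [chi_one, if_pos (by simp), if_neg (by simpa using neg_one_ne h4), add_zero]
  rw [e1, e2, e3, chi_even h4, e4', e5, sub_zero, sub_zero] at h5
  exact chi_cong h4 hM h5

/-- **trivial inertia** -/
theorem inert (h : IsG v qx w) {M : ℕ} (h4 : 4 ∣ M) (hM : v (M : ℂ) = 1) (g : SL(2, ℤ))
    (hg : ∀ f : FF, (∀ d ∈ Gamma M, d • f = f) → w f ≤ 1 → w (g • f - f) < 1) :
    g ∈ Gamma M ∨ -g ∈ Gamma M := by
  have key : ∀ γ : SL(2, ℤ),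
      (∀ f : FF, (∀ d ∈ Gamma M, d • f = f) → w f ≤ 1 → w (γ⁻¹ • f - f) < 1) →
      γ ∈ Gamma M ∨ -γ ∈ Gamma M := by
    intro γ hγ
    have h1 := inert_row h h4 hM γ hγ 0
    have h2 := inert_row h h4 hM γ hγ 1
    have hd : (γ 0 0 : ZMod M) * γ 1 1 - γ 0 1 * γ 1 0 = 1 := by
      have := γ.det_coe
      rw [Matrix.det_fin_two] at this
      exact_mod_cast congrArg (Int.cast : ℤ → ZMod M) this
    have hne := neg_one_ne h4
    simp only [zero_mul, add_zero, one_mul, Int.cast_zero, neg_zero, Int.cast_one, Int.cast_add]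
      at h1 h2
    rcases h1 with ⟨a1, b1⟩ | ⟨a1, b1⟩ <;> rcases h2 with ⟨a2, b2⟩ | ⟨a2, b2⟩
    · left
      rw [Gamma_mem]
      exact ⟨a1, b1, by linear_combination a2 - a1, by linear_combination b2 - b1⟩
    · exfalso; apply hne
      rw [b1, zero_add] at b2
      rw [a1, b1, b2] at hd
      linear_combination hd
    · exfalso; apply hne
      rw [b1, zero_add] at b2
      rw [a1, b1, b2] at hd
      linear_combination hd
    · right
      rw [Gamma_mem]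
      simp only [Matrix.SpecialLinearGroup.coe_neg, Matrix.neg_apply, Int.cast_neg]
      exact ⟨by linear_combination -a1, by linear_combination -b1, by linear_combination a1 - a2,
        by linear_combination b1 - b2⟩
  rcases key g⁻¹ (by simpa only [inv_inv] using hg) with h1 | h1
  · exact Or.inl (by simpa using inv_mem h1)
  · right
    have := inv_mem h1
    rwa [inv_neg, inv_inv] at this

end Crest.Agent.T15.Ig
end
end

-- ▼ part T15/IgE_61

/-!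
# Row 15, block T (helper61), Igusa part E: the decomposition group is everything

`w_sl` : for a level `M` which is a `v`-unit, the Gauss norm on functions of level `Γ(M)` is
invariant under `SL(2, ℤ)`.
-/

set_option autoImplicit false
set_option linter.unusedSectionVars false

noncomputable section

namespace Crest.Agent.T15.Ig

open UpperHalfPlane ModularForm CongruenceSubgroup Polynomial WithZero
open scoped MatrixGroups NNReal
open Crest.Agent.R007 Crest.Agent.R007.Rat Crest.Agent.T15.Mf Crest.Agent.T15.Bet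
open Crest.Agent.T15.Hs Crest.Agent.T15.Cg Crest.Agent.T15.Lv
open Crest.Agent.R013.RR7_948 Crest.Agent.R013.RR8_948 Crest.Agent.R013.RR9_948
open Crest.Agent.R013.GR4_921

section qexp

variable {v : Valuation ℂ ℝ≥0}

theorem coeff_qf_one {k : ℤ} {F : ℍ → ℂ} (hF : IsF 1 k F) (n : ℕ) :
    (qf F).coeff (n : ℚ) = PowerSeries.coeff n (qe 1 F) := by
  rw [← coeff_qf one_ne_zero hF, Nat.cast_one, div_one]

theorem qf_dl_zero : (qf dl).coeff 0 = 0 := (coeff_qf_one isF_dl 0).trans coeff_zero_dl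

theorem qf_dl_one : (qf dl).coeff 1 = 1 := (coeff_qf_one isF_dl 1).trans coeff_one_dl

theorem qf_e43_zero : (qf (e4 ^ 3)).coeff 0 = 1 := by
  have := coeff_zero_mon 3 0
  simp only [mon, pow_zero, mul_one] at this
  exact (coeff_qf_one isF_e43 0).trans this

theorem unS_e43 : UnS v (qf (e4 ^ 3)) :=
  ⟨by rw [qf_pow one_ne_zero isF_e4]; exact unS_e4.1.pow 3, 0,
    by rw [qf_e43_zero, map_one]⟩

theorem qx_jF : qx jF * qf dl = qf (e4 ^ 3) := by
  rw [jF, qx_quo one_ne_zero isF_e43 isF_dl,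
    div_mul_cancel₀ _ (qf_ne_zero one_ne_zero isF_dl dl_ne_zero)]

theorem w_jF {w : Valuation FF ℝ≥0} (hG : IsG v qx w) : w jF = 1 := by
  rw [← map_one v]
  exact hG.w_eq unS_e43 unS_dl (by rw [map_one, one_mul, qx_jF])

end qexp

/-- `Δ (g z) / Δ (z)` -/
def UU (g : GQ) : FF := quo (dl ∣[(12 : ℤ)] rr g) dl

theorem isF_UU (g : GQ) : ∃ N : ℕ, N ≠ 0 ∧ IsF N 12 (dl ∣[(12 : ℤ)] rr g) ∧ IsF N 12 dl := by
  obtain ⟨N, hN, h⟩ := exists_level 1 one_ne_zero g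
  exact ⟨N, hN, h _ _ isF_dl, isF_dl.mono (one_dvd N)⟩

theorem inv_smul_UU (g : GQ) (γ : SL(2, ℤ)) : γ⁻¹ • UU g = UU (g * Mf.sq γ) := by
  obtain ⟨N, hN, h1, h2⟩ := isF_UU g
  rw [UU, UU, inv_sl_smul_quo hN h1 h2, isF_dl.slash_one_level, map_mul, SlashAction.slash_mul,
    slash_sq]

theorem UU_sq_mul (γ : SL(2, ℤ)) (g : GQ) : UU (Mf.sq γ * g) = UU g := by
  rw [UU, UU, map_mul, SlashAction.slash_mul, slash_sq, isF_dl.slash_one_level]

theorem vM_UU (g : GQ) (z : ℍ) : vM z (UU g : Mer) = 1 := by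
  obtain ⟨N, hN, h1, h2⟩ := isF_UU g
  rw [UU, coe_quo hN h1 h2, map_div₀, (vM_mer_eq_one h2.holo).2 (dl_ne z),
    (vM_mer_eq_one h1.holo).2, div_one]
  rw [slash_eq]
  exact mul_ne_zero (dl_ne _) (jf_ne _ _ _)

theorem qx_UU {g : GQ} (hg : (g : GL (Fin 2) ℚ) 1 0 = 0) :
    qx (UU g) * qf dl = HahnSeries.C (jf 12 g UpperHalfPlane.I) *
      sc ((g : GL (Fin 2) ℚ) 0 0 / (g : GL (Fin 2) ℚ) 1 1)
        (tw (ee ((g : GL (Fin 2) ℚ) 0 1 / (g : GL (Fin 2) ℚ) 1 1)) (qf dl)) := by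
  obtain ⟨N, hN, h1, h2⟩ := isF_UU g
  rw [UU, qx_quo hN h1 h2, div_mul_cancel₀ _ (qf_ne_zero one_ne_zero isF_dl dl_ne_zero),
    qf_slash_upper hg one_ne_zero isF_dl]

theorem gm_apply {a b c d : ℤ} (h : 0 < a * d - b * c) (i j : Fin 2) :
    (gm a b c d : GL (Fin 2) ℚ) i j = !![(a : ℚ), b; c, d] i j :=
  congrFun (congrFun (gm_val h) i) j

theorem jf_gm {a b d : ℤ} (h : 0 < a * d) :
    jf 12 (gm a b 0 d) UpperHalfPlane.I = ((a : ℂ) * d) ^ (11 : ℤ) * (d : ℂ) ^ (-12 : ℤ) := by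
  have h' : 0 < a * d - b * 0 := by simpa using h
  have e1 : (rr (gm a b 0 d)).det.val = ((a * d : ℤ) : ℝ) := by
    simp only [Matrix.GeneralLinearGroup.val_det_apply, Matrix.det_fin_two, rr_apply, gm_apply h']
    simp
  have e2 : denom (rr (gm a b 0 d)) UpperHalfPlane.I = d := by
    simp only [denom, rr_apply, gm_apply h']
    simp
  rw [jf, e1, e2, abs_of_pos (by exact_mod_cast h)]
  simp

variable {v : Valuation ℂ ℝ≥0} {w : Valuation FF ℝ≥0}

theorem v_int (n : ℤ) : v (n : ℂ) ≤ 1 := intCast_mem v.valuationSubring n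

theorem v_eq_one_of_dvd {a b : ℤ} (h : a ∣ b) (hb : v (b : ℂ) = 1) : v (a : ℂ) = 1 := by
  obtain ⟨c, rfl⟩ := h
  rw [Int.cast_mul, map_mul] at hb
  exact le_antisymm (v_int a) (hb ▸ mul_le_of_le_one_right' (v_int c))

theorem v_jf {a b d : ℤ} (h : 0 < a * d) (hv : v ((a * d : ℤ) : ℂ) = 1) :
    v (jf 12 (gm a b 0 d) UpperHalfPlane.I) = 1 := by
  rw [jf_gm h, map_mul, map_zpow₀, map_zpow₀, ← Int.cast_mul, hv,
    v_eq_one_of_dvd (Dvd.intro_left a rfl) hv, one_zpow, one_zpow, one_mul]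

theorem w_UU (hG : IsG v qx w) {a b c d : ℤ} (h : 0 < a * d - b * c)
    (hv : v ((a * d - b * c : ℤ) : ℂ) = 1) : w (UU (gm a b c d)) = 1 := by
  have h0 : 0 < Int.gcd a c := Int.gcd_pos_iff.2 (by
    by_contra hc
    push Not at hc
    simp [hc.1, hc.2] at h)
  obtain ⟨a', c', hco, ha, hc⟩ := Int.exists_gcd_one h0
  obtain ⟨s, t, hst⟩ := Int.isCoprime_iff_gcd_eq_one.2 hco
  let γ : SL(2, ℤ) := ⟨!![s, t; -c', a'], by rw [Matrix.det_fin_two_of]; linear_combination hst⟩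
  have e : Mf.sq γ * gm a b c d = gm (s * a + t * c) (s * b + t * d) 0 (-c' * b + a' * d) := by
    rw [sq_eq_gm, gm_mul (by rw [det_eq]; exact one_pos) h]
    congr 1
    change -c' * a + a' * c = 0
    linear_combination -c' * ha + a' * hc
  have e' : (s * a + t * c) * (-c' * b + a' * d) = a * d - b * c := by
    generalize (Int.gcd a c : ℤ) = g at ha hc
    subst ha hc
    linear_combination (g * (a' * d - c' * b)) * hst
  have h1 : 0 < (s * a + t * c) * (-c' * b + a' * d) - (s * b + t * d) * 0 := by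
    rw [mul_zero, sub_zero, e']; exact h
  have hg : (gm (s * a + t * c) (s * b + t * d) 0 (-c' * b + a' * d) : GL (Fin 2) ℚ) 1 0 = 0 := by
    rw [gm_apply h1]; simp
  rw [← UU_sq_mul γ, e, hG.w_eq ((unS_dl.tw _).sc (upper_pos hg)) unS_dl (qx_UU hg)]
  exact v_jf (e' ▸ h) (e' ▸ hv)

theorem smul_UU_dg {p : ℕ} (hp : 0 < p) {γ : SL(2, ℤ)} (h : (p : ℤ) ∣ γ 1 0) :
    γ • UU (dg p) = UU (dg p) := by
  obtain ⟨c, hc⟩ := h
  have hd := det_eq γ
  let δ : SL(2, ℤ) := ⟨!![γ 0 0, p * γ 0 1; c, γ 1 1], by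
    rw [Matrix.det_fin_two_of]; rw [hc] at hd; linear_combination hd⟩
  have hp' : 0 < (p : ℤ) * 1 - 0 * 0 := by simpa using hp
  rw [smul_eq_iff_eq_inv_smul, inv_smul_UU, ← UU_sq_mul δ, dg, sq_eq_gm, sq_eq_gm,
    gm_mul hp' (by rw [det_eq]; exact one_pos), gm_mul (by rw [det_eq]; exact one_pos) hp', hc]
  congr 2 <;> simp [δ, mul_comm]

theorem w_smul_UU (hG : IsG v qx w) {p : ℕ} (hp : 0 < p) (hv : v (p : ℂ) = 1) (γ : SL(2, ℤ)) :
    w (γ • UU (dg p)) = 1 := by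
  have hp' : 0 < (p : ℤ) * 1 - 0 * 0 := by simpa using hp
  have hd := det_eq γ⁻¹
  rw [← inv_inv γ, inv_smul_UU, dg, sq_eq_gm, gm_mul hp' (by rw [hd]; exact one_pos)]
  have e : ((p : ℤ) * γ⁻¹ 0 0 + 0 * γ⁻¹ 1 0) * (0 * γ⁻¹ 0 1 + 1 * γ⁻¹ 1 1) -
      (p * γ⁻¹ 0 1 + 0 * γ⁻¹ 1 1) * (0 * γ⁻¹ 0 0 + 1 * γ⁻¹ 1 0) = p := by
    linear_combination (p : ℤ) * hd
  exact w_UU hG (by rw [e]; exact_mod_cast hp) (by rw [e]; exact_mod_cast hv)

variable {M : ℕ} {T : Type*} [Field T] [Algebra ℂ T] [Algebra (RatFunc ℂ) T]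
  [IsScalarTower ℂ (RatFunc ℂ) T] {ι : T →ₐ[ℂ] FF}


theorem exists_vM_jF (c : ℂ) : ∃ z : ℍ, vM z ((jF - algebraMap ℂ FF c : FF) : Mer) < 1 := by
  obtain ⟨z, hz⟩ := j_onto c
  refine ⟨z, ?_⟩
  have e : jF - algebraMap ℂ FF c = quo (jn c) dl := by
    rw [jn, quo_sub one_ne_zero isF_e43 (isF_dl.smul c) isF_dl, quo_smul one_ne_zero isF_dl isF_dl,
      quo_self one_ne_zero isF_dl dl_ne_zero, mul_one, jF]
  rw [e, coe_quo one_ne_zero (isF_jn c) isF_dl, map_div₀, (vM_mer_eq_one isF_dl.holo).2 (dl_ne z),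
    div_one, vM_mer_lt_one (isF_jn c).holo]
  simp [jn, hz]

theorem val_aeval_sub {K Γ : Type*} [Field K] [Algebra ℂ K] [LinearOrderedCommGroupWithZero Γ]
    (V : Valuation K Γ) (hV : ∀ c : ℂ, V (algebraMap ℂ K c) ≤ 1) {x : K} {c : ℂ}
    (hx : V (x - algebraMap ℂ K c) < 1) (p : ℂ[X]) :
    V (aeval x p - algebraMap ℂ K (p.eval c)) < 1 := by
  have hx1 : V x ≤ 1 := by
    rw [← sub_add_cancel x (algebraMap ℂ K c)]
    exact (V.map_add _ _).trans (max_le hx.le (hV c))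
  have h1 : ∀ q : ℂ[X], V (aeval x q) ≤ 1 := fun q => by
    rw [aeval_eq_sum_range]
    refine V.map_sum_le fun i _ => ?_
    rw [Algebra.smul_def, map_mul, map_pow]
    exact mul_le_one' (hV _) (pow_le_one' hx1 i)
  obtain ⟨q, hq⟩ := X_sub_C_dvd_sub_C_eval (p := p) (a := c)
  have := congrArg (aeval x) hq
  rw [map_sub, map_mul, map_sub, aeval_C, aeval_C, aeval_X] at this
  rw [this, map_mul]
  exact mul_lt_one_of_lt_of_le hx (h1 q)

/-- rational functions of `j` without poles on `ℍ` are polynomials -/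
theorem poly_of_hol (hj : ι (xK ℂ T) = jF) (r : RatFunc ℂ)
    (hr : ∀ z, vM z (ι (algebraMap (RatFunc ℂ) T r) : Mer) ≤ 1) :
    ∃ p : ℂ[X], algebraMap (RatFunc ℂ) T r = aeval (xK ℂ T) p := by
  by_cases hd : r.denom.degree = 0
  · refine ⟨r.num, ?_⟩
    rw [← algebraMap_poly]
    congr 1
    conv_lhs => rw [← RatFunc.num_div_denom r, (r.monic_denom.degree_le_zero_iff_eq_one).1 hd.le]
    simp
  exfalso
  obtain ⟨c, hc⟩ := IsAlgClosed.exists_root r.denom hd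
  obtain ⟨z, hz⟩ := exists_vM_jF c
  let V : Valuation FF ℤᵐ⁰ := (vM z).comap FF.subtype
  have hV1 : ∀ c : ℂ, c ≠ 0 → V (algebraMap ℂ FF c) = 1 := fun c hc => vM_const z hc
  have hV : ∀ c : ℂ, V (algebraMap ℂ FF c) ≤ 1 := fun c => by
    by_cases h : c = 0
    · simp [h]
    · exact (hV1 c h).le
  have h1 := val_aeval_sub V hV hz r.denom
  rw [hc.eq_zero, map_zero, sub_zero] at h1
  have hn : r.num.eval c ≠ 0 := fun e => by
    obtain ⟨a, b, hab⟩ := r.isCoprime_num_denom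
    have := congrArg (eval c) hab
    simp [e, hc.eq_zero] at this
  have h2 : V (aeval jF r.num) = 1 := by
    rw [← hV1 _ hn]
    exact Valuation.map_eq_of_sub_lt _ (by rw [hV1 _ hn]; exact val_aeval_sub V hV hz r.num)
  have h3 : V (ι (algebraMap (RatFunc ℂ) T r)) ≤ 1 := hr z
  have h4 : ι (algebraMap (RatFunc ℂ) T r) * aeval jF r.denom = aeval jF r.num := by
    rw [← hj, aeval_algHom_apply, aeval_algHom_apply, ← map_mul, ← algebraMap_poly,
      ← algebraMap_poly, ← map_mul]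
    congr 2
    exact ((div_eq_iff (by simpa using r.denom_ne_zero)).1 r.num_div_denom).symm
  have h5 := mul_lt_one_of_lt_of_le h1 h3
  rw [← map_mul, mul_comm, h4, h2] at h5
  exact lt_irrefl _ h5

variable {k κ : Type*} [Field k] [IsAlgClosed k] [Field κ] [Algebra k κ] {r : ℂ → k}
  {wT : Valuation T ℝ≥0} {ρ : T → κ}

theorem rd_C' (hr : IsRes v r) (c : ℂ) : rd hr (HahnSeries.C c) = HahnSeries.C (r c) := by
  ext g
  rw [rd_coeff, HahnSeries.C_apply, HahnSeries.C_apply, HahnSeries.coeff_single,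
    HahnSeries.coeff_single]
  split_ifs
  · rfl
  · exact hr.zero

/-- `exists_psi` with constants -/
theorem exists_psi' (hG : IsG v qx w) (hw : ∀ x, wT x = w (ι x)) (hT : Red v r wT ρ) :
    ∃ ψ : κ →+* HS k, (∀ c, ψ (algebraMap k κ c) = HahnSeries.C c) ∧
      ∀ (x : T) (a b : HS ℂ), IntS v a → UnS v b → qx (ι x) * b = a →
      ψ (ρ x) * rd hT.resC b = rd hT.resC a := by
  obtain ⟨ψ, hψ⟩ := exists_psi hG hT.resC hw hT.res
  refine ⟨ψ, fun c => ?_, fun x a b ha hb e => (hψ x a b ha hb e).2⟩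
  obtain ⟨c, hc, rfl⟩ := hT.resC.surj c
  have := (hψ (algebraMap ℂ T c) _ 1 (IntS.one.C_mul hc) UnS.one (by
    rw [AlgHom.commutes, qx_algebraMap])).2
  rwa [hT.comp c hc, rd_one, mul_one, mul_one, rd_C'] at this

theorem res_j_notMem (hj : ι (xK ℂ T) = jF) (hG : IsG v qx w) (hw : ∀ x, wT x = w (ι x))
    (hT : Red v r wT ρ) : ρ (xK ℂ T) ∉ Set.range (algebraMap k κ) := by
  rintro ⟨c, hc⟩
  obtain ⟨ψ, h1, h2⟩ := exists_psi' hG hw hT
  have := h2 _ _ _ unS_e43.1 unS_dl (by rw [hj, qx_jF])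
  rw [← hc, h1] at this
  have := congrArg (fun y : HS k => y.coeff 0) this
  simp only [HahnSeries.C_mul_eq_smul, HahnSeries.coeff_smul, rd_coeff, qf_dl_zero, qf_e43_zero,
    hT.resC.zero, hT.resC.one, smul_zero] at this
  exact zero_ne_one this

/-- **the decomposition group is everything** -/
theorem w_sl [FiniteDimensional (RatFunc ℂ) T] [IsGalois (RatFunc ℂ) T] (hM : M ≠ 0)
    (hv : v (M : ℂ) = 1) (h : Lvl M ι) (hG : IsG v qx w) (hw : ∀ x, wT x = w (ι x))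
    (hT : Red v r wT ρ) (γ : SL(2, ℤ)) (x : T) : w (γ • ι x) = w (ι x) := by
  let S : Subgroup SL(2, ℤ) :=
    { carrier := {γ | ∀ x : T, w (γ • ι x) = w (ι x)}
      one_mem' := fun x => by rw [one_smul]
      mul_mem' := fun {a b} ha hb x => by
        obtain ⟨y, hy⟩ := h.exists_smul b x
        rw [mul_smul, ← hy, ha, hy, hb]
      inv_mem' := fun {a} ha x => by
        obtain ⟨y, hy⟩ := h.exists_smul a⁻¹ x
        rw [← hy, ← ha, hy, smul_inv_smul] }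
  have hS : S = ⊤ := by
    refine DGrp.eq_top M (Nat.pos_of_ne_zero hM) S (fun δ hδ y => by rw [h.lev y hδ])
      (S.inv_mem_iff.1 fun y => ?_) fun p hp hpM => ?_
    · rw [sl_smul, map_inv]
      exact w_upper hG (by rw [sq_apply]; simp [ModularGroup.T]) _
    by_contra hc
    push Not at hc
    have hvp : v (p : ℂ) = 1 := by
      have := v_eq_one_of_dvd (v := v) (Int.natCast_dvd_natCast.2 hpM) (by exact_mod_cast hv)
      exact_mod_cast this
    obtain ⟨u, hu⟩ := (h.mem (UU (dg p))).2 fun δ hδ => smul_UU_dg hp.pos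
      ((Int.natCast_dvd_natCast.2 hpM).trans
        ((ZMod.intCast_zmod_eq_zero_iff_dvd _ M).1 (Gamma_mem.1 hδ).2.2.1))
    let A : Subring T :=
      { carrier := {x | ∀ z, vM z (ι x : Mer) ≤ 1}
        one_mem' := fun z => by simp
        zero_mem' := fun z => by simp
        mul_mem' := fun {a b} ha hb z => by
          rw [map_mul, IntermediateField.coe_mul, map_mul]; exact mul_le_one' (ha z) (hb z)
        add_mem' := fun {a b} ha hb z => by
          rw [map_add, IntermediateField.coe_add]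
          exact (Valuation.map_add _ _ _).trans (max_le (ha z) (hb z))
        neg_mem' := fun {a} ha z => by
          rw [map_neg, IntermediateField.coe_neg, Valuation.map_neg]; exact ha z }
    have hcon : ∀ g : T ≃ₐ[RatFunc ℂ] T, wT (g u) = 1 := fun g => by
      obtain ⟨δ, hδ⟩ := h.gal g
      rw [hw, hδ, hu, w_smul_UU hG hp.pos hvp]
    obtain ⟨c, hc'⟩ := const_of_unit hT (by rw [hw, h.xj, w_jF hG]) (res_j_notMem h.xj hG hw hT) A
      (fun g a ha z => by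
        obtain ⟨δ, hδ⟩ := h.gal g
        rw [hδ, ← inv_inv δ, sl_smul, map_inv, Mf.coe_smul, vM_inv_smul]
        exact ha _)
      (fun a ha hfix => by
        obtain ⟨s, rfl⟩ := (IsGalois.mem_range_algebraMap_iff_fixed (F := RatFunc ℂ) a).2 hfix
        exact poly_of_hol h.xj s ha)
      (y := u) (fun z => by rw [hu, vM_UU])
      (fun z => by rw [map_inv₀, IntermediateField.coe_inv, map_inv₀, hu, vM_UU, inv_one]) hcon
      (fun g hg => by
        obtain ⟨δ, hδ⟩ := h.gal g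
        apply (ι : T →+* FF).injective
        change ι (g u) = ι u
        rw [hδ, hu]
        exact smul_UU_dg hp.pos (hc δ fun y => by rw [← hδ, ← hw, ← hw, hg]))
    obtain ⟨ψ, h1, h2⟩ := exists_psi' hG hw hT
    have hp' : 0 < (p : ℤ) * 1 - 0 * 0 := by simpa using hp.pos
    have hg : (dg p : GL (Fin 2) ℚ) 1 0 = 0 := by rw [dg, gm_apply hp']; simp
    have hj : v (jf 12 (dg p) UpperHalfPlane.I) = 1 := v_jf (by simpa using hp.pos) (by simpa using hvp)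
    have h3 := h2 u _ _ (((unS_dl.tw _).sc (upper_pos hg)).1.C_mul hj.le) unS_dl
      (by rw [hu]; exact qx_UU hg)
    have h4 : (qf dl).coeff (1 / ((dg p : GL (Fin 2) ℚ) 0 0 / (dg p : GL (Fin 2) ℚ) 1 1)) = 0 := by
      by_contra hne
      obtain ⟨n, hn⟩ := lev_qf one_ne_zero isF_dl _ hne
      rw [dg, gm_apply hp', gm_apply hp'] at hn
      have hp0 : (p : ℚ) ≠ 0 := Nat.cast_ne_zero.2 hp.ne_zero
      have : (p : ℚ) * n = 1 := by
        simp at hn
        rw [← hn, mul_inv_cancel₀ hp0]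
      exact hp.ne_one (Nat.eq_one_of_mul_eq_one_right (by exact_mod_cast this))
    rw [← hc', h1] at h3
    have h5 := congrArg (fun y : HS k => y.coeff 1) h3
    simp only [HahnSeries.C_mul_eq_smul, HahnSeries.coeff_smul, rd_coeff, qf_dl_one,
      coeff_sc (upper_pos hg), coeff_tw, h4, hT.resC.zero, hT.resC.one, smul_eq_mul, mul_zero,
      mul_one] at h5
    have h6 := (hT.res.ne_zero_iff (hcon 1).le).2 (hcon 1)
    rw [AlgEquiv.one_apply, ← hc', h5, map_zero] at h6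
    exact h6 rfl
  exact (show γ ∈ S from hS ▸ Subgroup.mem_top γ) x

end Crest.Agent.T15.Ig
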