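import Mathlib
import Crest.Agent.R007.RatG1
import Crest.Agent.R007.RatL1

/-!
# T15 / MfA (helper79): the field of modular functions of all levels

* `Hol` holomorphic functions on `ℍ`, `Mer = Frac Hol`, `mer F : Mer`;
* `GQ = GL(2,ℚ)⁺` acts on `Hol`, `Mer` by `(g • f) τ = f (g⁻¹ τ)`;
* `FF : IntermediateField ℂ Mer` quotients `F / G` of forms of the same weight and some level `Γ(M)`;
  `quo F G : FF`; `GQ` and `SL(2,ℤ)` act on `FF`, `g⁻¹ • quo F G = quo (F ∣[k] g) (G ∣[k] g)`.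
-/

set_option autoImplicit false
set_option linter.all false

noncomputable section

namespace Crest.Agent.T15.Mf

open UpperHalfPlane ModularForm CongruenceSubgroup Matrix.SpecialLinearGroup
open scoped MatrixGroups Manifold
open Crest.Agent.R007 Crest.Agent.R007.Rat

/-- holomorphic functions on the upper half plane -/
def Hol : Subalgebra ℂ (ℍ → ℂ) where
  carrier := {f | MDiff f}
  mul_mem' := fun hf hg => MDifferentiable.mul hf hg
  add_mem' := fun hf hg => MDifferentiable.add hf hg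
  algebraMap_mem' := fun c => mdifferentiable_const


instance : Nontrivial Hol := ⟨⟨0, 1, fun h => by
  have := congrFun (congrArg Subtype.val h) UpperHalfPlane.I
  simp at this⟩⟩

instance : NoZeroDivisors Hol := ⟨fun {a b} h => by
  have h1 : (a : ℍ → ℂ) * (b : ℍ → ℂ) = 0 := congrArg Subtype.val h
  rcases (UpperHalfPlane.mul_eq_zero_iff a.2 b.2).mp h1 with h2 | h2
  · left; exact Subtype.ext h2
  · right; exact Subtype.ext h2⟩

instance : IsDomain Hol := NoZeroDivisors.to_isDomain _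

/-- meromorphic functions on the upper half plane (quotients of holomorphic ones) -/
def Mer : Type := FractionRing Hol

instance : Field Mer := inferInstanceAs (Field (FractionRing Hol))

instance : Algebra Hol Mer := inferInstanceAs (Algebra Hol (FractionRing Hol))

instance : IsFractionRing Hol Mer := inferInstanceAs (IsFractionRing Hol (FractionRing Hol))

instance : Algebra ℂ Mer := ((algebraMap Hol Mer).comp (algebraMap ℂ Hol)).toAlgebra

instance : IsScalarTower ℂ Hol Mer := IsScalarTower.of_algebraMap_eq fun _ => rfl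

instance : CharZero Mer := charZero_of_injective_algebraMap (algebraMap ℂ Mer).injective

open Classical in
/-- a holomorphic function as an element of `Mer` (junk value `0` otherwise) -/
def mer (F : ℍ → ℂ) : Mer := if h : MDiff F then algebraMap Hol Mer ⟨F, h⟩ else 0

section mer

variable {F G : ℍ → ℂ}

theorem mer_eq (h : MDiff F) : mer F = algebraMap Hol Mer ⟨F, h⟩ := dif_pos h

theorem mer_coe (a : Hol) : mer (a : ℍ → ℂ) = algebraMap Hol Mer a := mer_eq a.2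

theorem mer_add (hF : MDiff F) (hG : MDiff G) : mer (F + G) = mer F + mer G := by
  rw [mer_eq hF, mer_eq hG, mer_eq (hF.add hG), ← map_add]; rfl

theorem mer_mul (hF : MDiff F) (hG : MDiff G) : mer (F * G) = mer F * mer G := by
  rw [mer_eq hF, mer_eq hG, mer_eq (hF.mul hG), ← map_mul]; rfl

theorem mer_zero : mer 0 = 0 := by
  rw [mer_eq (Hol.zero_mem), ← map_zero (algebraMap Hol Mer)]; rfl

theorem mer_one : mer 1 = 1 := by
  rw [mer_eq (Hol.one_mem), ← map_one (algebraMap Hol Mer)]; rfl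

theorem mer_neg (hF : MDiff F) : mer (-F) = -mer F := by
  rw [mer_eq hF, mer_eq (Hol.neg_mem hF), ← map_neg]; rfl

theorem mer_sub (hF : MDiff F) (hG : MDiff G) : mer (F - G) = mer F - mer G := by
  rw [mer_eq hF, mer_eq hG, mer_eq (Hol.sub_mem hF hG), ← map_sub]; rfl

theorem mer_pow (hF : MDiff F) (n : ℕ) : mer (F ^ n) = mer F ^ n := by
  rw [mer_eq hF, mer_eq (Hol.pow_mem hF n), ← map_pow]; rfl

theorem mer_const (c : ℂ) : mer (fun _ => c) = algebraMap ℂ Mer c := by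
  rw [mer_eq mdifferentiable_const, IsScalarTower.algebraMap_apply ℂ Hol Mer]; rfl

theorem mer_smul (hF : MDiff F) (c : ℂ) : mer (c • F) = algebraMap ℂ Mer c * mer F := by
  rw [← mer_const, ← mer_mul mdifferentiable_const hF]; rfl

theorem mer_inj (hF : MDiff F) (hG : MDiff G) (h : mer F = mer G) : F = G := by
  rw [mer_eq hF, mer_eq hG] at h
  exact congrArg Subtype.val (IsFractionRing.injective Hol Mer h)

theorem mer_eq_zero (hF : MDiff F) : mer F = 0 ↔ F = 0 :=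
  ⟨fun h => mer_inj hF Hol.zero_mem (h.trans mer_zero.symm), fun h => h ▸ mer_zero⟩

theorem mer_ne_zero (hF : MDiff F) (h : F ≠ 0) : mer F ≠ 0 := fun h1 => h ((mer_eq_zero hF).mp h1)

theorem mer_prod {ι : Type*} (s : Finset ι) (F : ι → ℍ → ℂ) (h : ∀ i ∈ s, MDiff (F i)) :
    mer (∏ i ∈ s, F i) = ∏ i ∈ s, mer (F i) := by
  classical
  induction s using Finset.induction_on with
  | empty => simp [mer_one]
  | insert a s ha ih =>
    rw [Finset.prod_insert ha, Finset.prod_insert ha, mer_mul (h a (by simp))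
      (Hol.prod_mem fun i hi => h i (by simp [hi])), ih fun i hi => h i (by simp [hi])]


theorem exists_mer (x : Mer) : ∃ F G : ℍ → ℂ, MDiff F ∧ MDiff G ∧ G ≠ 0 ∧ x = mer F / mer G := by
  obtain ⟨a, b, hb, rfl⟩ := IsFractionRing.div_surjective (A := Hol) x
  refine ⟨a, b, a.2, b.2, fun h => ?_, by rw [mer_coe, mer_coe]⟩
  exact nonZeroDivisors.ne_zero hb (Subtype.ext h)

end mer

/-! ### the group `GL(2,ℚ)⁺` -/

/-- `GL(2,ℚ)⁺` -/
abbrev GQ : Type := Matrix.GLPos (Fin 2) ℚ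

/-- `GL(2,ℚ)⁺ → GL(2,ℝ)` -/
def rr : GQ →* GL (Fin 2) ℝ :=
  (Matrix.GeneralLinearGroup.map (Rat.castHom ℝ)).comp (Matrix.GLPos (Fin 2) ℚ).subtype

theorem rr_apply (g : GQ) (i j : Fin 2) : rr g i j = (((g : GL (Fin 2) ℚ) i j : ℚ) : ℝ) := rfl

theorem rr_det (g : GQ) : (rr g).det.val = (((g : GL (Fin 2) ℚ).det.val : ℚ) : ℝ) := by
  simp only [Matrix.GeneralLinearGroup.val_det_apply, Matrix.det_fin_two, rr_apply]
  push_cast
  rfl

theorem rr_pos (g : GQ) : 0 < (rr g).det.val := by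
  rw [rr_det]
  exact_mod_cast g.2

/-- `SL(2,ℤ) → GL(2,ℚ)⁺` -/
def sq : SL(2, ℤ) →* GQ :=
  (mapGL ℚ : SL(2, ℤ) →* GL (Fin 2) ℚ).codRestrict _ fun γ => by
    rw [Matrix.mem_glpos]
    simp

theorem sq_apply (γ : SL(2, ℤ)) (i j : Fin 2) :
    ((sq γ : GQ) : GL (Fin 2) ℚ) i j = ((γ i j : ℤ) : ℚ) := rfl

theorem rr_sq (γ : SL(2, ℤ)) : rr (sq γ) = mapGL ℝ γ := by
  ext i j
  rw [rr_apply, sq_apply]
  simp [mapGL]

theorem sq_injective : Function.Injective sq := by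
  intro a b h
  ext i j
  have := congrArg (fun g : GQ => (g : GL (Fin 2) ℚ) i j) h
  simp only [sq_apply] at this
  exact_mod_cast this

theorem slash_sq (F : ℍ → ℂ) (k : ℤ) (γ : SL(2, ℤ)) : F ∣[k] rr (sq γ) = F ∣[k] γ := by
  rw [rr_sq]; rfl

theorem rr_sq_smul (γ : SL(2, ℤ)) (τ : ℍ) : rr (sq γ) • τ = γ • τ := by
  rw [rr_sq]; rfl

instance : MulSemiringAction GQ Hol where
  smul g f := ⟨fun τ => (f : ℍ → ℂ) (rr g⁻¹ • τ), f.2.comp (mdifferentiable_smul (rr_pos g⁻¹))⟩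
  one_smul f := Subtype.ext (funext fun τ => by
    show (f : ℍ → ℂ) (rr (1 : GQ)⁻¹ • τ) = _
    rw [inv_one, map_one, one_smul])
  mul_smul g h f := Subtype.ext (funext fun τ => by
    show (f : ℍ → ℂ) (rr (g * h)⁻¹ • τ) = (f : ℍ → ℂ) (rr h⁻¹ • rr g⁻¹ • τ)
    rw [mul_inv_rev, map_mul, mul_smul])
  smul_zero g := rfl
  smul_add g a b := rfl
  smul_one g := rfl
  smul_mul g a b := rfl

theorem Hol.smul_apply (g : GQ) (f : Hol) (τ : ℍ) :
    ((g • f : Hol) : ℍ → ℂ) τ = (f : ℍ → ℂ) (rr g⁻¹ • τ) := rfl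

instance : MulSemiringAction GQ Mer := IsFractionRing.mulSemiringAction GQ Hol Mer

theorem smul_algebraMap_Hol (g : GQ) (f : Hol) :
    g • algebraMap Hol Mer f = algebraMap Hol Mer (g • f) :=
  IsFractionRing.ringEquivOfRingEquiv_algebraMap (MulSemiringAction.toRingEquiv GQ Hol g) f

theorem mdiff_comp {F : ℍ → ℂ} (hF : MDiff F) (g : GQ) : MDiff (fun τ => F (rr g • τ)) :=
  hF.comp (mdifferentiable_smul (rr_pos g))

theorem inv_smul_mer {F : ℍ → ℂ} (hF : MDiff F) (g : GQ) :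
    g⁻¹ • mer F = mer (fun τ => F (rr g • τ)) := by
  rw [mer_eq hF, smul_algebraMap_Hol, mer_eq (mdiff_comp hF g)]
  refine congrArg _ (Subtype.ext (funext fun τ => ?_))
  rw [Hol.smul_apply, inv_inv]

theorem smul_const (g : GQ) (c : ℂ) : g • algebraMap ℂ Mer c = algebraMap ℂ Mer c := by
  rw [← mer_const, ← inv_inv g, inv_smul_mer mdifferentiable_const]

instance : SMulCommClass GQ ℂ Mer := ⟨fun g c x => by
  rw [Algebra.smul_def, Algebra.smul_def, smul_mul', smul_const]⟩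

/-- the automorphy factor -/
def jf (k : ℤ) (g : GQ) : ℍ → ℂ := fun τ => |(rr g).det.val| ^ (k - 1) * denom (rr g) τ ^ (-k)

theorem slash_eq (F : ℍ → ℂ) (k : ℤ) (g : GQ) :
    F ∣[k] rr g = (fun τ => F (rr g • τ)) * jf k g := by
  funext τ
  rw [slash_apply, Pi.mul_apply, jf, mul_assoc]
  have h := rr_pos g
  simp only [σ, h, if_true]
  rfl

theorem jf_ne (k : ℤ) (g : GQ) (τ : ℍ) : jf k g τ ≠ 0 := by
  unfold jf
  refine mul_ne_zero (zpow_ne_zero _ ?_) (zpow_ne_zero _ (denom_ne_zero _ _))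
  exact_mod_cast (abs_pos.mpr (rr_pos g).ne').ne'

theorem mdiff_jf (k : ℤ) (g : GQ) : MDiff (jf k g) := by
  have h : MDiff ((1 : ℍ → ℂ) ∣[k] rr g) := MDifferentiable.slash Hol.one_mem k _
  rw [slash_eq] at h
  convert h using 1
  funext τ
  simp

theorem mer_jf_ne (k : ℤ) (g : GQ) : mer (jf k g) ≠ 0 :=
  mer_ne_zero (mdiff_jf k g) fun h => jf_ne k g UpperHalfPlane.I (congrFun h _)

theorem mer_slash {F : ℍ → ℂ} (hF : MDiff F) (k : ℤ) (g : GQ) :
    mer (F ∣[k] rr g) = g⁻¹ • mer F * mer (jf k g) := by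
  rw [slash_eq, mer_mul (mdiff_comp hF g) (mdiff_jf k g), inv_smul_mer hF]

theorem inv_smul_div {F G : ℍ → ℂ} (hF : MDiff F) (hG : MDiff G) (k : ℤ) (g : GQ) :
    g⁻¹ • (mer F / mer G) = mer (F ∣[k] rr g) / mer (G ∣[k] rr g) := by
  rw [mer_slash hF, mer_slash hG, mul_div_mul_right _ _ (mer_jf_ne k g)]
  exact map_div₀ (MulSemiringAction.toRingHom GQ Mer g⁻¹) _ _

theorem slash_ne_zero {F : ℍ → ℂ} (hF : F ≠ 0) (k : ℤ) (g : GL (Fin 2) ℝ) : F ∣[k] g ≠ 0 := by
  intro h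
  apply hF
  have : F = (F ∣[k] g) ∣[k] g⁻¹ := by
    rw [← SlashAction.slash_mul, mul_inv_cancel, SlashAction.slash_one]
  rw [this, h, SlashAction.zero_slash]

/-- translates by `GL(2,ℚ)⁺` of forms of level `Γ(M)` have some level `Γ(M')`, `M'` independent of
the form -/
theorem exists_level (M : ℕ) (hM : M ≠ 0) (g : GQ) :
    ∃ M' : ℕ, M' ≠ 0 ∧ ∀ (k : ℤ) (F : ℍ → ℂ), IsF M k F → IsF M' k (F ∣[k] rr g) := by
  haveI : NeZero M := ⟨hM⟩
  obtain ⟨N, hN, h⟩ := exists_Gamma_le_conj (g : GL (Fin 2) ℚ) M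
  refine ⟨N, hN, fun k F hF => ⟨fun γ hγ => ?_, hF.holo.slash k _, fun γ => ?_⟩⟩
  · obtain ⟨δ, hδ, hδ'⟩ := h γ hγ
    have h1 : g * sq γ = sq δ * g := by
      apply Subtype.ext
      show (g : GL (Fin 2) ℚ) * mapGL ℚ γ = mapGL ℚ δ * (g : GL (Fin 2) ℚ)
      rw [hδ']; group
    rw [← slash_sq, ← SlashAction.slash_mul, ← map_mul, h1, map_mul, SlashAction.slash_mul,
      slash_sq, hF.slash δ hδ]
  · haveI := Subgroup.IsArithmetic.conj
      ((Gamma M : Subgroup SL(2, ℤ)) : Subgroup (GL (Fin 2) ℝ)) (g : GL (Fin 2) ℚ)⁻¹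
    have e : (Matrix.GeneralLinearGroup.map (Rat.castHom ℝ) (g : GL (Fin 2) ℚ)⁻¹) = (rr g)⁻¹ := by
      rw [map_inv]; rfl
    rw [e] at this
    exact ModularFormClass.bdd_at_infty_slash (ModularForm.translate hF.toModularForm (rr g)) γ

/-! ### the field of modular functions -/

theorem level_mul_left {M N : ℕ} {k : ℤ} {F : ℍ → ℂ} (h : IsF M k F) : IsF (M * N) k F :=
  h.mono (Dvd.intro _ rfl)

theorem level_mul_right {M N : ℕ} {k : ℤ} {F : ℍ → ℂ} (h : IsF N k F) : IsF (M * N) k F :=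
  h.mono (Dvd.intro_left _ rfl)

/-- the field of modular functions of all levels -/
def FF : IntermediateField ℂ Mer where
  carrier := {x | ∃ (M : ℕ) (k : ℤ) (F G : ℍ → ℂ), M ≠ 0 ∧ IsF M k F ∧ IsF M k G ∧ G ≠ 0 ∧
    x = mer F / mer G}
  mul_mem' := by
    rintro _ _ ⟨M, k, F, G, hM, hF, hG, hG0, rfl⟩ ⟨N, l, F', G', hN, hF', hG', hG0', rfl⟩
    refine ⟨M * N, k + l, F * F', G * G', mul_ne_zero hM hN,
      (level_mul_left hF).mul (level_mul_right hF'), (level_mul_left hG).mul (level_mul_right hG'),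
      fun h => hG0 (eq_zero_of_mul hG.holo hG'.holo hG0' h), ?_⟩
    rw [mer_mul hF.holo hF'.holo, mer_mul hG.holo hG'.holo, div_mul_div_comm]
  add_mem' := by
    rintro _ _ ⟨M, k, F, G, hM, hF, hG, hG0, rfl⟩ ⟨N, l, F', G', hN, hF', hG', hG0', rfl⟩
    refine ⟨M * N, k + l, F * G' + G * F', G * G', mul_ne_zero hM hN,
      ((level_mul_left hF).mul (level_mul_right hG')).add
        ((level_mul_left hG).mul (level_mul_right hF')),
      (level_mul_left hG).mul (level_mul_right hG'),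
      fun h => hG0 (eq_zero_of_mul hG.holo hG'.holo hG0' h), ?_⟩
    rw [mer_add (hF.holo.mul hG'.holo) (hG.holo.mul hF'.holo), mer_mul hF.holo hG'.holo,
      mer_mul hG.holo hF'.holo, mer_mul hG.holo hG'.holo,
      div_add_div _ _ (mer_ne_zero hG.holo hG0) (mer_ne_zero hG'.holo hG0')]
  algebraMap_mem' := fun c => ⟨1, 0, c • 1, 1, one_ne_zero, IsF.one.smul c, IsF.one,
    one_ne_zero, by rw [mer_smul Hol.one_mem, mer_one, mul_one, div_one]⟩
  inv_mem' := by
    rintro _ ⟨M, k, F, G, hM, hF, hG, hG0, rfl⟩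
    by_cases hF0 : F = 0
    · refine ⟨M, k, F, G, hM, hF, hG, hG0, ?_⟩
      rw [hF0, mer_zero, zero_div, inv_zero]
    · exact ⟨M, k, G, F, hM, hG, hF, hF0, by rw [inv_div]⟩


theorem div_mem_FF {M : ℕ} (hM : M ≠ 0) {k : ℤ} {F G : ℍ → ℂ} (hF : IsF M k F) (hG : IsF M k G) :
    mer F / mer G ∈ FF := by
  by_cases h : G = 0
  · rw [h, mer_zero, div_zero]; exact FF.zero_mem
  · exact ⟨M, k, F, G, hM, hF, hG, h, rfl⟩

theorem smul_mem_FF (g : GQ) {x : Mer} (hx : x ∈ FF) : g • x ∈ FF := by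
  obtain ⟨M, k, F, G, hM, hF, hG, hG0, rfl⟩ := hx
  obtain ⟨M', hM', h⟩ := exists_level M hM g⁻¹
  rw [← inv_inv g, inv_smul_div hF.holo hG.holo k]
  exact div_mem_FF hM' (h k F hF) (h k G hG)

instance : MulSemiringAction GQ FF where
  smul g x := ⟨g • (x : Mer), smul_mem_FF g x.2⟩
  one_smul x := Subtype.ext (one_smul GQ (x : Mer))
  mul_smul g h x := Subtype.ext (mul_smul g h (x : Mer))
  smul_zero g := Subtype.ext (smul_zero g)
  smul_add g a b := Subtype.ext (smul_add g (a : Mer) (b : Mer))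
  smul_one g := Subtype.ext (smul_one g)
  smul_mul g a b := Subtype.ext (smul_mul' g (a : Mer) (b : Mer))

theorem coe_smul (g : GQ) (x : FF) : ((g • x : FF) : Mer) = g • (x : Mer) := rfl

theorem smul_algebraMap_FF (g : GQ) (c : ℂ) : g • algebraMap ℂ FF c = algebraMap ℂ FF c :=
  Subtype.ext (smul_const g c)

instance : SMulCommClass GQ ℂ FF := ⟨fun g c x => by
  rw [Algebra.smul_def, Algebra.smul_def, smul_mul', smul_algebraMap_FF]⟩

instance : MulSemiringAction SL(2, ℤ) FF := MulSemiringAction.compHom FF sq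

theorem sl_smul (γ : SL(2, ℤ)) (x : FF) : γ • x = sq γ • x := rfl

instance : SMulCommClass SL(2, ℤ) ℂ FF := ⟨fun g c x => smul_comm (sq g) c x⟩

open Classical in
/-- the quotient of two forms of the same weight -/
def quo (F G : ℍ → ℂ) : FF := if h : mer F / mer G ∈ FF then ⟨mer F / mer G, h⟩ else 0

section quo

variable {M : ℕ} {k l : ℤ} {F G F' G' : ℍ → ℂ}

theorem coe_quo (hM : M ≠ 0) (hF : IsF M k F) (hG : IsF M k G) :
    (quo F G : Mer) = mer F / mer G := by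
  unfold quo
  rw [dif_pos (div_mem_FF hM hF hG)]

theorem exists_quo (x : FF) : ∃ (M : ℕ) (k : ℤ) (F G : ℍ → ℂ),
    M ≠ 0 ∧ IsF M k F ∧ IsF M k G ∧ G ≠ 0 ∧ x = quo F G := by
  obtain ⟨M, k, F, G, hM, hF, hG, hG0, h⟩ := x.2
  exact ⟨M, k, F, G, hM, hF, hG, hG0, Subtype.ext (by rw [coe_quo hM hF hG, h])⟩

theorem inv_smul_quo (hM : M ≠ 0) (hF : IsF M k F) (hG : IsF M k G) (g : GQ) :
    g⁻¹ • quo F G = quo (F ∣[k] rr g) (G ∣[k] rr g) := by
  obtain ⟨M', hM', h⟩ := exists_level M hM g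
  apply Subtype.ext
  rw [coe_smul, coe_quo hM hF hG, coe_quo hM' (h k F hF) (h k G hG),
    inv_smul_div hF.holo hG.holo k]

theorem inv_sl_smul_quo (hM : M ≠ 0) (hF : IsF M k F) (hG : IsF M k G) (γ : SL(2, ℤ)) :
    γ⁻¹ • quo F G = quo (F ∣[k] γ) (G ∣[k] γ) := by
  rw [sl_smul, map_inv, inv_smul_quo hM hF hG, slash_sq, slash_sq]

theorem quo_eq_iff {N : ℕ} (hM : M ≠ 0) (hF : IsF M k F) (hG : IsF M k G) (hG0 : G ≠ 0)
    (hN : N ≠ 0) (hF' : IsF N l F') (hG' : IsF N l G') (hG0' : G' ≠ 0) :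
    quo F G = quo F' G' ↔ F * G' = F' * G := by
  rw [Subtype.ext_iff, coe_quo hM hF hG, coe_quo hN hF' hG',
    div_eq_div_iff (mer_ne_zero hG.holo hG0) (mer_ne_zero hG'.holo hG0'),
    ← mer_mul hF.holo hG'.holo, ← mer_mul hF'.holo hG.holo]
  exact ⟨mer_inj (hF.holo.mul hG'.holo) (hF'.holo.mul hG.holo), fun h => by rw [h]⟩

theorem quo_eq_zero (hM : M ≠ 0) (hF : IsF M k F) (hG : IsF M k G) (hG0 : G ≠ 0) :
    quo F G = 0 ↔ F = 0 := by
  rw [Subtype.ext_iff, coe_quo hM hF hG]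
  show _ = (0 : Mer) ↔ _
  rw [div_eq_zero_iff, mer_eq_zero hF.holo, mer_eq_zero hG.holo]
  exact ⟨fun h => h.resolve_right hG0, Or.inl⟩

theorem quo_mul (hM : M ≠ 0) (hF : IsF M k F) (hG : IsF M k G) (hF' : IsF M l F')
    (hG' : IsF M l G') : quo (F * F') (G * G') = quo F G * quo F' G' := by
  apply Subtype.ext
  show _ = (quo F G : Mer) * (quo F' G' : Mer)
  rw [coe_quo hM (hF.mul hF') (hG.mul hG'), coe_quo hM hF hG, coe_quo hM hF' hG',
    mer_mul hF.holo hF'.holo, mer_mul hG.holo hG'.holo, div_mul_div_comm]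

theorem quo_add (hM : M ≠ 0) (hF : IsF M k F) (hF' : IsF M k F') (hG : IsF M k G) :
    quo (F + F') G = quo F G + quo F' G := by
  apply Subtype.ext
  show _ = (quo F G : Mer) + (quo F' G : Mer)
  rw [coe_quo hM (hF.add hF') hG, coe_quo hM hF hG, coe_quo hM hF' hG,
    mer_add hF.holo hF'.holo, add_div]

theorem quo_sub (hM : M ≠ 0) (hF : IsF M k F) (hF' : IsF M k F') (hG : IsF M k G) :
    quo (F - F') G = quo F G - quo F' G := by
  apply Subtype.ext
  show _ = (quo F G : Mer) - (quo F' G : Mer)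
  rw [coe_quo hM (hF.sub hF') hG, coe_quo hM hF hG, coe_quo hM hF' hG,
    mer_sub hF.holo hF'.holo, sub_div]

theorem quo_smul (hM : M ≠ 0) (hF : IsF M k F) (hG : IsF M k G) (c : ℂ) :
    quo (c • F) G = algebraMap ℂ FF c * quo F G := by
  apply Subtype.ext
  show _ = algebraMap ℂ Mer c * (quo F G : Mer)
  rw [coe_quo hM (hF.smul c) hG, coe_quo hM hF hG, mer_smul hF.holo, mul_div_assoc]

theorem quo_self (hM : M ≠ 0) (hG : IsF M k G) (hG0 : G ≠ 0) : quo G G = 1 := by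
  apply Subtype.ext
  rw [coe_quo hM hG hG, div_self (mer_ne_zero hG.holo hG0)]
  rfl

theorem quo_inv (hM : M ≠ 0) (hF : IsF M k F) (hG : IsF M k G) : (quo F G)⁻¹ = quo G F := by
  apply Subtype.ext
  show ((quo F G : Mer))⁻¹ = _
  rw [coe_quo hM hF hG, coe_quo hM hG hF, inv_div]

theorem quo_pow (hM : M ≠ 0) (hF : IsF M k F) (hG : IsF M k G) (n : ℕ) :
    quo (F ^ n) (G ^ n) = quo F G ^ n := by
  apply Subtype.ext
  show _ = (quo F G : Mer) ^ n
  rw [coe_quo hM (hF.pow n) (hG.pow n), coe_quo hM hF hG, mer_pow hF.holo, mer_pow hG.holo,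
    div_pow]

theorem quo_div (hM : M ≠ 0) {D : ℍ → ℂ} (hF : IsF M k F) (hG : IsF M k G) (hD : IsF M k D)
    (hD0 : D ≠ 0) : quo F D / quo G D = quo F G := by
  apply Subtype.ext
  show (quo F D : Mer) / (quo G D : Mer) = _
  rw [coe_quo hM hF hD, coe_quo hM hG hD, coe_quo hM hF hG,
    div_div_div_cancel_right₀ (mer_ne_zero hD.holo hD0)]


theorem gamma_smul_quo (hM : M ≠ 0) (hF : IsF M k F) (hG : IsF M k G) {γ : SL(2, ℤ)}
    (hγ : γ ∈ Gamma M) : γ • quo F G = quo F G := by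
  rw [← inv_inv γ, inv_sl_smul_quo hM hF hG, hF.slash _ (inv_mem hγ), hG.slash _ (inv_mem hγ)]

end quo


/-- `-1` acts trivially -/
theorem neg_one_smul_FF (x : FF) : (-1 : SL(2, ℤ)) • x = x := by
  obtain ⟨M, k, F, G, hM, hF, hG, hG0, rfl⟩ := exists_quo x
  apply Subtype.ext
  rw [sl_smul, coe_smul, coe_quo hM hF hG, ← inv_inv (sq (-1))]
  have h : ∀ H : ℍ → ℂ, MDiff H → (sq (-1))⁻¹⁻¹ • mer H = mer H := fun H hH => by
    rw [inv_smul_mer hH]
    congr 1
    funext τ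
    rw [← map_inv, rr_sq_smul]
    congr 1
    rw [inv_smul_eq_iff]
    exact ((ModularGroup.SL_neg_smul 1 τ).trans (one_smul _ τ)).symm
  have h2 := map_div₀ (MulSemiringAction.toRingHom GQ Mer (sq (-1))⁻¹⁻¹) (mer F) (mer G)
  simp only [MulSemiringAction.toRingHom_apply] at h2
  rw [h2, h F hF.holo, h G hG.holo]

end Crest.Agent.T15.Mf
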