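import Mathlib
import Crest.Agent.T15.MfA_79

-- ▼ part T15/HsA_79
section

/-!
# T15 / HsA (helper79): Hahn series `R((q^ℚ))`, the operators `q^r ↦ q^{ar}`, `q^r ↦ e(r) q^r`,
coefficientwise maps, power series in `q^{1/M}`
-/

set_option autoImplicit false
set_option linter.all false

noncomputable section

namespace Crest.Agent.T15.Hs

/-- Hahn series with rational exponents -/
abbrev HS (R : Type*) [Zero R] : Type _ := HahnSeries ℚ R

variable {R S : Type*} [CommRing R] [CommRing S]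

theorem coeff_mul_of {x y : HS R} {s t : Set ℚ} (hs : s.IsPWO) (ht : t.IsPWO)
    (hx : x.support ⊆ s) (hy : y.support ⊆ t) (a : ℚ) :
    (x * y).coeff a = ∑ ij ∈ Finset.antidiagonal hs ht a, x.coeff ij.1 * y.coeff ij.2 := by
  rw [HahnSeries.coeff_mul_left' hs hx]
  refine Finset.sum_subset (fun p hp => ?_) (fun p hp hp' => ?_)
  · rw [Finset.mem_antidiagonal] at hp ⊢
    exact ⟨hp.1, hy hp.2.1, hp.2.2⟩
  · rw [Finset.mem_antidiagonal] at hp hp'
    have : y.coeff p.2 = 0 := by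
      by_contra h
      exact hp' ⟨hp.1, h, hp.2.2⟩
    rw [this, mul_zero]

/-- coefficientwise ring map -/
def hm (f : R →+* S) : HS R →+* HS S where
  toFun x := x.map f
  map_one' := by
    ext r
    rw [HahnSeries.map_coeff, HahnSeries.coeff_one, HahnSeries.coeff_one]
    split_ifs <;> simp
  map_mul' x y := HahnSeries.map_mul (f : R →ₙ+* S)
  map_zero' := by ext r; simp
  map_add' x y := by ext r; simp

@[simp] theorem coeff_hm (f : R →+* S) (x : HS R) (r : ℚ) : (hm f x).coeff r = f (x.coeff r) := rfl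

theorem hm_C (f : R →+* S) (c : R) : hm f (HahnSeries.C c) = HahnSeries.C (f c) :=
  HahnSeries.map_C c f

theorem hm_comp {T : Type*} [CommRing T] (f : R →+* S) (g : S →+* T) (x : HS R) :
    hm g (hm f x) = hm (g.comp f) x := by ext r; rfl

theorem hm_id (x : HS R) : hm (RingHom.id R) x = x := by ext r; rfl


open Classical in
/-- `q^r ↦ q^{a r}` (for `0 < a`; the identity otherwise) -/
def sc (a : ℚ) : HS R →+* HS R :=
  if h : 0 < a then
    HahnSeries.embDomainRingHom (AddMonoidHom.mulLeft a) (mul_right_injective₀ h.ne')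
      (fun g g' => mul_le_mul_iff_right₀ h)
  else RingHom.id _

theorem coeff_sc_mul {a : ℚ} (ha : 0 < a) (x : HS R) (r : ℚ) :
    (sc a x).coeff (a * r) = x.coeff r := by
  unfold sc
  rw [dif_pos ha]
  exact HahnSeries.embDomain_mk_coeff (f := AddMonoidHom.mulLeft a) (mul_right_injective₀ ha.ne')
    (fun g g' => mul_le_mul_iff_right₀ ha)

theorem coeff_sc {a : ℚ} (ha : 0 < a) (x : HS R) (r : ℚ) : (sc a x).coeff r = x.coeff (r / a) := by
  rw [← coeff_sc_mul ha x (r / a), mul_div_cancel₀ _ ha.ne']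

theorem sc_one (x : HS R) : sc 1 x = x := by
  ext r; rw [coeff_sc one_pos, div_one]



theorem sc_single {a : ℚ} (ha : 0 < a) (r : ℚ) (c : R) :
    sc a (HahnSeries.single r c) = HahnSeries.single (a * r) c := by
  ext t
  rw [coeff_sc ha, HahnSeries.coeff_single, HahnSeries.coeff_single]
  have : t / a = r ↔ t = a * r := by rw [div_eq_iff ha.ne', mul_comm]
  by_cases h : t = a * r
  · rw [if_pos h, if_pos (this.mpr h)]
  · rw [if_neg h, if_neg (fun h' => h (this.mp h'))]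

theorem sc_C {a : ℚ} (ha : 0 < a) (c : R) : sc a (HahnSeries.C c : HS R) = HahnSeries.C c := by
  rw [HahnSeries.C_apply, sc_single ha, mul_zero]

theorem hm_sc (f : R →+* S) {a : ℚ} (ha : 0 < a) (x : HS R) : hm f (sc a x) = sc a (hm f x) := by
  ext r
  rw [coeff_hm, coeff_sc ha, coeff_sc ha, coeff_hm]

/-- `q^r ↦ e r • q^r` for a character `e` of `ℚ` -/
def tw (e : Multiplicative ℚ →* R) : HS R →+* HS R where
  toFun x := ⟨fun r => e (Multiplicative.ofAdd r) * x.coeff r, x.isPWO_support.mono fun r hr => by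
    rw [Function.mem_support] at hr
    exact fun h => hr (by rw [h, mul_zero])⟩
  map_one' := by
    ext r
    show e (Multiplicative.ofAdd r) * (1 : HS R).coeff r = _
    rw [HahnSeries.coeff_one]
    split_ifs with h
    · rw [h, ofAdd_zero, map_one, mul_one]
    · rw [mul_zero]
  map_mul' x y := by
    ext r
    rw [coeff_mul_of x.isPWO_support y.isPWO_support]
    · show e (Multiplicative.ofAdd r) * (x * y).coeff r = _
      rw [HahnSeries.coeff_mul, Finset.mul_sum]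
      refine Finset.sum_congr rfl fun p hp => ?_
      rw [Finset.mem_antidiagonal] at hp
      show _ = e (Multiplicative.ofAdd p.1) * x.coeff p.1 * (e (Multiplicative.ofAdd p.2) * y.coeff p.2)
      rw [← hp.2.2, ofAdd_add, map_mul]
      ring
    · intro t ht
      rw [HahnSeries.mem_support] at ht ⊢
      exact fun h => ht (by show e _ * x.coeff t = 0; rw [h, mul_zero])
    · intro t ht
      rw [HahnSeries.mem_support] at ht ⊢
      exact fun h => ht (by show e _ * y.coeff t = 0; rw [h, mul_zero])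
  map_zero' := by ext r; show e _ * (0 : HS R).coeff r = _; simp
  map_add' x y := by
    ext r
    show e _ * (x + y).coeff r = e _ * x.coeff r + e _ * y.coeff r
    rw [HahnSeries.coeff_add, mul_add]

@[simp] theorem coeff_tw (e : Multiplicative ℚ →* R) (x : HS R) (r : ℚ) :
    (tw e x).coeff r = e (Multiplicative.ofAdd r) * x.coeff r := rfl

theorem tw_C (e : Multiplicative ℚ →* R) (c : R) : tw e (HahnSeries.C c : HS R) = HahnSeries.C c := by
  ext r
  rw [coeff_tw, HahnSeries.C_apply, HahnSeries.coeff_single]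
  split_ifs with h
  · rw [h, ofAdd_zero, map_one, one_mul]
  · rw [mul_zero]


/-- power series in `q^{1/M}` -/
def hq (M : ℕ) : PowerSeries R →+* HS R := (sc (1 / (M : ℚ))).comp (HahnSeries.ofPowerSeries ℚ R)

theorem inv_pos' {M : ℕ} (hM : M ≠ 0) : (0 : ℚ) < 1 / (M : ℚ) := by
  have : (0 : ℚ) < M := by exact_mod_cast Nat.pos_of_ne_zero hM
  positivity

theorem coeff_hq {M : ℕ} (hM : M ≠ 0) (p : PowerSeries R) (n : ℕ) :
    (hq M p).coeff ((n : ℚ) / M) = PowerSeries.coeff n p := by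
  rw [div_eq_mul_one_div, mul_comm]
  show (sc _ _).coeff _ = _
  rw [coeff_sc_mul (inv_pos' hM), HahnSeries.ofPowerSeries_apply_coeff]

/-- the support lies in `(1/M) ℕ` -/
def Lev (M : ℕ) (x : HS R) : Prop := ∀ r, x.coeff r ≠ 0 → ∃ n : ℕ, r = (n : ℚ) / M

theorem lev_hq {M : ℕ} (hM : M ≠ 0) (p : PowerSeries R) : Lev M (hq M p) := by
  intro r hr
  have h1 : (hq M p).coeff r = (HahnSeries.ofPowerSeries ℚ R p).coeff (r / (1 / (M : ℚ))) :=
    coeff_sc (inv_pos' hM) _ r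
  rw [h1, HahnSeries.ofPowerSeries_apply] at hr
  have h2 : r / (1 / (M : ℚ)) ∈ Set.range (Nat.castOrderEmbedding (α := ℚ)) := by
    by_contra h
    exact hr (HahnSeries.embDomain_of_notMem_range h)
  obtain ⟨n, hn⟩ := h2
  have hM' : (M : ℚ) ≠ 0 := by exact_mod_cast hM
  refine ⟨n, ?_⟩
  have : (n : ℚ) = r / (1 / (M : ℚ)) := hn
  rw [this]
  field_simp

theorem Lev.mul_right {M : ℕ} {x : HS R} (h : Lev M x) {N : ℕ} (hN : N ≠ 0) : Lev (M * N) x := by
  intro r hr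
  obtain ⟨n, rfl⟩ := h r hr
  have hN' : (N : ℚ) ≠ 0 := by exact_mod_cast hN
  exact ⟨n * N, by push_cast; rw [mul_div_mul_right _ _ hN']⟩

theorem Lev.ext {M : ℕ} {x y : HS R} (hx : Lev M x) (hy : Lev M y)
    (h : ∀ n : ℕ, x.coeff ((n : ℚ) / M) = y.coeff ((n : ℚ) / M)) : x = y := by
  ext r
  by_cases hr : ∃ n : ℕ, r = (n : ℚ) / M
  · obtain ⟨n, rfl⟩ := hr
    exact h n
  · have h1 : x.coeff r = 0 := by by_contra h'; exact hr (hx r h')
    have h2 : y.coeff r = 0 := by by_contra h'; exact hr (hy r h')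
    rw [h1, h2]


theorem hq_injective {M : ℕ} (hM : M ≠ 0) : Function.Injective (hq M : PowerSeries R → HS R) := by
  intro p p' h
  ext n
  rw [← coeff_hq hM, h, coeff_hq hM]

theorem hq_C {M : ℕ} (hM : M ≠ 0) (c : R) : hq M (PowerSeries.C c) = HahnSeries.C c := by
  show sc _ _ = _
  rw [HahnSeries.ofPowerSeries_C, sc_C (inv_pos' hM)]

theorem hq_smul {M : ℕ} (hM : M ≠ 0) (c : R) (p : PowerSeries R) :
    hq M (c • p) = HahnSeries.C c * hq M p := by
  rw [← hq_C hM, ← map_mul, PowerSeries.smul_eq_C_mul]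

theorem Lev.hm {M : ℕ} {x : HS R} (h : Lev M x) (f : R →+* S) : Lev M (hm f x) :=
  fun r hr => h r fun h0 => hr (by rw [coeff_hm, h0, map_zero])

theorem Lev.tw {M : ℕ} {x : HS R} (h : Lev M x) (e : Multiplicative ℚ →* R) : Lev M (tw e x) :=
  fun r hr => h r fun h0 => hr (by rw [coeff_tw, h0, mul_zero])

theorem Lev.sc {M : ℕ} {x : HS R} (h : Lev M x) {a : ℚ} (ha : 0 < a) : Lev (M * a.den) (sc a x) := by
  intro r hr
  rw [coeff_sc ha] at hr
  obtain ⟨n, hn⟩ := h _ hr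
  have hd : (a.den : ℚ) ≠ 0 := by exact_mod_cast a.den_ne_zero
  have hnum : (0 : ℤ) ≤ a.num := (Rat.num_pos.mpr ha).le
  refine ⟨n * a.num.toNat, ?_⟩
  have h1 : ((a.num.toNat : ℕ) : ℚ) = a * a.den := by
    rw [Rat.mul_den_eq_num, ← Int.cast_natCast, Int.toNat_of_nonneg hnum]
  rw [div_eq_iff ha.ne'] at hn
  push_cast
  rw [h1, hn, ← mul_assoc, mul_div_mul_right _ _ hd, div_mul_eq_mul_div]

theorem hm_hq {M : ℕ} (hM : M ≠ 0) (f : R →+* S) (p : PowerSeries R) :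
    hm f (hq M p) = hq M (PowerSeries.map f p) :=
  ((lev_hq hM p).hm f).ext (lev_hq hM _) fun n => by
    rw [coeff_hm, coeff_hq hM, coeff_hq hM, PowerSeries.coeff_map]

end Crest.Agent.T15.Hs
end
end

-- ▼ part T15/MfB_79

/-!
# T15 / MfB (helper79): `q`-expansions in `HS ℂ = HahnSeries ℚ ℂ`

* `qf F` the `q`-expansion of a form of any level; `qx : FF →+* HS ℂ`, `qx (quo F G) = qf F / qf G`;
* upper triangular matrices: `qx (g⁻¹ • x) = sc (a/d) (tw (ee (b/d)) (qx x))`;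
* `Aut ℂ` acts on `FF`, `qx (σ • x) = hm σ (qx x)`, and `σ • γ⁻¹ • x = γ'⁻¹ • σ • x` for `Tw s M γ γ'`.
-/

set_option autoImplicit false
set_option linter.all false

noncomputable section

namespace Crest.Agent.T15.Mf

open UpperHalfPlane ModularForm CongruenceSubgroup Matrix.SpecialLinearGroup
open scoped MatrixGroups Manifold Real
open Crest.Agent.R007 Crest.Agent.R007.Rat Crest.Agent.T15.Hs

/-- `exp (2 π i r z)` -/
def ex (r : ℚ) (z : ℂ) : ℂ := Complex.exp (2 * π * Complex.I * r * z)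

theorem ex_div {M : ℕ} (n : ℕ) (z : ℂ) :
    ex ((n : ℚ) / M) z = Function.Periodic.qParam (M : ℝ) z ^ n := by
  rw [ex, Function.Periodic.qParam, ← Complex.exp_nat_mul]
  congr 1
  push_cast
  ring

/-- the character `r ↦ exp (2 π i r b)` of `ℚ` -/
def ee (b : ℚ) : Multiplicative ℚ →* ℂ where
  toFun r := ex (Multiplicative.toAdd r) b
  map_one' := by simp [ex]
  map_mul' r s := by
    rw [ex, ex, ex, ← Complex.exp_add, toAdd_mul]
    congr 1
    push_cast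
    ring

theorem ee_apply (b r : ℚ) : ee b (Multiplicative.ofAdd r) = ex r b := rfl

theorem ee_zero : ee 0 = 1 := by
  ext r
  show ex _ ((0 : ℚ) : ℂ) = 1
  simp [ex]

theorem hq_level {M N : ℕ} (hM : M ≠ 0) (hN : N ≠ 0) {k : ℤ} {F : ℍ → ℂ} (hF : IsF M k F) :
    hq (M * N) (qe (M * N) F) = hq M (qe M F) := by
  haveI : NeZero M := ⟨hM⟩
  haveI : NeZero N := ⟨hN⟩
  have hMN := mul_ne_zero hM hN
  have hM' : (M : ℚ) ≠ 0 := by exact_mod_cast hM
  have hN' : (N : ℚ) ≠ 0 := by exact_mod_cast hN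
  refine (lev_hq hMN _).ext ((lev_hq hM _).mul_right hN) fun n => ?_
  rw [coeff_hq hMN, qe_mul_level hF]
  split_ifs with h
  · obtain ⟨c, rfl⟩ := h
    rw [Nat.mul_div_cancel_left _ (Nat.pos_of_ne_zero hN), ← coeff_hq hM]
    congr 1
    push_cast
    field_simp
  · by_contra h1
    obtain ⟨c, hc⟩ := lev_hq hM _ _ (Ne.symm h1)
    apply h
    refine ⟨c, ?_⟩
    push_cast at hc
    field_simp at hc
    exact_mod_cast hc

open Classical in
/-- the `q`-expansion of a form of some level -/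
def qf (F : ℍ → ℂ) : HS ℂ :=
  if h : ∃ M : ℕ, M ≠ 0 ∧ ∃ k, IsF M k F then hq h.choose (qe h.choose F) else 0

section qf

variable {M : ℕ} {k l : ℤ} {F G : ℍ → ℂ}

theorem qf_eq (hM : M ≠ 0) (hF : IsF M k F) : qf F = hq M (qe M F) := by
  have h : ∃ M : ℕ, M ≠ 0 ∧ ∃ k, IsF M k F := ⟨M, hM, k, hF⟩
  unfold qf
  rw [dif_pos h]
  obtain ⟨h1, k', h2⟩ := h.choose_spec
  rw [← hq_level h1 hM h2, mul_comm, hq_level hM h1 hF]

theorem coeff_qf (hM : M ≠ 0) (hF : IsF M k F) (n : ℕ) :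
    (qf F).coeff ((n : ℚ) / M) = PowerSeries.coeff n (qe M F) := by
  rw [qf_eq hM hF, coeff_hq hM]

theorem lev_qf (hM : M ≠ 0) (hF : IsF M k F) : Lev M (qf F) := by
  rw [qf_eq hM hF]; exact lev_hq hM _

theorem qf_mul (hM : M ≠ 0) (hF : IsF M k F) (hG : IsF M l G) : qf (F * G) = qf F * qf G := by
  haveI : NeZero M := ⟨hM⟩
  rw [qf_eq hM (hF.mul hG), qf_eq hM hF, qf_eq hM hG, qe_mul hF hG, map_mul]

theorem qf_add (hM : M ≠ 0) (hF : IsF M k F) (hG : IsF M k G) : qf (F + G) = qf F + qf G := by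
  haveI : NeZero M := ⟨hM⟩
  rw [qf_eq hM (hF.add hG), qf_eq hM hF, qf_eq hM hG, qe_add hF hG, map_add]

theorem qf_smul (hM : M ≠ 0) (hF : IsF M k F) (c : ℂ) : qf (c • F) = HahnSeries.C c * qf F := by
  haveI : NeZero M := ⟨hM⟩
  rw [qf_eq hM (hF.smul c), qf_eq hM hF, qe_smul hF, hq_smul hM]

theorem qf_sub (hM : M ≠ 0) (hF : IsF M k F) (hG : IsF M k G) : qf (F - G) = qf F - qf G := by
  rw [eq_sub_iff_add_eq, ← qf_add hM (hF.sub hG) hG, sub_add_cancel]

theorem qf_one : qf 1 = 1 := by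
  rw [qf_eq one_ne_zero IsF.one, qe_one, map_one]

theorem qf_zero : qf 0 = 0 := by
  rw [qf_eq one_ne_zero (IsF.zero (k := 0)), qe_zero, map_zero]

theorem qf_pow (hM : M ≠ 0) (hF : IsF M k F) (n : ℕ) : qf (F ^ n) = qf F ^ n := by
  haveI : NeZero M := ⟨hM⟩
  rw [qf_eq hM (hF.pow n), qf_eq hM hF, qe_pow hF, map_pow]

theorem qf_eq_zero (hM : M ≠ 0) (hF : IsF M k F) : qf F = 0 ↔ F = 0 := by
  haveI : NeZero M := ⟨hM⟩
  rw [qf_eq hM hF, ← qe_eq_zero_iff hF, ← map_zero (hq M : PowerSeries ℂ →+* HS ℂ)]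
  exact (hq_injective hM).eq_iff

theorem qf_ne_zero (hM : M ≠ 0) (hF : IsF M k F) (h : F ≠ 0) : qf F ≠ 0 :=
  fun h1 => h ((qf_eq_zero hM hF).mp h1)

theorem div_injective (hM : M ≠ 0) : Function.Injective fun n : ℕ => (n : ℚ) / M := by
  intro a b h
  have hM' : (M : ℚ) ≠ 0 := by exact_mod_cast hM
  have : (a : ℚ) = b := (div_left_inj' hM').mp h
  exact_mod_cast this

theorem hasSum_iff_lev (hM : M ≠ 0) {x : HS ℂ} (hx : Lev M x) (z s : ℂ) :
    HasSum (fun r : ℚ => x.coeff r * ex r z) s ↔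
      HasSum (fun n : ℕ => x.coeff ((n : ℚ) / M) * Function.Periodic.qParam (M : ℝ) z ^ n) s := by
  rw [← (div_injective hM).hasSum_iff]
  · apply iff_of_eq
    congr 1
    funext n
    simp only [Function.comp_apply]
    rw [ex_div]
  · intro r hr
    have : x.coeff r = 0 := by
      by_contra h
      obtain ⟨n, hn⟩ := hx r h
      exact hr ⟨n, hn.symm⟩
    rw [this, zero_mul]

theorem hasSum_qf (hM : M ≠ 0) (hF : IsF M k F) (τ : ℍ) :
    HasSum (fun r : ℚ => (qf F).coeff r * ex r τ) (F τ) := by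
  haveI : NeZero M := ⟨hM⟩
  rw [hasSum_iff_lev hM (lev_qf hM hF)]
  have h1 := hasSum_qExpansion (h := (M : ℝ)) Mpos hF.periodic hF.holo hF.bdd_infty τ
  convert h1 using 2 with n
  rw [coeff_qf hM hF]
  rfl

theorem qf_unique (hM : M ≠ 0) (hF : IsF M k F) {x : HS ℂ} {N : ℕ} (hN : N ≠ 0) (hx : Lev N x)
    (h : ∀ τ : ℍ, HasSum (fun r : ℚ => x.coeff r * ex r τ) (F τ)) : qf F = x := by
  have hNM := mul_ne_zero hN hM
  haveI : NeZero (N * M) := ⟨hNM⟩
  have hF' : IsF (N * M) k F := level_mul_right hF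
  refine (lev_qf hNM hF').ext (hx.mul_right hM) fun n => ?_
  rw [coeff_qf hNM hF']
  exact Wp.coeff_qe_of_hasSum hF' (c := fun n : ℕ => x.coeff ((n : ℚ) / ((N * M : ℕ) : ℚ)))
    (fun τ => (hasSum_iff_lev hNM (hx.mul_right hM) τ _).mp (h τ)) n

end qf

/-! ### upper triangular matrices -/

section upper

variable {g : GQ}

theorem upper_pos (hg : (g : GL (Fin 2) ℚ) 1 0 = 0) :
    0 < (g : GL (Fin 2) ℚ) 0 0 / (g : GL (Fin 2) ℚ) 1 1 := by
  have h : 0 < (g : GL (Fin 2) ℚ).det.val := g.2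
  rw [Matrix.GeneralLinearGroup.val_det_apply, Matrix.det_fin_two, hg, mul_zero, sub_zero] at h
  exact div_pos_iff.mpr (mul_pos_iff.mp h)

theorem upper_ne (hg : (g : GL (Fin 2) ℚ) 1 0 = 0) : (g : GL (Fin 2) ℚ) 1 1 ≠ 0 := by
  intro h
  have := upper_pos hg
  rw [h, div_zero] at this
  exact lt_irrefl _ this

theorem upper_smul (hg : (g : GL (Fin 2) ℚ) 1 0 = 0) (τ : ℍ) :
    ((rr g • τ : ℍ) : ℂ) = (((g : GL (Fin 2) ℚ) 0 0 / (g : GL (Fin 2) ℚ) 1 1 : ℚ) : ℂ) * τ +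
      (((g : GL (Fin 2) ℚ) 0 1 / (g : GL (Fin 2) ℚ) 1 1 : ℚ) : ℂ) := by
  rw [UpperHalfPlane.coe_smul_of_det_pos (rr_pos g), num, denom]
  simp only [rr_apply, hg]
  have : (((g : GL (Fin 2) ℚ) 1 1 : ℚ) : ℂ) ≠ 0 := by exact_mod_cast upper_ne hg
  push_cast
  rw [zero_mul, zero_add]
  field_simp

theorem jf_upper (hg : (g : GL (Fin 2) ℚ) 1 0 = 0) (k : ℤ) (τ : ℍ) :
    jf k g τ = jf k g UpperHalfPlane.I := by
  unfold jf
  simp only [denom, rr_apply, hg]
  simp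

/-- the `q`-expansion of `F ∣[k] g`, `g` upper triangular -/
theorem qf_slash_upper (hg : (g : GL (Fin 2) ℚ) 1 0 = 0) {M : ℕ} (hM : M ≠ 0) {k : ℤ} {F : ℍ → ℂ}
    (hF : IsF M k F) :
    qf (F ∣[k] rr g) = HahnSeries.C (jf k g UpperHalfPlane.I) *
      sc ((g : GL (Fin 2) ℚ) 0 0 / (g : GL (Fin 2) ℚ) 1 1)
        (tw (ee ((g : GL (Fin 2) ℚ) 0 1 / (g : GL (Fin 2) ℚ) 1 1)) (qf F)) := by
  obtain ⟨M', hM', h⟩ := exists_level M hM g
  have ha := upper_pos hg
  set a := (g : GL (Fin 2) ℚ) 0 0 / (g : GL (Fin 2) ℚ) 1 1 with ha'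
  set b := (g : GL (Fin 2) ℚ) 0 1 / (g : GL (Fin 2) ℚ) 1 1 with hb'
  have hl : Lev (M * a.den) (sc a (tw (ee b) (qf F))) := ((lev_qf hM hF).tw _).sc ha
  refine qf_unique hM' (h k F hF) (mul_ne_zero hM a.den_ne_zero) (fun r hr => hl r fun h0 => hr ?_)
    fun τ => ?_
  · rw [HahnSeries.C_mul_eq_smul, HahnSeries.coeff_smul, h0, smul_zero]
  · have h1 := (hasSum_qf hM hF (rr g • τ)).mul_left (jf k g UpperHalfPlane.I)
    rw [slash_eq, Pi.mul_apply, jf_upper hg k τ, mul_comm (F _)]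
    rw [← (Equiv.mulLeft₀ a ha.ne').hasSum_iff]
    refine HasSum.congr_fun' h1 fun r => ?_
    show (_ : HS ℂ).coeff (a * r) * ex (a * r) τ = _
    rw [HahnSeries.C_mul_eq_smul, HahnSeries.coeff_smul, coeff_sc_mul ha, coeff_tw, ee_apply,
      upper_smul hg, smul_eq_mul, ← ha', ← hb', ex, ex, ex, mul_add, Complex.exp_add]
    push_cast
    ring_nf

end upper

/-! ### the `q`-expansion of modular functions -/

theorem exists_qx (x : FF) : ∃ y : HS ℂ, ∀ (M : ℕ) (k : ℤ) (F G : ℍ → ℂ), M ≠ 0 → IsF M k F →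
    IsF M k G → G ≠ 0 → x = quo F G → y = qf F / qf G := by
  obtain ⟨M, k, F, G, hM, hF, hG, hG0, rfl⟩ := exists_quo x
  refine ⟨qf F / qf G, fun N l F' G' hN hF' hG' hG0' h => ?_⟩
  rw [quo_eq_iff hM hF hG hG0 hN hF' hG' hG0'] at h
  have hMN := mul_ne_zero hM hN
  rw [div_eq_div_iff (qf_ne_zero hM hG hG0) (qf_ne_zero hN hG' hG0'),
    ← qf_mul hMN (level_mul_left hF) (level_mul_right hG'), h,
    qf_mul hMN (level_mul_right hF') (level_mul_left hG)]

/-- the underlying function of `qx` -/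
def qx0 (x : FF) : HS ℂ := (exists_qx x).choose

theorem qx0_quo {M : ℕ} {k : ℤ} {F G : ℍ → ℂ} (hM : M ≠ 0) (hF : IsF M k F) (hG : IsF M k G) :
    qx0 (quo F G) = qf F / qf G := by
  by_cases hG0 : G = 0
  · have h1 : quo F G = quo 0 1 := by
      apply Subtype.ext
      rw [coe_quo hM hF hG, coe_quo one_ne_zero IsF.zero IsF.one, hG0, mer_zero, div_zero, zero_div]
    rw [hG0, qf_zero, div_zero, ← hG0, h1, qx0,
      (exists_qx _).choose_spec 1 0 0 1 one_ne_zero IsF.zero IsF.one one_ne_zero rfl, qf_zero,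
      zero_div]
  · exact (exists_qx _).choose_spec M k F G hM hF hG hG0 rfl

/-- two modular functions over a common denominator -/
theorem exists_quo₂ (x y : FF) : ∃ (M : ℕ) (k : ℤ) (F F' G : ℍ → ℂ),
    M ≠ 0 ∧ IsF M k F ∧ IsF M k F' ∧ IsF M k G ∧ G ≠ 0 ∧ x = quo F G ∧ y = quo F' G := by
  obtain ⟨M, k, F, G, hM, hF, hG, hG0, rfl⟩ := exists_quo x
  obtain ⟨N, l, F', G', hN, hF', hG', hG0', rfl⟩ := exists_quo y
  have hMN := mul_ne_zero hM hN
  have h1 := (level_mul_left (N := N) hF).mul (level_mul_right hG')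
  have h2 := (level_mul_left (N := N) hG).mul (level_mul_right hF')
  have h3 := (level_mul_left (N := N) hG).mul (level_mul_right hG')
  have h4 : G * G' ≠ 0 := fun h => hG0 (eq_zero_of_mul hG.holo hG'.holo hG0' h)
  refine ⟨M * N, k + l, F * G', G * F', G * G', hMN, h1, h2, h3, h4, ?_, ?_⟩
  · rw [quo_eq_iff hM hF hG hG0 hMN h1 h3 h4]; ring
  · rw [quo_eq_iff hN hF' hG' hG0' hMN h2 h3 h4]; ring

theorem algebraMap_eq_quo (c : ℂ) : algebraMap ℂ FF c = quo (c • 1) 1 := by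
  rw [quo_smul one_ne_zero IsF.one IsF.one, quo_self one_ne_zero IsF.one one_ne_zero, mul_one]

/-- **the `q`-expansion of modular functions** -/
def qx : FF →+* HS ℂ where
  toFun := qx0
  map_one' := by
    rw [← quo_self one_ne_zero IsF.one one_ne_zero, qx0_quo one_ne_zero IsF.one IsF.one, qf_one,
      div_one]
  map_mul' x y := by
    obtain ⟨M, k, F, F', G, hM, hF, hF', hG, hG0, rfl, rfl⟩ := exists_quo₂ x y
    rw [← quo_mul hM hF hG hF' hG, qx0_quo hM (hF.mul hF') (hG.mul hG), qx0_quo hM hF hG,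
      qx0_quo hM hF' hG, qf_mul hM hF hF', qf_mul hM hG hG, div_mul_div_comm]
  map_zero' := by
    rw [← (quo_eq_zero one_ne_zero IsF.zero IsF.one one_ne_zero).mpr rfl,
      qx0_quo one_ne_zero IsF.zero IsF.one, qf_zero, zero_div]
  map_add' x y := by
    obtain ⟨M, k, F, F', G, hM, hF, hF', hG, hG0, rfl, rfl⟩ := exists_quo₂ x y
    rw [← quo_add hM hF hF' hG, qx0_quo hM (hF.add hF') hG, qx0_quo hM hF hG,
      qx0_quo hM hF' hG, qf_add hM hF hF', add_div]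

theorem qx_quo {M : ℕ} {k : ℤ} {F G : ℍ → ℂ} (hM : M ≠ 0) (hF : IsF M k F) (hG : IsF M k G) :
    qx (quo F G) = qf F / qf G := qx0_quo hM hF hG

theorem qx_injective : Function.Injective qx := qx.injective

theorem qx_algebraMap (c : ℂ) : qx (algebraMap ℂ FF c) = HahnSeries.C c := by
  rw [algebraMap_eq_quo, qx_quo one_ne_zero (IsF.one.smul c) IsF.one,
    qf_smul one_ne_zero IsF.one, qf_one, mul_one, div_one]

/-- **upper triangular matrices on `q`-expansions**: `x ((a z + b) / d)` -/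
theorem qx_upper {g : GQ} (hg : (g : GL (Fin 2) ℚ) 1 0 = 0) (x : FF) :
    qx (g⁻¹ • x) = sc ((g : GL (Fin 2) ℚ) 0 0 / (g : GL (Fin 2) ℚ) 1 1)
      (tw (ee ((g : GL (Fin 2) ℚ) 0 1 / (g : GL (Fin 2) ℚ) 1 1)) (qx x)) := by
  obtain ⟨M, k, F, G, hM, hF, hG, hG0, rfl⟩ := exists_quo x
  obtain ⟨M', hM', h⟩ := exists_level M hM g
  have hc : (HahnSeries.C (jf k g UpperHalfPlane.I) : HS ℂ) ≠ 0 :=
    HahnSeries.C_ne_zero (jf_ne k g _)
  rw [inv_smul_quo hM hF hG, qx_quo hM' (h k F hF) (h k G hG), qf_slash_upper hg hM hF,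
    qf_slash_upper hg hM hG, mul_div_mul_left _ _ hc, qx_quo hM hF hG, map_div₀, map_div₀]

/-! ### representation with a denominator of level one -/

theorem exists_quo_one (x : FF) : ∃ (N : ℕ) (k : ℤ) (F G : ℍ → ℂ),
    N ≠ 0 ∧ IsF N k F ∧ IsF 1 k G ∧ G ≠ 0 ∧ x = quo F G := by
  classical
  obtain ⟨M, k, F, G, hM, hF, hG, hG0, rfl⟩ := exists_quo x
  haveI : NeZero M := ⟨hM⟩
  have hP : IsF M (((nt M).card : ℤ) * k) (∏ a ∈ nt M, tr k G a) :=
    IsF.prod _ _ fun a _ => hG.tr a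
  have hP0 : (∏ a ∈ nt M, tr k G a) ≠ 0 := by
    intro h
    have h1 := mer_prod (nt M) (fun a => tr k G a) fun a _ => (hG.tr a).holo
    rw [h, mer_zero, eq_comm, Finset.prod_eq_zero_iff] at h1
    obtain ⟨a, -, ha⟩ := h1
    exact mer_ne_zero (hG.tr a).holo (slash_ne_zero hG0 k _) ha
  have hGP := hG.mul hP
  have hGP0 : G * ∏ a ∈ nt M, tr k G a ≠ 0 := fun h => hG0 (eq_zero_of_mul hG.holo hP.holo hP0 h)
  have e : G * ∏ a ∈ nt M, tr k G a = ∏ a : GM M, tr k G a := by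
    rw [← Finset.mul_prod_erase Finset.univ _ (Finset.mem_univ (1 : GM M)), tr_one hG]
    congr 2
  have ec : k + ((nt M).card : ℤ) * k = ((Finset.univ : Finset (GM M)).card : ℤ) * k := by
    have : nt M = Finset.univ.erase 1 := by ext a; simp [mem_nt]
    rw [this, ← Finset.card_erase_add_one (Finset.mem_univ (1 : GM M))]
    push_cast
    ring
  refine ⟨M, _, F * ∏ a ∈ nt M, tr k G a, G * ∏ a ∈ nt M, tr k G a, hM, hF.mul hP,
    ⟨fun γ _ => ?_, hGP.holo, hGP.bdd⟩, hGP0, ?_⟩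
  · rw [e, ec, prod_slash']
    rw [← Equiv.prod_comp (Equiv.mulRight (γ : GM M)) (fun a => tr k G a)]
    refine Finset.prod_congr rfl fun a _ => ?_
    rw [tr_slash hG]
    rfl
  · rw [quo_eq_iff hM hF hG hG0 hM (hF.mul hP) hGP hGP0]; ring

/-- invariance of the numerator -/
theorem slash_eq_of_smul {N : ℕ} {k : ℤ} {F G : ℍ → ℂ} (hN : N ≠ 0) (hF : IsF N k F)
    (hG : IsF 1 k G) (hG0 : G ≠ 0) {γ : SL(2, ℤ)} (h : γ • quo F G = quo F G) : F ∣[k] γ = F := by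
  have hG' : IsF N k G := hG.mono (one_dvd _)
  have h1 : γ⁻¹ • quo F G = quo F G := by rw [inv_smul_eq_iff, h]
  rw [inv_sl_smul_quo hN hF hG', hG.slash_one_level,
    quo_eq_iff hN (hF.slash_SL γ) hG' hG0 hN hF hG' hG0, ← sub_eq_zero, ← sub_mul] at h1
  exact sub_eq_zero.mp (eq_zero_of_mul ((hF.slash_SL γ).sub hF).holo hG.holo hG0 h1)

theorem exists_quo_level {M : ℕ} {x : FF} (hx : ∀ γ ∈ Gamma M, γ • x = x) :
    ∃ (k : ℤ) (F G : ℍ → ℂ), IsF M k F ∧ IsF 1 k G ∧ G ≠ 0 ∧ x = quo F G := by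
  obtain ⟨N, k, F, G, hN, hF, hG, hG0, rfl⟩ := exists_quo_one x
  exact ⟨k, F, G, ⟨fun γ hγ => slash_eq_of_smul hN hF hG hG0 (hx γ hγ), hF.holo, hF.bdd⟩, hG, hG0,
    rfl⟩

/-! ### the action of `Aut ℂ` -/

theorem qf_of_cjT {σ : ℂ →+* ℂ} {s : ℤ} {M : ℕ} (hM : M ≠ 0) {k : ℤ} {F F' : ℍ → ℂ}
    (h : CjT σ s M k F F') {γ γ' : SL(2, ℤ)} (hγ : Tw s M γ γ') :
    qf (F' ∣[k] γ') = hm σ (qf (F ∣[k] γ)) := by
  rw [qf_eq hM (h.right.slash_SL γ'), qf_eq hM (h.left.slash_SL γ), h.eq γ γ' hγ, hm_hq hM]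

theorem exists_gal_FF (σ : ℂ →+* ℂ) (x : FF) : ∃ y : FF, qx y = hm σ (qx x) := by
  obtain ⟨M, k, F, G, hM, hF, hG, hG0, rfl⟩ := exists_quo x
  have hM3 : M * 3 ≠ 0 := mul_ne_zero hM (by norm_num)
  haveI : NeZero (M * 3) := ⟨hM3⟩
  obtain ⟨s, hs⟩ := exists_zpow_zeta σ (M * 3)
  obtain ⟨F', hF'⟩ := exists_gal (σ := σ) (by omega) hs (level_mul_left (N := 3) hF)
  obtain ⟨G', hG'⟩ := exists_gal (σ := σ) (by omega) hs (level_mul_left (N := 3) hG)
  refine ⟨quo F' G', ?_⟩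
  have h1 := qf_of_cjT hM3 hF' (Tw.one s _)
  have h2 := qf_of_cjT hM3 hG' (Tw.one s _)
  simp only [SlashAction.slash_one] at h1 h2
  rw [qx_quo hM3 hF'.right hG'.right, qx_quo hM hF hG, map_div₀, h1, h2]

/-- conjugation of the coefficients of the `q`-expansion at `∞` -/
def gal (σ : ℂ →+* ℂ) : FF →+* FF where
  toFun x := (exists_gal_FF σ x).choose
  map_one' := qx_injective (by rw [(exists_gal_FF σ 1).choose_spec, map_one, map_one])
  map_mul' x y := qx_injective (by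
    rw [(exists_gal_FF σ _).choose_spec, map_mul, map_mul, map_mul, (exists_gal_FF σ _).choose_spec,
      (exists_gal_FF σ _).choose_spec])
  map_zero' := qx_injective (by rw [(exists_gal_FF σ 0).choose_spec, map_zero, map_zero])
  map_add' x y := qx_injective (by
    rw [(exists_gal_FF σ _).choose_spec, map_add, map_add, map_add, (exists_gal_FF σ _).choose_spec,
      (exists_gal_FF σ _).choose_spec])

theorem qx_gal (σ : ℂ →+* ℂ) (x : FF) : qx (gal σ x) = hm σ (qx x) :=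
  (exists_gal_FF σ x).choose_spec

theorem gal_algebraMap (σ : ℂ →+* ℂ) (c : ℂ) :
    gal σ (algebraMap ℂ FF c) = algebraMap ℂ FF (σ c) :=
  qx_injective (by rw [qx_gal, qx_algebraMap, qx_algebraMap, hm_C])

theorem gal_gal (σ τ : ℂ →+* ℂ) (x : FF) : gal σ (gal τ x) = gal (σ.comp τ) x :=
  qx_injective (by rw [qx_gal, qx_gal, qx_gal, hm_comp])

theorem gal_id (x : FF) : gal (RingHom.id ℂ) x = x := qx_injective (by rw [qx_gal, hm_id])

instance : MulSemiringAction (ℂ ≃+* ℂ) FF where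
  smul σ x := gal (σ : ℂ →+* ℂ) x
  one_smul x := gal_id x
  mul_smul σ τ x := (gal_gal (σ : ℂ →+* ℂ) (τ : ℂ →+* ℂ) x).symm
  smul_zero σ := map_zero (gal (σ : ℂ →+* ℂ))
  smul_add σ := map_add (gal (σ : ℂ →+* ℂ))
  smul_one σ := map_one (gal (σ : ℂ →+* ℂ))
  smul_mul σ := map_mul (gal (σ : ℂ →+* ℂ))

theorem aut_smul (σ : ℂ ≃+* ℂ) (x : FF) : σ • x = gal (σ : ℂ →+* ℂ) x := rfl

theorem qx_aut (σ : ℂ ≃+* ℂ) (x : FF) : qx (σ • x) = hm (σ : ℂ →+* ℂ) (qx x) := qx_gal _ x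

/-- **`Aut ℂ` and `SL(2,ℤ)`**: `σ (x ∘ γ) = (σ x) ∘ γ'`, `γ' = diag(1,s)⁻¹ γ diag(1,s) mod M` -/
theorem gal_inv_smul {σ : ℂ →+* ℂ} {s : ℤ} {M : ℕ} (hM : 3 ≤ M)
    (hs : σ (Wp.zeta M) = Wp.zeta M ^ s) {x : FF} (hx : ∀ γ ∈ Gamma M, γ • x = x)
    {γ γ' : SL(2, ℤ)} (hγ : Tw s M γ γ') : gal σ (γ⁻¹ • x) = γ'⁻¹ • gal σ x := by
  have hM0 : M ≠ 0 := by omega
  haveI : NeZero M := ⟨hM0⟩
  obtain ⟨k, F, G, hF, hG1, hG0, rfl⟩ := exists_quo_level hx
  have hG : IsF M k G := hG1.mono (one_dvd _)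
  obtain ⟨F', hF'⟩ := exists_gal hM hs hF
  obtain ⟨G', hG'⟩ := exists_gal hM hs hG
  have key : ∀ δ δ' : SL(2, ℤ), Tw s M δ δ' → gal σ (δ⁻¹ • quo F G) = δ'⁻¹ • quo F' G' := by
    intro δ δ' hδ
    apply qx_injective
    rw [qx_gal, inv_sl_smul_quo hM0 hF hG, inv_sl_smul_quo hM0 hF'.right hG'.right,
      qx_quo hM0 (hF.slash_SL δ) (hG.slash_SL δ),
      qx_quo hM0 (hF'.right.slash_SL δ') (hG'.right.slash_SL δ'), map_div₀,
      qf_of_cjT hM0 hF' hδ, qf_of_cjT hM0 hG' hδ]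
  have h1 := key 1 1 (Tw.one s M)
  rw [inv_one, one_smul, one_smul] at h1
  rw [key γ γ' hγ, h1]


end Crest.Agent.T15.Mf
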