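import Crest.Agent.T15.CgF_84
import Crest.Agent.T15.ModB_53

/-!
# Row 15, block T: the `q`-adic Gauss norm on modular functions and its residue fields (helper84)

* `gw v : Valuation FF ℝ≥0`, `isG`;
* `rho h qx f : HS k` the reduction, `kap h qx hq` the residue field, `IsG.red`;
* for a field `K` between `ℂ` and `FF`: `gwK v K`, `kapF h K`, `rhoF h K`, `redF`.
-/

set_option autoImplicit false
set_option linter.unusedSectionVars false

noncomputable section

namespace Crest.Agent.T15.Cg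

open HahnSeries CongruenceSubgroup
open scoped NNReal MatrixGroups
open Crest.Agent.R013.GR4_921 Crest.Agent.T15.Hs Crest.Agent.T15.Mf Crest.Agent.T15.Mod

attribute [-instance] HahnSeries.powerSeriesAlgebra

lemma exists_K0 (x y : FF) : ∃ M, qx x ∈ K0 M ∧ qx y ∈ K0 M := by
  obtain ⟨M, k, F, F', G, hM, hF, hF', hG, -, rfl, rfl⟩ := exists_quo₂ x y
  have h3 : 3 ≤ M * 3 := by have := Nat.pos_of_ne_zero hM; omega
  refine ⟨M * 3, ?_, ?_⟩
  · rw [qx_quo hM hF hG]
    exact div_mem (qf_mem_K0 h3 (level_mul_left hF)) (qf_mem_K0 h3 (level_mul_left hG))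
  · rw [qx_quo hM hF' hG]
    exact div_mem (qf_mem_K0 h3 (level_mul_left hF')) (qf_mem_K0 h3 (level_mul_left hG))

/-- the Gauss norm of the `q`-expansion at `∞` -/
def gw (v : Valuation ℂ ℝ≥0) : Valuation FF ℝ≥0 where
  toFun x := wF v (qx x)
  map_zero' := by rw [map_zero, wF_of (zero_mem _), gn_zero]
  map_one' := by rw [map_one, wF_of (one_mem _), gn_one]
  map_mul' x y := by
    obtain ⟨M, hx, hy⟩ := exists_K0 x y
    rw [map_mul]
    exact (wK v M).map_mul ⟨_, hx⟩ ⟨_, hy⟩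
  map_add_le_max' x y := by
    obtain ⟨M, hx, hy⟩ := exists_K0 x y
    show wF v (qx (x + y)) ≤ max (wF v (qx x)) (wF v (qx y))
    rw [map_add]
    exact (wK v M).map_add ⟨_, hx⟩ ⟨_, hy⟩

lemma gw_apply (v : Valuation ℂ ℝ≥0) (x : FF) : gw v x = wF v (qx x) := rfl

lemma exists_unS (v : Valuation ℂ ℝ≥0) {a : HS ℂ} (ha : a ∈ Bz) (h0 : a ≠ 0) :
    ∃ (c : ℂ) (a' : HS ℂ), c ≠ 0 ∧ UnS v a' ∧ a = C c * a' ∧ gn v a = v c := by
  obtain ⟨r0, hr⟩ := exists_gn (v := v) ha
  have hv : v (a.coeff r0) ≠ 0 := hr ▸ gn_ne ha h0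
  have hc : a.coeff r0 ≠ 0 := by simpa using hv
  refine ⟨a.coeff r0, C (a.coeff r0)⁻¹ * a, hc, ⟨fun g => ?_, r0, ?_⟩, ?_, hr⟩
  · rw [coeff_C_mul, map_mul, map_inv₀, inv_mul_le_one₀ hv.bot_lt, ← hr]
    exact le_gn ha g
  · rw [coeff_C_mul, inv_mul_cancel₀ hc, map_one]
  · rw [← mul_assoc, ← map_mul, mul_inv_cancel₀ hc, map_one, one_mul]

theorem isG (v : Valuation ℂ ℝ≥0) : IsG v qx (gw v) := fun f hf => by
  obtain ⟨M, ⟨a, ha, b, hb, h0, e⟩, -⟩ := exists_K0 f f
  have ha0 : a ≠ 0 := by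
    rintro rfl
    exact hf (qx_injective (by rw [e, zero_div, map_zero]))
  obtain ⟨c, a', hc, ha', e1, h1⟩ := exists_unS v ha.1 ha0
  obtain ⟨d, b', hd, hb', e2, h2⟩ := exists_unS v hb.1 h0
  refine ⟨c / d, a', b', ha', hb', ?_, by rw [gw_apply, e, wF_div ha.1 hb.1 h0, h1, h2, map_div₀]⟩
  have hD : (C d : HS ℂ) ≠ 0 := by simpa using hd
  have := hb'.ne_zero
  rw [e, e1, e2, map_div₀]
  field_simp

section res

variable {K k : Type*} [Field K] [Field k] {v : Valuation K ℝ≥0} {r : K → k} (h : IsRes v r)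
  {L : Type*} [Field L]

open Classical in
/-- the reduction of the expansion -/
def rho (qx : L →+* HS K) (f : L) : HS k :=
  if H : ∃ p : HS K × HS K, IntS v p.1 ∧ UnS v p.2 ∧ qx f * p.2 = p.1 then
    rd h H.choose.1 / rd h H.choose.2 else 0

variable {qx : L →+* HS K} {w : Valuation L ℝ≥0}

lemma rd_ne {b : HS K} (hb : UnS v b) : rd h b ≠ 0 := ((unS_iff h).1 hb).2

lemma rho_eq {f : L} {a b : HS K} (ha : IntS v a) (hb : UnS v b) (e : qx f * b = a) :
    rho h qx f = rd h a / rd h b := by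
  have H : ∃ p : HS K × HS K, IntS v p.1 ∧ UnS v p.2 ∧ qx f * p.2 = p.1 := ⟨(a, b), ha, hb, e⟩
  rw [rho, dif_pos H]
  obtain ⟨h1, h2, h3⟩ := H.choose_spec
  rw [div_eq_div_iff (rd_ne h h2) (rd_ne h hb), ← rd_mul h h1 hb.1, ← rd_mul h ha h2.1]
  congr 1
  linear_combination H.choose.2 * e - b * h3


lemma rho_of_int {f : L} (hf : IntS v (qx f)) : rho h qx f = rd h (qx f) := by
  rw [rho_eq h hf UnS.one (mul_one _), rd_one, div_one]


lemma IntS.add {x y : HS K} (hx : IntS v x) (hy : IntS v y) : IntS v (x + y) := fun g => by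
  rw [coeff_add]
  exact (Valuation.map_add _ _ _).trans (max_le (hx g) (hy g))

lemma rd_add {x y : HS K} (hx : IntS v x) (hy : IntS v y) : rd h (x + y) = rd h x + rd h y := by
  ext g
  rw [rd_coeff, coeff_add, coeff_add, h.add _ _ (hx g) (hy g), rd_coeff, rd_coeff]

lemma intS_C {c : K} (hc : v c ≤ 1) : IntS v (C c : HS K) := by
  simpa using IntS.one.C_mul hc

lemma rd_C (c : K) : rd h (C c : HS K) = C (r c) := by
  ext g
  rw [rd_coeff, C_apply, C_apply, coeff_single, coeff_single]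
  split_ifs
  · rfl
  · exact h.zero

lemma IsG.le_one (hw : IsG v qx w) {f : L} {a b : HS K} (ha : IntS v a) (hb : UnS v b)
    (e : qx f * b = a) : w f ≤ 1 := by
  by_cases hu : ∃ g, v (a.coeff g) = 1
  · exact ((hw.w_eq (c := 1) ⟨ha, hu⟩ hb (by rw [e, map_one, one_mul])).trans (map_one v)).le
  · exact (hw.lt_one hb (fun g => (ha g).lt_of_ne fun h' => hu ⟨g, h'⟩) e).le

lemma IsG.rho_add (hw : IsG v qx w) {x y : L} (hx : w x ≤ 1) (hy : w y ≤ 1) :
    rho h qx (x + y) = rho h qx x + rho h qx y := by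
  obtain ⟨a, b, ha, hb, e⟩ := hw.int_rep hx
  obtain ⟨a', b', ha', hb', e'⟩ := hw.int_rep hy
  rw [rho_eq h ((ha.mul hb'.1).add (hb.1.mul ha')) (hb.mul hb')
    (by rw [map_add]; linear_combination b' * e + b * e'), rho_eq h ha hb e, rho_eq h ha' hb' e',
    rd_add h (ha.mul hb'.1) (hb.1.mul ha'), rd_mul h ha hb'.1, rd_mul h hb.1 ha',
    rd_mul h hb.1 hb'.1, div_add_div _ _ (rd_ne h hb) (rd_ne h hb')]

lemma IsG.rho_mul (hw : IsG v qx w) {x y : L} (hx : w x ≤ 1) (hy : w y ≤ 1) :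
    rho h qx (x * y) = rho h qx x * rho h qx y := by
  obtain ⟨a, b, ha, hb, e⟩ := hw.int_rep hx
  obtain ⟨a', b', ha', hb', e'⟩ := hw.int_rep hy
  rw [rho_eq h (ha.mul ha') (hb.mul hb')
    (by rw [map_mul]; linear_combination (qx y * b') * e + a * e'), rho_eq h ha hb e,
    rho_eq h ha' hb' e', rd_mul h ha ha', rd_mul h hb.1 hb'.1, div_mul_div_comm]

lemma rho_one : rho h qx 1 = 1 := by
  rw [rho_of_int h (by rw [map_one]; exact IntS.one), map_one, rd_one]

lemma IsG.rho_eq_zero (hw : IsG v qx w) {x : L} (hx : w x ≤ 1) : rho h qx x = 0 ↔ w x < 1 := by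
  obtain ⟨a, b, ha, hb, e⟩ := hw.int_rep hx
  rw [rho_eq h ha hb e, div_eq_zero_iff, or_iff_left (rd_ne h hb)]
  constructor
  · intro h0
    exact hw.lt_one hb (fun g => (h.zero_iff _ (ha g)).1 (by rw [← rd_coeff h, h0, coeff_zero])) e
  · intro h1
    by_contra h0
    have := hw.w_eq (c := 1) ((unS_iff h).2 ⟨ha, h0⟩) hb (by rw [e, map_one, one_mul])
    rw [this, map_one] at h1
    exact lt_irrefl _ h1

variable [Algebra K L]

lemma rho_const (hq : ∀ c, qx (algebraMap K L c) = C c) {c : K} (hc : v c ≤ 1) :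
    rho h qx (algebraMap K L c) = C (r c) := by
  rw [rho_of_int h (by rw [hq]; exact intS_C hc), hq, rd_C]

/-- the residue field -/
def kap (qx : L →+* HS K) (hq : ∀ c, qx (algebraMap K L c) = C c) : IntermediateField k (HS k) where
  carrier := {z | ∃ (f : L) (a b : HS K), IntS v a ∧ UnS v b ∧ qx f * b = a ∧ z = rd h a / rd h b}
  mul_mem' := by
    rintro _ _ ⟨f, a, b, ha, hb, e, rfl⟩ ⟨f', a', b', ha', hb', e', rfl⟩
    exact ⟨f * f', a * a', b * b', ha.mul ha', hb.mul hb',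
      by rw [map_mul]; linear_combination (qx f' * b') * e + a * e',
      by rw [rd_mul h ha ha', rd_mul h hb.1 hb'.1, div_mul_div_comm]⟩
  add_mem' := by
    rintro _ _ ⟨f, a, b, ha, hb, e, rfl⟩ ⟨f', a', b', ha', hb', e', rfl⟩
    exact ⟨f + f', a * b' + b * a', b * b', (ha.mul hb'.1).add (hb.1.mul ha'), hb.mul hb',
      by rw [map_add]; linear_combination b' * e + b * e',
      by rw [rd_add h (ha.mul hb'.1) (hb.1.mul ha'), rd_mul h ha hb'.1, rd_mul h hb.1 ha',
        rd_mul h hb.1 hb'.1, div_add_div _ _ (rd_ne h hb) (rd_ne h hb')]⟩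
  algebraMap_mem' c := by
    obtain ⟨d, hd, rfl⟩ := h.surj c
    exact ⟨algebraMap K L d, C d, 1, intS_C hd, UnS.one, by rw [hq, mul_one],
      by rw [rd_C, rd_one, div_one]; rfl⟩
  inv_mem' := by
    rintro _ ⟨f, a, b, ha, hb, e, rfl⟩
    by_cases h0 : rd h a = 0
    · exact ⟨f, a, b, ha, hb, e, by rw [h0, zero_div, inv_zero]⟩
    · have hu := (unS_iff h).2 ⟨ha, h0⟩
      have hf : qx f ≠ 0 := fun h1 => hu.ne_zero (by rw [← e, h1, zero_mul])
      exact ⟨f⁻¹, b, a, hb.1, hu, by rw [map_inv₀, ← e, inv_mul_cancel_left₀ hf], inv_div _ _⟩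

variable (hq : ∀ c, qx (algebraMap K L c) = C c)

lemma rho_mem (f : L) : rho h qx f ∈ kap h qx hq := by
  by_cases H : ∃ p : HS K × HS K, IntS v p.1 ∧ UnS v p.2 ∧ qx f * p.2 = p.1
  · obtain ⟨p, h1, h2, h3⟩ := H
    exact ⟨f, p.1, p.2, h1, h2, h3, rho_eq h h1 h2 h3⟩
  · rw [rho, dif_neg H]; exact zero_mem _

lemma IsG.mem_kap (hw : IsG v qx w) {z : HS k} :
    z ∈ kap h qx hq ↔ ∃ f, w f ≤ 1 ∧ rho h qx f = z :=
  ⟨fun ⟨f, _, _, ha, hb, e, hz⟩ => ⟨f, hw.le_one ha hb e, by rw [hz, rho_eq h ha hb e]⟩,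
    fun ⟨f, _, e⟩ => e ▸ rho_mem h hq f⟩

/-- the residue map -/
def rhoK (f : L) : kap h qx hq := ⟨rho h qx f, rho_mem h hq f⟩


theorem IsG.red (hw : IsG v qx w) : Red v r w (rhoK h hq) where
  resC := h
  res :=
    { add := fun _ _ hx hy => Subtype.ext (hw.rho_add h hx hy)
      mul := fun _ _ hx hy => Subtype.ext (hw.rho_mul h hx hy)
      one := Subtype.ext (rho_one h)
      zero_iff := fun _ hx => Subtype.ext_iff.trans (hw.rho_eq_zero h hx)
      surj := fun y => by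
        obtain ⟨f, hf, e⟩ := (hw.mem_kap h hq).1 y.2
        exact ⟨f, hf, Subtype.ext e⟩ }
  norm c := hw.w_eq UnS.one UnS.one (by rw [hq])
  comp c hc := Subtype.ext (rho_const h hq hc)
  val f hf := by
    obtain ⟨c, -, -, -, -, -, e⟩ := hw f hf
    exact ⟨c, e⟩

end res

section FF

variable {k : Type*} [Field k] {v : Valuation ℂ ℝ≥0} {r : ℂ → k}

/-- the reduction of a modular function -/
abbrev rh (h : IsRes v r) (f : FF) : HS k := rho h qx f

variable (K : Type*) [Field K] [Algebra ℂ K] [Algebra K FF] [IsScalarTower ℂ K FF]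

lemma qx_const (c : ℂ) : (qx.comp (algebraMap K FF)) (algebraMap ℂ K c) = C c := by
  rw [RingHom.comp_apply, ← IsScalarTower.algebraMap_apply, qx_algebraMap]

/-- the Gauss norm on `K` -/
def gwK (v : Valuation ℂ ℝ≥0) (K : Type*) [Field K] [Algebra K FF] : Valuation K ℝ≥0 :=
  (gw v).comap (algebraMap K FF)

lemma gwK_apply (x : K) : gwK v K x = gw v (algebraMap K FF x) := rfl

lemma isGK : IsG v (qx.comp (algebraMap K FF)) (gwK v K) := (isG v).comp _

variable (h : IsRes v r)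

/-- the residue field of `K` -/
def kapF : IntermediateField k (HS k) := kap h (qx.comp (algebraMap K FF)) (qx_const K)

/-- the residue map of `K` -/
def rhoF (x : K) : kapF K h := rhoK h (qx_const K) x


theorem redF : Red v r (gwK v K) (rhoF K h) := (isGK K).red h (qx_const K)

lemma mem_kapF {z : HS k} :
    z ∈ kapF K h ↔ ∃ x : K, gw v (algebraMap K FF x) ≤ 1 ∧ rh h (algebraMap K FF x) = z :=
  (isGK K).mem_kap h (qx_const K)

variable (K' : Type*) [Field K'] [Algebra ℂ K'] [Algebra K' FF] [IsScalarTower ℂ K' FF]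

lemma kapF_le_of (hK : ∀ x : K, ∃ y : K', algebraMap K' FF y = algebraMap K FF x) :
    kapF K h ≤ kapF K' h := fun z hz => by
  obtain ⟨x, h1, h2⟩ := (mem_kapF K h).1 hz
  obtain ⟨y, hy⟩ := hK x
  exact (mem_kapF K' h).2 ⟨y, hy ▸ h1, hy ▸ h2⟩

variable [Algebra K K'] [IsScalarTower K K' FF]

lemma kapF_le : kapF K h ≤ kapF K' h :=
  kapF_le_of K h K' fun x => ⟨algebraMap K K' x, (IsScalarTower.algebraMap_apply K K' FF x).symm⟩


/-- the extension of residue fields -/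
@[reducible] def kapAlg : Algebra (kapF K h) (kapF K' h) :=
  (IntermediateField.inclusion (kapF_le K h K')).toRingHom.toAlgebra



end FF

end Crest.Agent.T15.Cg

end
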