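import Crest.Agent.T15.MfB_79

/-!
# T15 / MfC (helper79): `j`, the function fields `F Γ` over `ℂ(j)`, Galois theory

* `jj : FF`, `Algebra (RatFunc ℂ) FF` with `X ↦ jj`; `F Γ : IntermediateField (RatFunc ℂ) FF`;
* `F ⊤ = ⊥`; `F Γ` finite over `RatFunc ℂ` for a congruence subgroup;
* `act N : SL(2,ℤ) →* Gal(F N / ℂ(j))` onto (`N` normal), `actR Γ Γ' : Γ →* Gal(F Γ' / F Γ)` onto;
* `fix_iff` : `γ` fixes `F Γ` pointwise iff `γ ∈ ±Γ`; `finrank_F` : `[F Γ : ℂ(j)] = [SL₂(ℤ) : ±Γ]`.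
-/

set_option autoImplicit false
set_option linter.all false
set_option maxHeartbeats 400000

noncomputable section

namespace Crest.Agent.T15.Mf

open UpperHalfPlane ModularForm CongruenceSubgroup Matrix.SpecialLinearGroup Polynomial
open scoped MatrixGroups Manifold Real
open Crest.Agent.R007 Crest.Agent.R007.Rat Crest.Agent.T15.Hs

/-- a group acting through finitely many automorphisms with invariants `K` -/
theorem galois_of_hom {G K L : Type*} [Group G] [Field K] [Field L] [Algebra K L]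
    (φ : G →* (L ≃ₐ[K] L)) (hfin : Finite φ.range)
    (hinv : ∀ x : L, (∀ g, φ g x = x) → x ∈ Set.range (algebraMap K L)) :
    FiniteDimensional K L ∧ IsGalois K L ∧ Function.Surjective φ := by
  haveI : IsGaloisGroup φ.range K L :=
    ⟨inferInstance, inferInstance, ⟨fun x hx => hinv x fun g => hx ⟨φ g, g, rfl⟩⟩⟩
  haveI h1 := IsGaloisGroup.finiteDimensional φ.range K L
  haveI h2 := IsGaloisGroup.isGalois φ.range K L
  refine ⟨h1, h2, ?_⟩
  rw [← MonoidHom.range_eq_top]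
  apply Subgroup.eq_top_of_card_eq
  rw [IsGaloisGroup.card_eq_finrank φ.range K L, IsGalois.card_aut_eq_finrank]

theorem dl_ne (τ : ℍ) : dl τ ≠ 0 := ModularForm.discriminant_ne_zero τ

theorem dl_ne_zero : dl ≠ 0 := fun h => dl_ne UpperHalfPlane.I (congrFun h _)

theorem isF_e4_cube : IsF 1 12 (e4 ^ 3) := (isF_e4.pow 3).cast (by norm_num)


/-- the modular invariant `j = E₄³ / Δ` -/
def jj : FF := quo (e4 ^ 3) dl

theorem sl_smul_jj (γ : SL(2, ℤ)) : γ • jj = jj :=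
  gamma_smul_quo one_ne_zero isF_e4_cube isF_dl (by rw [Gamma_one_top]; trivial)

theorem jj_notMem : jj ∉ Set.range (algebraMap ℂ FF) := by
  rintro ⟨c, hc⟩
  rw [algebraMap_eq_quo, jj, quo_eq_iff one_ne_zero (IsF.one.smul c) IsF.one one_ne_zero
    one_ne_zero isF_e4_cube isF_dl dl_ne_zero, mul_one, smul_mul_assoc, one_mul] at hc
  have h1 : PowerSeries.coeff 0 (qe 1 (c • dl)) = PowerSeries.coeff 0 (qe 1 (e4 ^ 3)) := by rw [hc]
  rw [qe_smul isF_dl, qe_pow isF_e4, PowerSeries.coeff_smul, coeff_zero_dl, smul_zero,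
    PowerSeries.coeff_zero_eq_constantCoeff_apply, map_pow,
    ← PowerSeries.coeff_zero_eq_constantCoeff_apply, coeff_zero_e4] at h1
  simp at h1

theorem transcendental_jj : Transcendental ℂ jj := by
  intro h
  apply jj_notMem
  have h1 : jj ∈ algebraicClosure ℂ FF := mem_algebraicClosure_iff.mpr h
  rw [IntermediateField.eq_bot_of_isAlgClosed_of_isAlgebraic (algebraicClosure ℂ FF),
    IntermediateField.mem_bot] at h1
  exact h1

theorem aeval_jj_injective : Function.Injective (aeval jj : ℂ[X] →ₐ[ℂ] FF) :=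
  transcendental_iff_injective.mp transcendental_jj

/-- `ℂ(X) → FF`, `X ↦ j` -/
def jHom : RatFunc ℂ →ₐ[ℂ] FF :=
  RatFunc.liftAlgHom (aeval jj)
    (nonZeroDivisors_le_comap_nonZeroDivisors_of_injective _ aeval_jj_injective)

instance : Algebra (RatFunc ℂ) FF := jHom.toRingHom.toAlgebra


instance : IsScalarTower ℂ (RatFunc ℂ) FF :=
  IsScalarTower.of_algebraMap_eq fun c => (jHom.commutes c).symm

theorem algebraMap_RatFunc_eq (r : RatFunc ℂ) :
    algebraMap (RatFunc ℂ) FF r = aeval jj r.num / aeval jj r.denom :=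
  RatFunc.liftAlgHom_apply _ _ r

theorem algebraMap_poly (p : ℂ[X]) :
    algebraMap (RatFunc ℂ) FF (algebraMap ℂ[X] (RatFunc ℂ) p) = aeval jj p := by
  rw [algebraMap_RatFunc_eq, RatFunc.num_algebraMap, RatFunc.denom_algebraMap, map_one, div_one]

theorem algebraMap_X : algebraMap (RatFunc ℂ) FF RatFunc.X = jj := by
  rw [← RatFunc.algebraMap_X, algebraMap_poly, aeval_X]

theorem sl_smul_algebraMap_C (γ : SL(2, ℤ)) (c : ℂ) : γ • algebraMap ℂ FF c = algebraMap ℂ FF c :=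
  smul_algebraMap_FF _ c

theorem sl_smul_aeval (γ : SL(2, ℤ)) (p : ℂ[X]) : γ • aeval jj p = aeval jj p := by
  induction p using Polynomial.induction_on with
  | C c => rw [aeval_C, sl_smul_algebraMap_C]
  | add p q hp hq => rw [map_add, smul_add, hp, hq]
  | monomial n c h => rw [pow_succ, ← mul_assoc, map_mul, smul_mul', h, aeval_X, sl_smul_jj]

theorem sl_smul_div (γ : SL(2, ℤ)) (x y : FF) : γ • (x / y) = γ • x / γ • y :=
  map_div₀ (MulSemiringAction.toRingHom SL(2, ℤ) FF γ) x y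

theorem sl_smul_algebraMap (γ : SL(2, ℤ)) (r : RatFunc ℂ) :
    γ • algebraMap (RatFunc ℂ) FF r = algebraMap (RatFunc ℂ) FF r := by
  rw [algebraMap_RatFunc_eq, sl_smul_div, sl_smul_aeval, sl_smul_aeval]

instance : SMulCommClass SL(2, ℤ) (RatFunc ℂ) FF := ⟨fun g c x => by
  rw [Algebra.smul_def, Algebra.smul_def, smul_mul', sl_smul_algebraMap]⟩

/-- the field of modular functions for `Γ` -/
def F (Γ : Subgroup SL(2, ℤ)) : IntermediateField (RatFunc ℂ) FF where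
  carrier := {x | ∀ γ ∈ Γ, γ • x = x}
  mul_mem' := fun ha hb γ hγ => by rw [smul_mul', ha γ hγ, hb γ hγ]
  add_mem' := fun ha hb γ hγ => by rw [smul_add, ha γ hγ, hb γ hγ]
  algebraMap_mem' := fun r γ _ => sl_smul_algebraMap γ r
  inv_mem' := fun x hx γ hγ => by rw [smul_inv'', hx γ hγ]

/-! shortcut instances -/

instance : Module (RatFunc ℂ) FF := Algebra.toModule
instance : SMul (RatFunc ℂ) FF := Algebra.toSMul
instance (Γ : Subgroup SL(2, ℤ)) : Field (F Γ) := inferInstance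
instance (Γ : Subgroup SL(2, ℤ)) : Algebra (RatFunc ℂ) (F Γ) := inferInstance
instance (Γ : Subgroup SL(2, ℤ)) : Module (RatFunc ℂ) (F Γ) := Algebra.toModule
instance (Γ : Subgroup SL(2, ℤ)) : SMul (RatFunc ℂ) (F Γ) := Algebra.toSMul
instance (Γ : Subgroup SL(2, ℤ)) : Algebra ℂ (F Γ) := inferInstance
instance (Γ : Subgroup SL(2, ℤ)) : Module ℂ (F Γ) := Algebra.toModule
instance (Γ : Subgroup SL(2, ℤ)) : SMul ℂ (F Γ) := Algebra.toSMul
instance (Γ : Subgroup SL(2, ℤ)) : IsScalarTower ℂ (RatFunc ℂ) (F Γ) :=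
  IsScalarTower.of_algebraMap_eq fun c => Subtype.ext (IsScalarTower.algebraMap_apply ℂ (RatFunc ℂ) FF c)

theorem mem_F {Γ : Subgroup SL(2, ℤ)} {x : FF} : x ∈ F Γ ↔ ∀ γ ∈ Γ, γ • x = x := Iff.rfl

theorem F_anti {Γ Γ' : Subgroup SL(2, ℤ)} (h : Γ' ≤ Γ) : F Γ ≤ F Γ' :=
  fun _ hx γ hγ => hx γ (h hγ)


theorem quo_mem_F {M : ℕ} (hM : M ≠ 0) {k : ℤ} {A B : ℍ → ℂ} (hA : IsF M k A) (hB : IsF M k B) :
    quo A B ∈ F (Gamma M) := fun _ hγ => gamma_smul_quo hM hA hB hγ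

theorem coe_algebraMap_F (Γ : Subgroup SL(2, ℤ)) (c : ℂ) :
    ((algebraMap ℂ (F Γ) c : F Γ) : FF) = algebraMap ℂ FF c := rfl

/-! ### level one -/

theorem quo_dl_pow {m : ℕ} {H : ℍ → ℂ} (hH : IsF 1 ((m : ℤ) * 12) H) :
    ∃ p : ℂ[X], quo H (dl ^ m) = aeval jj p := by
  have hD : IsF 1 ((m : ℤ) * 12) (dl ^ m) := isF_dl.pow m
  have h1 := levelOne_mem_span ⊤ hH (fun n => Subring.mem_top _)
  suffices h : IsF 1 ((m : ℤ) * 12) H ∧ ∃ p : ℂ[X], quo H (dl ^ m) = aeval jj p from h.2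
  clear hH
  induction h1 using Submodule.span_induction with
  | mem x hx =>
    refine ⟨(isR_of_mem_Mon (S := ⊤) hx).isF, ?_⟩
    obtain ⟨a, b, c, hb, h, rfl⟩ := hx
    have hb0 : b = 0 := by omega
    obtain ⟨a', rfl⟩ : ∃ a', a = 3 * a' := ⟨a / 3, by omega⟩
    have hm : m = a' + c := by omega
    subst hb0 hm
    refine ⟨X ^ a', ?_⟩
    rw [map_pow, aeval_X, jj, ← quo_pow one_ne_zero isF_e4_cube isF_dl, mon, pow_zero, mul_one,
      pow_mul, pow_add, quo_mul one_ne_zero (isF_e4_cube.pow a') (isF_dl.pow a') (isF_dl.pow c)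
        (isF_dl.pow c), quo_self one_ne_zero (isF_dl.pow c) (pow_ne_zero_fun c), mul_one]
  | zero => exact ⟨IsF.zero, 0, by
      rw [map_zero, quo_eq_zero one_ne_zero IsF.zero hD (pow_ne_zero_fun m)]⟩
  | add x y _ _ hx hy =>
    obtain ⟨h1, p, hp⟩ := hx
    obtain ⟨h2, q, hq⟩ := hy
    exact ⟨h1.add h2, p + q, by rw [quo_add one_ne_zero h1 h2 hD, hp, hq, map_add]⟩
  | smul c x _ hx =>
    obtain ⟨h1, p, hp⟩ := hx
    refine ⟨h1.smul c, C (c : ℂ) * p, ?_⟩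
    rw [map_mul, aeval_C, ← hp, ← quo_smul one_ne_zero h1 hD]
    rfl
where pow_ne_zero_fun (n : ℕ) : dl ^ n ≠ 0 :=
  fun h => pow_ne_zero n (dl_ne UpperHalfPlane.I) (congrFun h _)

theorem dl_pow_ne_zero (n : ℕ) : dl ^ n ≠ 0 :=
  fun h => pow_ne_zero n (dl_ne UpperHalfPlane.I) (congrFun h _)

theorem weight_nonneg {k : ℤ} {G : ℍ → ℂ} (hG : IsF 1 k G) (hG0 : G ≠ 0) : 0 ≤ k := by
  by_contra h
  exact hG0 (ModularFormClass.levelOne_neg_weight_eq_zero (not_le.mp h) hG.toSL)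

theorem pow_ne_zero_hol {G : ℍ → ℂ} (hG : MDiff G) (hG0 : G ≠ 0) (n : ℕ) : G ^ n ≠ 0 := by
  intro h
  have h1 := mer_pow hG n
  rw [h, mer_zero] at h1
  exact pow_ne_zero n (mer_ne_zero hG hG0) h1.symm

/-- every modular function is `(H / Δ^m) / p(j)`, `H` a form of its level -/
theorem exists_quo_dl {M : ℕ} (hM : M ≠ 0) {x : FF} (hx : x ∈ F (Gamma M)) :
    ∃ (m : ℕ) (H : ℍ → ℂ) (p : ℂ[X]), IsF M ((m : ℤ) * 12) H ∧ p ≠ 0 ∧
      x = quo H (dl ^ m) / aeval jj p := by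
  obtain ⟨k, A, B, hA, hB, hB0, rfl⟩ := exists_quo_level hx
  obtain ⟨m, rfl⟩ := Int.eq_ofNat_of_zero_le (weight_nonneg hB hB0)
  have hB' : IsF M m B := hB.mono (one_dvd _)
  have h1 : IsF M ((m : ℤ) * 12) (A * B ^ 11) := (hA.mul (hB'.pow 11)).cast (by push_cast; ring)
  have h2 : IsF 1 ((m : ℤ) * 12) (B ^ 12) := (hB.pow 12).cast (by push_cast; ring)
  have h2' : IsF M ((m : ℤ) * 12) (B ^ 12) := h2.mono (one_dvd _)
  obtain ⟨p, hp⟩ := quo_dl_pow h2
  have hD : IsF M ((m : ℤ) * 12) (dl ^ m) := (isF_dl.pow m).mono (one_dvd _)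
  refine ⟨m, A * B ^ 11, p, h1, ?_, ?_⟩
  · rintro rfl
    rw [map_zero, quo_eq_zero hM h2' hD (dl_pow_ne_zero m)] at hp
    exact pow_ne_zero_hol hB.holo hB0 12 hp
  · rw [← hp, quo_div hM h1 h2' hD (dl_pow_ne_zero m),
      quo_eq_iff hM hA hB' hB0 hM h1 h2' (pow_ne_zero_hol hB.holo hB0 12)]
    ring

theorem mem_range_of_fixed {x : FF} (hx : ∀ γ : SL(2, ℤ), γ • x = x) :
    x ∈ Set.range (algebraMap (RatFunc ℂ) FF) := by
  obtain ⟨m, H, p, hH, hp, rfl⟩ := exists_quo_dl one_ne_zero (x := x) fun γ _ => hx γ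
  obtain ⟨q, hq⟩ := quo_dl_pow hH
  exact ⟨algebraMap ℂ[X] _ q / algebraMap ℂ[X] _ p, by
    rw [map_div₀, algebraMap_poly, algebraMap_poly, hq]⟩


/-! ### Galois theory -/

theorem smul_mem_F {Γ : Subgroup SL(2, ℤ)} {γ : SL(2, ℤ)} (h : ∀ δ ∈ Γ, γ⁻¹ * δ * γ ∈ Γ) {x : FF}
    (hx : x ∈ F Γ) : γ • x ∈ F Γ := fun δ hδ => by
  have : δ * γ = γ * (γ⁻¹ * δ * γ) := by group
  rw [← mul_smul, this, mul_smul, hx _ (h δ hδ)]

instance (N : Subgroup SL(2, ℤ)) [hN : N.Normal] : MulSemiringAction SL(2, ℤ) (F N) where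
  smul γ x := ⟨γ • (x : FF), smul_mem_F (fun δ hδ => hN.conj_mem' δ hδ γ) x.2⟩
  one_smul x := Subtype.ext (one_smul _ (x : FF))
  mul_smul g h x := Subtype.ext (mul_smul g h (x : FF))
  smul_zero g := Subtype.ext (smul_zero g)
  smul_add g a b := Subtype.ext (smul_add g (a : FF) (b : FF))
  smul_one g := Subtype.ext (smul_one g)
  smul_mul g a b := Subtype.ext (smul_mul' g (a : FF) (b : FF))


instance (N : Subgroup SL(2, ℤ)) [N.Normal] : SMulCommClass SL(2, ℤ) (RatFunc ℂ) (F N) :=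
  ⟨fun g c x => Subtype.ext (smul_comm g c (x : FF))⟩

/-- `SL(2,ℤ) → Gal(F N / ℂ(j))` -/
def act (N : Subgroup SL(2, ℤ)) [N.Normal] : SL(2, ℤ) →* (F N ≃ₐ[RatFunc ℂ] F N) :=
  MulSemiringAction.toAlgAut SL(2, ℤ) (RatFunc ℂ) (F N)

theorem coe_act (N : Subgroup SL(2, ℤ)) [N.Normal] (γ : SL(2, ℤ)) (x : F N) :
    ((act N γ x : F N) : FF) = γ • (x : FF) := rfl

theorem act_eq_iff (N : Subgroup SL(2, ℤ)) [N.Normal] (γ δ : SL(2, ℤ)) :
    act N γ = act N δ ↔ ∀ x ∈ F N, γ • x = δ • x := by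
  constructor
  · intro h x hx
    have h1 : ((act N γ ⟨x, hx⟩ : F N) : FF) = ((act N δ ⟨x, hx⟩ : F N) : FF) := by rw [h]
    rw [coe_act, coe_act] at h1
    exact h1
  · intro h
    refine AlgEquiv.ext fun x => Subtype.ext ?_
    rw [coe_act, coe_act]
    exact h x x.2

theorem finite_range_of_ker {G H : Type*} [Group G] [Group H] (φ : G →* H) (N : Subgroup G)
    [N.FiniteIndex] (h : N ≤ φ.ker) : Finite φ.range := by
  haveI : φ.ker.FiniteIndex := Subgroup.finiteIndex_of_le h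
  exact Finite.of_equiv _ (QuotientGroup.quotientKerEquivRange φ).toEquiv

theorem galois_act (N : Subgroup SL(2, ℤ)) [N.Normal] [N.FiniteIndex] :
    FiniteDimensional (RatFunc ℂ) (F N) ∧ IsGalois (RatFunc ℂ) (F N) ∧
      Function.Surjective (act N) := by
  refine galois_of_hom (act N) (finite_range_of_ker _ N fun γ hγ => ?_) fun x hx => ?_
  · rw [MonoidHom.mem_ker]
    ext x
    exact congrArg Subtype.val (x.2 γ hγ)
  · obtain ⟨r, hr⟩ := mem_range_of_fixed (x := (x : FF)) fun γ => congrArg Subtype.val (hx γ)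
    exact ⟨r, Subtype.ext hr⟩

instance (N : Subgroup SL(2, ℤ)) [N.Normal] [N.FiniteIndex] : IsGalois (RatFunc ℂ) (F N) :=
  (galois_act N).2.1

theorem act_surjective (N : Subgroup SL(2, ℤ)) [N.Normal] [N.FiniteIndex] :
    Function.Surjective (act N) := (galois_act N).2.2

/-- `F Γ` is a function field for every subgroup of finite index -/
instance finite_F (Γ : Subgroup SL(2, ℤ)) [Γ.FiniteIndex] : FiniteDimensional (RatFunc ℂ) (F Γ) := by
  haveI := (galois_act Γ.normalCore).1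
  exact FiniteDimensional.of_injective
    (IntermediateField.inclusion (F_anti Γ.normalCore_le)).toLinearMap
    (IntermediateField.inclusion_injective (F_anti Γ.normalCore_le))

instance (Γ : Subgroup SL(2, ℤ)) [Γ.FiniteIndex] : Algebra.IsSeparable (RatFunc ℂ) (F Γ) :=
  inferInstance

/-- `±Γ` -/
def pm (Γ : Subgroup SL(2, ℤ)) : Subgroup SL(2, ℤ) where
  carrier := {γ | γ ∈ Γ ∨ -γ ∈ Γ}
  mul_mem' := by
    rintro a b (ha | ha) (hb | hb)
    · exact Or.inl (Γ.mul_mem ha hb)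
    · exact Or.inr (by simpa using Γ.mul_mem ha hb)
    · exact Or.inr (by simpa using Γ.mul_mem ha hb)
    · exact Or.inl (by simpa using Γ.mul_mem ha hb)
  one_mem' := Or.inl Γ.one_mem
  inv_mem' := by
    rintro a (ha | ha)
    · exact Or.inl (Γ.inv_mem ha)
    · exact Or.inr (by simpa [inv_neg] using Γ.inv_mem ha)

theorem mem_pm {Γ : Subgroup SL(2, ℤ)} {γ : SL(2, ℤ)} : γ ∈ pm Γ ↔ γ ∈ Γ ∨ -γ ∈ Γ := Iff.rfl

theorem le_pm (Γ : Subgroup SL(2, ℤ)) : Γ ≤ pm Γ := fun _ h => Or.inl h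

theorem pm_mono {Γ Γ' : Subgroup SL(2, ℤ)} (h : Γ ≤ Γ') : pm Γ ≤ pm Γ' :=
  fun _ hγ => hγ.imp (fun h1 => h h1) (fun h1 => h h1)


theorem neg_smul_FF (γ : SL(2, ℤ)) (x : FF) : (-γ) • x = γ • x := by
  rw [← neg_one_mul, mul_smul, neg_one_smul_FF]

theorem smul_eq_of_mem_pm {Γ : Subgroup SL(2, ℤ)} {γ : SL(2, ℤ)} (hγ : γ ∈ pm Γ) {x : FF}
    (hx : x ∈ F Γ) : γ • x = x := by
  rcases hγ with h | h
  · exact hx γ h
  · rw [← neg_smul_FF, hx _ h]

theorem F_pm (Γ : Subgroup SL(2, ℤ)) : F (pm Γ) = F Γ :=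
  le_antisymm (F_anti (le_pm Γ)) fun _ hx _ hγ => smul_eq_of_mem_pm hγ hx

theorem e6_ne_zero : e6 ≠ 0 := by
  intro h
  have h1 := coeff_zero_e6
  rw [h, qe_zero] at h1
  simp at h1

theorem neg_slash_three (A : ℍ → ℂ) (γ : SL(2, ℤ)) : A ∣[(3 : ℤ)] (-γ) = -(A ∣[(3 : ℤ)] γ) := by
  funext τ
  rw [Pi.neg_apply, SL_slash_apply, SL_slash_apply, ModularGroup.SL_neg_smul]
  have : denom ((-γ : SL(2, ℤ)) : GL (Fin 2) ℝ) τ = -denom (γ : GL (Fin 2) ℝ) τ := by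
    rw [Wp.denom_eq', Wp.denom_eq']
    simp
    ring
  rw [this, show (-3 : ℤ) = -(3 : ℕ) from rfl, zpow_neg, zpow_neg, zpow_natCast, zpow_natCast,
    Odd.neg_pow (by decide), inv_neg]
  ring

theorem Q_ne_zero {M : ℕ} (hM : 3 ≤ M) : Wp.Q M ![1, 0] ≠ 0 ∧ Wp.Q M ![0, 1] ≠ 0 := by
  have hneg : (-1 : SL(2, ℤ)) ∉ Gamma M := by
    rw [Gamma_mem]
    rintro ⟨h, -⟩
    have h1 : ((-1 : ℤ) : ZMod M) = ((1 : ℤ) : ZMod M) := by simpa using h
    rw [ZMod.intCast_eq_intCast_iff_dvd_sub] at h1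
    have := Int.le_of_dvd (by norm_num) h1
    omega
  have hS : Wp.Q M ![1, 0] ∣[(3 : ℤ)] ModularGroup.S = -Wp.Q M ![0, 1] := by
    rw [Wp.Q_slash, ← Wp.Q_neg]
    congr 1
    ext i
    fin_cases i <;> simp [ModularGroup.S, Matrix.vecMul, dotProduct, Fin.sum_univ_two]
  have key : ¬ (Wp.Q M ![1, 0] = 0 ∧ Wp.Q M ![0, 1] = 0) := fun ⟨h0, h1⟩ =>
    hneg (Wp.mem_Gamma_of_Q_fixed hM (by rw [h0, SlashAction.zero_slash])
      (by rw [h1, SlashAction.zero_slash]))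
  constructor
  · intro h
    refine key ⟨h, ?_⟩
    rw [h, SlashAction.zero_slash] at hS
    exact neg_eq_zero.mp hS.symm
  · intro h
    refine key ⟨?_, h⟩
    by_contra h0
    rw [h, neg_zero] at hS
    exact slash_ne_zero h0 3 _ hS

theorem mem_pm_Gamma {M : ℕ} (hM : 3 ≤ M) {γ : SL(2, ℤ)} (h : ∀ x ∈ F (Gamma M), γ • x = x) :
    γ ∈ pm (Gamma M) := by
  have hM0 : M ≠ 0 := by omega
  set A := Wp.Q M ![1, 0] with hA
  set B := Wp.Q M ![0, 1] with hB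
  have fA : IsF M 3 A := Wp.isF_Q hM0 _
  have fB : IsF M 3 B := Wp.isF_Q hM0 _
  have h6 : IsF M (3 + 3) e6 := isF_e6.mono (one_dvd _)
  have key : ∀ U V : ℍ → ℂ, IsF M 3 U → IsF M 3 V →
      U ∣[(3 : ℤ)] γ * V ∣[(3 : ℤ)] γ = U * V := fun U V hU hV => by
    rw [← mul_slash_SL2]
    exact slash_eq_of_smul hM0 (hU.mul hV) isF_e6 e6_ne_zero (h _ (quo_mem_F hM0 (hU.mul hV) h6))
  have h1 := key A A fA fA
  have h2 := key A B fA fB
  have h3 : (A ∣[(3 : ℤ)] γ - A) * (A ∣[(3 : ℤ)] γ + A) = 0 := by linear_combination h1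
  rcases (UpperHalfPlane.mul_eq_zero_iff ((fA.slash_SL γ).sub fA).holo
    ((fA.slash_SL γ).add fA).holo).mp h3 with h4 | h4
  · rw [sub_eq_zero] at h4
    rw [h4] at h2
    have h5 : (B ∣[(3 : ℤ)] γ - B) * A = 0 := by linear_combination h2
    exact Or.inl (Wp.mem_Gamma_of_Q_fixed hM h4 (sub_eq_zero.mp
      (eq_zero_of_mul ((fB.slash_SL γ).sub fB).holo fA.holo (Q_ne_zero hM).1 h5)))
  · rw [add_eq_zero_iff_eq_neg] at h4
    rw [h4] at h2
    have h5 : (B ∣[(3 : ℤ)] γ + B) * A = 0 := by linear_combination -h2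
    have h7 := add_eq_zero_iff_eq_neg.mp
      (eq_zero_of_mul ((fB.slash_SL γ).add fB).holo fA.holo (Q_ne_zero hM).1 h5)
    exact Or.inr (Wp.mem_Gamma_of_Q_fixed hM (by rw [neg_slash_three, h4, neg_neg])
      (by rw [neg_slash_three, h7, neg_neg]))

theorem exists_three_le {Γ : Subgroup SL(2, ℤ)} (hΓ : IsCongruenceSubgroup Γ) :
    ∃ M : ℕ, 3 ≤ M ∧ Gamma M ≤ Γ := by
  obtain ⟨N, hN, h⟩ := hΓ
  refine ⟨N * 3, by omega, le_trans (fun γ hγ => ?_) h⟩
  rw [Gamma_mem] at hγ ⊢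
  obtain ⟨h1, h2, h3, h4⟩ := hγ
  have key : ∀ a b : ℤ, (a : ZMod (N * 3)) = (b : ZMod (N * 3)) → (a : ZMod N) = (b : ZMod N) := by
    intro a b hab
    rw [ZMod.intCast_eq_intCast_iff_dvd_sub] at hab ⊢
    exact (Int.natCast_dvd_natCast.mpr (Dvd.intro _ rfl)).trans hab
  exact ⟨by simpa using key _ 1 (by simpa using h1), by simpa using key _ 0 (by simpa using h2),
    by simpa using key _ 0 (by simpa using h3), by simpa using key _ 1 (by simpa using h4)⟩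

theorem mem_fixedField_map {N Γ : Subgroup SL(2, ℤ)} [N.Normal] (x : F N) :
    x ∈ IntermediateField.fixedField (Γ.map (act N)) ↔ (x : FF) ∈ F Γ := by
  rw [IntermediateField.mem_fixedField_iff]
  constructor
  · intro h γ hγ
    exact congrArg Subtype.val (h _ (Subgroup.mem_map_of_mem _ hγ))
  · rintro h _ ⟨γ, hγ, rfl⟩
    exact Subtype.ext (h γ hγ)

/-- **the elements fixing `F Γ` are `±Γ`** -/
theorem fix_iff {Γ : Subgroup SL(2, ℤ)} (hΓ : IsCongruenceSubgroup Γ) (γ : SL(2, ℤ)) :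
    (∀ x ∈ F Γ, γ • x = x) ↔ γ ∈ pm Γ := by
  refine ⟨fun h => ?_, fun h x hx => smul_eq_of_mem_pm h hx⟩
  obtain ⟨M, hM, hle⟩ := exists_three_le hΓ
  haveI : NeZero M := ⟨by omega⟩
  have h1 : act (Gamma M) γ ∈ Γ.map (act (Gamma M)) := by
    rw [← IntermediateField.fixingSubgroup_fixedField (Γ.map (act (Gamma M))),
      IntermediateField.mem_fixingSubgroup_iff]
    intro x hx
    exact Subtype.ext (h _ ((mem_fixedField_map x).mp hx))
  obtain ⟨δ, hδ, h2⟩ := h1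
  have h3 : δ⁻¹ * γ ∈ pm (Gamma M) := mem_pm_Gamma hM fun x hx => by
    have h4 : δ • x = γ • x := (act_eq_iff _ δ γ).mp h2 x hx
    rw [mul_smul, ← h4, inv_smul_smul]
  have h5 := (pm Γ).mul_mem (le_pm Γ hδ) (pm_mono hle h3)
  rwa [mul_inv_cancel_left] at h5

theorem ker_act {N : Subgroup SL(2, ℤ)} [N.Normal] (hN : IsCongruenceSubgroup N) :
    (act N).ker = pm N := by
  ext γ
  rw [MonoidHom.mem_ker, ← fix_iff hN, ← map_one (act N), act_eq_iff]
  simp only [one_smul]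

/-- **degree formula** -/
theorem finrank_F {Γ : Subgroup SL(2, ℤ)} (hΓ : IsCongruenceSubgroup Γ) :
    Module.finrank (RatFunc ℂ) (F Γ) = (pm Γ).index := by
  obtain ⟨M, hM, hle⟩ := hΓ
  haveI : NeZero M := ⟨hM⟩
  let E := IntermediateField.fixedField ((pm Γ).map (act (Gamma M)))
  have e : E ≃ₐ[RatFunc ℂ] F Γ := by
    refine (IntermediateField.liftAlgEquiv E).trans (IntermediateField.equivOfEq ?_)
    ext x
    constructor
    · rintro ⟨y, hy, rfl⟩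
      rw [← F_pm]
      exact (mem_fixedField_map y).mp hy
    · intro hx
      refine ⟨⟨x, F_anti hle hx⟩, (mem_fixedField_map _).mpr ?_, rfl⟩
      rw [F_pm]; exact hx
  rw [← e.toLinearEquiv.finrank_eq]
  have h1 := Module.finrank_mul_finrank (RatFunc ℂ) E (F (Gamma M))
  rw [IntermediateField.finrank_fixedField_eq_card,
    ← IsGalois.card_aut_eq_finrank (RatFunc ℂ) (F (Gamma M)),
    ← Subgroup.index_mul_card ((pm Γ).map (act (Gamma M)))] at h1
  rw [Nat.eq_of_mul_eq_mul_right Nat.card_pos h1,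
    Subgroup.index_map_eq _ (act_surjective _)]
  rw [ker_act (Gamma_is_cong_sub M)]
  exact pm_mono hle

/-! ### relative version -/

instance algF (Γ Γ' : Subgroup SL(2, ℤ)) [h : Fact (Γ' ≤ Γ)] : Algebra (F Γ) (F Γ') :=
  (IntermediateField.inclusion (F_anti h.out)).toRingHom.toAlgebra

instance (Γ Γ' : Subgroup SL(2, ℤ)) [Fact (Γ' ≤ Γ)] : Module (F Γ) (F Γ') := Algebra.toModule
instance (Γ Γ' : Subgroup SL(2, ℤ)) [Fact (Γ' ≤ Γ)] : SMul (F Γ) (F Γ') := Algebra.toSMul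

theorem coe_algebraMap_FF (Γ Γ' : Subgroup SL(2, ℤ)) [Fact (Γ' ≤ Γ)] (x : F Γ) :
    ((algebraMap (F Γ) (F Γ') x : F Γ') : FF) = (x : FF) := rfl

instance (Γ Γ' : Subgroup SL(2, ℤ)) [Fact (Γ' ≤ Γ)] : IsScalarTower (RatFunc ℂ) (F Γ) (F Γ') :=
  IsScalarTower.of_algebraMap_eq fun _ => rfl

instance (Γ Γ' : Subgroup SL(2, ℤ)) [Fact (Γ' ≤ Γ)] : IsScalarTower ℂ (F Γ) (F Γ') :=
  IsScalarTower.of_algebraMap_eq fun _ => rfl

instance (Γ Γ' : Subgroup SL(2, ℤ)) [Fact (Γ' ≤ Γ)] [Γ'.FiniteIndex] :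
    FiniteDimensional (F Γ) (F Γ') :=
  Module.Finite.of_restrictScalars_finite (RatFunc ℂ) (F Γ) (F Γ')






end Crest.Agent.T15.Mf
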