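import Mathlib
import Crest.Agent.T15.IgL_61
import Crest.Agent.T15.MfC_79
import Crest.Agent.T15.Lv_10
import Crest.Agent.T15.IgE_61
import Crest.Agent.T15.Gw_84
import Crest.Agent.T15.Disc_71

-- ▼ part T15/IgM_61
section

/-!
# Row 15, block T (helper61), Igusa part M: `F (Γ₁(4)) = ℂ(t)`
-/

set_option autoImplicit false
set_option linter.unusedSectionVars false

noncomputable section

namespace Crest.Agent.T15.Ig

open UpperHalfPlane ModularForm CongruenceSubgroup Polynomial WithZero Module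
open scoped MatrixGroups NNReal IntermediateField
open Crest.Agent.T15.Mf
open Crest.Agent.R013.RR7_948 Crest.Agent.R013.RR8_948 Crest.Agent.R013.RR9_948
open Crest.Agent.R013.RR11_948 Crest.Agent.R013.RR12_948 Crest.Agent.R013.RR20_948
open Crest.Agent.R013.GR2_921 (exists_const)

section general

variable {k : Type*} [Field k] [IsAlgClosed k] {K : Type*} [Field K] [Algebra k K]
  [Algebra (RatFunc k) K] [IsScalarTower k (RatFunc k) K] [FiniteDimensional (RatFunc k) K]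
  [Algebra.IsSeparable (RatFunc k) K] {t : K}

theorem RelJ.finrank_eq (h2 : (2 : k) ≠ 0) (h : RelJ (xK k K) t) :
    (finrank (RatFunc k) K : ℤ) = 6 * degD (poles (k := k) t) := by
  have h0 := left_ne_zero_of_mul (h.mul_ne h2)
  have h1 : 1 - t ≠ 0 := fun e => right_ne_zero_of_mul (h.mul_ne h2) (by linear_combination -e)
  have e : poles (k := k) (xK k K) = poles t + poles t + poles t + poles t + poles t + poles t +
      divf t + divf (1 - t) := by
    ext P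
    have := h.ord h2 P
    simp only [Finsupp.add_apply, poles_apply]
    omega
  have e' := congrArg degD e
  simp only [degD_add, degD_divf h0, degD_divf h1, degD_poles_xK] at e'
  linarith

theorem RelJ.six_le (h2 : (2 : k) ≠ 0) (h : RelJ (xK k K) t) : 6 ≤ finrank (RatFunc k) K := by
  have h1 := h.finrank_eq h2
  have h3 : 0 < finrank (RatFunc k) K := Module.finrank_pos
  omega

/-- if a rational function of `t` is a uniformiser at a place where `t` is finite, so is `t - c` -/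
theorem unif_of_rat (P : Pl k K) (ht : P.v t ≤ 1) {p q : k[X]}
    (h : P.v (aeval t p / aeval t q) = exp (-1)) :
    ∃ c : k, P.v (t - algebraMap k K c) = exp (-1) := by
  obtain ⟨c, hc⟩ := exists_const P ht
  refine ⟨c, ?_⟩
  have hle : ∀ a : k, P.v (algebraMap k K a) ≤ 1 := fun a => by
    by_cases ha : a = 0
    · simp [ha]
    · exact (P.const a ha).le
  have h1 : ∀ q : k[X], P.v (aeval t q) ≤ 1 := fun q => by
    rw [aeval_eq_sum_range]
    refine P.v.map_sum_le fun i _ => ?_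
    rw [Algebra.smul_def, map_mul, map_pow]
    exact mul_le_one' (hle _) (pow_le_one' ht i)
  have key : ∀ p : k[X], p ≠ 0 → ∃ n : ℕ, P.v (aeval t p) = P.v (t - algebraMap k K c) ^ n := by
    intro p hp
    obtain ⟨s, hs, hs'⟩ := exists_eq_pow_rootMultiplicity_mul_and_not_dvd p hp c
    refine ⟨p.rootMultiplicity c, ?_⟩
    have hv : P.v (aeval t s) = 1 := by
      have hn : s.eval c ≠ 0 := fun e => hs' (dvd_iff_isRoot.2 e)
      obtain ⟨u, hu⟩ := X_sub_C_dvd_sub_C_eval (p := s) (a := c)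
      have := congrArg (aeval t) hu
      rw [map_sub, map_mul, map_sub, aeval_C, aeval_C, aeval_X] at this
      rw [← P.const _ hn]
      refine Valuation.map_eq_of_sub_lt _ ?_
      rw [this, map_mul, P.const _ hn]
      exact mul_lt_one_of_lt_of_le hc (h1 u)
    conv_lhs => rw [hs]
    rw [map_mul, map_mul, hv, mul_one, map_pow, map_pow, map_sub, aeval_X, aeval_C]
  have hp : p ≠ 0 := by rintro rfl; simp at h; exact exp_ne_zero h.symm
  have hq : q ≠ 0 := by rintro rfl; simp at h; exact exp_ne_zero h.symm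
  obtain ⟨m, hm⟩ := key p hp
  obtain ⟨n, hn⟩ := key q hq
  rw [map_div₀, hm, hn] at h
  by_cases h0 : t - algebraMap k K c = 0
  · exfalso
    rw [h0, map_zero] at h
    rcases Nat.eq_zero_or_pos m with rfl | hm0
    · rcases Nat.eq_zero_or_pos n with rfl | hn0
      · rw [pow_zero, div_one, ← exp_zero, exp_inj] at h
        omega
      · rw [zero_pow hn0.ne', div_zero] at h
        exact exp_ne_zero h.symm
    · rw [zero_pow hm0.ne', zero_div] at h
      exact exp_ne_zero h.symm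
  rw [v_eq h0, ← exp_zero, exp_lt_exp] at hc
  rw [v_eq h0, ← exp_nsmul, ← exp_nsmul, ← exp_sub, exp_inj, nsmul_eq_mul, nsmul_eq_mul] at h
  rw [v_eq h0, exp_inj, neg_inj]
  exact Int.eq_one_of_mul_eq_one_right (b := (m : ℤ) - n) (by omega) (by linarith)

end general

theorem mem_pm_G4 {γ : SL(2, ℤ)} (h : ((γ 1 0 : ℤ) : ZMod 4) = 0) : γ ∈ pm (Gamma1 4) := by
  have hd := γ.det_coe
  rw [Matrix.det_fin_two] at hd
  have h1 := congrArg (Int.cast : ℤ → ZMod 4) hd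
  push_cast at h1
  rw [h, mul_zero, sub_zero] at h1
  have key : ∀ a d : ZMod 4, a * d = 1 → (a = 1 ∧ d = 1) ∨ (-a = 1 ∧ -d = 1) := by decide
  rw [mem_pm, Gamma1_mem, Gamma1_mem]
  rcases key _ _ h1 with ⟨a, b⟩ | ⟨a, b⟩
  · exact Or.inl ⟨a, b, h⟩
  · exact Or.inr ⟨by simpa using a, by simpa using b, by simpa using h⟩

theorem index_G4 : (pm (Gamma1 4)).index ≤ 6 := by
  let r : Fin 6 → SL(2, ℤ) :=
    ![⟨!![1, 0; 0, 1], by simp⟩, ⟨!![1, 0; 1, 1], by simp⟩, ⟨!![1, 0; 2, 1], by simp⟩,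
      ⟨!![1, 0; 3, 1], by simp⟩, ⟨!![0, -1; 1, 0], by simp⟩, ⟨!![2, -1; 1, 0], by simp⟩]
  have hs : Function.Surjective fun i => (r i : SL(2, ℤ) ⧸ pm (Gamma1 4)) := by
    intro x
    obtain ⟨γ, rfl⟩ := QuotientGroup.mk_surjective x
    have hd := γ.det_coe
    rw [Matrix.det_fin_two] at hd
    have h1 := congrArg (Int.cast : ℤ → ZMod 4) hd
    push_cast at h1
    have key : ∀ a b c d : ZMod 4, a * d - b * c = 1 → c = 0 ∨ -a + c = 0 ∨ -(2 * a) + c = 0 ∨
        -(3 * a) + c = 0 ∨ a = 0 ∨ -a + 2 * c = 0 := by decide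
    have h2 : ∀ i, -((r i 1 0 : ℤ) * (γ 0 0 : ℤ) : ZMod 4) + (r i 0 0 : ℤ) * (γ 1 0 : ℤ) = 0 →
        ∃ i, (r i : SL(2, ℤ) ⧸ pm (Gamma1 4)) = γ := fun i hi =>
      ⟨i, QuotientGroup.eq.2 (mem_pm_G4 (by
        rw [← hi, Lv.mul_apply, (Lv.inv_apply (r i)).2.2.1, (Lv.inv_apply (r i)).2.2.2]
        push_cast; ring))⟩
    rcases key _ _ _ _ h1 with h | h | h | h | h | h
    · exact h2 0 (by simpa [r] using h)
    · exact h2 1 (by simpa [r] using h)
    · exact h2 2 (by simpa [r] using h)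
    · exact h2 3 (by simpa [r] using h)
    · exact h2 4 (by simpa [r] using h)
    · exact h2 5 (by simpa [r] using h)
  simpa [Subgroup.index] using Nat.card_le_card_of_surjective _ hs

theorem jF_eq : jF = jj := rfl

theorem tt_mem {Γ : Subgroup SL(2, ℤ)} (h : Γ ≤ Gamma1 4) : tt ∈ F Γ := fun _ hγ => tt_inv (h hγ)

theorem coe_xK (K : IntermediateField (RatFunc ℂ) FF) : ((xK ℂ K : K) : FF) = jF := algebraMap_X

theorem relJ_of_mem {K : IntermediateField (RatFunc ℂ) FF} (h : tt ∈ K) :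
    RelJ (xK ℂ K) (⟨tt, h⟩ : K) := K.subtype.injective (by
  simp only [map_mul, map_sub, map_add, map_pow, map_one, map_ofNat]
  have := relJ_tt
  rw [← coe_xK K] at this
  exact this)

theorem adjoin_tt : (RatFunc ℂ)⟮tt⟯ = F (Gamma1 4) := by
  have hle : (RatFunc ℂ)⟮tt⟯ ≤ F (Gamma1 4) :=
    IntermediateField.adjoin_simple_le_iff.2 (tt_mem le_rfl)
  have : FiniteDimensional (RatFunc ℂ) (RatFunc ℂ)⟮tt⟯ := FiniteDimensional.of_injective
    (IntermediateField.inclusion hle).toLinearMap (IntermediateField.inclusion_injective hle)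
  refine IntermediateField.eq_of_le_of_finrank_le hle ?_
  rw [finrank_F (Gamma1_is_congruence 4)]
  exact index_G4.trans ((relJ_of_mem (IntermediateField.mem_adjoin_simple_self _ tt)).six_le
    two_ne_zero)

/-- **`t` is a Hauptmodul** -/
theorem mem_adjoin_tt {x : FF} (hx : x ∈ F (Gamma1 4)) : x ∈ ℂ⟮tt⟯ := by
  rw [← adjoin_tt] at hx
  have ht := IntermediateField.mem_adjoin_simple_self ℂ tt
  have hj : jj ∈ ℂ⟮tt⟯ := by
    have h0 : tt * (tt - 1) ≠ 0 := fun e =>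
      (relJ_of_mem (tt_mem le_rfl)).mul_ne (k := ℂ) two_ne_zero (Subtype.ext e)
    rw [← jF_eq, eq_div_of_mul_eq h0 relJ_tt]
    refine div_mem (mul_mem (ofNat_mem _ 16) (pow_mem (add_mem (sub_mem (mul_mem (ofNat_mem _ 16)
      (pow_mem ht 2)) (mul_mem (ofNat_mem _ 16) ht)) (one_mem _)) 3))
      (mul_mem ht (sub_mem ht (one_mem _)))
  have hp : ∀ p : ℂ[X], aeval jj p ∈ ℂ⟮tt⟯ := fun p => by
    rw [aeval_eq_sum_range]
    exact sum_mem fun i _ => IntermediateField.smul_mem _ (pow_mem hj i)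
  induction hx using IntermediateField.adjoin_induction with
  | mem x hx => rw [Set.mem_singleton_iff.1 hx]; exact ht
  | algebraMap r => rw [algebraMap_RatFunc_eq]; exact div_mem (hp _) (hp _)
  | add x y _ _ hx hy => exact add_mem hx hy
  | inv x _ hx => exact inv_mem hx
  | mul x y _ _ hx hy => exact mul_mem hx hy

theorem exists_rat_tt {x : FF} (hx : x ∈ F (Gamma1 4)) :
    ∃ p q : ℂ[X], x = aeval tt p / aeval tt q :=
  (IntermediateField.mem_adjoin_simple_iff ℂ x).1 (mem_adjoin_tt hx)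

end Crest.Agent.T15.Ig
end
end

-- ▼ part T15/IgF_61

/-!
# Row 15, block T (helper61), Igusa part F: assembly from the cusp statement
-/

set_option autoImplicit false
set_option linter.unusedSectionVars false

noncomputable section

namespace Crest.Agent.T15.Ig

open UpperHalfPlane ModularForm CongruenceSubgroup Polynomial WithZero Module
open scoped MatrixGroups NNReal IntermediateField
open Crest.Agent.T15.Mf Crest.Agent.T15.Cg Crest.Agent.T15.Bet
open Crest.Agent.R013.RR7_948 Crest.Agent.R013.RR8_948 Crest.Agent.R013.RR9_948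
open Crest.Agent.R013.RR11_948 Crest.Agent.R013.RR12_948 Crest.Agent.R013.RR13_948
open Crest.Agent.R013.RR18_948 Crest.Agent.R013.RR19_948 Crest.Agent.R013.RR20_948
open Crest.Agent.R013.RR21_948 Crest.Agent.R013.RR22_948
open Crest.Agent.R013.GR3_921 Crest.Agent.R013.GR4_921
open Crest.Agent.R013.GR2_921 (exists_const)
open Crest.Agent.R013.RR28_948 (ratFunc_finite)

instance tower_F (Γ : Subgroup SL(2, ℤ)) : IsScalarTower ℂ (F Γ) FF :=
  IsScalarTower.of_algebraMap_eq fun _ => rfl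

/-- the valuation at a point of `ℍ` -/
def vZ (Γ : Subgroup SL(2, ℤ)) (z : ℍ) : Valuation (F Γ) ℤᵐ⁰ :=
  (vM z).comap ((algebraMap FF Mer).comp (algebraMap (F Γ) FF))

theorem vZ_apply (Γ : Subgroup SL(2, ℤ)) (z : ℍ) (x : F Γ) : vZ Γ z x = vM z ((x : FF) : Mer) := rfl

theorem le_exp_neg_one {x : ℤᵐ⁰} (h : x < 1) : x ≤ exp (-1) := by
  by_cases h0 : x = 0
  · simp [h0]
  · rw [← exp_log h0, ← exp_zero, exp_lt_exp] at h
    rw [← exp_log h0, exp_le_exp]
    omega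

/-- the inclusion of `F Γ` -/
def iF (Γ : Subgroup SL(2, ℤ)) : F Γ →ₐ[ℂ] FF := IsScalarTower.toAlgHom ℂ (F Γ) FF


theorem lvl_F (M : ℕ) [NeZero M] : Lvl M (iF (Gamma M)) where
  mem x := ⟨fun ⟨y, hy⟩ => hy ▸ y.2, fun h => ⟨⟨x, h⟩, rfl⟩⟩
  xj := coe_xK (F (Gamma M))
  gal g := by
    obtain ⟨γ, rfl⟩ := act_surjective (Gamma M) g
    exact ⟨γ, fun x => coe_act _ γ x⟩

/-- the places of `F (Γ(M))` where `j` is finite come from points of `ℍ` -/
theorem exists_point (M : ℕ) [NeZero M] (R : Pl ℂ (F (Gamma M)))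
    (hR : R.v (xK ℂ (F (Gamma M))) ≤ 1) :
    ∃ z : ℍ, R.v.IsEquiv (vZ (Gamma M) z) := by
  obtain ⟨c, hc⟩ := exists_const R hR
  obtain ⟨z, hz⟩ := exists_vM_jF c
  have h0 : xK ℂ (F (Gamma M)) - algebraMap ℂ _ c ≠ 0 := fun e =>
    transcendental_xK (k := ℂ) (K := F (Gamma M)) (by
      rw [sub_eq_zero.1 e]; exact isAlgebraic_algebraMap c)
  have hz' : (vZ (Gamma M) z)
      (xK ℂ (F (Gamma M)) - algebraMap ℂ _ c) < 1 := by
    rw [vZ_apply, AddSubgroupClass.coe_sub, coe_xK]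
    exact hz
  obtain ⟨Q, hQ⟩ := exists_place (k := ℂ) (vZ (Gamma M) z)
    (fun c hc => vM_const z hc) ⟨_, (Valuation.ne_zero_iff _).2 h0, hz'.ne⟩
  have e : ∀ S : Pl ℂ (F (Gamma M)), S.v (xK ℂ (F (Gamma M)) - algebraMap ℂ _ c) < 1 →
      (under (RatFunc ℂ) S).v (RatFunc.X - RatFunc.C c) < 1 := fun S hS => by
    rw [under_lt_one_iff, map_sub, ← RatFunc.algebraMap_eq_C, ← IsScalarTower.algebraMap_apply]
    exact hS
  obtain ⟨g, hg⟩ := exists_mapPl_eq (eq_of_lt_fin c (e Q (hQ.lt_one_iff_lt_one.2 hz')) (e R hc))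
  obtain ⟨γ, rfl⟩ := act_surjective (Gamma M) g⁻¹ |>.imp fun γ h => inv_eq_iff_eq_inv.1 h.symm
  refine ⟨rr (Mf.sq γ)⁻¹ • z, fun x y => ?_⟩
  have key : ∀ x : F (Gamma M), vZ (Gamma M) (rr (Mf.sq γ)⁻¹ • z) x =
      vZ (Gamma M) z (act (Gamma M) γ x) := fun x => by
    rw [vZ_apply, vZ_apply, ← vM_inv_smul, inv_inv, coe_act, sl_smul, Mf.coe_smul]
  rw [key, key, ← hg]
  exact hQ _ _

/-- **`F Γ / ℂ(t)` is unramified outside the cusps** -/
theorem hunr_F {Γ : Subgroup SL(2, ℤ)} {M : ℕ} [NeZero M] [Γ.FiniteIndex] (hle : Gamma M ≤ Γ)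
    (h4 : Γ ≤ Gamma1 4) (P : Pl ℂ (F Γ)) (hP : P.v (xK ℂ (F Γ)) ≤ 1) :
    ∃ c : ℂ, P.v ((⟨tt, tt_mem h4⟩ : F Γ) - algebraMap ℂ _ c) = exp (-1) := by
  have : Fact (Gamma M ≤ Γ) := ⟨hle⟩
  obtain ⟨R, hR⟩ := above_nonempty (L := F (Gamma M)) P
  rw [mem_above] at hR
  obtain ⟨z, hz⟩ := exists_point M R (by
    rw [← hR, under_le_one_iff] at hP
    exact hP)
  obtain ⟨x, hx, hxz⟩ := exists_unif z
  obtain ⟨p, q, hpq⟩ := exists_rat_tt (x := x) hx
  let x' : F Γ := ⟨x, fun γ hγ => hx γ (h4 hγ)⟩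
  have h1 : P.v x' = exp (-1) := by
    obtain ⟨s, hs0, hs⟩ := exists_v_eq P (-1)
    have a1 : R.v (algebraMap _ _ s) < 1 := by
      rw [← under_lt_one_iff, hR, hs, ← exp_zero, exp_lt_exp]; norm_num
    have a2 := hz.lt_one_iff_lt_one.1 a1
    have a3 : R.v (algebraMap _ _ s) ≤ R.v (algebraMap _ _ x') := by
      rw [hz]
      change _ ≤ vM z (x : Mer)
      rw [hxz]
      exact le_exp_neg_one a2
    have a4 : R.v (algebraMap _ _ x') < 1 := by
      rw [hz.lt_one_iff_lt_one]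
      change vM z (x : Mer) < 1
      rw [hxz, ← exp_zero, exp_lt_exp]; norm_num
    rw [← under_lt_one_iff, hR] at a4
    have a5 : P.v s ≤ P.v x' := by
      rw [← hR]; exact ((under_isEquiv R) _ _).2 a3
    exact le_antisymm (le_exp_neg_one a4) (hs ▸ a5)
  have ht : P.v (⟨tt, tt_mem h4⟩ : F Γ) ≤ 1 := by
    rcases (relJ_of_mem (tt_mem h4)).cases P.v (v_sixteen two_ne_zero P) with h | h | h | h
    · exact h.1.le
    · exact h.1.le
    · exact absurd (h.2.2 ▸ hP) (not_le.2 (one_lt_pow' h.1 (by norm_num)))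
    · exact h.1.le
  refine unif_of_rat P ht (p := p) (q := q) ?_
  rw [← h1]
  congr 1
  apply (iF Γ : F Γ →+* FF).injective
  change iF Γ _ = x
  rw [map_div₀, ← aeval_algHom_apply, ← aeval_algHom_apply, hpq]
  rfl

/-- the statement about the cusp `∞` -/
def CuspAt (M : ℕ) [NeZero M] {v : Valuation ℂ ℝ≥0} {k κ : Type*} [Field k] [IsAlgClosed k] [Field κ]
    [Algebra k κ] [Algebra (RatFunc k) κ] {r : ℂ → k} {ρ : F (Gamma M) → κ}
    (hT : Red v r (gwK v (F (Gamma M))) ρ)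
    (hinv : ∀ (g : F (Gamma M) ≃ₐ[RatFunc ℂ] F (Gamma M)) f,
      gwK v (F (Gamma M)) (g f) = gwK v (F (Gamma M)) f) : Prop :=
  ∃ (Q : Pl ℂ (F (Gamma M))) (Q' : Pl k κ), 1 < Q.v (xK ℂ (F (Gamma M))) ∧ 1 < Q'.v (xK k κ) ∧
    ∀ g : F (Gamma M) ≃ₐ[RatFunc ℂ] F (Gamma M), mapPl (g.restrictScalars ℂ) Q = Q →
      mapPl (bar hT (g.restrictScalars ℂ) (hinv g)) Q' = Q'

universe u

/-- the cusp statement -/
def CuspStmt (k : Type u) [Field k] [IsAlgClosed k] : Prop :=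
  ∀ (M : ℕ) [NeZero M] (v : Valuation ℂ ℝ≥0) (r : ℂ → k) (κ : Type u) [Field κ] [Algebra k κ]
    [Algebra (RatFunc k) κ] [IsScalarTower k (RatFunc k) κ] [FiniteDimensional (RatFunc k) κ]
    [Algebra.IsSeparable (RatFunc k) κ] (ρ : F (Gamma M) → κ)
    (hT : Red v r (gwK v (F (Gamma M))) ρ) (_ : xK k κ = ρ (xK ℂ (F (Gamma M))))
    (hinv : ∀ (g : F (Gamma M) ≃ₐ[RatFunc ℂ] F (Gamma M)) f,
      gwK v (F (Gamma M)) (g f) = gwK v (F (Gamma M)) f),
    CuspAt M hT hinv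

attribute [-instance] HahnSeries.powerSeriesAlgebra in
theorem exists_red (Γ : Subgroup SL(2, ℤ)) {v : Valuation ℂ ℝ≥0} {k : Type u} [Field k] {r : ℂ → k}
    (hr : IsRes v r) : ∃ (κ : Type u) (_ : Field κ) (_ : Algebra k κ) (ρ : F Γ → κ),
      Red v r (gwK v (F Γ)) ρ := ⟨kapF (F Γ) hr, _, _, _, redF (F Γ) hr⟩

variable {v : Valuation ℂ ℝ≥0} {k : Type u} {κL : Type*} [Field k] [IsAlgClosed k] [Field κL] [Algebra k κL]
  {r : ℂ → k} {Γ : Subgroup SL(2, ℤ)} [Γ.FiniteIndex] {M : ℕ} {ρL : F Γ → κL}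

theorem gwK_xK (Γ : Subgroup SL(2, ℤ)) : gwK v (F Γ) (xK ℂ (F Γ)) = 1 := by
  rw [gwK_apply]
  exact (congrArg (gw v) (coe_xK (F Γ))).trans (w_jF (isG v))

theorem res_xK_notMem (hL : Red v r (gwK v (F Γ)) ρL) :
    ρL (xK ℂ (F Γ)) ∉ Set.range (algebraMap k κL) :=
  res_j_notMem (ι := iF Γ) (coe_xK (F Γ)) (isG v) (fun _ => rfl) hL

theorem gwK_inv [NeZero M] (hv : v (M : ℂ) = 1) (hr : IsRes v r)
    (g : F (Gamma M) ≃ₐ[RatFunc ℂ] F (Gamma M)) (f : F (Gamma M)) :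
    gwK v (F (Gamma M)) (g f) = gwK v (F (Gamma M)) f := by
  obtain ⟨γ, hγ⟩ := (lvl_F M).gal g
  obtain ⟨κ, _, _, ρ, hT⟩ := exists_red (Gamma M) hr
  exact (congrArg (gw v) (hγ f)).trans
    (w_sl (NeZero.ne M) hv (lvl_F M) (isG v) (fun _ => rfl) hT γ f)

theorem gen_F_of (hC : CuspStmt k) [Algebra (RatFunc k) κL] [IsScalarTower k (RatFunc k) κL]
    (h4 : 4 ∣ M) (hv : v (M : ℂ) = 1) (hle : Gamma M ≤ Γ) (hΓ : Γ ≤ Gamma1 4)
    (hL : Red v r (gwK v (F Γ)) ρL) (hx : xK k κL = ρL (xK ℂ (F Γ)))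
    {l : ℕ} (hl : l.Prime) (hvl : v (l : ℂ) < 1) :
    ∃ (_ : FiniteDimensional (RatFunc k) κL) (_ : Algebra.IsSeparable (RatFunc k) κL),
      gen k κL = gen ℂ (F Γ) ∧ finrank (RatFunc k) κL = finrank (RatFunc ℂ) (F Γ) ∧
      (Zr k (xK k κL)⁻¹).card = (Zr ℂ (xK ℂ (F Γ))⁻¹).card := by
  have : NeZero M := ⟨lev_ne hv⟩
  have : Fact (Gamma M ≤ Γ) := ⟨hle⟩
  have : Fact l.Prime := ⟨hl⟩
  have hr := hL.resC
  obtain ⟨κ, _, _, ρ, hT⟩ := exists_red (Gamma M) hr
  have hw : ∀ a : F Γ, gwK v (F (Gamma M)) (algebraMap _ _ a) = gwK v (F Γ) a := fun _ => rfl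
  obtain ⟨ψ, hψ⟩ := exists_resLift hL.res (fun a => ρ (algebraMap _ _ a))
    (fun x y hx hy => by rw [map_add]; exact hT.res.add _ _ hx hy)
    (fun x y hx hy => by rw [map_mul]; exact hT.res.mul _ _ hx hy)
    (by rw [map_one]; exact hT.res.one) (fun x hx => (hT.res.zero_iff _ hx.le).2 hx)
  let _ : Algebra κL κ := ψ.toAlgebra
  have : IsScalarTower k κL κ := IsScalarTower.of_algebraMap_eq fun c => by
    obtain ⟨c, hc, rfl⟩ := hr.surj c
    rw [← hL.comp c hc, ← hT.comp c hc]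
    exact (hψ _ (by rwa [hL.norm])).symm
  let _ : Algebra (RatFunc k) κ :=
    (ψ.comp (algebraMap (RatFunc k) κL)).toAlgebra
  have : IsScalarTower (RatFunc k) κL κ :=
    IsScalarTower.of_algebraMap_eq fun _ => rfl
  have : IsScalarTower k (RatFunc k) κ :=
    IsScalarTower.of_algebraMap_eq fun c => by
      rw [IsScalarTower.algebraMap_apply k κL, IsScalarTower.algebraMap_apply k (RatFunc k) κL]
      rfl
  have h2 : v 2 = 1 := by
    have := v_eq_one_of_dvd (v := v) (a := 2) (b := M)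
      ((by norm_num : (2 : ℤ) ∣ (4 : ℕ)).trans (Int.natCast_dvd_natCast.2 h4)) (by exact_mod_cast hv)
    exact_mod_cast this
  refine gen_res_j hT hL hw (fun a ha => (hψ a ha).symm) (gwK_xK Γ).le hx (gwK_inv hv hr)
    (fun g hg => ?_) h2 (relJ_of_mem (tt_mem hΓ)) (hunr_F hle hΓ) ?_ l hvl
  · obtain ⟨γ, rfl⟩ := act_surjective (Gamma M) g
    rw [← MonoidHom.mem_ker, ker_act (Gamma_is_cong_sub M)]
    exact inert (isG v) h4 hv γ fun f hf hf1 => hg ⟨f, hf⟩ hf1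
  · intro _ _
    refine hC M v r κ ρ hT ?_ (gwK_inv hv hr)
    change ψ (xK k κL) = _
    rw [hx, hψ _ (gwK_xK Γ).le]
    rfl

theorem good_F_of (hC : CuspStmt k) [Algebra (RatFunc k) κL] [IsScalarTower k (RatFunc k) κL]
    (h4 : 4 ∣ M) (hv : v (M : ℂ) = 1) (hle : Gamma M ≤ Γ) (hΓ : Γ ≤ Gamma1 4)
    (hL : Red v r (gwK v (F Γ)) ρL) (hx : xK k κL = ρL (xK ℂ (F Γ)))
    {l : ℕ} (hl : l.Prime) (hvl : v (l : ℂ) < 1) :
    ∃ (_ : FiniteDimensional (RatFunc k) κL) (_ : Algebra.IsSeparable (RatFunc k) κL)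
      (sp : Pl ℂ (F Γ) → Pl k κL), Disc.Good v r (gwK v (F Γ)) ρL sp := by
  obtain ⟨i1, i2, h, -⟩ := gen_F_of hC h4 hv hle hΓ hL hx hl hvl
  have : Fact l.Prime := ⟨hl⟩
  exact ⟨i1, i2, Disc.exists_good hL
    (Crest.Agent.R013.GR9_921.orth hL ⟨_, res_xK_notMem hL⟩ l hvl) h⟩

end Crest.Agent.T15.Ig
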