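import Mathlib
import Crest.Agent.T15.Hy_90
import Crest.Agent.R013.PL1_109
import Crest.Agent.T15.HyB_90

-- ▼ part T15/NfA_2
section

/-!
# Row 15, block F (helper2): Gauss norms on hyperelliptic function fields, part A

`Rd vC ρC p q` : the polynomial `p` is integral and reduces to `q`; `gn` the Gauss norm;
`Nm` : normalised chart `W ^ 2 = F₁(Z)`, `F₁ ≡ G ^ 2 H`; `Nm.val` the norm on `K`, `kap` its residue
field, `Nm.red : Red ..`, `Nm.hyp : Hyp H Z̄ (W̄ / G(Z̄))`.
-/

set_option autoImplicit false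
set_option linter.all false

namespace Crest.Agent.T15.Nf

open Polynomial
open scoped NNReal
open Crest.Agent.R013.GR4_921 Crest.Agent.R013.PL_109 Crest.Agent.R013.Frob1_914
open Crest.Agent.T15.Hy

section rd

variable {C k : Type*} [Field C] [Field k] (vC : Valuation C ℝ≥0) (ρC : C → k)

/-- `p` has integral coefficients and reduces to `q` -/
def Rd (p : C[X]) (q : k[X]) : Prop := ∀ n, vC (p.coeff n) ≤ 1 ∧ ρC (p.coeff n) = q.coeff n

/-- the Gauss norm -/
noncomputable def gn (p : C[X]) : ℝ≥0 := gf vC 1 p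

variable {vC ρC}

theorem gn_mul (p q : C[X]) : gn vC (p * q) = gn vC p * gn vC q := gf_mul vC one_ne_zero p q

theorem gn_add (p q : C[X]) : gn vC (p + q) ≤ max (gn vC p) (gn vC q) := gf_add vC 1 p q

theorem gn_C (c : C) : gn vC (Polynomial.C c) = vC c := gf_C vC 1 c

theorem gn_zero : gn vC (0 : C[X]) = 0 := gf_zero vC 1

theorem gn_one : gn vC (1 : C[X]) = 1 := by rw [← Polynomial.C_1, gn_C, map_one]

theorem gn_ne_zero {p : C[X]} (hp : p ≠ 0) : gn vC p ≠ 0 := gf_ne_zero vC one_ne_zero hp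

theorem gn_eq_zero {p : C[X]} (hp : gn vC p = 0) : p = 0 := by
  by_contra h; exact gn_ne_zero h hp

theorem le_gn (p : C[X]) (n : ℕ) : vC (p.coeff n) ≤ gn vC p := by
  simpa [gn] using le_gf vC 1 p n

theorem gn_le {p : C[X]} {B : ℝ≥0} (h : ∀ n, vC (p.coeff n) ≤ B) : gn vC p ≤ B :=
  gf_le vC fun n => by simpa using h n

theorem gn_lt {p : C[X]} {B : ℝ≥0} (hB : 0 < B) (h : ∀ n, vC (p.coeff n) < B) : gn vC p < B :=
  gf_lt vC hB fun n => by simpa using h n


theorem gn_X_add (b : C) : gn vC (X + Polynomial.C b) = max 1 (vC b) := gf_X_sub vC 1 b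

theorem exists_gn (p : C[X]) : ∃ c : C, gn vC p = vC c := by
  by_cases hp : p = 0
  · exact ⟨0, by rw [hp, gn_zero, map_zero]⟩
  · obtain ⟨j, -, h⟩ := exists_gf_eq vC 1 hp
    exact ⟨p.coeff j, by simpa [gn] using h⟩

theorem exists_max (p q : C[X]) : ∃ c : C, max (gn vC p) (gn vC q) = vC c := by
  rcases le_total (gn vC p) (gn vC q) with h | h
  · rw [max_eq_right h]; exact exists_gn q
  · rw [max_eq_left h]; exact exists_gn p

namespace Rd

theorem gn_le {p : C[X]} {q : k[X]} (h : Rd vC ρC p q) : gn vC p ≤ 1 :=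
  Nf.gn_le fun n => (h n).1


theorem congr {p p' : C[X]} {q q' : k[X]} (h : Rd vC ρC p q) (hp : p = p') (hq : q = q') :
    Rd vC ρC p' q' := hp ▸ hq ▸ h

variable (hr : IsRes vC ρC)
include hr

theorem lt_iff {p : C[X]} {q : k[X]} (h : Rd vC ρC p q) : gn vC p < 1 ↔ q = 0 := by
  constructor
  · intro h1
    ext n
    rw [← (h n).2, coeff_zero, hr.zero_iff _ (h n).1]
    exact (le_gn p n).trans_lt h1
  · rintro rfl
    exact gn_lt one_pos fun n => (hr.zero_iff _ (h n).1).mp (by simpa using (h n).2)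

theorem eq_one {p : C[X]} {q : k[X]} (h : Rd vC ρC p q) (hq : q ≠ 0) : gn vC p = 1 :=
  le_antisymm h.gn_le (not_lt.mp fun h1 => hq ((h.lt_iff hr).mp h1))

theorem of_lt {p : C[X]} (h : gn vC p < 1) : Rd vC ρC p 0 := fun n =>
  have h1 := (le_gn p n).trans_lt h
  ⟨h1.le, by rw [coeff_zero, hr.zero_iff _ h1.le]; exact h1⟩

theorem zero : Rd vC ρC 0 0 := fun n => by simp [hr.zero]

theorem add {p p' : C[X]} {q q' : k[X]} (h : Rd vC ρC p q) (h' : Rd vC ρC p' q') :
    Rd vC ρC (p + p') (q + q') := fun n => by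
  rw [coeff_add, coeff_add]
  exact ⟨(vC.map_add _ _).trans (max_le (h n).1 (h' n).1),
    by rw [hr.add _ _ (h n).1 (h' n).1, (h n).2, (h' n).2]⟩

theorem neg {p : C[X]} {q : k[X]} (h : Rd vC ρC p q) : Rd vC ρC (-p) (-q) := fun n => by
  rw [coeff_neg, coeff_neg]
  exact ⟨by rw [Valuation.map_neg]; exact (h n).1, by rw [hr.neg (h n).1, (h n).2]⟩

theorem sub {p p' : C[X]} {q q' : k[X]} (h : Rd vC ρC p q) (h' : Rd vC ρC p' q') :
    Rd vC ρC (p - p') (q - q') := by
  rw [sub_eq_add_neg, sub_eq_add_neg]; exact h.add hr (h'.neg hr)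

theorem mul {p p' : C[X]} {q q' : k[X]} (h : Rd vC ρC p q) (h' : Rd vC ρC p' q') :
    Rd vC ρC (p * p') (q * q') := fun n => by
  have h1 : ∀ x ∈ Finset.HasAntidiagonal.antidiagonal n, vC (p.coeff x.1 * p'.coeff x.2) ≤ 1 :=
    fun x _ => by rw [map_mul]; exact mul_le_one' (h _).1 (h' _).1
  rw [coeff_mul, coeff_mul]
  refine ⟨vC.map_sum_le h1, ?_⟩
  rw [hr.sum _ _ h1]
  exact Finset.sum_congr rfl fun x _ => by rw [hr.mul _ _ (h _).1 (h' _).1, (h _).2, (h' _).2]

theorem monomial (n : ℕ) {c : C} (hc : vC c ≤ 1) :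
    Rd vC ρC (Polynomial.monomial n c) (Polynomial.monomial n (ρC c)) := fun m => by
  rw [coeff_monomial, coeff_monomial]
  split_ifs
  · exact ⟨hc, rfl⟩
  · simp [hr.zero]

theorem cst {c : C} (hc : vC c ≤ 1) : Rd vC ρC (Polynomial.C c) (Polynomial.C (ρC c)) :=
  monomial hr 0 hc


theorem cst_lt {c : C} (hc : vC c < 1) : Rd vC ρC (Polynomial.C c) 0 :=
  of_lt hr (by rwa [gn_C])

theorem one : Rd vC ρC 1 1 := by
  have := cst hr (c := 1) (by simp)
  rwa [hr.one, Polynomial.C_1, Polynomial.C_1] at this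


theorem X : Rd vC ρC Polynomial.X Polynomial.X := by
  have := monomial hr 1 (c := 1) (by simp)
  rwa [hr.one] at this

theorem pow {p : C[X]} {q : k[X]} (h : Rd vC ρC p q) (n : ℕ) : Rd vC ρC (p ^ n) (q ^ n) := by
  induction n with
  | zero => simpa using one hr
  | succ n ih => rw [pow_succ, pow_succ]; exact ih.mul hr h

theorem sum {ι : Type*} (s : Finset ι) {p : ι → C[X]} {q : ι → k[X]}
    (h : ∀ i ∈ s, Rd vC ρC (p i) (q i)) : Rd vC ρC (∑ i ∈ s, p i) (∑ i ∈ s, q i) := by
  classical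
  induction s using Finset.induction_on with
  | empty => simpa using zero hr
  | insert a s ha ih =>
    rw [Finset.sum_insert ha, Finset.sum_insert ha]
    exact (h a (Finset.mem_insert_self a s)).add hr
      (ih fun i hi => h i (Finset.mem_insert_of_mem hi))

theorem prod {ι : Type*} (s : Finset ι) {p : ι → C[X]} {q : ι → k[X]}
    (h : ∀ i ∈ s, Rd vC ρC (p i) (q i)) : Rd vC ρC (∏ i ∈ s, p i) (∏ i ∈ s, q i) := by
  classical
  induction s using Finset.induction_on with
  | empty => simpa using one hr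
  | insert a s ha ih =>
    rw [Finset.prod_insert ha, Finset.prod_insert ha]
    exact (h a (Finset.mem_insert_self a s)).mul hr
      (ih fun i hi => h i (Finset.mem_insert_of_mem hi))


end Rd

theorem exists_rd (hr : IsRes vC ρC) {p : C[X]} (hp : gn vC p ≤ 1) : ∃ q, Rd vC ρC p q := by
  refine ⟨∑ n ∈ p.support, monomial n (ρC (p.coeff n)), ?_⟩
  have := Rd.sum hr p.support (p := fun n => monomial n (p.coeff n))
    (q := fun n => monomial n (ρC (p.coeff n))) fun n _ => Rd.monomial hr n ((le_gn p n).trans hp)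
  exact this.congr (as_sum_support p).symm rfl

theorem exists_lift (hr : IsRes vC ρC) (q : k[X]) : ∃ p, Rd vC ρC p q := by
  induction q using Polynomial.induction_on' with
  | add q q' hq hq' =>
    obtain ⟨p, h⟩ := hq
    obtain ⟨p', h'⟩ := hq'
    exact ⟨p + p', h.add hr h'⟩
  | monomial n c =>
    obtain ⟨a, ha, rfl⟩ := hr.surj c
    exact ⟨_, Rd.monomial hr n ha⟩

theorem sq_indep {H A B : k[X]} (hs : H.Separable) (hp : 0 < H.natDegree)
    (h1 : A ^ 2 - B ^ 2 * H = 0) : A = 0 ∧ B = 0 := by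
  by_cases hB : B = 0
  · subst hB
    exact ⟨by simpa using h1, rfl⟩
  · exfalso
    have h2 : B ^ 2 ∣ A ^ 2 := ⟨H, by linear_combination h1⟩
    obtain ⟨D, rfl⟩ := (IsIntegrallyClosed.pow_dvd_pow_iff two_ne_zero).mp h2
    have h3 : H = D * D := by
      apply mul_left_cancel₀ (pow_ne_zero 2 hB)
      linear_combination -h1
    have h4 : IsUnit D := hs.squarefree D (by rw [h3])
    rw [h3, natDegree_eq_zero_of_isUnit (h4.mul h4)] at hp
    exact lt_irrefl _ hp

end rd

section res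

variable {C L k κ : Type*} [Field C] [Field L] [Algebra C L] [Field k] [Field κ]
  {vC : Valuation C ℝ≥0} {ρC : C → k} {w : Valuation L ℝ≥0} {ρ : L → κ}

/-- the embedding of residue fields -/
noncomputable def resHom (hC : IsRes vC ρC) (h : IsRes w ρ)
    (hn : ∀ c, w (algebraMap C L c) = vC c) : k →+* κ :=
  have key : ∀ c, vC c ≤ 1 → ρ (algebraMap C L (hC.surj (ρC c)).choose) = ρ (algebraMap C L c) := by
    intro c hc
    obtain ⟨h1, h2⟩ := (hC.surj (ρC c)).choose_spec
    rw [h.eq_iff (by rwa [hn]) (by rwa [hn]), ← map_sub, hn, ← hC.eq_iff h1 hc]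
    exact h2
  { toFun := fun y => ρ (algebraMap C L (hC.surj y).choose)
    map_one' := by rw [← hC.one, key 1 (by simp), map_one, h.one]
    map_zero' := by rw [← hC.zero, key 0 (by simp), map_zero, h.zero]
    map_mul' := fun x y => by
      obtain ⟨a, ha, rfl⟩ := hC.surj x
      obtain ⟨b, hb, rfl⟩ := hC.surj y
      rw [← hC.mul a b ha hb, key a ha, key b hb,
        key _ (by rw [map_mul]; exact mul_le_one' ha hb), map_mul,
        h.mul _ _ (by rwa [hn]) (by rwa [hn])]
    map_add' := fun x y => by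
      obtain ⟨a, ha, rfl⟩ := hC.surj x
      obtain ⟨b, hb, rfl⟩ := hC.surj y
      rw [← hC.add a b ha hb, key a ha, key b hb,
        key _ ((vC.map_add _ _).trans (max_le ha hb)), map_add,
        h.add _ _ (by rwa [hn]) (by rwa [hn])] }

theorem resHom_apply (hC : IsRes vC ρC) (h : IsRes w ρ)
    (hn : ∀ c, w (algebraMap C L c) = vC c) {c : C} (hc : vC c ≤ 1) :
    resHom hC h hn (ρC c) = ρ (algebraMap C L c) := by
  obtain ⟨h1, h2⟩ := (hC.surj (ρC c)).choose_spec
  show ρ (algebraMap C L (hC.surj (ρC c)).choose) = _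
  rw [h.eq_iff (by rwa [hn]) (by rwa [hn]), ← map_sub, hn, ← hC.eq_iff h1 hc]
  exact h2

theorem w_aeval_le (hn : ∀ c, w (algebraMap C L c) = vC c) (p : C[X]) {t : L} (ht : w t ≤ 1) :
    w (aeval t p) ≤ gn vC p := by
  rw [aeval_eq_sum_range]
  refine Valuation.map_sum_le _ fun i _ => ?_
  rw [Algebra.smul_def, map_mul, map_pow, hn]
  exact (mul_le_mul' (le_gn p i) (pow_le_one' ht i)).trans (by rw [mul_one])

variable [Algebra k κ]

theorem res_aeval (h : Red vC ρC w ρ) {p : C[X]} {q : k[X]} (hp : Rd vC ρC p q) {t : L}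
    (ht : w t ≤ 1) : ρ (aeval t p) = aeval (ρ t) q := by
  have hq : q.natDegree < p.natDegree + 1 := by
    rw [Nat.lt_succ_iff, natDegree_le_iff_coeff_eq_zero]
    intro N hN
    rw [← (hp N).2, coeff_eq_zero_of_natDegree_lt hN, h.resC.zero]
  rw [aeval_eq_sum_range, aeval_eq_sum_range' hq, h.res.sum _ _ fun i _ => by
    rw [Algebra.smul_def, map_mul, map_pow, h.norm]
    exact mul_le_one' (hp i).1 (pow_le_one' ht i)]
  refine Finset.sum_congr rfl fun i _ => ?_
  rw [Algebra.smul_def, Algebra.smul_def, h.res.mul _ _ (by rw [h.norm]; exact (hp i).1)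
    (by rw [map_pow]; exact pow_le_one' ht i), h.comp _ (hp i).1, h.res.pow ht, (hp i).2]

end res

/-- the residue field -/
abbrev kap {K : Type*} [Field K] (W : Valuation K ℝ≥0) :=
  IsLocalRing.ResidueField W.valuationSubring

/-- the residue map -/
noncomputable def rs {K : Type*} [Field K] (W : Valuation K ℝ≥0) : K → kap W :=
  (exists_isRes W).choose

theorem isRes_rs {K : Type*} [Field K] (W : Valuation K ℝ≥0) : IsRes W (rs W) :=
  (exists_isRes W).choose_spec.1

variable {C k K : Type*} [Field C] [Field k] [Field K] [Algebra C K]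

/-- normalised chart -/
structure Nm (vC : Valuation C ℝ≥0) (ρC : C → k) (F : C[X]) (G H : k[X]) (Z W : K) : Prop where
  res : IsRes vC ρC
  two : (2 : k) ≠ 0
  tr : ∀ p : C[X], aeval Z p = 0 → p = 0
  sq : W ^ 2 = aeval Z F
  gen : ∀ f : K, ∃ A B c : C[X], c ≠ 0 ∧ f * aeval Z c = el Z W A B
  rd : Rd vC ρC F (G ^ 2 * H)
  G0 : G ≠ 0
  sep : H.Separable
  pos : 0 < H.natDegree

namespace Nm

variable {vC : Valuation C ℝ≥0} {ρC : C → k} {F : C[X]} {G H : k[X]} {Z W : K}
  (h : Nm vC ρC F G H Z W)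
include h

theorem gn_norm (A B : C[X]) : gn vC (A ^ 2 - B ^ 2 * F) = max (gn vC A) (gn vC B) ^ 2 := by
  obtain ⟨μ, hμ⟩ := exists_max (vC := vC) A B
  by_cases h0 : μ = 0
  · rw [h0, map_zero] at hμ
    have hA : A = 0 := gn_eq_zero (le_antisymm (hμ ▸ le_max_left _ _) zero_le)
    have hB : B = 0 := gn_eq_zero (le_antisymm (hμ ▸ le_max_right _ _) zero_le)
    subst hA hB
    simp [gn_zero]
  · have hv : vC μ ≠ 0 := by simpa using h0
    have hA : gn vC (Polynomial.C μ⁻¹ * A) = gn vC A / vC μ := by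
      rw [gn_mul, gn_C, map_inv₀, div_eq_inv_mul]
    have hB : gn vC (Polynomial.C μ⁻¹ * B) = gn vC B / vC μ := by
      rw [gn_mul, gn_C, map_inv₀, div_eq_inv_mul]
    have hp : 0 < vC μ := pos_iff_ne_zero.mpr hv
    obtain ⟨a, ha⟩ := exists_rd h.res (p := Polynomial.C μ⁻¹ * A)
      (by rw [hA, div_le_one hp, ← hμ]; exact le_max_left _ _)
    obtain ⟨b, hb⟩ := exists_rd h.res (p := Polynomial.C μ⁻¹ * B)
      (by rw [hB, div_le_one hp, ← hμ]; exact le_max_right _ _)
    have h1 := (ha.pow h.res 2).sub h.res ((hb.pow h.res 2).mul h.res h.rd)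
    have h2 := h1.eq_one h.res (by
      intro h3
      obtain ⟨h4, h5⟩ := sq_indep h.sep h.pos (A := a) (B := b * G) (by linear_combination h3)
      have h6 : b = 0 := (mul_eq_zero.mp h5).resolve_right h.G0
      have h7 := (ha.lt_iff h.res).mpr h4
      have h8 := (hb.lt_iff h.res).mpr h6
      rw [hA, div_lt_one hp] at h7
      rw [hB, div_lt_one hp] at h8
      exact absurd hμ (max_lt h7 h8).ne)
    have h3 : A ^ 2 - B ^ 2 * F = Polynomial.C (μ ^ 2) *
        ((Polynomial.C μ⁻¹ * A) ^ 2 - (Polynomial.C μ⁻¹ * B) ^ 2 * F) := by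
      have : Polynomial.C μ * Polynomial.C μ⁻¹ = 1 := by
        rw [← map_mul, mul_inv_cancel₀ h0, map_one]
      rw [map_pow]
      linear_combination (-(A ^ 2 - B ^ 2 * F) * (Polynomial.C μ * Polynomial.C μ⁻¹ + 1)) * this
    rw [h3, gn_mul, h2, gn_C, map_pow, hμ, mul_one]

theorem aeval_ne {p : C[X]} (hp : p ≠ 0) : aeval Z p ≠ 0 := fun h0 => hp (h.tr p h0)

theorem indep {A B : C[X]} (h0 : el Z W A B = 0) : A = 0 ∧ B = 0 := by
  have h1 : A ^ 2 - B ^ 2 * F = 0 := by
    apply h.tr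
    rw [← el_norm h.sq, h0, zero_mul]
  have h2 := h.gn_norm A B
  rw [h1, gn_zero] at h2
  have h3 := pow_eq_zero_iff two_ne_zero |>.mp h2.symm
  exact ⟨gn_eq_zero (le_antisymm (h3 ▸ le_max_left _ _) zero_le),
    gn_eq_zero (le_antisymm (h3 ▸ le_max_right _ _) zero_le)⟩

theorem el_inj {A B A' B' : C[X]} (h0 : el Z W A B = el Z W A' B') : A = A' ∧ B = B' := by
  have := h.indep (A := A - A') (B := B - B') (by rw [← el_sub, h0, sub_self])
  exact ⟨sub_eq_zero.mp this.1, sub_eq_zero.mp this.2⟩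

/-- the norm as a function -/
noncomputable def vf (f : K) : ℝ≥0 :=
  max (gn vC (h.gen f).choose) (gn vC (h.gen f).choose_spec.choose) /
    gn vC (h.gen f).choose_spec.choose_spec.choose

theorem vf_spec {f : K} {A B c : C[X]} (hf : f * aeval Z c = el Z W A B) :
    h.vf f * gn vC c = max (gn vC A) (gn vC B) := by
  obtain ⟨hc, hs⟩ := (h.gen f).choose_spec.choose_spec.choose_spec
  unfold vf
  set A' := (h.gen f).choose
  set B' := (h.gen f).choose_spec.choose
  set c' := (h.gen f).choose_spec.choose_spec.choose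
  have h1 : el Z W (A * c') (B * c') = el Z W (A' * c) (B' * c) := by
    rw [← el_mul_aeval, ← el_mul_aeval, ← hf, ← hs]; ring
  obtain ⟨h2, h3⟩ := h.el_inj h1
  rw [div_mul_eq_mul_div, div_eq_iff (gn_ne_zero hc), max_mul_of_nonneg _ _ zero_le,
    max_mul_of_nonneg _ _ zero_le, ← gn_mul, ← gn_mul, ← gn_mul, ← gn_mul, h2, h3]

theorem vf_el (A B : C[X]) : h.vf (el Z W A B) = max (gn vC A) (gn vC B) := by
  have := h.vf_spec (f := el Z W A B) (c := 1) (A := A) (B := B) (by simp)
  rwa [gn_one, mul_one] at this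

/-- the norm of the chart -/
noncomputable def val : Valuation K ℝ≥0 where
  toFun := h.vf
  map_zero' := by
    have := h.vf_el 0 0
    simpa [el, gn_zero] using this
  map_one' := by
    have := h.vf_el 1 0
    simpa [el, gn_zero, gn_one] using this
  map_mul' := fun f g => by
    obtain ⟨A, B, c, hc, hf⟩ := h.gen f
    obtain ⟨A', B', c', hc', hg⟩ := h.gen g
    have h1 : (f * g) * aeval Z (c * c') = el Z W (A * A' + B * B' * F) (A * B' + B * A') := by
      rw [← el_mul h.sq, ← hf, ← hg, map_mul]; ring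
    apply mul_right_cancel₀ (gn_ne_zero (vC := vC) (mul_ne_zero hc hc'))
    have h2 : h.vf f * h.vf g * gn vC (c * c') = (h.vf f * gn vC c) * (h.vf g * gn vC c') := by
      rw [gn_mul]; ring
    rw [h.vf_spec h1, h2, h.vf_spec hf, h.vf_spec hg]
    apply (pow_left_inj₀ zero_le zero_le two_ne_zero).mp
    rw [mul_pow, ← h.gn_norm, ← h.gn_norm, ← h.gn_norm, ← gn_mul]
    congr 1
    ring
  map_add_le_max' := fun f g => by
    obtain ⟨A, B, c, hc, hf⟩ := h.gen f
    obtain ⟨A', B', c', hc', hg⟩ := h.gen g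
    have h1 : (f + g) * aeval Z (c * c') = el Z W (A * c' + A' * c) (B * c' + B' * c) := by
      rw [← el_add, ← el_mul_aeval, ← el_mul_aeval, ← hf, ← hg, map_mul]; ring
    have h2 : f * aeval Z (c * c') = el Z W (A * c') (B * c') := by
      rw [← el_mul_aeval, ← hf, map_mul]; ring
    have h3 : g * aeval Z (c * c') = el Z W (A' * c) (B' * c) := by
      rw [← el_mul_aeval, ← hg, map_mul]; ring
    have hp : 0 < gn vC (c * c') := pos_iff_ne_zero.mpr (gn_ne_zero (mul_ne_zero hc hc'))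
    apply le_of_mul_le_mul_right _ hp
    rw [max_mul_of_nonneg _ _ zero_le, h.vf_spec h1, h.vf_spec h2, h.vf_spec h3]
    apply max_le
    · exact (gn_add _ _).trans (max_le_max (le_max_left _ _) (le_max_left _ _))
    · exact (gn_add _ _).trans (max_le_max (le_max_right _ _) (le_max_right _ _))

theorem val_spec {f : K} {A B c : C[X]} (hf : f * aeval Z c = el Z W A B) :
    h.val f * gn vC c = max (gn vC A) (gn vC B) := h.vf_spec hf

theorem val_el (A B : C[X]) : h.val (el Z W A B) = max (gn vC A) (gn vC B) := h.vf_el A B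

theorem val_aeval (p : C[X]) : h.val (aeval Z p) = gn vC p := by
  rw [← el_zero Z W, h.val_el, gn_zero, max_eq_left zero_le]

theorem val_const (c : C) : h.val (algebraMap C K c) = vC c := by
  rw [← aeval_C Z, h.val_aeval, gn_C]

theorem val_Z : h.val Z = 1 := by
  have := h.val_aeval (X + Polynomial.C 0)
  rw [gn_X_add] at this
  simpa using this

theorem val_W : h.val W = 1 := by
  have := h.val_el 0 1
  simpa [el, gn_zero, gn_one] using this

/-- integral elements have an integral presentation with a unit denominator -/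
theorem exists_int {f : K} (hf : h.val f ≤ 1) : ∃ A B c : C[X], gn vC c = 1 ∧ gn vC A ≤ 1 ∧
    gn vC B ≤ 1 ∧ f * aeval Z c = el Z W A B := by
  obtain ⟨A, B, c, hc, he⟩ := h.gen f
  obtain ⟨μ, hμ⟩ := exists_gn (vC := vC) c
  have hv : vC μ ≠ 0 := hμ ▸ gn_ne_zero hc
  have he' : f * aeval Z (c * Polynomial.C μ⁻¹) =
      el Z W (A * Polynomial.C μ⁻¹) (B * Polynomial.C μ⁻¹) := by
    rw [← el_mul_aeval, ← he, map_mul, mul_assoc]
  have h1 : gn vC (c * Polynomial.C μ⁻¹) = 1 := by
    rw [gn_mul, gn_C, hμ, map_inv₀, mul_inv_cancel₀ hv]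
  have h2 := h.val_spec he'
  rw [h1, mul_one] at h2
  rw [h2] at hf
  exact ⟨_, _, _, h1, (le_max_left _ _).trans hf, (le_max_right _ _).trans hf, he'⟩

/-- the residue field as an algebra over `k` -/
@[reducible] noncomputable def alg : Algebra k (kap h.val) :=
  (resHom h.res (isRes_rs h.val) h.val_const).toAlgebra

theorem red : @Red C K k (kap h.val) _ _ _ _ _ h.alg vC ρC h.val (rs h.val) := by
  letI := h.alg
  refine ⟨h.res, isRes_rs _, h.val_const, fun c hc => (resHom_apply _ _ _ hc).symm, ?_⟩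
  intro f _
  obtain ⟨A, B, c, hc, he⟩ := h.gen f
  obtain ⟨μ, hμ⟩ := exists_gn (vC := vC) c
  obtain ⟨ν, hν⟩ := exists_max (vC := vC) A B
  have hv : vC μ ≠ 0 := hμ ▸ gn_ne_zero hc
  refine ⟨ν / μ, ?_⟩
  rw [map_div₀, eq_div_iff hv, ← hμ, h.val_spec he, hν]

theorem hyp : letI := h.alg
    Hyp H (rs h.val Z) (rs h.val W / aeval (rs h.val Z) G) := by
  letI := h.alg
  have hr := h.red
  have tr : ∀ q : k[X], aeval (rs h.val Z) q = 0 → q = 0 := by
    intro q hq
    obtain ⟨p, hp⟩ := exists_lift h.res q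
    rw [← res_aeval hr hp h.val_Z.le, hr.res.zero_iff _ (by rw [h.val_aeval]; exact hp.gn_le),
      h.val_aeval] at hq
    exact (hp.lt_iff h.res).mp hq
  have hG : aeval (rs h.val Z) G ≠ 0 := fun h0 => h.G0 (tr G h0)
  refine ⟨h.two, h.sep, h.pos, tr, ?_, ?_⟩
  · rw [div_pow, div_eq_iff (pow_ne_zero 2 hG), ← hr.res.pow h.val_W.le, h.sq,
      res_aeval hr h.rd h.val_Z.le, map_mul, map_pow, mul_comm]
  · intro y
    obtain ⟨f, hf, rfl⟩ := hr.res.surj y
    obtain ⟨A, B, c, hc, hA, hB, he⟩ := h.exists_int hf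
    obtain ⟨a, ha⟩ := exists_rd h.res hA
    obtain ⟨b, hb⟩ := exists_rd h.res hB
    obtain ⟨d, hd⟩ := exists_rd h.res hc.le
    refine ⟨a, b * G, d, fun h0 => ((hd.lt_iff h.res).mpr h0).ne hc, ?_⟩
    have h1 := congrArg (rs h.val) he
    have hA' : h.val (aeval Z A) ≤ 1 := by rwa [h.val_aeval]
    have hB' : h.val (aeval Z B) ≤ 1 := by rwa [h.val_aeval]
    unfold el at h1 ⊢
    rw [hr.res.mul _ _ hf (by rw [h.val_aeval]; exact hc.le),
      hr.res.add _ _ hA' (by rw [map_mul, h.val_W, mul_one]; exact hB'),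
      hr.res.mul _ _ hB' h.val_W.le, res_aeval hr ha h.val_Z.le, res_aeval hr hb h.val_Z.le,
      res_aeval hr hd h.val_Z.le] at h1
    rw [h1, map_mul]
    field_simp

omit h in
theorem _root_.Crest.Agent.T15.Nf.SI_aeval (e : SI C K C K) (t : K) (p : C[X]) :
    e.f (aeval t p) = aeval (e.f t) (p.map (e.s : C →+* C)) := by
  induction p using Polynomial.induction_on' with
  | add p q hp hq => rw [map_add, map_add, Polynomial.map_add, map_add, hp, hq]
  | monomial n c =>
    rw [Polynomial.map_monomial, aeval_monomial, aeval_monomial, map_mul, map_pow, e.comm]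
    rfl

theorem triv_aeval (e : SI C K C K) (hs : ∀ c, vC c ≤ 1 → vC (e.s c - c) < 1)
    (hZ : h.val (e.f Z - Z) < 1) {p : C[X]} (hp : gn vC p ≤ 1) :
    h.val (e.f (aeval Z p) - aeval Z p) < 1 := by
  letI := h.alg
  have hr := h.red
  have hZ1 : h.val (e.f Z) ≤ 1 := by
    have : e.f Z = (e.f Z - Z) + Z := by ring
    rw [this]; exact (Valuation.map_add _ _ _).trans (max_le hZ.le h.val_Z.le)
  obtain ⟨q, hq⟩ := exists_rd h.res hp
  have hq' : Rd vC ρC (p.map (e.s : C →+* C)) q := by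
    have h1 : gn vC (p.map (e.s : C →+* C) - p) < 1 := gn_lt one_pos fun n => by
      rw [coeff_sub, coeff_map]; exact hs _ (hq n).1
    have := (Rd.of_lt h.res h1).add h.res hq
    simpa using this
  rw [SI_aeval, ← hr.res.eq_iff ((w_aeval_le h.val_const _ hZ1).trans hq'.gn_le)
    (by rwa [h.val_aeval]), res_aeval hr hq' hZ1, res_aeval hr hq h.val_Z.le,
    (hr.res.eq_iff hZ1 h.val_Z.le).mpr hZ]

/-- a semilinear automorphism that is trivial on the residues of the constants, of `Z` and of `W`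
is trivial on the residue field -/
theorem triv (e : SI C K C K) (hs : ∀ c, vC c ≤ 1 → vC (e.s c - c) < 1)
    (hZ : h.val (e.f Z - Z) < 1) (hW : h.val (e.f W - W) < 1) (x : K) (hx : h.val x ≤ 1) :
    h.val (e.f x - x) < 1 := by
  obtain ⟨A, B, c, hc, hA, hB, he⟩ := h.exists_int hx
  have h1 := h.triv_aeval e hs hZ hA
  have h2 := h.triv_aeval e hs hZ hB
  have h3 := h.triv_aeval e hs hZ hc.le
  have hc1 : h.val (aeval Z c) = 1 := by rw [h.val_aeval, hc]
  have hc2 : h.val (e.f (aeval Z c)) = 1 := by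
    have : e.f (aeval Z c) = aeval Z c + (e.f (aeval Z c) - aeval Z c) := by ring
    rw [this, Valuation.map_add_eq_of_lt_left, hc1]
    rwa [hc1]
  have hW1 : h.val (e.f W) ≤ 1 := by
    have : e.f W = (e.f W - W) + W := by ring
    rw [this]; exact (Valuation.map_add _ _ _).trans (max_le hW.le h.val_W.le)
  have he' := congrArg e.f he
  unfold el at he he'
  rw [map_mul, map_add, map_mul] at he'
  have key : (e.f x - x) * e.f (aeval Z c) = (e.f (aeval Z A) - aeval Z A) +
      ((e.f (aeval Z B) - aeval Z B) * e.f W + (aeval Z B * (e.f W - W) +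
        -(x * (e.f (aeval Z c) - aeval Z c)))) := by
    linear_combination he' - he
  have h4 := congrArg h.val key
  rw [map_mul, hc2, mul_one] at h4
  rw [h4]
  refine lt_of_le_of_lt (Valuation.map_add _ _ _) (max_lt h1 ?_)
  refine lt_of_le_of_lt (Valuation.map_add _ _ _) (max_lt ?_ ?_)
  · rw [map_mul]; exact mul_lt_one_of_lt_of_le h2 hW1
  refine lt_of_le_of_lt (Valuation.map_add _ _ _) (max_lt ?_ ?_)
  · rw [map_mul, mul_comm]
    exact mul_lt_one_of_lt_of_le hW (by rwa [h.val_aeval])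
  · rw [Valuation.map_neg, map_mul, mul_comm]
    exact mul_lt_one_of_lt_of_le h3 hx

end Nm

end Crest.Agent.T15.Nf
end

-- ▼ part T15/NfB_2

/-!
# Row 15, block F (helper2): Gauss norms on hyperelliptic function fields, part B

`gen_eq`, `hasGen` : the genus of `w ^ 2 = F(x)`; `Ch` : a chart `x = a + π Z`, `w = γ W`;
`Ch.val`, `Ch.red`, `Ch.hasGen`, `Ch.ne_of`, `Ch.triv`; `NOS` (helper92's theorem) and `nos_of_charts`.
-/

set_option autoImplicit false
set_option linter.all false

namespace Crest.Agent.T15.Nf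

open Polynomial Module
open scoped NNReal
open Crest.Agent.R013.RR7_948 Crest.Agent.R013.RR8_948 Crest.Agent.R013.RR9_948
open Crest.Agent.R013.RR11_948 Crest.Agent.R013.RR12_948 Crest.Agent.R013.PicD_398
open Crest.Agent.R013.RR20_948 Crest.Agent.R013.GR2_921 Crest.Agent.R013.GR3_921
open Crest.Agent.R013.GR4_921 Crest.Agent.R013.Frob1_914
open Crest.Agent.T15.Hy

section genus

variable {k K : Type*} [Field k] [IsAlgClosed k] [Field K] [Algebra k K] {F : k[X]} {x w : K}

theorem gen_ge [Algebra (RatFunc k) K] [IsScalarTower k (RatFunc k) K]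
    [FiniteDimensional (RatFunc k) K] [Algebra.IsSeparable (RatFunc k) K] (h : Hyp F x w) :
    (F.natDegree - 1) / 2 ≤ R013.RR11_948.gen k K := by
  set g := (F.natDegree - 1) / 2 with hg
  have hpos := h.pos
  have hdeg : ∀ n : ℕ, degD (n • Dinf k x) = 2 * n := by
    intro n
    induction n with
    | zero => simp [degD_zero]
    | succ n ih => rw [succ_nsmul, degD_add, ih, h.degD_Dinf]; push_cast; ring
  have h1 := ell_ge (k := k) (K := K) hc_of_isAlgClosed (g • Dinf k x)
  rw [hdeg] at h1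
  let φ : degreeLT k (g + 1) →ₗ[k] K := (aeval x).toLinearMap.comp (degreeLT k (g + 1)).subtype
  haveI : Module.Finite k (degreeLT k (g + 1)) := Module.Finite.equiv (degreeLTEquiv k _).symm
  have h2 : LD (g • Dinf k x) ≤ LinearMap.range φ := by
    intro f hf
    obtain ⟨A, B, rfl, hA, hB⟩ := h.of_mem_LD hf
    have hB0 : B = 0 := hB.resolve_right (by omega)
    subst hB0
    refine ⟨⟨A, mem_degreeLT.mpr ?_⟩, by simp [φ, el]⟩
    exact lt_of_le_of_lt degree_le_natDegree (by exact_mod_cast Nat.lt_succ_of_le hA)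
  have h3 := (Submodule.finrank_mono h2).trans (LinearMap.finrank_range_le φ)
  rw [(degreeLTEquiv k _).finrank_eq, finrank_fin_fun] at h3
  change ell (g • Dinf k x) ≤ _ at h3
  omega

theorem gen_eq [Algebra (RatFunc k) K] [IsScalarTower k (RatFunc k) K]
    [FiniteDimensional (RatFunc k) K] [Algebra.IsSeparable (RatFunc k) K] (h : Hyp F x w) :
    R013.RR11_948.gen k K = (F.natDegree - 1) / 2 :=
  le_antisymm (h.gen_le (by have := h.pos; omega)) (gen_ge h)

omit [IsAlgClosed k] in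
theorem transc (h : Hyp F x w) : Transcendental k x := fun ⟨p, hp, h0⟩ => hp (h.tr p h0)

omit [IsAlgClosed k] in
theorem ratHom_poly' {z : K} (hz : Transcendental k z) (p : k[X]) :
    ratHom z hz (algebraMap k[X] (RatFunc k) p) = aeval z p := by
  have h1 : aeval (RatFunc.X : RatFunc k) p = algebraMap k[X] (RatFunc k) p := by
    rw [← RatFunc.algebraMap_X, aeval_algebraMap_apply, aeval_X_left_apply]
  rw [← h1, ← aeval_algHom_apply, ratHom_X]

omit [IsAlgClosed k] in
theorem exists_rat (h : Hyp F x w) (f : K) : ∃ a b : RatFunc k,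
    f = ratHom x (transc h) a + ratHom x (transc h) b * w := by
  obtain ⟨A, B, c, hc, he⟩ := h.gen f
  refine ⟨algebraMap k[X] _ A / algebraMap k[X] _ c, algebraMap k[X] _ B / algebraMap k[X] _ c, ?_⟩
  have := h.aeval_ne hc
  simp only [map_div₀, ratHom_poly']
  unfold el at he
  field_simp
  exact he

omit [IsAlgClosed k] in
theorem fin_rat (h : Hyp F x w) :
    letI := ratAlg x (transc h); FiniteDimensional (RatFunc k) K := by
  classical
  letI := ratAlg x (transc h)
  refine ⟨⟨{1, w}, ?_⟩⟩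
  rw [eq_top_iff]
  intro f _
  obtain ⟨a, b, rfl⟩ := exists_rat h f
  refine Submodule.add_mem _ ?_ ?_
  · have : ratHom x (transc h) a = a • (1 : K) := by rw [Algebra.smul_def, mul_one]; rfl
    rw [this]
    exact Submodule.smul_mem _ _ (Submodule.subset_span (by simp))
  · have : ratHom x (transc h) b * w = b • w := by rw [Algebra.smul_def]; rfl
    rw [this]
    exact Submodule.smul_mem _ _ (Submodule.subset_span (by simp))

omit [IsAlgClosed k] in
theorem sep_rat (h : Hyp F x w) :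
    letI := ratAlg x (transc h); Algebra.IsSeparable (RatFunc k) K := by
  letI := ratAlg x (transc h)
  have hw : IsSeparable (RatFunc k) w := by
    have h1 : (X ^ 2 - C (algebraMap k[X] (RatFunc k) F)).Separable := by
      apply separable_X_pow_sub_C
      · have : ((2 : ℕ) : RatFunc k) = algebraMap k (RatFunc k) 2 := by simp [map_ofNat]
        rw [this]
        simpa using h.two
      · exact RatFunc.algebraMap_ne_zero h.F_ne
    refine h1.of_dvd (minpoly.dvd _ _ ?_)
    rw [map_sub, map_pow, aeval_X, aeval_C, h.sq, sub_eq_zero]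
    exact (ratHom_poly' (transc h) F).symm
  refine ⟨fun f => ?_⟩
  obtain ⟨a, b, rfl⟩ := exists_rat h f
  exact Field.isSeparable_add (isSeparable_algebraMap a)
    (Field.isSeparable_mul (isSeparable_algebraMap b) hw)

theorem hasGen (h : Hyp F x w) : HasGen k K ((F.natDegree - 1) / 2) := by
  letI := ratAlg x (transc h)
  haveI := ratAlg_tower x (transc h)
  haveI := fin_rat h
  haveI := sep_rat h
  rw [← gen_eq h]
  exact hasGen_gen k K

end genus

variable {C k K : Type*} [Field C] [Field k] [Field K] [Algebra C K]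

/-- the polynomial of the chart `x = a + π Z`, `w = γ W` -/
noncomputable def chP (F : C[X]) (a π γ : C) : C[X] :=
  Polynomial.C (γ ^ 2)⁻¹ * F.comp (Polynomial.C a + Polynomial.C π * X)

/-- a chart `x = a + π Z`, `w = γ W` in which the curve reduces to `W ^ 2 = G ^ 2 H` -/
structure Ch (vC : Valuation C ℝ≥0) (ρC : C → k) (F : C[X]) (a π γ : C) (G H : k[X]) : Prop where
  pi0 : π ≠ 0
  ga0 : γ ≠ 0
  rd : Rd vC ρC (chP F a π γ) (G ^ 2 * H)
  G0 : G ≠ 0
  sep : H.Separable
  pos : 0 < H.natDegree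

/-- the coordinate of the chart -/
noncomputable def cZ (x : K) (a π : C) : K := (x - algebraMap C K a) / algebraMap C K π

/-- the second coordinate of the chart -/
noncomputable def cW (w : K) (γ : C) : K := w / algebraMap C K γ

variable {vC : Valuation C ℝ≥0} {ρC : C → k} {F : C[X]} {a π γ : C} {G H : k[X]} {x w : K}

theorem Ch.mk' {F1 : C[X]} (pi0 : π ≠ 0) (ga0 : γ ≠ 0)
    (hF : F.comp (Polynomial.C a + Polynomial.C π * X) = Polynomial.C (γ ^ 2) * F1)
    (rd : Rd vC ρC F1 (G ^ 2 * H)) (G0 : G ≠ 0) (sep : H.Separable) (pos : 0 < H.natDegree) :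
    Ch vC ρC F a π γ G H := by
  refine ⟨pi0, ga0, rd.congr ?_ rfl, G0, sep, pos⟩
  rw [chP, hF, ← mul_assoc, ← map_mul, inv_mul_cancel₀ (pow_ne_zero 2 ga0), map_one, one_mul]

theorem cZ_spec (hπ : π ≠ 0) : x = algebraMap C K a + algebraMap C K π * cZ x a π := by
  have : algebraMap C K π ≠ 0 := by simpa using hπ
  unfold cZ; field_simp; ring

theorem cW_spec (hγ : γ ≠ 0) : w = algebraMap C K γ * cW w γ := by
  have : algebraMap C K γ ≠ 0 := by simpa using hγ
  unfold cW; field_simp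

namespace Ch

variable (h : Ch vC ρC F a π γ G H) (hy : Hyp F x w) (hr : IsRes vC ρC) (h2 : (2 : k) ≠ 0)
include h hy

theorem hyp1 : Hyp (chP F a π γ) (cZ x a π) (cW w γ) :=
  hy.chart h.pi0 h.ga0 (cZ_spec h.pi0) (cW_spec h.ga0) (by
    rw [chP, ← mul_assoc, ← map_mul, mul_inv_cancel₀ (pow_ne_zero 2 h.ga0), map_one, one_mul])

include hr h2

theorem nm : Nm vC ρC (chP F a π γ) G H (cZ x a π) (cW w γ) :=
  ⟨hr, h2, (h.hyp1 hy).tr, (h.hyp1 hy).sq, (h.hyp1 hy).gen, h.rd, h.G0, h.sep, h.pos⟩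

/-- the norm of the chart -/
noncomputable def val : Valuation K ℝ≥0 := (h.nm hy hr h2).val

/-- the residue field as a `k`-algebra -/
@[reducible] noncomputable def alg : Algebra k (kap (h.val hy hr h2)) := (h.nm hy hr h2).alg

theorem red : @Red C K k (kap (h.val hy hr h2)) _ _ _ _ _ (h.alg hy hr h2) vC ρC (h.val hy hr h2)
    (rs (h.val hy hr h2)) := (h.nm hy hr h2).red

theorem hasGen [IsAlgClosed k] :
    @HasGen k (kap (h.val hy hr h2)) _ _ (h.alg hy hr h2) ((H.natDegree - 1) / 2) := by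
  letI := h.alg hy hr h2
  exact Nf.hasGen (h.nm hy hr h2).hyp

theorem val_const (c : C) : h.val hy hr h2 (algebraMap C K c) = vC c :=
  (h.nm hy hr h2).val_const c

theorem val_x_sub (b : C) :
    h.val hy hr h2 (x - algebraMap C K b) = max (vC π) (vC (a - b)) := by
  have hπ : vC π ≠ 0 := by simpa using h.pi0
  have h1 : x - algebraMap C K b =
      algebraMap C K π * aeval (cZ x a π) (X + Polynomial.C ((a - b) / π)) := by
    have : algebraMap C K π ≠ 0 := by simpa using h.pi0
    simp only [map_add, aeval_X, aeval_C, map_div₀, map_sub, cZ]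
    field_simp; ring
  rw [h1, map_mul, h.val_const hy hr h2]
  unfold val
  rw [Nm.val_aeval, gn_X_add, mul_max_of_nonneg _ _ zero_le, mul_one, map_div₀,
    mul_div_cancel₀ _ hπ]

theorem ne_of {a' π' γ' : C} {G' H' : k[X]} (h' : Ch vC ρC F a' π' γ' G' H')
    (hne : vC π ≠ vC π' ∨ vC π < vC (a - a')) : h.val hy hr h2 ≠ h'.val hy hr h2 := by
  intro he
  have e1 := h.val_x_sub hy hr h2 a
  have e2 := h.val_x_sub hy hr h2 a'
  have e3 := h'.val_x_sub hy hr h2 a
  have e4 := h'.val_x_sub hy hr h2 a'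
  rw [← he, e1] at e3
  rw [← he, e2] at e4
  rw [sub_self, map_zero, max_eq_left zero_le] at e3 e4
  rw [Valuation.map_sub_swap] at e3
  rcases hne with hne | hne
  · apply hne
    exact le_antisymm (e4 ▸ le_max_left _ _) (e3 ▸ le_max_left _ _)
  · exact absurd (e3 ▸ le_max_right _ _) (not_le.mpr hne)

/-- triviality on the residue field, general form -/
theorem triv' (e : SI C K C K) (hs : ∀ c, vC c ≤ 1 → vC (e.s c - c) < 1)
    (hZ : h.val hy hr h2 (e.f (cZ x a π) - cZ x a π) < 1)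
    (hW : h.val hy hr h2 (e.f (cW w γ) - cW w γ) < 1) (f : K) (hf : h.val hy hr h2 f ≤ 1) :
    h.val hy hr h2 (e.f f - f) < 1 := (h.nm hy hr h2).triv e hs hZ hW f hf

/-- triviality on the residue field for `x ↦ α x + β`, `w ↦ ε w` -/
theorem triv (e : SI C K C K) (hs : ∀ c, vC c ≤ 1 → vC (e.s c - c) < 1) {α β ε : C}
    (hx : e.f x = algebraMap C K α * x + algebraMap C K β) (hw : e.f w = algebraMap C K ε * w)
    (h3 : vC (α * π / e.s π - 1) < 1) (h4 : vC ((α * a + β - e.s a) / e.s π) < 1)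
    (h5 : vC (ε * γ / e.s γ - 1) < 1) (f : K) (hf : h.val hy hr h2 f ≤ 1) :
    h.val hy hr h2 (e.f f - f) < 1 := by
  have p0 : algebraMap C K π ≠ 0 := by simpa using h.pi0
  have p1 : algebraMap C K (e.s π) ≠ 0 := by simpa using h.pi0
  have g0 : algebraMap C K γ ≠ 0 := by simpa using h.ga0
  have g1 : algebraMap C K (e.s γ) ≠ 0 := by simpa using h.ga0
  refine h.triv' hy hr h2 e hs ?_ ?_ f hf
  · have : e.f (cZ x a π) - cZ x a π = algebraMap C K (α * π / e.s π - 1) * cZ x a π +
        algebraMap C K ((α * a + β - e.s a) / e.s π) := by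
      simp only [cZ, map_div₀, map_sub, e.comm, hx, map_mul, map_add, map_one]
      field_simp; ring
    rw [this]
    refine lt_of_le_of_lt (Valuation.map_add _ _ _) (max_lt ?_ ?_)
    · rw [map_mul, h.val_const hy hr h2]
      exact mul_lt_one_of_lt_of_le h3 (h.nm hy hr h2).val_Z.le
    · rwa [h.val_const hy hr h2]
  · have : e.f (cW w γ) - cW w γ = algebraMap C K (ε * γ / e.s γ - 1) * cW w γ := by
      simp only [cW, map_div₀, map_sub, e.comm, hw, map_mul, map_one]
      field_simp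
    rw [this, map_mul, h.val_const hy hr h2]
    exact mul_lt_one_of_lt_of_le h5 (h.nm hy hr h2).val_W.le

end Ch

/-- helper92's multi-norm criterion of Néron-Ogg-Shafarevich -/
def NOS : Prop :=
  ∀ (C K k : Type) [Field C] [IsAlgClosed C] [CharZero C] [Field K] [Algebra C K]
    [Algebra (RatFunc C) K] [IsScalarTower C (RatFunc C) K] [FiniteDimensional (RatFunc C) K]
    [Algebra.IsSeparable (RatFunc C) K] [Field k] [IsAlgClosed k]
    (vC : Valuation C ℝ≥0) (ρC : C → k) (p : ℕ) (_ : p.Prime) (_ : vC p < 1)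
    (ι : Type) [Fintype ι] (W : ι → Valuation K ℝ≥0) (_ : Function.Injective W)
    (κ : ι → Type) [∀ i, Field (κ i)] [∀ i, Algebra k (κ i)] (ρ : ∀ i, K → κ i)
    (_ : ∀ i, Red vC ρC (W i) (ρ i)) (g : ι → ℕ) (_ : ∀ i, HasGen k (κ i) (g i))
    (_ : R013.RR11_948.gen C K ≤ ∑ i, g i) (e : SI C K C K)
    (_ : ∀ i f, W i f ≤ 1 → W i (e.f f - f) < 1) (n : ℕ) (_ : vC n = 1) (y : Pic C K)
    (_ : n • y = 0), e.pic y = y

/-- a family of charts whose genera add up to the genus -/
theorem nos_of_charts (hN : NOS) {C K k : Type} [Field C] [IsAlgClosed C] [CharZero C] [Field K]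
    [Algebra C K] [Algebra (RatFunc C) K] [IsScalarTower C (RatFunc C) K]
    [FiniteDimensional (RatFunc C) K] [Algebra.IsSeparable (RatFunc C) K] [Field k] [IsAlgClosed k]
    {vC : Valuation C ℝ≥0} {ρC : C → k} (hr : IsRes vC ρC) (h2 : (2 : k) ≠ 0) {p : ℕ}
    (hp : p.Prime) (hpv : vC p < 1) {F : C[X]} {x w : K} (hy : Hyp F x w)
    {ι : Type} [Fintype ι] {a π γ : ι → C} {G H : ι → k[X]}
    (h : ∀ i, Ch vC ρC F (a i) (π i) (γ i) (G i) (H i))
    (hne : ∀ i j, i ≠ j → vC (π i) ≠ vC (π j) ∨ vC (π i) < vC (a i - a j))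
    (hg : (F.natDegree - 1) / 2 ≤ ∑ i, ((H i).natDegree - 1) / 2)
    (e : SI C K C K) (hs : ∀ c, vC c ≤ 1 → vC (e.s c - c) < 1) {α β ε : C}
    (hx : e.f x = algebraMap C K α * x + algebraMap C K β) (hw : e.f w = algebraMap C K ε * w)
    (h3 : ∀ i, vC (α * π i / e.s (π i) - 1) < 1)
    (h4 : ∀ i, vC ((α * a i + β - e.s (a i)) / e.s (π i)) < 1)
    (h5 : ∀ i, vC (ε * γ i / e.s (γ i) - 1) < 1) {n : ℕ} (hn : vC n = 1) {y : Pic C K}
    (hy0 : n • y = 0) : e.pic y = y := by
  letI : ∀ i, Algebra k (kap ((h i).val hy hr h2)) := fun i => (h i).alg hy hr h2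
  refine hN C K k vC ρC p hp hpv ι (fun i => (h i).val hy hr h2) ?_
    (fun i => kap ((h i).val hy hr h2)) (fun i => rs _) (fun i => (h i).red hy hr h2)
    (fun i => ((H i).natDegree - 1) / 2) (fun i => (h i).hasGen hy hr h2)
    (by rw [gen_eq hy]; exact hg) e
    (fun i => (h i).triv hy hr h2 e hs hx hw (h3 i) (h4 i) (h5 i)) n hn y hy0
  intro i j hij
  by_contra hc
  exact (h i).ne_of hy hr h2 (h j) (hne i j hc) hij

end Crest.Agent.T15.Nf
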