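import Mathlib

/-!
# Row 15, block Fl: flat Galois modules without Hopf algebras (helper23)

`G` acts on a valued field `(Ω, w)`.  `RR w G` is the ring of functions `G → Ω` generated by the integral
constants and the functions `g ↦ g • a`, `a` integral (the image of `O ⊗ O`).  A `G`-module `V` is *flat*
if every matrix coefficient `g ↦ χ (g v)` (`χ` a character of `V`) lies in this ring.
-/

set_option autoImplicit false

noncomputable section

namespace Crest.Agent.T15.FlR

open scoped NNReal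

variable {Ω : Type*} [Field Ω] (w : Valuation Ω ℝ≥0) (G : Type*) [Group G] [MulSemiringAction G Ω]

/-- generators -/
def gens : Set (G → Ω) :=
  {F | ∃ c : Ω, w c ≤ 1 ∧ F = fun _ => c} ∪ {F | ∃ a : Ω, w a ≤ 1 ∧ F = fun g => g • a}

/-- the ring of integral functions on `G` -/
def RR : Subring (G → Ω) := Subring.closure (gens w G)

/-- `(V, ρ)` is flat -/
def Flat {V : Type*} [AddCommGroup V] (ρ : G → V → V) : Prop :=
  ∀ (v : V) (χ : AddChar V Ω), (fun g => χ (ρ g v)) ∈ RR w G

variable {w G}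

theorem const_mem {c : Ω} (hc : w c ≤ 1) : (fun _ : G => c) ∈ RR w G :=
  Subring.subset_closure (Or.inl ⟨c, hc, rfl⟩)

theorem smul_mem {a : Ω} (ha : w a ≤ 1) : (fun g : G => g • a) ∈ RR w G :=
  Subring.subset_closure (Or.inr ⟨a, ha, rfl⟩)

theorem mul_mem' {F F' : G → Ω} (h : F ∈ RR w G) (h' : F' ∈ RR w G) :
    (fun g => F g * F' g) ∈ RR w G := (RR w G).mul_mem h h'

theorem add_mem' {F F' : G → Ω} (h : F ∈ RR w G) (h' : F' ∈ RR w G) :
    (fun g => F g + F' g) ∈ RR w G := (RR w G).add_mem h h'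

theorem neg_mem' {F : G → Ω} (h : F ∈ RR w G) : (fun g => -F g) ∈ RR w G := (RR w G).neg_mem h


theorem sum_mem' {ι : Type*} (s : Finset ι) {F : ι → G → Ω} (h : ∀ i ∈ s, F i ∈ RR w G) :
    (fun g => ∑ i ∈ s, F i g) ∈ RR w G := by
  have := (RR w G).sum_mem h
  convert this using 1
  ext g; simp

theorem prod_mem' {ι : Type*} (s : Finset ι) {F : ι → G → Ω} (h : ∀ i ∈ s, F i ∈ RR w G) :
    (fun g => ∏ i ∈ s, F i g) ∈ RR w G := by
  have := (RR w G).prod_mem h
  convert this using 1
  ext g; simp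

theorem pow_mem' {F : G → Ω} (h : F ∈ RR w G) (n : ℕ) : (fun g => F g ^ n) ∈ RR w G :=
  (RR w G).pow_mem h n

/-- a function with finitely many values, all units, has its inverse in `RR` -/
theorem inv_mem {F : G → Ω} (h : F ∈ RR w G) (hfin : (Set.range F).Finite)
    (hu : ∀ g, w (F g) = 1) : (fun g => (F g)⁻¹) ∈ RR w G := by
  classical
  have key : ∀ T : Finset Ω, (∀ y ∈ T, w y = 1) →
      ∃ r ∈ RR w G, ∀ g, ∏ y ∈ T, (F g - y) = F g * r g + ∏ y ∈ T, (-y) := by
    intro T
    induction T using Finset.induction_on with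
    | empty => intro _; exact ⟨0, (RR w G).zero_mem, fun g => by simp⟩
    | insert a T ha ih =>
      intro hT
      obtain ⟨r, hr, hrg⟩ := ih (fun y hy => hT y (Finset.mem_insert_of_mem hy))
      have hc : w (∏ y ∈ T, (-y)) ≤ 1 := by
        rw [map_prod]
        exact (Finset.prod_eq_one fun y hy => by
          rw [Valuation.map_neg]; exact hT y (Finset.mem_insert_of_mem hy)).le
      have ha1 : w (-a) ≤ 1 := by
        rw [Valuation.map_neg]; exact (hT a (Finset.mem_insert_self _ _)).le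
      refine ⟨fun g => F g * r g + (-a) * r g + ∏ y ∈ T, (-y),
        add_mem' (add_mem' (mul_mem' h hr) (mul_mem' (const_mem ha1) hr)) (const_mem hc), fun g => ?_⟩
      rw [Finset.prod_insert ha, Finset.prod_insert ha, hrg]
      ring
  obtain ⟨r, hr, hrg⟩ := key hfin.toFinset (fun y hy => by
    obtain ⟨g, rfl⟩ := hfin.mem_toFinset.mp hy
    exact hu g)
  set c := ∏ y ∈ hfin.toFinset, (-y) with hcdef
  have hc : w c = 1 := by
    rw [hcdef, map_prod]
    exact Finset.prod_eq_one fun y hy => by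
      obtain ⟨g, rfl⟩ := hfin.mem_toFinset.mp hy
      rw [Valuation.map_neg]; exact hu g
  have hc0 : c ≠ 0 := by rintro h0; simp [h0] at hc
  have hci : w (-c⁻¹) ≤ 1 := by rw [Valuation.map_neg, map_inv₀, hc]; simp
  have := mul_mem' (const_mem (G := G) hci) hr
  convert this using 1
  ext g
  have h0 : ∏ y ∈ hfin.toFinset, (F g - y) = 0 :=
    Finset.prod_eq_zero (hfin.mem_toFinset.mpr ⟨g, rfl⟩) (sub_self _)
  have h1 : F g ≠ 0 := by intro h0; have := hu g; simp [h0] at this
  have h2 := hrg g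
  rw [h0] at h2
  field_simp
  linear_combination -h2

/-- if all orbits are finite, every element of `RR` has finitely many values -/
theorem finite_range (horb : ∀ a : Ω, (Set.range fun g : G => g • a).Finite) {F : G → Ω}
    (h : F ∈ RR w G) : (Set.range F).Finite := by
  induction h using Subring.closure_induction with
  | mem x hx =>
    rcases hx with ⟨c, -, rfl⟩ | ⟨a, -, rfl⟩
    · exact (Set.finite_singleton c).subset (by rintro _ ⟨g, rfl⟩; rfl)
    · exact horb a
  | zero => exact (Set.finite_singleton 0).subset (by rintro _ ⟨g, rfl⟩; rfl)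
  | one => exact (Set.finite_singleton 1).subset (by rintro _ ⟨g, rfl⟩; rfl)
  | add x y _ _ hx hy =>
    exact (Set.Finite.image2 (· + ·) hx hy).subset
      (by rintro _ ⟨g, rfl⟩; exact ⟨_, ⟨g, rfl⟩, _, ⟨g, rfl⟩, rfl⟩)
  | neg x _ hx => exact (hx.image (- ·)).subset (by rintro _ ⟨g, rfl⟩; exact ⟨_, ⟨g, rfl⟩, rfl⟩)
  | mul x y _ _ hx hy =>
    exact (Set.Finite.image2 (· * ·) hx hy).subset
      (by rintro _ ⟨g, rfl⟩; exact ⟨_, ⟨g, rfl⟩, _, ⟨g, rfl⟩, rfl⟩)


/-- change of group -/
theorem comp_mem {G' : Type*} [Group G'] [MulSemiringAction G' Ω] (r : G' → G)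
    (hr : ∀ (g : G') (x : Ω), r g • x = g • x) {F : G → Ω} (h : F ∈ RR w G) :
    (fun g => F (r g)) ∈ RR w G' := by
  induction h using Subring.closure_induction with
  | mem x hx =>
    rcases hx with ⟨c, hc, rfl⟩ | ⟨a, ha, rfl⟩
    · exact const_mem hc
    · simpa [hr] using smul_mem (G := G') ha
  | zero => exact (RR w G').zero_mem
  | one => exact (RR w G').one_mem
  | add x y _ _ hx hy => exact add_mem' hx hy
  | neg x _ hx => exact (RR w G').neg_mem hx
  | mul x y _ _ hx hy => exact mul_mem' hx hy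

/-- change of field -/
theorem map_mem {Ω' : Type*} [Field Ω'] {w' : Valuation Ω' ℝ≥0} [MulSemiringAction G Ω']
    (j : Ω →+* Ω') (hj : ∀ x, w x ≤ 1 → w' (j x) ≤ 1) (hg : ∀ (g : G) (x : Ω), j (g • x) = g • j x)
    {F : G → Ω} (h : F ∈ RR w G) : (fun g => j (F g)) ∈ RR w' G := by
  induction h using Subring.closure_induction with
  | mem x hx =>
    rcases hx with ⟨c, hc, rfl⟩ | ⟨a, ha, rfl⟩
    · exact const_mem (hj c hc)
    · simpa [hg] using smul_mem (G := G) (hj a ha)
  | zero => simpa using const_mem (w := w') (G := G) (c := 0) (by simp)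
  | one => simpa using const_mem (w := w') (G := G) (c := 1) (by simp)
  | add x y _ _ hx hy => simpa using add_mem' hx hy
  | neg x _ hx => simpa using neg_mem' hx
  | mul x y _ _ hx hy => simpa using mul_mem' hx hy

variable {V V' : Type*} [AddCommGroup V] [AddCommGroup V']

/-- quotients -/
theorem Flat.quot {ρ : G → V → V} {ρ' : G → V' → V'} (h : Flat w G ρ) (q : V →+ V')
    (hq : Function.Surjective q) (he : ∀ g v, q (ρ g v) = ρ' g (q v)) : Flat w G ρ' := by
  intro v' χ
  obtain ⟨v, rfl⟩ := hq v'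
  simpa [he] using h v (χ.compAddMonoidHom q)

/-- change of group -/
theorem Flat.comp {G' : Type*} [Group G'] [MulSemiringAction G' Ω] {ρ : G → V → V} (h : Flat w G ρ)
    (r : G' → G) (hr : ∀ (g : G') (x : Ω), r g • x = g • x) : Flat w G' (fun g => ρ (r g)) :=
  fun v χ => comp_mem r hr (h v χ)

theorem inv_mem_of_finite {A : Type*} [Group A] [Finite A] (S : Submonoid A) (a : A) (ha : a ∈ S) :
    a⁻¹ ∈ S := by
  have h0 : 0 < orderOf a := orderOf_pos a
  have : a⁻¹ = a ^ (orderOf a - 1) := by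
    rw [inv_eq_iff_mul_eq_one, ← pow_succ', Nat.sub_add_cancel h0, pow_orderOf_eq_one]
  rw [this]
  exact S.pow_mem ha _

/-- a separating subgroup of characters is everything -/
theorem char_top [IsAlgClosed Ω] [CharZero Ω] [Finite V] (P : AddChar V Ω → Prop) (h1 : P 1)
    (hm : ∀ χ χ', P χ → P χ' → P (χ * χ')) (hs : ∀ v, v ≠ 0 → ∃ χ, P χ ∧ χ v ≠ 1) (χ : AddChar V Ω) :
    P χ := by
  let M := Multiplicative V
  let e : (M →* Ωˣ) → AddChar V Ω := fun φ =>
    AddChar.toMonoidHomEquiv.symm ((Units.coeHom Ω).comp φ)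
  have he : ∀ φ v, e φ v = (φ (Multiplicative.ofAdd v) : Ω) := fun φ v => rfl
  have hsur : ∀ χ : AddChar V Ω, ∃ φ, e φ = χ := fun χ =>
    ⟨(AddChar.toMonoidHomEquiv χ).toHomUnits, by ext v; rfl⟩
  have hne : NeZero (Monoid.exponent M) := ⟨Monoid.exponent_ne_zero_of_finite⟩
  have hfin : Finite (M →* Ωˣ) :=
    Finite.of_equiv _ (CommGroup.monoidHom_mulEquiv_of_hasEnoughRootsOfUnity M Ω).some.symm.toEquiv
  let S0 : Submonoid (M →* Ωˣ) :=
    { carrier := {φ | P (e φ)}
      one_mem' := by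
        have : e 1 = 1 := by ext v; rfl
        simpa [this] using h1
      mul_mem' := fun {a b} ha hb => by
        have : e (a * b) = e a * e b := by ext v; simp [he]
        simpa [this] using hm _ _ ha hb }
  let S : Subgroup (M →* Ωˣ) :=
    { S0 with inv_mem' := fun {a} ha => inv_mem_of_finite S0 a ha }
  have hbot : (CommGroup.subgroupOrderIsoSubgroupMonoidHom M Ω).symm (OrderDual.toDual S) = ⊥ := by
    rw [eq_bot_iff]
    intro g hg
    rw [CommGroup.mem_subgroupOrderIsoSubgroupMonoidHom_symm_iff] at hg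
    by_contra hg1
    obtain ⟨χ, hχ, hv⟩ := hs (Multiplicative.toAdd g) (fun h0 => hg1 (by
      rw [Subgroup.mem_bot]; exact h0))
    obtain ⟨φ, rfl⟩ := hsur χ
    apply hv
    rw [he]
    have := hg φ hχ
    simpa using congrArg (Units.val) this
  obtain ⟨φ, rfl⟩ := hsur χ
  have hS : OrderDual.toDual S = CommGroup.subgroupOrderIsoSubgroupMonoidHom M Ω ⊥ := by
    rw [← hbot, OrderIso.apply_symm_apply]
  have : φ ∈ (CommGroup.subgroupOrderIsoSubgroupMonoidHom M Ω ⊥).ofDual := by
    rw [CommGroup.mem_subgroupOrderIsoSubgroupMonoidHom_iff]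
    intro g hg
    rw [Subgroup.mem_bot.mp hg, map_one]
  rw [← hS] at this
  exact this

/-- characters separate points -/
theorem exists_char [IsAlgClosed Ω] [CharZero Ω] [Finite V] {v : V} (hv : v ≠ 0) :
    ∃ χ : AddChar V Ω, χ v ≠ 1 := by
  have hne : NeZero (Monoid.exponent (Multiplicative V)) := ⟨Monoid.exponent_ne_zero_of_finite⟩
  obtain ⟨φ, hφ⟩ := CommGroup.exists_apply_ne_one_of_hasEnoughRootsOfUnity (Multiplicative V) Ω
    (a := Multiplicative.ofAdd v) (fun h => hv h)
  refine ⟨AddChar.toMonoidHomEquiv.symm ((Units.coeHom Ω).comp φ), fun h => hφ ?_⟩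
  exact Units.ext h

/-- it is enough to have a separating family of good characters -/
theorem flat_of_sep [IsAlgClosed Ω] [CharZero Ω] [Finite V] {ρ : G → V → V}
    (h : ∀ u : V, u ≠ 0 → ∃ χ : AddChar V Ω, χ u ≠ 1 ∧ ∀ v, (fun g => χ (ρ g v)) ∈ RR w G) :
    Flat w G ρ := by
  intro v χ
  refine char_top (fun χ => ∀ v, (fun g => χ (ρ g v)) ∈ RR w G) (fun v => (RR w G).one_mem)
    (fun χ χ' h1 h2 v => mul_mem' (h1 v) (h2 v)) (fun u hu => ?_) χ v
  obtain ⟨χ, h1, h2⟩ := h u hu
  exact ⟨χ, h2, h1⟩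

/-- a module that embeds into a product of finite flat modules is flat (submodules, finite sums) -/
theorem flat_of_emb [IsAlgClosed Ω] [CharZero Ω] [Finite V'] {ι : Type*} {W : ι → Type*}
    [∀ j, AddCommGroup (W j)] [∀ j, Finite (W j)] {ρ : ∀ j, G → W j → W j} {ρ' : G → V' → V'}
    (h : ∀ j, Flat w G (ρ j)) (i : ∀ j, V' →+ W j) (hi : ∀ v, (∀ j, i j v = 0) → v = 0)
    (he : ∀ j g v, i j (ρ' g v) = ρ j g (i j v)) : Flat w G ρ' := by
  refine flat_of_sep fun u hu => ?_
  obtain ⟨j, hj⟩ : ∃ j, i j u ≠ 0 := by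
    by_contra hcon
    push Not at hcon
    exact hu (hi u hcon)
  obtain ⟨χ, hχ⟩ := exists_char (Ω := Ω) hj
  exact ⟨χ.compAddMonoidHom (i j), hχ, fun v => by simpa [he] using h j (i j v) χ⟩

/-- submodules -/
theorem Flat.sub [IsAlgClosed Ω] [CharZero Ω] [Finite V] {ρ : G → V → V} {ρ' : G → V' → V'}
    (h : Flat w G ρ) (i : V' →+ V) (hi : Function.Injective i)
    (he : ∀ g v, i (ρ' g v) = ρ g (i v)) : Flat w G ρ' := by
  have : Finite V' := Finite.of_injective i hi
  exact flat_of_emb (ι := Unit) (W := fun _ => V) (fun _ => h) (fun _ => i)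
    (fun v hv => hi (by simpa using hv ())) (fun _ => he)

/-- products -/
theorem Flat.prod {ρ : G → V → V} {ρ' : G → V' → V'} (h : Flat w G ρ) (h' : Flat w G ρ') :
    Flat w G (fun g (x : V × V') => (ρ g x.1, ρ' g x.2)) := by
  intro v χ
  have := mul_mem' (h v.1 (χ.compAddMonoidHom (AddMonoidHom.inl V V')))
    (h' v.2 (χ.compAddMonoidHom (AddMonoidHom.inr V V')))
  convert this using 2 with g
  simp [← AddChar.map_add_eq_mul]

/-- finite products -/
theorem flat_pi {ι : Type*} [Finite ι] {W : ι → Type*} [∀ j, AddCommGroup (W j)]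
    {ρ : ∀ j, G → W j → W j} (h : ∀ j, Flat w G (ρ j)) :
    Flat w G (fun g (x : ∀ j, W j) j => ρ j g (x j)) := by
  classical
  have := Fintype.ofFinite ι
  intro v χ
  have := prod_mem' Finset.univ
    (fun j _ => h j (v j) (χ.compAddMonoidHom (AddMonoidHom.single W j)))
  convert this using 2 with g
  have h1 : (fun j => ρ j g (v j)) = ∑ j, Pi.single j (ρ j g (v j)) :=
    (Finset.univ_sum_single _).symm
  change χ (fun j => ρ j g (v j)) = _
  rw [h1]
  have h2 : ∀ (s : Finset ι) (f : ι → ∀ j, W j), χ (∑ j ∈ s, f j) = ∏ j ∈ s, χ (f j) := by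
    intro s f
    induction s using Finset.induction_on with
    | empty => simp
    | insert a s ha ih => rw [Finset.sum_insert ha, Finset.prod_insert ha, χ.map_add_eq_mul, ih]
  rw [h2]
  simp


end Crest.Agent.T15.FlR
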