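import Mathlib
import Crest.Agent.T15.Inj_71
import Crest.Agent.R013.Frob1_914

-- ▼ part T15/HopfA_71
section

/-!
# Row 15 (helper71): equivariant integral functions on a finite set

`C` a valued field, `s : G → Aut C`, `π : G → Perm X`.
* `Wf vC s` : the ring of fixed integral elements; `Eqv vC s π` : equivariant integral functions;
* `exists_delta`, `mem_of_approx` : a point separating `Wf`-subalgebra of `Eqv` is open and closed
  among the equivariant functions (no completeness, no discreteness);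
* `inv_mem`, `solve_mem` (Cramer), `fg_adjoin`;
* `IsHopf vC s act A` : Hopf order.
-/

set_option autoImplicit false
set_option linter.all false

namespace Crest.Agent.T15.Hopf

open Polynomial
open scoped NNReal

variable {C : Type*} [Field C] (vC : Valuation C ℝ≥0) {G : Type*} (s : G → C ≃+* C)

/-- fixed integral elements -/
def Wf : Subring C where
  carrier := {c | vC c ≤ 1 ∧ ∀ g, s g c = c}
  mul_mem' := fun {a b} ha hb => ⟨by rw [map_mul]; exact mul_le_one' ha.1 hb.1,
    fun g => by rw [map_mul, ha.2, hb.2]⟩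
  one_mem' := ⟨by simp, fun g => map_one _⟩
  add_mem' := fun {a b} ha hb => ⟨(Valuation.map_add _ _ _).trans (max_le ha.1 hb.1),
    fun g => by rw [map_add, ha.2, hb.2]⟩
  zero_mem' := ⟨by simp, fun g => map_zero _⟩
  neg_mem' := fun {a} ha => ⟨by rw [Valuation.map_neg]; exact ha.1, fun g => by rw [map_neg, ha.2]⟩


variable {X : Type*} (π : G → X ≃ X)

/-- equivariant functions -/
def IsEq (f : X → C) : Prop := ∀ g x, f (π g x) = s g (f x)

/-- equivariant integral functions -/
def Eqv : Subalgebra (Wf vC s) (X → C) where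
  carrier := {f | (∀ x, vC (f x) ≤ 1) ∧ IsEq s π f}
  mul_mem' := fun {a b} ha hb => ⟨fun x => by
      rw [Pi.mul_apply, map_mul]; exact mul_le_one' (ha.1 x) (hb.1 x),
    fun g x => by rw [Pi.mul_apply, Pi.mul_apply, map_mul, ha.2, hb.2]⟩
  add_mem' := fun {a b} ha hb => ⟨fun x => (Valuation.map_add _ _ _).trans (max_le (ha.1 x) (hb.1 x)),
    fun g x => by rw [Pi.add_apply, Pi.add_apply, map_add, ha.2, hb.2]⟩
  algebraMap_mem' := fun c => ⟨fun x => c.2.1, fun g x => (c.2.2 g).symm⟩


/-- separation of points -/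
def Sep (B : Set (X → C)) : Prop := ∀ x y : X, x ≠ y → ∃ f ∈ B, f x ≠ f y

variable {vC s π}

theorem const_mem (B : Subalgebra (Wf vC s) (X → C)) {c : C} (hc : c ∈ Wf vC s) :
    (fun _ => c) ∈ B := B.algebraMap_mem ⟨c, hc⟩

theorem span_eq_top [Fintype X] {W : Subring C} (B : Subalgebra W (X → C)) (hs : Sep (B : Set (X → C))) :
    Submodule.span C (B : Set (X → C)) = ⊤ := by
  classical
  have hmul : ∀ f ∈ Submodule.span C (B : Set (X → C)), ∀ g ∈ Submodule.span C (B : Set (X → C)),
      f * g ∈ Submodule.span C (B : Set (X → C)) := by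
    intro f hf g hg
    have h1 := Submodule.mul_mem_mul hf hg
    rw [Submodule.span_mul_span] at h1
    refine Submodule.span_mono ?_ h1
    rintro _ ⟨a, ha, b, hb, rfl⟩
    exact B.mul_mem ha hb
  have hone : (1 : X → C) ∈ Submodule.span C (B : Set (X → C)) := Submodule.subset_span B.one_mem
  have hsingle : ∀ x : X, (Pi.single x (1 : C) : X → C) ∈ Submodule.span C (B : Set (X → C)) := by
    intro x
    have h1 : ∀ T : Finset X, x ∉ T → ∃ e ∈ Submodule.span C (B : Set (X → C)), e x = 1 ∧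
        ∀ y ∈ T, e y = 0 := by
      intro T
      induction T using Finset.induction_on with
      | empty => exact fun _ => ⟨1, hone, rfl, by simp⟩
      | insert y T hy ih =>
        intro hx
        rw [Finset.mem_insert, not_or] at hx
        obtain ⟨e, he, he1, he0⟩ := ih hx.2
        obtain ⟨f, hf, hne⟩ := hs x y hx.1
        refine ⟨e * ((f x - f y)⁻¹ • (f - f y • 1)), hmul _ he _ (Submodule.smul_mem _ _
          (Submodule.sub_mem _ (Submodule.subset_span hf) (Submodule.smul_mem _ _ hone))), ?_, ?_⟩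
        · simp [he1, inv_mul_cancel₀ (sub_ne_zero.mpr hne)]
        · intro z hz
          rw [Finset.mem_insert] at hz
          rcases hz with rfl | hz
          · simp
          · simp [he0 z hz]
    obtain ⟨e, he, he1, he0⟩ := h1 (Finset.univ.erase x) (by simp)
    have h2 : (Pi.single x (1 : C) : X → C) = e := by
      funext y
      by_cases hy : y = x
      · rw [hy, he1, Pi.single_eq_same]
      · rw [he0 y (by simp [hy]), Pi.single_eq_of_ne hy]
    rw [h2]; exact he
  rw [eq_top_iff]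
  intro f _
  rw [pi_eq_sum_univ' f]
  refine Submodule.sum_mem _ fun x _ => Submodule.smul_mem _ _ ?_
  convert hsingle x

/-- small equivariant functions lie in `B` -/
theorem exists_delta [Fintype X] (B : Subalgebra (Wf vC s) (X → C)) (hB : B ≤ Eqv vC s π)
    (hs : Sep (B : Set (X → C))) :
    ∃ δ : ℝ≥0, 0 < δ ∧ ∀ ψ : X → C, IsEq s π ψ → (∀ x, vC (ψ x) ≤ δ) → ψ ∈ B := by
  classical
  obtain ⟨t, ht, hspan, hli⟩ := exists_linearIndependent C (B : Set (X → C))
  rw [span_eq_top B hs] at hspan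
  have hfin : t.Finite := hli.set_finite_of_isNoetherian
  haveI : Fintype t := hfin.fintype
  let b : Module.Basis t C (X → C) := Module.Basis.mk hli (by rw [Subtype.range_coe, hspan])
  have hb : ∀ i, b i = (i : X → C) := fun i => Module.Basis.mk_apply _ _ i
  let N : ℝ≥0 := (Finset.univ : Finset (X × t)).sup
    (fun p => vC (b.repr (Pi.single p.1 (1 : C)) p.2)) + 1
  have hN : 0 < N := by positivity
  refine ⟨N⁻¹, inv_pos.mpr hN, fun ψ hψ hle => ?_⟩
  have hsum := b.sum_repr ψ
  have hc : ∀ i, b.repr ψ i ∈ Wf vC s := by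
    intro i
    constructor
    · have h1 : b.repr ψ i = ∑ x, ψ x * b.repr (Pi.single x (1 : C)) i := by
        conv_lhs => rw [pi_eq_sum_univ' ψ]
        rw [map_sum, Finsupp.finsetSum_apply]
        refine Finset.sum_congr rfl fun x _ => ?_
        rw [map_smul, Finsupp.smul_apply, smul_eq_mul]
      rw [h1]
      refine Valuation.map_sum_le _ fun x _ => ?_
      rw [map_mul]
      have h2 : vC (b.repr (Pi.single x (1 : C)) i) ≤ N :=
        (Finset.le_sup (f := fun p : X × t => vC (b.repr (Pi.single p.1 (1 : C)) p.2))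
          (Finset.mem_univ (x, i))).trans (le_add_of_nonneg_right zero_le)
      calc _ ≤ N⁻¹ * N := mul_le_mul' (hle x) h2
        _ = 1 := inv_mul_cancel₀ hN.ne'
    · intro g
      have h1 : ∑ j, s g (b.repr ψ j) • b j = ψ := by
        funext y
        obtain ⟨x, rfl⟩ := (π g).surjective y
        rw [hψ g x]
        conv_rhs => rw [← hsum]
        rw [Finset.sum_apply, Finset.sum_apply, map_sum]
        refine Finset.sum_congr rfl fun j _ => ?_
        rw [Pi.smul_apply, Pi.smul_apply, smul_eq_mul, smul_eq_mul, map_mul, hb,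
          (hB (ht j.2)).2 g x]
      have h2 := congrArg (fun f => b.repr f i) h1
      simp only [map_sum, map_smul, Module.Basis.repr_self, Finsupp.finsetSum_apply,
        Finsupp.smul_apply, smul_eq_mul, Finsupp.single_apply, mul_ite, mul_one, mul_zero,
        Finset.sum_ite_eq', Finset.mem_univ, if_true] at h2
      exact h2
  rw [← hsum]
  refine B.sum_mem fun i _ => ?_
  have h3 : b.repr ψ i • b i = (⟨b.repr ψ i, hc i⟩ : Wf vC s) • (i : X → C) := by rw [hb]; rfl
  rw [h3]
  exact B.smul_mem (ht i.2) _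

theorem mem_of_approx [Fintype X] {B : Subalgebra (Wf vC s) (X → C)} (hB : B ≤ Eqv vC s π)
    (hs : Sep (B : Set (X → C))) {ψ : X → C} (hψ : IsEq s π ψ) {θ : ℝ≥0} (hθ : θ < 1)
    (h : ∀ n : ℕ, ∃ b ∈ B, ∀ x, vC (ψ x - b x) ≤ θ ^ n) : ψ ∈ B := by
  obtain ⟨δ, hδ, hm⟩ := exists_delta B hB hs
  obtain ⟨n, hn⟩ := exists_pow_lt_of_lt_one hδ hθ
  obtain ⟨b, hb, hle⟩ := h n
  have h1 := hm (ψ - b) (fun g x => by
    rw [Pi.sub_apply, Pi.sub_apply, map_sub, hψ, (hB hb).2]) (fun x => (hle x).trans hn.le)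
  have h2 := B.add_mem h1 hb
  rwa [sub_add_cancel] at h2

theorem exists_theta [Fintype X] (φ : X → ℝ≥0) (h : ∀ x, φ x < 1) :
    ∃ θ : ℝ≥0, θ < 1 ∧ ∀ x, φ x ≤ θ :=
  ⟨Finset.univ.sup φ, (Finset.sup_lt_iff (by simp)).mpr fun x _ => h x,
    fun x => Finset.le_sup (Finset.mem_univ x)⟩

theorem inv_mem [Fintype X] {B : Subalgebra (Wf vC s) (X → C)} (hB : B ≤ Eqv vC s π)
    (hs : Sep (B : Set (X → C))) {f : X → C} (hf : f ∈ B) (h1 : ∀ x, vC (f x - 1) < 1) :
    (fun x => (f x)⁻¹) ∈ B := by
  obtain ⟨θ, hθ, hle⟩ := exists_theta _ h1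
  refine mem_of_approx hB hs (fun g x => by simp only [(hB hf).2 g x, map_inv₀]) hθ fun n => ?_
  refine ⟨∑ i ∈ Finset.range n, (1 - f) ^ i,
    B.sum_mem fun i _ => B.pow_mem (B.sub_mem B.one_mem hf) i, fun x => ?_⟩
  have hv : vC (f x) = 1 := by
    have h2 : f x = 1 + (f x - 1) := by ring
    rw [h2, Valuation.map_add_eq_of_lt_left _ (by rw [map_one]; exact h1 x), map_one]
  have h0 : f x ≠ 0 := by rintro h0; rw [h0] at hv; simp at hv
  have h3 : (f x)⁻¹ - (∑ i ∈ Finset.range n, (1 - f) ^ i) x = (f x)⁻¹ * (1 - f x) ^ n := by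
    rw [Finset.sum_apply]
    simp only [Pi.pow_apply, Pi.sub_apply, Pi.one_apply]
    have h4 := mul_neg_geom_sum (1 - f x) n
    rw [sub_sub_cancel] at h4
    field_simp
    rw [h4]; ring
  rw [h3, map_mul, map_inv₀, hv, inv_one, one_mul, map_pow, Valuation.map_sub_swap]
  exact pow_le_pow_left' (hle x) n





variable (vC s) in
/-- a Hopf order: a finite `Wf`-algebra of equivariant integral functions on the finite group `V`,
separating points and stable under the antipode and the comultiplication -/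
structure IsHopf {V : Type*} [AddCommGroup V] (act : G → V ≃+ V)
    (A : Subalgebra (Wf vC s) (V → C)) : Prop where
  fg : A.toSubmodule.FG
  le : A ≤ Eqv vC s fun g => (act g).toEquiv
  sep : Sep (A : Set (V → C))
  neg : ∀ f ∈ A, (fun a => f (-a)) ∈ A
  add : ∀ f ∈ A, (fun x : V × V => f (x.1 + x.2)) ∈ Submodule.span (Wf vC s)
    {F : V × V → C | ∃ f₁ ∈ A, ∃ f₂ ∈ A, F = fun x => f₁ x.1 * f₂ x.2}

end Crest.Agent.T15.Hopf
end

-- ▼ part T15/HopfB_71

/-!
# Row 15 (helper71): isometric semilinear automorphisms and good reduction; invariant parameters;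
values of invariant functions at equivariant families of points

* `Good.exists_bar` : an isometric `SI` induces an `SI` of the residue fields, compatible with `sp`;
* `Good.spPic` : reduction of divisor classes;
* `Good.exists_par_in` : local parameters determined by finitely many places;
* `key` : the values of invariant regular functions lie in `B`.
-/

set_option autoImplicit false
set_option linter.all false

namespace Crest.Agent.T15.Disc

open Polynomial WithZero Module
open scoped NNReal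
open Crest.Agent.R013.RR7_948 Crest.Agent.R013.RR8_948 Crest.Agent.R013.RR9_948
open Crest.Agent.R013.RR11_948 Crest.Agent.R013.RR12_948
open Crest.Agent.R013.GR2_921 Crest.Agent.R013.GR4_921
open Crest.Agent.R013.GR5_921 Crest.Agent.R013.GR6_921 Crest.Agent.R013.GR7_921
open Crest.Agent.R013.Frob1_914 Crest.Agent.R013.PicD_398
open Crest.Agent.T15.Hopf

theorem exists_resEquiv {L κ : Type*} [Field L] [Field κ] {w : Valuation L ℝ≥0} {ρ : L → κ}
    (h : IsRes w ρ) (σ : L ≃+* L) (hσ : ∀ u, w (σ u) = w u) :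
    ∃ τ : κ ≃+* κ, ∀ u, w u ≤ 1 → ρ (σ u) = τ (ρ u) := by
  choose l hl1 hl2 using h.surj
  have key : ∀ u, w u ≤ 1 → ρ (σ u) = ρ (σ (l (ρ u))) := by
    intro u hu
    rw [h.eq_iff (by rw [hσ]; exact hu) (by rw [hσ]; exact hl1 _), ← map_sub, hσ,
      ← h.eq_iff hu (hl1 _), hl2]
  let τ : κ →+* κ :=
    { toFun := fun y => ρ (σ (l y))
      map_one' := by rw [← h.one, ← key 1 (by simp), map_one]
      map_mul' := fun x y => by
        have h1 := key (l x * l y) (by rw [map_mul]; exact mul_le_one' (hl1 x) (hl1 y))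
        rw [h.mul _ _ (hl1 x) (hl1 y), hl2, hl2] at h1
        rw [← h1, map_mul, h.mul _ _ (by rw [hσ]; exact hl1 x) (by rw [hσ]; exact hl1 y)]
      map_zero' := by rw [← h.zero, ← key 0 (by simp), map_zero]
      map_add' := fun x y => by
        have h1 := key (l x + l y) ((Valuation.map_add _ _ _).trans (max_le (hl1 x) (hl1 y)))
        rw [h.add _ _ (hl1 x) (hl1 y), hl2, hl2] at h1
        rw [← h1, map_add, h.add _ _ (by rw [hσ]; exact hl1 x) (by rw [hσ]; exact hl1 y)] }
  have hsurj : Function.Surjective τ := by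
    intro y
    have h1 : w (σ.symm (l y)) ≤ 1 := by rw [← hσ, σ.apply_symm_apply]; exact hl1 y
    refine ⟨ρ (σ.symm (l y)), ?_⟩
    show ρ (σ (l _)) = y
    rw [← key _ h1, σ.apply_symm_apply, hl2]
  exact ⟨RingEquiv.ofBijective τ ⟨τ.injective, hsurj⟩, key⟩

section val

variable {k : Type*} [Field k] [IsAlgClosed k] {K : Type*} [Field K] [Algebra k K]
  [Algebra (RatFunc k) K] [IsScalarTower k (RatFunc k) K] [FiniteDimensional (RatFunc k) K]
  [Algebra.IsSeparable (RatFunc k) K]

theorem ev_pl (e : SI k K k K) (P : Pl k K) {u : K} (hu : P.v u ≤ 1) :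
    ev (e.pl P) (e.f u) = e.s (ev P u) := by
  apply ev_eq
  rw [← e.comm, ← map_sub, SI.pl_v_apply]
  exact ev_spec P hu








omit [IsAlgClosed k] [Algebra (RatFunc k) K] [IsScalarTower k (RatFunc k) K]
  [FiniteDimensional (RatFunc k) K] [Algebra.IsSeparable (RatFunc k) K] in
theorem D_eq_mapDomain (e : SI k K k K) (E : Pl k K →₀ ℤ) : e.D E = E.mapDomain e.pl := by
  unfold SI.D
  rw [Finsupp.domCongr_apply, Finsupp.equivMapDomain_eq_mapDomain]; rfl

theorem ell_eq_zero_iff {D : Pl k K →₀ ℤ} : ell D = 0 ↔ LD D = ⊥ := by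
  haveI := LD_finite D
  exact Submodule.finrank_eq_zero

/-- generic points of an infinite set lower the dimension -/
theorem exists_drop_in {Bs : Set (Pl k K)} (hB : Bs.Infinite) (E : Pl k K →₀ ℤ)
    (S : Finset (Pl k K)) (n : ℕ) :
    ∃ T : Finset (Pl k K), (T : Set (Pl k K)) ⊆ Bs ∧ T.card = n ∧ Disjoint T S ∧
      ell (E - sumD T) ≤ ell E - n := by
  classical
  induction n with
  | zero => exact ⟨∅, by simp, rfl, by simp, by simp [sumD]⟩
  | succ n ih =>
    obtain ⟨T, hTB, hT, hTS, hle⟩ := ih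
    have h1 : ∀ b, E - sumD (insert b T) ≤ E - sumD T := by
      intro b c
      simp only [Finsupp.sub_apply, sumD_apply, Finset.mem_insert]
      split_ifs <;> first | omega | simp_all
    by_cases h0 : LD (E - sumD T) = ⊥
    · obtain ⟨b, hbB, hb⟩ := hB.exists_notMem_finset (S ∪ T)
      rw [Finset.mem_union, not_or] at hb
      refine ⟨insert b T, by rw [Finset.coe_insert]; exact Set.insert_subset hbB hTB,
        by rw [Finset.card_insert_of_notMem hb.2, hT], ?_, ?_⟩
      · rw [Finset.disjoint_insert_left]; exact ⟨hb.1, hTS⟩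
      · have h2 := Crest.Agent.R013.RR12_948.ell_mono (h1 b)
        have h3 : ell (E - sumD T) = 0 := ell_eq_zero_iff.mpr h0
        omega
    · obtain ⟨z, hz, hz0⟩ := Submodule.exists_mem_ne_zero_of_ne_bot h0
      obtain ⟨b, hbB, hb⟩ := hB.exists_notMem_finset
        (S ∪ T ∪ (E - sumD T + divf (k := k) z).support)
      rw [Finset.mem_union, Finset.mem_union, not_or, not_or] at hb
      obtain ⟨⟨hbS, hbT⟩, hbz⟩ := hb
      refine ⟨insert b T, by rw [Finset.coe_insert]; exact Set.insert_subset hbB hTB,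
        by rw [Finset.card_insert_of_notMem hbT, hT], ?_, ?_⟩
      · rw [Finset.disjoint_insert_left]; exact ⟨hbS, hTS⟩
      · have hlt : LD (E - sumD (insert b T)) < LD (E - sumD T) := by
          refine lt_of_le_of_ne (LD_mono (h1 b)) ?_
          intro heq
          rw [← heq, mem_LD_iff hz0] at hz
          have h2 := hz b
          rw [Finsupp.notMem_support_iff] at hbz
          simp only [Finsupp.add_apply, Finsupp.sub_apply, sumD_apply, Finset.mem_insert, true_or,
            if_true, hbT, if_false, Finsupp.zero_apply] at h2 hbz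
          omega
        haveI := LD_finite (E - sumD T)
        have h2 : ell (E - sumD (insert b T)) < ell (E - sumD T) :=
          Submodule.finrank_lt_finrank_of_lt hlt
        omega


end val

variable {C : Type*} [Field C] [IsAlgClosed C] [CharZero C] {L : Type*} [Field L] [Algebra C L]
  [Algebra (RatFunc C) L] [IsScalarTower C (RatFunc C) L] [FiniteDimensional (RatFunc C) L]
  {k κ : Type*} [Field k] [IsAlgClosed k] [Field κ] [Algebra k κ]
  [Algebra (RatFunc k) κ] [IsScalarTower k (RatFunc k) κ] [FiniteDimensional (RatFunc k) κ]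
  [Algebra.IsSeparable (RatFunc k) κ]

/-- a local parameter of the disc of `Q`, centred at `Q` -/
structure Par (w : Valuation L ℝ≥0) (ρ : L → κ) (sp : Pl C L → Pl k κ) (Q : Pl C L) (t : L) :
    Prop where
  one : w t = 1
  reg : Reg sp (sp Q) t
  simple : divf (k := k) (ρ t) (sp Q) = 1
  zero : Q.v t < 1

/-- invariant integral functions without poles in the disc of `b` -/
structure Ob {G : Type*} (e : G → SI C L C L) (w : Valuation L ℝ≥0) (sp : Pl C L → Pl k κ)
    (b : Pl k κ) (u : L) : Prop where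
  le : w u ≤ 1
  reg : Reg sp b u
  fix : ∀ g, (e g).f u = u

theorem Ob.mul {G : Type*} {e : G → SI C L C L} {w : Valuation L ℝ≥0} {sp : Pl C L → Pl k κ}
    {b : Pl k κ} {u u' : L} (h : Ob e w sp b u) (h' : Ob e w sp b u') : Ob e w sp b (u * u') :=
  ⟨by rw [map_mul]; exact mul_le_one' h.le h'.le, h.reg.mul h'.reg,
    fun g => by rw [map_mul, h.fix, h'.fix]⟩

namespace Good

variable {vC : Valuation C ℝ≥0} {ρC : C → k} {w : Valuation L ℝ≥0} {ρ : L → κ}
  {sp : Pl C L → Pl k κ} (h : Good vC ρC w ρ sp)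

include h

theorem vC_s (e : SI C L C L) (hw : ∀ u, w (e.f u) = w u) (c : C) : vC (e.s c) = vC c := by
  rw [← h.rd.norm, ← e.comm, hw, h.rd.norm]

/-- the reduction of an isometric automorphism -/
theorem exists_bar (e : SI C L C L) (hw : ∀ u, w (e.f u) = w u) :
    ∃ eb : SI k κ k κ, (∀ u, w u ≤ 1 → ρ (e.f u) = eb.f (ρ u)) ∧
      (∀ c, vC c ≤ 1 → ρC (e.s c) = eb.s (ρC c)) ∧ ∀ P, sp (e.pl P) = eb.pl (sp P) := by
  obtain ⟨τ, hτ⟩ := exists_resEquiv h.rd.res e.f hw
  obtain ⟨τ0, hτ0⟩ := exists_resEquiv h.rd.resC e.s (h.vC_s e hw)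
  let eb : SI k κ k κ := ⟨τ0, τ, by
    intro y
    obtain ⟨c, hc, rfl⟩ := h.rd.resC.surj y
    rw [← h.rd.comp c hc, ← hτ _ (by rw [h.rd.norm]; exact hc), e.comm,
      h.rd.comp _ (by rw [h.vC_s e hw]; exact hc), hτ0 c hc]⟩
  refine ⟨eb, hτ, hτ0, fun P => ?_⟩
  obtain ⟨u, hu1, hu2, hu3⟩ := exists_fun h.rd P
  obtain ⟨b, hb⟩ := exists_pole hu3
  rw [sp_eq_of_pole h.spp hu1 hu2 hb]
  apply sp_eq_of_pole h.spp (u := e.f u) (P := e.pl P) ?_ (by rw [hw, hu2])
  · rw [hτ u hu2.le]
    have := eb.pl_v_apply b (ρ u)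
    show 1 < (eb.pl b).v (eb.f (ρ u))
    rw [this]; exact hb
  · intro Q hQ
    have h1 := hu1 (e.symm.pl Q) (by intro h2; apply hQ; rw [← h2, SI.pl_symm_pl])
    rw [← e.pl_v_apply, SI.pl_symm_pl] at h1
    exact h1


/-- reduction of divisor classes -/
noncomputable def spPic : Pic C L →+ Pic k κ :=
  QuotientAddGroup.map (Prin C L) (Prin k κ) (Finsupp.mapDomain.addMonoidHom sp) (by
    rintro _ ⟨f, hf, rfl⟩
    obtain ⟨c, hc, -, hw⟩ := h.rd.normalise hf
    refine ⟨_, h.res_ne hw, ?_⟩
    rw [h.spp _ hw, divf_mul hf (by simpa using hc), divf_const (inv_ne_zero hc), add_zero]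
    rfl)

theorem spPic_cls (D : Pl C L →₀ ℤ) : h.spPic (cls D) = cls (D.mapDomain sp) := rfl

/-- class form of `inj_div` -/
theorem eq_zero_of_spPic {n : ℕ} (hn : (n : k) ≠ 0) {a : Pic C L} (ha : n • a = 0)
    (h0 : h.spPic a = 0) : a = 0 := by
  obtain ⟨D, rfl⟩ := cls_surjective a
  rw [← map_nsmul, cls_eq_zero_iff] at ha
  rw [h.spPic_cls, cls_eq_zero_iff] at h0
  obtain ⟨f, hf, hD⟩ := ha
  obtain ⟨z, hz, hz'⟩ := h0
  exact cls_eq_zero_iff.mpr (h.inj_div hn hf hD hz hz'.symm)

theorem spPic_pic (e : SI C L C L) {eb : SI k κ k κ} (h3 : ∀ P, sp (e.pl P) = eb.pl (sp P))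
    (a : Pic C L) : h.spPic (e.pic a) = eb.pic (h.spPic a) := by
  obtain ⟨D, rfl⟩ := cls_surjective a
  rw [SI.pic_cls, h.spPic_cls, h.spPic_cls, SI.pic_cls]
  congr 1
  rw [D_eq_mapDomain, D_eq_mapDomain, ← Finsupp.mapDomain_comp, ← Finsupp.mapDomain_comp]
  congr 1
  funext P
  exact h3 P




section key

variable {G : Type*} {e : G → SI C L C L}

theorem expand {Q : Pl C L} {t : L} (ht : Par w ρ sp Q t) (hQ : ∀ g, (e g).pl Q = Q)
    (htf : ∀ g, (e g).f t = t) {u : L} (hu : Ob e w sp (sp Q) u) :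
    ev Q u ∈ Wf vC (fun g => (e g).s) ∧
      ∃ u', Ob e w sp (sp Q) u' ∧ u = algebraMap C L (ev Q u) + t * u' := by
  have ht0 : t ≠ 0 := by rintro h0; have := ht.one; rw [h0] at this; simp at this
  have hc : ev Q u ∈ Wf vC (fun g => (e g).s) := ⟨h.ev_le_one hu.le hu.reg, fun g => by
    have := ev_pl (e g) Q (hu.reg Q rfl)
    rw [hQ, hu.fix] at this
    exact this.symm⟩
  refine ⟨hc, (u - algebraMap C L (ev Q u)) / t, ⟨?_, ?_, ?_⟩, by field_simp; ring⟩
  · rw [map_div₀, ht.one, div_one]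
    exact (Valuation.map_sub _ _ _).trans (max_le hu.le (by rw [h.rd.norm]; exact hc.1))
  · intro P hP
    have d1 := h.divf_of_simple ht.one ht.reg ht.simple rfl ht.zero
    by_cases h0 : u - algebraMap C L (ev Q u) = 0
    · rw [h0]; simp
    rw [v_le_one_iff (div_ne_zero h0 ht0), divf_div h0 ht0, Finsupp.sub_apply]
    by_cases hPQ : P = Q
    · have h1 := (v_lt_one_iff h0 Q).mp (ev_spec Q (hu.reg Q rfl))
      rw [hPQ, d1.1]; omega
    · have h1 := (v_le_one_iff h0 P).mp ((hu.reg.sub (Reg.const _)) P hP)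
      rw [d1.2 P hP hPQ]; omega
  · intro g
    rw [map_div₀, map_sub, (e g).comm, hu.fix, htf, hc.2 g]




end key

end Good

end Crest.Agent.T15.Disc
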