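import Mathlib
import Crest.Agent.T15.Src_71
import Crest.Agent.T15.Wp3_31

/-!
# Row 15, block Fl / T (helper71): flatness in Kummer words

`KumR n R` : `R l x f` says that the function `f` (divisor divisible by `n`) represents the `l`-th
coordinate of `x`.  `KumR.toPic l : V →+ Pic k K`; `Good.flat_of_kum`.
-/

set_option autoImplicit false
set_option linter.all false

namespace Crest.Agent.T15.Disc

open Polynomial WithZero Module
open scoped NNReal
open Crest.Agent.R013.RR7_948 Crest.Agent.R013.RR8_948 Crest.Agent.R013.RR9_948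
open Crest.Agent.R013.RR11_948 Crest.Agent.R013.RR12_948
open Crest.Agent.R013.GR2_921 Crest.Agent.R013.GR4_921
open Crest.Agent.R013.GR5_921 Crest.Agent.R013.GR6_921 Crest.Agent.R013.GR7_921
open Crest.Agent.R013.Frob1_914 Crest.Agent.R013.PicD_398
open Crest.Agent.T15.FlR

section val

variable {k : Type*} [Field k] [IsAlgClosed k] {K : Type*} [Field K] [Algebra k K]
  [Algebra (RatFunc k) K] [IsScalarTower k (RatFunc k) K] [FiniteDimensional (RatFunc k) K]
  [Algebra.IsSeparable (RatFunc k) K]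

omit [IsAlgClosed k] in
theorem exists_div_of_dvd {n : ℕ} {f : K} (h : ∀ P : Pl k K, (n : ℤ) ∣ divf (k := k) f P) :
    ∃ D : Pl k K →₀ ℤ, divf (k := k) f = n • D := by
  refine ⟨(divf (k := k) f).mapRange (· / (n : ℤ)) (by simp), ?_⟩
  ext P
  rw [Finsupp.smul_apply, Finsupp.mapRange_apply, nsmul_eq_mul, Int.mul_ediv_cancel' (h P)]

theorem nsmul_div_inj {A : Type*} {n : ℕ} (hn : n ≠ 0) {D E : A →₀ ℤ} (h : n • D = n • E) :
    D = E := by
  ext P
  have := DFunLike.congr_fun h P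
  simp only [Finsupp.smul_apply, nsmul_eq_mul] at this
  exact mul_left_cancel₀ (by exact_mod_cast hn) this

/-- a function whose divisor is `n` times a principal divisor is an `n`-th power -/
theorem pow_of_cls {n : ℕ} (hn : n ≠ 0) {f : K} (hf : f ≠ 0) {D : Pl k K →₀ ℤ}
    (hD : divf (k := k) f = n • D) (h0 : cls D = (0 : Pic k K)) : ∃ g : K, f = g ^ n := by
  obtain ⟨u, hu, rfl⟩ := cls_eq_zero_iff.mp h0
  obtain ⟨c, hc⟩ := const_of_divf_zero (k := k) (div_ne_zero hf (pow_ne_zero n hu))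
    (by rw [divf_div hf (pow_ne_zero n hu), divf_pow hu, hD, sub_self])
  obtain ⟨a, rfl⟩ := IsAlgClosed.exists_pow_nat_eq c (Nat.pos_of_ne_zero hn)
  refine ⟨algebraMap k K a * u, ?_⟩
  rw [mul_pow, ← map_pow, hc, div_mul_cancel₀ _ (pow_ne_zero n hu)]

/-- Kummer dictionary on a function field -/
structure KumR (k : Type*) [Field k] {K : Type*} [Field K] [Algebra k K]
    [Algebra (RatFunc k) K] [IsScalarTower k (RatFunc k) K] [FiniteDimensional (RatFunc k) K]
    [Algebra.IsSeparable (RatFunc k) K] (n : ℕ) {Λ V : Type*} [AddCommGroup V]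
    (R : Λ → V → K → Prop) : Prop where
  ne : ∀ {l x f}, R l x f → f ≠ 0
  dvd : ∀ {l x f}, R l x f → ∀ P : Pl k K, (n : ℤ) ∣ divf (k := k) f P
  ex : ∀ l x, ∃ f, R l x f
  sub : ∀ {l x y f g}, R l x f → R l y g → R l (x - y) (f / g)
  uniq : ∀ {l f}, R l 0 f → ∃ g, f = g ^ n
  sep : ∀ {x}, (∀ l, ∃ g, R l x (g ^ n)) → x = 0

namespace KumR

variable {n : ℕ} {Λ V : Type*} [AddCommGroup V] {R : Λ → V → K → Prop} (h : KumR k n R)
include h

omit [IsAlgClosed k] in
theorem exists_D {l : Λ} {x : V} {f : K} (hf : R l x f) :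
    ∃ D : Pl k K →₀ ℤ, divf (k := k) f = n • D := exists_div_of_dvd (h.dvd hf)

omit [IsAlgClosed k] in
theorem cls_congr (hn : n ≠ 0) {l : Λ} {x : V} {f g : K} (hf : R l x f) (hg : R l x g)
    {D E : Pl k K →₀ ℤ} (hD : divf (k := k) f = n • D) (hE : divf (k := k) g = n • E) :
    cls D = (cls E : Pic k K) := by
  have h1 := h.sub hf hg
  rw [sub_self] at h1
  obtain ⟨u, hu⟩ := h.uniq h1
  have hu0 : u ≠ 0 := by
    rintro rfl
    exact h.ne h1 (by rw [hu, zero_pow hn])
  have h2 := congrArg (divf (k := k)) hu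
  rw [divf_div (h.ne hf) (h.ne hg), divf_pow hu0, hD, hE, ← nsmul_sub] at h2
  rw [← sub_eq_zero, ← map_sub, nsmul_div_inj hn h2, cls_divf hu0]

/-- the class attached to `x` -/
noncomputable def toPic (hn : n ≠ 0) (l : Λ) : V →+ Pic k K :=
  AddMonoidHom.ofMapSub (fun x => cls (h.exists_D (h.ex l x).choose_spec).choose) fun x y => by
    rw [← map_sub]
    refine h.cls_congr hn (h.ex l (x - y)).choose_spec
      (h.sub (h.ex l x).choose_spec (h.ex l y).choose_spec)
      (h.exists_D (h.ex l (x - y)).choose_spec).choose_spec ?_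
    rw [divf_div (h.ne (h.ex l x).choose_spec) (h.ne (h.ex l y).choose_spec), nsmul_sub,
      ← (h.exists_D (h.ex l x).choose_spec).choose_spec,
      ← (h.exists_D (h.ex l y).choose_spec).choose_spec]

omit [IsAlgClosed k] in
theorem toPic_eq (hn : n ≠ 0) {l : Λ} {x : V} {f : K} (hf : R l x f) {D : Pl k K →₀ ℤ}
    (hD : divf (k := k) f = n • D) : h.toPic hn l x = cls D :=
  h.cls_congr hn (h.ex l x).choose_spec hf (h.exists_D (h.ex l x).choose_spec).choose_spec hD

omit [IsAlgClosed k] in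
theorem nsmul_toPic (hn : n ≠ 0) (l : Λ) (x : V) : n • h.toPic hn l x = 0 := by
  obtain ⟨f, hf⟩ := h.ex l x
  obtain ⟨D, hD⟩ := h.exists_D hf
  rw [h.toPic_eq hn hf hD]
  exact Wp.nsmul_cls (h.ne hf) hD

theorem eq_zero (hn : n ≠ 0) {x : V} (hx : ∀ l, h.toPic hn l x = 0) : x = 0 := by
  refine h.sep fun l => ?_
  obtain ⟨f, hf⟩ := h.ex l x
  obtain ⟨D, hD⟩ := h.exists_D hf
  obtain ⟨g, rfl⟩ := pow_of_cls hn (h.ne hf) hD (by rw [← h.toPic_eq hn hf hD, hx])
  exact ⟨g, hf⟩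

omit [IsAlgClosed k] in
theorem toPic_SI (hn : n ≠ 0) (e : SI k K k K) {l l' : Λ} {x y : V} {f : K} (hf : R l x f)
    (hy : R l' y (e.f f)) : h.toPic hn l' y = e.pic (h.toPic hn l x) := by
  obtain ⟨D, hD⟩ := h.exists_D hf
  rw [h.toPic_eq hn hf hD, SI.pic_cls,
    h.toPic_eq hn hy (D := e.D D) (by rw [e.divf_f (h.ne hf), hD, map_nsmul])]

end KumR

end val

variable {C : Type*} [Field C] [IsAlgClosed C] [CharZero C] {L : Type*} [Field L] [Algebra C L]
  [Algebra (RatFunc C) L] [IsScalarTower C (RatFunc C) L] [FiniteDimensional (RatFunc C) L]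
  {k κ : Type*} [Field k] [IsAlgClosed k] [Field κ] [Algebra k κ]
  [Algebra (RatFunc k) κ] [IsScalarTower k (RatFunc k) κ] [FiniteDimensional (RatFunc k) κ]
  [Algebra.IsSeparable (RatFunc k) κ]

namespace Good

variable {vC : Valuation C ℝ≥0} {ρC : C → k} {w : Valuation L ℝ≥0} {ρ : L → κ}
  {sp : Pl C L → Pl k κ} (h : Good vC ρC w ρ sp)
  {G : Type*} [Group G] [MulSemiringAction G C] {e : G → SI C L C L}

include h

/-- a finite module with a jointly injective family of equivariant maps to `Pic[n]` is flat -/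
theorem flat_of_fam (hA : Act w sp e) {n : ℕ} (hn : n ≠ 0)
    (hnd : ∀ x : Pic C L, n • x = 0 → x ≠ 0 → ∃ y : Pic C L, n • y = 0 ∧ Wp.wp n x y ≠ 1)
    {Λ V : Type*} [AddCommGroup V] [Finite V] (i : Λ → V →+ Pic C L)
    (hi : ∀ v, (∀ l, i l v = 0) → v = 0) (hV : ∀ l v, n • i l v = 0) {r : G → V → V}
    (hr : ∀ l g v, i l (r g v) = (e g).pic (i l v)) : Flat vC G r := by
  refine flat_of_sep fun u hu => ?_
  obtain ⟨l, hl⟩ : ∃ l, i l u ≠ 0 := by
    by_contra hcon
    push Not at hcon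
    exact hu (hi u hcon)
  obtain ⟨y, hy, hne⟩ := hnd (i l u) (hV l u) hl
  let χ : AddChar V C :=
    { toFun := fun v => (Wp.wp n (i l v) y : C)
      map_zero_eq_one' := by rw [map_zero, Wp.wp_zero_left hc_of_isAlgClosed hn hy, Units.val_one]
      map_add_eq_mul' := fun a b => by
        rw [map_add, Wp.wp_add_left hc_of_isAlgClosed hn (hV l a) (hV l b) hy, Units.val_mul] }
  refine ⟨χ, fun h1 => hne (Units.ext h1), fun v => ?_⟩
  have := h.wp_mem_RR hA hn (hV l v) hy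
  convert this using 2 with g
  show (Wp.wp n (i l (r g v)) y : C) = _
  rw [hr]

/-- **flatness in Kummer words** -/
theorem flat_of_kum (hA : Act w sp e) {n : ℕ} (hn : n ≠ 0)
    (hnd : ∀ x : Pic C L, n • x = 0 → x ≠ 0 → ∃ y : Pic C L, n • y = 0 ∧ Wp.wp n x y ≠ 1)
    {Λ V : Type*} [AddCommGroup V] [Finite V] {R : Λ → V → L → Prop} (hR : KumR C n R)
    {r : G → V → V} (hr : ∀ l g x f, R l x f → R l (r g x) ((e g).f f)) : Flat vC G r :=
  h.flat_of_fam hA hn hnd (hR.toPic hn) (fun _ hv => hR.eq_zero hn hv) (hR.nsmul_toPic hn)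
    fun l g v => (hR.ex l v).elim fun f hf => hR.toPic_SI hn (e g) hf (hr l g v f hf)

omit h in
theorem hnd {n : ℕ} (hn : n ≠ 0) (x : Pic C L) (hx : n • x = 0) (h0 : x ≠ 0) :
    ∃ y : Pic C L, n • y = 0 ∧ Wp.wp n x y ≠ 1 := by
  by_contra hcon
  push Not at hcon
  exact h0 (Wp.eq_zero_of_wp hn hx hcon)


/-- **FLAT**, unconditional, Kummer form -/
theorem flat_kum (hA : Act w sp e) {n : ℕ} (hn : n ≠ 0)
    {Λ V : Type*} [AddCommGroup V] [Finite V] {R : Λ → V → L → Prop} (hR : KumR C n R)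
    {r : G → V → V} (hr : ∀ l g x f, R l x f → R l (r g x) ((e g).f f)) : Flat vC G r :=
  h.flat_of_kum hA hn (hnd hn) hR hr


end Good

end Crest.Agent.T15.Disc
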