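import Crest.Agent.T15.Hk_62

/-!
# Row 15, block T (helper18): base change of operators from `Hom(Γ, ℤ/m)` to `Hom(Γ, C)`

`C` a finite abelian group killed by `m`.  An additive map `u : Hom(Γ, ℤ/m) → Hom(Γ', ℤ/m)` has a
unique extension `bc u : Hom(Γ, C) → Hom(Γ', C)` with `g ∘ bc u φ = u (g ∘ φ)` for all
`g : C → ℤ/m`.
-/

set_option autoImplicit false
set_option linter.unusedSectionVars false

noncomputable section

namespace Crest.Agent.T15.Bc

open Crest.Agent.T15.Hk

variable {m : ℕ} [NeZero m]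

instance enough : HasEnoughRootsOfUnity (Multiplicative (ZMod m)) m where
  prim := ⟨Multiplicative.ofAdd 1, by
    have h := IsPrimitiveRoot.orderOf (Multiplicative.ofAdd (1 : ZMod m))
    rwa [orderOf_ofAdd_eq_addOrderOf, ZMod.addOrderOf_one] at h⟩
  cyc := by
    have : IsCyclic (Multiplicative (ZMod m))ˣ := isCyclic_of_surjective toUnits toUnits.surjective
    infer_instance

section dual
variable {C : Type*} [AddCommGroup C]

/-- additive characters with values in `ℤ/m` as multiplicative ones -/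
def dualEquiv (C : Type*) [AddCommGroup C] (m : ℕ) :
    (C →+ ZMod m) ≃ (Multiplicative C →* (Multiplicative (ZMod m))ˣ) :=
  AddMonoidHom.toMultiplicative.trans (MonoidHom.toHomUnitsMulEquiv).toEquiv

theorem enough' (hm : ∀ c : C, m • c = 0) :
    HasEnoughRootsOfUnity (Multiplicative (ZMod m)) (Monoid.exponent (Multiplicative C)) :=
  HasEnoughRootsOfUnity.of_dvd _ (Monoid.exponent_dvd_of_forall_pow_eq_one (n := m) fun g =>
    congrArg Multiplicative.ofAdd (hm g.toAdd))

theorem dual_killed (g : C →+ ZMod m) : m • g = 0 := by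
  ext c
  simp

variable [Finite C]

theorem card_dual (hm : ∀ c : C, m • c = 0) : Nat.card (C →+ ZMod m) = Nat.card C := by
  have := enough' hm
  rw [Nat.card_congr (dualEquiv C m),
    CommGroup.card_monoidHom_of_hasEnoughRootsOfUnity (Multiplicative C) (Multiplicative (ZMod m))]
  rfl

instance finite_dual : Finite (C →+ ZMod m) := DFunLike.finite _

/-- the characters separate the points -/
theorem sep (hm : ∀ c : C, m • c = 0) {c : C} (h : ∀ g : C →+ ZMod m, g c = 0) : c = 0 := by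
  have := enough' hm
  by_contra hc
  obtain ⟨φ, hφ⟩ := CommGroup.exists_apply_ne_one_of_hasEnoughRootsOfUnity (Multiplicative C)
    (Multiplicative (ZMod m)) (a := Multiplicative.ofAdd c) hc
  obtain ⟨g, rfl⟩ := (dualEquiv C m).surjective φ
  exact hφ (Units.ext (congrArg Multiplicative.ofAdd (h g)))

theorem sep' (hm : ∀ c : C, m • c = 0) {c c' : C} (h : ∀ g : C →+ ZMod m, g c = g c') : c = c' :=
  sub_eq_zero.1 (sep hm fun g => by rw [map_sub, h, sub_self])

/-- double duality -/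
theorem dd (hm : ∀ c : C, m • c = 0) (Λ : (C →+ ZMod m) →+ ZMod m) : ∃ c, ∀ g, g c = Λ g := by
  let ev : C → ((C →+ ZMod m) →+ ZMod m) := fun c => AddMonoidHom.eval c
  have hi : Function.Injective ev := fun c c' h => sep' hm fun g => DFunLike.congr_fun h g
  have hb : Function.Bijective ev := hi.bijective_of_nat_card_le (by
    rw [card_dual dual_killed, card_dual hm])
  obtain ⟨c, hc⟩ := hb.2 Λ
  exact ⟨c, fun g => DFunLike.congr_fun hc g⟩

end dual

variable {G : Type*} [Group G] {Γ Γ' Γ'' : Subgroup G}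
variable {C : Type*} [AddCommGroup C] [Finite C]

theorem HH_sep (hm : ∀ c : C, m • c = 0) {φ ψ : HH Γ C}
    (h : ∀ g : C →+ ZMod m, g.comp φ = g.comp ψ) : φ = ψ :=
  AddMonoidHom.ext fun γ => sep' hm fun g => DFunLike.congr_fun (h g) γ

theorem exists_bc (hm : ∀ c : C, m • c = 0) (u : HH Γ (ZMod m) →+ HH Γ' (ZMod m)) (φ : HH Γ C) :
    ∃ ψ : HH Γ' C, ∀ g : C →+ ZMod m, g.comp ψ = u (g.comp φ) := by
  have h : ∀ γ : Additive Γ', ∃ c : C, ∀ g : C →+ ZMod m, g c = u (g.comp φ) γ := fun γ =>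
    dd hm (AddMonoidHom.mk' (fun g => u (g.comp φ) γ) fun g g' => by
      rw [AddMonoidHom.add_comp, map_add, AddMonoidHom.add_apply])
  choose f hf using h
  refine ⟨AddMonoidHom.mk' f fun γ γ' => sep' hm fun g => ?_, fun g => AddMonoidHom.ext (hf · g)⟩
  rw [map_add, hf, hf, hf, map_add]

variable (O : Type*) [CommRing O] [Module O C]

/-- **base change** of an operator -/
def bc (hm : ∀ c : C, m • c = 0) (u : HH Γ (ZMod m) →+ HH Γ' (ZMod m)) :
    HH Γ C →ₗ[O] HH Γ' C where
  toFun φ := (exists_bc hm u φ).choose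
  map_add' φ ψ := HH_sep hm fun g => by
    rw [AddMonoidHom.comp_add, (exists_bc hm u _).choose_spec, (exists_bc hm u _).choose_spec,
      (exists_bc hm u _).choose_spec, AddMonoidHom.comp_add, map_add]
  map_smul' r φ := HH_sep hm fun g => by
    rw [(exists_bc hm u _).choose_spec]
    exact ((exists_bc hm u φ).choose_spec (g.comp (DistribSMul.toAddMonoidHom C r))).symm

variable {O}

theorem comp_bc (hm : ∀ c : C, m • c = 0) (u : HH Γ (ZMod m) →+ HH Γ' (ZMod m)) (φ : HH Γ C)
    (g : C →+ ZMod m) : g.comp (bc O hm u φ) = u (g.comp φ) := (exists_bc hm u φ).choose_spec g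

theorem bc_apply_eq (hm : ∀ c : C, m • c = 0) {u : HH Γ (ZMod m) →+ HH Γ' (ZMod m)} {φ : HH Γ C}
    {ψ : HH Γ' C} (h : ∀ g : C →+ ZMod m, u (g.comp φ) = g.comp ψ) : bc O hm u φ = ψ :=
  HH_sep hm fun g => by rw [comp_bc, h]

theorem bc_eq (hm : ∀ c : C, m • c = 0) {u : HH Γ (ZMod m) →+ HH Γ' (ZMod m)}
    {v : HH Γ C →ₗ[O] HH Γ' C} (h : ∀ (g : C →+ ZMod m) φ, u (g.comp φ) = g.comp (v φ)) :
    bc O hm u = v := LinearMap.ext fun φ => bc_apply_eq hm (h · φ)


theorem bc_id (hm : ∀ c : C, m • c = 0) :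
    bc O hm (AddMonoidHom.id (HH Γ (ZMod m))) = LinearMap.id := bc_eq hm fun _ _ => rfl

theorem bc_zero (hm : ∀ c : C, m • c = 0) :
    bc O hm (0 : HH Γ (ZMod m) →+ HH Γ' (ZMod m)) = 0 :=
  bc_eq hm fun g _ => (AddMonoidHom.comp_zero g).symm

theorem bc_comp (hm : ∀ c : C, m • c = 0) (v : HH Γ' (ZMod m) →+ HH Γ'' (ZMod m))
    (u : HH Γ (ZMod m) →+ HH Γ' (ZMod m)) : bc O hm (v.comp u) = bc O hm v ∘ₗ bc O hm u :=
  bc_eq hm fun g φ => by rw [LinearMap.comp_apply, comp_bc, comp_bc]; rfl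

theorem bc_add (hm : ∀ c : C, m • c = 0) (u v : HH Γ (ZMod m) →+ HH Γ' (ZMod m)) :
    bc O hm (u + v) = bc O hm u + bc O hm v :=
  bc_eq hm fun g φ => by
    rw [LinearMap.add_apply, AddMonoidHom.comp_add, comp_bc, comp_bc]; rfl


/-- Hecke operators of integral correspondences -/
theorem comp_T {A B : Type*} [AddCommGroup A] [AddCommGroup B] (c : Corr ℤ Γ Γ') (g : A →+ B)
    (φ : HH Γ A) : T B c (g.comp φ) = g.comp (T A c φ) := T_comp c g.toIntLinearMap φ









variable (O) in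
/-- the same on `AddMonoid.End` -/
def bcE (hm : ∀ c : C, m • c = 0) (Γ : Subgroup G) :
    AddMonoid.End (HH Γ (ZMod m)) →+* Module.End O (HH Γ C) where
  toFun u := bc O hm u
  map_one' := bc_id hm
  map_mul' u v := bc_comp hm u v
  map_zero' := bc_zero hm
  map_add' u v := bc_add hm u v

theorem comp_bcE (hm : ∀ c : C, m • c = 0) (u : AddMonoid.End (HH Γ (ZMod m))) (φ : HH Γ C)
    (g : C →+ ZMod m) : g.comp (bcE O hm Γ u φ) = u (g.comp φ) := comp_bc hm _ φ g



end Crest.Agent.T15.Bc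

end
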