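import Crest.Agent.T15.Hk_62

/-!
# T15 / BetKap (helper91): the Kummer cocycle, abstract form

`G` acts on a field `K`, `ψ : ZMod n → K` an additive character with `G`-fixed values which is a
bijection onto the `n`-th roots of unity (`Chr G ψ`).
* `nrm c x = ∏ (g⁻¹ • x) ^ c(g)` for `c ∈ ℤ[G]`;
* `IsR ψ Γ x φ` : `x = y ^ n`, `γ⁻¹ • y = ψ(φ γ) y` on `Γ`; unique, multiplicative, `IsR.corr`.
-/

set_option autoImplicit false

noncomputable section

namespace Crest.Agent.T15.Bet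

open Crest.Agent.T15.Hk

variable {G K K' : Type*} [Group G] [Field K] [MulSemiringAction G K] [Field K']
  [MulSemiringAction G K']

lemma smul_ne0 (g : G) {x : K} (hx : x ≠ 0) : g • x ≠ 0 := by
  intro h; apply hx; rw [← inv_smul_smul g x, h, smul_zero]

lemma smul_zpow0 (g : G) (x : K) (k : ℤ) : g • x ^ k = (g • x) ^ k :=
  map_zpow₀ (MulSemiringAction.toRingHom G K g) x k


/-- multiplicative action of the group ring -/
def nrm (c : MonoidAlgebra ℤ G) (x : K) : K := c.coeff.prod fun g k => (g⁻¹ • x) ^ k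

lemma nrm_zero (x : K) : nrm (0 : MonoidAlgebra ℤ G) x = 1 := by simp [nrm]

lemma nrm_add (c c' : MonoidAlgebra ℤ G) {x : K} (hx : x ≠ 0) :
    nrm (c + c') x = nrm c x * nrm c' x := by
  rw [nrm, MonoidAlgebra.coeff_add]
  exact Finsupp.prod_add_index' (fun _ => zpow_zero _) fun g a b => zpow_add₀ (smul_ne0 _ hx) a b

lemma nrm_single (g : G) (k : ℤ) (x : K) : nrm (MonoidAlgebra.single g k) x = (g⁻¹ • x) ^ k := by
  rw [nrm, MonoidAlgebra.coeff_single]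
  exact Finsupp.prod_single_index (zpow_zero _)

@[simp] lemma nrm_e (g : G) (x : K) : nrm (e ℤ g) x = g⁻¹ • x := by
  rw [e, nrm_single, zpow_one]


lemma nrm_ne (c : MonoidAlgebra ℤ G) {x : K} (hx : x ≠ 0) : nrm c x ≠ 0 :=
  Finset.prod_ne_zero_iff.mpr fun _ _ => zpow_ne_zero _ (smul_ne0 _ hx)

lemma nrm_sum {ι : Type*} (s : Finset ι) (c : ι → MonoidAlgebra ℤ G) {x : K} (hx : x ≠ 0) :
    nrm (∑ i ∈ s, c i) x = ∏ i ∈ s, nrm (c i) x := by
  classical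
  induction s using Finset.induction_on with
  | empty => simp [nrm_zero]
  | insert a s ha ih => rw [Finset.sum_insert ha, Finset.prod_insert ha, nrm_add _ _ hx, ih]

lemma nrm_sum_e {ι : Type*} (s : Finset ι) (α : ι → G) {x : K} (hx : x ≠ 0) :
    nrm (∑ i ∈ s, e ℤ (α i)) x = ∏ i ∈ s, (α i)⁻¹ • x := by
  simp [nrm_sum s _ hx]



lemma nrm_mul_right (c : MonoidAlgebra ℤ G) (x y : K) : nrm c (x * y) = nrm c x * nrm c y := by
  simp only [nrm, smul_mul', mul_zpow, Finsupp.prod_mul]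

lemma nrm_one_right (c : MonoidAlgebra ℤ G) : nrm c (1 : K) = 1 := by
  simp [nrm]

/-- `nrm c` as a monoid homomorphism -/
def nrmH (K : Type*) [Field K] [MulSemiringAction G K] (c : MonoidAlgebra ℤ G) : K →* K where
  toFun := nrm c
  map_one' := nrm_one_right c
  map_mul' := nrm_mul_right c

lemma nrm_pow (c : MonoidAlgebra ℤ G) (x : K) (n : ℕ) : nrm c (x ^ n) = nrm c x ^ n :=
  map_pow (nrmH K c) x n



lemma map_nrm (f : K →+* K') (hf : ∀ (g : G) x, f (g • x) = g • f x) (c : MonoidAlgebra ℤ G)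
    (x : K) : f (nrm c x) = nrm c (f x) := by
  simp only [nrm, Finsupp.prod, map_prod, map_zpow₀, hf]

lemma nrm_smul (k : ℤ) (c : MonoidAlgebra ℤ G) {x : K} (hx : x ≠ 0) :
    nrm (k • c) x = nrm c x ^ k := by
  induction c using MonoidAlgebra.induction_linear with
  | zero => simp [nrm_zero]
  | add a b ha hb => rw [smul_add, nrm_add _ _ hx, nrm_add _ _ hx, ha, hb, mul_zpow]
  | single g r => rw [MonoidAlgebra.smul_single, nrm_single, nrm_single, smul_eq_mul, mul_comm, zpow_mul]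

lemma nrm_mul_e (c : MonoidAlgebra ℤ G) (h : G) {x : K} (hx : x ≠ 0) :
    nrm (c * e ℤ h) x = h⁻¹ • nrm c x := by
  induction c using MonoidAlgebra.induction_linear with
  | zero => simp [nrm_zero]
  | add a b ha hb => rw [add_mul, nrm_add _ _ hx, nrm_add _ _ hx, ha, hb, smul_mul']
  | single g r =>
    rw [single_eq, smul_mul_assoc, ← e_mul, nrm_smul _ _ hx, nrm_smul _ _ hx, nrm_e, nrm_e,
      smul_zpow0, mul_inv_rev, mul_smul]


/-- the right action on the units, additively -/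
def slU (K : Type*) [Field K] [MulSemiringAction G K] (g : G) : Additive Kˣ →ₗ[ℤ] Additive Kˣ :=
  (MonoidHom.toAdditive
    (Units.map (MulSemiringAction.toRingHom G K g⁻¹ : K →* K))).toIntLinearMap

lemma slU_val (g : G) (u : Additive Kˣ) : ((slU K g u).toMul : K) = g⁻¹ • (u.toMul : K) := rfl

lemma add_ext {u v : Additive Kˣ} (h : (u.toMul : K) = v.toMul) : u = v :=
  Additive.toMul.injective (Units.ext h)

lemma lin_slU (c : MonoidAlgebra ℤ G) (u : Additive Kˣ) :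
    ((lin ℤ (fun g => slU K g u) c).toMul : K) = nrm c (u.toMul : K) := by
  induction c using MonoidAlgebra.induction_linear with
  | zero => simp [nrm_zero]
  | add a b ha hb => rw [map_add, toMul_add, Units.val_mul, ha, hb, nrm_add _ _ (Units.ne_zero _)]
  | single g r =>
    rw [nrm_single, single_eq, map_smul, lin_e, toMul_zsmul, Units.val_zpow_eq_zpow_val, slU_val]




variable {n : ℕ}

/-- `ψ` identifies `ZMod n` with the `n`-th roots of unity, which are fixed by `G` -/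
structure Chr (G : Type*) [Group G] [MulSemiringAction G K] (ψ : AddChar (ZMod n) K) : Prop where
  fix : ∀ (g : G) a, g • ψ a = ψ a
  inj : Function.Injective ψ
  onto : ∀ u : K, u ^ n = 1 → ∃ a, ψ a = u
  ne : n ≠ 0

lemma psi_pow (ψ : AddChar (ZMod n) K) (a : ZMod n) : ψ a ^ n = 1 := by
  rw [← AddChar.map_nsmul_eq_pow, nsmul_eq_mul, ZMod.natCast_self, zero_mul, AddChar.map_zero_eq_one]

lemma psi_ne (ψ : AddChar (ZMod n) K) (a : ZMod n) : ψ a ≠ 0 :=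
  left_ne_zero_of_mul_eq_one (b := ψ (-a)) (by rw [← AddChar.map_add_eq_mul]; simp)

/-- `φ` is the Kummer cocycle of `x` -/
def IsR (ψ : AddChar (ZMod n) K) (Γ : Subgroup G) (x : K) (φ : HH Γ (ZMod n)) : Prop :=
  ∃ y : K, y ≠ 0 ∧ y ^ n = x ∧ ∀ γ ∈ Γ, γ⁻¹ • y = ψ (val φ γ) * y

variable {ψ : AddChar (ZMod n) K} {Γ Γ' : Subgroup G} {x x' : K} {φ φ' : HH Γ (ZMod n)}

lemma IsR.ne (h : IsR ψ Γ x φ) : x ≠ 0 := by
  obtain ⟨y, h0, rfl, -⟩ := h
  exact pow_ne_zero _ h0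

lemma IsR.fixed (h : IsR ψ Γ x φ) : ∀ γ ∈ Γ, γ • x = x := fun γ hγ => by
  obtain ⟨y, -, rfl, h⟩ := h
  rw [← inv_inv γ, smul_pow', h _ (Γ.inv_mem hγ), mul_pow, psi_pow, one_mul]

/-- every root has the same cocycle -/
lemma IsR.root (hψ : Chr G ψ) (h : IsR ψ Γ x φ) {y : K} (hy : y ^ n = x) :
    ∀ γ ∈ Γ, γ⁻¹ • y = ψ (val φ γ) * y := fun γ hγ => by
  obtain ⟨z, h0, hz, h⟩ := h
  obtain ⟨a, ha⟩ := hψ.onto (y / z) (by rw [div_pow, hy, hz, div_self]; rw [← hz]; exact pow_ne_zero _ h0)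
  have : y = ψ a * z := by rw [ha, div_mul_cancel₀ _ h0]
  rw [this, smul_mul', hψ.fix, h γ hγ]; ring

lemma IsR.unique (hψ : Chr G ψ) (h : IsR ψ Γ x φ) (h' : IsR ψ Γ x φ') : φ = φ' := by
  obtain ⟨y, h0, hy, h1⟩ := h'
  refine HH.ext fun γ hγ => hψ.inj (mul_right_cancel₀ h0 ?_)
  rw [← h.root hψ hy γ hγ, h1 γ hγ]

lemma IsR.mul (h : IsR ψ Γ x φ) (h' : IsR ψ Γ x' φ') : IsR ψ Γ (x * x') (φ + φ') := by
  obtain ⟨y, h0, rfl, h⟩ := h
  obtain ⟨y', h0', rfl, h'⟩ := h'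
  refine ⟨y * y', mul_ne_zero h0 h0', mul_pow _ _ _, fun γ hγ => ?_⟩
  rw [smul_mul', h γ hγ, h' γ hγ, val_add, AddChar.map_add_eq_mul]; ring

lemma IsR.of_fixed {y : K} (h0 : y ≠ 0) (hy : ∀ γ ∈ Γ, γ • y = y) : IsR ψ Γ (y ^ n) 0 :=
  ⟨y, h0, rfl, fun γ hγ => by rw [hy _ (Γ.inv_mem hγ), val_zero, AddChar.map_zero_eq_one, one_mul]⟩

lemma IsR.one : IsR ψ Γ 1 0 := by
  simpa using IsR.of_fixed (ψ := ψ) (Γ := Γ) one_ne_zero fun γ _ => smul_one γ

lemma IsR.inv (h : IsR ψ Γ x φ) : IsR ψ Γ x⁻¹ (-φ) := by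
  obtain ⟨y, h0, rfl, h⟩ := h
  refine ⟨y⁻¹, inv_ne_zero h0, inv_pow _ _, fun γ hγ => ?_⟩
  rw [smul_inv'', h γ hγ, mul_inv, ← zero_sub φ, val_sub, val_zero, zero_sub, AddChar.map_neg_eq_inv]

lemma IsR.div (h : IsR ψ Γ x φ) (h' : IsR ψ Γ x' φ') : IsR ψ Γ (x / x') (φ - φ') := by
  rw [div_eq_mul_inv, sub_eq_add_neg]; exact h.mul h'.inv

lemma IsR.pow (h : IsR ψ Γ x φ) (m : ℕ) : IsR ψ Γ (x ^ m) (m • φ) := by
  induction m with
  | zero => simpa using IsR.one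
  | succ m ih => rw [pow_succ, succ_nsmul]; exact ih.mul h


lemma IsR.prod {ι : Type*} (s : Finset ι) {x : ι → K} {φ : ι → HH Γ (ZMod n)}
    (h : ∀ i ∈ s, IsR ψ Γ (x i) (φ i)) : IsR ψ Γ (∏ i ∈ s, x i) (∑ i ∈ s, φ i) := by
  classical
  induction s using Finset.induction_on with
  | empty => simpa using IsR.one
  | insert a s ha ih =>
    rw [Finset.prod_insert ha, Finset.sum_insert ha]
    exact (h a (by simp)).mul (ih fun i hi => h i (by simp [hi]))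

theorem exists_isR (hψ : Chr G ψ) {y : K} (h0 : y ≠ 0) (hx : ∀ γ ∈ Γ, γ • y ^ n = y ^ n) :
    ∃ φ, IsR ψ Γ (y ^ n) φ := by
  have key : ∀ γ : G, ∃ a, γ ∈ Γ → γ⁻¹ • y = ψ a * y := fun γ => by
    by_cases hγ : γ ∈ Γ
    · obtain ⟨a, ha⟩ := hψ.onto (γ⁻¹ • y / y) (by
        rw [div_pow, ← smul_pow', hx _ (Γ.inv_mem hγ), div_self (pow_ne_zero _ h0)])
      exact ⟨a, fun _ => by rw [ha, div_mul_cancel₀ _ h0]⟩
    · exact ⟨0, fun h => absurd h hγ⟩
  choose f hf using key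
  have hadd : ∀ γ ∈ Γ, ∀ γ' ∈ Γ, f (γ * γ') = f γ + f γ' := fun γ hγ γ' hγ' =>
    hψ.inj (mul_right_cancel₀ h0 (by
      rw [← hf _ (Γ.mul_mem hγ hγ'), mul_inv_rev, mul_smul, hf γ hγ, smul_mul', hψ.fix, hf γ' hγ',
        AddChar.map_add_eq_mul, mul_assoc]))
  exact ⟨mk Γ f hadd, y, h0, rfl, fun γ hγ => by rw [val_mk f hadd hγ, hf γ hγ]⟩

/-- **Hecke equivariance** -/
theorem IsR.corr (hψ : Chr G ψ) (h : IsR ψ Γ x φ) (c : Corr ℤ Γ Γ') :
    IsR ψ Γ' (nrm c.1 x) (T (ZMod n) c φ) := by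
  obtain ⟨y, h0, rfl, h⟩ := h
  let ι : ZMod n →ₗ[ℤ] Additive Kˣ :=
    (AddMonoidHom.mk' (fun a => Additive.ofMul (Units.mk0 (ψ a) (psi_ne ψ a))) fun a b =>
      add_ext (AddChar.map_add_eq_mul ψ a b)).toIntLinearMap
  have hι : ∀ a, ((ι a).toMul : K) = ψ a := fun _ => rfl
  refine ⟨nrm c.1 y, nrm_ne _ h0, (nrm_pow _ _ _).symm, fun γ hγ => ?_⟩
  have := compat (slU K) (fun g g' b => add_ext (by simp only [slU_val, mul_inv_rev, mul_smul])) ι
    (fun g a => add_ext (by rw [slU_val, hι, hψ.fix])) (φ := φ) (b := Additive.ofMul (Units.mk0 y h0))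
    (fun γ hγ => add_ext (by rw [slU_val, toMul_add, Units.val_mul, hι]; exact h γ hγ)) c hγ
  have h2 := congrArg (fun u : Additive Kˣ => (u.toMul : K)) this
  simp only [slU_val, toMul_add, Units.val_mul, hι, lin_slU] at h2
  exact h2

end Crest.Agent.T15.Bet
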