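import Mathlib
import Crest.Agent.T15.MfA_79
import Crest.Agent.R007.Wp7
import Crest.Agent.R007.WpTor

-- ▼ part T15/BetRoot_91
section

/-!
# T15 / BetRoot (helper91): `n`-th roots of holomorphic functions on the upper half plane

`ordH f z` is the order of vanishing of `f : ℍ → ℂ` at `z`.  `exists_root` : a holomorphic function
all of whose orders are divisible by `n` is the `n`-th power of a holomorphic function.
-/

set_option autoImplicit false

noncomputable section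

namespace Crest.Agent.T15.Bet

open UpperHalfPlane hiding I
open Complex Filter Topology Metric
open scoped MatrixGroups Manifold

/-- root of a function without zeros on a disc -/
lemma root_ball_ne {F : ℂ → ℂ} {c : ℂ} {R : ℝ} (hF : AnalyticOnNhd ℂ F (ball c R))
    (h0 : ∀ z ∈ ball c R, F z ≠ 0) {n : ℕ} (hn : n ≠ 0) :
    ∃ g : ℂ → ℂ, AnalyticOnNhd ℂ g (ball c R) ∧ ∀ z ∈ ball c R, g z ^ n = F z := by
  have hd : DifferentiableOn ℂ (fun z => deriv F z / F z) (ball c R) :=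
    (hF.deriv.differentiableOn).div hF.differentiableOn h0
  obtain ⟨L, hL⟩ := hd.isExactOn_ball
  have hder : ∀ z ∈ ball c R, HasDerivAt (fun z => F z * cexp (-L z)) 0 z := by
    intro z hz
    have h1 := ((hF z hz).differentiableAt.hasDerivAt).mul (hL z hz).neg.cexp
    refine h1.congr_deriv ?_
    have := h0 z hz
    simp only [Pi.neg_apply]
    field_simp
    simp
  obtain ⟨a, ha⟩ := isOpen_ball.exists_is_const_of_deriv_eq_zero (convex_ball c R).isPreconnected
    (fun z hz => (hder z hz).differentiableAt.differentiableWithinAt) (fun z hz => (hder z hz).deriv)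
  obtain ⟨b, hb⟩ := IsAlgClosed.exists_pow_nat_eq a (Nat.pos_of_ne_zero hn)
  have hLd : DifferentiableOn ℂ L (ball c R) :=
    fun z hz => (hL z hz).differentiableAt.differentiableWithinAt
  refine ⟨fun z => b * cexp (L z / n), ?_, fun z hz => ?_⟩
  · exact DifferentiableOn.analyticOnNhd (by fun_prop) isOpen_ball
  · rw [mul_pow, hb, ← Complex.exp_nat_mul, mul_div_cancel₀ _ (by exact_mod_cast hn), ← ha z hz,
      mul_assoc, ← Complex.exp_add]
    simp

/-- root of a function with finitely many zeros on a disc -/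
lemma root_ball {c : ℂ} {R : ℝ} {n : ℕ} (hn : n ≠ 0) (Z : Finset ℂ) :
    ∀ F : ℂ → ℂ, AnalyticOnNhd ℂ F (ball c R) → (∀ z ∈ ball c R, z ∉ Z → F z ≠ 0) →
      (∀ z ∈ ball c R, ∃ m : ℕ, analyticOrderAt F z = (n * m : ℕ)) →
      ∃ g : ℂ → ℂ, AnalyticOnNhd ℂ g (ball c R) ∧ ∀ z ∈ ball c R, g z ^ n = F z := by
  classical
  induction Z using Finset.induction_on with
  | empty => exact fun F hF h0 _ => root_ball_ne hF (fun z hz => h0 z hz (by simp)) hn
  | insert a Z ha ih =>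
    intro F hF h0 hord
    by_cases haB : a ∈ ball c R
    swap
    · exact ih F hF (fun z hz hzZ => h0 z hz (by
        rw [Finset.mem_insert]; rintro (rfl | h); exacts [haB hz, hzZ h])) hord
    obtain ⟨m, hm⟩ := hord a haB
    obtain ⟨G, hG, hG0, hFG⟩ := ((hF a haB).analyticOrderAt_eq_natCast).mp hm
    let F1 : ℂ → ℂ := fun w => if w = a then G a else F w / (w - a) ^ (n * m)
    have hF1 : ∀ w, F w = (w - a) ^ (n * m) * F1 w := by
      intro w
      by_cases hw : w = a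
      · subst hw; simpa [F1] using hFG.self_of_nhds
      · have : (w - a) ^ (n * m) ≠ 0 := pow_ne_zero _ (sub_ne_zero.mpr hw)
        simp only [F1, if_neg hw]; field_simp
    have hG1 : F1 =ᶠ[𝓝 a] G := by
      filter_upwards [hFG] with w hw
      by_cases hwa : w = a
      · simp [F1, hwa]
      · have : (w - a) ^ (n * m) ≠ 0 := pow_ne_zero _ (sub_ne_zero.mpr hwa)
        simp only [F1, if_neg hwa, hw, smul_eq_mul]; field_simp
    have hA : AnalyticOnNhd ℂ F1 (ball c R) := by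
      intro w hw
      by_cases hwa : w = a
      · subst hwa; exact hG.congr hG1.symm
      · have h1 : AnalyticAt ℂ (fun w => F w / (w - a) ^ (n * m)) w :=
          (hF w hw).div (by fun_prop) (pow_ne_zero _ (sub_ne_zero.mpr hwa))
        refine h1.congr ?_
        filter_upwards [isOpen_ne.mem_nhds hwa] with u hu
        simp [F1, hu]
    obtain ⟨g, hg, hgn⟩ := ih F1 hA (fun z hz hzZ => by
      by_cases hza : z = a
      · simpa [F1, hza] using hG0
      · intro h
        exact h0 z hz (by simp [hza, hzZ]) (by rw [hF1, h, mul_zero])) (fun z hz => by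
      by_cases hza : z = a
      · refine ⟨0, ?_⟩
        rw [mul_zero, Nat.cast_zero, (hA z hz).analyticOrderAt_eq_zero]
        simpa [F1, hza] using hG0
      · obtain ⟨m', hm'⟩ := hord z hz
        refine ⟨m', ?_⟩
        have hp : AnalyticAt ℂ (fun w => (w - a) ^ (n * m)) z := by fun_prop
        have h2 : F = (fun w => (w - a) ^ (n * m)) * F1 := funext hF1
        rw [h2, analyticOrderAt_mul hp (hA z hz),
          hp.analyticOrderAt_eq_zero.mpr (pow_ne_zero _ (sub_ne_zero.mpr hza)), zero_add] at hm'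
        exact hm')
    refine ⟨fun w => (w - a) ^ m * g w, fun w hw => (by fun_prop : AnalyticAt ℂ (fun w => (w - a) ^ m) w).mul (hg w hw),
      fun z hz => ?_⟩
    rw [mul_pow, hgn z hz, hF1, ← pow_mul, mul_comm m n]

/-- uniqueness of roots -/
lemma root_unique {V : Set ℂ} (hV : IsPreconnected V) (hVo : IsOpen V) {g₁ g₂ : ℂ → ℂ}
    (h₁ : AnalyticOnNhd ℂ g₁ V) (h₂ : AnalyticOnNhd ℂ g₂ V) {n : ℕ} (hn : n ≠ 0)
    (h : ∀ z ∈ V, g₁ z ^ n = g₂ z ^ n) {a : ℂ} (ha : a ∈ V) (he : g₁ a = g₂ a) (h0 : g₂ a ≠ 0) :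
    Set.EqOn g₁ g₂ V := by
  refine h₁.eqOn_of_preconnected_of_eventuallyEq h₂ hV ha ?_
  have hc : ContinuousAt (fun z => ∑ i ∈ Finset.range n, g₁ z ^ i * g₂ z ^ (n - 1 - i)) a :=
    tendsto_finsetSum _ fun i _ =>
      (((h₁ a ha).continuousAt.pow i).mul ((h₂ a ha).continuousAt.pow _))
  have hne : (∑ i ∈ Finset.range n, g₁ a ^ i * g₂ a ^ (n - 1 - i)) ≠ 0 := by
    rw [he, geom_sum₂_self]
    exact mul_ne_zero (by exact_mod_cast hn) (pow_ne_zero _ h0)
  filter_upwards [hc.eventually_ne hne, hVo.mem_nhds ha] with z hz hzV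
  have := (Commute.all (g₁ z) (g₂ z)).geom_sum₂_mul n
  rw [h z hzV, sub_self] at this
  exact sub_eq_zero.mp ((mul_eq_zero.mp this).resolve_left hz)

/-- order of vanishing at a point of the upper half plane -/
def ordH (f : ℍ → ℂ) (z : ℍ) : ℕ∞ := analyticOrderAt (f ∘ ofComplex) z

lemma anal {f : ℍ → ℂ} (hf : MDiff f) : AnalyticOnNhd ℂ (f ∘ ofComplex) {z | 0 < z.im} :=
  (UpperHalfPlane.mdifferentiable_iff.mp hf).analyticOnNhd isOpen_upperHalfPlaneSet

lemma analAt {f : ℍ → ℂ} (hf : MDiff f) (z : ℍ) : AnalyticAt ℂ (f ∘ ofComplex) z :=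
  anal hf z z.im_pos

lemma conn : IsConnected {z : ℂ | 0 < z.im} :=
  Complex.isConnected_of_upperHalfPlane subset_rfl (by grind)

lemma ordH_eq_zero {f : ℍ → ℂ} (hf : MDiff f) {z : ℍ} : ordH f z = 0 ↔ f z ≠ 0 := by
  rw [ordH, (analAt hf z).analyticOrderAt_eq_zero]; simp

lemma ordH_ne_top {f : ℍ → ℂ} (hf : MDiff f) (h0 : f ≠ 0) (z : ℍ) : ordH f z ≠ ⊤ := by
  obtain ⟨a, ha⟩ := Function.ne_iff.mp h0
  refine (anal hf).analyticOrderAt_ne_top_of_isPreconnected conn.isPreconnected a.im_pos z.im_pos ?_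
  have := (ordH_eq_zero hf).mpr ha
  rw [ordH] at this
  rw [this]; simp

lemma ordH_zero (z : ℍ) : ordH 0 z = ⊤ := by
  rw [ordH, analyticOrderAt_eq_top]; simp

lemma ordH_mul {f g : ℍ → ℂ} (hf : MDiff f) (hg : MDiff g) (z : ℍ) :
    ordH (f * g) z = ordH f z + ordH g z :=
  analyticOrderAt_mul (analAt hf z) (analAt hg z)


lemma le_ordH_add (f g : ℍ → ℂ) (z : ℍ) : min (ordH f z) (ordH g z) ≤ ordH (f + g) z :=
  le_analyticOrderAt_add

lemma ordH_smul (f : ℍ → ℂ) {g : GL (Fin 2) ℝ} (hg : 0 < g.val.det) (z : ℍ) :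
    ordH (fun w => f (g • w)) z = ordH f (g • z) := by
  have : ((fun w => f (g • w)) ∘ ofComplex) =
      (f ∘ ofComplex) ∘ (fun z ↦ ↑(g • ofComplex z) : ℂ → ℂ) := by ext; simp
  rw [ordH, this, analyticOrderAt_comp_of_deriv_ne_zero (z.analyticAt_smul hg)
    (z.deriv_smul_ne_zero hg), ofComplex_apply, ordH]

/-- **roots** -/
theorem exists_root {h : ℍ → ℂ} (hh : MDiff h) {n : ℕ} (hn : n ≠ 0)
    (hd : ∀ z, n ∣ (ordH h z).toNat) : ∃ g : ℍ → ℂ, MDiff g ∧ g ^ n = h := by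
  by_cases h0 : h = 0
  · exact ⟨0, mdifferentiable_const, by rw [h0, zero_pow hn]⟩
  obtain ⟨a, ha⟩ := Function.ne_iff.mp h0
  replace ha : h a ≠ 0 := ha
  obtain ⟨b, hb⟩ := IsAlgClosed.exists_pow_nat_eq (h a) (Nat.pos_of_ne_zero hn)
  have hb0 : b ≠ 0 := by rintro rfl; rw [zero_pow hn] at hb; exact ha hb.symm
  let B : ℝ → Set ℂ := fun r => ball ↑(a.center r) (a.im * Real.sinh r)
  have hB : ∀ r (z : ℍ), (z : ℂ) ∈ B r ↔ dist z a < r := fun r z =>
    dist_lt_iff_dist_coe_center_lt.symm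
  have hBc : ∀ r, closedBall (a.center r : ℂ) (a.im * Real.sinh r) ⊆ {z | 0 < z.im} :=
    fun r w hw => im_pos_of_dist_center_le hw
  have hBs : ∀ r, B r ⊆ {z | 0 < z.im} := fun r => ball_subset_closedBall.trans (hBc r)
  have key : ∀ r : ℝ, ∃ g : ℂ → ℂ, 0 < r → AnalyticOnNhd ℂ g (B r) ∧
      (∀ z ∈ B r, g z ^ n = (h ∘ ofComplex) z) ∧ g a = b := by
    intro r
    by_cases hr : 0 < r
    swap
    · exact ⟨0, fun h => absurd h hr⟩
    have haB : (a : ℂ) ∈ B r := (hB r a).mpr (by simpa using hr)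
    have hcod := (anal hh).preimage_zero_mem_codiscreteWithin (x := (a : ℂ)) (by simpa using ha) a.im_pos conn
    have hfin := (isCompact_closedBall (a.center r : ℂ) (a.im * Real.sinh r)).finite_sdiff_of_mem_codiscreteWithin
      (codiscreteWithin_mono (hBc r) hcod)
    obtain ⟨g, hg, hgn⟩ := root_ball (c := a.center r) (R := a.im * Real.sinh r) hn hfin.toFinset
      (h ∘ ofComplex) ((anal hh).mono (hBs r)) (fun z hz hzZ hz0 => hzZ (by
        rw [Set.Finite.mem_toFinset]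
        exact ⟨ball_subset_closedBall hz, by simpa using hz0⟩)) (fun z hz => by
        obtain ⟨m, hm⟩ := hd ⟨z, hBs r hz⟩
        refine ⟨m, ?_⟩
        rw [← hm, ENat.natCast_toNat (ordH_ne_top hh h0 _)]; rfl)
    have hga : g a ^ n = b ^ n := by rw [hgn a haB, hb]; simp
    have hg0 : g a ≠ 0 := by
      intro h1; rw [h1, zero_pow hn] at hga; exact pow_ne_zero n hb0 hga.symm
    refine ⟨fun z => b / g a * g z, fun _ => ⟨fun z hz => analyticAt_const.mul (hg z hz),
      fun z hz => ?_, by field_simp⟩⟩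
    rw [mul_pow, div_pow, hga, div_self (pow_ne_zero n hb0), one_mul, hgn z hz]
  choose g hg using key
  have hpos : ∀ z : ℍ, 0 < dist z a + 1 := fun z => by positivity
  have hmem : ∀ z : ℍ, (z : ℂ) ∈ B (dist z a + 1) := fun z => (hB _ z).mpr (by linarith)
  have hag : ∀ r s, 0 < r → 0 < s → Set.EqOn (g r) (g s) (B r ∩ B s) := by
    intro r s hr hs
    refine root_unique ((convex_ball _ _).inter (convex_ball _ _)).isPreconnected
      (isOpen_ball.inter isOpen_ball) ((hg r hr).1.mono Set.inter_subset_left)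
      ((hg s hs).1.mono Set.inter_subset_right) hn
      (fun z hz => by rw [(hg r hr).2.1 z hz.1, (hg s hs).2.1 z hz.2]) (a := a)
      ⟨(hB r a).mpr (by simpa using hr), (hB s a).mpr (by simpa using hs)⟩
      (by rw [(hg r hr).2.2, (hg s hs).2.2]) (by rw [(hg s hs).2.2]; exact hb0)
  refine ⟨fun z => g (dist z a + 1) z, fun τ => ?_, funext fun z => ?_⟩
  · rw [UpperHalfPlane.mdifferentiableAt_iff]
    refine ((hg _ (hpos τ)).1 τ (hmem τ)).differentiableAt.congr_of_eventuallyEq ?_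
    filter_upwards [isOpen_ball.mem_nhds (hmem τ)] with w hw
    have hw' : 0 < w.im := hBs _ hw
    simp only [Function.comp, ofComplex_apply_of_im_pos hw']
    exact hag _ _ (hpos _) (hpos _) ⟨hmem ⟨w, hw'⟩, hw⟩
  · simpa using (hg _ (hpos z)).2.1 z (hmem z)

end Crest.Agent.T15.Bet
end
end

-- ▼ part T15/BetMer_91
section

/-!
# T15 / BetMer (helper91): the valuations `vM z` on 79's field `Mer` of meromorphic functions on `ℍ`

`vM z : Valuation Mer ℤᵐ⁰`, `vM_smul`, `exists_rootM` (roots), `exists_hol` (no poles).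
-/

set_option autoImplicit false

noncomputable section

namespace Crest.Agent.T15.Bet

open UpperHalfPlane hiding I
open Filter Topology WithZero
open scoped MatrixGroups Manifold
open Crest.Agent.T15.Mf

/-- a holomorphic function as a meromorphic one -/
abbrev toM : Hol →+* Mer := algebraMap Hol Mer

lemma toM_inj : Function.Injective toM := IsFractionRing.injective _ _

lemma toM_ne {f : Hol} (hf : f ≠ 0) : toM f ≠ 0 := fun h => hf (toM_inj (by rw [h, map_zero]))

lemma toM_const (c : ℂ) : toM (algebraMap ℂ Hol c) = algebraMap ℂ Mer c :=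
  (IsScalarTower.algebraMap_apply ℂ Hol Mer c).symm

lemma exists_div (x : Mer) : ∃ a b : Hol, b ≠ 0 ∧ x = toM a / toM b := by
  obtain ⟨a, b, hb, rfl⟩ := IsFractionRing.div_surjective (A := Hol) x
  exact ⟨a, b, nonZeroDivisors.ne_zero hb, rfl⟩

/-- order as an integer -/
def ordZ (f : ℍ → ℂ) (z : ℍ) : ℤ := ((ordH f z).toNat : ℤ)

lemma ordH_eq (f : Hol) (hf : f ≠ 0) (z : ℍ) : ordH f z = ((ordH f z).toNat : ℕ∞) :=
  (ENat.natCast_toNat (ordH_ne_top f.2 (fun h => hf (Subtype.ext h)) z)).symm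

open Classical in
/-- the valuation at `z` on `Hol` -/
def vH (z : ℍ) : Valuation Hol ℤᵐ⁰ where
  toFun f := if f = 0 then 0 else exp (-ordZ f z)
  map_zero' := by simp
  map_one' := by
    have : ordH (1 : ℍ → ℂ) z = 0 := (ordH_eq_zero mdifferentiable_const).mpr one_ne_zero
    simp [ordZ, this]
  map_mul' a b := by
    by_cases ha : a = 0
    · simp [ha]
    by_cases hb : b = 0
    · simp [hb]
    rw [if_neg ha, if_neg hb, if_neg (mul_ne_zero ha hb), ← exp_add, ordZ, ordZ, ordZ,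
      Subalgebra.coe_mul, ordH_mul a.2 b.2, ENat.toNat_add (ordH_ne_top a.2 (fun h => ha (Subtype.ext h)) z)
        (ordH_ne_top b.2 (fun h => hb (Subtype.ext h)) z)]
    push_cast; congr 1; ring
  map_add_le_max' a b := by
    by_cases hab : a + b = 0
    · simp [hab]
    by_cases ha : a = 0
    · simp [ha]
    by_cases hb : b = 0
    · simp [hb]
    rw [if_neg ha, if_neg hb, if_neg hab]
    have h := le_ordH_add a b z
    rw [← Subalgebra.coe_add, ordH_eq a ha, ordH_eq b hb, ordH_eq _ hab, min_le_iff, Nat.cast_le,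
      Nat.cast_le] at h
    rw [le_max_iff, exp_le_exp, exp_le_exp, ordZ, ordZ, ordZ]
    omega

lemma vH_apply {f : Hol} (hf : f ≠ 0) (z : ℍ) : vH z f = exp (-ordZ f z) := if_neg hf

/-- the valuation at `z` on `Mer` -/
def vM (z : ℍ) : Valuation Mer ℤᵐ⁰ :=
  (vH z).extendToLocalization (S := nonZeroDivisors Hol) (fun f hf => by
    have := nonZeroDivisors.ne_zero hf
    simp [Ideal.primeCompl, Valuation.mem_supp_iff, vH_apply this]) Mer

lemma vM_toM (z : ℍ) (f : Hol) : vM z (toM f) = vH z f :=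
  Valuation.extendToLocalization_apply_map_apply _ _ _ f

lemma vM_toM' (z : ℍ) {f : Hol} (hf : f ≠ 0) : vM z (toM f) = exp (-ordZ f z) := by
  rw [vM_toM, vH_apply hf]

lemma ordZ_nonneg (f : ℍ → ℂ) (z : ℍ) : 0 ≤ ordZ f z := Int.natCast_nonneg _

lemma vM_toM_le (z : ℍ) (f : Hol) : vM z (toM f) ≤ 1 := by
  by_cases hf : f = 0
  · simp [hf]
  · rw [vM_toM' z hf, ← exp_zero, exp_le_exp]; have := ordZ_nonneg f z; omega

lemma vM_toM_eq_one {z : ℍ} {f : Hol} : vM z (toM f) = 1 ↔ (f : ℍ → ℂ) z ≠ 0 := by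
  by_cases hf : f = 0
  · simp [hf]
  · rw [vM_toM' z hf, ← exp_zero, exp_inj, neg_eq_zero, ← ordH_eq_zero f.2, ordH_eq f hf, ordZ]
    simp only [Nat.cast_eq_zero]

lemma vM_toM_lt_one {z : ℍ} {f : Hol} : vM z (toM f) < 1 ↔ (f : ℍ → ℂ) z = 0 := by
  rw [(vM_toM_le z f).lt_iff_ne, Ne, vM_toM_eq_one, not_not]

lemma vM_const (z : ℍ) {c : ℂ} (hc : c ≠ 0) : vM z (algebraMap ℂ Mer c) = 1 := by
  rw [← toM_const, vM_toM_eq_one]; exact hc

lemma vM_mer (z : ℍ) {F : ℍ → ℂ} (hF : MDiff F) (h0 : F ≠ 0) : vM z (mer F) = exp (-ordZ F z) := by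
  rw [mer_eq hF]; exact vM_toM' z (f := ⟨F, hF⟩) fun h => h0 (congrArg Subtype.val h)

lemma vM_mer_le (z : ℍ) {F : ℍ → ℂ} (hF : MDiff F) : vM z (mer F) ≤ 1 := by
  rw [mer_eq hF]; exact vM_toM_le z _

lemma vM_mer_eq_one {z : ℍ} {F : ℍ → ℂ} (hF : MDiff F) : vM z (mer F) = 1 ↔ F z ≠ 0 := by
  rw [mer_eq hF]; exact vM_toM_eq_one

lemma vM_mer_lt_one {z : ℍ} {F : ℍ → ℂ} (hF : MDiff F) : vM z (mer F) < 1 ↔ F z = 0 := by
  rw [mer_eq hF]; exact vM_toM_lt_one

lemma smul_div_Mer (g : GQ) (x y : Mer) : g • (x / y) = g • x / g • y :=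
  map_div₀ (MulSemiringAction.toRingHom GQ Mer g) x y

lemma vM_inv_smul (g : GQ) (z : ℍ) (x : Mer) : vM z (g⁻¹ • x) = vM (rr g • z) x := by
  have key : ∀ a : ℍ → ℂ, MDiff a → vM z (g⁻¹ • mer a) = vM (rr g • z) (mer a) := by
    intro a ha
    by_cases h0 : a = 0
    · simp [h0, mer_zero]
    · have h1 : (fun τ => a (rr g • τ)) ≠ 0 := fun h => h0 (funext fun τ => by
        simpa using congrFun h ((rr g)⁻¹ • τ))
      rw [inv_smul_mer ha, vM_mer _ ha h0, vM_mer _ (mdiff_comp ha g) h1, ordZ, ordZ,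
        ordH_smul _ (rr_pos g)]
  obtain ⟨a, b, ha, hb, -, rfl⟩ := exists_mer x
  rw [smul_div_Mer, map_div₀, map_div₀, key a ha, key b hb]


/-- **roots of meromorphic functions** -/
theorem exists_rootM {x : Mer} {n : ℕ} (hn : n ≠ 0) (hx : ∀ z, (n : ℤ) ∣ log (vM z x)) :
    ∃ y : Mer, y ^ n = x := by
  by_cases h0 : x = 0
  · exact ⟨0, by rw [h0, zero_pow hn]⟩
  obtain ⟨a, b, hb, rfl⟩ := exists_div x
  have ha : a ≠ 0 := by rintro rfl; simp at h0
  obtain ⟨m, rfl⟩ := Nat.exists_eq_succ_of_ne_zero hn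
  obtain ⟨g, hg, hgn⟩ := exists_root (h := ((a * b ^ m : Hol) : ℍ → ℂ)) (a * b ^ m).2 hn fun z => by
    have h1 := hx z
    have h2 := vM_toM' z (mul_ne_zero ha (pow_ne_zero m hb))
    rw [map_div₀, vM_toM' z ha, vM_toM' z hb, ← exp_sub, log_exp] at h1
    rw [map_mul, map_pow, map_mul, map_pow, vM_toM' z ha, vM_toM' z hb, ← exp_nsmul, ← exp_add,
      exp_inj] at h2
    rw [← Int.natCast_dvd_natCast]
    obtain ⟨c, hc⟩ := h1
    refine ⟨ordZ b z - c, ?_⟩
    change ordZ _ z = _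
    simp only [nsmul_eq_mul] at h2
    push_cast at hc ⊢
    linear_combination h2 - hc
  refine ⟨toM ⟨g, hg⟩ / toM b, ?_⟩
  have h3 : (⟨g, hg⟩ : Hol) ^ (m + 1) = a * b ^ m := Subtype.ext hgn
  have := toM_ne hb
  rw [div_pow, ← map_pow, h3, map_mul, map_pow]
  field_simp
  rw [pow_succ]; ring

/-- a meromorphic function without poles is holomorphic -/
theorem exists_hol {x : Mer} (hx : ∀ z, vM z x ≤ 1) : ∃ f : Hol, x = toM f := by
  obtain ⟨a, b, hb, rfl⟩ := exists_div x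
  by_cases ha : a = 0
  · exact ⟨0, by simp [ha]⟩
  have key : ∀ z : ℍ, ∃ G : ℂ → ℂ, AnalyticAt ℂ G z ∧
      ∀ᶠ w in 𝓝 (z : ℂ), (a.1 ∘ ofComplex) w = G w * (b.1 ∘ ofComplex) w := by
    intro z
    have h1 := hx z
    rw [map_div₀, vM_toM' z ha, vM_toM' z hb, ← exp_sub, ← exp_zero, exp_le_exp, ordZ, ordZ] at h1
    obtain ⟨A, hA, -, hA'⟩ := (analAt a.2 z).analyticOrderAt_eq_natCast.mp (ordH_eq a ha z)
    obtain ⟨B, hB, hB0, hB'⟩ := (analAt b.2 z).analyticOrderAt_eq_natCast.mp (ordH_eq b hb z)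
    obtain ⟨d, hd⟩ : ∃ d, (ordH a z).toNat = (ordH b z).toNat + d := Nat.exists_eq_add_of_le (by omega)
    refine ⟨fun w => (w - z) ^ d * A w / B w, ((by fun_prop : AnalyticAt ℂ (fun w : ℂ => (w - z) ^ d) z).mul hA).div hB hB0, ?_⟩
    filter_upwards [hA', hB', hB.continuousAt.eventually_ne hB0] with w h1 h2 h3
    rw [h1, h2, hd, smul_eq_mul, smul_eq_mul, pow_add]
    field_simp
  choose G hG hG' using key
  have hbne : ∀ z : ℍ, ∀ᶠ w in 𝓝[≠] (z : ℂ), (b.1 ∘ ofComplex) w ≠ 0 := fun z =>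
    (analAt b.2 z).eventually_eq_zero_or_eventually_ne_zero.resolve_left fun h =>
      ordH_ne_top b.2 (fun h => hb (Subtype.ext h)) z (analyticOrderAt_eq_top.mpr h)
  have hloc : ∀ z : ℍ, ∀ᶠ w in 𝓝 (z : ℂ), G (ofComplex w) (ofComplex w) = G z w := by
    intro z
    filter_upwards [(hG z).eventually_analyticAt, (hG' z).eventually_nhds,
      isOpen_upperHalfPlaneSet.mem_nhds z.im_pos] with w h1 h2 h3
    rw [ofComplex_apply_of_im_pos h3]
    have h4 : ∀ᶠ u in 𝓝[≠] w, G ⟨w, h3⟩ u = G z u := by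
      filter_upwards [hbne ⟨w, h3⟩, (hG' ⟨w, h3⟩).filter_mono nhdsWithin_le_nhds,
        h2.filter_mono nhdsWithin_le_nhds] with u e1 e2 e3
      exact mul_right_cancel₀ e1 (e2.symm.trans e3)
    exact tendsto_nhds_unique_of_eventuallyEq
      ((hG ⟨w, h3⟩).continuousAt.tendsto.mono_left nhdsWithin_le_nhds)
      (h1.continuousAt.tendsto.mono_left nhdsWithin_le_nhds) h4
  have hf : MDiff (fun z : ℍ => G z z) := fun z => by
    rw [UpperHalfPlane.mdifferentiableAt_iff]
    exact (hG z).differentiableAt.congr_of_eventuallyEq (hloc z)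
  refine ⟨⟨_, hf⟩, ?_⟩
  rw [div_eq_iff (toM_ne hb), ← map_mul]
  congr 1
  ext z
  simpa using (hG' z).self_of_nhds

end Crest.Agent.T15.Bet
end
end

-- ▼ part T15/BetUni_91

/-!
# T15 / BetUni (helper91): uniformisers at the points of `ℍ`, surjectivity of `j`

* `isF_rc` : the Rankin-Cohen bracket `a Db - b Da`;
* `h4` : a form of weight two on `Γ₁(4)` without zeros on `ℍ`;
* `exists_unif` : a `Γ₁(4)`-invariant modular function with a simple zero at `z`;
* `j_onto`.
-/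

set_option autoImplicit false

noncomputable section

namespace Crest.Agent.T15.Bet

open UpperHalfPlane hiding I
open Filter Topology WithZero ModularForm CongruenceSubgroup Derivative Matrix
open scoped MatrixGroups Manifold Real
open Crest.Agent.T15.Mf Crest.Agent.R007 Crest.Agent.R007.Rat

lemma bdd_D {F : ℍ → ℂ} (hF : MDiff F) (hb : IsBoundedAtImInfty F) : IsBoundedAtImInfty (D F) := by
  rw [isBoundedAtImInfty_iff] at hb ⊢
  obtain ⟨C, A, h⟩ := hb
  refine ⟨‖(2 * π * Complex.I : ℂ)⁻¹‖ * (C / 1), max A 1 + 1, fun z hz => ?_⟩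
  have hsub : ∀ w ∈ Metric.closedBall (z : ℂ) 1, max A 1 ≤ w.im := by
    intro w hw
    have h1 : |(w - z).im| ≤ 1 := (Complex.abs_im_le_norm _).trans (by simpa [dist_eq_norm] using hw)
    rw [Complex.sub_im, coe_im, abs_le] at h1
    linarith
  have hpos : ∀ w ∈ Metric.closedBall (z : ℂ) 1, 0 < w.im := fun w hw =>
    lt_of_lt_of_le (lt_of_lt_of_le one_pos (le_max_right A 1)) (hsub w hw)
  rw [normalizedDerivOfComplex, norm_mul]
  gcongr
  refine Complex.norm_deriv_le_of_forall_mem_sphere_norm_le one_pos ?_ fun w hw => ?_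
  · refine DifferentiableOn.diffContOnCl ?_
    rw [closure_ball _ one_ne_zero]
    exact (UpperHalfPlane.mdifferentiable_iff.mp hF).mono hpos
  · have hw' := Metric.sphere_subset_closedBall hw
    rw [Function.comp_apply, ofComplex_apply_of_im_pos (hpos w hw')]
    exact h _ ((le_max_left A 1).trans (hsub w hw'))

/-- Rankin-Cohen bracket -/
def rc (a b : ℍ → ℂ) : ℍ → ℂ := a * D b - b * D a

lemma mdiff_rc {a b : ℍ → ℂ} (ha : MDiff a) (hb : MDiff b) : MDiff (rc a b) :=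
  (ha.mul (normalizedDerivOfComplex_mdifferentiable hb)).sub
    (hb.mul (normalizedDerivOfComplex_mdifferentiable ha))

lemma rc_slash {a b : ℍ → ℂ} (ha : MDiff a) (hb : MDiff b) (k : ℤ) (γ : SL(2, ℤ)) :
    (rc a b) ∣[k + (k + 2)] γ = rc (a ∣[k] γ) (b ∣[k] γ) := by
  rw [rc, rc, normalizedDerivOfComplex_SL_slash ha, normalizedDerivOfComplex_SL_slash hb,
    sub_eq_add_neg, SlashAction.add_slash, SlashAction.neg_slash, mul_slash_SL2, mul_slash_SL2]
  ext z
  simp only [Pi.add_apply, Pi.neg_apply, Pi.mul_apply, Pi.sub_apply]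
  ring

theorem isF_rc {M : ℕ} {k : ℤ} {a b : ℍ → ℂ} (ha : IsF M k a) (hb : IsF M k b) :
    IsF M (k + (k + 2)) (rc a b) where
  slash γ hγ := by rw [rc_slash ha.holo hb.holo, ha.slash γ hγ, hb.slash γ hγ]
  holo := mdiff_rc ha.holo hb.holo
  bdd g := by
    rw [rc_slash ha.holo hb.holo]
    exact ((ha.bdd g).mul (bdd_D (hb.slash_SL g).holo (hb.bdd g))).sub
      ((hb.bdd g).mul (bdd_D (ha.slash_SL g).holo (ha.bdd g)))

lemma rc_mul {u b : ℍ → ℂ} (hu : MDiff u) (hb : MDiff b) : rc (u * b) b = -(b ^ 2 * D u) := by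
  rw [rc, normalizedDerivOfComplex_mul u b hu hb]; ring

lemma ordH_D {u : ℍ → ℂ} (hu : MDiff u) {z : ℍ} (hz : u z = 0) : ordH (D u) z + 1 = ordH u z := by
  have h1 := (analAt hu z).analyticOrderAt_deriv_add_one
  simp only [Function.comp_apply, ofComplex_apply, hz, sub_zero] at h1
  have h2 : (D u) ∘ ofComplex =ᶠ[𝓝 (z : ℂ)]
      (fun _ => (2 * π * Complex.I : ℂ)⁻¹) * deriv (u ∘ ofComplex) := by
    filter_upwards [isOpen_upperHalfPlaneSet.mem_nhds z.im_pos] with w hw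
    simp [normalizedDerivOfComplex, ofComplex_apply_of_im_pos hw]
  rw [ordH, analyticOrderAt_congr h2, analyticOrderAt_mul analyticAt_const (analAt hu z).deriv,
    analyticAt_const.analyticOrderAt_eq_zero.mpr (inv_ne_zero Complex.two_pi_I_ne_zero), zero_add, h1]
  rfl

lemma mdiff_div {a b : ℍ → ℂ} (ha : MDiff a) (hb : MDiff b) (h0 : ∀ z, b z ≠ 0) : MDiff (a / b) := by
  rw [UpperHalfPlane.mdifferentiable_iff] at ha hb ⊢
  exact ha.div hb fun z _ => h0 _

/-- a form of weight two on `Γ₁(4)` without zeros on `ℍ` -/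
def h4 : ℍ → ℂ := Wp.P 4 ![0, 1] - Wp.P 4 ![0, 2]

theorem isF_h4 : IsF 4 2 h4 := (Wp.isF_P (by norm_num) _).sub (Wp.isF_P (by norm_num) _)

theorem h4_slash {γ : SL(2, ℤ)} (hγ : γ ∈ Gamma1 4) : h4 ∣[(2 : ℤ)] γ = h4 := by
  rw [Gamma1_mem] at hγ
  obtain ⟨-, h1, h2⟩ := hγ
  rw [h4, sub_eq_add_neg, SlashAction.add_slash, SlashAction.neg_slash, Wp.P_slash, Wp.P_slash]
  have key : ∀ a : ℤ, Wp.P 4 (![0, a] ᵥ* (γ : Matrix (Fin 2) (Fin 2) ℤ)) = Wp.P 4 ![0, a] := fun a =>
    Wp.P_congr (M := 4) (by norm_num) fun i => by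
      fin_cases i <;> simp [Matrix.vecMul, dotProduct, h1, h2]
  rw [key, key]

theorem h4_ne (z : ℍ) : h4 z ≠ 0 := by
  intro h
  rw [h4, Pi.sub_apply, Wp.P, Wp.P, ← mul_sub, mul_eq_zero, sub_eq_zero] at h
  rcases h with h | h
  · exact inv_ne_zero (pow_ne_zero 2 Complex.two_pi_I_ne_zero) h
  · rw [WpId.wp_eq_iff _ (Wp.pt_notMem (by norm_num) (Or.inr (by decide)) z)
      (Wp.pt_notMem (by norm_num) (Or.inr (by decide)) z)] at h
    rcases h with h | h
    · refine Wp.pt_notMem (M := 4) (v := ![0, -1]) (by norm_num) (Or.inr (by decide)) z ?_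
      convert h using 1
      simp [Wp.pt]; norm_num
    · refine Wp.pt_notMem (M := 4) (v := ![0, 3]) (by norm_num) (Or.inr (by decide)) z ?_
      convert h using 1
      simp [Wp.pt]; norm_num

lemma dl_ne (z : ℍ) : dl z ≠ 0 := ModularForm.discriminant_ne_zero z

lemma dl_ne_zero : dl ≠ 0 := fun h => dl_ne UpperHalfPlane.I (congrFun h _)

/-- `E₄³ - c Δ` -/
def jn (c : ℂ) : ℍ → ℂ := e4 ^ 3 - c • dl

lemma isF_e43 : IsF 1 12 (e4 ^ 3) := (isF_e4.pow 3).cast (by norm_num)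

lemma isF_jn (c : ℂ) : IsF 1 12 (jn c) := isF_e43.sub (isF_dl.smul c)

lemma tendsto_coeff_zero {M : ℕ} [NeZero M] {k : ℤ} {f : ℍ → ℂ} (hf : IsF M k f) :
    Tendsto f atImInfty (𝓝 ((qe M f).coeff 0)) := by
  have h := hf.analytic.continuousAt.tendsto.comp (qParam_tendsto_atImInfty (h := (M : ℝ)) Mpos)
  rw [qe, qExpansion_coeff]
  simp only [Nat.factorial_zero, Nat.cast_one, inv_one, iteratedDeriv_zero, one_mul]
  refine h.congr fun τ => ?_
  exact eq_cuspFunction τ Mpos.ne' hf.periodic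

lemma tendsto_jn (c : ℂ) : Tendsto (jn c) atImInfty (𝓝 1) := by
  have h1 := tendsto_coeff_zero isF_e4
  have h2 := tendsto_coeff_zero isF_dl
  rw [coeff_zero_e4] at h1
  rw [coeff_zero_dl] at h2
  have := (h1.pow 3).sub (h2.const_mul c)
  simp only [one_pow, mul_zero, sub_zero] at this
  exact this

lemma jn_ne (c : ℂ) : jn c ≠ 0 := fun h => by
  have := tendsto_jn c
  rw [h] at this
  exact zero_ne_one (tendsto_nhds_unique tendsto_const_nhds this)

/-- **`j` is onto** -/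
theorem j_onto (c : ℂ) : ∃ z : ℍ, e4 z ^ 3 = c * dl z := by
  by_contra hc
  push Not at hc
  have h0 : ∀ z, jn c z ≠ 0 := fun z h => hc z (sub_eq_zero.mp h)
  have h2 := tendsto_coeff_zero isF_dl
  rw [coeff_zero_dl] at h2
  have hlim : Tendsto (dl / jn c) atImInfty (𝓝 0) := by
    simpa using h2.div (tendsto_jn c) one_ne_zero
  have hsl : ∀ γ : SL(2, ℤ), (dl / jn c) ∣[(0 : ℤ)] γ = dl / jn c := by
    intro γ
    ext z
    have e1 := congrFun (isF_dl.slash_one_level γ) z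
    have e2 := congrFun ((isF_jn c).slash_one_level γ) z
    rw [SL_slash_apply] at e1 e2 ⊢
    have := zpow_ne_zero (-12 : ℤ) (denom_ne_zero γ z)
    rw [Pi.div_apply, Pi.div_apply, ← e1, ← e2, mul_div_mul_right _ _ this]
    simp
  have hF : IsF 1 0 (dl / jn c) := ⟨fun γ _ => hsl γ, mdiff_div isF_dl.holo (isF_jn c).holo h0,
    fun γ => by rw [hsl]; exact hlim.isBigO_one ℝ⟩
  obtain ⟨a, ha⟩ := ModularFormClass.levelOne_weight_zero_const hF.toSL
  rw [IsF.coe_toSL] at ha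
  have ha0 : a = 0 := by
    rw [ha] at hlim
    exact tendsto_nhds_unique tendsto_const_nhds hlim
  have := congrFun ha UpperHalfPlane.I
  rw [ha0, Pi.div_apply, Function.const_apply, div_eq_zero_iff] at this
  exact this.elim (dl_ne _) (h0 _)

/-- **uniformisers** -/
theorem exists_unif (z : ℍ) :
    ∃ x : FF, (∀ γ ∈ Gamma1 4, γ • x = x) ∧ vM z (x : Mer) = exp (-1) := by
  set c := e4 z ^ 3 / dl z
  have ha := isF_jn c
  have hu : MDiff (jn c / dl) := mdiff_div ha.holo isF_dl.holo dl_ne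
  have hab : jn c = jn c / dl * dl := by
    ext w; rw [Pi.mul_apply, Pi.div_apply, div_mul_cancel₀ _ (dl_ne w)]
  have hz : (jn c / dl) z = 0 := by
    have := dl_ne z
    simp only [jn, Pi.div_apply, Pi.sub_apply, Pi.pow_apply, Pi.smul_apply, smul_eq_mul, c]
    field_simp
    simp
  have hu0 : jn c / dl ≠ 0 := fun h => jn_ne c (by rw [hab, h, zero_mul])
  have hD := normalizedDerivOfComplex_mdifferentiable hu
  have ho := ordH_D hu hz
  have ht := ordH_ne_top hu hu0 z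
  have hD0 : D (jn c / dl) ≠ 0 := fun h => ht (by rw [← ho, h, ordH_zero, top_add])
  have hN : IsF 4 26 (jn c * dl * h4) :=
    (((ha.mul isF_dl).mono (one_dvd 4)).mul isF_h4).cast (by norm_num)
  have hR1 : IsF 1 26 (rc (jn c) dl) := (isF_rc ha isF_dl).cast (by norm_num)
  have hR : IsF 4 26 (rc (jn c) dl) := hR1.mono (one_dvd 4)
  refine ⟨quo (jn c * dl * h4) (rc (jn c) dl), fun γ hγ => ?_, ?_⟩
  · rw [← inv_inv γ, inv_sl_smul_quo (by norm_num) hN hR, hR1.slash_one_level,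
      show (26 : ℤ) = (12 + 12) + 2 by norm_num, mul_slash_SL2, (ha.mul isF_dl).slash_one_level,
      h4_slash (inv_mem hγ)]
  · rw [coe_quo (by norm_num) hN hR, map_div₀, mer_mul (ha.mul isF_dl).holo isF_h4.holo,
      mer_mul ha.holo isF_dl.holo, map_mul, map_mul, (vM_mer_eq_one isF_h4.holo).mpr (h4_ne z)]
    have e : rc (jn c) dl = -(dl ^ 2 * D (jn c / dl)) := by
      conv_lhs => rw [hab]
      exact rc_mul hu isF_dl.holo
    rw [e, mer_neg ((isF_dl.pow 2).holo.mul hD), Valuation.map_neg, mer_mul (isF_dl.pow 2).holo hD,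
      mer_pow isF_dl.holo, map_mul, map_pow]
    conv_lhs => rw [hab]
    rw [mer_mul hu isF_dl.holo, map_mul, (vM_mer_eq_one isF_dl.holo).mpr (dl_ne z), vM_mer z hu hu0,
      ← hab, vM_mer z hD hD0]
    simp only [mul_one, one_pow, one_mul]
    rw [← exp_sub, exp_inj, ordZ, ordZ, ← ho, ENat.toNat_add (ordH_ne_top hD hD0 z) (by simp)]
    simp

end Crest.Agent.T15.Bet
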