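import Mathlib
import Crest.Agent.T15.BetKap_91
import Crest.Agent.T15.BetUni_91
import Crest.Agent.T15.MfB_79

-- ▼ part T15/BetPoi_91
section

/-!
# T15 / BetPoi (helper91): Poincaré series with a unitary character

For every subgroup `Γ ≤ SL(2,ℤ)` and every unitary character `χ` of `Γ` (trivial on `-1`) there is a
non-zero holomorphic `P` of weight `12 m` with `P ∣ γ = χ(γ) P`, bounded at all cusps:
`P z = ∑_{γ ∈ Γ} χ(γ)⁻¹ (a z + b + 2 i (c z + d))^(-12 m)`, `m` large.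
-/

set_option autoImplicit false

noncomputable section

namespace Crest.Agent.T15.Bet

open UpperHalfPlane hiding I
open ModularForm Complex Filter Topology EisensteinSeries
open scoped MatrixGroups Manifold

/-- the linear form of `γ` -/
def Lf (γ : SL(2, ℤ)) (z : ℂ) : ℂ :=
  ((γ 0 0 : ℤ) * z + (γ 0 1 : ℤ)) + 2 * I * ((γ 1 0 : ℤ) * z + (γ 1 1 : ℤ))

lemma det_real (γ : SL(2, ℤ)) :
    ((γ 0 0 : ℤ) : ℝ) * (γ 1 1 : ℤ) - (γ 0 1 : ℤ) * (γ 1 0 : ℤ) = 1 := by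
  have h := γ.det_coe
  rw [Matrix.det_fin_two] at h
  exact_mod_cast h

lemma Lf_smul (γ δ : SL(2, ℤ)) (z : ℍ) :
    Lf γ ((δ • z : ℍ) : ℂ) * denom δ z = Lf (γ * δ) z := by
  have hd : denom δ z = (δ 1 0 : ℤ) * (z : ℂ) + (δ 1 1 : ℤ) := by
    simp [denom]
  have hz : ((δ • z : ℍ) : ℂ) * denom δ z = (δ 0 0 : ℤ) * (z : ℂ) + (δ 0 1 : ℤ) := by
    have h0 := denom_ne_zero δ z
    rw [hd] at h0
    rw [coe_specialLinearGroup_apply, hd]
    simp only [eq_intCast, ofReal_intCast]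
    rw [div_mul_cancel₀ _ h0]
  have e : ∀ i j, (γ * δ) i j = γ i 0 * δ 0 j + γ i 1 * δ 1 j := by
    intro i j
    simp [Matrix.mul_apply, Fin.sum_univ_two]
  simp only [Lf, e]
  push_cast
  rw [hd] at hz ⊢
  linear_combination ((γ 0 0 : ℤ) + 2 * I * (γ 1 0 : ℤ) : ℂ) * hz

lemma row_ne (γ : SL(2, ℤ)) (i : Fin 2) : (γ i : Fin 2 → ℤ) ≠ 0 := by
  intro h
  have h0 : γ i 0 = 0 := congrFun h 0
  have h1 : γ i 1 = 0 := congrFun h 1
  have := det_real γ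
  fin_cases i <;> simp_all

lemma one_le_row (γ : SL(2, ℤ)) (i : Fin 2) : 1 ≤ ‖(γ i : Fin 2 → ℤ)‖ := by
  have h := row_ne γ i
  rw [EisensteinSeries.norm_eq_max_natAbs]
  by_contra hc
  push Not at hc
  have h2 : max (γ i 0).natAbs (γ i 1).natAbs < 1 := by exact_mod_cast hc
  apply h
  ext j
  fin_cases j <;> simp <;> omega

lemma sq_Lf (γ : SL(2, ℤ)) (z : ℍ) :
    r z ^ 2 * (‖(γ 0 : Fin 2 → ℤ)‖ * ‖(γ 1 : Fin 2 → ℤ)‖) ≤ ‖Lf γ z‖ ^ 2 := by
  set u : ℂ := (γ 0 0 : ℤ) * (z : ℂ) + (γ 0 1 : ℤ) with hu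
  set v : ℂ := (γ 1 0 : ℤ) * (z : ℂ) + (γ 1 1 : ℤ) with hv
  have h1 : r z * ‖(γ 0 : Fin 2 → ℤ)‖ ≤ ‖u‖ := r_mul_max_le z (row_ne γ 0)
  have h2 : r z * ‖(γ 1 : Fin 2 → ℤ)‖ ≤ ‖v‖ := r_mul_max_le z (row_ne γ 1)
  have hr := r_pos z
  have h3 : r z ^ 2 * (‖(γ 0 : Fin 2 → ℤ)‖ * ‖(γ 1 : Fin 2 → ℤ)‖) ≤ ‖u‖ * ‖v‖ := by
    calc _ = (r z * ‖(γ 0 : Fin 2 → ℤ)‖) * (r z * ‖(γ 1 : Fin 2 → ℤ)‖) := by ring
      _ ≤ _ := mul_le_mul h1 h2 (by positivity) (norm_nonneg _)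
  have him : u.im * v.re - u.re * v.im = z.im := by
    have := det_real γ
    simp only [hu, hv, add_im, add_re, mul_im, mul_re, intCast_re, intCast_im, coe_re, coe_im]
    linear_combination z.im * this
  have h4 : ‖Lf γ z‖ ^ 2 = ‖u‖ ^ 2 + 4 * ‖v‖ ^ 2 + 4 * z.im := by
    have : Lf γ z = u + 2 * I * v := rfl
    rw [this, Complex.sq_norm, Complex.sq_norm, Complex.sq_norm, ← him]
    simp [normSq_apply]
    ring
  have := z.im_pos
  nlinarith [sq_nonneg (‖u‖ - ‖v‖), sq_nonneg ‖v‖, sq_nonneg ‖u‖]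

/-- summable weight -/
def wt (γ : SL(2, ℤ)) : ℝ := (‖(γ 0 : Fin 2 → ℤ)‖ * ‖(γ 1 : Fin 2 → ℤ)‖)⁻¹ ^ 3

lemma wt_nonneg (γ : SL(2, ℤ)) : 0 ≤ wt γ := by unfold wt; positivity

lemma summable_wt : Summable wt := by
  have h := summable_one_div_norm_rpow (k := 3) (by norm_num)
  have h2 := h.mul_of_nonneg h (fun _ => by positivity) (fun _ => by positivity)
  have hi : Function.Injective (fun γ : SL(2, ℤ) => ((γ 0 : Fin 2 → ℤ), (γ 1 : Fin 2 → ℤ))) := by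
    intro a b hab
    have h0 : (a 0 : Fin 2 → ℤ) = b 0 := congrArg Prod.fst hab
    have h1 : (a 1 : Fin 2 → ℤ) = b 1 := congrArg Prod.snd hab
    ext i j
    fin_cases i
    · exact congrFun h0 j
    · exact congrFun h1 j
  refine (h2.comp_injective hi).congr fun γ => ?_
  simp only [Function.comp, wt]
  rw [Real.rpow_neg (norm_nonneg _), Real.rpow_neg (norm_nonneg _)]
  rw [show (3 : ℝ) = ((3 : ℕ) : ℝ) by norm_num, Real.rpow_natCast, Real.rpow_natCast]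
  rw [mul_inv, mul_pow, inv_pow, inv_pow]

lemma Lf_ge (γ : SL(2, ℤ)) (z : ℍ) : r z ≤ ‖Lf γ z‖ := by
  have h := sq_Lf γ z
  have h0 := one_le_row γ 0
  have h1 := one_le_row γ 1
  have hr := r_pos z
  have : r z ^ 2 ≤ ‖Lf γ z‖ ^ 2 := le_trans (by nlinarith [sq_nonneg (r z), mul_le_mul h0 h1 zero_le_one (by linarith)]) h
  exact (pow_le_pow_iff_left₀ hr.le (norm_nonneg _) two_ne_zero).mp this

lemma Lf_ne (γ : SL(2, ℤ)) (z : ℍ) : Lf γ z ≠ 0 :=
  norm_pos_iff.mp ((r_pos z).trans_le (Lf_ge γ z))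

lemma term_le (γ : SL(2, ℤ)) (z : ℍ) {ρ : ℝ} (hρ : 0 < ρ) (hz : ρ ≤ r z) {k : ℕ} (hk : 6 ≤ k) :
    ‖(Lf γ z)⁻¹ ^ k‖ ≤ ρ⁻¹ ^ k * wt γ := by
  obtain ⟨j, rfl⟩ := Nat.exists_eq_add_of_le hk
  have h0 := one_le_row γ 0
  have h1 := one_le_row γ 1
  have hL : 0 < ‖Lf γ z‖ := (r_pos z).trans_le (Lf_ge γ z)
  have h2 : ‖Lf γ z‖⁻¹ ≤ ρ⁻¹ := inv_anti₀ hρ (hz.trans (Lf_ge γ z))
  have h3 : ‖Lf γ z‖⁻¹ ^ 2 ≤ ρ⁻¹ ^ 2 * (‖(γ 0 : Fin 2 → ℤ)‖ * ‖(γ 1 : Fin 2 → ℤ)‖)⁻¹ := by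
    rw [inv_pow, inv_pow, ← mul_inv]
    refine inv_anti₀ (by positivity) (le_trans ?_ (sq_Lf γ z))
    gcongr
  rw [norm_pow, norm_inv, pow_add, pow_add, wt]
  calc _ = (‖Lf γ z‖⁻¹ ^ 2) ^ 3 * ‖Lf γ z‖⁻¹ ^ j := by ring
    _ ≤ (ρ⁻¹ ^ 2 * (‖(γ 0 : Fin 2 → ℤ)‖ * ‖(γ 1 : Fin 2 → ℤ)‖)⁻¹) ^ 3 * ρ⁻¹ ^ j := by gcongr
    _ = _ := by ring

section series

variable {ι : Type*} (e : ι → SL(2, ℤ)) (c : ι → ℂ)

/-- the series -/
def ser (k : ℕ) (z : ℍ) : ℂ := ∑' i, c i * (Lf (e i) z)⁻¹ ^ k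

lemma ser_slash (k : ℕ) (g : SL(2, ℤ)) :
    (ser e c k) ∣[(k : ℤ)] g = ser (fun i => e i * g) c k := by
  ext z
  rw [SL_slash_apply, ser, ser, ← tsum_mul_right]
  refine tsum_congr fun i => ?_
  rw [← Lf_smul, mul_inv, mul_pow, zpow_neg, zpow_natCast, inv_pow (denom _ _), mul_assoc]

variable {e c}

lemma ser_term_le (hc : ∀ i, ‖c i‖ ≤ 1) (z : ℍ) {ρ : ℝ} (hρ : 0 < ρ) (hz : ρ ≤ r z) {k : ℕ}
    (hk : 6 ≤ k) (i : ι) : ‖c i * (Lf (e i) z)⁻¹ ^ k‖ ≤ ρ⁻¹ ^ k * wt (e i) := by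
  rw [norm_mul]
  exact (mul_le_of_le_one_left (norm_nonneg _) (hc i)).trans (term_le _ z hρ hz hk)

lemma ser_holo (he : Function.Injective e) (hc : ∀ i, ‖c i‖ ≤ 1) {k : ℕ} (hk : 6 ≤ k) :
    MDiff (ser e c k) := by
  intro τ
  rw [mdifferentiableAt_iff]
  have hB : 0 < τ.im / 2 := by have := τ.im_pos; positivity
  let U : Set ℂ := {z | |z.re| < |τ.re| + 1 ∧ τ.im / 2 < z.im}
  have hU : IsOpen U :=
    (isOpen_lt (continuous_abs.comp Complex.continuous_re) continuous_const).inter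
      (isOpen_lt continuous_const Complex.continuous_im)
  have hτ : (τ : ℂ) ∈ U := ⟨by simp, by simp only [coe_im]; linarith⟩
  set ρ := r ⟨⟨|τ.re| + 1, τ.im / 2⟩, hB⟩
  have hd : DifferentiableOn ℂ (fun z : ℂ => ∑' i, c i * (Lf (e i) z)⁻¹ ^ k) U := by
    refine differentiableOn_tsum_of_summable_norm
      ((summable_wt.comp_injective he).mul_left (ρ⁻¹ ^ k)) (fun i => ?_) hU (fun i w hw => ?_)
    · intro w hw
      have hw' : 0 < w.im := hB.trans hw.2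
      have : Lf (e i) w ≠ 0 := Lf_ne (e i) ⟨w, hw'⟩
      have hL : DifferentiableAt ℂ (Lf (e i)) w := by unfold Lf; fun_prop
      exact (((hL.inv this).pow k).const_mul _).differentiableWithinAt
    · have hw' : 0 < w.im := hB.trans hw.2
      exact ser_term_le hc ⟨w, hw'⟩ (r_pos _)
        (r_lower_bound_on_verticalStrip _ hB ⟨hw.1.le, hw.2.le⟩) hk i
  refine (hd.differentiableAt (hU.mem_nhds hτ)).congr_of_eventuallyEq ?_
  filter_upwards [hU.mem_nhds hτ] with w hw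
  have hw' : 0 < w.im := hB.trans hw.2
  simp only [Function.comp, ser, ofComplex_apply_of_im_pos hw']

lemma ser_bdd (he : Function.Injective e) (hc : ∀ i, ‖c i‖ ≤ 1) {k : ℕ} (hk : 6 ≤ k) :
    IsBoundedAtImInfty (ser e c k) := by
  rw [isBoundedAtImInfty_iff]
  set ρ := r ⟨⟨(1 : ℝ), (1 : ℝ)⟩, one_pos⟩
  refine ⟨ρ⁻¹ ^ k * ∑' γ, wt γ, 1, fun z hz => ?_⟩
  obtain ⟨n, hn⟩ := ModularGroup_T_zpow_mem_verticalStrip z (N := 1) one_pos
  set g : SL(2, ℤ) := ModularGroup.T ^ (((1 : ℕ) : ℤ) * n) with hg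
  have hden : denom g z = 1 := by
    rw [ModularGroup.denom_apply, hg, ModularGroup.coe_T_zpow]; simp
  have him : (g • z).im = z.im := by
    rw [ModularGroup.im_smul_eq_div_normSq, hden]; simp
  have hs : g • z ∈ verticalStrip 1 1 := ⟨by simpa using hn.1, by rw [him]; exact hz⟩
  have he' : Function.Injective (fun i => e i * g⁻¹) := fun a b h => he (mul_right_cancel h)
  have key : ∀ i, ‖c i * (Lf (e i) z)⁻¹ ^ k‖ ≤ ρ⁻¹ ^ k * wt (e i * g⁻¹) := by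
    intro i
    have h1 := Lf_smul (e i * g⁻¹) g z
    rw [hden, mul_one, inv_mul_cancel_right] at h1
    rw [← h1]
    exact ser_term_le (e := fun i => e i * g⁻¹) hc (g • z) (r_pos _)
      (r_lower_bound_on_verticalStrip _ one_pos hs) hk i
  have hsum : Summable fun i => wt (e i * g⁻¹) := summable_wt.comp_injective he'
  refine (tsum_of_norm_bounded (hsum.mul_left (ρ⁻¹ ^ k)).hasSum key).trans ?_
  rw [tsum_mul_left]
  have hρ : 0 < ρ := r_pos _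
  gcongr
  exact hsum.tsum_le_tsum_of_inj _ he' (fun γ _ => wt_nonneg γ) (fun _ => le_rfl) summable_wt

end series

/-- the base point `2 i` -/
def z2 : ℍ := ⟨2 * I, by simp⟩

lemma four_lt_Lf {γ : SL(2, ℤ)} (h1 : γ ≠ 1) (h2 : γ ≠ -1) : 4 < ‖Lf γ z2‖ := by
  have hdet : γ 0 0 * γ 1 1 - γ 0 1 * γ 1 0 = 1 := by exact_mod_cast det_real γ
  have hs : ‖Lf γ z2‖ ^ 2 = (((γ 0 1 + 4 * γ 1 0) ^ 2 + 4 * (γ 0 0 - γ 1 1) ^ 2 + 16 : ℤ) : ℝ) := by
    have := det_real γ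
    rw [Complex.sq_norm]
    simp [Lf, z2, normSq_apply]
    linear_combination 16 * this
  have hpos : 0 < (γ 0 1 + 4 * γ 1 0) ^ 2 + 4 * (γ 0 0 - γ 1 1) ^ 2 := by
    by_contra hc
    have ha : γ 0 1 + 4 * γ 1 0 = 0 := by nlinarith [sq_nonneg (γ 0 1 + 4 * γ 1 0), sq_nonneg (γ 0 0 - γ 1 1)]
    have hb : γ 0 0 - γ 1 1 = 0 := by nlinarith [sq_nonneg (γ 0 1 + 4 * γ 1 0), sq_nonneg (γ 0 0 - γ 1 1)]
    have hb' : γ 1 1 = γ 0 0 := by linarith
    have ha' : γ 0 1 = -4 * γ 1 0 := by linarith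
    rw [hb', ha'] at hdet
    have hc0 : γ 1 0 = 0 := by
      by_contra h0
      have := Int.one_le_abs h0
      nlinarith [sq_nonneg (γ 0 0), sq_abs (γ 1 0)]
    rw [hc0] at hdet ha'
    have : γ 0 0 = 1 ∨ γ 0 0 = -1 := Int.eq_one_or_neg_one_of_mul_eq_one (v := γ 0 0) (by linarith)
    rcases this with h | h
    · apply h1; ext i j; fin_cases i <;> fin_cases j <;> simp_all
    · apply h2; ext i j; fin_cases i <;> fin_cases j <;> simp_all
  have : (16 : ℝ) < ‖Lf γ z2‖ ^ 2 := by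
    rw [hs]; exact_mod_cast (by linarith)
  nlinarith [norm_nonneg (Lf γ z2)]

lemma Lf_one : Lf 1 z2 = 4 * I := by simp [Lf, z2]; ring

lemma Lf_neg_one : Lf (-1) z2 = -(4 * I) := by simp [Lf, z2]; ring

/-- **Poincaré series with a unitary character.** -/
theorem exists_poincare (Γ : Subgroup SL(2, ℤ)) (χ : Γ →* ℂˣ) (hχ : ∀ γ, ‖(χ γ : ℂ)‖ = 1)
    (hneg : ∀ h : (-1 : SL(2, ℤ)) ∈ Γ, χ ⟨-1, h⟩ = 1) :
    ∃ (m : ℕ) (P : ℍ → ℂ), MDiff P ∧ P ≠ 0 ∧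
      (∀ γ : Γ, P ∣[((12 * m : ℕ) : ℤ)] (γ : SL(2, ℤ)) = (χ γ : ℂ) • P) ∧
      ∀ g : SL(2, ℤ), IsBoundedAtImInfty (P ∣[((12 * m : ℕ) : ℤ)] g) := by
  classical
  let c : Γ → ℂ := fun γ => ((χ γ)⁻¹ : ℂˣ)
  have hc : ∀ γ, ‖c γ‖ ≤ 1 := fun γ => by simp [c, hχ]
  let e : Γ → SL(2, ℤ) := Subtype.val
  have he : Function.Injective e := Subtype.val_injective
  -- non-vanishing
  have hlim : Tendsto (fun m : ℕ => ∑' γ : Γ, c γ * (4 * I * (Lf (e γ) z2)⁻¹) ^ (12 * (m + 1))) atTop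
      (𝓝 (∑' γ : Γ, if e γ = 1 ∨ e γ = -1 then (1 : ℂ) else 0)) := by
    refine tendsto_tsum_of_dominated_convergence
      (bound := fun γ => 4 ^ 6 * ((r z2)⁻¹ ^ 6 * wt (e γ)))
      (((summable_wt.comp_injective he).mul_left _).mul_left _) (fun γ => ?_) (.of_forall fun m γ => ?_)
    · split_ifs with h
      · refine tendsto_const_nhds.congr fun m => ?_
        rcases h with h | h
        · have : γ = 1 := Subtype.ext h
          rw [h, Lf_one, mul_inv_cancel₀ (by simp), this]; simp [c]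
        · have : γ = ⟨-1, h ▸ γ.2⟩ := Subtype.ext h
          rw [h, Lf_neg_one, inv_neg, mul_neg, mul_inv_cancel₀ (by simp), pow_mul, this]
          simp only [c, hneg]; norm_num
      · push Not at h
        have h4 := four_lt_Lf h.1 h.2
        have : ‖4 * I * (Lf (e γ) z2)⁻¹‖ < 1 := by
          rw [norm_mul, norm_inv, mul_inv_lt_iff₀ (by linarith)]; simpa using h4
        have h5 := (tendsto_pow_atTop_nhds_zero_of_norm_lt_one this).comp
          (tendsto_atTop_mono (f := fun m : ℕ => m) (g := fun m : ℕ => 12 * (m + 1))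
            (fun m => by omega) tendsto_id)
        simpa using h5.const_mul (c γ)
    · have h1 : ‖4 * I * (Lf (e γ) z2)⁻¹‖ ≤ 1 := by
        by_cases h : e γ = 1 ∨ e γ = -1
        · rcases h with h | h
          · rw [h, Lf_one, mul_inv_cancel₀ (by simp)]; simp
          · rw [h, Lf_neg_one, inv_neg, mul_neg, mul_inv_cancel₀ (by simp)]; simp
        · push Not at h
          have h4 := four_lt_Lf h.1 h.2
          rw [norm_mul, norm_inv, mul_inv_le_iff₀ (by linarith)]; simpa using h4.le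
      rw [norm_mul, norm_pow]
      refine (mul_le_of_le_one_left (by positivity) (hc γ)).trans ?_
      refine (pow_le_pow_of_le_one (norm_nonneg _) h1 (show 6 ≤ 12 * (m + 1) by omega)).trans ?_
      have := term_le (e γ) z2 (r_pos z2) le_rfl (le_refl 6)
      rw [norm_pow] at this
      rw [norm_mul, mul_pow]
      gcongr
      simp
  have hne : (∑' γ : Γ, if e γ = 1 ∨ e γ = -1 then (1 : ℂ) else 0) ≠ 0 := by
    have hs : Summable fun γ : Γ => if e γ = 1 ∨ e γ = -1 then (1 : ℝ) else 0 := by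
      refine summable_of_hasFiniteSupport ?_
      refine (((Set.finite_singleton (-1 : SL(2, ℤ))).insert 1).preimage he.injOn).subset ?_
      intro γ hγ
      by_contra h
      simp only [Set.mem_preimage, Set.mem_insert_iff, Set.mem_singleton_iff] at h
      simp [h] at hγ
    have hp := hs.tsum_pos (fun γ => by split_ifs <;> norm_num) 1 (by simp [e])
    have : (∑' γ : Γ, if e γ = 1 ∨ e γ = -1 then (1 : ℂ) else 0) =
        ((∑' γ : Γ, if e γ = 1 ∨ e γ = -1 then (1 : ℝ) else 0 : ℝ) : ℂ) := by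
      rw [ofReal_tsum]
      refine tsum_congr fun γ => ?_
      split_ifs <;> simp
    rw [this]
    exact_mod_cast hp.ne'
  obtain ⟨m, hm⟩ := (hlim.eventually_ne hne).exists
  have hk : 6 ≤ 12 * (m + 1) := by omega
  refine ⟨m + 1, ser e c (12 * (m + 1)), ser_holo he hc hk, fun h0 => hm ?_, fun δ => ?_, fun g => ?_⟩
  · have : ser e c (12 * (m + 1)) z2 = 0 := congrFun h0 z2
    rw [← mul_zero ((4 * I) ^ (12 * (m + 1))), ← this, ser, ← tsum_mul_left]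
    refine tsum_congr fun γ => ?_
    rw [mul_pow]; ring
  · rw [ser_slash]
    ext z
    rw [Pi.smul_apply, smul_eq_mul, ser, ser, ← tsum_mul_left, ← (Equiv.mulRight δ).tsum_eq
      (fun γ => (χ δ : ℂ) * (c γ * (Lf (e γ) z)⁻¹ ^ (12 * (m + 1))))]
    refine tsum_congr fun γ => ?_
    simp only [Equiv.coe_mulRight, c, e, map_mul, Subgroup.coe_mul, mul_inv, Units.val_mul]
    have : (χ δ : ℂ) * ((χ δ)⁻¹ : ℂˣ) = 1 := (χ δ).mul_inv
    linear_combination (-((χ γ)⁻¹ : ℂˣ) * (Lf (γ * δ) z)⁻¹ ^ (12 * (m + 1)) : ℂ) * this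
  · rw [ser_slash]
    exact ser_bdd (fun a b h => he (mul_right_cancel h)) hc hk

end Crest.Agent.T15.Bet
end
end

-- ▼ part T15/Bet_91

/-!
# T15 / Bet (helper91): Kummer = Betti

`IsK n Γ x φ` (`x : FF`, `Γ ≤ GQ`, `φ : HH Γ (ZMod n)`): `x = y ^ n` in `Mer` and
`y ∘ γ = e(φ(γ)/n) y` on `Γ`.
* `exists_isK`, `IsK.unique`, `IsK.mul` …, `IsK.corr` (Hecke), `IsK.exists_pow` (kernel),
  `exists_of_hom` (onto), `IsK.par` (values at parabolic elements = orders at the cusps).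
-/

set_option autoImplicit false

noncomputable section

namespace Crest.Agent.T15.Bet

open UpperHalfPlane hiding I
open Filter Topology WithZero ModularForm CongruenceSubgroup
open scoped MatrixGroups Manifold Real
open Crest.Agent.T15.Mf Crest.Agent.T15.Hk Crest.Agent.T15.Hs Crest.Agent.R007 Crest.Agent.R007.Rat

/-- shortcut instances -/
instance (priority := high) mulActGQMer : MulAction GQ Mer :=
  (instMulSemiringActionGQMer).toDistribMulAction.toMulAction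

instance (priority := high) smulGQMer : SMul GQ Mer := mulActGQMer.toSMul

instance (priority := high) mulActGQFF : MulAction GQ FF :=
  (inferInstance : MulSemiringAction GQ FF).toDistribMulAction.toMulAction

instance (priority := high) smulGQFF : SMul GQ FF := mulActGQFF.toSMul

variable {n : ℕ} [NeZero n]

/-- `a ↦ e(a/n)` in `Mer` -/
def psi (n : ℕ) [NeZero n] : AddChar (ZMod n) Mer :=
  (algebraMap ℂ Mer : ℂ →* Mer).compAddChar ZMod.stdAddChar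

lemma psi_apply (a : ZMod n) : psi n a = algebraMap ℂ Mer (ZMod.stdAddChar a) := rfl

lemma chr_psi : Chr GQ (psi n) where
  fix g a := smul_const g _
  inj := (algebraMap ℂ Mer).injective.comp ZMod.injective_stdAddChar
  onto u hu := by
    have h := (Complex.isPrimitiveRoot_exp n (NeZero.ne n)).map_of_injective
      (f := algebraMap ℂ Mer) (algebraMap ℂ Mer).injective
    obtain ⟨i, -, hi⟩ := h.eq_pow_of_pow_eq_one hu
    refine ⟨(i : ℤ), ?_⟩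
    rw [psi_apply, ZMod.stdAddChar_coe, ← hi, ← map_pow, ← Complex.exp_nat_mul]
    congr 2
    push_cast; ring
  ne := NeZero.ne n

/-- `φ` is the Kummer cocycle of the modular function `x` -/
def IsK (n : ℕ) [NeZero n] (Γ : Subgroup GQ) (x : FF) (φ : HH Γ (ZMod n)) : Prop :=
  IsR (psi n) Γ (x : Mer) φ

variable {Γ Γ' : Subgroup GQ} {x x' : FF} {φ φ' : HH Γ (ZMod n)}

lemma IsK.ne (h : IsK n Γ x φ) : x ≠ 0 := fun h0 => IsR.ne h (by rw [h0]; rfl)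

lemma IsK.fixed (h : IsK n Γ x φ) : ∀ γ ∈ Γ, γ • x = x :=
  fun γ hγ => Subtype.ext (IsR.fixed h γ hγ)

lemma IsK.dvd (h : IsK n Γ x φ) (z : ℍ) : (n : ℤ) ∣ log (vM z (x : Mer)) := by
  obtain ⟨y, -, hy, -⟩ := h
  rw [← hy, map_pow, log_pow, nsmul_eq_mul]
  exact dvd_mul_right _ _

theorem IsK.unique (h : IsK n Γ x φ) (h' : IsK n Γ x φ') : φ = φ' := IsR.unique chr_psi h h'

theorem exists_isK (h0 : x ≠ 0) (hx : ∀ γ ∈ Γ, γ • x = x)
    (hd : ∀ z, (n : ℤ) ∣ log (vM z (x : Mer))) : ∃ φ, IsK n Γ x φ := by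
  obtain ⟨y, hy⟩ := exists_rootM (NeZero.ne n) hd
  have hy0 : y ≠ 0 := by
    rintro rfl
    rw [zero_pow (NeZero.ne n)] at hy
    exact h0 (Subtype.ext hy.symm)
  obtain ⟨φ, hφ⟩ := exists_isR (Γ := Γ) chr_psi hy0 fun γ hγ => by
    rw [hy]; exact congrArg Subtype.val (hx γ hγ)
  exact ⟨φ, by rw [hy] at hφ; exact hφ⟩

lemma IsK.mul (h : IsK n Γ x φ) (h' : IsK n Γ x' φ') : IsK n Γ (x * x') (φ + φ') := IsR.mul h h'

lemma IsK.inv (h : IsK n Γ x φ) : IsK n Γ x⁻¹ (-φ) := IsR.inv h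

lemma IsK.div (h : IsK n Γ x φ) (h' : IsK n Γ x' φ') : IsK n Γ (x / x') (φ - φ') := IsR.div h h'

lemma IsK.pow (h : IsK n Γ x φ) (m : ℕ) : IsK n Γ (x ^ m) (m • φ) := IsR.pow h m


lemma IsK.one : IsK n Γ 1 0 := IsR.one

lemma IsK.of_fixed {y : FF} (h0 : y ≠ 0) (hy : ∀ γ ∈ Γ, γ • y = y) : IsK n Γ (y ^ n) 0 :=
  IsR.of_fixed (y := (y : Mer)) (fun h => h0 (Subtype.ext h))
    fun γ hγ => congrArg Subtype.val (hy γ hγ)

lemma IsK.const {c : ℂ} (hc : c ≠ 0) : IsK n Γ (algebraMap ℂ FF c) 0 := by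
  obtain ⟨b, rfl⟩ := IsAlgClosed.exists_pow_nat_eq c (NeZero.pos n)
  rw [map_pow]
  exact IsK.of_fixed (by simpa using ne_zero_pow (NeZero.ne n) hc) fun γ _ => smul_algebraMap_FF γ b

lemma IsK.prod {ι : Type*} (s : Finset ι) {x : ι → FF} {φ : ι → HH Γ (ZMod n)}
    (h : ∀ i ∈ s, IsK n Γ (x i) (φ i)) : IsK n Γ (∏ i ∈ s, x i) (∑ i ∈ s, φ i) := by
  have := IsR.prod s h
  rwa [← SubmonoidClass.coe_finsetProd] at this

lemma coe_nrm (c : MonoidAlgebra ℤ GQ) (x : FF) : ((nrm c x : FF) : Mer) = nrm c (x : Mer) :=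
  map_nrm FF.val.toRingHom (fun _ _ => rfl) c x

/-- **Hecke equivariance** -/
theorem IsK.corr (h : IsK n Γ x φ) (c : Corr ℤ Γ Γ') : IsK n Γ' (nrm c.1 x) (T (ZMod n) c φ) := by
  rw [IsK, coe_nrm]; exact IsR.corr chr_psi h c


theorem IsK.corr_e (h : IsK n Γ x φ) {g : GQ} (hc : e ℤ g ∈ Corr ℤ Γ Γ') :
    IsK n Γ' (g⁻¹ • x) (T (ZMod n) ⟨_, hc⟩ φ) := by
  rw [← nrm_e]; exact h.corr ⟨_, hc⟩

/-- restriction to a smaller group -/
theorem IsK.of_val (h : IsK n Γ x φ) (hle : Γ' ≤ Γ) {ψ : HH Γ' (ZMod n)}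
    (hψ : ∀ γ ∈ Γ', val ψ γ = val φ γ) : IsK n Γ' x ψ := by
  obtain ⟨y, h0, hy, h⟩ := h
  exact ⟨y, h0, hy, fun γ hγ => by rw [hψ γ hγ, h γ (hle hγ)]⟩

/-- `y · G` is holomorphic if `y ^ n = F / G` -/
lemma exists_W {y : Mer} {F G : ℍ → ℂ} (hF : MDiff F) (hG : MDiff G) (h0 : G ≠ 0)
    (hy : y ^ n = mer F / mer G) :
    ∃ W : ℍ → ℂ, MDiff W ∧ mer W = y * mer G ∧ W ^ n = F * G ^ (n - 1) := by
  have hG0 := mer_ne_zero hG h0
  have h1 : (y * mer G) ^ n = mer (F * G ^ (n - 1)) := by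
    obtain ⟨m, hm⟩ := Nat.exists_eq_succ_of_ne_zero (NeZero.ne n)
    rw [mul_pow, hy, mer_mul hF (hG.pow _), mer_pow hG, hm, pow_succ]
    field_simp
    simp
  obtain ⟨W, hW⟩ := exists_hol (x := y * mer G) fun z => by
    have := vM_mer_le z (hF.mul (hG.pow (n - 1)))
    rw [← h1, map_pow] at this
    exact (pow_le_one_iff (NeZero.ne n)).mp this
  rw [← mer_coe] at hW
  refine ⟨W, W.2, hW.symm, mer_inj (W.2.pow n) (hF.mul (hG.pow _)) ?_⟩
  rw [mer_pow W.2, ← hW, h1]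

lemma bdd_of_pow {W : ℍ → ℂ} (h : IsBoundedAtImInfty (W ^ n)) : IsBoundedAtImInfty W := by
  rw [isBoundedAtImInfty_iff] at h ⊢
  obtain ⟨C, A, h⟩ := h
  refine ⟨max C 1, A, fun z hz => ?_⟩
  have h1 := h z hz
  rw [Pi.pow_apply, norm_pow] at h1
  rcases le_or_gt ‖W z‖ 1 with h2 | h2
  · exact h2.trans (le_max_right _ _)
  · exact ((le_self_pow₀ h2.le (NeZero.ne n)).trans h1).trans (le_max_left _ _)

lemma isF_mul_pow {M : ℕ} {k : ℤ} {F G : ℍ → ℂ} (hF : IsF M k F) (hG : IsF M k G) :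
    IsF M ((n : ℤ) * k) (F * G ^ (n - 1)) :=
  (hF.mul (hG.pow (n - 1))).cast (by
    rw [Nat.cast_sub (NeZero.one_le)]; push_cast; ring)

/-- a root of a modular function which has a level is a modular function -/
theorem root_mem_FF {y : Mer} (hy : y ^ n = (x : Mer)) {M : ℕ} (hM : M ≠ 0)
    (h : ∀ γ ∈ Gamma M, Mf.sq γ • y = y) : y ∈ FF := by
  obtain ⟨k, F, G, hF, hG, hG0, rfl⟩ := exists_quo_level (M := M) (x := x) fun γ hγ =>
    Subtype.ext (by rw [sl_smul, Mf.coe_smul, ← hy, smul_pow', h γ hγ])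
  have hG' : IsF M k G := hG.mono (one_dvd M)
  rw [coe_quo hM hF hG'] at hy
  obtain ⟨W, hW, hW1, hW2⟩ := exists_W hF.holo hG.holo hG0 hy
  have hWF : IsF M k W := ⟨fun γ hγ => mer_inj (hW.slash k _) hW (by
      have e1 := mer_slash hW k (Mf.sq γ)
      have e2 := mer_slash hG.holo k (Mf.sq γ)
      rw [slash_sq] at e1 e2
      rw [e1, hW1, smul_mul', mul_assoc, ← e2, hG.slash_one_level, ← map_inv, h _ (inv_mem hγ)]),
    hW, fun g => bdd_of_pow (n := n) (by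
      rw [← pow_slash', hW2]; exact (isF_mul_pow hF hG').bdd g)⟩
  rw [(eq_div_iff (mer_ne_zero hG.holo hG0)).mpr hW1.symm]
  exact div_mem_FF hM hWF hG'

/-- **the kernel** -/
theorem IsK.exists_pow (h : IsK n Γ x 0) {M : ℕ} (hM : M ≠ 0) (hΓ : ∀ γ ∈ Gamma M, Mf.sq γ ∈ Γ) :
    ∃ y : FF, (∀ γ ∈ Γ, γ • y = y) ∧ y ^ n = x := by
  obtain ⟨y, -, hy, h⟩ := h
  have h1 : ∀ γ ∈ Γ, γ • y = y := fun γ hγ => by
    have := h _ (Γ.inv_mem hγ)
    rwa [inv_inv, val_zero, AddChar.map_zero_eq_one, one_mul] at this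
  exact ⟨⟨y, root_mem_FF hy hM fun γ hγ => h1 _ (hΓ γ hγ)⟩, fun γ hγ => Subtype.ext (h1 γ hγ),
    Subtype.ext hy⟩

theorem IsK.exists_mul_pow (h : IsK n Γ x φ) (h' : IsK n Γ x' φ) {M : ℕ} (hM : M ≠ 0)
    (hΓ : ∀ γ ∈ Gamma M, Mf.sq γ ∈ Γ) : ∃ y : FF, y ≠ 0 ∧ (∀ γ ∈ Γ, γ • y = y) ∧ x = x' * y ^ n := by
  have := h.div h'
  rw [sub_self] at this
  obtain ⟨y, h1, h2⟩ := this.exists_pow hM hΓ
  refine ⟨y, ?_, h1, by rw [h2, mul_div_cancel₀ _ h'.ne]⟩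
  rintro rfl
  exact this.ne (by rw [← h2, zero_pow (NeZero.ne n)])

/-- **onto** -/
theorem exists_of_hom {Γ₀ : Subgroup SL(2, ℤ)} {M : ℕ} (hM : M ≠ 0) (hΓ : Gamma M ≤ Γ₀)
    (φ : HH (Γ₀.map Mf.sq) (ZMod n)) (hneg : (-1 : SL(2, ℤ)) ∈ Γ₀ → val φ (Mf.sq (-1)) = 0) :
    ∃ x : FF, IsK n (Γ₀.map Mf.sq) x φ := by
  let χ : Γ₀ →* ℂˣ := MonoidHom.toHomUnits
    { toFun := fun γ => ZMod.stdAddChar (val φ (Mf.sq γ))
      map_one' := by simp
      map_mul' := fun a b => by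
        rw [Subgroup.coe_mul, map_mul, val_mul φ (Subgroup.mem_map_of_mem _ a.2)
          (Subgroup.mem_map_of_mem _ b.2), AddChar.map_add_eq_mul] }
  have hχ : ∀ γ, (χ γ : ℂ) = ZMod.stdAddChar (val φ (Mf.sq γ)) := fun _ => rfl
  obtain ⟨m, P, hP, hP0, hPs, hPb⟩ := exists_poincare Γ₀ χ
    (fun γ => by rw [hχ, ZMod.stdAddChar_apply, Circle.norm_coe])
    (fun h => Units.ext (by rw [hχ, hneg h]; simp))
  set k : ℤ := ((12 * m : ℕ) : ℤ)
  have hD : IsF 1 k (dl ^ m) := (isF_dl.pow m).cast (by simp [k, mul_comm])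
  have hPn : IsF M ((n : ℤ) * k) (P ^ n) := ⟨fun γ hγ => by
      rw [pow_slash', hPs ⟨γ, hΓ hγ⟩, smul_pow, hχ, psi_pow, one_smul], hP.pow n, fun g => by
      rw [pow_slash']
      exact (boundedAtImInftySubalgebra ℂ).pow_mem (hPb g) n⟩
  have hDn : IsF M ((n : ℤ) * k) ((dl ^ m) ^ n) := (hD.pow n).mono (one_dvd M)
  refine ⟨quo (P ^ n) ((dl ^ m) ^ n), mer P / mer (dl ^ m),
    div_ne_zero (mer_ne_zero hP hP0) (mer_ne_zero hD.holo (pow_ne_zero m dl_ne_zero)), ?_, ?_⟩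
  · rw [coe_quo hM hPn hDn, mer_pow hP, mer_pow hD.holo, div_pow]
  · rintro _ ⟨γ, hγ, rfl⟩
    rw [inv_smul_div hP hD.holo k, slash_sq, slash_sq, hPs ⟨γ, hγ⟩, hD.slash_one_level, mer_smul hP,
      mul_div_assoc]
    rfl

theorem exists_of_hom' {Γ₀ : Subgroup SL(2, ℤ)} {M : ℕ} (hM : M ≠ 0) (hΓ : Gamma M ≤ Γ₀)
    (hneg : (-1 : SL(2, ℤ)) ∉ Γ₀) (φ : HH (Γ₀.map Mf.sq) (ZMod n)) :
    ∃ x : FF, IsK n (Γ₀.map Mf.sq) x φ := exists_of_hom hM hΓ φ fun h => absurd h hneg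

/-! ### parabolic elements -/

lemma par_core {W : ℍ → ℂ} (hW : Continuous W) {h : ℝ} {ω c : ℂ} (hc : c ≠ 0)
    (hω : ∀ z, W (h +ᵥ z) = ω * W z) (hl : Tendsto (W ^ n) atImInfty (𝓝 c)) : ω = 1 := by
  have hn := NeZero.ne n
  have hv : Tendsto (fun z : ℍ => h +ᵥ z) atImInfty atImInfty := by
    rw [atImInfty, tendsto_comap_iff]
    exact tendsto_comap.congr fun z => (vadd_im h z).symm
  have hωn : ω ^ n = 1 := by
    have h1 : Tendsto (fun z => ω ^ n * (W ^ n) z) atImInfty (𝓝 c) :=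
      (hl.comp hv).congr fun z => by simp [hω, mul_pow]
    exact mul_right_cancel₀ hc ((tendsto_nhds_unique (hl.const_mul _) h1).trans (one_mul c).symm)
  have h2 : ∀ᶠ z in atImInfty, W z ^ n / c ∈ Complex.slitPlane := by
    have := hl.div_const c
    rw [div_self hc] at this
    exact this.eventually (Complex.isOpen_slitPlane.mem_nhds Complex.one_mem_slitPlane)
  obtain ⟨A, hA⟩ := (atImInfty_mem _).mp h2
  let z : ℍ := ⟨Complex.I * (max A 1 : ℝ), by simp⟩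
  have hz : ∀ t : ℝ, W (t +ᵥ z) ^ n / c ∈ Complex.slitPlane := fun t =>
    hA _ (by rw [vadd_im]; simp [z])
  have hp : Continuous fun t : ℝ => W (t +ᵥ z) :=
    hW.comp (isOpenEmbedding_coe.isInducing.continuous_iff.mpr (by
      simp only [Function.comp_def, coe_vadd]; fun_prop))
  let ρ : ℝ → ℂ := fun t => (W (t +ᵥ z) ^ n / c) ^ ((n : ℂ)⁻¹)
  have hρ : Continuous ρ := ((hp.pow n).div_const c).cpow continuous_const hz
  have hρn : ∀ t, ρ t ^ n = W (t +ᵥ z) ^ n / c := fun t => Complex.cpow_nat_inv_pow _ hn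
  have hρ0 : ∀ t, ρ t ≠ 0 := fun t h0 => Complex.slitPlane_ne_zero (hz t) (by
    rw [← hρn, h0, zero_pow hn])
  have hW0 : ∀ t : ℝ, W (t +ᵥ z) ≠ 0 := fun t h0 => Complex.slitPlane_ne_zero (hz t) (by
    rw [h0, zero_pow hn, zero_div])
  have hfin : {u : ℂ | u ^ n = c}.Finite :=
    (Polynomial.nthRoots n c).toFinset.finite_toSet.subset fun u hu => by
      simpa [Polynomial.mem_nthRoots (NeZero.pos n)] using hu
  have key := isPreconnected_univ.constant_of_mapsTo hfin.isDiscrete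
    (f := fun t : ℝ => W (t +ᵥ z) / ρ t) (hp.div hρ hρ0).continuousOn (fun t _ => by
      have := hW0 t
      simp only [Set.mem_ofPred_eq, div_pow, hρn]
      field_simp) (Set.mem_univ h) (Set.mem_univ 0)
  have h3 : ρ h = ρ 0 := by simp only [ρ, hω, mul_pow, hωn, one_mul, zero_vadd]
  have h4 := hW0 0
  have h5 := hρ0 0
  simp only [h3, hω, zero_vadd] at key h4
  field_simp at key
  exact key

/-- leading term of a form at infinity -/
lemma tendsto_lead {M : ℕ} (hM : M ≠ 0) {k : ℤ} {F : ℍ → ℂ} (hF : IsF M k F) (h0 : F ≠ 0) :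
    ∃ c : ℂ, c ≠ 0 ∧ Tendsto (fun z : ℍ => F z * ex (-(qf F).order) z) atImInfty (𝓝 c) := by
  have : NeZero M := ⟨hM⟩
  have hq0 := qf_ne_zero hM hF h0
  have hc := HahnSeries.coeff_order_eq_zero.not.mpr hq0
  obtain ⟨N, hN⟩ := lev_qf hM hF _ hc
  have hM' : (0 : ℚ) < M := by exact_mod_cast Nat.pos_of_ne_zero hM
  have hord : analyticOrderAt (cuspFunction (M : ℝ) F) 0 = N := by
    rw [analyticOrderAt_eq_nat_iff_iteratedDeriv_eq_zero hF.analytic]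
    constructor
    · intro j hj
      have h1 : (qf F).coeff ((j : ℚ) / M) = 0 := HahnSeries.coeff_eq_zero_of_lt_order (by
        rw [hN]; gcongr)
      rw [coeff_qf hM hF, qe, qExpansion_coeff, mul_eq_zero] at h1
      exact h1.resolve_left (inv_ne_zero (by exact_mod_cast j.factorial_ne_zero))
    · rw [hN, coeff_qf hM hF, qe, qExpansion_coeff] at hc
      exact right_ne_zero_of_mul hc
  obtain ⟨Ψ, hΨ, hΨ0, he⟩ := hF.analytic.analyticOrderAt_eq_natCast.mp hord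
  have ht := qParam_tendsto_atImInfty (h := (M : ℝ)) Mpos
  refine ⟨Ψ 0, hΨ0, (hΨ.continuousAt.tendsto.comp ht).congr' ?_⟩
  filter_upwards [ht.eventually he] with z hz
  rw [eq_cuspFunction z Mpos.ne' hF.periodic, sub_zero, smul_eq_mul, ← ex_div, ← hN] at hz
  rw [Function.comp_apply, hz, mul_right_comm, ex, ex, ← Complex.exp_add]
  simp

/-- **values at parabolic elements are orders at the cusps** -/
theorem IsK.par (hK : IsK n Γ x φ) {γ : GQ} (hγ : γ ∈ Γ) (g : GQ) (h : ℤ)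
    (hg : ∀ τ : ℍ, rr (g⁻¹ * γ * g) • τ = (h : ℝ) +ᵥ τ) :
    ∃ m : ℤ, (h : ℚ) * (qx (g⁻¹ • x)).order = m ∧ val φ γ = (m : ZMod n) := by
  have hn := NeZero.ne n
  have hx0 : g⁻¹ • x ≠ 0 := smul_ne0 _ hK.ne
  obtain ⟨y, -, hy, hK⟩ := hK
  obtain ⟨M, k, F, G, hM, hF, hG, hG0, hx⟩ := exists_quo_one (g⁻¹ • x)
  have hG' : IsF M k G := hG.mono (one_dvd M)
  have hF0 : F ≠ 0 := fun h0 => hx0 (by rw [hx, quo_eq_zero hM hF hG' hG0]; exact h0)
  obtain ⟨W, hW, hW1, hW2⟩ := exists_W (n := n) (y := g⁻¹ • y) hF.holo hG.holo hG0 (by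
    rw [← smul_pow', hy, ← Mf.coe_smul, hx, coe_quo hM hF hG'])
  have hGp : ∀ τ : ℍ, G ((h : ℝ) +ᵥ τ) = G τ := fun τ => by
    have := congrFun (hG.slash_one_level (ModularGroup.T ^ h)) τ
    rw [SL_slash_apply, modular_T_zpow_smul, ModularGroup.denom_apply, ModularGroup.coe_T_zpow] at this
    simpa using this
  set ω := ZMod.stdAddChar (val φ γ) with hω
  have hWp : ∀ τ : ℍ, W ((h : ℝ) +ᵥ τ) = ω * W τ := by
    have e1 := inv_smul_mer hW (g⁻¹ * γ * g)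
    have e2 := inv_smul_mer hG.holo (g⁻¹ * γ * g)
    simp only [hg, hGp] at e2
    have e3 : (g⁻¹ * γ * g)⁻¹ • g⁻¹ • y = algebraMap ℂ Mer ω * g⁻¹ • y := by
      rw [← mul_smul, show (g⁻¹ * γ * g)⁻¹ * g⁻¹ = g⁻¹ * γ⁻¹ by group, mul_smul, hK γ hγ, smul_mul',
        chr_psi.fix, psi_apply]
    rw [hW1, smul_mul', e2, e3, mul_assoc, ← hW1, ← mer_smul hW] at e1
    have := mer_inj (hW.const_smul ω) (mdiff_comp hW _) e1
    intro τ
    rw [← hg]
    exact (congrFun this τ).symm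
  have hΦ := isF_mul_pow (n := n) hF hG'
  have hΦ0 : F * G ^ (n - 1) ≠ 0 := fun h0 => by
    have := qf_mul hM hF (hG'.pow (n - 1))
    rw [h0, qf_zero, qf_pow hM hG'] at this
    exact mul_ne_zero (qf_ne_zero hM hF hF0) (pow_ne_zero _ (qf_ne_zero hM hG' hG0)) this.symm
  obtain ⟨c, hc, hl⟩ := tendsto_lead hM hΦ hΦ0
  set r := (qf (F * G ^ (n - 1))).order with hr
  have hnC : (n : ℂ) ≠ 0 := by exact_mod_cast hn
  have h1 : ω * ex (-r / n) h = 1 := by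
    refine par_core (n := n) (W := fun z => W z * ex (-r / n) z) (h := h) ?_ hc (fun z => ?_)
      (hl.congr fun z => ?_)
    · exact hW.continuous.mul (by unfold ex; fun_prop)
    · rw [hWp, coe_vadd, ex, ex, ex, mul_add, Complex.exp_add]
      push_cast; ring
    · rw [Pi.pow_apply, mul_pow, ← hW2, ex, ex, ← Complex.exp_nat_mul, Pi.pow_apply]
      congr 2
      push_cast; field_simp
  obtain ⟨a, ha⟩ := ZMod.intCast_surjective (val φ γ)
  rw [hω, ← ha, ZMod.stdAddChar_coe, ex, ← Complex.exp_add, Complex.exp_eq_one_iff] at h1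
  obtain ⟨t, ht⟩ := h1
  have h2 : (a : ℚ) - r * h = t * n := by
    have := Complex.two_pi_I_ne_zero
    have h3 : (a : ℂ) - r * h = t * n := by
      refine mul_left_cancel₀ this ?_
      push_cast at ht
      field_simp at ht
      linear_combination (2 * π * Complex.I) * ht
    exact_mod_cast h3
  have hqG := qf_ne_zero hM hG' hG0
  have hqF := qf_ne_zero hM hF hF0
  obtain ⟨N, hN⟩ := lev_qf one_ne_zero hG _ (HahnSeries.coeff_order_eq_zero.not.mpr hqG)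
  have h4 : r = (qf F).order + ((n - 1 : ℕ) : ℚ) * (qf G).order := by
    rw [hr, qf_mul hM hF (hG'.pow (n - 1)), qf_pow hM hG',
      HahnSeries.order_mul hqF (pow_ne_zero _ hqG), HahnSeries.order_pow, nsmul_eq_mul]
  have h5 : (qx (g⁻¹ • x)).order + (qf G).order = (qf F).order := by
    rw [← HahnSeries.order_mul ((map_ne_zero qx).mpr hx0) hqG, hx, qx_quo hM hF hG', div_mul_cancel₀ _ hqG]
  rw [Nat.cast_sub NeZero.one_le] at h4
  refine ⟨a - t * n - n * N * h, ?_, by rw [← ha]; simp⟩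
  rw [h4, ← h5, hN] at h2
  push_cast at h2 ⊢
  linear_combination -h2

theorem IsK.par_SL (hK : IsK n Γ x φ) {γ : SL(2, ℤ)} (hγ : Mf.sq γ ∈ Γ) (g : SL(2, ℤ)) (h : ℤ)
    (hg : g⁻¹ * γ * g = ModularGroup.T ^ h ∨ g⁻¹ * γ * g = -ModularGroup.T ^ h) :
    ∃ m : ℤ, (h : ℚ) * (qx (g⁻¹ • x)).order = m ∧ val φ (Mf.sq γ) = (m : ZMod n) := by
  rw [sl_smul, map_inv]
  refine hK.par hγ (Mf.sq g) h fun τ => ?_
  rw [← map_inv, ← map_mul, ← map_mul, rr_sq_smul]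
  rcases hg with e | e <;> rw [e]
  · exact modular_T_zpow_smul τ h
  · rw [ModularGroup.SL_neg_smul]; exact modular_T_zpow_smul τ h

end Crest.Agent.T15.Bet
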