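import Crest.Agent.T15.CgD_84
import Crest.Agent.T15.Lv_10
import Crest.Agent.T15.BetKap_91

/-!
# Row 15, block T: `Aut ℂ` and the Hecke operators on modular functions (helper84)

`aut_comm0`, `aut_fixed` (diamonds, levels), `aut_diag`, `aut_U`, `aut_Dia`, `aut_Tp`, `pr_Tp`.
-/

set_option autoImplicit false
set_option linter.unusedSectionVars false

noncomputable section

namespace Crest.Agent.T15.Cg

open HahnSeries CongruenceSubgroup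
open scoped NNReal MatrixGroups
open Crest.Agent.R007 Crest.Agent.R007.Rat Crest.Agent.T15.Hs Crest.Agent.T15.Mf
open Crest.Agent.T15.Lv Crest.Agent.T15.Bet Crest.Agent.T15.Hk

variable {L : ℕ} {H : Subgroup (ZMod L)ˣ}

lemma aut_ne (σ : ℂ ≃+* ℂ) {x : FF} (hx : x ≠ 0) : σ • x ≠ 0 := smul_ne0 σ hx

/-- `Aut ℂ` commutes with `Γ₀(L)` on functions of level `Γ₁(L)` -/
theorem aut_comm0 (hL : L ≠ 0) (σ : ℂ ≃+* ℂ) {x : FF} (hx : ∀ g ∈ Gq L ⊥, g • x = x) {g : GQ}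
    (hg : g ∈ Gq L ⊤) : σ • g⁻¹ • x = g⁻¹ • σ • x := by
  obtain ⟨γ, hγ, rfl⟩ := hg
  have h3 : NeZero (L * 3) := ⟨mul_ne_zero hL (by norm_num)⟩
  have hM : 3 ≤ L * 3 := by have := Nat.pos_of_ne_zero hL; omega
  obtain ⟨s, hs⟩ := exists_zpow_zeta (σ : ℂ →+* ℂ) (L * 3)
  obtain ⟨δ, hδ⟩ := exists_tw (isUnit_of_map_zeta hs) γ
  have hcast : ∀ {a b : ℤ}, (a : ZMod (L * 3)) = b → (a : ZMod L) = b := by
    intro a b hab
    rw [ZMod.intCast_eq_intCast_iff_dvd_sub] at hab ⊢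
    exact (Int.natCast_dvd_natCast.mpr (Dvd.intro 3 rfl)).trans hab
  have hδ0 : δ ∈ GH L ⊤ := by
    have h10 : ((s * γ 1 0 : ℤ) : ZMod (L * 3)) = (δ 1 0 : ℤ) := by push_cast; exact hδ.2.2.1
    rw [mem_GH_top, ← hcast h10]
    push_cast
    rw [hγ.1, mul_zero]
  have h1 := gal_inv_smul hM hs (x := x) (fun γ' h' => hx _ (sq_mem.2 (GH_le (Dvd.intro 3 rfl)
    (H' := ⊥) (fun u hu => by rw [Subgroup.mem_bot.1 hu, map_one]; exact one_mem _)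
    (Gamma_le_GH h')))) hδ
  have h2 : Mf.sq γ * (Mf.sq δ)⁻¹ ∈ Gq L ⊥ := Lv.mul_inv_mem (sq_mem.2 hγ) (sq_mem.2 hδ0)
    (Units.ext (by rw [dU_sq hγ, dU_sq hδ0]; exact hcast hδ.2.2.2))
  have h4 : (Mf.sq γ)⁻¹ • x = δ⁻¹ • x := by
    rw [inv_smul_eq_iff, sl_smul, map_inv, ← mul_smul, hx _ h2]
  rw [h4, aut_smul, h1, sl_smul, map_inv, aut_smul]

theorem aut_comm0' (hL : L ≠ 0) (σ : ℂ ≃+* ℂ) {x : FF} (hx : ∀ g ∈ Gq L ⊥, g • x = x) {g : GQ}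
    (hg : g ∈ Gq L ⊤) : σ • g • x = g • σ • x := by
  simpa using aut_comm0 hL σ hx (inv_mem hg)

/-- `Aut ℂ` keeps the level -/
theorem aut_fixed (hL : L ≠ 0) (σ : ℂ ≃+* ℂ) {x : FF} (hx : ∀ g ∈ Gq L H, g • x = x) :
    ∀ g ∈ Gq L H, g • σ • x = σ • x := fun g hg => by
  rw [← aut_comm0' hL σ (fun g' h' => hx g' (Gq_mono bot_le h')) (Gq_mono le_top hg), hx g hg]

lemma tw_zero (y : HS ℂ) : tw (ee 0) y = y := by
  ext g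
  rw [coeff_tw, ee_zero, MonoidHom.one_apply, one_mul]

theorem aut_diag (σ : ℂ ≃+* ℂ) {g : GQ} (h10 : (g : GL (Fin 2) ℚ) 1 0 = 0)
    (h01 : (g : GL (Fin 2) ℚ) 0 1 = 0) (x : FF) : σ • g⁻¹ • x = g⁻¹ • σ • x :=
  qx_injective (by
    rw [qx_aut, qx_upper h10, qx_upper h10, qx_aut, h01, zero_div, tw_zero, tw_zero,
      hm_sc _ (upper_pos h10)])

lemma ex_eq_zeta (p : ℕ) (n m : ℤ) :
    ex (n : ℚ) (((m : ℚ) / p : ℚ) : ℂ) = Wp.zeta p ^ (n * m) := by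
  rw [ex, Wp.zeta, ← Complex.exp_int_mul]
  congr 1
  push_cast
  ring

lemma zeta_congr {p : ℕ} (hp : p ≠ 0) {a b : ℤ} (h : (a : ZMod p) = b) :
    Wp.zeta p ^ a = Wp.zeta p ^ b := by
  obtain ⟨c, hc⟩ := (ZMod.intCast_eq_intCast_iff_dvd_sub a b p).1 h
  rw [show b = a + p * c by linear_combination hc, zpow_add₀ (Wp.zeta_ne_zero p), zpow_mul,
    zpow_natCast, Wp.zeta_pow p hp, one_zpow, mul_one]

lemma hm_tw_int (σ : ℂ →+* ℂ) {p : ℕ} (hp : p ≠ 0) {s : ℤ} (hs : σ (Wp.zeta p) = Wp.zeta p ^ s)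
    {y : HS ℂ} (hy : IntE y) {m m' : ℤ} (h : (m' : ZMod p) = s * m) :
    Hs.hm σ (tw (ee (m / p)) y) = tw (ee (m' / p)) (Hs.hm σ y) := by
  ext r
  rw [coeff_hm, coeff_tw, coeff_tw, coeff_hm, map_mul]
  by_cases h0 : y.coeff r = 0
  · simp [h0]
  obtain ⟨n, rfl⟩ := hy r h0
  rw [ee_apply, ee_apply, ex_eq_zeta, ex_eq_zeta, map_zpow₀, hs, ← zpow_mul]
  congr 1
  exact zeta_congr hp (by push_cast; rw [h]; ring)

section entries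

variable {p : ℕ}

lemma up_apply (hp : p ≠ 0) (i : ℕ) : (up p i : GL (Fin 2) ℚ) 0 0 = 1 ∧
    (up p i : GL (Fin 2) ℚ) 0 1 = i ∧ (up p i : GL (Fin 2) ℚ) 1 0 = 0 ∧
    (up p i : GL (Fin 2) ℚ) 1 1 = p := by
  have h := gm_val (a := 1) (b := i) (c := 0) (d := p) (by simpa using Nat.pos_of_ne_zero hp)
  have f := fun i j => congrFun (congrFun h i) j
  unfold up
  exact ⟨by simpa using f 0 0, by simpa using f 0 1, by simpa using f 1 0, by simpa using f 1 1⟩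

lemma dg_apply (hp : p ≠ 0) : (dg p : GL (Fin 2) ℚ) 0 0 = p ∧
    (dg p : GL (Fin 2) ℚ) 0 1 = 0 ∧ (dg p : GL (Fin 2) ℚ) 1 0 = 0 ∧
    (dg p : GL (Fin 2) ℚ) 1 1 = 1 := by
  have h := gm_val (a := p) (b := 0) (c := 0) (d := 1) (by simpa using Nat.pos_of_ne_zero hp)
  have f := fun i j => congrFun (congrFun h i) j
  unfold dg
  exact ⟨by simpa using f 0 0, by simpa using f 0 1, by simpa using f 1 0, by simpa using f 1 1⟩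

lemma qx_up (hp : p ≠ 0) (i : ℕ) (x : FF) :
    qx ((up p i)⁻¹ • x) = sc (1 / p) (tw (ee ((i : ℤ) / p)) (qx x)) := by
  obtain ⟨h1, h2, h3, h4⟩ := up_apply hp i
  rw [qx_upper h3, h1, h2, h4, Int.cast_natCast]


lemma nrm_U {x : FF} (hx : x ≠ 0) : nrm (U ℤ p) x = ∏ i : Fin p, (up p i)⁻¹ • x := by
  rw [U, nrm_sum_e _ _ hx, Finset.prod_range]

lemma nrm_Tp (h : ¬ p ∣ L) {x : FF} (hx : x ≠ 0) :
    nrm (Tp ℤ L p) x = (∏ i : Fin p, (up p i)⁻¹ • x) * (dg p)⁻¹ • nrm (Dia ℤ L p) x := by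
  rw [Tp_of_not_dvd h, nrm_add _ _ hx, nrm_U hx, nrm_mul_e _ _ hx]

end entries

theorem aut_dg {p : ℕ} (hp : p ≠ 0) (σ : ℂ ≃+* ℂ) (x : FF) :
    σ • (dg p)⁻¹ • x = (dg p)⁻¹ • σ • x := aut_diag σ (dg_apply hp).2.2.1 (dg_apply hp).2.1 x

theorem aut_U {p : ℕ} (hp : p ≠ 0) (σ : ℂ ≃+* ℂ) {x : FF} (hx : x ≠ 0)
    (hT : ModularGroup.T • x = x) : σ • nrm (U ℤ p) x = nrm (U ℤ p) (σ • x) := by
  have : NeZero p := ⟨hp⟩
  obtain ⟨s, hs⟩ := exists_zpow_zeta (σ : ℂ →+* ℂ) p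
  obtain ⟨u, hu⟩ := isUnit_of_map_zeta hs
  let ε : Fin p ≃ ZMod p := (ZMod.finEquiv p).toEquiv
  have hε : ∀ i : Fin p, ε i = ((i : ℕ) : ZMod p) := fun i => by
    obtain ⟨q, rfl⟩ := Nat.exists_eq_succ_of_ne_zero hp
    exact (ZMod.natCast_zmod_val (n := q + 1) i).symm
  let π : Fin p ≃ Fin p := (ε.trans (Units.mulLeft u)).trans ε.symm
  have hπ : ∀ i, (((π i : ℕ) : ℤ) : ZMod p) = s * (((i : ℕ) : ℤ) : ZMod p) := fun i => by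
    rw [Int.cast_natCast, Int.cast_natCast, ← hε, ← hε, ← hu]
    exact ε.apply_symm_apply _
  rw [nrm_U hx, nrm_U (aut_ne σ hx), ← π.prod_comp fun i => (up p i)⁻¹ • σ • x, Finset.smul_prod']
  refine Finset.prod_congr rfl fun i _ => qx_injective ?_
  rw [qx_aut, qx_up hp, qx_up hp, qx_aut, hm_sc _ (inv_pos' hp),
    hm_tw_int _ hp hs (intE_qx hT) (hπ i)]

lemma T_fixed {x : FF} (hx : ∀ g ∈ Gq L H, g • x = x) : ModularGroup.T • x = x :=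
  hx _ (sq_mem.2 T_mem)

theorem aut_Dia (hL : L ≠ 0) (σ : ℂ ≃+* ℂ) (n : ℤ) {x : FF} (hx : ∀ g ∈ Gq L H, g • x = x) :
    σ • nrm (Dia ℤ L n) x = nrm (Dia ℤ L n) (σ • x) := by
  rw [Dia, nrm_e, nrm_e]
  exact aut_comm0 hL σ (fun g h => hx g (Gq_mono bot_le h)) (sg_mem L n)

theorem aut_e (hL : L ≠ 0) (σ : ℂ ≃+* ℂ) {g : GQ} (hg : g ∈ Gq L ⊤) {x : FF}
    (hx : ∀ g ∈ Gq L H, g • x = x) : σ • nrm (e ℤ g) x = nrm (e ℤ g) (σ • x) := by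
  rw [nrm_e, nrm_e]
  exact aut_comm0 hL σ (fun g h => hx g (Gq_mono bot_le h)) hg

theorem aut_Tp (hL : L ≠ 0) {p : ℕ} (hp : p ≠ 0) (σ : ℂ ≃+* ℂ) {x : FF} (h0 : x ≠ 0)
    (hx : ∀ g ∈ Gq L H, g • x = x) : σ • nrm (Tp ℤ L p) x = nrm (Tp ℤ L p) (σ • x) := by
  by_cases h : p ∣ L
  · rw [Tp_of_dvd h, aut_U hp σ h0 (T_fixed hx)]
  · rw [Tp_of_not_dvd h, nrm_add _ _ h0, nrm_add _ _ (aut_ne σ h0), nrm_mul_e _ _ h0,
      nrm_mul_e _ _ (aut_ne σ h0), smul_mul', aut_U hp σ h0 (T_fixed hx), aut_dg hp,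
      aut_Dia hL σ _ hx]

/-- **the congruence relation for `T_l`** -/
theorem pr_Tp {v : Valuation ℂ ℝ≥0} {w : Valuation FF ℝ≥0} (hw : IsG v qx w) {l : ℕ} (hl : l.Prime)
    (hlL : ¬ l ∣ L) (hv : v (l : ℂ) < 1) {σ : ℂ ≃+* ℂ} (hσv : ∀ c, v (σ c) = v c)
    (hσ : ∀ c, v c ≤ 1 → v (σ c - c ^ l) < 1) {x : FF} (h0 : x ≠ 0)
    (hT : ModularGroup.T • x = x) :
    Pr v (qx (nrm (Tp ℤ L l) x / (σ • x * (σ⁻¹ • nrm (Dia ℤ L l) x) ^ l))) := by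
  obtain ⟨h1, h2, h3, h4⟩ := dg_apply hl.ne_zero
  rw [nrm_Tp hlL h0]
  refine pr_hecke hl hv hσv hσ (Fintype.card_fin l) (fun i => (up_apply hl.ne_zero i).2.2.1)
    (fun i => ?_) (fun i => ⟨(i : ℕ), ?_⟩) h3 (by rw [h1, h4, div_one]) h2 (hw.rep h0) hT
    (hw.rep (nrm_ne _ h0))
  · rw [(up_apply hl.ne_zero i).1, (up_apply hl.ne_zero i).2.2.2]
  · rw [(up_apply hl.ne_zero i).2.1, (up_apply hl.ne_zero i).2.2.2, Int.cast_natCast]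

end Crest.Agent.T15.Cg

end
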