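import Mathlib

-- ▼ part T15/TwiA_21
section

/-!
# T15 / TwiA (helper21): descent of residues along a finite covering

`Ω` a field with a norm `W` and a group `G` of automorphisms, `Fx Γ` the fixed field of `Γ`.
* `P1 W u` : `u ≡ 1`; `sep2`, `sep` : approximation;
* `desc`, `desc0` : an element of `Fx Γ₁` whose residue is fixed by the decomposition group is
  congruent to an element of `Fx Γ`;
* `NP W Γ n f` : the residue of `f` is an `n`-th power at level `Γ`; `red_frob` : if `a` of level `Γ`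
  is `NP` at level `Γ₁`, then `σ a / a ^ q` is `NP` at level `Γ`.
-/

set_option autoImplicit false
set_option linter.all false

noncomputable section

namespace Crest.Agent.T15.Twi

open scoped NNReal
open Finset

variable {Ω : Type*} [Field Ω]

/-- principal units -/
def P1 (W : Valuation Ω ℝ≥0) (u : Ω) : Prop := W (u - 1) < 1

namespace P1

variable {W : Valuation Ω ℝ≥0} {u v a b : Ω}

theorem val (h : P1 W u) : W u = 1 := by
  have := Valuation.map_one_add_of_lt W h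
  simpa using this

theorem ne (h : P1 W u) : u ≠ 0 := by
  rintro rfl
  have := h.val
  simp at this

theorem one : P1 W 1 := by simp [P1]

theorem mul (hu : P1 W u) (hv : P1 W v) : P1 W (u * v) := by
  have e : u * v - 1 = u * (v - 1) + (u - 1) := by ring
  unfold P1
  rw [e]
  refine Valuation.map_add_lt _ ?_ hu
  rw [map_mul, hu.val, one_mul]; exact hv

theorem inv (hu : P1 W u) : P1 W u⁻¹ := by
  have e : u⁻¹ - 1 = -(u⁻¹ * (u - 1)) := by have := hu.ne; field_simp; ring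
  unfold P1
  rw [e, Valuation.map_neg, map_mul, map_inv₀, hu.val, inv_one, one_mul]; exact hu

theorem div (hu : P1 W u) (hv : P1 W v) : P1 W (u / v) := by
  rw [div_eq_mul_inv]; exact hu.mul hv.inv

theorem pow (hu : P1 W u) (n : ℕ) : P1 W (u ^ n) := by
  induction n with
  | zero => simpa using one
  | succ n ih => rw [pow_succ]; exact ih.mul hu

theorem of_lt (h : W (a - b) < W b) : P1 W (a / b) := by
  have hb : b ≠ 0 := by rintro rfl; simp at h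
  have hb' : 0 < W b := lt_of_le_of_lt zero_le h
  have e : a / b - 1 = (a - b) / b := by field_simp
  unfold P1
  rw [e, map_div₀, div_lt_one hb']; exact h

theorem of_sub (hb : W b = 1) (h : W (a - b) < 1) : P1 W (a / b) := of_lt (hb ▸ h)

theorem sub_lt (h : P1 W (a / b)) (hb : W b ≤ 1) : W (a - b) < 1 := by
  have hb0 : b ≠ 0 := by rintro rfl; exact h.ne (by simp)
  have e : a - b = b * (a / b - 1) := by field_simp
  rw [e, map_mul]
  exact mul_lt_one_of_nonneg_of_lt_one_right hb zero_le h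

theorem val_eq (h : P1 W (a / b)) : W a = W b := by
  have hb0 : b ≠ 0 := by rintro rfl; exact h.ne (by simp)
  have := h.val
  rwa [map_div₀, div_eq_one_iff_eq (by simpa using hb0)] at this

theorem map {σ : Ω →+* Ω} (hσ : ∀ f, W (σ f) = W f) (hu : P1 W u) : P1 W (σ u) := by
  unfold P1 at *
  rw [← map_one σ, ← map_sub, hσ]; exact hu

theorem congr (hu : P1 W u) (h : u = v) : P1 W v := h ▸ hu

end P1

/-- two different norms with the same values on the constants can be separated -/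
theorem sep2 (S : Subfield Ω) (w v : Valuation Ω ℝ≥0)
    (hval : ∀ f ∈ S, f ≠ 0 → ∃ c ∈ S, w c = w f ∧ v c = w c)
    (hc : ∃ c ∈ S, 0 < w c ∧ w c < 1 ∧ v c = w c) (hne : ∃ f ∈ S, v f ≠ w f) :
    ∃ y ∈ S, P1 w y ∧ v y < 1 := by
  obtain ⟨f, hf, hne⟩ := hne
  have hf0 : f ≠ 0 := by rintro rfl; simp at hne
  obtain ⟨c, hcS, hc1, hc2⟩ := hval f hf hf0
  have hwf : w f ≠ 0 := by simpa using hf0
  have hvf : v f ≠ 0 := by simpa using hf0
  obtain ⟨g, hg, hg1, hg2⟩ : ∃ g ∈ S, w g = 1 ∧ v g < 1 := by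
    rcases lt_or_gt_of_ne hne with h | h
    · refine ⟨f / c, S.div_mem hf hcS, by rw [map_div₀, hc1, div_self hwf], ?_⟩
      rw [map_div₀, hc2, hc1, div_lt_one (pos_iff_ne_zero.mpr hwf)]; exact h
    · refine ⟨c / f, S.div_mem hcS hf, by rw [map_div₀, hc1, div_self hwf], ?_⟩
      rw [map_div₀, hc2, hc1, div_lt_one (pos_iff_ne_zero.mpr hvf)]; exact h
  obtain ⟨d, hd, hd0, hd1, hd2⟩ := hc
  obtain ⟨r, hr⟩ := NNReal.exists_pow_lt_of_lt_one hd0 hg2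
  set z := g ^ r / d with hz
  have hzS : z ∈ S := S.div_mem (S.pow_mem hg r) hd
  have hwz : 1 < w z := by
    rw [hz, map_div₀, map_pow, hg1, one_pow, one_lt_div hd0]; exact hd1
  have hvz : v z < 1 := by
    rw [hz, map_div₀, map_pow, hd2, div_lt_one hd0]; exact hr
  have h1 : w (1 + z) = w z := Valuation.map_add_eq_of_lt_right _ (by rwa [map_one])
  refine ⟨z / (1 + z), S.div_mem hzS (S.add_mem S.one_mem hzS), P1.of_lt ?_, ?_⟩
  · rw [h1, show z - (1 + z) = -1 by ring, Valuation.map_neg, map_one]; exact hwz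
  · rw [map_div₀, Valuation.map_one_add_of_lt v hvz, div_one]; exact hvz

/-- simultaneous separation -/
theorem sep {ι : Type*} (S : Subfield Ω) (w : Valuation Ω ℝ≥0) (v : ι → Valuation Ω ℝ≥0)
    (s : Finset ι) (h : ∀ i ∈ s, ∃ y ∈ S, P1 w y ∧ v i y < 1) :
    ∃ y ∈ S, P1 w y ∧ ∀ i ∈ s, v i y < 1 := by
  classical
  induction s using Finset.induction_on with
  | empty => exact ⟨1, S.one_mem, P1.one, by simp⟩
  | insert a s ha ih =>
    obtain ⟨y, hy, hy1, hy2⟩ := ih fun i hi => h i (mem_insert_of_mem hi)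
    rcases le_or_gt (v a y) 1 with hle | hgt
    · obtain ⟨t, ht, ht1, ht2⟩ := h a (mem_insert_self a s)
      obtain ⟨r, hr⟩ : ∃ r : ℕ, ∀ i ∈ s, v i y ^ r * v i t < 1 := by
        have : ∀ i ∈ s, ∀ᶠ r : ℕ in Filter.atTop, v i y ^ r * v i t < 1 := fun i hi => by
          have h0 := (NNReal.tendsto_pow_atTop_nhds_zero_of_lt_one (hy2 i hi)).mul_const (v i t)
          rw [zero_mul] at h0
          exact h0.eventually (gt_mem_nhds zero_lt_one)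
        exact ((Filter.eventually_all_finset s).mpr this).exists
      refine ⟨y ^ r * t, S.mul_mem (S.pow_mem hy r) ht, (hy1.pow r).mul ht1, fun i hi => ?_⟩
      rw [map_mul, map_pow]
      rcases mem_insert.mp hi with rfl | hi
      · exact mul_lt_one_of_nonneg_of_lt_one_right (pow_le_one₀ zero_le hle) zero_le ht2
      · exact hr i hi
    · have hden : P1 w (1 - y + y ^ 2) := by
        unfold P1
        rw [show 1 - y + y ^ 2 - 1 = y * (y - 1) by ring, map_mul, hy1.val, one_mul]; exact hy1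
      refine ⟨y / (1 - y + y ^ 2),
        S.div_mem hy (S.add_mem (S.sub_mem S.one_mem hy) (S.pow_mem hy 2)), hy1.div hden,
        fun i hi => ?_⟩
      rw [map_div₀]
      rcases mem_insert.mp hi with rfl | hi
      · have h2 : v i y < v i y ^ 2 := by
          rw [pow_two]; exact lt_mul_of_one_lt_left (zero_lt_one.trans hgt) hgt
        have h3 : v i (1 - y + y ^ 2) = v i (y ^ 2) := by
          refine Valuation.map_add_eq_of_lt_right _ ?_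
          rw [map_pow]
          exact Valuation.map_sub_lt _ (by rw [map_one]; exact hgt.trans h2) h2
        rw [h3, map_pow, div_lt_one ((zero_lt_one.trans hgt).trans h2)]; exact h2
      · have h3 : P1 (v i) (1 - y + y ^ 2) := by
          unfold P1
          rw [show 1 - y + y ^ 2 - 1 = y * (y - 1) by ring, map_mul]
          refine mul_lt_one_of_nonneg_of_lt_one_left zero_le (hy2 i hi) ?_
          exact Valuation.map_sub_le _ (hy2 i hi).le (by rw [map_one])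
        rw [h3.val, div_one]; exact hy2 i hi

variable {G : Type*} [Group G] [MulSemiringAction G Ω]

variable (Ω) in
/-- fixed field -/
def Fx (Γ : Subgroup G) : Subfield Ω where
  carrier := {f | ∀ γ ∈ Γ, γ • f = f}
  mul_mem' ha hb γ hγ := by rw [smul_mul', ha γ hγ, hb γ hγ]
  one_mem' γ _ := smul_one γ
  add_mem' ha hb γ hγ := by rw [smul_add, ha γ hγ, hb γ hγ]
  zero_mem' γ _ := smul_zero γ
  neg_mem' ha γ hγ := by rw [smul_neg, ha γ hγ]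
  inv_mem' a ha γ hγ := by rw [smul_inv'', ha γ hγ]


theorem Fx_mono {Γ₁ Γ : Subgroup G} (h : Γ₁ ≤ Γ) {f : Ω} (hf : f ∈ Fx Ω Γ) : f ∈ Fx Ω Γ₁ :=
  fun γ hγ => hf γ (h hγ)

theorem smul_mem_Fx {Γ₁ Γ : Subgroup G} {g : G} (h : ∀ γ ∈ Γ₁, g⁻¹ * γ * g ∈ Γ) {f : Ω}
    (hf : f ∈ Fx Ω Γ) : g • f ∈ Fx Ω Γ₁ := fun γ hγ => by
  have := hf _ (h γ hγ)
  rw [mul_smul, mul_smul, inv_smul_eq_iff] at this
  exact this

/-- the constants carry the values of the norm, and the norm is not trivial -/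
structure Cst (G : Type*) [Group G] [MulSemiringAction G Ω] (W : Valuation Ω ℝ≥0)
    (C : Subfield Ω) : Prop where
  fix : ∀ c ∈ C, ∀ g : G, g • c = c
  val : ∀ f, f ≠ 0 → ∃ c ∈ C, W c = W f
  nt : ∃ c ∈ C, 0 < W c ∧ W c < 1

theorem Cst.mem {W : Valuation Ω ℝ≥0} {C : Subfield Ω} (hC : Cst G W C) {c : Ω} (hc : c ∈ C)
    (Γ : Subgroup G) : c ∈ Fx Ω Γ := fun γ _ => hC.fix c hc γ

/-- `γ` keeps the norm on the fixed field of `Γ₁` -/
def Dec (W : Valuation Ω ℝ≥0) (Γ₁ : Subgroup G) (γ : G) : Prop :=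
  ∀ f ∈ Fx Ω Γ₁, W (γ • f) = W f

variable {W : Valuation Ω ℝ≥0} {C : Subfield Ω} {Γ₁ Γ₀ Γ : Subgroup G}

theorem out_smul {y : Ω} (hy : y ∈ Fx Ω Γ₁) (g : Γ) :
    (((QuotientGroup.mk g : Γ ⧸ Γ₁.subgroupOf Γ).out : Γ) : G) • y = (g : G) • y := by
  obtain ⟨h, e⟩ := QuotientGroup.mk_out_eq_mul (Γ₁.subgroupOf Γ) g
  rw [e, Subgroup.coe_mul, mul_smul, hy _ (Subgroup.mem_subgroupOf.mp h.2)]

theorem tr_mem [Fintype (Γ ⧸ Γ₁.subgroupOf Γ)] {y : Ω} (hy : y ∈ Fx Ω Γ₁) :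
    ∑ i : Γ ⧸ Γ₁.subgroupOf Γ, ((i.out : Γ) : G) • y ∈ Fx Ω Γ := fun γ hγ => by
  rw [smul_sum]
  refine Fintype.sum_equiv (MulAction.toPerm (⟨γ, hγ⟩ : Γ)) _ _ fun i => ?_
  rw [MulAction.toPerm_apply, ← MulAction.Quotient.mk_smul_out, out_smul hy, smul_eq_mul,
    Subgroup.coe_mul, mul_smul]

open Classical in
theorem core [Fintype (Γ ⧸ Γ₁.subgroupOf Γ)] (hC : Cst G W C) {x : Ω} (hx : x ∈ Fx Ω Γ₁)
    (hD : ∀ γ ∈ Γ, Dec W Γ₁ γ → W (γ • x - x) < 1) (h1 : W x ≤ 1) :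
    ∃ z ∈ Fx Ω Γ, W (z - (#(univ.filter fun i : Γ ⧸ Γ₁.subgroupOf Γ =>
      Dec W Γ₁ ((i.out : Γ) : G)) : Ω) * x) < 1 := by
  let v : Γ ⧸ Γ₁.subgroupOf Γ → Valuation Ω ℝ≥0 := fun i =>
    W.comap (MulSemiringAction.toRingHom G Ω ((i.out : Γ) : G))
  have hv : ∀ i f, v i f = W (((i.out : Γ) : G) • f) := fun i f => rfl
  obtain ⟨y, hy, hy1, hy2⟩ := sep (Fx Ω Γ₁) W v
    (univ.filter fun i => ¬ Dec W Γ₁ ((i.out : Γ) : G)) fun i hi => by
      refine sep2 _ _ _ (fun f _ hf => ?_) ?_ ?_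
      · obtain ⟨c, hc, e⟩ := hC.val f hf
        exact ⟨c, hC.mem hc _, e, by rw [hv, hC.fix c hc]⟩
      · obtain ⟨c, hc, e1, e2⟩ := hC.nt
        exact ⟨c, hC.mem hc _, e1, e2, by rw [hv, hC.fix c hc]⟩
      · have := (mem_filter.mp hi).2
        unfold Dec at this
        push Not at this
        exact this
  obtain ⟨r, hr⟩ : ∃ r : ℕ, ∀ i ∈ (univ.filter fun i : Γ ⧸ Γ₁.subgroupOf Γ =>
      ¬ Dec W Γ₁ ((i.out : Γ) : G)), v i y ^ r * v i x < 1 := by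
    refine ((Filter.eventually_all_finset _).mpr fun i hi => ?_ :
      ∀ᶠ r : ℕ in Filter.atTop, _).exists
    have h0 := (NNReal.tendsto_pow_atTop_nhds_zero_of_lt_one (hy2 i hi)).mul_const (v i x)
    rw [zero_mul] at h0
    exact h0.eventually (gt_mem_nhds zero_lt_one)
  have hm : y ^ r * x ∈ Fx Ω Γ₁ := mul_mem (pow_mem hy r) hx
  refine ⟨_, tr_mem hm, ?_⟩
  rw [← sum_filter_add_sum_filter_not univ
    (fun i : Γ ⧸ Γ₁.subgroupOf Γ => Dec W Γ₁ ((i.out : Γ) : G)), ← nsmul_eq_mul, ← sum_const,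
    add_sub_right_comm, ← sum_sub_distrib]
  refine Valuation.map_add_lt _ (Valuation.map_sum_lt _ one_ne_zero fun i hi => ?_)
    (Valuation.map_sum_lt _ one_ne_zero fun i hi => ?_)
  · have hi' := (mem_filter.mp hi).2
    rw [show ((i.out : Γ) : G) • (y ^ r * x) - x
      = ((i.out : Γ) : G) • ((y ^ r - 1) * x) + (((i.out : Γ) : G) • x - x) by
        rw [sub_mul, one_mul, smul_sub]; ring]
    refine Valuation.map_add_lt _ ?_ (hD _ (i.out : Γ).2 hi')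
    rw [hi' _ (mul_mem (sub_mem (pow_mem hy r) (one_mem _)) hx), map_mul]
    exact mul_lt_one_of_nonneg_of_lt_one_left zero_le (hy1.pow r) h1
  · rw [← hv, map_mul, map_pow]; exact hr i hi

theorem dec_one_out : Dec W Γ₁ (((QuotientGroup.mk 1 : Γ ⧸ Γ₁.subgroupOf Γ).out : Γ) : G) :=
  fun f hf => by rw [out_smul hf, Subgroup.coe_one, one_smul]

/-- descent along a Galois covering of degree prime to the residue characteristic -/
theorem desc (hC : Cst G W C) (hfin : Γ₁.relIndex Γ ≠ 0)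
    (hn : ∀ γ ∈ Γ, ∀ δ ∈ Γ₁, γ⁻¹ * δ * γ ∈ Γ₁)
    (hW : ∀ m : ℕ, m ∣ Γ₁.relIndex Γ → W m = 1) {x : Ω} (hx : x ∈ Fx Ω Γ₁)
    (hD : ∀ γ ∈ Γ, Dec W Γ₁ γ → W (γ • x - x) < 1) (h1 : W x ≤ 1) :
    ∃ z ∈ Fx Ω Γ, W (z - x) < 1 := by
  classical
  haveI : (Γ₁.subgroupOf Γ).FiniteIndex := ⟨hfin⟩
  haveI : Fintype (Γ ⧸ Γ₁.subgroupOf Γ) := Fintype.ofFinite _
  haveI : (Γ₁.subgroupOf Γ).Normal := ⟨fun δ hδ γ => Subgroup.mem_subgroupOf.mpr (by
    have := hn _ (inv_mem γ.2) _ (Subgroup.mem_subgroupOf.mp hδ)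
    rwa [inv_inv] at this)⟩
  obtain ⟨z, hz, e⟩ := core hC hx hD h1
  let D : Subgroup Γ :=
    { carrier := {γ | Dec W Γ₁ γ}
      one_mem' := fun f _ => by rw [Subgroup.coe_one, one_smul]
      mul_mem' := fun {a b} ha hb f hf => by
        rw [Subgroup.coe_mul, mul_smul, ha _ (smul_mem_Fx (hn _ b.2) hf), hb f hf]
      inv_mem' := fun {a} ha f hf => by
        rw [← ha _ (smul_mem_Fx (hn _ a⁻¹.2) hf), Subgroup.coe_inv, smul_inv_smul] }
  have hd : #(univ.filter fun i : Γ ⧸ Γ₁.subgroupOf Γ => Dec W Γ₁ ((i.out : Γ) : G)) ∣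
      Γ₁.relIndex Γ := by
    have h2 := Subgroup.card_subgroup_dvd_card (D.map (QuotientGroup.mk' (Γ₁.subgroupOf Γ)))
    rw [← Nat.subtype_card _ (p := fun i => i ∈ D.map (QuotientGroup.mk' (Γ₁.subgroupOf Γ)))]
    · exact h2
    · intro i
      simp only [mem_filter, mem_univ, true_and]
      refine ⟨fun h => ⟨i.out, h, QuotientGroup.out_eq' i⟩, ?_⟩
      rintro ⟨g, hg, rfl⟩ f hf
      rw [QuotientGroup.mk'_apply, out_smul hf]
      exact hg f hf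
  generalize #(univ.filter fun i : Γ ⧸ Γ₁.subgroupOf Γ =>
      Dec W Γ₁ ((i.out : Γ) : G)) = m at e hd
  have hm1 : W m = 1 := hW m hd
  have hm0 : (m : Ω) ≠ 0 := by intro h; rw [h, map_zero] at hm1; exact zero_ne_one hm1
  refine ⟨z / m, div_mem hz (natCast_mem _ m), ?_⟩
  rw [show z / m - x = (z - m * x) / m by field_simp, map_div₀, hm1, div_one]; exact e

/-- descent when the decomposition group is trivial -/
theorem desc0 (hC : Cst G W C) (hfin : Γ₀.relIndex Γ ≠ 0)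
    (hB : ∀ γ ∈ Γ, Dec W Γ₀ γ → γ ∈ Γ₀) {x : Ω} (hx : x ∈ Fx Ω Γ₀) (h1 : W x ≤ 1) :
    ∃ z ∈ Fx Ω Γ, W (z - x) < 1 := by
  classical
  haveI : (Γ₀.subgroupOf Γ).FiniteIndex := ⟨hfin⟩
  haveI : Fintype (Γ ⧸ Γ₀.subgroupOf Γ) := Fintype.ofFinite _
  obtain ⟨z, hz, e⟩ := core hC hx
    (fun γ hγ h => by rw [hx γ (hB γ hγ h), sub_self, map_zero]; exact zero_lt_one) h1
  have : (univ.filter fun i : Γ ⧸ Γ₀.subgroupOf Γ => Dec W Γ₀ ((i.out : Γ) : G))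
      = {QuotientGroup.mk 1} := by
    ext i
    simp only [mem_filter, mem_univ, true_and, mem_singleton]
    refine ⟨fun h => ?_, fun h => h ▸ dec_one_out⟩
    rw [← QuotientGroup.out_eq' i, eq_comm, QuotientGroup.eq, inv_one, one_mul]
    exact Subgroup.mem_subgroupOf.mpr (hB _ (i.out : Γ).2 h)
  rw [this, card_singleton, Nat.cast_one, one_mul] at e
  exact ⟨z, hz, e⟩

/-- the residue of `f` is an `n`-th power at level `Γ` -/
def NP (W : Valuation Ω ℝ≥0) (Γ : Subgroup G) (n : ℕ) (f : Ω) : Prop :=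
  ∃ g ∈ Fx Ω Γ, P1 W (f / g ^ n)

namespace NP

variable {n : ℕ} {f f' : Ω}

theorem ne (h : NP W Γ n f) : f ≠ 0 := by
  obtain ⟨g, -, h⟩ := h
  rintro rfl
  exact h.ne (by simp)

theorem of_P1 (h : P1 W f) : NP W Γ n f := ⟨1, one_mem _, by simpa using h⟩

theorem one : NP W Γ n (1 : Ω) := of_P1 P1.one

theorem mul (h : NP W Γ n f) (h' : NP W Γ n f') : NP W Γ n (f * f') := by
  obtain ⟨g, hg, h⟩ := h
  obtain ⟨g', hg', h'⟩ := h'
  exact ⟨g * g', mul_mem hg hg', (h.mul h').congr (by rw [mul_pow, div_mul_div_comm])⟩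

theorem inv (h : NP W Γ n f) : NP W Γ n f⁻¹ := by
  obtain ⟨g, hg, h⟩ := h
  exact ⟨g⁻¹, inv_mem hg, h.inv.congr (by rw [inv_pow, inv_div, inv_div_inv])⟩

theorem div (h : NP W Γ n f) (h' : NP W Γ n f') : NP W Γ n (f / f') := by
  rw [div_eq_mul_inv]; exact h.mul h'.inv

theorem of_pow {g : Ω} (hg : g ∈ Fx Ω Γ) (h0 : g ≠ 0) : NP W Γ n (g ^ n) :=
  ⟨g, hg, by rw [div_self (pow_ne_zero _ h0)]; exact P1.one⟩

theorem congr (h : NP W Γ n f) (e : f = f') : NP W Γ n f' := e ▸ h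

theorem const (hC : Cst G W C) (hr : ∀ c ∈ C, ∃ d ∈ C, d ^ n = c) {c : Ω} (hc : c ∈ C)
    (h0 : c ≠ 0) : NP W Γ n c := by
  obtain ⟨d, hd, e⟩ := hr c hc
  exact ⟨d, hC.mem hd _, by rw [e, div_self h0]; exact P1.one⟩

end NP

/-- normalisation by a constant -/
theorem Cst.norm (hC : Cst G W C) {f : Ω} (hf : f ≠ 0) :
    ∃ c ∈ C, c ≠ 0 ∧ W (f / c) = 1 := by
  obtain ⟨c, hc, e⟩ := hC.val f hf
  have h0 : W f ≠ 0 := by simpa using hf
  refine ⟨c, hc, ?_, by rw [map_div₀, e, div_self h0]⟩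
  rintro rfl
  rw [map_zero] at e
  exact h0 e.symm

/-- an approximate `n`-th root of unity is near a root of unity -/
theorem near_root {n : ℕ} (hn : 0 < n) {ζ t : Ω} (hζ : IsPrimitiveRoot ζ n) (ht : P1 W (t ^ n)) :
    ∃ i : ℕ, W (t - ζ ^ i) < 1 := by
  by_contra hcon
  push Not at hcon
  have e := congrArg (Polynomial.eval t) (X_pow_sub_C_eq_prod hζ hn (one_pow n))
  simp only [Polynomial.eval_sub, Polynomial.eval_pow, Polynomial.eval_X, Polynomial.eval_C,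
    Polynomial.eval_prod, mul_one] at e
  unfold P1 at ht
  rw [e, map_prod] at ht
  exact absurd ht (not_lt.mpr (one_le_prod' fun i _ => hcon i))

theorem val_root {n : ℕ} (hn : 0 < n) {t : Ω} (ht : W (t ^ n) = 1) : W t = 1 := by
  rw [map_pow] at ht
  exact (pow_eq_one_iff_of_nonneg zero_le hn.ne').mp ht

/-- Frobenius on approximate roots of unity -/
theorem frob_root {n q : ℕ} (hn : 0 < n) {ζ t : Ω} (hζ : IsPrimitiveRoot ζ n) {σ : Ω →+* Ω}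
    (hσ : ∀ f, W (σ f) = W f) (hq : W (σ ζ - ζ ^ q) < 1) (ht : P1 W (t ^ n)) :
    P1 W (σ t / t ^ q) := by
  obtain ⟨i, hi⟩ := near_root hn hζ ht
  have h1 : W ζ = 1 := val_root hn (by rw [hζ.pow_eq_one, map_one])
  have h2 : P1 W (t / ζ ^ i) := P1.of_sub (by rw [map_pow, h1, one_pow]) hi
  have h3 : P1 W (σ ζ / ζ ^ q) := P1.of_sub (by rw [map_pow, h1, one_pow]) hq
  have hζ0 : ζ ≠ 0 := hζ.ne_zero hn.ne'
  have hs0 : σ ζ ≠ 0 := by simpa using hζ0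
  have ht0 : t ≠ 0 := fun h => h2.ne (by rw [h, zero_div])
  refine (((h2.map hσ).mul (h3.pow i)).div (h2.pow q)).congr ?_
  rw [map_div₀, map_pow, div_pow, div_pow, ← pow_mul, ← pow_mul, mul_comm q i]
  field_simp

/-- the data of a Frobenius `σ` and of three levels `Γ₁ ≤ Γ₀ ≤ Γ` -/
structure Lev (W : Valuation Ω ℝ≥0) (C : Subfield Ω) (n q : ℕ) (σ : Ω →+* Ω)
    (Γ₁ Γ₀ Γ : Subgroup G) : Prop where
  cst : Cst G W C
  pos : 0 < n
  prim : ∃ ζ : Ω, IsPrimitiveRoot ζ n ∧ W (σ ζ - ζ ^ q) < 1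
  le₁ : Γ₁ ≤ Γ₀
  le₀ : Γ₀ ≤ Γ
  fin₁ : Γ₁.relIndex Γ₀ ≠ 0
  fin₀ : Γ₀.relIndex Γ ≠ 0
  norm : ∀ γ ∈ Γ₀, ∀ δ ∈ Γ₁, γ⁻¹ * δ * γ ∈ Γ₁
  unit : ∀ m : ℕ, m ∣ Γ₁.relIndex Γ₀ → W m = 1
  borel : ∀ γ ∈ Γ, Dec W Γ₀ γ → γ ∈ Γ₀
  iso : ∀ f, W (σ f) = W f
  mem : ∀ f ∈ Fx Ω Γ, σ f ∈ Fx Ω Γ
  comm : ∀ γ ∈ Γ₀, ∀ f ∈ Fx Ω Γ₁, σ (γ • f) = γ • σ f

/-- **descent**: an `n`-th root of the residue upstairs gives one of `σ a / a ^ q` downstairs -/
theorem Lev.red_frob {n q : ℕ} {σ : Ω →+* Ω} (h : Lev W C n q σ Γ₁ Γ₀ Γ) {a : Ω}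
    (ha : a ∈ Fx Ω Γ) (hp : NP W Γ₁ n a) : NP W Γ n (σ a / a ^ q) := by
  have ha0 := hp.ne
  obtain ⟨g, hg, hp⟩ := hp
  have hg0 : g ≠ 0 := by
    rintro rfl
    exact hp.ne (by rw [zero_pow h.pos.ne', div_zero])
  obtain ⟨ζ, hζ, hζq⟩ := h.prim
  obtain ⟨c, hc, hc0, hgc⟩ := h.cst.norm hg0
  have hσg : σ g ∈ Fx Ω Γ₁ := fun γ hγ => by rw [← h.comm γ (h.le₁ hγ) g hg, hg γ hγ]
  have hcΓ := h.cst.mem hc Γ
  have hσc := h.mem c hcΓ
  have hs0 : σ g ≠ 0 := by simpa using hg0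
  have hsc0 : σ c ≠ 0 := by simpa using hc0
  have hsa0 : σ a ≠ 0 := by simpa using ha0
  set x := σ (g / c) / (g / c) ^ q with hx
  have hx1 : W x = 1 := by rw [hx, map_div₀ W, map_pow, h.iso, hgc, one_pow, div_one]
  have hle := h.le₁.trans h.le₀
  have hxm : x ∈ Fx Ω Γ₁ := by
    rw [hx, map_div₀]
    exact div_mem (div_mem hσg (Fx_mono hle hσc)) (pow_mem (div_mem hg (Fx_mono hle hcΓ)) q)
  obtain ⟨z₀, hz₀, e₀⟩ := desc h.cst h.fin₁ h.norm h.unit hxm (fun γ hγ hd => by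
    have h1 : P1 W (a / (γ • g) ^ n) := by
      have := hd _ (sub_mem (div_mem (Fx_mono hle ha) (pow_mem hg n)) (one_mem _))
      rw [smul_sub, smul_one, smul_div₀', smul_pow', ha γ (h.le₀ hγ)] at this
      unfold P1
      rw [this]; exact hp
    have hγg : γ • g ≠ 0 := fun h0 => hg0 (by rw [← inv_smul_smul γ g, h0, smul_zero])
    have h2 : P1 W ((γ • g / g) ^ n) := (hp.div h1).congr (by rw [div_pow]; field_simp)
    have h3 := frob_root h.pos hζ h.iso hζq h2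
    refine P1.sub_lt (h3.congr ?_) hx1.le
    rw [hx, map_div₀ σ, map_div₀ σ, smul_div₀', smul_div₀', smul_pow', smul_div₀',
      ← h.comm γ hγ g hg, hσc γ (h.le₀ hγ), hcΓ γ (h.le₀ hγ), div_pow, div_pow, div_pow]
    field_simp) hx1.le
  have p₀ : P1 W (z₀ / x) := P1.of_sub hx1 e₀
  have hz1 : W z₀ = 1 := p₀.val_eq.trans hx1
  obtain ⟨z, hz, e⟩ := desc0 h.cst h.fin₀ h.borel hz₀ hz1.le
  have p : P1 W (z / z₀) := P1.of_sub hz1 e
  have hz₀0 : z₀ ≠ 0 := fun h0 => by rw [h0, map_zero] at hz1; exact zero_ne_one hz1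
  have hz0 : z ≠ 0 := fun h0 => p.ne (by rw [h0, zero_div])
  refine ⟨z * (σ c / c ^ q), mul_mem hz (div_mem hσc (pow_mem hcΓ q)), ?_⟩
  refine (((hp.map h.iso).div (hp.pow q)).div ((p.mul p₀).pow n)).congr ?_
  rw [hx, map_div₀ σ, map_div₀ σ, map_pow σ]
  simp only [div_pow, mul_pow, ← pow_mul, mul_comm q n]
  field_simp

end Crest.Agent.T15.Twi
end
end

-- ▼ part T15/TwiB_21

/-!
# T15 / TwiB (helper21): inertia at an auxiliary prime, abstract form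

`Ω, W, G` as in TwiA; `σ` a Frobenius, `τ` an inertia element, `ω` the Atkin-Lehner element,
`β` the second degeneracy map, `d` and `χ` diamond elements.  `Rel` is the Kummer dictionary between
an additive group of classes and functions.  `twi` : `(τ - 1) (τ - χ) = 0` on `E₁`.
-/

set_option autoImplicit false
set_option linter.all false

noncomputable section

namespace Crest.Agent.T15.Twi

open scoped NNReal

section alg

variable {H : Type*} [AddCommGroup H]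

/-- a `p`-group acting on a finite abelian `p`-group has a fixed point -/
theorem exists_fixed {p : ℕ} [Fact p.Prime] {Δ : Type*} [Group Δ] (hΔ : IsPGroup p Δ) [Finite H]
    (dia : Δ → H →+ H) (h1 : ∀ x, dia 1 x = x) (hm : ∀ a b x, dia (a * b) x = dia a (dia b x))
    (S : AddSubgroup H) (hS : ∀ δ, ∀ x ∈ S, dia δ x ∈ S) (hp : ∀ x ∈ S, ∃ m : ℕ, p ^ m • x = 0)
    {x : H} (hx : x ∈ S) (h0 : x ≠ 0) : ∃ y ∈ S, y ≠ 0 ∧ ∀ δ, dia δ y = y := by
  letI : MulAction Δ S :=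
    { smul := fun δ y => ⟨dia δ y.1, hS δ _ y.2⟩
      one_smul := fun y => Subtype.ext (h1 _)
      mul_smul := fun a b y => Subtype.ext (hm a b _) }
  have hP : IsPGroup p (Multiplicative S) := fun y => by
    obtain ⟨m, e⟩ := hp _ y.toAdd.2
    exact ⟨m, by rw [← ofAdd_toAdd y, ← ofAdd_nsmul]; exact congrArg _ (Subtype.ext e)⟩
  obtain ⟨k, hk⟩ := hP.exists_card_eq
  have hd : p ∣ Nat.card S := by
    have e : Nat.card S = p ^ k := hk
    rw [e]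
    refine dvd_pow_self p ?_
    rintro rfl
    rw [pow_zero, Nat.card_eq_one_iff_unique] at e
    exact h0 (congrArg Subtype.val (e.1.elim ⟨x, hx⟩ 0))
  obtain ⟨b, hb, hne⟩ := hΔ.exists_fixed_point_of_prime_dvd_card_of_fixed_point S hd
    (a := 0) (fun δ => Subtype.ext (map_zero (dia δ)))
  exact ⟨b.1, b.2, fun h => hne (Subtype.ext h.symm), fun δ => congrArg Subtype.val (hb δ)⟩

/-- congruence relation ⇒ `σ - q` is injective -/
theorem es_inj₁ (E : AddSubgroup H) (σ T D : H →+ H) (q : ℕ)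
    (hES : ∀ h ∈ E, σ (σ h) - T (σ h) + q • D h = 0) (hq : ∀ h : H, q • h = 0 → h = 0)
    (hu : ∀ h ∈ E, T h - q • h - D h = 0 → h = 0) : ∀ h ∈ E, σ h = q • h → h = 0 :=
  fun h hh e => hu h hh (hq _ (by
    have := hES h hh
    rw [e, map_nsmul, map_nsmul, e] at this
    rw [← neg_eq_zero, ← this, smul_sub, smul_sub]; abel))

/-- congruence relation ⇒ `σ² D⁻¹ - q²` is injective -/
theorem es_inj₂ (E : AddSubgroup H) (σ T D D' : H →+ H) (q : ℕ)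
    (hES : ∀ h ∈ E, σ (σ h) - T (σ h) + q • D h = 0) (hq : ∀ h : H, q • h = 0 → h = 0)
    (hD' : ∀ h ∈ E, D' h ∈ E) (hDD : ∀ h, D (D' h) = h) (hTσ : ∀ h, T (σ h) = σ (T h))
    (hDσ : ∀ h, D (σ h) = σ (D h)) (hDT : ∀ h, D (T h) = T (D h))
    (hu : ∀ h ∈ E, T (T h) - (q + 1) ^ 2 • D h = 0 → h = 0) :
    ∀ h ∈ E, σ (σ (D' h)) = q ^ 2 • h → h = 0 := fun h hh e => by
  have h1 := hES _ (hD' h hh)
  rw [e, hDD] at h1
  have h2 : T (σ (D' h)) = (q * (q + 1)) • h := by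
    rw [← sub_eq_zero, ← neg_eq_zero, ← h1, mul_add, mul_one, ← pow_two, add_smul]; abel
  have h3 : T (σ h) = (q * (q + 1)) • D h := by
    rw [← map_nsmul, ← h2, hDT, hDσ, hDD]
  have h4 : T (σ (T (σ (D' h)))) = q ^ 2 • T (T h) := by
    rw [← hTσ, e, map_nsmul, map_nsmul]
  rw [h2, map_nsmul, map_nsmul, h3] at h4
  refine hu h hh (hq _ (hq _ ?_))
  rw [smul_smul, ← pow_two, smul_sub, ← h4, smul_smul, smul_smul, sub_eq_zero]
  congr 1; ring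

end alg

variable {Ω : Type*} [Field Ω] {G : Type*} [Group G] [MulSemiringAction G Ω]
variable {W : Valuation Ω ℝ≥0} {C : Subfield Ω} {Γ₁ Γ₀ Γ : Subgroup G} {n q : ℕ}

theorem smul_ne {g : G} {f : Ω} (h : f ≠ 0) : g • f ≠ 0 :=
  fun h0 => h (by rw [← inv_smul_smul g f, h0, smul_zero])

theorem NP.map {σ : Ω →+* Ω} (hσ : ∀ f, W (σ f) = W f) (hm : ∀ f ∈ Fx Ω Γ, σ f ∈ Fx Ω Γ) {f : Ω}
    (h : NP W Γ n f) : NP W Γ n (σ f) := by
  obtain ⟨g, hg, h⟩ := h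
  exact ⟨σ g, hm g hg, (h.map hσ).congr (by rw [map_div₀, map_pow])⟩

/-- all the function-theoretic data at the auxiliary prime `q` -/
structure Geo (W : Valuation Ω ℝ≥0) (C : Subfield Ω) (n q : ℕ) (σ τ : Ω →+* Ω)
    (Γ₁ Γ₀ Γ : Subgroup G) (ω β d χ : G) : Prop extends Lev W C n q σ Γ₁ Γ₀ Γ where
  inert : ∀ f, f ≠ 0 → NP W Γ₁ n (τ f / f)
  τmem : ∀ f ∈ Fx Ω Γ₁, τ f ∈ Fx Ω Γ₁
  τχ : ∀ f ∈ Fx Ω Γ₁, τ (χ • f) = χ • τ f
  χmem : ∀ f ∈ Fx Ω Γ₁, χ • f ∈ Fx Ω Γ₁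
  ωmem : ∀ f ∈ Fx Ω Γ₁, ω • f ∈ Fx Ω Γ₁
  τω : ∀ f ∈ Fx Ω Γ₁, τ (ω • χ • f) = ω • τ f
  dmem : ∀ f ∈ Fx Ω Γ, d • f ∈ Fx Ω Γ
  ωα : ∀ f ∈ Fx Ω Γ, ω • f = β • f
  ωβ : ∀ f ∈ Fx Ω Γ, ω • β • f = d • f
  frob : ∀ f, f ≠ 0 → NP W Γ₁ n (σ (β • f) / f ^ q)

variable {σ τ : Ω →+* Ω} {ω β d χ : G}

theorem Geo.z1 (h : Geo W C n q σ τ Γ₁ Γ₀ Γ ω β d χ) {f : Ω} (hf : f ∈ Fx Ω Γ₁) (h0 : f ≠ 0) :
    NP W Γ₁ n (τ (τ f / χ • f) / (τ f / χ • f)) ∧
      NP W Γ₁ n (ω • (τ (τ f / χ • f) / (τ f / χ • f))) := by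
  have h1 : τ f ≠ 0 := by simpa using h0
  have h2 : τ (τ f) ≠ 0 := by simpa using h0
  refine ⟨h.inert _ (div_ne_zero h1 (smul_ne h0)), ?_⟩
  have hy : τ f / f ∈ Fx Ω Γ₁ := div_mem (h.τmem f hf) hf
  refine (h.inert (ω • χ • (τ f / f)) (smul_ne (smul_ne (div_ne_zero h1 h0)))).congr ?_
  rw [h.τω _ hy, ← smul_div₀']
  congr 1
  have h3 : χ • f ≠ 0 := smul_ne h0
  have h4 : χ • τ f ≠ 0 := smul_ne h1
  rw [map_div₀, map_div₀, h.τχ f hf, smul_div₀']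
  field_simp

theorem Geo.z2 (h : Geo W C n q σ τ Γ₁ Γ₀ Γ ω β d χ) {f g : Ω} (hf : f ∈ Fx Ω Γ)
    (hg : g ∈ Fx Ω Γ) (hf0 : f ≠ 0) (hg0 : g ≠ 0) (h1 : NP W Γ₁ n (f * β • g))
    (h2 : NP W Γ₁ n (ω • (f * β • g))) :
    NP W Γ n (σ (σ f * g ^ q) / (σ f * g ^ q) ^ q) ∧
      NP W Γ n (σ (f ^ q * σ (d • g)) / (f ^ q * σ (d • g)) ^ q) := by
  have hm : ∀ f ∈ Fx Ω Γ₁, σ f ∈ Fx Ω Γ₁ := fun f hf γ hγ => by
    rw [← h.comm γ (h.le₁ hγ) f hf, hf γ hγ]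
  have e1 : σ (β • g) ≠ 0 := by simpa using smul_ne hg0
  have e2 : σ (β • f) ≠ 0 := by simpa using smul_ne hf0
  refine ⟨h.toLev.red_frob (mul_mem (h.mem f hf) (pow_mem hg q)) ?_,
    h.toLev.red_frob (mul_mem (pow_mem hf q) (h.mem _ (h.dmem g hg))) ?_⟩
  · refine ((h1.map h.iso hm).div (h.frob g hg0)).congr ?_
    rw [map_mul]; field_simp
  · refine ((h2.map h.iso hm).div (h.frob f hf0)).congr ?_
    rw [smul_mul', h.ωα f hf, h.ωβ g hg, map_mul]; field_simp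

/-- Kummer dictionary: `R l x f` says that the function `f` represents the `l`-th coordinate of `x` -/
structure Rel (Γ : Subgroup G) (n : ℕ) {Λ H : Type*} [AddCommGroup H] (R : Λ → H → Ω → Prop) :
    Prop where
  mem : ∀ {l x f}, R l x f → f ∈ Fx Ω Γ
  ne : ∀ {l x f}, R l x f → f ≠ 0
  ex : ∀ l x, ∃ f, R l x f
  sub : ∀ {l x y f g}, R l x f → R l y g → R l (x - y) (f / g)
  uniq : ∀ {l f}, R l 0 f → ∃ g ∈ Fx Ω Γ, f = g ^ n
  sep : ∀ {x}, (∀ l, ∃ g ∈ Fx Ω Γ, R l x (g ^ n)) → x = 0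

namespace Rel

variable {Λ H : Type*} [AddCommGroup H] {R : Λ → H → Ω → Prop} (h : Rel Γ n R)
include h

theorem zero (l : Λ) : R l 0 1 := by
  obtain ⟨f, hf⟩ := h.ex l 0
  have := h.sub hf hf
  rwa [sub_self, div_self (h.ne hf)] at this

theorem add {l : Λ} {x y : H} {f g : Ω} (hf : R l x f) (hg : R l y g) : R l (x + y) (f * g) := by
  have := h.sub hf (h.sub (h.zero l) hg)
  rwa [zero_sub, sub_neg_eq_add, one_div, div_inv_eq_mul] at this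

theorem nsmul {l : Λ} {x : H} {f : Ω} (hf : R l x f) (m : ℕ) : R l (m • x) (f ^ m) := by
  induction m with
  | zero => simpa using h.zero l
  | succ m ih => rw [succ_nsmul, pow_succ]; exact h.add ih hf

theorem eq_mul' (hn : 0 < n) {l : Λ} {x : H} {f f' : Ω} (hf : R l x f) (hf' : R l x f') :
    ∃ g ∈ Fx Ω Γ, g ≠ 0 ∧ f = f' * g ^ n := by
  have := h.sub hf hf'
  rw [sub_self] at this
  obtain ⟨g, hg, e⟩ := h.uniq this
  refine ⟨g, hg, ?_, by rw [← e, mul_div_cancel₀ _ (h.ne hf')]⟩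
  rintro rfl
  exact h.ne this (by rw [e, zero_pow hn.ne'])

end Rel

/-- classes whose residues at the two norms `W`, `W ∘ ω` are `n`-th powers -/
def Tor (W : Valuation Ω ℝ≥0) (ω : G) {Λ H : Type*} [AddCommGroup H] {R : Λ → H → Ω → Prop}
    (h : Rel Γ₁ n R) : AddSubgroup H where
  carrier := {x | ∀ l, ∃ f, R l x f ∧ NP W Γ₁ n f ∧ NP W Γ₁ n (ω • f)}
  zero_mem' l := ⟨1, h.zero l, NP.one, by rw [smul_one]; exact NP.one⟩
  add_mem' hx hy l := by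
    obtain ⟨f, h1, h2, h3⟩ := hx l
    obtain ⟨g, h4, h5, h6⟩ := hy l
    exact ⟨f * g, h.add h1 h4, h2.mul h5, by rw [smul_mul']; exact h3.mul h6⟩
  neg_mem' {x} hx l := by
    obtain ⟨f, h1, h2, h3⟩ := hx l
    refine ⟨f⁻¹, ?_, h2.inv, by rw [smul_inv'']; exact h3.inv⟩
    have := h.sub (h.zero l) h1
    rwa [zero_sub, one_div] at this

/-- **inertia at the auxiliary prime**: `(τ - 1) (τ - χ) = 0` on `E₁` -/
theorem twi (h : Geo W C n q σ τ Γ₁ Γ₀ Γ ω β d χ) {Λ H₁ H : Type*} [AddCommGroup H₁]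
    [AddCommGroup H] [Finite H₁] {R₁ : Λ → H₁ → Ω → Prop} {R : Λ → H → Ω → Prop}
    (r₁ : Rel Γ₁ n R₁) (r : Rel Γ n R) {p : ℕ} [Fact p.Prime] {Δ : Type*} [Group Δ]
    (hΔ : IsPGroup p Δ) (dia : Δ → H₁ →+ H₁) (d1 : ∀ x, dia 1 x = x)
    (dm : ∀ a b x, dia (a * b) x = dia a (dia b x)) (hp : ∀ x : H₁, ∃ m : ℕ, p ^ m • x = 0)
    (t X : H₁ →+ H₁) (s D : H →+ H) (a b : H →+ H₁)
    (ht : ∀ {l x f}, R₁ l x f → R₁ l (t x) (τ f)) (hX : ∀ {l x f}, R₁ l x f → R₁ l (X x) (χ • f))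
    (hs : ∀ {l x f}, R l x f → R l (s x) (σ f)) (hD : ∀ {l x f}, R l x f → R l (D x) (d • f))
    (ha : ∀ {l x f}, R l x f → R₁ l (a x) f) (hb : ∀ {l x f}, R l x f → R₁ l (b x) (β • f))
    (dt : ∀ δ x, dia δ (t x) = t (dia δ x)) (dX : ∀ δ x, dia δ (X x) = X (dia δ x))
    (E₁ : AddSubgroup H₁) (E : AddSubgroup H) (tE : ∀ x ∈ E₁, t x ∈ E₁) (XE : ∀ x ∈ E₁, X x ∈ E₁)
    (dE : ∀ δ, ∀ x ∈ E₁, dia δ x ∈ E₁) (sE : ∀ x ∈ E, s x ∈ E) (DE : ∀ x ∈ E, D x ∈ E)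
    (old : ∀ x ∈ E₁, (∀ δ, dia δ x = x) → ∃ y ∈ E, ∃ z ∈ E, x = a y + b z)
    (inj : ∀ {l x f}, x ∈ E → R l x f → NP W Γ n f → ∃ g ∈ Fx Ω Γ, f = g ^ n)
    (i₁ : ∀ x ∈ E, s x = q • x → x = 0) (i₂ : ∀ x ∈ E, s (s (D x)) = q ^ 2 • x → x = 0) :
    ∀ x ∈ E₁, t (t x - X x) = t x - X x := by
  intro x hx
  by_contra hne
  let S : AddSubgroup H₁ := E₁ ⊓ ⨅ δ, (Tor W ω r₁).comap (dia δ)
  have hS : ∀ y, y ∈ S ↔ y ∈ E₁ ∧ ∀ δ, dia δ y ∈ Tor W ω r₁ := fun y => by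
    simp only [S, AddSubgroup.mem_inf, AddSubgroup.mem_iInf, AddSubgroup.mem_comap]
  have hu : t (t x - X x) - (t x - X x) ∈ S := by
    have h1 := E₁.sub_mem (tE x hx) (XE x hx)
    refine (hS _).mpr ⟨E₁.sub_mem (tE _ h1) h1, fun δ l => ?_⟩
    obtain ⟨f, hf⟩ := r₁.ex l (dia δ x)
    have h2 := r₁.sub (ht hf) (hX hf)
    refine ⟨_, ?_, h.z1 (r₁.mem hf) (r₁.ne hf)⟩
    rw [map_sub, dt, map_sub, dt, dX]
    exact r₁.sub (ht h2) h2
  obtain ⟨y, hy, hy0, hfix⟩ := exists_fixed hΔ dia d1 dm S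
    (fun δ y hy => (hS _).mpr ⟨dE δ y ((hS _).mp hy).1, fun δ' => by
      rw [← dm]; exact ((hS _).mp hy).2 _⟩) (fun y _ => hp y) hu (sub_ne_zero.mpr hne)
  obtain ⟨hyE, hyT⟩ := (hS _).mp hy
  obtain ⟨u, hu, v, hv, rfl⟩ := old y hyE hfix
  have hT := hyT 1
  rw [d1] at hT
  have m1 : s u + q • v ∈ E := E.add_mem (sE u hu) (E.nsmul_mem hv q)
  have m2 : q • u + s (D v) ∈ E := E.add_mem (E.nsmul_mem hu q) (sE _ (DE v hv))
  have key : ∀ l, (∃ g ∈ Fx Ω Γ, R l (s (s u + q • v) - q • (s u + q • v)) (g ^ n)) ∧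
      ∃ g ∈ Fx Ω Γ, R l (s (q • u + s (D v)) - q • (q • u + s (D v))) (g ^ n) := fun l => by
    obtain ⟨f, hf⟩ := r.ex l u
    obtain ⟨g, hg⟩ := r.ex l v
    obtain ⟨k, hk, k1, k2⟩ := hT l
    obtain ⟨c, hc, hc0, e⟩ := r₁.eq_mul' h.pos (r₁.add (ha hf) (hb hg)) hk
    obtain ⟨z1, z2⟩ := h.z2 (r.mem hf) (r.mem hg) (r.ne hf) (r.ne hg)
      (by rw [e]; exact k1.mul (NP.of_pow hc hc0))
      (by rw [e, smul_mul', smul_pow']; exact k2.mul (NP.of_pow (h.ωmem c hc) (smul_ne hc0)))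
    have a1 := r.add (hs hf) (r.nsmul hg q)
    have a2 := r.add (r.nsmul hf q) (hs (hD hg))
    have b1 := r.sub (hs a1) (r.nsmul a1 q)
    have b2 := r.sub (hs a2) (r.nsmul a2 q)
    obtain ⟨g1, hg1, e1⟩ := inj (E.sub_mem (sE _ m1) (E.nsmul_mem m1 q)) b1 z1
    obtain ⟨g2, hg2, e2⟩ := inj (E.sub_mem (sE _ m2) (E.nsmul_mem m2 q)) b2 z2
    exact ⟨⟨g1, hg1, e1 ▸ b1⟩, g2, hg2, e2 ▸ b2⟩
  have c1 := i₁ _ m1 (sub_eq_zero.mp (r.sep fun l => (key l).1))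
  have c2 := i₁ _ m2 (sub_eq_zero.mp (r.sep fun l => (key l).2))
  have c3 : s u = -(q • v) := eq_neg_of_add_eq_zero_left c1
  have c4 : s (D v) = -(q • u) := eq_neg_of_add_eq_zero_right c2
  have hv0 : v = 0 := i₂ v hv (by rw [c4, map_neg, map_nsmul, c3, smul_neg, neg_neg, smul_smul, pow_two])
  subst hv0
  have hu0 : u = 0 := i₁ u hu (by
    rw [map_zero, map_zero, add_zero] at c2
    rw [c3, c2, smul_zero, neg_zero])
  subst hu0
  exact hy0 (by rw [map_zero, map_zero, add_zero])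

end Crest.Agent.T15.Twi
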