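import Crest.Agent.T15.Cheb_25
import Crest.Agent.R018.FDE_389

/-!
# Row 15: Chebotarev for an infinite Galois extension of `ℚ`
-/

set_option autoImplicit false

noncomputable section

namespace Crest.Agent.T15.Cheb

open NumberField Ideal
open Crest.Agent.R018.Placesx484 Crest.Agent.R018.FDEx389

/-- uniqueness of the Frobenius at an unramified prime -/
theorem frob_unique {K : Type*} [Field K] [NumberField K] {p : ℕ} (hp : p.Prime)
    (hd : ¬ (p : ℤ) ∣ discr K) {Q : Ideal (𝓞 K)} (hQ : Q.IsPrime) (hpQ : (p : 𝓞 K) ∈ Q)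
    {σ τ : K ≃ₐ[ℚ] K} (hσ : ∀ x : 𝓞 K, σ • x - x ^ p ∈ Q) (hτ : ∀ x : 𝓞 K, τ • x - x ^ p ∈ Q) :
    σ = τ := by
  have hpZ : Prime (p : ℤ) := Nat.prime_iff_prime_int.mp hp
  have hunr : Algebra.IsUnramifiedAt ℤ Q :=
    (not_dvd_discr_iff_forall_mem K (𝓞 K) hpZ).mp hd Q hQ (by exact_mod_cast hpQ)
  have hover : Q.LiesOver (span {(p : ℤ)}) :=
    (liesOver_span_iff hQ.ne_top hpZ).mpr (by exact_mod_cast hpQ)
  have hcard : Nat.card (ℤ ⧸ Q.under ℤ) = p := by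
    rw [← hover.over, Nat.card_congr (Int.quotientSpanNatEquivZMod p).toEquiv, Nat.card_zmod]
  have h1 : (MulSemiringAction.toAlgHom ℤ (𝓞 K) σ).IsArithFrobAt Q := fun x => hcard ▸ hσ x
  have h2 : (MulSemiringAction.toAlgHom ℤ (𝓞 K) τ).IsArithFrobAt Q := fun x => hcard ▸ hτ x
  have h3 := h1.eq_of_isUnramifiedAt h2 Q.primeCompl_le_nonZeroDivisors
  refine AlgEquiv.ext fun x => ?_
  obtain ⟨a, b, -, rfl⟩ := IsFractionRing.div_surjective (A := 𝓞 K) x
  have h4 : ∀ y : 𝓞 K, σ (algebraMap _ K y) = τ (algebraMap _ K y) := fun y =>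
    congrArg (fun z : 𝓞 K => (z : K)) (DFunLike.congr_fun h3 y)
  rw [map_div₀, map_div₀, h4, h4]

variable {E : Type} [Field E] [CharZero E] [IsGalois ℚ E]

/-- **Chebotarev**, profinite form: a place unramified modulo `N` all of whose Frobenius lifts
are congruent to `s` modulo `N`. -/
theorem cheb_place (N : Subgroup (E ≃ₐ[ℚ] E)) [N.Normal] (ho : IsOpen (N : Set (E ≃ₐ[ℚ] E)))
    (s : E ≃ₐ[ℚ] E) (B : ℕ) : ∃ P : Place E, B < P.rchar ∧ P.ideal.inertia (E ≃ₐ[ℚ] E) ≤ N ∧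
      ∀ φ : E ≃ₐ[ℚ] E, (∀ x : 𝓞 E, φ • x - x ^ P.rchar ∈ P.ideal) → s⁻¹ * φ ∈ N := by
  obtain ⟨hfix, hfin, hgal⟩ := fixedField_facts N ho
  set K := IntermediateField.fixedField N with hK
  have : NumberField K := { to_charZero := inferInstance, to_finiteDimensional := hfin }
  let r : (E ≃ₐ[ℚ] E) →* Gal(K/ℚ) := AlgEquiv.restrictNormalHom K
  obtain ⟨p, hp, hpB, P, hP, hmem, hd, -, -, hσ⟩ := cheb_rel (r s) B
  have hP0 : P ≠ ⊥ := fun h0 => by
    rw [h0, mem_bot] at hmem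
    exact hp.ne_zero (by exact_mod_cast hmem)
  obtain ⟨Q, hQ⟩ := Place.exists_res_eq (E := E) K (⟨P, hP.isPrime, hP0⟩ : Place K)
  have hQP : Q.ideal.comap (algebraMap (𝓞 K) (𝓞 E)) = P := congrArg Place.ideal hQ
  have hQp : Q.rchar = p := by
    rw [← Place.rchar_res K Q, hQ]
    exact Place.rchar_eq_of_mem _ hp hmem
  have hr : ∀ (f : E ≃ₐ[ℚ] E) (x : 𝓞 K),
      algebraMap (𝓞 K) (𝓞 E) (r f • x) = f • algebraMap (𝓞 K) (𝓞 E) x := fun f x => by
    apply RingOfIntegers.coe_injective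
    exact AlgEquiv.restrictNormal_commutes f K (x : K)
  have hker : ∀ f : E ≃ₐ[ℚ] E, r f = 1 → f ∈ N := by
    intro f hf
    rw [← hfix, IntermediateField.mem_fixingSubgroup_iff]
    intro x hx
    have h1 : ((r f ⟨x, hx⟩ : K) : E) = f x := AlgEquiv.restrictNormal_commutes f K ⟨x, hx⟩
    rw [← h1, hf]
    rfl
  refine ⟨Q, hQp ▸ hpB, fun g hg => hker g ?_, fun φ hφ => hker _ ?_⟩
  · have h1 : r g * r s = r s := frob_unique hp hd hP.isPrime hmem (fun x => by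
      have h2 : r g • (r s • x) - r s • x ∈ P := by
        rw [← hQP, mem_comap, map_sub, hr g]
        exact hg _
      have h3 := P.add_mem h2 (hσ x)
      rwa [sub_add_sub_cancel, ← mul_smul] at h3) hσ
    exact mul_eq_right.1 h1
  · have h1 : r φ = r s := frob_unique hp hd hP.isPrime hmem (fun x => by
      rw [← hQP, mem_comap, map_sub, map_pow, hr, ← hQp]
      exact hφ _) hσ
    rw [map_mul, map_inv, h1, inv_mul_cancel]

/-- **Chebotarev**, profinite form with a Frobenius lift. -/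
theorem cheb_inf (N : Subgroup (E ≃ₐ[ℚ] E)) [N.Normal] (ho : IsOpen (N : Set (E ≃ₐ[ℚ] E)))
    (s : E ≃ₐ[ℚ] E) (B : ℕ) : ∃ (P : Place E) (φ : E ≃ₐ[ℚ] E), B < P.rchar ∧ φ • P = P ∧
      (∀ x : 𝓞 E, φ • x - x ^ P.rchar ∈ P.ideal) ∧ P.ideal.inertia (E ≃ₐ[ℚ] E) ≤ N ∧
      s⁻¹ * φ ∈ N := by
  obtain ⟨P, h1, h2, h3⟩ := cheb_place N ho s B
  obtain ⟨φ, h4, h5⟩ := exists_frobQ P
  exact ⟨P, φ, h1, h4, h5, h2, h3 φ h5⟩

/-- Frobenius elements at large primes are dense. -/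
theorem dense_frob (B : ℕ) : Dense {φ : E ≃ₐ[ℚ] E | ∃ P : Place E, B < P.rchar ∧
    ∀ x : 𝓞 E, φ • x - x ^ P.rchar ∈ P.ideal} := by
  rw [dense_iff_inter_open]
  rintro U hU ⟨s, hs⟩
  have h1 : (fun g => s * g) ⁻¹' U ∈ nhds (1 : E ≃ₐ[ℚ] E) :=
    (hU.preimage (continuous_const.mul continuous_id)).mem_nhds (by simpa using hs)
  obtain ⟨N, hN⟩ := ProfiniteGrp.exist_openNormalSubgroup_sub_open_nhds_of_one
    (isOpen_interior (s := (fun g => s * g) ⁻¹' U)) (mem_interior_iff_mem_nhds.2 h1)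
  obtain ⟨P, φ, h2, -, h3, -, h4⟩ := cheb_inf N.toSubgroup N.isOpen s B
  refine ⟨φ, ?_, P, h2, h3⟩
  simpa using interior_subset (hN h4)

omit [IsGalois ℚ E] in
theorem res_rat_eq {P Q : Place E} (h : P.rchar = Q.rchar) : P.res ℚ = Q.res ℚ := by
  have key : ∀ R : Place ℚ, R.ideal = span {(R.rchar : 𝓞 ℚ)} := fun R => by
    have hp : Prime (R.rchar : 𝓞 ℚ) := by
      have := (MulEquiv.prime_iff Rat.ringOfIntegersEquiv.symm).2
        (Nat.prime_iff_prime_int.1 R.rchar_prime)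
      rwa [map_natCast] at this
    exact ((((span_singleton_prime hp.ne_zero).2 hp).isMaximal (by simpa using hp.ne_zero)).eq_of_le
      R.isPrime.ne_top ((span_singleton_le_iff_mem _).2 R.rchar_mem)).symm
  exact Place.ext (by rw [key, key, Place.rchar_res, Place.rchar_res, h])

/-- places with the same residue characteristic are conjugate -/
theorem exists_smul_eq {P Q : Place E} (h : P.rchar = Q.rchar) : ∃ g : E ≃ₐ[ℚ] E, g • P = Q :=
  Place.exists_smul_eq_of_res_eq P Q (res_rat_eq h)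

omit [IsGalois ℚ E] in
theorem frob_conj {P : Place E} {q : ℕ} {φ : E ≃ₐ[ℚ] E} (h : ∀ x : 𝓞 E, φ • x - x ^ q ∈ P.ideal)
    (g : E ≃ₐ[ℚ] E) (x : 𝓞 E) : (g * φ * g⁻¹) • x - x ^ q ∈ (g • P).ideal := by
  rw [Place.mem_smul_ideal, smul_sub, smul_pow', mul_smul, mul_smul, inv_smul_smul]
  exact h _


end Crest.Agent.T15.Cheb
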