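import Crest.Agent.R018.FDAdapt_389
import Crest.Agent.T15.ChebG_25
import Crest.Agent.T15.Ps_28

/-!
# Row 15, block C (class field theory): words, outputs `TWStmt`, `ModStmt`, and the leaves
-/

set_option autoImplicit false

noncomputable section

namespace Crest.Agent.T15.C

open NumberField Module MulAction Crest.Agent.R018.Placesx484 Crest.Agent.T15.Ps
open scoped MatrixGroups UpperHalfPlane

/-- the algebraic numbers -/
abbrev Om : Type := AlgebraicClosure ℚ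

/-- the absolute Galois group of `ℚ` -/
abbrev Gam : Type := Om ≃ₐ[ℚ] Om

/-- inertia group of a place -/
abbrev In (P : Place Om) : Subgroup Gam := P.ideal.inertia Gam

/-- decomposition group of a place -/
abbrev De (P : Place Om) : Subgroup Gam := stabilizer Gam P

/-- `s` acts as `x ↦ x ^ q` on the residue field of `P` -/
def IsFr (P : Place Om) (q : ℕ) (s : Gam) : Prop := ∀ x : 𝓞 Om, s • x - x ^ q ∈ P.ideal

theorem exists_om : ∃ z : Om, IsPrimitiveRoot z 3 := by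
  have : NeZero ((3 : ℕ) : Om) := ⟨by norm_num⟩
  exact HasEnoughRootsOfUnity.exists_primitiveRoot Om 3

/-- a fixed primitive cube root of unity -/
def om : Om := exists_om.choose

theorem om_spec : IsPrimitiveRoot om 3 := exists_om.choose_spec

/-- a fixed cube root -/
def rt (u : Om) : Om := (IsAlgClosed.exists_pow_nat_eq u three_pos).choose

theorem rt_spec (u : Om) : rt u ^ 3 = u := (IsAlgClosed.exists_pow_nat_eq u three_pos).choose_spec

open Classical in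
/-- the cubic Kummer pairing, with values in a ring of characteristic three -/
def kum (R : Type*) [Ring R] (g : Gam) (u : Om) : R :=
  if g (rt u) = rt u then 0 else if g (rt u) = om * rt u then 1 else -1

section TW

variable {k : Type} [Field k]

open Classical in
/-- the hypotheses on the residual representation -/
structure Hyp (ρ : Gam →* M2 k) : Prop where
  opn : IsOpen (ρ.ker : Set Gam)
  idx : ¬ 3 ∣ ρ.ker.index
  det : ∀ g, (ρ g).det = if g om = om then 1 else -1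
  span : Submodule.span k (ρ '' {g | g om = om}) = ⊤

/-- a continuous equivariant homomorphism `ker ρ → ad⁰ ρ` (values off `ker ρ` are ignored) -/
structure Cls (ρ : Gam →* M2 k) (c : Gam → M2 k) : Prop where
  add : ∀ n n', ρ n = 1 → ρ n' = 1 → c (n * n') = c n + c n'
  conj : ∀ g n, ρ n = 1 → c (g * n * g⁻¹) = ρ g * c n * ρ g⁻¹
  tr : ∀ n, ρ n = 1 → (c n).trace = 0
  opn : ∃ U : Subgroup Gam, IsOpen (U : Set Gam) ∧ ∀ n ∈ U, ρ n = 1 → c n = 0

/-- `c` vanishes on `D ∩ ker ρ` -/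
def Triv (ρ : Gam →* M2 k) (c : Gam → M2 k) (D : Subgroup Gam) : Prop :=
  ∀ n ∈ D, ρ n = 1 → c n = 0

/-- the invariants of `D` in `ad⁰ ρ` -/
def Winv (ρ : Gam →* M2 k) (D : Subgroup Gam) : Submodule k (M2 k) where
  carrier := {w | w.trace = 0 ∧ ∀ d ∈ D, ρ d * w = w * ρ d}
  add_mem' := by
    rintro a b ⟨h1, h2⟩ ⟨h3, h4⟩
    exact ⟨by rw [Matrix.trace_add, h1, h3, add_zero],
      fun d hd => by rw [mul_add, add_mul, h2 d hd, h4 d hd]⟩
  zero_mem' := ⟨by simp, fun d _ => by simp⟩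
  smul_mem' := by
    rintro c a ⟨h1, h2⟩
    exact ⟨by rw [Matrix.trace_smul, h1, smul_zero],
      fun d hd => by rw [mul_smul_comm, smul_mul_assoc, h2 d hd]⟩

/-- the `M`-units of the fixed field of `N` -/
def UM (N : Subgroup Gam) (M : ℕ) : Subgroup Omˣ where
  carrier := {u | (∀ n ∈ N, n (u : Om) = u) ∧ ∀ P : Place Om, ¬ P.rchar ∣ M → P.v (u : Om) = 1}
  one_mem' := ⟨fun n _ => by simp, fun P _ => by simp⟩
  mul_mem' := by
    rintro a b ⟨h1, h2⟩ ⟨h3, h4⟩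
    exact ⟨fun n hn => by rw [Units.val_mul, map_mul, h1 n hn, h3 n hn],
      fun P hP => by rw [Units.val_mul, map_mul, h2 P hP, h4 P hP, one_mul]⟩
  inv_mem' := by
    rintro a ⟨h1, h2⟩
    exact ⟨fun n hn => by rw [Units.val_inv_eq_inv_val, map_inv₀, h1 n hn],
      fun P hP => by rw [Units.val_inv_eq_inv_val, map_inv₀, h2 P hP, inv_one]⟩

/-- equivariant homomorphisms from the `M`-units to `ad⁰ ρ` (extended by zero) -/
def YS (ρ : Gam →* M2 k) (M : ℕ) : Submodule k (Omˣ → M2 k) where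
  carrier := {f | (∀ u, u ∉ UM ρ.ker M → f u = 0) ∧ (∀ u, (f u).trace = 0) ∧
    (∀ u ∈ UM ρ.ker M, ∀ v ∈ UM ρ.ker M, f (u * v) = f u + f v) ∧
    ∀ (g : Gam), ∀ u ∈ UM ρ.ker M, f (g • u) = ρ g * f u * ρ g⁻¹}
  add_mem' := by
    rintro a b ⟨h1, h2, h3, h4⟩ ⟨h5, h6, h7, h8⟩
    refine ⟨fun u hu => by simp [h1 u hu, h5 u hu], fun u => by simp [h2 u, h6 u],
      fun u hu v hv => ?_, fun g u hu => ?_⟩
    · simp only [Pi.add_apply, h3 u hu v hv, h7 u hu v hv]; abel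
    · simp only [Pi.add_apply, h4 g u hu, h8 g u hu, mul_add, add_mul]
  zero_mem' := ⟨fun _ _ => rfl, fun _ => by simp, fun _ _ _ _ => by simp, fun _ _ _ => by simp⟩
  smul_mem' := by
    rintro c a ⟨h1, h2, h3, h4⟩
    refine ⟨fun u hu => by simp [h1 u hu], fun u => by simp [h2 u],
      fun u hu v hv => ?_, fun g u hu => ?_⟩
    · simp only [Pi.smul_apply, h3 u hu v hv, smul_add]
    · simp only [Pi.smul_apply, h4 g u hu, mul_smul_comm, smul_mul_assoc]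

/-- the homomorphism on units attached to a Frobenius `s` and an `s`-invariant `w` -/
def av (ρ : Gam →* M2 k) (s : Gam) (w : M2 k) (u : Om) : M2 k :=
  ∑ᶠ g : Gam ⧸ ρ.ker, kum k (s ^ ρ.ker.index) (g.out⁻¹ u) • (ρ g.out * w * ρ g.out⁻¹)

/-- a Taylor-Wiles datum at the prime `q` -/
structure TWq (ρ : Gam →* M2 k) (q : ℕ) (P : Place Om) (s : Gam) : Prop where
  prime : q.Prime
  three : 3 ∣ q - 1
  rchar : P.rchar = q
  fr : IsFr P q s
  unr : In P ≤ ρ.ker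
  disc : (ρ s).trace ^ 2 ≠ 4 * (ρ s).det

/-- the maps `av` at the primes of `Q` are independent on the `M`-units -/
def Indep (ρ : Gam →* M2 k) (M : ℕ) (Q : Finset ℕ) (s : ℕ → Gam) : Prop :=
  ∀ w : ℕ → M2 k, (∀ q ∈ Q, (w q).trace = 0 ∧ ρ (s q) * w q = w q * ρ (s q)) →
    (∀ u ∈ UM ρ.ker M, ∑ q ∈ Q, av ρ (s q) (w q) (u : Om) = 0) → ∀ q ∈ Q, w q = 0

end TW

/-- **Output TW**: Taylor-Wiles primes and the Selmer bound. -/
def TWStmt : Prop :=
  ∀ (k : Type) [Field k] [Finite k] [CharP k 3] (ρ : Gam →* M2 k), Hyp ρ →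
    ∃ r : ℕ, ∀ n B : ℕ, ∃ Q : Finset ℕ, Q.card = r ∧
      (∀ q ∈ Q, q.Prime ∧ B < q ∧ 3 ^ n ∣ q - 1 ∧ ∀ P : Place Om, P.rchar = q → In P ≤ ρ.ker ∧
        ∀ s, IsFr P q s → (ρ s).trace ^ 2 ≠ 4 * (ρ s).det) ∧
      ∀ (V : Type) [AddCommGroup V] [Module k V] (c : V →ₗ[k] (Gam → M2 k)) (P₃ : Place Om),
        P₃.rchar = 3 → (∀ v, Cls ρ (c v)) → (∀ v, Triv ρ (c v) ⊤ → v = 0) →
        (∀ v (P : Place Om), P.rchar ≠ 3 → P.rchar ∉ Q → Triv ρ (c v) (In P)) →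
        (∀ v, Triv ρ (c v) (De P₃)) → Module.Finite k V ∧ finrank k V + 1 ≤ r

/-- leaf EQ (equivariant unit theorem, lower bound) -/
def EqStmt : Prop :=
  ∀ (k : Type) [Field k] [Finite k] [CharP k 3] (ρ : Gam →* M2 k), Hyp ρ →
    ∀ (M : ℕ) (P : ℕ → Place Om), M ≠ 0 → (∀ l ∈ M.primeFactors, (P l).rchar = l) →
      Module.Finite k (YS ρ M) ∧
      1 + ∑ l ∈ M.primeFactors, finrank k (Winv ρ (De (P l))) ≤ finrank k (YS ρ M)

/-- leaf SEL (choice of the primes) -/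
def SelStmt : Prop :=
  ∀ (k : Type) [Field k] [Finite k] [CharP k 3] (ρ : Gam →* M2 k), Hyp ρ →
    ∀ M : ℕ, M ≠ 0 → Module.Finite k (YS ρ M) → ∀ n B : ℕ,
      ∃ (Q : Finset ℕ) (P : ℕ → Place Om) (s : ℕ → Gam), Q.card = finrank k (YS ρ M) ∧
        (∀ q ∈ Q, TWq ρ q (P q) (s q) ∧ B < q ∧ 3 ^ n ∣ q - 1) ∧ Indep ρ M Q s

/-- leaf UNR (unramified classes are read at one element) -/
def UnrStmt : Prop :=
  ∀ (k : Type) [Field k] (ρ : Gam →* M2 k), IsOpen (ρ.ker : Set Gam) → ∀ P : Place Om,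
    ∃ f : Gam, ∀ c, Cls ρ c → Triv ρ c (In P) →
      c f ∈ Winv ρ (De P) ∧ (c f = 0 → Triv ρ c (De P))


/-- leaf ZERO (reciprocity) -/
def ZeroStmt : Prop :=
  ∀ (k : Type) [Field k] [Finite k] [CharP k 3] (ρ : Gam →* M2 k), Hyp ρ →
    ∃ M : ℕ, M ≠ 0 ∧ 3 ∣ M ∧ ∀ (Q : Finset ℕ) (P : ℕ → Place Om) (s : ℕ → Gam),
      (∀ q ∈ Q, TWq ρ q (P q) (s q) ∧ M < q) → Indep ρ M Q s → ∀ c, Cls ρ c →
      (∀ P : Place Om, P.rchar ∣ M → Triv ρ c (De P)) →
      (∀ P : Place Om, P.rchar ∉ Q → Triv ρ c (In P)) → Triv ρ c ⊤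

/-- `a` is the sequence of Fourier coefficients of a normalised cusp form of weight two on `Γ₀(N)`
which is an eigenform of the `T_l`, `l ∤ N` -/
def IsEig (N : ℕ) (a : ℕ → ℂ) : Prop :=
  (∃ f : CuspForm (CongruenceSubgroup.Gamma0 N) 2, ∀ z : ℍ,
    HasSum (fun n : ℕ => a n * Complex.exp (2 * Real.pi * Complex.I * n * z)) (f z)) ∧
  a 0 = 0 ∧ a 1 = 1 ∧ ∀ l : ℕ, l.Prime → ¬ l ∣ N → ∀ n : ℕ,
    a (l * n) + (if l ∣ n then (l : ℂ) * a (n / l) else 0) = a l * a n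

open Classical in
/-- a dihedral representation in monomial form, induced from `ℚ(δ)`, `δ² = -d`, unramified outside
`3 S`, given by the fundamental character of level two on the inertia group at the kernel of `red` -/
structure Dih {k : Type} [Field k] (ρ : Gam →* M2 k) (red : 𝓞 Om →+* k) (S : Finset ℕ) (d : ℕ)
    (δ : Om) : Prop where
  prime : ∀ l ∈ S, l.Prime
  two : 2 ∈ S
  three : 3 ∉ S
  dvd : d ∣ ∏ l ∈ S, l
  mod : d % 3 = 1
  sq : δ ^ 2 = -(d : Om)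
  opn : IsOpen (ρ.ker : Set Gam)
  diag : ∀ g : Gam, g δ = δ → ρ g 0 1 = 0 ∧ ρ g 1 0 = 0 ∧ ρ g 0 0 ^ 8 = 1
  anti : ∀ g : Gam, g δ ≠ δ → ρ g 0 0 = 0 ∧ ρ g 1 1 = 0
  det : ∀ g, (ρ g).det = if g om = om then 1 else -1
  unr : ∀ P : Place Om, P.rchar ≠ 3 → P.rchar ∉ S → In P ≤ ρ.ker
  red3 : red 3 = 0
  fund : ∀ t ∈ (RingHom.ker red).inertia Gam, ∀ (y : Om) (z : 𝓞 Om), y ^ 8 = 3 → t y = z * y →
    ρ t 0 0 = red z

/-- **Output MOD**: the residual representation comes from a theta series, whose `3`-adic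
representation exists at every finite level and is minimally ramified. -/
def ModStmt : Prop :=
  ∃ e : ℕ, ∀ (k : Type) [Field k] (ρ : Gam →* M2 k) (red : 𝓞 Om →+* k) (S : Finset ℕ) (d : ℕ)
    (δ : Om), Dih ρ red S d δ →
    ∃ (N : ℕ) (R : Subring (𝓞 Om)) (a : ℕ → R), N ∣ (∏ l ∈ S, l) ^ e ∧ Module.Finite ℤ R ∧
      (∀ ι : Om →+* ℂ, IsEig N fun n => ι ((a n : 𝓞 Om) : Om)) ∧
      (∀ (P : Place Om) (s : Gam), P.rchar ≠ 3 → P.rchar ∉ S → IsFr P P.rchar s →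
        red (a P.rchar) = (ρ s).trace) ∧
      ∀ (A : Type) [CommRing A] [Finite A] (π : R →+* A),
        (∀ x : R, red x = 0 → IsNilpotent (π x)) →
        ∃ σ : Gam →* M2 A, IsOpen (σ.ker : Set Gam) ∧
          (∀ P : Place Om, P.rchar ≠ 3 → In P ⊓ ρ.ker ≤ σ.ker) ∧
          ∀ (P : Place Om) (s : Gam), P.rchar ≠ 3 → P.rchar ∉ S → IsFr P P.rchar s →
            (σ s).trace = π (a P.rchar) ∧ (σ s).det = P.rchar

end Crest.Agent.T15.C
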