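import Crest.Agent.T15.Top_88
import Crest.Agent.T15.Tan_28
import Crest.Agent.T15.CDef_7
import Crest.Agent.T15.FlR_23

/-!
# Row 15 (S0020): top chain, second layer (helper88)

`HStmt ⇐ FStmt, EmbStmt, BaseStmt, ModStmt, HtStmt`; `ModStmt` is the output of the blocks R, T, C, Fl.
The local data `X : Lc` at `3` and the predicate `Lk` (link between `y` and the traces) are
parameters.  Galois words are those of `CDef_7`.
-/

set_option autoImplicit false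

noncomputable section

namespace Crest.Agent.T15.Top

open NumberField IsLocalRing Matrix Crest.Agent.R018.Placesx484 Crest.Agent.T15.Ps
open Crest.Agent.T15.C (Om Gam In De om Hyp Cls Triv)
open scoped NNReal

/-! ## words -/

abbrev Plc : Type := Place Om

/-- arithmetic Frobenius at `P` -/
abbrev IsFr (P : Plc) (s : Gam) : Prop := C.IsFr P P.rchar s

/-- discriminant of the characteristic polynomial -/
def disc {R : Type*} [CommRing R] (A : M2 R) : R := A.trace ^ 2 - 4 * A.det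

/-- coefficient rings: complete discrete valuation rings of characteristic `0` with finite residue
field of characteristic `3` -/
class Coef (O : Type) [CommRing O] [IsDomain O] [IsDiscreteValuationRing O] : Prop where
  cz : CharZero O
  cpl : IsAdicComplete (maximalIdeal O) O
  fin : Finite (ResidueField O)
  h3 : (3 : O) ∈ maximalIdeal O

/-- `O / 3^n` -/
abbrev Cn (O : Type) [CommRing O] (n : ℕ) : Type := O ⧸ Ideal.span {(3 : O) ^ n}

/-- change of coefficients -/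
def mp {R S : Type*} [CommRing R] [CommRing S] (f : R →+* S) (ρ : Gam →* M2 R) : Gam →* M2 S :=
  f.mapMatrix.toMonoidHom.comp ρ

/-- the determinant is the `3`-adic cyclotomic character -/
def DetCyc {R : Type*} [CommRing R] (ρ : Gam →* M2 R) : Prop :=
  ∀ (g : Gam) (n a : ℕ) (ζ : Om), IsPrimitiveRoot ζ (3 ^ n) → g ζ = ζ ^ a →
    (ρ g).det - a ∈ Ideal.span {(3 : R) ^ n}

/-- unramified at the primes not dividing `N` -/
def Unr {M : Type*} [Monoid M] (ρ : Gam →* M) (N : ℕ) : Prop :=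
  ∀ P : Plc, ¬ P.rchar ∣ N → ∀ g ∈ In P, ρ g = 1

/-- `a l` is the trace of Frobenius at the primes `l ∤ N` -/
def IsTr {R : Type*} [CommRing R] (ρ : Gam →* M2 R) (N : ℕ) (a : ℕ → R) : Prop :=
  ∀ (P : Plc) (g : Gam), ¬ P.rchar ∣ N → IsFr P g → (ρ g).trace = a P.rchar

/-- open kernel -/
def Op {M : Type*} [Monoid M] (ρ : Gam →* M) : Prop := IsOpen {g : Gam | ρ g = 1}

/-- the system `a` of eigenvalues (at the primes `l ∤ 3N`) occurs in `S₂(Γ₀(N))` -/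
def Mod (N : ℕ) (a : ℕ → ℂ) : Prop :=
  ∃ f : CuspForm (CongruenceSubgroup.Gamma0 N) 2, f ≠ 0 ∧ ∀ l : ℕ, l.Prime → ¬ l ∣ 3 * N → ∀ n : ℕ,
    (UpperHalfPlane.qExpansion 1 f).coeff (l * n) +
      (if l ∣ n then (l : ℂ) * (UpperHalfPlane.qExpansion 1 f).coeff (n / l) else 0) =
      a l * (UpperHalfPlane.qExpansion 1 f).coeff n

/-- local data at `3`: a group `G` acting on a valued field, mapping onto the inertia group -/
structure Lc where
  P : Plc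
  h3 : P.rchar = 3
  Ω : Type
  [fld : Field Ω]
  [ac : IsAlgClosed Ω]
  [cz : CharZero Ω]
  w : Valuation Ω ℝ≥0
  G : Type
  [grp : Group G]
  [act : MulSemiringAction G Ω]
  r : G →* Gam
  hr : r.range = In P

attribute [instance] Lc.fld Lc.ac Lc.cz Lc.grp Lc.act

/-- flat at `3` -/
def Lc.Fl (X : Lc) {V : Type} [AddCommGroup V] (α : Gam → V → V) : Prop :=
  FlR.Flat X.w X.G fun g => α (X.r g)

theorem Lc.r_mem (X : Lc) (g : X.G) : X.r g ∈ In X.P := X.hr ▸ ⟨g, rfl⟩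

section clo
variable {X : Lc} {V V' : Type} [AddCommGroup V] [AddCommGroup V'] {α : Gam → V → V}
  {α' : Gam → V' → V'}

theorem Lc.Fl.sub [Finite V] (h : X.Fl α) (i : V' →+ V) (hi : Function.Injective i)
    (he : ∀ g ∈ In X.P, ∀ v, i (α' g v) = α g (i v)) : X.Fl α' :=
  FlR.Flat.sub h i hi fun g => he _ (X.r_mem g)

theorem Lc.Fl.quot (h : X.Fl α) (q : V →+ V') (hq : Function.Surjective q)
    (he : ∀ g ∈ In X.P, ∀ v, q (α g v) = α' g (q v)) : X.Fl α' :=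
  FlR.Flat.quot h q hq fun g => he _ (X.r_mem g)

theorem Lc.Fl.prod (h : X.Fl α) (h' : X.Fl α') :
    X.Fl fun g (v : V × V') => (α g v.1, α' g v.2) := FlR.Flat.prod h h'

theorem Lc.Fl.pi {ι : Type} [Finite ι] (h : X.Fl α) : X.Fl fun g (v : ι → V) i => α g (v i) :=
  FlR.flat_pi (W := fun _ => V) (ρ := fun _ g => α (X.r g)) fun _ => h

end clo

/-- type of the link predicate: `y`, the conductor support `N`, the traces -/
abbrev LkT : Type := ℚ → ℕ → (ℕ → ℂ) → Prop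

/-- what F delivers on the residual representation: coefficients `𝔽₃`, induced from `ℚ(i)` -/
structure Res0 {k : Type} [Field k] (ρ : Gam →* M2 k) (N : ℕ) : Prop where
  pos : 0 < N
  two : 2 ∣ N
  three : ¬ 3 ∣ N
  card : Nat.card k = 3
  op : Op ρ
  det : DetCyc ρ
  cm : ∃ (i : Om) (J : M2 k), i ^ 2 = -1 ∧ J * J = -1 ∧
    ∀ g : Gam, (g i = i → ρ g * J = J * ρ g) ∧ (g i ≠ i → ρ g * J = -(J * ρ g))
  unr : Unr ρ (3 * N)
  ram : ∀ P : Plc, P.rchar ∣ N → ∃ g ∈ In P, disc (ρ g) ≠ 0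

/-- the local condition at `3` used by `L3Stmt` -/
def Loc {k : Type} [Field k] (ρ : Gam →* M2 k) (P : Plc) : Prop :=
  (∀ s ∈ In P, ∀ t ∈ In P, ρ s * ρ t = ρ t * ρ s) ∧ ∀ s ∈ In P, ρ s ^ 4 = (ρ s).det • (1 : M2 k)

/-- hypotheses on the residual representation after the extension of scalars -/
structure Res {k : Type} [Field k] (ρ : Gam →* M2 k) (N : ℕ) : Prop where
  pos : 0 < N
  two : 2 ∣ N
  three : ¬ 3 ∣ N
  hyp : Hyp ρ
  split : ∀ g, ∃ a b : k, a + b = (ρ g).trace ∧ a * b = (ρ g).det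
  unr : Unr ρ (3 * N)
  ram : ∀ P : Plc, P.rchar ∣ N → ∃ g ∈ In P, disc (ρ g) ≠ 0
  loc : ∀ P : Plc, P.rchar = 3 → Loc ρ P

/-- the input of `C.ModI`, after an extension of scalars and a change of basis -/
def DihK {k : Type} [Field k] (ρ : Gam →* M2 k) (N : ℕ) : Prop :=
  (∀ g, (ρ g).trace ^ 3 = (ρ g).trace) ∧
  ∃ (K : Type) (_ : Field K) (f : k →+* K) (P : GL (Fin 2) K) (red : 𝓞 Om →+* K) (δ : Om),
    C.Dih (conj (mp f ρ) P) red N.primeFactors 1 δ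

/-- hypotheses on the lift -/
structure Lift (X : Lc) {O : Type} [CommRing O] [IsLocalRing O] (ρ : Gam →* M2 O) : Prop where
  op : ∀ n, Op (mp (Ideal.Quotient.mk (Ideal.span {(3 : O) ^ n})) ρ)
  det : DetCyc ρ
  min : ∀ P : Plc, P.rchar ≠ 3 → ∀ g ∈ In P, mp (residue O) ρ g = 1 → ρ g = 1
  flat : ∀ n, X.Fl fun g (v : Fin 2 → Cn O n) =>
    mp (Ideal.Quotient.mk (Ideal.span {(3 : O) ^ n})) ρ g *ᵥ v

/-! ## F, modularity, Ht -/

/-- BLOCK F -/
def FStmt (X : Lc) (Lk : LkT) (D : Nb) : Prop :=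
  ∃ (C : ℝ) (k : ℕ), ∀ (y : ℚ) (S : Finset ℕ), Side D y S →
    ∃ (O : Type) (_ : CommRing O) (_ : IsDomain O) (_ : IsDiscreteValuationRing O) (_ : Coef O)
      (N : ℕ) (ρ : Gam →* M2 O) (a : ℕ → O),
      Res0 (mp (residue O) ρ) N ∧ Lift X ρ ∧ IsTr ρ (3 * N) a ∧
        (N : ℝ) ≤ C * (∏ p ∈ S, (p : ℝ)) ^ k ∧ ∀ j : O →+* ℂ, Lk y N fun l => j (a l)

/-- leaf EMB -/
def EmbStmt : Prop :=
  ∀ (O : Type) [CommRing O] [IsDomain O] [IsDiscreteValuationRing O] [Coef O], Nonempty (O →+* ℂ)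

/-- leaf EXT: adjoin a square root of `-1` -/
def ExtStmt : Prop :=
  ∀ (O : Type) [CommRing O] [IsDomain O] [IsDiscreteValuationRing O] [Coef O],
    Nat.card (ResidueField O) = 3 →
    ∃ (O' : Type) (_ : CommRing O') (_ : IsDomain O') (_ : IsDiscreteValuationRing O') (_ : Coef O')
      (_ : Algebra O O') (_ : IsLocalHom (algebraMap O O')) (i : O'), i ^ 2 = -1 ∧
      Nonempty (Module.Basis (Fin 2) O O') ∧
      ∀ j : O →+* ℂ, ∃ j' : O' →+* ℂ, ∀ x, j' (algebraMap O O' x) = j x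

/-- leaf RES -/
def ResStmt : Prop :=
  ∀ (k k' : Type) [Field k] [Field k'] (f : k →+* k') (ρ : Gam →* M2 k) (N : ℕ), Res0 ρ N →
    (∃ i : k', i ^ 2 = -1) → Res (mp f ρ) N

/-- leaf FUND -/
def DihStmt (X : Lc) : Prop :=
  ∀ (k k' : Type) [Field k] [Field k'] (f : k →+* k') (ρ : Gam →* M2 k) (N : ℕ), Res0 ρ N →
    X.Fl (fun g (v : Fin 2 → k) => ρ g *ᵥ v) → DihK (mp f ρ) N

/-- extension of scalars (`⇐ ExtStmt, ResStmt, DihStmt`) -/
def BaseStmt (X : Lc) : Prop :=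
  ∀ (O : Type) [CommRing O] [IsDomain O] [IsDiscreteValuationRing O] [Coef O] (N : ℕ)
    (ρ : Gam →* M2 O), Res0 (mp (residue O) ρ) N → Lift X ρ →
    ∃ (O' : Type) (_ : CommRing O') (_ : IsDomain O') (_ : IsDiscreteValuationRing O') (_ : Coef O')
      (f : O →+* O'), (∃ i : O', i ^ 2 = -1) ∧ Res (mp (residue O') (mp f ρ)) N ∧
      DihK (mp (residue O') (mp f ρ)) N ∧ Lift X (mp f ρ) ∧ ∀ j : O →+* ℂ, ∃ j' : O' →+* ℂ, ∀ x, j' (f x) = j x

/-- modularity with a polynomial bound for the level -/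
def ModStmt (X : Lc) : Prop :=
  ∃ (C : ℝ) (k : ℕ), ∀ (O : Type) [CommRing O] [IsDomain O] [IsDiscreteValuationRing O] [Coef O]
    (N : ℕ) (ρ : Gam →* M2 O) (a : ℕ → O), (∃ i : O, i ^ 2 = -1) → Res (mp (residue O) ρ) N →
    DihK (mp (residue O) ρ) N → Lift X ρ → IsTr ρ (3 * N) a →
    ∃ N' : ℕ, 0 < N' ∧ (N' : ℝ) ≤ C * (N : ℝ) ^ k ∧ N ∣ N' ∧ (∀ l : ℕ, l.Prime → l ∣ N' → l ∣ N) ∧
      ∀ j : O →+* ℂ, Mod N' fun l => j (a l)

/-- BLOCK Ht -/
def HtStmt (Lk : LkT) : Prop :=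
  ∃ (C : ℝ) (k : ℕ), ∀ (y : ℚ) (N N' : ℕ) (a : ℕ → ℂ), Lk y N a → 0 < N' → N ∣ N' →
    (∀ l : ℕ, l.Prime → l ∣ N' → l ∣ N) → (∀ s : ℂ ≃+* ℂ, Mod N' fun l => s (a l)) →
    Height.logHeight₁ y ≤ C * (N' : ℝ) ^ k

theorem trace_mp {R S : Type*} [CommRing R] [CommRing S] (f : R →+* S) (ρ : Gam →* M2 R) (g : Gam) :
    (mp f ρ g).trace = f (ρ g).trace := by
  simp [mp, trace_fin_two]

theorem IsTr.mp {R S : Type*} [CommRing R] [CommRing S] {ρ : Gam →* M2 R} {N : ℕ} {a : ℕ → R}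
    (h : IsTr ρ N a) (f : R →+* S) : IsTr (mp f ρ) N fun l => f (a l) := fun P g hP hg => by
  rw [trace_mp, h P g hP hg]

theorem h_of {X : Lc} {Lk : LkT} {D : Nb} (hF : FStmt X Lk D) (hE : EmbStmt) (hB : BaseStmt X)
    (hM : ModStmt X) (hH : HtStmt Lk) : HStmt := by
  obtain ⟨C1, k1, hF⟩ := hF
  obtain ⟨C2, k2, hM⟩ := hM
  obtain ⟨C3, k3, hH⟩ := hH
  refine ⟨D, |C3| * (|C2| * |C1| ^ k2) ^ k3, k1 * k2 * k3, fun y S hS => ?_⟩
  obtain ⟨O, _, _, _, _, N, ρ, a, hR, hl, hT, hN, hL⟩ := hF y S hS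
  obtain ⟨j⟩ := hE O
  obtain ⟨O', _, _, _, _, f, hi, hR', hD', hl', hj⟩ := hB O N ρ hR hl
  obtain ⟨N', h0, hN', hd, hp, hm⟩ := hM O' N (mp f ρ) _ hi hR' hD' hl' (hT.mp f)
  have h1 := hH y N N' _ (hL j) h0 hd hp fun s => by
    obtain ⟨j', hj'⟩ := hj ((s : ℂ →+* ℂ).comp j)
    simpa [hj'] using hm j'
  set R : ℝ := ∏ p ∈ S, (p : ℝ)
  have hR0 : 0 ≤ R := Finset.prod_nonneg fun p _ => Nat.cast_nonneg p
  have e1 : (N : ℝ) ≤ |C1| * R ^ k1 := hN.trans (by gcongr; exact le_abs_self _)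
  have e2 : (N' : ℝ) ≤ |C2| * (|C1| * R ^ k1) ^ k2 :=
    hN'.trans ((by gcongr; exact le_abs_self _ : C2 * (N : ℝ) ^ k2 ≤ |C2| * (N : ℝ) ^ k2).trans
      (by gcongr))
  calc Height.logHeight₁ y ≤ |C3| * (N' : ℝ) ^ k3 := h1.trans (by gcongr; exact le_abs_self _)
    _ ≤ |C3| * (|C2| * (|C1| * R ^ k1) ^ k2) ^ k3 := by gcongr
    _ = _ := by rw [pow_mul, pow_mul]; ring

/-! ## Fl and C -/

/-- BLOCK Fl: the flat local tangent space has dimension at most one -/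
def L3Stmt (X : Lc) : Prop :=
  ∀ (k : Type) [Field k] [Finite k] [CharP k 3] (ρ : Gam →* M2 k), Hyp ρ → Loc ρ X.P →
    ∀ (W : Type) [AddCommGroup W] [Finite W] (τ : Gam →* AddMonoid.End W), (∀ x : W, 3 • x = 0) →
      X.Fl (fun g x => τ g x) →
      ∀ (V : Type) [AddCommGroup V] [Module k V] (c : V →ₗ[k] (Gam → M2 k)), (∀ v, Cls ρ (c v)) →
        (∀ g ∈ In X.P, τ g = 1 → ρ g = 1 ∧ ∀ v, c v g = 0) →
        ∃ l : V →ₗ[k] k, ∀ v, l v = 0 → Triv ρ (c v) (De X.P)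



/-- the theta series in the words of this file (`⇐ C.ModI`) -/
def ThetaStmt : Prop :=
  ∃ e : ℕ, ∀ (k : Type) [Field k] (ρ : Gam →* M2 k) (N : ℕ), 0 < N → DihK ρ N →
    ∃ (N' : ℕ) (θ : ℕ → ℤ), 0 < N' ∧ N' ≤ N ^ e ∧ 16 ∣ N' ∧ N ∣ N' ∧
      (∀ l : ℕ, l.Prime → l ∣ N' → l ∣ N) ∧ C.IsEig N' (fun n => (θ n : ℂ)) ∧
      IsTr ρ (3 * N) (fun l => (θ l : k)) ∧
      ∀ (A : Type) [CommRing A] [Finite A] (i : A), i ^ 2 = -1 → IsNilpotent (3 : A) →
        ∃ σ : Gam →* M2 A, Op σ ∧ IsTr σ (3 * N) (fun l => (θ l : A)) ∧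
          ∀ P : Plc, P.rchar ≠ 3 → ∀ g ∈ In P, ρ g = 1 → σ g = 1

/-- `O / 3^n → O' / 3^n` -/
def cnMap (O O' : Type) [CommRing O] [CommRing O'] [Algebra O O'] (n : ℕ) : Cn O n →+* Cn O' n :=
  Ideal.quotientMap _ (algebraMap O O') (by
    rw [Ideal.span_le, Set.singleton_subset_iff]
    simp only [SetLike.mem_coe, Ideal.mem_comap, map_pow, map_ofNat]
    exact Ideal.subset_span rfl)

/-- bridge BASE -/
def BGlue (X : Lc) : Prop := ExtStmt → ResStmt → DihStmt X → BaseStmt X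

theorem top {X : Lc} {Lk : LkT} {D : Nb} (hL : LGlue) (hQ : QStmt) (hF : FStmt X Lk D)
    (hHt : HtStmt Lk) (hE : EmbStmt) (hB : BaseStmt X) (hM : ModStmt X) :
    ¬ ComputablePred Crest.NumberTheoryR.PolyCode.HasRatZero :=
  goal_of hL hQ (h_of hF hE hB hM hHt)

end Crest.Agent.T15.Top
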