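import Crest.Agent.T15.Fl3Def_75
import Crest.Agent.T15.TopH_88

-- ▼ part T15/Fl3_75
section

/-!
# Row 15, block Fl: existence of the local data `Loc3` (helper75)
-/

set_option autoImplicit false

noncomputable section

namespace Crest.Agent.T15.Fl

open NumberField MulAction Cardinal
open scoped NNReal
open Crest.Agent.R018.Placesx484 Crest.Agent.T15.Cg

namespace Set3

variable {E : Type} [Field E] [CharZero E] [IsGalois ℚ E] (P : Place E)

/-- the closure of `ℚ` in the completion -/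
def K0 : Subfield (CP P) := (Rat.castHom (CP P)).fieldRange.topologicalClosure

lemma mem_K0 {a : CP P} : a ∈ K0 P ↔ a ∈ closure (Set.range (Rat.cast : ℚ → CP P)) := Iff.rfl


instance : CompleteSpace (K0 P) :=
  (Subfield.isClosed_topologicalClosure _).completeSpace_coe

instance : NontriviallyNormedField (K0 P) where
  non_trivial := ⟨((P.rchar : ℕ) : K0 P)⁻¹, by
    change 1 < ‖((P.rchar : ℕ) : CP P)⁻¹‖
    rw [← map_natCast (emb P), ← map_inv₀, norm_emb, map_inv₀, av_rchar, inv_inv]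
    exact_mod_cast P.rchar_prime.one_lt⟩

instance : IsUltrametricDist (K0 P) :=
  IsUltrametricDist.isUltrametricDist_of_forall_norm_add_le_max_norm fun x y =>
    IsUltrametricDist.norm_add_le_max (x : CP P) (y : CP P)

/-- the algebraic closure of `K0` in the completion -/
abbrev Om0 : IntermediateField (K0 P) (CP P) := algebraicClosure (K0 P) (CP P)

lemma emb_mem (x : E) : emb P x ∈ Om0 P := by
  rw [mem_algebraicClosure_iff]
  have h : IsAlgebraic ℚ (emb P x) :=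
    (Algebra.IsAlgebraic.isAlgebraic (R := ℚ) x).algHom (emb P).toRatAlgHom
  exact h.ringHom_of_comp_eq (algebraMap ℚ (K0 P)) (RingHom.id _) (RingHom.injective _)
    (RingHom.ext_rat _ _)

lemma mk_Om0 : #(Om0 P) = 𝔠 := by
  refine le_antisymm ((mk_subtype_le _).trans (mk_CP P).le) ?_
  exact (continuum_le_cardinal_of_nontriviallyNormedField (K0 P)).trans
    (mk_le_of_injective (algebraMap (K0 P) (Om0 P)).injective)

lemma extC_K0 (g : stabilizer (E ≃ₐ[ℚ] E) P) {a : CP P} (ha : a ∈ K0 P) : extC P g a = a := by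
  refine closure_minimal (t := {a | extC P g a = a}) ?_
    (isClosed_eq (continuous_extC P g) continuous_id) ((mem_K0 P).1 ha)
  rintro _ ⟨q, rfl⟩
  exact map_ratCast _ q

variable [IsAlgClosed E] (ι : E →+* ℂ)

instance : IsAlgClosed (Om0 P) := IsAlgClosure.isAlgClosed (K0 P)

theorem exists_psi : ∃ ψ : Om0 P ≃+* ℂ, ∀ x, ψ ⟨emb P x, emb_mem P x⟩ = ι x := by
  obtain ⟨ψ⟩ := IsAlgClosed.ringEquiv_of_equiv_of_charZero (K := Om0 P) (L := ℂ)
    (by rw [mk_Om0]; exact aleph0_lt_continuum) (Cardinal.eq.1 (by rw [mk_Om0, mk_complex]))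
  let := ι.toAlgebra
  have : IsScalarTower ℚ E ℂ := IsScalarTower.of_algebraMap_eq fun q => by
    simp [RingHom.algebraMap_toAlgebra]
  let φ : E →ₐ[ℚ] ℂ := (ψ.toRingHom.comp ((emb P).codRestrict (Om0 P) (emb_mem P))).toRatAlgHom
  let g : E ≃ₐ[ℚ] E := φ.restrictNormal' E
  obtain ⟨σ, hσ⟩ := Crest.Agent.R007.RatAlg.exists_extend (F := E) g.toRingEquiv
  refine ⟨ψ.trans σ.symm, fun x => ?_⟩
  rw [RingEquiv.trans_apply, RingEquiv.symm_apply_eq]
  refine Eq.trans ?_ (hσ x).symm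
  exact (φ.restrictNormal_commutes E x).symm

lemma w_rat {Ω : Type*} [Field Ω] [CharZero Ω] {w : Valuation Ω ℝ≥0} (h3 : w 3 < 1) {q : ℚ}
    (hq : q ≠ 0) : ∃ n : ℤ, w q = w 3 ^ n := by
  have key : ∀ m : ℕ, m ≠ 0 → ∃ n : ℕ, w m = w 3 ^ n := fun m hm => by
    obtain ⟨e, n, hn, rfl⟩ := Nat.exists_eq_pow_mul_and_not_dvd hm 3 (by norm_num)
    exact ⟨e, by rw [Nat.cast_mul, map_mul, Unr.w_natCast h3 hn, mul_one, Nat.cast_pow, map_pow,
      Nat.cast_ofNat]⟩
  obtain ⟨a, ha⟩ := key q.num.natAbs (Int.natAbs_ne_zero.2 (Rat.num_ne_zero.2 hq))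
  obtain ⟨b, hb⟩ := key q.den q.den_nz
  have h0 : w 3 ≠ 0 := (Valuation.ne_zero_iff _).2 three_ne_zero
  have e : w (q.num : Ω) = w (q.num.natAbs : Ω) := by
    rcases Int.natAbs_eq q.num with h | h
    · rw [← Int.cast_natCast, ← h]
    · conv_lhs => rw [h]
      rw [Int.cast_neg, w.map_neg, Int.cast_natCast]
  exact ⟨(a : ℤ) - b, by rw [Rat.cast_def, map_div₀, e, ha, hb, zpow_sub₀ h0, zpow_natCast,
    zpow_natCast]⟩

theorem exists_loc (hP : P.rchar = 3) : Nonempty (Loc3 ι P) := by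
  obtain ⟨ψ, hψ⟩ := exists_psi P ι
  let θ : ℂ →+* CP P := (Om0 P).val.toRingHom.comp ψ.symm.toRingHom
  have θψ : ∀ y : Om0 P, θ (ψ y) = y := fun y => congrArg Subtype.val (ψ.symm_apply_apply y)
  have θι : ∀ x, θ (ι x) = emb P x := fun x => by rw [← hψ, θψ]
  let F0 : IntermediateField ℚ ℂ := ((K0 P).comap θ).toIntermediateField fun q =>
    SubfieldClass.ratCast_mem _ q
  have hF0 : ∀ a, a ∈ F0 ↔ θ a ∈ K0 P := fun a => Iff.rfl
  have hk : ∀ k : K0 P, ψ (algebraMap (K0 P) (Om0 P) k) ∈ F0 := fun k => by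
    rw [hF0, θψ]; exact k.2
  let w : Valuation ℂ ℝ≥0 := (NormedField.valuation (K := CP P)).comap θ
  have hw : ∀ a, (w a : ℝ) = ‖θ a‖ := fun a => rfl
  have hwι : ∀ x, (w (ι x) : ℝ) = av P x := fun x => by rw [hw, θι, norm_emb]
  let e0 : F0 →+* K0 P := (θ.comp (algebraMap F0 ℂ)).codRestrict (K0 P) fun a => a.2
  have halg : Algebra.IsAlgebraic F0 ℂ :=
    Algebra.IsAlgebraic.of_ringHom_of_comp_eq (S := K0 P) (B := Om0 P) e0 ψ.symm.toRingHom
      (fun k => ⟨⟨_, hk k⟩, Subtype.ext (θψ _)⟩) ψ.symm.injective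
      (RingHom.ext fun _ => Subtype.ext rfl)
  have : IsAlgClosure F0 ℂ := ⟨inferInstance, halg⟩
  have hgal : IsGalois F0 ℂ := inferInstance
  have hinv : ∀ (σ : ℂ ≃ₐ[F0] ℂ) a, w (σ a) = w a := fun σ a => by
    have key : ∀ τ : ℂ ≃ₐ[F0] ℂ, ‖θ (τ a)‖ = spectralNorm (K0 P) (Om0 P) (ψ.symm a) := fun τ => by
      have := spectralNorm_unique_field_norm_ext (K := K0 P) (L := Om0 P)
        (f := (NormedField.toAbsoluteValue (CP P)).comp
          (f := θ.comp (τ.toRingEquiv.toRingHom.comp ψ.toRingHom)) (RingHom.injective _))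
        (fun k => by
          change ‖θ (τ (ψ (algebraMap (K0 P) (Om0 P) k)))‖ = ‖(k : CP P)‖
          rw [show τ (ψ (algebraMap (K0 P) (Om0 P) k)) = ψ (algebraMap (K0 P) (Om0 P) k) from
            τ.commutes ⟨_, hk k⟩, θψ]
          rfl) (ψ.symm a)
      rw [← this]
      change _ = ‖θ (τ (ψ (ψ.symm a)))‖
      rw [ψ.apply_symm_apply]
    ext
    rw [hw, hw, key σ]
    exact (key 1).symm
  have h3 : w 3 < 1 := by
    have h := hwι (P.rchar : E)
    rw [av_rchar, map_natCast, hP] at h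
    rw [← NNReal.coe_lt_coe, ← Nat.cast_ofNat (R := ℂ) (n := 3), h]
    norm_num
  have hd0 : ∀ a ∈ F0, ∀ ε : ℝ≥0, 0 < ε → ∃ q : ℚ, w (a - q) < ε := fun a ha ε hε => by
    obtain ⟨_, ⟨q, rfl⟩, hq⟩ := Metric.mem_closure_iff.1 ((mem_K0 P).1 ((hF0 a).1 ha)) ε hε
    exact ⟨q, by rwa [← NNReal.coe_lt_coe, hw, map_sub, map_ratCast, ← dist_eq_norm]⟩
  have hnear : ∀ (a : ℂ) (ε : ℝ≥0), 0 < ε → ∃ x : E, w (a - ι x) < ε := fun a ε hε => by
    obtain ⟨x, hx⟩ := (dense_emb P).exists_dist_lt (θ a) (show (0 : ℝ) < ε from hε)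
    exact ⟨x, by rwa [← NNReal.coe_lt_coe, hw, map_sub, θι, ← dist_eq_norm]⟩
  have hctx : Ctx F0 w := ⟨hinv, h3, fun a ha => by
    have h0 : 0 < w a := pos_iff_ne_zero.2
      ((Valuation.ne_zero_iff _).2 fun h => ha (Subtype.ext h))
    obtain ⟨q, hq⟩ := hd0 a a.2 _ h0
    have e : w (q : ℂ) = w a := by
      rw [show (q : ℂ) = a - (a - q) by ring]
      exact w.map_sub_eq_of_lt_left hq
    obtain ⟨n, hn⟩ := w_rat (Ω := ℂ) h3 (q := q) fun h => by
      rw [h, Rat.cast_zero, map_zero] at e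
      exact h0.ne e
    exact ⟨n, e.symm.trans hn⟩⟩
  let r1 : (ℂ ≃ₐ[F0] ℂ) →* (E ≃ₐ[ℚ] E) :=
    (resA ι).comp (MonoidHom.mk' (fun σ => σ.toRingEquiv) fun _ _ => rfl)
  have hr1 : ∀ σ x, ι (r1 σ x) = σ (ι x) := fun σ x => iota_resA ι σ.toRingEquiv x
  have hmem : ∀ σ, r1 σ ∈ stabilizer (E ≃ₐ[ℚ] E) P := fun σ => by
    refine mem_stabilizer_iff.2 (Place.ext_of_val (ValuationSubring.ext _ _ fun x => ?_))
    rw [Place.mem_smul_val, ← map_inv, ← av_le_one_iff, ← av_le_one_iff, ← hwι, ← hwι,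
      show (r1 σ⁻¹) • x = r1 σ⁻¹ x from rfl, hr1, hinv]
  let r0 := r1.codRestrict _ hmem
  have hinj : Function.Injective r0 := (injective_iff_map_eq_one r0).2 fun σ hσ => by
    have h1 : ∀ x, σ (ι x) = ι x := fun x => by
      rw [← hr1, show r1 σ = 1 from congrArg Subtype.val hσ]; rfl
    ext a
    by_contra hne
    have h0 : 0 < w (σ a - a) := pos_iff_ne_zero.2
      ((Valuation.ne_zero_iff _).2 (sub_ne_zero.2 hne))
    obtain ⟨x, hx⟩ := hnear a _ h0
    have e : σ a - a = σ (a - ι x) - (a - ι x) := by rw [map_sub, h1]; ring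
    have := w.map_sub (σ (a - ι x)) (a - ι x)
    rw [← e, hinv, max_self] at this
    exact absurd hx (not_lt.2 this)
  have hsurj : Function.Surjective r0 := fun g => by
    let T : CP P ≃ₐ[K0 P] CP P := AlgEquiv.ofRingEquiv (f := extC P g) fun k => extC_K0 P g k.2
    let T' := T.restrictNormal (Om0 P)
    have hT' : ∀ y : Om0 P, (T' y : CP P) = extC P g y := fun y => T.restrictNormal_commutes _ y
    let σ : ℂ ≃ₐ[F0] ℂ := AlgEquiv.ofRingEquiv (f := ψ.symm.trans (T'.toRingEquiv.trans ψ))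
      fun a => θ.injective (by
        change θ (ψ (T' (ψ.symm a))) = θ a
        rw [θψ, hT']
        exact extC_K0 P g a.2)
    refine ⟨σ, Subtype.ext (resA_eq ι fun x => θ.injective ?_)⟩
    change θ (ψ (T' (ψ.symm (ι x)))) = _
    rw [θψ, hT', θι, ← extC_emb, ← θι]
    rfl
  exact ⟨⟨F0, w, hgal, hctx, hd0, hnear, hwι, MulEquiv.ofBijective r0 ⟨hinj, hsurj⟩, hr1⟩⟩

end Set3

theorem setup : SetupStmt := fun _ _ _ _ _ ι P hP => Set3.exists_loc P ι hP

end Crest.Agent.T15.Fl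

end
end

-- ▼ part T15/TopB_88

/-!
# Row 15: the local data at `3`, the extension of scalars, change of level (helper88)
-/

set_option autoImplicit false

noncomputable section

namespace Crest.Agent.T15.Top

open NumberField IsLocalRing Matrix Crest.Agent.R018.Placesx484 Crest.Agent.T15.Ps
open Crest.Agent.T15.C (Om Gam In De om Hyp Cls Triv)

/-- the local data attached to `Fl.Loc3` -/
def Lc.of {ι : Om →+* ℂ} {P : Plc} (h3 : P.rchar = 3) (L : Fl.Loc3 ι P) : Lc where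
  P := P
  h3 := h3
  Ω := ℂ
  w := L.w
  G := L.G
  r := L.rG
  hr := L.range_rG

theorem mp_mp {R S T : Type*} [CommRing R] [CommRing S] [CommRing T] (f : R →+* S) (f' : S →+* T)
    (ρ : Gam →* M2 R) : mp f' (mp f ρ) = mp (f'.comp f) ρ := by
  ext g a c; simp [mp]

theorem mp_apply {R S : Type*} [CommRing R] [CommRing S] (f : R →+* S) (ρ : Gam →* M2 R) (g : Gam) :
    mp f ρ g = (ρ g).map f := rfl

theorem det_mp {R S : Type*} [CommRing R] [CommRing S] (f : R →+* S) (ρ : Gam →* M2 R) (g : Gam) :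
    (mp f ρ g).det = f (ρ g).det := by
  simp [mp, det_fin_two]

theorem mp_eq_one {R S : Type*} [CommRing R] [CommRing S] (f : R →+* S) {ρ : Gam →* M2 R} {g : Gam}
    (h : ρ g = 1) : mp f ρ g = 1 := by
  simp [mp, h]

theorem mp_eq_one_iff {R S : Type*} [CommRing R] [CommRing S] {f : R →+* S}
    (hf : Function.Injective f) {ρ : Gam →* M2 R} {g : Gam} : mp f ρ g = 1 ↔ ρ g = 1 := by
  refine ⟨fun h => ?_, mp_eq_one f⟩
  have : f.mapMatrix (ρ g) = f.mapMatrix (1 : M2 R) := by rw [map_one]; exact h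
  exact Matrix.map_injective hf this

theorem Op.mp {R S : Type*} [CommRing R] [CommRing S] (f : R →+* S) {ρ : Gam →* M2 R} (h : Op ρ) :
    Op (mp f ρ) :=
  Subgroup.isOpen_mono (H₁ := ρ.ker) (H₂ := (Top.mp f ρ).ker) (fun _ hg => mp_eq_one f hg) h

theorem DetCyc.mp {R S : Type*} [CommRing R] [CommRing S] (f : R →+* S) {ρ : Gam →* M2 R}
    (h : DetCyc ρ) : DetCyc (mp f ρ) := fun g n a ζ hζ hg => by
  obtain ⟨c, hc⟩ := Ideal.mem_span_singleton'.1 (h g n a ζ hζ hg)
  refine Ideal.mem_span_singleton'.2 ⟨f c, ?_⟩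
  have := congrArg f hc
  simpa [det_mp, map_ofNat] using this

theorem mulVec_mp {R S : Type*} [CommRing R] [CommRing S] (f : R →+* S) (ρ : Gam →* M2 R) (g : Gam)
    (v : Fin 2 → R) : (fun i => f ((ρ g *ᵥ v) i)) = mp f ρ g *ᵥ fun i => f (v i) := by
  ext i; simp [mp, mulVec, dotProduct]

/-- flatness passes to a quotient of the coefficients -/
theorem Lc.Fl.mp {X : Lc} {R S : Type} [CommRing R] [CommRing S] {f : R →+* S}
    (hf : Function.Surjective f) {ρ : Gam →* M2 R} (h : X.Fl fun g (v : Fin 2 → R) => ρ g *ᵥ v) :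
    X.Fl fun g (v : Fin 2 → S) => Top.mp f ρ g *ᵥ v :=
  h.quot (f.toAddMonoidHom.compLeft (Fin 2)) (fun y => ⟨fun i => (hf (y i)).choose,
    funext fun i => (hf (y i)).choose_spec⟩) fun g _ v => mulVec_mp f ρ g v

/-- flatness passes to a finite extension of the coefficients -/
theorem Lc.Fl.ext {X : Lc} {R S : Type} [CommRing R] [CommRing S] (f : R →+* S) {ι : Type}
    [Fintype ι] (b : ι → S) (hb : ∀ y : S, ∃ c : ι → R, y = ∑ j, b j * f (c j)) {ρ : Gam →* M2 R}
    (h : X.Fl fun g (v : Fin 2 → R) => ρ g *ᵥ v) :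
    X.Fl fun g (v : Fin 2 → S) => Top.mp f ρ g *ᵥ v := by
  refine (h.pi (ι := ι)).quot
    { toFun := fun v i => ∑ j, b j * f (v j i)
      map_zero' := by ext; simp
      map_add' := fun v v' => by ext; simp [mul_add, Finset.sum_add_distrib] } (fun y => ?_)
    fun g _ v => ?_
  · choose c hc using fun i => hb (y i)
    exact ⟨fun j i => c i j, funext fun i => (hc i).symm⟩
  · ext i
    simp only [AddMonoidHom.coe_mk, ZeroHom.coe_mk, mulVec, dotProduct, Fin.sum_univ_two, map_add,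
      map_mul, mp_apply, map_apply, Finset.mul_sum, ← Finset.sum_add_distrib]
    exact Finset.sum_congr rfl fun j _ => by ring

theorem Lift.flat_res {X : Lc} {O : Type} [CommRing O] [IsLocalRing O] (h3 : (3 : O) ∈ maximalIdeal O)
    {ρ : Gam →* M2 O} (h : Lift X ρ) :
    X.Fl fun g (v : Fin 2 → ResidueField O) => mp (residue O) ρ g *ᵥ v := by
  let q : Cn O 1 →+* ResidueField O := Ideal.Quotient.lift _ (residue O) fun a ha => by
    obtain ⟨c, rfl⟩ := Ideal.mem_span_singleton'.1 ha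
    rw [residue_eq_zero_iff, pow_one]
    exact Ideal.mul_mem_left _ _ h3
  have hq : Function.Surjective q := fun y => by
    obtain ⟨x, rfl⟩ := residue_surjective y
    exact ⟨Ideal.Quotient.mk _ x, rfl⟩
  have := (h.flat 1).mp hq
  rwa [mp_mp] at this

theorem bGlue (X : Lc) : BGlue X := by
  intro hE hR hD O _ _ _ _ N ρ h0 hl
  obtain ⟨O', _, _, _, _, _, _, i, hi, ⟨b⟩, hj⟩ := hE O h0.card
  have e : mp (residue O') (mp (algebraMap O O') ρ) =
      mp (ResidueField.map (algebraMap O O')) (mp (residue O) ρ) := by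
    rw [mp_mp, mp_mp, ResidueField.map_comp_residue]
  have e' : ∀ n, mp (Ideal.Quotient.mk (Ideal.span {(3 : O') ^ n})) (mp (algebraMap O O') ρ) =
      mp (cnMap O O' n) (mp (Ideal.Quotient.mk (Ideal.span {(3 : O) ^ n})) ρ) := fun n => by
    rw [mp_mp, mp_mp]; rfl
  refine ⟨O', _, _, _, ‹_›, algebraMap O O', ⟨i, hi⟩, ?_, ?_, ⟨fun n => ?_, hl.det.mp _,
    fun P hP g hg h => ?_, fun n => ?_⟩, hj⟩
  · rw [e]
    exact hR _ _ _ _ N h0 ⟨residue O' i, by rw [← map_pow, hi]; simp⟩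
  · rw [e]
    exact hD _ _ _ _ N h0 (hl.flat_res Coef.h3)
  · rw [e']; exact (hl.op n).mp _
  · rw [e, mp_eq_one_iff (RingHom.injective _)] at h
    exact mp_eq_one _ (hl.min P hP g hg h)
  · rw [e']
    refine (hl.flat n).ext _ (fun j => Ideal.Quotient.mk _ (b j)) fun y => ?_
    obtain ⟨x, rfl⟩ := Ideal.Quotient.mk_surjective y
    refine ⟨fun j => Ideal.Quotient.mk _ (b.repr x j), ?_⟩
    conv_lhs => rw [← b.sum_repr x]
    rw [map_sum]
    refine Finset.sum_congr rfl fun j _ => ?_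
    rw [Algebra.smul_def, map_mul, mul_comm]; rfl

end Crest.Agent.T15.Top
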