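import Crest.Agent.T15.HtDef_95
import Crest.Agent.T15.UndC_98
import Mathlib
import Crest.Agent.T15.IgE_61
import Crest.Agent.T15.IgF_61
import Crest.Agent.T15.CgJ_84
import Crest.Agent.T15.SrcK_71
import Crest.Agent.T15.CgF_84
import Crest.Agent.T15.BetAz_91
import Crest.Agent.T15.Fl3Def_75
import Crest.Agent.T15.HkChi_62
import Crest.Agent.T15.HkTw_62
import Crest.Agent.T15.RG_20
import Crest.Agent.T15.Par_12
import Crest.Agent.T15.TDef_10
import Crest.Agent.T15.MoA_29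
import Crest.Agent.T15.NfB_2
import Crest.Agent.T15.MoB_29
import Crest.Agent.T15.CtE_92
import Crest.Agent.T15.FDef_67
import Crest.Agent.T15.Gal_31
import Crest.Agent.T15.CgB_84
import Crest.Agent.R013.Red7_332
import Crest.Agent.T15.ModC_53
import Crest.Agent.T15.AxC_14
import Crest.Agent.T15.MumB_4
import Crest.Agent.T15.Sc3F_89
import Crest.Agent.R270.TSame1_927
import Crest.Agent.T15.MfB_79
import Crest.Agent.R007.RatG1
import Crest.Agent.T15.CgI_84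

-- ▼ part T15/Per_98
section

/-!
# Row 15, block Ht (helper98): the leaf `PerStmt`
-/

set_option autoImplicit false
set_option maxHeartbeats 400000

noncomputable section

namespace Crest.Agent.T15.Ht

open Matrix CongruenceSubgroup
open scoped MatrixGroups UpperHalfPlane

/-- `J2` is `ℂ`-linear -/
def J2c : (Fin 2 → ℂ) →ₗ[ℂ] (Fin 2 → ℂ) where
  toFun x := ![3 * x 1, x 0]
  map_add' x y := by ext i; fin_cases i <;> simp [mul_add]
  map_smul' c x := by ext i; fin_cases i <;> simp [mul_left_comm]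

/-- the first period direction -/
def per0 : Fin 2 → ℂ := ![2 * Real.pi * Complex.I, 0]

lemma per_pv_eq (f : Fin 2 → ℍ → ℂ) :
    Und.pv (f 0) (f 1) per0 (J2c per0) = pv f := by
  funext γ
  ext i
  fin_cases i <;> simp [Und.pv, pv, per0, J2c] <;> ring

lemma per_pc_rec {L : ℕ} {g : ℕ → ℤ} (h : Hk L g) {l : ℕ} (hl : l.Prime) (hL : ¬ l ∣ L)
    (h4 : l % 4 = 1 ∨ l % 4 = 3) (i n : ℕ) :
    Und.Hk l (fun n => (pc i g n : ℂ)) n =
      if (l * n) % 4 = i then ((3 ^ (ep l * ep n) * g l * g n : ℤ) : ℂ) else 0 := by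
  rw [← h.hrec l hl hL n]
  unfold Und.Hk pc
  by_cases hd : l ∣ n
  · obtain ⟨m, rfl⟩ := hd
    have e : (l * (l * m)) % 4 = m % 4 := by
      rw [← mul_assoc, Nat.mul_mod, Nat.mul_mod l l]
      rcases h4 with h4 | h4 <;> simp [h4]
    simp only [Nat.mul_div_cancel_left m hl.pos, e, dvd_mul_right, if_true]
    split_ifs <;> simp
  · simp only [hd, if_false]
    split_ifs <;> simp

lemma per_pairEig {L : ℕ} {g : ℕ → ℤ} (h : Hk L g) {l : ℕ} (hl : l.Prime) (hL : ¬ l ∣ L) :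
    Und.PairEig l (fun n => (pc 1 g n : ℂ)) (fun n => (pc 3 g n : ℂ)) := by
  have h2 : l % 2 = 1 := by
    rcases hl.eq_two_or_odd with rfl | h2
    · exact absurd (Dvd.dvd.trans (by norm_num) h.dvd) hL
    · exact h2
  have h4 : l % 4 = 1 ∨ l % 4 = 3 := by omega
  refine ⟨g l, ?_⟩
  simp only [per_pc_rec h hl hL h4]
  rcases h4 with h4 | h4
  · left
    intro n
    have e : (l * n) % 4 = n % 4 := by rw [Nat.mul_mod, h4]; simp
    have e0 : ep l = 0 := by simp [ep, h4]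
    simp only [e, e0, pc]
    constructor <;> split_ifs <;> simp
  · right
    intro n
    have e : (l * n) % 4 = (3 * (n % 4)) % 4 := by rw [Nat.mul_mod, h4]
    have hn : n % 4 = 0 ∨ n % 4 = 1 ∨ n % 4 = 2 ∨ n % 4 = 3 := by omega
    simp only [e, pc, ep]
    rcases hn with hn | hn | hn | hn <;> simp [hn, h4]

lemma per_dep_eq {L B : ℕ} {g : ℕ → ℤ} (h : Hk L g) (hB : 0 < B) (i : ℕ) :
    Und.dep (B.primeFactors.filter fun l => ¬ l ∣ L) (fun n => (pc i g n : ℂ)) =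
      fun n => (pc i (dep B g) n : ℂ) := by
  funext n
  unfold Und.dep pc dep
  by_cases hc : n.Coprime B
  · rw [if_pos, if_pos hc]
    intro l hl hn
    have hl' := Nat.mem_primeFactors.1 (Finset.mem_filter.1 hl).1
    exact hl'.1.one_lt.ne' (Nat.eq_one_of_dvd_coprimes hc hn hl'.2.1)
  · obtain ⟨p, hp, hn, hpB⟩ := Nat.Prime.not_coprime_iff_dvd.1 hc
    by_cases hL : p ∣ L
    · have : g n = 0 := h.sup n (Nat.Prime.not_coprime_iff_dvd.2 ⟨p, hp, hn, hL⟩)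
      simp [this]
    · rw [if_neg, if_neg hc]
      · simp
      · exact fun H => H p (Finset.mem_filter.2 ⟨Nat.mem_primeFactors.2 ⟨hp, hpB, hB.ne'⟩, hL⟩) hn

/-- **leaf PER** -/
theorem perStmt : PerStmt := by
  intro L L' B g f f' Λ _ hk hf hB hL' hf' hrk hΛ hper
  have : NeZero L := ⟨hk.pos.ne'⟩
  have : NeZero L' := ⟨hL'.ne'⟩
  have hπ : (2 * Real.pi * Complex.I : ℂ) ≠ 0 := Complex.two_pi_I_ne_zero
  obtain ⟨k, hk0, h1, h2⟩ := Und.pair (L := L) (S := B.primeFactors.filter fun l => ¬ l ∣ L)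
    (fun l hl => ⟨(Nat.mem_primeFactors.1 (Finset.mem_filter.1 hl).1).1, (Finset.mem_filter.1 hl).2⟩)
    (hf.cs 0) (hf.cs 1) hf.q1 hf.q3 (by simp [pc, hk.one]) (by simp [pc])
    (fun l hl => per_pairEig hk (Nat.mem_primeFactors.1 (Finset.mem_filter.1 hl).1).1
      (Finset.mem_filter.1 hl).2)
    (hf'.cs 0).1 (hf'.cs 1).1 (by rw [per_dep_eq hk hB]; exact hf'.q1)
    (by rw [per_dep_eq hk hB]; exact hf'.q3) J2c per0
    (by ext i; fin_cases i <;> simp [J2c, per0])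
    (fun x y hxy => ⟨by simpa [J2c, per0, hπ] using congrFun hxy 0,
      by simpa [J2c, per0, hπ] using congrFun hxy 1⟩)
    Λ hrk.le hΛ (Gamma0 L') (by rw [per_pv_eq]; exact hper)
  have hI : Und.I0 (Gamma0 L) (f 0) (f 1) per0 (J2c per0) = I0 L f := by
    rw [Und.I0, per_pv_eq]; rfl
  rw [hI] at h1 h2
  refine ⟨k, hk0, fun v hv => ?_, fun x hx => ?_⟩
  · have := h1 v hv
    rwa [Nat.cast_smul_eq_nsmul, ← Nat.cast_smul_eq_nsmul ℚ] at this
  · obtain ⟨a, ha, b, hb, e⟩ := h2 x hx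
    refine ⟨a, ha, b, hb, ?_⟩
    rw [Nat.cast_smul_eq_nsmul, ← Nat.cast_smul_eq_nsmul ℂ, e]
    rfl

end Crest.Agent.T15.Ht
end
end

-- ▼ part T15/IgQ_61
section

/-!
# Row 15, block T (helper61), Igusa part Q: the cusp `∞` and its reduction
-/

set_option autoImplicit false
set_option linter.unusedSectionVars false

noncomputable section

namespace Crest.Agent.T15.Ig

open UpperHalfPlane ModularForm CongruenceSubgroup Polynomial WithZero
open scoped MatrixGroups NNReal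
open Crest.Agent.R007 Crest.Agent.R007.Rat Crest.Agent.T15.Mf Crest.Agent.T15.Bet
open Crest.Agent.T15.Hs Crest.Agent.T15.Cg
open Crest.Agent.R013.RR7_948 Crest.Agent.R013.RR8_948 Crest.Agent.R013.RR9_948
open Crest.Agent.R013.RR11_948 Crest.Agent.R013.RR12_948 Crest.Agent.R013.RR13_948
open Crest.Agent.R013.RR18_948 Crest.Agent.R013.RR21_948
open Crest.Agent.R013.GR4_921
open Crest.Agent.R013.RR28_948 (ratFunc_infinite)

section order

variable {K : Type*} [Field K]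

/-- the order valuation of Hahn series -/
def vO (K : Type*) [Field K] : Valuation (HS K) (Multiplicative (WithTop ℚ)ᵒᵈ) :=
  AddValuation.toValuation (HahnSeries.addVal ℚ K)

theorem vO_le {x y : HS K} : vO K x ≤ vO K y ↔ y.orderTop ≤ x.orderTop := Iff.rfl

theorem vO_eq {x y : HS K} : vO K x = vO K y ↔ x.orderTop = y.orderTop := by
  rw [le_antisymm_iff, vO_le, vO_le, le_antisymm_iff, and_comm]

theorem vO_C {c : K} (hc : c ≠ 0) : vO K (HahnSeries.C c) = 1 := by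
  rw [← map_one (vO K), vO_eq, HahnSeries.C_apply, HahnSeries.orderTop_single hc,
    HahnSeries.orderTop_one]
  rfl

theorem one_lt_vO {x : HS K} (hx : x ≠ 0) : 1 < vO K x ↔ x.order < 0 := by
  rw [← map_one (vO K), ← not_le, vO_le, HahnSeries.orderTop_one,
    ← HahnSeries.order_eq_orderTop_of_ne_zero hx, WithTop.coe_nonneg, not_le]

theorem vO_lt_one {x : HS K} (hx : x ≠ 0) : vO K x < 1 ↔ 0 < x.order := by
  rw [← map_one (vO K), ← not_le, vO_le, HahnSeries.orderTop_one,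
    ← HahnSeries.order_eq_orderTop_of_ne_zero hx, not_le, WithTop.coe_pos]

theorem vO_congr {x y : HS K} (h : ∀ g, x.coeff g = 0 ↔ y.coeff g = 0) : vO K x = vO K y := by
  have key : ∀ {x y : HS K}, (∀ g, x.coeff g = 0 ↔ y.coeff g = 0) → vO K x ≤ vO K y := by
    intro x y h
    rw [vO_le]
    by_cases hx : x = 0
    · simp [hx]
    rw [← HahnSeries.order_eq_orderTop_of_ne_zero hx]
    exact HahnSeries.orderTop_le_of_coeff_ne_zero fun e =>
      hx (HahnSeries.coeff_order_eq_zero.1 ((h _).2 e))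
  exact le_antisymm (key h) (key fun g => (h g).symm)

theorem Lev_order {M : ℕ} {x : HS K} (h : Lev M x) (hx : x ≠ 0) : ∃ n : ℕ, x.order = n / M :=
  h _ fun e => hx (HahnSeries.coeff_order_eq_zero.1 e)

theorem order_j {x a b : HS K} (e : x * b = a) (ha : Lev 1 a) (hb : Lev 1 b) (a0 : a.coeff 0 ≠ 0)
    (b0 : b.coeff 0 = 0) (b1 : b.coeff 1 ≠ 0) : x ≠ 0 ∧ -1 ≤ x.order ∧ x.order < 0 := by
  have ha0 : a ≠ 0 := fun h => a0 (by simp [h])
  have hb0 : b ≠ 0 := fun h => b1 (by simp [h])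
  have hx : x ≠ 0 := fun h => ha0 (by rw [← e, h, zero_mul])
  have h1 := HahnSeries.order_mul hx hb0
  rw [e] at h1
  obtain ⟨m, hm⟩ := Lev_order ha ha0
  obtain ⟨n, hn⟩ := Lev_order hb hb0
  have h2 := HahnSeries.order_le_of_coeff_ne_zero a0
  have h3 := HahnSeries.order_le_of_coeff_ne_zero b1
  have h4 : b.order ≠ 0 := fun h => hb0 (HahnSeries.coeff_order_eq_zero.1 (h ▸ b0))
  have h5 : 0 ≤ a.order := by rw [hm]; positivity
  have h6 : 0 < b.order := lt_of_le_of_ne (by rw [hn]; positivity) h4.symm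
  exact ⟨hx, by linarith, by linarith⟩

end order

theorem order_qx {M : ℕ} (hM : M ≠ 0) {x : FF} (hx : ∀ γ ∈ Gamma M, γ • x = x) (h0 : x ≠ 0) :
    ∃ n : ℤ, (qx x).order * M = n := by
  obtain ⟨k, A, B, hA, hB, hB0, rfl⟩ := exists_quo_level hx
  have hB' := hB.mono (one_dvd M)
  have hA0 : A ≠ 0 := fun e => h0 ((quo_eq_zero hM hA hB' hB0).2 e)
  have b0 := qf_ne_zero hM hB' hB0
  obtain ⟨m, hm⟩ := Lev_order (lev_qf hM hA) (qf_ne_zero hM hA hA0)
  obtain ⟨n, hn⟩ := Lev_order (lev_qf hM hB') b0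
  have h1 := HahnSeries.order_mul (x := qx (quo A B)) (by simpa using h0) b0
  rw [qx_quo hM hA hB', div_mul_cancel₀ _ b0, ← qx_quo hM hA hB', hm, hn] at h1
  have hM' : (M : ℚ) ≠ 0 := Nat.cast_ne_zero.2 hM
  refine ⟨m - n, ?_⟩
  rw [← sub_eq_iff_eq_add.2 h1]
  push_cast
  field_simp

theorem qx_T (x : FF) : qx (ModularGroup.T⁻¹ • x) = tw (ee 1) (qx x) := by
  rw [sl_smul, map_inv, qx_upper (by rw [sq_apply]; simp [ModularGroup.T]), sq_apply, sq_apply,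
    sq_apply]
  simp [ModularGroup.T, sc_one]

theorem mapPl_eq_of {k K : Type*} [Field k] [Field K] [Algebra k K] {σ : K ≃ₐ[k] K} {P : Pl k K}
    (h : ∀ f, P.v (σ f) = P.v f) : mapPl σ P = P := by
  ext f
  rw [mapPl_v, ← h, σ.apply_symm_apply]

variable {v : Valuation ℂ ℝ≥0} {w : Valuation FF ℝ≥0} {M : ℕ} {T : Type*} [Field T] [Algebra ℂ T]
  [Algebra (RatFunc ℂ) T] [IsScalarTower ℂ (RatFunc ℂ) T] [FiniteDimensional (RatFunc ℂ) T]
  [IsGalois (RatFunc ℂ) T] {ι : T →ₐ[ℂ] FF}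

/-- the cusp `∞` : its stabiliser is generated by `T` -/
theorem exists_cusp (hM : M ≠ 0) (h : Lvl M ι)
    (hf : ∀ γ : SL(2, ℤ), (∀ x, γ • ι x = ι x) → γ ∈ Gamma M ∨ -γ ∈ Gamma M)
    {t : T ≃ₐ[RatFunc ℂ] T} (ht : ∀ x, ι (t x) = ModularGroup.T⁻¹ • ι x) :
    ∃ Q : Pl ℂ T, 1 < Q.v (xK ℂ T) ∧ ∀ g : T ≃ₐ[RatFunc ℂ] T,
      mapPl (g.restrictScalars ℂ) Q = Q → g ∈ Submonoid.powers t := by
  obtain ⟨j0, j1, j2⟩ := order_j qx_jF (lev_qf one_ne_zero isF_e43) (lev_qf one_ne_zero isF_dl)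
    (by rw [qf_e43_zero]; exact one_ne_zero) qf_dl_zero (by rw [qf_dl_one]; exact one_ne_zero)
  let V := (vO ℂ).comap (qx.comp (ι : T →+* FF))
  have hV : ∀ x, V x = vO ℂ (qx (ι x)) := fun _ => rfl
  have hj : 1 < V (xK ℂ T) := by rw [hV, h.xj]; exact (one_lt_vO j0).2 j2
  obtain ⟨Q, hQ⟩ := exists_place (k := ℂ) V
    (fun c hc => by rw [hV, AlgHom.commutes, qx_algebraMap, vO_C hc])
    ⟨_, (zero_lt_one.trans hj).ne', hj.ne'⟩
  have hQj : 1 < Q.v (xK ℂ T) := hQ.one_lt_iff_one_lt.2 hj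
  refine ⟨Q, hQj, fun g hg => mem_zpowers_of_fix Q t (mapPl_eq_of fun f => ?_) ?_ hg⟩
  · refine hQ.eq_iff.2 ?_
    change V (t f) = V f
    rw [hV, hV, ht, qx_T]
    exact vO_congr fun g => by
      rw [coeff_tw, mul_eq_zero, or_iff_right]
      exact Complex.exp_ne_zero _
  have hle : M ≤ orderOf t := by
    have h1 : ∀ (n : ℕ) x, ι ((t ^ n) x) = (ModularGroup.T ^ (-(n : ℤ))) • ι x := fun n => by
      induction n with
      | zero => simp
      | succ n ih =>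
        intro x
        rw [pow_succ, AlgEquiv.mul_apply, ih, ht, ← mul_smul, ← zpow_sub_one]
        congr 2
        push_cast; ring
    have h2 := hf _ fun x => by rw [← h1, pow_orderOf_eq_one, AlgEquiv.one_apply]
    have h3 : ((orderOf t : ℕ) : ZMod M) = 0 := by
      have e : (ModularGroup.T ^ (-(orderOf t : ℤ))) 0 1 = -(orderOf t : ℤ) :=
        congrFun (congrFun (ModularGroup.coe_T_zpow _) 0) 1
      rcases h2 with h2 | h2
      · have := (Gamma_mem.1 h2).2.1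
        rw [e] at this
        simpa using this
      · have := (Gamma_mem.1 h2).2.1
        rw [Matrix.SpecialLinearGroup.coe_neg, Matrix.neg_apply, e] at this
        simpa using this
    exact Nat.le_of_dvd (orderOf_pos t) ((ZMod.natCast_eq_zero_iff _ _).1 h3)
  refine le_trans ?_ hle
  obtain ⟨s, hs0, hs⟩ := exists_v_eq Q (-1)
  have hs1 : qx (ι s) ≠ 0 := by simpa using hs0
  have a1 : 0 < (qx (ι s)).order := (vO_lt_one hs1).1 (hQ.lt_one_iff_lt_one.1 (by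
    rw [hs, ← exp_zero, exp_lt_exp]; norm_num))
  obtain ⟨n, hn⟩ := order_qx hM (fun γ hγ => h.lev s hγ) (by simpa using hs0)
  have a2 := v_algebraMap_exp Q (ratFunc_infinite (under (RatFunc ℂ) Q) (by
    rw [← not_le, under_le_one_iff, not_le]; exact hQj)).1
  have a3 : Q.v (s ^ eR (RatFunc ℂ) Q * xK ℂ T) = Q.v 1 := by
    rw [map_inv₀, map_inv₀, inv_eq_iff_eq_inv] at a2
    rw [map_mul, map_pow, hs, xK, a2, ← exp_nsmul, ← exp_neg, ← exp_add, map_one]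
    simp
  have a4 : (qx (ι s) ^ eR (RatFunc ℂ) Q * qx jF).order = 0 := by
    have := hQ.eq_iff.1 a3
    rw [hV, hV, vO_eq, map_mul, map_mul, map_pow, map_pow, h.xj, map_one, map_one,
      HahnSeries.orderTop_one,
      ← HahnSeries.order_eq_orderTop_of_ne_zero (mul_ne_zero (pow_ne_zero _ hs1) j0)] at this
    exact_mod_cast this
  rw [HahnSeries.order_mul (pow_ne_zero _ hs1) j0, HahnSeries.order_pow, nsmul_eq_mul] at a4
  have hM' : (0 : ℚ) < M := Nat.cast_pos.2 (Nat.pos_of_ne_zero hM)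
  have a5 : (1 : ℚ) ≤ n := by
    have : (0 : ℚ) < n := hn ▸ mul_pos a1 hM'
    exact_mod_cast this
  have a6 : (0 : ℚ) ≤ eR (RatFunc ℂ) Q := Nat.cast_nonneg _
  have : (eR (RatFunc ℂ) Q : ℚ) ≤ M := by nlinarith
  exact_mod_cast this

variable {k κ : Type*} [Field k] [IsAlgClosed k] [Field κ] [Algebra k κ] [Algebra (RatFunc k) κ]
  [IsScalarTower k (RatFunc k) κ] [FiniteDimensional (RatFunc k) κ]
  [Algebra.IsSeparable (RatFunc k) κ] {r : ℂ → k} {wT : Valuation T ℝ≥0} {ρ : T → κ}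

theorem lev_rd (hr : IsRes v r) {x : HS ℂ} (h : Lev M x) : Lev M (rd hr x) :=
  fun g hg => h g fun e => hg (by rw [rd_coeff, e, hr.zero])

theorem vO_rd_tw (hr : IsRes v r) {a : HS ℂ} (ha : IntS v a) (b : ℚ) :
    IntS v (tw (ee b) a) ∧ vO k (rd hr (tw (ee b) a)) = vO k (rd hr a) := by
  have e : ∀ g, v ((tw (ee b) a).coeff g) = v (a.coeff g) := fun g => by
    rw [coeff_tw, map_mul, ee_apply, v_ex, one_mul]
  refine ⟨fun g => (e g).trans_le (ha g), vO_congr fun g => ?_⟩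
  rw [rd_coeff, rd_coeff, hr.zero_iff _ (ha g), hr.zero_iff _ ((e g).trans_le (ha g)), e]

/-- **the cusp `∞` and its reduction** -/
theorem cusp (hM : M ≠ 0) (h : Lvl M ι) (hG : IsG v qx w) (hw : ∀ x, wT x = w (ι x))
    (hT : Red v r wT ρ) (hx : xK k κ = ρ (xK ℂ T))
    (hinv : ∀ (g : T ≃ₐ[RatFunc ℂ] T) f, wT (g f) = wT f)
    (hf : ∀ γ : SL(2, ℤ), (∀ x, γ • ι x = ι x) → γ ∈ Gamma M ∨ -γ ∈ Gamma M) :
    ∃ (Q : Pl ℂ T) (Q' : Pl k κ), 1 < Q.v (xK ℂ T) ∧ 1 < Q'.v (xK k κ) ∧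
      ∀ g : T ≃ₐ[RatFunc ℂ] T, mapPl (g.restrictScalars ℂ) Q = Q →
        mapPl (bar hT (g.restrictScalars ℂ) (hinv g)) Q' = Q' := by
  obtain ⟨t, ht⟩ := h.exists_act ModularGroup.T⁻¹
  obtain ⟨Q, hQ, hQ'⟩ := exists_cusp hM h hf ht
  obtain ⟨ψ, h1, h2⟩ := exists_psi' hG hw hT
  have hr := hT.resC
  obtain ⟨j0, -, j2⟩ := order_j (h2 _ _ _ unS_e43.1 unS_dl (by rw [h.xj, qx_jF]))
    (lev_rd _ (lev_qf one_ne_zero isF_e43)) (lev_rd _ (lev_qf one_ne_zero isF_dl))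
    (by rw [rd_coeff, qf_e43_zero, hr.one]; exact one_ne_zero)
    (by rw [rd_coeff, qf_dl_zero, hr.zero]) (by rw [rd_coeff, qf_dl_one, hr.one]; exact one_ne_zero)
  let V := (vO k).comap ψ
  have hV : ∀ x, V x = vO k (ψ x) := fun _ => rfl
  have hj : 1 < V (xK k κ) := by rw [hV, hx]; exact (one_lt_vO j0).2 j2
  obtain ⟨Q', hE⟩ := exists_place (k := k) V (fun c hc => by rw [hV, h1, vO_C hc])
    ⟨_, (zero_lt_one.trans hj).ne', hj.ne'⟩
  have key : ∀ x, wT x ≤ 1 → V (ρ (t x)) = V (ρ x) := fun x hx => by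
    obtain ⟨a, b, ha, hb, e⟩ := hG.int_rep (hw x ▸ hx)
    have e1 := congrArg (vO k) (h2 x a b ha hb e)
    have e2 := congrArg (vO k) (h2 (t x) _ _ (vO_rd_tw hr ha 1).1 (hb.tw 1)
      (by rw [ht, qx_T, ← map_mul, e]))
    rw [map_mul, (vO_rd_tw hr ha 1).2, (vO_rd_tw hr hb.1 1).2, ← e1, map_mul] at e2
    exact mul_right_cancel₀ ((Valuation.ne_zero_iff _).2 ((unS_iff hr).1 hb).2) e2
  refine ⟨Q, Q', hQ, hE.one_lt_iff_one_lt.2 hj, fun g hg => mapPl_eq_of fun z => ?_⟩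
  obtain ⟨n, rfl⟩ := hQ' g hg
  obtain ⟨x, hx, rfl⟩ := hT.res.surj z
  refine (congrArg Q'.v (bar_res hT _ (hinv _) hx)).trans (hE.eq_iff.2 ?_)
  change V (ρ ((t ^ n) x)) = V (ρ x)
  clear hg
  induction n with
  | zero => rfl
  | succ n ih => rw [pow_succ', AlgEquiv.mul_apply, key _ (by rwa [hinv]), ih]

end Crest.Agent.T15.Ig
end
end

-- ▼ part T15/Ig_61
section

/-!
# Row 15, block T (helper61): Igusa's theorem on good reduction of modular curves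

`gen_F`, `good_F` for `Γ(M) ≤ Γ ≤ Γ₁(4)`, `4 ∣ M`, `M` a `v`-unit; `igStmt`.
-/

set_option autoImplicit false
set_option linter.unusedSectionVars false

noncomputable section

namespace Crest.Agent.T15.Ig

open CongruenceSubgroup Module
open scoped MatrixGroups NNReal
open Crest.Agent.T15.Mf Crest.Agent.T15.Cg Crest.Agent.T15.Lv
open Crest.Agent.R013.RR7_948 Crest.Agent.R013.RR8_948 Crest.Agent.R013.RR9_948
open Crest.Agent.R013.RR11_948 Crest.Agent.R013.RR12_948 Crest.Agent.R013.RR14_948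
open Crest.Agent.R013.RR19_948 Crest.Agent.R013.RR20_948
open Crest.Agent.R013.GR3_921 Crest.Agent.R013.GR4_921

universe u

theorem cuspStmt (k : Type u) [Field k] [IsAlgClosed k] : CuspStmt k :=
  fun M _ v _ _ _ _ _ _ _ _ _ hT hx hinv =>
    cusp (NeZero.ne M) (lvl_F M) (isG v) (fun _ => rfl) hT hx hinv fun γ hγ =>
      (fix_iff (Gamma_is_cong_sub M) γ).1 fun x hx => hγ ⟨x, hx⟩

variable {v : Valuation ℂ ℝ≥0} {k : Type u} {κ : Type*} [Field k] [IsAlgClosed k] [Field κ]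
  [Algebra k κ] {r : ℂ → k} {Γ : Subgroup SL(2, ℤ)} [Γ.FiniteIndex] {M : ℕ} {ρ : F Γ → κ}


/-- **Igusa**: good reduction, for any residue map and the `j`-line structure on the residue field -/
theorem good_F [Algebra (RatFunc k) κ] [IsScalarTower k (RatFunc k) κ]
    (h4 : 4 ∣ M) (hv : v (M : ℂ) = 1) (hle : Gamma M ≤ Γ) (hΓ : Γ ≤ Gamma1 4)
    (hL : Red v r (gwK v (F Γ)) ρ) (hx : xK k κ = ρ (xK ℂ (F Γ)))
    {l : ℕ} (hl : l.Prime) (hvl : v (l : ℂ) < 1) :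
    ∃ (_ : FiniteDimensional (RatFunc k) κ) (_ : Algebra.IsSeparable (RatFunc k) κ)
      (sp : Pl ℂ (F Γ) → Pl k κ), Disc.Good v r (gwK v (F Γ)) ρ sp :=
  good_F_of (cuspStmt k) h4 hv hle hΓ hL hx hl hvl

/-- **Igusa**: the `j`-line structure is part of the conclusion -/
theorem good_F' (h4 : 4 ∣ M) (hv : v (M : ℂ) = 1) (hle : Gamma M ≤ Γ) (hΓ : Γ ≤ Gamma1 4)
    (hL : Red v r (gwK v (F Γ)) ρ) {l : ℕ} (hl : l.Prime) (hvl : v (l : ℂ) < 1) :
    ∃ (_ : Algebra (RatFunc k) κ) (_ : IsScalarTower k (RatFunc k) κ)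
      (_ : FiniteDimensional (RatFunc k) κ) (_ : Algebra.IsSeparable (RatFunc k) κ)
      (sp : Pl ℂ (F Γ) → Pl k κ), Disc.Good v r (gwK v (F Γ)) ρ sp ∧
        xK k κ = ρ (xK ℂ (F Γ)) := by
  have ht := transcendental_of_notMem (res_xK_notMem hL)
  let i := ratAlg _ ht
  have j := ratAlg_tower _ ht
  obtain ⟨a, b, sp, h⟩ := good_F h4 hv hle hΓ hL (ratAlg_xK _ ht) hl hvl
  exact ⟨i, j, a, b, sp, h, ratAlg_xK _ ht⟩

theorem v_eq_one_of_not_dvd {l : ℕ} (hl : l.Prime) (hvl : v (l : ℂ) < 1) (hM : ¬ l ∣ M) :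
    v (M : ℂ) = 1 := by
  obtain ⟨a, b, hab⟩ := Nat.isCoprime_iff_coprime.2 ((Nat.Prime.coprime_iff_not_dvd hl).2 hM)
  have h1 := v_int (v := v) M
  rw [Int.cast_natCast] at h1
  by_contra hne
  have h2 : (a : ℂ) * l + b * M = 1 := by exact_mod_cast congrArg (Int.cast : ℤ → ℂ) hab
  have h3 : v ((a : ℂ) * l + b * M) < 1 := v.map_add_lt
    (by rw [map_mul, mul_comm]; exact mul_lt_one_of_lt_of_le hvl (v_int a))
    (by rw [map_mul, mul_comm]; exact mul_lt_one_of_lt_of_le (h1.lt_of_ne hne) (v_int b))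
  rw [h2, map_one] at h3
  exact lt_irrefl _ h3

/-- the residue field of an algebraically closed field is algebraically closed -/
theorem isAlgClosed_res {C k : Type*} [Field C] [IsAlgClosed C] [Field k] {v : Valuation C ℝ≥0}
    {r : C → k} (h : IsRes v r) : IsAlgClosed k := by
  refine IsAlgClosed.of_exists_root k fun p hp hirr => ?_
  have hs : Function.Surjective (resHom h) := fun y => by
    obtain ⟨x, hx, rfl⟩ := h.surj y
    exact ⟨⟨x, hx⟩, rfl⟩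
  obtain ⟨q, hq, hd, hm⟩ := Polynomial.lifts_and_degree_eq_and_monic
    (Polynomial.mem_lifts (f := resHom h) p |>.2 (Polynomial.map_surjective _ hs p)) hp
  obtain ⟨x, hx⟩ := IsAlgClosed.exists_aeval_eq_zero C q (by
    rw [hd]; exact (Polynomial.degree_pos_of_irreducible hirr).ne')
  obtain ⟨y, rfl⟩ := IsIntegrallyClosed.isIntegral_iff.1 (show IsIntegral _ x from ⟨q, hm, hx⟩)
  refine ⟨resHom h y, ?_⟩
  rw [Polynomial.aeval_algebraMap_apply, map_eq_zero_iff _ (IsFractionRing.injective _ C)] at hx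
  rw [← hq, Polynomial.eval_map, Polynomial.eval₂_hom, ← Polynomial.coe_aeval_eq_eval, hx, map_zero]

/-- **Igusa's theorem** -/
theorem igStmt : IgStmt := fun M _ H h4 hH v l hl hvl hM => by
  obtain ⟨r, hr, -⟩ := exists_isRes v
  have hk := isAlgClosed_res hr
  obtain ⟨κ, _, _, ρ, hL⟩ := exists_red (GH M H) hr
  obtain ⟨i, j, a, b, sp, h, hx⟩ := good_F' h4 (v_eq_one_of_not_dvd hl hvl hM) Gamma_le_GH
    (GH_le_G4 h4 hH) hL hl hvl
  exact ⟨_, κ, _, hk, _, _, i, j, a, b, r, ρ, sp, h, by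
    rw [← hx, del_xK]; exact one_ne_zero⟩

end Crest.Agent.T15.Ig
end
end

-- ▼ part T15/SrcF_71
section

/-!
# Row 15, block T (helper71): `Aut ℂ` on function fields inside `FF`; flat and unramified

`L` a function field over `ℂ` with an embedding `j` into `FF` whose image is stable under `σ`.
* `siF j hj σ h1 h2 : SI ℂ L ℂ L`;
* `exists_act`, `flat_FF`, `nos_FF`.
-/

set_option autoImplicit false
set_option linter.all false

noncomputable section

namespace Crest.Agent.T15.Disc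

open Polynomial WithZero Module
open scoped NNReal
open Crest.Agent.R013.RR7_948 Crest.Agent.R013.RR9_948
open Crest.Agent.R013.GR4_921
open Crest.Agent.R013.Frob1_914 Crest.Agent.R013.PicD_398
open Crest.Agent.R013.RR14_948 (del)
open Crest.Agent.T15.FlR Crest.Agent.T15.Mf

section si

variable {L : Type*} [Field L] [Algebra ℂ L]

/-- `σ ∈ Aut ℂ` restricted to a stable subfield of `FF` -/
theorem exists_siF (j : L →+* FF) (hj : ∀ c, j (algebraMap ℂ L c) = algebraMap ℂ FF c)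
    (σ : ℂ ≃+* ℂ) (h1 : ∀ u, ∃ u', j u' = σ • j u) (h2 : ∀ u, ∃ u', j u' = σ⁻¹ • j u) :
    ∃ e : SI ℂ L ℂ L, e.s = σ ∧ ∀ u, j (e.f u) = σ • j u := by
  choose f hf using h1
  choose f' hf' using h2
  let φ : L ≃+* L :=
    { toFun := f
      invFun := f'
      left_inv := fun u => j.injective (by rw [hf', hf, inv_smul_smul])
      right_inv := fun u => j.injective (by rw [hf, hf', smul_inv_smul])
      map_mul' := fun a b => j.injective (by rw [map_mul, hf, hf, hf, map_mul, smul_mul'])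
      map_add' := fun a b => j.injective (by rw [map_add, hf, hf, hf, map_add, smul_add]) }
  refine ⟨⟨σ, φ, fun c => j.injective ?_⟩, rfl, hf⟩
  show j (f _) = _
  rw [hf, hj, hj, aut_smul, gal_algebraMap]
  rfl

end si

variable {L : Type*} [Field L] [Algebra ℂ L]
  [Algebra (RatFunc ℂ) L] [IsScalarTower ℂ (RatFunc ℂ) L] [FiniteDimensional (RatFunc ℂ) L]
  {k κ : Type*} [Field k] [IsAlgClosed k] [Field κ] [Algebra k κ]
  [Algebra (RatFunc k) κ] [IsScalarTower k (RatFunc k) κ] [FiniteDimensional (RatFunc k) κ]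
  [Algebra.IsSeparable (RatFunc k) κ]

namespace Good

variable {v : Valuation ℂ ℝ≥0} {ρC : ℂ → k} {w : Valuation L ℝ≥0} {ρ : L → κ}
  {sp : Pl ℂ L → Pl k κ} (h : Good v ρC w ρ sp) {j : L →+* FF} {wF : Valuation FF ℝ≥0}

include h

omit h in
theorem iso_FF (hG : Cg.IsG v qx wF) (hw : ∀ u, w u = wF (j u)) {σ : ℂ ≃+* ℂ}
    (hσ : ∀ c, v (σ c) = v c) {e : SI ℂ L ℂ L} (he : ∀ u, j (e.f u) = σ • j u) (u : L) :
    w (e.f u) = w u := by
  rw [hw, he, Cg.w_aut hG hσ, ← hw]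

theorem res_FF (hG : Cg.IsG v qx wF) (hw : ∀ u, w u = wF (j u)) {σ : ℂ ≃+* ℂ}
    (hσ : ∀ c, v (σ c) = v c) (hσ' : ∀ c, v c ≤ 1 → v (σ c - c) < 1) {e : SI ℂ L ℂ L}
    (he : ∀ u, j (e.f u) = σ • j u) (u : L) (hu : w u ≤ 1) : ρ (e.f u) = ρ u := by
  rw [h.rd.res.eq_iff (by rw [iso_FF hG hw hσ he]; exact hu) hu, hw, map_sub, he]
  exact Cg.w_inert hG hσ' (by rw [← hw]; exact hu)

variable {G : Type*} [Group G] [MulSemiringAction G ℂ]

theorem exists_act (hj : ∀ c, j (algebraMap ℂ L c) = algebraMap ℂ FF c) (hG : Cg.IsG v qx wF)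
    (hw : ∀ u, w u = wF (j u))
    (hst : ∀ (g : G) u, ∃ u', j u' = MulSemiringAction.toRingEquiv G ℂ g • j u)
    (hiso : ∀ (g : G) c, v (g • c) = v c) (hin : ∀ (g : G) c, v c ≤ 1 → v (g • c - c) < 1)
    (horb : ∀ a : ℂ, (Set.range fun g : G => g • a).Finite)
    (hres : ∀ c : ℂ, v c ≤ 1 → ∃ a : ℂ, v (c - a) < 1 ∧ ∀ g : G, g • a = a)
    {x : L} (hx : w x ≤ 1) (hxf : ∀ g : G, MulSemiringAction.toRingEquiv G ℂ g • j x = j x)
    (hsep : del k κ (ρ x) ≠ 0) :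
    ∃ e : G → SI ℂ L ℂ L, Act w sp e ∧
      ∀ g u, j ((e g).f u) = MulSemiringAction.toRingEquiv G ℂ g • j u := by
  have hex : ∀ g : G, ∃ e : SI ℂ L ℂ L, e.s = MulSemiringAction.toRingEquiv G ℂ g ∧
      ∀ u, j (e.f u) = MulSemiringAction.toRingEquiv G ℂ g • j u := fun g =>
    exists_siF j hj _ (hst g) fun u => by
      have h1 : (MulSemiringAction.toRingEquiv G ℂ g)⁻¹ = MulSemiringAction.toRingEquiv G ℂ g⁻¹ :=
        RingEquiv.ext fun _ => rfl
      rw [h1]; exact hst g⁻¹ u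
  choose e he1 he2 using hex
  refine ⟨e, h.act_of (fun g c => by rw [he1]; rfl)
    (fun g => iso_FF hG hw (hiso g) (he2 g)) (fun g => h.res_FF hG hw (hiso g) (hin g) (he2 g))
    horb hx (fun g => j.injective (by rw [he2, hxf])) hsep hres, he2⟩

/-- **FLAT** for Kummer classes of modular functions -/
theorem flat_FF (hj : ∀ c, j (algebraMap ℂ L c) = algebraMap ℂ FF c) (hG : Cg.IsG v qx wF)
    (hw : ∀ u, w u = wF (j u))
    (hst : ∀ (g : G) u, ∃ u', j u' = MulSemiringAction.toRingEquiv G ℂ g • j u)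
    (hiso : ∀ (g : G) c, v (g • c) = v c) (hin : ∀ (g : G) c, v c ≤ 1 → v (g • c - c) < 1)
    (horb : ∀ a : ℂ, (Set.range fun g : G => g • a).Finite)
    (hres : ∀ c : ℂ, v c ≤ 1 → ∃ a : ℂ, v (c - a) < 1 ∧ ∀ g : G, g • a = a)
    {x : L} (hx : w x ≤ 1) (hxf : ∀ g : G, MulSemiringAction.toRingEquiv G ℂ g • j x = j x)
    (hsep : del k κ (ρ x) ≠ 0) {n : ℕ} (hn : n ≠ 0) {Λ V : Type*} [AddCommGroup V] [Finite V]
    {R : Λ → V → FF → Prop} (hR : KumR ℂ n fun l y (f : L) => R l y (j f)) {r : G → V → V}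
    (hr : ∀ l g y f, R l y f → R l (r g y) (MulSemiringAction.toRingEquiv G ℂ g • f)) :
    Flat v G r := by
  obtain ⟨e, hA, he⟩ := h.exists_act hj hG hw hst hiso hin horb hres hx hxf hsep
  exact h.flat_kum hA hn hR fun l g y f hf => by rw [he]; exact hr l g y _ hf


end Good

end Crest.Agent.T15.Disc
end
end

-- ▼ part T15/TFl_71
section

/-!
# Row 15, block T (helper71): parabolic classes are flat at `3`

`flat_par` : from Igusa's theorem and the divisibility of the divisors of parabolic Kummer classes.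
-/

set_option autoImplicit false
set_option linter.all false

noncomputable section

namespace Crest.Agent.T15.TFl

open Function CongruenceSubgroup
open scoped NNReal MatrixGroups
open Crest.Agent.T15.Mf Crest.Agent.T15.Lv Crest.Agent.T15.Bet Crest.Agent.T15.Hk
open Crest.Agent.T15.Cg Crest.Agent.T15.Disc
open Crest.Agent.R013.RR9_948 Crest.Agent.R013.RR8_948
open Crest.Agent.R018.Placesx484

variable {M : ℕ} [NeZero M] {H : Subgroup (ZMod M)ˣ} {n : ℕ} [NeZero n]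
  {A V : Type*} [AddCommGroup A] [Finite A] [AddCommGroup V]

theorem parS_comp {B : Type*} [AddCommGroup B] {Γ₀ : Subgroup SL(2, ℤ)} {φ : HH (Γ₀.map Mf.sq) A}
    (h : ParS Γ₀ φ) (l : A →+ B) : ParS Γ₀ (l.comp φ) := fun γ hγ ht => by
  rw [val_comp, h γ hγ ht, map_zero]

/-- the Kummer dictionary -/
theorem kumR (hD : DvdStmt) (h4 : 4 ∣ M) (hH : ∀ u ∈ H, ZMod.unitsMap h4 u = 1)
    {j : V →+ HH (Gq M H) A} (hm : ∀ c : A, n • c = 0) (hj : Injective j)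
    (hp : ∀ x, ParS (GH M H) (j x)) :
    KumR ℂ n fun (l : A →+ ZMod n) (x : V) (f : F (GH M H)) =>
      IsK n (Gq M H) (algebraMap (F (GH M H)) FF f) (l.comp (j x)) where
  ne h := fun e => h.ne (by rw [e, map_zero])
  dvd {l x f} h := hD M H h4 hH n f _ (parS_comp (hp x) l) h
  ex l x := by
    obtain ⟨f, hf⟩ := hex_Gq (NeZero.ne M) h4 hH (l.comp (j x))
    obtain ⟨y, rfl⟩ := (fix_Gq f).1 hf.fixed
    exact ⟨y, hf⟩
  sub h h' := by
    rw [map_div₀, map_sub, AddMonoidHom.comp_sub]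
    exact h.div h'
  uniq {l f} h := by
    rw [map_zero, AddMonoidHom.comp_zero] at h
    obtain ⟨y, h1, h2⟩ := h.exists_pow (NeZero.ne M) fun γ hγ =>
      Subgroup.mem_map_of_mem _ (Gamma_le_GH hγ)
    obtain ⟨y, rfl⟩ := (fix_Gq y).1 h1
    exact ⟨y, (algebraMap (F (GH M H)) FF).injective (by rw [map_pow, h2])⟩
  sep {x} h := hj (Bc.HH_sep hm fun l => by
    obtain ⟨g, hg⟩ := h l
    rw [map_zero, AddMonoidHom.comp_zero]
    rw [map_pow] at hg
    exact hg.unique (IsK.of_fixed (fun e => hg.ne (by rw [e, zero_pow (NeZero.ne n)]))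
      ((fix_Gq _).2 ⟨g, rfl⟩)))

theorem orb_fin {F0 : Type*} [Field F0] [Algebra F0 ℂ] [Algebra.IsAlgebraic F0 ℂ] (a : ℂ) :
    (Set.range fun g : ℂ ≃ₐ[F0] ℂ => g • a).Finite := by
  have hi : IsIntegral F0 a := Algebra.IsIntegral.isIntegral a
  refine ((minpoly F0 a).rootSet_finite ℂ).subset ?_
  rintro _ ⟨g, rfl⟩
  rw [Polynomial.mem_rootSet]
  refine ⟨minpoly.ne_zero hi, ?_⟩
  change Polynomial.aeval (g a) _ = 0
  rw [Polynomial.aeval_algHom_apply, minpoly.aeval, map_zero]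

/-- **FLAT** -/
theorem flat_par (hI : IgStmt) (hD : DvdStmt) {E : Type} [Field E] [CharZero E] [IsGalois ℚ E]
    [IsAlgClosed E] {ι : E →+* ℂ} {P : Place E} (Λ : Fl.Loc3 ι P) (h4 : 4 ∣ M) (hH : H ≤ H0 M)
    (h3 : ¬ 3 ∣ M) {j : V →+ HH (Gq M H) A} {u : (E ≃ₐ[ℚ] E) → V → V} (hm : ∀ c : A, n • c = 0)
    (hj : Injective j) (hp : ∀ x, ParS (GH M H) (j x)) (hu : ∀ σ, ActK n j σ (u (resA ι σ))) :
    FlR.Flat Λ.w Λ.G fun g => u (Λ.rG g) := by
  have hH' : ∀ u ∈ H, ZMod.unitsMap h4 u = 1 := fun _ hu => (mem_H0 h4).1 (hH hu)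
  have := fg_H h4 hH
  have := fin_HH (Γ := Gq M H) A
  have : Finite V := Finite.of_injective j hj
  obtain ⟨k, κ, _, _, _, _, _, _, _, _, r, ρ, sp, hG, hs⟩ :=
    hI M H h4 hH' Λ.w 3 Nat.prime_three (by exact_mod_cast Λ.w3) h3
  have hx : algebraMap (F (GH M H)) FF (xK ℂ (F (GH M H))) = jj := coe_xK (Γ₀ := GH M H)
  have hx1 : gwK Λ.w (F (GH M H)) (xK ℂ (F (GH M H))) ≤ 1 := by
    change gw Λ.w (algebraMap (F (GH M H)) FF _) ≤ 1
    rw [hx]
    exact (Ig.w_jF (isG Λ.w)).le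
  refine hG.flat_FF (j := algebraMap (F (GH M H)) FF) (fun _ => rfl) (isG Λ.w) (fun _ => rfl)
    (fun g y => ⟨⟨_, aut_mem_F (NeZero.ne M) _ y.2⟩, rfl⟩) Λ.w_G (fun g c hc => Λ.w_G_sub g hc)
    orb_fin (fun c hc => ?_) hx1 (fun g => by rw [hx, aut_jj]) hs (NeZero.ne n)
    (R := fun (l : A →+ ZMod n) x f => IsK n (Gq M H) f (l.comp (j x)))
    (kumR hD h4 hH' hm hj hp) fun l g y f hf => ?_
  · obtain ⟨z, h1, h2⟩ := Λ.res_I hc
    exact ⟨z, h2, fun g => h1 _ (Λ.inc_mem g)⟩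
  · rw [← Λ.resA_G]
    exact hu _ l y f hf

end Crest.Agent.T15.TFl
end
end

-- ▼ part T15/HkTL_62
section

/-!
# Row 15, block T (helper62): the Hecke half of the contract `TOut`

`lv` : the system of levels;  `HQ` : the Taylor–Wiles module;  `THk`, `thk` : the Hecke half of
`R.TLev`.
-/

set_option autoImplicit false
set_option linter.unusedSectionVars false

noncomputable section

namespace Crest.Agent.T15.Hk

open Finset Function IsLocalRing
open scoped MatrixGroups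
open Crest.Agent.T15.Mf Crest.Agent.T15.Lv Crest.Agent.T15.R
open Crest.Agent.T15.C (Gam In)
open Crest.Agent.T15.Top (Lc Plc IsFr Coef Cn)

/-- the levels `Γ₀(L) ∩ Γ₁(4)` and their Hecke correspondences -/
abbrev lv : R.Lv GQ where
  Γ L := Gq L (H0 L)
  c L p := ⟨(Tc ℤ (le_refl (H0 L)) p).1, (Tc ℤ (le_refl (H0 L)) p).2.1⟩

lemma T_lv (O : Type*) [CommRing O] {A : Type*} [AddCommGroup A] [Module O A] (L p : ℕ)
    (φ : HH (Gq L (H0 L)) A) : T A (lv.c L p) φ = TT O A L (H0 L) p φ := by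
  refine (T_bc (O' := O) (lv.c L p) φ).symm.trans (LinearMap.congr_fun (congrArg (T A)
    (Subtype.ext ?_)) φ)
  change bc O (Tc ℤ (le_refl (H0 L)) p).1 = (Tc O (le_refl (H0 L)) p).1
  by_cases hp : p.Prime
  · rw [Tc_val _ hp, Tc_val _ hp, bc_Tp]
  · rw [Tc_val' _ hp, Tc_val' _ hp, map_zero]

theorem tGrp {L : ℕ} (h0 : 0 < L) (h4 : 4 ∣ L) : TGrp lv L :=
  have : NeZero L := ⟨h0.ne'⟩
  ⟨fg_H h4 le_rfl, free_H h4 le_rfl, fun p p' _ _ => TT_comm (O := ℤ) (A := ℚ) (H := H0 L) p p'⟩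

section
variable {C : Type*} [CommRing C] {A : Type*} [AddCommGroup A] [Module C A]
  {r L m : ℕ} {q : Fin r → ℕ} {P : ℕ → Prop} {a α : ℕ → C}

lemma LN.of_eig {f : Module.End C A} {x : A} {b c : C} (h : f x = b • x)
    (hn : IsNilpotent (b - c)) : LN (f - c • 1) x :=
  (LN.of_nilp (hn.map (algebraMap C (Module.End C A))) x).of_eq (Algebra.commutes _ _)
    (by rw [Module.algebraMap_end_apply, sub_smul]; simp [h])

/-- the Hecke operators on the localisation -/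
def TE (p : ℕ) : Module.End C (EQ A L q m P a α) :=
  (TT C A (LQ L q) (H1 L q m) p).restrict fun _ hx => EL_TT hx p

@[simp] lemma coe_TE (p : ℕ) (x : EQ A L q m P a α) :
    (TE p x).1 = TT C A (LQ L q) (H1 L q m) p x.1 := rfl

/-- the diamond operators on the localisation -/
def Aux.DE [NeZero m] (h : Aux L q m) : Dl m r →* Module.End C (EQ A L q m P a α) where
  toFun δ := (h.dia C A δ).restrict fun _ hx => h.dia_mem A δ hx
  map_one' := LinearMap.ext fun x => Subtype.ext (by simp)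
  map_mul' δ δ' := LinearMap.ext fun x => Subtype.ext (by simp)

@[simp] lemma Aux.coe_DE [NeZero m] (h : Aux L q m) (δ : Dl m r) (x : EQ A L q m P a α) :
    (h.DE δ x).1 = h.dia C A δ x.1 := rfl


end

variable {O : Type} [CommRing O] [IsDomain O] [IsDiscreteValuationRing O] [Coef O]

/-- the reduction `O → O / 3 ^ n` -/
abbrev rd (n : ℕ) (a : ℕ → O) (p : ℕ) : Cn O n := algebraMap O (Cn O n) (a p)

instance (n : ℕ) : Finite (Cn O n) := finite_Cn n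

instance (n : ℕ) : Nontrivial (Cn O (n + 1)) :=
  Ideal.Quotient.nontrivial_iff.2 (ne_top_of_le_ne_top (maximalIdeal.isMaximal O).ne_top
    ((span_le (n + 1)).trans (Ideal.pow_le_self n.succ_ne_zero)))

instance (n : ℕ) : IsLocalRing (Cn O (n + 1)) :=
  .of_surjective' (Ideal.Quotient.mk _) Ideal.Quotient.mk_surjective

lemma three_pow_Cn (n : ℕ) : ((3 : ℕ) : Cn O n) ^ n = 0 := by
  have : Ideal.Quotient.mk (Ideal.span {(3 : O) ^ n}) ((3 : O) ^ n) = 0 :=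
    Ideal.Quotient.eq_zero_iff_mem.2 (Ideal.subset_span rfl)
  rw [map_pow, map_ofNat] at this
  exact_mod_cast this

lemma nil_Cn (n : ℕ) {x : O} (hx : x ∈ maximalIdeal O) :
    IsNilpotent (algebraMap O (Cn O (n + 1)) x) := by
  have : IsArtinianRing (Cn O (n + 1)) := isArtinian_of_finite
  obtain ⟨k, hk⟩ := IsArtinianRing.isNilpotent_jacobson_bot (R := Cn O (n + 1))
  rw [jacobson_eq_maximalIdeal _ bot_ne_top] at hk
  have hl := IsLocalHom.of_surjective (algebraMap O (Cn O (n + 1))) Ideal.Quotient.mk_surjective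
  exact ⟨k, by simpa [hk] using Ideal.pow_mem_pow (map_nonunit (algebraMap O (Cn O (n + 1))) x hx) k⟩

lemma un_of {n q : ℕ} {s α : O} (hq : 3 ∣ q - 1) (hq0 : 0 < q) (hd : IsUnit (s ^ 2 - 4 * q))
    (hα : α ^ 2 - s * α + q ∈ maximalIdeal O) : Lev.Un (q : Cn O (n + 1))
      (algebraMap O _ s) (algebraMap O _ α) := by
  have hc := charP_res (O := O)
  have u : ∀ x : O, residue O x ≠ 0 → IsUnit (algebraMap O (Cn O (n + 1)) x) := fun x hx =>
    ((residue_ne_zero_iff_isUnit x).1 hx).map _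
  have e1 : (q : ResidueField O) = 1 := by
    have := (CharP.cast_eq_zero_iff (ResidueField O) 3 _).2 hq
    rwa [Nat.cast_pred hq0, sub_eq_zero] at this
  have e2 := (residue_eq_zero_iff _).2 hα
  have e3 := (residue_ne_zero_iff_isUnit _).2 hd
  simp only [map_add, map_sub, map_mul, map_pow, map_natCast, map_ofNat, e1] at e2 e3
  have e4 : residue O α ≠ 0 := fun h => by simp [h] at e2
  have e5 : residue O s - 2 * residue O α ≠ 0 := fun h =>
    e3 (by linear_combination (residue O s - 2 * residue O α) * h - 4 * e2)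
  have u0 := nil_Cn n hα
  have u1 := u q (by simp [e1])
  have u2 := u (s - 2 * α) (by simpa [map_ofNat] using e5)
  have u3 := u (s - (q + 1) * α) (by
    simp only [map_sub, map_mul, map_add, map_natCast, e1, map_one, one_add_one_eq_two]; exact e5)
  have u4 := u (α ^ 2 - 1) (by
    simp only [map_sub, map_pow, map_one]
    exact fun h => mul_ne_zero e4 e5 (by linear_combination -h - e2))
  simp only [map_add, map_sub, map_mul, map_pow, map_natCast, map_ofNat, map_one] at u0 u1 u2 u3 u4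
  exact ⟨u0, u _ e4, u1, u2, u3, u4⟩

variable {r L n : ℕ} {q : Fin r → ℕ} {a α : ℕ → O}

lemma aux_of (h0 : 0 < L) (h4 : 4 ∣ L) (hi : Injective q) (hq : ∀ i, TWa L a n (q i)) :
    Aux L q (3 ^ (n + 1)) :=
  ⟨h0, h4, hi, fun i => (hq i).1.1, fun i h => (hq i).1.2 (h.mul_left 3), fun i => (hq i).2.1⟩

lemma exists_neis (ha : NEis a) {M : ℕ} (hM : M ≠ 0) (hL : L ∣ M) (n : ℕ) :
    ∃ p, Gd L p ∧ p ≡ 1 [MOD M] ∧ ¬ p ∣ M ∧ IsUnit (rd n a p - (p + 1)) := by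
  obtain ⟨p, h1, h2, h3, h4⟩ := ha M (3 * M) hM
  have h5 : ¬ p ∣ 3 * M := fun h => absurd (Nat.le_of_dvd (by omega) h) (by omega)
  exact ⟨p, ⟨h1, fun h => h5 (h.trans (mul_dvd_mul_left 3 hL))⟩, h3, fun h => h5 (h.mul_left 3),
    by simpa [sub_sub, rd] using h4.map (algebraMap O (Cn O n))⟩

lemma exists_sy (h : Aux L q (3 ^ (n + 1))) (ha : NEis a) (hq : ∀ i, TWa L a n (q i)) :
    ∃ α : ℕ → O, (∀ i, α (q i) ^ 2 - a (q i) * α (q i) + q i ∈ maximalIdeal O) ∧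
      Sy L q (Gd L) (rd (n + 1) a) (rd (n + 1) α) := by
  choose β hβ using fun i => (hq i).2.2.2
  obtain ⟨p, h1, -, h2, h3⟩ := exists_neis ha h.neZero.ne (dvd_LQ L q) (n + 1)
  refine ⟨extend q β 0, fun i => by rw [h.inj.extend_apply]; exact hβ i,
    fun _ hp => hp.1, fun i => (hq i).1, fun i => ?_, p, h1, h2, h3⟩
  rw [rd, rd, h.inj.extend_apply]
  exact un_of ((dvd_pow_self 3 n.succ_ne_zero).trans (hq i).2.1) (h.prime i).pos (hq i).2.2.1 (hβ i)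

/-- the Taylor–Wiles module -/
abbrev HQ (L : ℕ) (q : Fin r → ℕ) (n : ℕ) (a α : ℕ → O) :
    Submodule (Cn O (n + 1)) (HH (Gq (LQ L q) (H1 L q (3 ^ (n + 1)))) (Cn O (n + 1))) :=
  EQ (Cn O (n + 1)) L q (3 ^ (n + 1)) (Gd L) (rd (n + 1) a) (rd (n + 1) α)

/-- restriction of scalars -/
def rs (O : Type*) [CommRing O] {C H : Type*} [CommRing C] [Algebra O C] [AddCommGroup H]
    [Module C H] [Module O H] [IsScalarTower O C H] : Module.End C H →+* Module.End O H where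
  toFun f := f.restrictScalars O
  map_one' := rfl
  map_mul' _ _ := rfl
  map_zero' := rfl
  map_add' _ _ := rfl

lemma twg_del (n r : ℕ) : Pat.TWg 3 n (del (3 ^ (n + 1)) (r := r)) :=
  Pat.twg_pi (G := fun _ => Multiplicative (ZMod (3 ^ (n + 1)))) (fun _ => Multiplicative.ofAdd 1)
    (fun _ x => ⟨x.toAdd.val, by beta_reduce; rw [← ofAdd_nsmul]; simp⟩) (fun _ => n + 1)
    (fun _ => n.le_succ) fun _ => by simp

/-- the Hecke half of `TLev` -/
structure THk {Γ : Subgroup GQ} (c : ℕ → Corr ℤ Γ Γ) (L : ℕ) (a : ℕ → O) (n : ℕ)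
    {r : ℕ} (q : Fin r → ℕ) {Δ : Type} [CommGroup Δ] [Fintype Δ]
    {H : Type} [AddCommGroup H] [Module O H] [Module (Cn O (n + 1)) H]
    (Tp : ℕ → Module.End O H) (dia : Δ →* Module.End O H) (kap : H →+ HH Γ (Cn O (n + 1)))
    (lam : HH Γ (Cn O (n + 1)) →ₗ[Cn O (n + 1)] H) : Prop where
  free : ∃ (d : Type) (_ : Finite d) (m : d → H),
    LinearIndependent (Cn O (n + 1)) (fun x : Δ × d => dia x.1 (m x.2)) ∧
    Submodule.span (Cn O (n + 1)) (Set.range fun x : Δ × d => dia x.1 (m x.2)) = ⊤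
  res : ∀ p, Gd L p → (∀ i, p ≠ q i) → IsNilpotent (Tp p - algebraMap O _ (a p))
  kap0 : ∀ x, kap x = 0 → ∑ y, dia y x = 0
  kapT : ∀ p, Gd L p → (∀ i, p ≠ q i) → ∀ x, kap (Tp p x) = T (Cn O (n + 1)) (c p) (kap x)
  lamD : ∀ x φ, dia x (lam φ) = lam φ
  lamT : ∀ p, Gd L p → (∀ i, p ≠ q i) → ∀ φ, Tp p (lam φ) = lam (T (Cn O (n + 1)) (c p) φ)
  lam0 : ∀ (φ : HH Γ (Cn O (n + 1))) (b : ℕ → O),
    (∀ p, Gd L p → b p - a p ∈ maximalIdeal O ∧
      T (Cn O (n + 1)) (c p) φ = algebraMap O (Cn O (n + 1)) (b p) • φ) → lam φ = 0 → φ = 0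

/-- the Hecke operators, `O`-linearly -/
def TO (L : ℕ) (q : Fin r → ℕ) (n : ℕ) (a α : ℕ → O) (p : ℕ) : Module.End O (HQ L q n a α) :=
  rs O (TE p)

/-- the diamond operators, `O`-linearly -/
def Aux.DO (h : Aux L q (3 ^ (n + 1))) (a α : ℕ → O) :
    Dl (3 ^ (n + 1)) r →* Module.End O (HQ L q n a α) := (rs O).toMonoidHom.comp h.DE

theorem thk (h : Aux L q (3 ^ (n + 1))) (s : Sy L q (Gd L) (rd (n + 1) a) (rd (n + 1) α)) :
    ∃ kap lam, THk (lv.c L) L a n q (TO L q n a α) (h.DO a α) kap lam := by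
  obtain ⟨kap, lam, k0, kT, l0, lD, lT, li⟩ := h.kap_lam (Cn O (n + 1)) s
  obtain ⟨d, b, b1, b2⟩ := h.free (Cn O (n + 1)) s Nat.prime_three ⟨_, three_pow_Cn _⟩
    (isPGroup_Dl 3 _ r)
  have hb : ∀ j, b j ∈ HQ L q n a α := fun j => by
    rw [HQ, ← b2]; exact Submodule.subset_span ⟨(1, j), by simp⟩
  have := h.fin₁ (Cn O (n + 1))
  refine ⟨(kap ∘ₗ (HQ L q n a α).subtype).toAddMonoidHom, lam.codRestrict _ l0,
    { free := ⟨Fin d, inferInstance, fun j => ⟨b j, hb j⟩,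
        LinearIndependent.of_comp (HQ L q n a α).subtype b1, ?_⟩
      res := fun p h1 h2 => ?_
      kap0 := fun x hx => Subtype.ext (by simpa [rs, Aux.DO] using k0 x.1 x.2 hx)
      kapT := fun p h1 h2 x => (kT p h1.1 h2 x.1 x.2).trans (T_lv _ L p _).symm
      lamD := fun y φ => Subtype.ext (lD y φ)
      lamT := fun p h1 h2 φ => Subtype.ext ((lT p h1.1 h2 φ).trans (congrArg lam (T_lv _ L p _).symm))
      lam0 := fun φ b hb h0 => li φ (mem_EL.2 fun p hp => ?_) (congrArg Subtype.val h0) }⟩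
  · refine Submodule.map_injective_of_injective (HQ L q n a α).injective_subtype ?_
    rw [Submodule.map_span, ← Set.range_comp, Submodule.map_subtype_top]
    exact b2
  · have h3 : aS (univ.image q) (rd (n + 1) a) (rd (n + 1) α) p = rd (n + 1) a p :=
      if_neg (by simpa using fun i => (h2 i).symm)
    choose k hk using fun x : HQ L q n a α => mem_EL.1 x.2 p h1
    obtain ⟨K, hK⟩ := (Set.finite_range k).bddAbove
    refine ⟨K, LinearMap.ext fun x => Subtype.ext ?_⟩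
    have h4 : ∀ (j : ℕ) (x : HQ L q n a α), (((TO L q n a α p - algebraMap O _ (a p)) ^ j) x).1 =
        ((TT (Cn O (n + 1)) (Cn O (n + 1)) (LQ L q) (H1 L q (3 ^ (n + 1))) p - rd (n + 1) a p • 1 :
          Module.End (Cn O (n + 1)) _) ^ j) x.1 := fun j => by
      induction j with
      | zero => exact fun _ => rfl
      | succ j ih =>
        intro x
        rw [pow_succ _ j, pow_succ _ j, Module.End.mul_apply, ih, Module.End.mul_apply]
        rfl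
    rw [h4, ← h3]
    exact LN.pow_le (hk x) (hK ⟨x, rfl⟩)
  · exact LN.of_eig ((T_lv _ L p φ).symm.trans (hb p hp).2) (by
      have := nil_Cn n (hb p hp).1
      rwa [map_sub] at this)

end Crest.Agent.T15.Hk

end
end

-- ▼ part T15/HkTO_62
section

/-!
# Row 15, block T (helper62): the contract `TOut` from its Galois half
-/

set_option autoImplicit false

noncomputable section

namespace Crest.Agent.T15.Hk

open Crest.Agent.T15.R
open Crest.Agent.T15.Top (Lc Cn)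

/-- **the contract T from its Galois half** -/
theorem tOut_of {X : Lc} (hG : TD.GalStmt X) : TOut X lv :=
  fun L h0 h4 h3 => ⟨tGrp h0 h4, fun O _ _ _ _ a ha n r q hi hq => by
    have h := aux_of h0 h4 hi hq
    obtain ⟨α, -, s⟩ := exists_sy h ha hq
    obtain ⟨p, p1, p2, -, p3⟩ := exists_neis ha h.neZero.ne (dvd_LQ L q) (n + 1)
    obtain ⟨δ, ρ, g⟩ := hG O (Cn O (n + 1)) n r L q h (rd (n + 1) a) (rd (n + 1) α) (HQ L q n a α)
      ((HQ L q n a α).subtype.restrictScalars O) (TO L q n a α) (h.DO a α)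
      ⟨s, h3, fun c => by rw [nsmul_eq_mul, Nat.cast_pow, three_pow_Cn, zero_mul],
        ⟨p, p1, by exact_mod_cast p2.symm.dvd, p3⟩, Subtype.val_injective,
        fun x => ⟨fun hx => ⟨⟨x, hx⟩, rfl⟩, fun ⟨y, hy⟩ => hy ▸ y.2⟩, fun _ _ _ => rfl, fun _ _ => rfl⟩
    obtain ⟨kap, lam, t⟩ := thk h s
    exact ⟨_, _, _, _, δ, _, _, _, _, inferInstance, ρ, _, _, kap, lam,
      ⟨twg_del n r, t.free, g.cgT, g.cgD, g.opnH, g.opnδ, g.unrH, g.unrδ, g.es, t.res, g.tw, g.flat,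
        t.kap0, t.kapT, t.lamD, t.lamT, t.lam0⟩⟩⟩

end Crest.Agent.T15.Hk

end
end

-- ▼ part T15/RtV_22
section

/-!
# Row 15, block F (helper22): valuations of the constants of the normal form
-/

set_option autoImplicit false
set_option linter.all false

namespace Crest.Agent.T15.Rt

open scoped NNReal
open Crest.Agent.T15.Mo

variable {C : Type*} [Field C] {v : Valuation C ℝ≥0}

theorem le_one_of_sq {x : C} (h : v (x ^ 2) ≤ 1) : v x ≤ 1 := by
  rw [map_pow] at h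
  by_contra hc
  exact absurd h (not_le.2 (one_lt_pow₀ (not_le.1 hc) two_ne_zero))

theorem eq_one_of_mul {a b : ℝ≥0} (ha : a ≤ 1) (hb : b ≤ 1) (h : a * b = 1) : a = 1 ∧ b = 1 :=
  ⟨le_antisymm ha (h ▸ mul_le_of_le_one_right' hb), le_antisymm hb (h ▸ mul_le_of_le_one_left' ha)⟩

theorem eq_of_sq {a b : ℝ≥0} (h : a ^ 2 = b ^ 2) : a = b :=
  (pow_left_inj₀ zero_le zero_le two_ne_zero).1 h

theorem add_small {x y : C} (hx : v x = 1) (hy : v y < 1) : v (x + y) = 1 := by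
  rw [Valuation.map_add_eq_of_lt_left, hx]; rwa [hx]

theorem vadd {x y : C} (hx : v x ≤ 1) (hy : v y ≤ 1) : v (x + y) ≤ 1 :=
  (v.map_add _ _).trans (max_le hx hy)

theorem vsub {x y : C} (hx : v x ≤ 1) (hy : v y ≤ 1) : v (x - y) ≤ 1 :=
  (v.map_sub _ _).trans (max_le hx hy)

theorem vmul {x y : C} (hx : v x ≤ 1) (hy : v y ≤ 1) : v (x * y) ≤ 1 := by
  rw [map_mul]; exact mul_le_one' hx hy

theorem vneg {x : C} (hx : v x ≤ 1) : v (-x) ≤ 1 := by rwa [Valuation.map_neg]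

theorem vnat (n : ℕ) : v (n : C) ≤ 1 := by
  induction n with
  | zero => simp
  | succ n ih => rw [Nat.cast_succ]; exact vadd ih (by simp)

theorem vlt {x y : C} (hx : v x < 1) (hy : v y ≤ 1) : v (x * y) < 1 := by
  rw [map_mul]; exact (mul_le_of_le_one_right' hy).trans_lt hx

/-- integral parameters, odd residue characteristic -/
structure Itg (v : Valuation C ℝ≥0) (P : Par C) : Prop where
  two : v 2 = 1
  p1 : v P.p1 ≤ 1
  p2 : v P.p2 ≤ 1

namespace Itg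

variable {P : Par C} (h : Itg v P)
include h

theorem p3 : v P.p3 ≤ 1 := by rw [P.p3_eq]; exact vsub (vneg h.p1) h.p2
theorem d1 : v P.d1 ≤ 1 := vsub h.p2 h.p3
theorem d2 : v P.d2 ≤ 1 := vsub h.p3 h.p1
theorem d3 : v P.d3 ≤ 1 := vsub h.p1 h.p2

omit h in
theorem al_sq (P : Par C) : v P.al ^ 2 = v P.p2 ^ 3 * v P.d2 := by
  rw [← map_pow, P.al_sq, map_mul, Valuation.map_neg, map_pow]
omit h in
theorem be_sq (P : Par C) : v P.be ^ 2 = v P.p3 ^ 3 * v P.d3 := by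
  rw [← map_pow, P.be_sq, map_mul, map_pow]

theorem al' : v (P.al / P.p2) ≤ 1 := le_one_of_sq (by
  have := P.h2
  rw [div_pow, P.al_sq, show -P.p2 ^ 3 * P.d2 / P.p2 ^ 2 = -(P.p2 * P.d2) by field_simp]
  exact vneg (vmul h.p2 h.d2))
theorem be' : v (P.be / P.p3) ≤ 1 := le_one_of_sq (by
  have := P.h3
  rw [div_pow, P.be_sq, show P.p3 ^ 3 * P.d3 / P.p3 ^ 2 = P.p3 * P.d3 by field_simp]
  exact vmul h.p3 h.d3)
theorem al : v P.al ≤ 1 := by
  rw [← div_mul_cancel₀ P.al P.h2]; exact vmul h.al' h.p2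
theorem be : v P.be ≤ 1 := by
  rw [← div_mul_cancel₀ P.be P.h3]; exact vmul h.be' h.p3

omit h in
theorem vS (P : Par C) : v (P.al + P.be) * v (P.al - P.be) = v P.p1 ^ 3 * v P.d1 := by
  rw [← map_mul, P.sq_sub, map_mul, map_pow]
omit h in
theorem vX (P : Par C) : v (P.al * P.p3 + P.be * P.p2) * v (P.al * P.p3 - P.be * P.p2) =
    v P.p2 ^ 2 * v P.p3 ^ 2 * (v P.p1 * v P.d1) := by
  rw [← map_mul, P.sq_sub2]; simp only [map_mul, map_pow]
omit h in
theorem vE (P : Par C) : v (P.be * P.d3 * P.p2 + P.al * P.d2 * P.p3) *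
    v (P.be * P.d3 * P.p2 - P.al * P.d2 * P.p3) =
    v P.p2 ^ 2 * v P.p3 ^ 2 * (v P.p1 * v P.d1 ^ 3) := by
  rw [← map_mul, P.sq_sub3]; simp only [Valuation.map_neg, map_mul, map_pow]
omit h in
theorem va1 (P : Par C) : v P.a1 = v P.p1 / v P.d1 := by
  rw [Par.a1, map_div₀, Valuation.map_neg]
omit h in
theorem va2 (P : Par C) : v P.a2 = v P.d1 / v P.p1 := by
  rw [Par.a2, map_div₀, Valuation.map_neg]
omit h in
theorem va3 (P : Par C) : v P.a3 = v (P.al + P.be) / v (P.al - P.be) := by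
  rw [P.a3_eq, map_div₀]

theorem vc : v P.c = v P.t * v P.p1 * v (P.be * P.d3 * P.p2 + P.al * P.d2 * P.p3) /
    (v P.al * v P.be) := by
  rw [P.c_eq]; simp only [map_div₀, map_mul, h.two, one_mul]

theorem v12 : v (P.a1 - P.a2) * (v P.p1 * v P.d1) = v P.p2 * v P.p3 := by
  have := congrArg v P.a1_sub_a2
  rw [show (4 : C) = 2 * 2 by norm_num] at this
  simpa only [map_mul, Valuation.map_neg, h.two, one_mul] using this
theorem v31 : v (P.a3 - P.a1) * (v (P.al - P.be) * v P.d1) = v (P.al * P.p3 - P.be * P.p2) := by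
  have := congrArg v P.a3_sub_a1
  simpa only [map_mul, Valuation.map_neg, h.two, one_mul] using this
theorem v32 : v (P.a3 - P.a2) * (v (P.al - P.be) * v P.p1) = v (P.al * P.p3 + P.be * P.p2) := by
  have := congrArg v P.a3_sub_a2
  simpa only [map_mul, Valuation.map_neg, h.two, one_mul] using this

/-- rows `p2, p3, d2, d3` and the generic row -/
theorem row0 (h1 : v P.p1 = 1) (hd : v P.d1 = 1) :
    v P.a1 = 1 ∧ v P.a2 = 1 ∧ v P.a3 = 1 ∧ v (P.a1 - P.a2) = v P.p2 * v P.p3 ∧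
    v (P.a3 - P.a1) = v P.p2 * v P.p3 ∧ v (P.a3 - P.a2) = v P.p2 * v P.p3 ∧
    v P.c ^ 2 * (v P.p2 * v P.p3 * (v P.d2 * v P.d3)) = v P.t ^ 2 := by
  have n2 := P.h2; have n3 := P.h3
  have m2 : v P.p2 ≠ 0 := by simpa using n2
  have m3 : v P.p3 ≠ 0 := by simpa using n3
  obtain ⟨s1, s2⟩ := eq_one_of_mul (vadd h.al h.be) (vsub h.al h.be)
    (by rw [vS, h1, hd]; simp)
  have eX : ∀ ε : C, P.al * P.p3 + ε * (P.be * P.p2) =
      P.p2 * P.p3 * (P.al / P.p2 + ε * (P.be / P.p3)) := fun ε => by field_simp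
  have eE : ∀ ε : C, P.be * P.d3 * P.p2 + ε * (P.al * P.d2 * P.p3) =
      P.p2 * P.p3 * (P.be / P.p3 * P.d3 + ε * (P.al / P.p2 * P.d2)) := fun ε => by field_simp
  have x1 := eX 1; have x2 := eX (-1); have e1 := eE 1; have e2 := eE (-1)
  simp only [one_mul, neg_mul, ← sub_eq_add_neg] at x1 x2 e1 e2
  have can : ∀ a b : ℝ≥0, v P.p2 * v P.p3 * a * (v P.p2 * v P.p3 * b) =
      v P.p2 ^ 2 * v P.p3 ^ 2 * 1 → a * b = 1 := fun a b e =>
    mul_left_cancel₀ (mul_ne_zero (pow_ne_zero 2 m2) (pow_ne_zero 2 m3)) (by rw [← e]; ring)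
  have hX := vX (v := v) P
  have hE := vE (v := v) P
  rw [h1, hd, x1, x2, map_mul, map_mul, map_mul, map_mul, one_mul] at hX
  rw [h1, hd, e1, e2, map_mul, map_mul, map_mul, map_mul, one_pow, one_mul] at hE
  obtain ⟨t1, t2⟩ := eq_one_of_mul (vadd h.al' h.be') (vsub h.al' h.be') (can _ _ hX)
  obtain ⟨u1, -⟩ := eq_one_of_mul (vadd (vmul h.be' h.d3) (vmul h.al' h.d2))
    (vsub (vmul h.be' h.d3) (vmul h.al' h.d2)) (can _ _ hE)
  have a := h.v12; have b := h.v31; have c := h.v32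
  rw [h1, hd, one_mul, mul_one] at a
  rw [s2, hd, one_mul, mul_one, x2, map_mul, map_mul, t2, mul_one] at b
  rw [s2, h1, one_mul, mul_one, x1, map_mul, map_mul, t1, mul_one] at c
  refine ⟨by rw [va1, h1, hd, div_one], by rw [va2, h1, hd, div_one], by rw [va3, s1, s2, div_one],
    a, b, c, ?_⟩
  have ma : v P.al ≠ 0 := by simpa using P.al_ne
  have mb : v P.be ≠ 0 := by simpa using P.be_ne
  have md2 : v P.d2 ≠ 0 := by simpa using P.d2_ne
  have md3 : v P.d3 ≠ 0 := by simpa using P.d3_ne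
  rw [h.vc, h1, e1, map_mul, map_mul, u1, div_pow, mul_pow (v P.al), al_sq, be_sq]
  field_simp

theorem units (h2 : v P.p2 = 1) (h3 : v P.p3 = 1) (k2 : v P.d2 = 1) (k3 : v P.d3 = 1) :
    v P.al = 1 ∧ v P.be = 1 :=
  ⟨eq_of_sq (by rw [al_sq, h2, k2]; simp), eq_of_sq (by rw [be_sq, h3, k3]; simp)⟩

theorem cases (hb : v P.be = 1) : v (P.al - P.be) = 1 ∨ v (P.al + P.be) = 1 := by
  by_contra hc
  push Not at hc
  have a := lt_of_le_of_ne (vsub h.al h.be) hc.1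
  have b := lt_of_le_of_ne (vadd h.al h.be) hc.2
  have c := lt_of_le_of_lt (v.map_sub _ _) (max_lt b a)
  rw [show P.al + P.be - (P.al - P.be) = 2 * P.be by ring, map_mul, h.two, hb, one_mul] at c
  exact lt_irrefl _ c

/-- row `p1` -/
theorem row1 (h1 : v P.p1 < 1) (h2 : v P.p2 = 1) :
    v P.a1 = v P.p1 ∧ v P.a2 = (v P.p1)⁻¹ ∧
    ((v P.a3 = v P.p1 ^ 3 ∧ v P.c = v P.t * v P.p1) ∨
      (v P.a3 = (v P.p1 ^ 3)⁻¹ ∧ v P.c = v P.t * v P.p1 ^ 2)) := by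
  have n2 : v (-P.p2) = 1 := by rwa [Valuation.map_neg]
  have h3 : v P.p3 = 1 := by
    rw [P.p3_eq, show -P.p1 - P.p2 = -P.p2 + P.p1 * -1 by ring]
    exact add_small n2 (vlt h1 (by simp))
  have k1 : v P.d1 = 1 := by
    rw [Par.d1, P.p3_eq, show P.p2 - (-P.p1 - P.p2) = 2 * P.p2 + P.p1 by ring]
    exact add_small (by rw [map_mul, h.two, h2, one_mul]) h1
  have k2 : v P.d2 = 1 := by
    rw [Par.d2, show P.p3 - P.p1 = P.p3 + P.p1 * -1 by ring]
    exact add_small h3 (vlt h1 (by simp))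
  have k3 : v P.d3 = 1 := by
    rw [Par.d3, show P.p1 - P.p2 = -P.p2 + P.p1 by ring]
    exact add_small n2 h1
  obtain ⟨ha, hb⟩ := h.units h2 h3 k2 k3
  have hS := vS (v := v) P
  have hE := vE (v := v) P
  rw [k1, mul_one] at hS
  rw [h2, h3, k1] at hE
  have i3 : v (3 * P.p2 + 2 * P.p1) ≤ 1 :=
    vadd (vmul (by simpa using vnat (v := v) 3) h.p2) (vmul h.two.le h.p1)
  refine ⟨by rw [va1, k1, div_one], by rw [va2, k1, one_div], ?_⟩
  rcases h.cases hb with s | s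
  · left
    rw [s, mul_one] at hS
    have e : v (P.be * P.d3 * P.p2 + P.al * P.d2 * P.p3) = 1 := by
      rw [show P.be * P.d3 * P.p2 + P.al * P.d2 * P.p3 = P.p2 ^ 2 * (P.al - P.be) +
        P.p1 * (P.be * P.p2 + P.al * (3 * P.p2 + 2 * P.p1)) by
          rw [Par.d2, Par.d3, P.p3_eq]; ring]
      exact add_small (by rw [map_mul, map_pow, h2, s]; simp)
        (vlt h1 (vadd (vmul h.be h.p2) (vmul h.al i3)))
    exact ⟨by rw [va3, hS, s, div_one], by rw [h.vc, e, ha, hb]; simp⟩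
  · right
    rw [s, one_mul] at hS
    have e : v (P.be * P.d3 * P.p2 - P.al * P.d2 * P.p3) = 1 := by
      rw [show P.be * P.d3 * P.p2 - P.al * P.d2 * P.p3 = -P.p2 ^ 2 * (P.al + P.be) +
        P.p1 * (P.be * P.p2 - P.al * (3 * P.p2 + 2 * P.p1)) by
          rw [Par.d2, Par.d3, P.p3_eq]; ring]
      exact add_small (by rw [map_mul, Valuation.map_neg, map_pow, h2, s]; simp)
        (vlt h1 (vsub (vmul h.be h.p2) (vmul h.al i3)))
    rw [e] at hE
    simp only [one_pow, one_mul, mul_one] at hE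
    exact ⟨by rw [va3, hS, s, one_div], by rw [h.vc, hE, ha, hb]; simp [sq, mul_assoc]⟩

/-- row `d1` -/
theorem rowd (three : v 3 = 1) (k1 : v P.d1 < 1) (h2 : v P.p2 = 1) :
    v P.a1 = (v P.d1)⁻¹ ∧ v P.a2 = v P.d1 ∧
    ((v P.a3 = v P.d1 ∧ v (P.a3 - P.a2) = v P.d1 ∧ v P.c = v P.t) ∨
      (v P.a3 = (v P.d1)⁻¹ ∧ v (P.a3 - P.a1) = (v P.d1)⁻¹ ∧ v P.c = v P.t * v P.d1 ^ 3)) := by
  have e3 : P.p3 = P.p2 - P.d1 := by rw [Par.d1]; ring
  have e1 : P.p1 = -2 * P.p2 + P.d1 := by rw [Par.d1]; linear_combination P.sum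
  have md : v P.d1 ≠ 0 := by simpa using P.d1_ne
  have h3 : v P.p3 = 1 := by
    rw [e3, show P.p2 - P.d1 = P.p2 + P.d1 * -1 by ring]
    exact add_small h2 (vlt k1 (by simp))
  have h1 : v P.p1 = 1 := by
    rw [e1]
    exact add_small (by rw [map_mul, Valuation.map_neg, h.two, h2, one_mul]) k1
  have k2 : v P.d2 = 1 := by
    rw [show P.d2 = 3 * P.p2 + P.d1 * -2 by rw [Par.d2, Par.d1]; linear_combination -P.sum]
    exact add_small (by rw [map_mul, three, h2, one_mul]) (vlt k1 (vneg h.two.le))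
  have k3 : v P.d3 = 1 := by
    rw [show P.d3 = -3 * P.p2 + P.d1 by rw [Par.d3, Par.d1]; linear_combination P.sum]
    exact add_small (by rw [map_mul, Valuation.map_neg, three, h2, one_mul]) k1
  obtain ⟨ha, hb⟩ := h.units h2 h3 k2 k3
  have hS := vS (v := v) P
  have hX := vX (v := v) P
  have hE := vE (v := v) P
  rw [h1, one_pow, one_mul] at hS
  rw [h1, h2, h3] at hX hE
  have i5 : v (-5 * P.p2 + 2 * P.d1) ≤ 1 :=
    vadd (vmul (vneg (by simpa using vnat (v := v) 5)) h.p2) (vmul h.two.le h.d1)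
  have f2 : P.d2 = 3 * P.p2 - 2 * P.d1 := by rw [Par.d2, Par.d1]; linear_combination -P.sum
  have f3 : P.d3 = -3 * P.p2 + P.d1 := by rw [Par.d3, Par.d1]; linear_combination P.sum
  refine ⟨by rw [va1, h1, one_div], by rw [va2, h1, div_one], ?_⟩
  rcases h.cases hb with s | s
  · left
    rw [s, mul_one] at hS
    have x : v (P.al * P.p3 - P.be * P.p2) = 1 := by
      rw [show P.al * P.p3 - P.be * P.p2 = P.p2 * (P.al - P.be) + P.d1 * -P.al by rw [e3]; ring]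
      exact add_small (by rw [map_mul, h2, s, one_mul]) (vlt k1 (vneg h.al))
    have e : v (P.be * P.d3 * P.p2 + P.al * P.d2 * P.p3) = 1 := by
      rw [show P.be * P.d3 * P.p2 + P.al * P.d2 * P.p3 = 3 * P.p2 ^ 2 * (P.al - P.be) +
        P.d1 * (P.be * P.p2 + P.al * (-5 * P.p2 + 2 * P.d1)) by rw [f2, f3, e3]; ring]
      exact add_small (by rw [map_mul, map_mul, map_pow, three, h2, s]; simp)
        (vlt k1 (vadd (vmul h.be h.p2) (vmul h.al i5)))
    rw [x] at hX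
    simp only [one_pow, one_mul, mul_one] at hX
    have c := h.v32
    rw [s, h1, hX, one_mul, mul_one] at c
    exact ⟨by rw [va3, hS, s, div_one], c, by rw [h.vc, e, ha, hb, h1]; simp⟩
  · right
    rw [s, one_mul] at hS
    have x : v (P.al * P.p3 + P.be * P.p2) = 1 := by
      rw [show P.al * P.p3 + P.be * P.p2 = P.p2 * (P.al + P.be) + P.d1 * -P.al by rw [e3]; ring]
      exact add_small (by rw [map_mul, h2, s, one_mul]) (vlt k1 (vneg h.al))
    have e : v (P.be * P.d3 * P.p2 - P.al * P.d2 * P.p3) = 1 := by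
      rw [show P.be * P.d3 * P.p2 - P.al * P.d2 * P.p3 = -3 * P.p2 ^ 2 * (P.al + P.be) +
        P.d1 * (P.be * P.p2 - P.al * (-5 * P.p2 + 2 * P.d1)) by rw [f2, f3, e3]; ring]
      exact add_small (by rw [map_mul, map_mul, Valuation.map_neg, map_pow, three, h2, s]; simp)
        (vlt k1 (vsub (vmul h.be h.p2) (vmul h.al i5)))
    rw [x] at hX
    rw [e] at hE
    simp only [one_pow, one_mul, mul_one] at hX hE
    have c := h.v31
    rw [hS, hX] at c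
    refine ⟨by rw [va3, hS, s, one_div], ?_, by rw [h.vc, hE, ha, hb, h1]; simp⟩
    field_simp at c ⊢
    exact c

end Itg

end Crest.Agent.T15.Rt
end

-- ▼ part T15/NfC_2
section

/-!
# Row 15, block F (helper2): reduction tables and the action of inertia

* `iota_pic` : the hyperelliptic involution is `-1` on classes of degree zero (odd degree);
* `Tab` : a reduction table with radii and scales in `|ϖ|^ℤ`; `Tab.act`, `Tab.triv`, `Tab.neg`;
* `irr` : `σ ^ 2 = -1`, `τ σ = - σ τ`.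
-/

set_option autoImplicit false
set_option linter.all false

namespace Crest.Agent.T15.Nf

open Polynomial Module
open scoped NNReal
open Crest.Agent.R013.RR7_948 Crest.Agent.R013.RR8_948 Crest.Agent.R013.RR9_948
open Crest.Agent.R013.RR11_948 Crest.Agent.R013.RR12_948 Crest.Agent.R013.PicD_398
open Crest.Agent.R013.GR2_921 Crest.Agent.R013.GR4_921 Crest.Agent.R013.Frob1_914
open Crest.Agent.T15.Hy

section iota

variable {k K : Type*} [Field k] [IsAlgClosed k] [Field K] [Algebra k K] {F : k[X]} {x w : K}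
  [Algebra (RatFunc k) K] [IsScalarTower k (RatFunc k) K]
  [FiniteDimensional (RatFunc k) K] [Algebra.IsSeparable (RatFunc k) K]

theorem iota_single (h : Hyp F x w) (hodd : Odd F.natDegree) (P : Pl k K) :
    cls (Finsupp.single P (1 : ℤ)) + cls (Finsupp.single (h.siota.pl P) (1 : ℤ)) =
      cls (Dinf k x) := by
  rcases le_or_gt (P.v x) 1 with hP | hP
  · have h1 := h.at_ev hP
    have h2 := h.cls_pt_add (h1.sq h.sq)
    rwa [h.pt_eq h1, h.pt_eq (h1.iota h)] at h2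
  · have h1 : h.siota.pl P = P := h.inf_unique hodd (by rwa [h.siota_v, h.iota_x]) hP
    have h2 : Dinf k x = Finsupp.single P (Dinf k x P) := by
      ext Q
      by_cases hQ : P = Q
      · subst hQ; simp
      · rw [Finsupp.single_eq_of_ne' hQ]
        exact Dinf_of_le h.x_ne (not_lt.mp fun h3 => hQ (h.inf_unique hodd hP h3))
    have h3 := h.degD_Dinf
    rw [h2, degD_single, degP_eq_one] at h3
    have h4 : Dinf k x P = 2 := by simpa using h3
    rw [h1, h2, h4, ← map_add, ← Finsupp.single_add]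
    rfl

theorem iota_cls (h : Hyp F x w) (hodd : Odd F.natDegree) (D : Pl k K →₀ ℤ) :
    cls D + h.siota.pic (cls D) = degD D • cls (Dinf k x) := by
  induction D using Finsupp.induction_linear with
  | zero => simp [degD_zero]
  | add D E hD hE => rw [map_add, map_add, degD_add, add_zsmul, ← hD, ← hE]; abel
  | single P n =>
    rw [SI.pic_cls, SI.D_single, degD_single, degP_eq_one, ← iota_single h hodd P]
    have : ∀ Q : Pl k K, cls (Finsupp.single Q n) = n • cls (Finsupp.single Q (1 : ℤ)) := by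
      intro Q; rw [← map_zsmul, Finsupp.smul_single, smul_eq_mul, mul_one]
    rw [this, this]
    simp only [Nat.cast_one, mul_one, zsmul_add]

theorem iota_pic (h : Hyp F x w) (hodd : Odd F.natDegree) {y : Pic k K} (hy : degPic y = 0) :
    h.siota.pic y = -y := by
  obtain ⟨D, rfl⟩ := cls_surjective y
  have := iota_cls h hodd D
  rw [degPic_cls] at hy
  rw [hy, zero_zsmul] at this
  exact (neg_eq_of_add_eq_zero_right this).symm

omit [IsAlgClosed k] in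
theorem degPic_of_tors {n : ℕ} (hn : n ≠ 0) {y : Pic k K} (hy : n • y = 0) : degPic y = 0 := by
  have := congrArg degPic hy
  rw [map_nsmul, map_zero, smul_eq_zero] at this
  exact this.resolve_left hn

end iota

section inert

variable {C : Type*} [Field C] {vC : Valuation C ℝ≥0}

/-- `s` is trivial on residues -/
def Inr (vC : Valuation C ℝ≥0) (s : C ≃+* C) : Prop := ∀ c, vC c ≤ 1 → vC (s c - c) < 1

theorem Inr.unit {s : C ≃+* C} (hs : Inr vC s) {u : C} (hu : vC u = 1) : vC (s u) = 1 := by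
  have : s u = u + (s u - u) := by ring
  rw [this, Valuation.map_add_eq_of_lt_left, hu]
  rw [hu]; exact hs u hu.le

theorem Inr.le {s : C ≃+* C} (hs : Inr vC s) {u : C} (hu : vC u ≤ 1) : vC (s u) ≤ 1 := by
  have : s u = u + (s u - u) := by ring
  rw [this]; exact (Valuation.map_add _ _ _).trans (max_le hu (hs u hu).le)

theorem Inr.trans {s t : C ≃+* C} (hs : Inr vC s) (ht : Inr vC t) : Inr vC (s.trans t) := by
  intro c hc
  have : t (s c) - c = (t (s c) - s c) + (s c - c) := by ring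
  show vC (t (s c) - c) < 1
  rw [this]
  exact lt_of_le_of_lt (Valuation.map_add _ _ _) (max_lt (ht _ (hs.le hc)) (hs c hc))

/-- a unit whose square is fixed is fixed -/
theorem Inr.fix_of_sq {s : C ≃+* C} (hs : Inr vC s) (h2 : vC 2 = 1) {u : C} (hu : vC u = 1)
    (h : s (u ^ 2) = u ^ 2) : s u = u := by
  rw [map_pow] at h
  rcases sq_eq_sq_iff_eq_or_eq_neg.mp h with h1 | h1
  · exact h1
  · have := hs u hu.le
    rw [h1, show -u - u = -(2 * u) by ring, Valuation.map_neg, map_mul, h2, hu, one_mul] at this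
    exact absurd this (lt_irrefl _)

/-- the character of the value group -/
theorem Inr.chi {s : C ≃+* C} (hs : Inr vC s) {ϖ ζ : C} (h0 : ϖ ≠ 0) (hζ : s ϖ = ζ * ϖ)
    {x : C} {j : ℤ} (hx : vC x = vC ϖ ^ j) {ε : C} (hε : ζ ^ j = ε) :
    vC (ε * x / s x - 1) < 1 := by
  have hv : vC ϖ ≠ 0 := by simpa using h0
  have hζ0 : ζ ≠ 0 := by
    rintro rfl
    rw [zero_mul] at hζ
    exact h0 (by simpa using hζ)
  have hu : vC (x / ϖ ^ j) = 1 := by rw [map_div₀, map_zpow₀, hx, div_self (zpow_ne_zero j hv)]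
  have h1 := hs.unit hu
  have h2 := hs _ hu.le
  have h3 : s (x / ϖ ^ j) ≠ 0 := by intro h; rw [h, map_zero] at h1; exact zero_ne_one h1
  have h4 : s x = s (x / ϖ ^ j) * (ζ ^ j * ϖ ^ j) := by
    rw [← mul_zpow, ← hζ, ← map_zpow₀, ← map_mul, div_mul_cancel₀ _ (zpow_ne_zero j h0)]
  have h5 : ε * x / s x - 1 = -(s (x / ϖ ^ j) - x / ϖ ^ j) / s (x / ϖ ^ j) := by
    have := zpow_ne_zero j h0
    have := zpow_ne_zero j hζ0
    rw [h4, ← hε]
    field_simp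
    ring
  rw [h5, map_div₀, Valuation.map_neg, h1, div_one]
  exact h2

/-- an element whose square is fixed and whose norm is a power of the norm of a fixed element -/
theorem Inr.fix_of_sq' {s : C ≃+* C} (hs : Inr vC s) (h2 : vC 2 = 1) {ϖ : C} (h0 : ϖ ≠ 0)
    (hϖ : s ϖ = ϖ) {u : C} {j : ℤ} (hu : vC u = vC ϖ ^ j) (h : s (u ^ 2) = u ^ 2) : s u = u := by
  have hv : vC ϖ ≠ 0 := by simpa using h0
  have h1 : vC (u / ϖ ^ j) = 1 := by rw [map_div₀, map_zpow₀, hu, div_self (zpow_ne_zero j hv)]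
  have h3 := hs.fix_of_sq h2 h1 (by rw [div_pow, map_div₀, h, map_pow, map_zpow₀, hϖ])
  rw [map_div₀, map_zpow₀, hϖ] at h3
  exact (div_left_inj' (zpow_ne_zero j h0)).mp h3

end inert

section tab

variable {C k : Type} [Field C] [Field k]

/-- a reduction table: charts with centres `0` or units with rational square, radii `|ϖ| ^ j`,
scales `|ϖ| ^ m`, `P j m` -/
def Tab (vC : Valuation C ℝ≥0) (ρC : C → k) (F : C[X]) (ϖ : C) (P : ℤ → ℤ → Prop) : Prop :=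
  ∃ (ι : Type) (_ : Fintype ι) (a π γ : ι → C) (G H : ι → k[X]) (j m : ι → ℤ),
    (∀ i, Ch vC ρC F (a i) (π i) (γ i) (G i) (H i)) ∧
    (∀ i i', i ≠ i' → vC (π i) ≠ vC (π i') ∨ vC (π i) < vC (a i - a i')) ∧
    (F.natDegree - 1) / 2 ≤ ∑ i, ((H i).natDegree - 1) / 2 ∧
    ∀ i, (a i = 0 ∨ (vC (a i) = 1 ∧ ∃ q : ℚ, a i ^ 2 = q)) ∧ vC (π i) = vC ϖ ^ j i ∧
      vC (γ i) = vC ϖ ^ m i ∧ P (j i) (m i)

theorem Tab.mono {vC : Valuation C ℝ≥0} {ρC : C → k} {F : C[X]} {ϖ : C} {P P' : ℤ → ℤ → Prop}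
    (h : Tab vC ρC F ϖ P) (hP : ∀ j m, P j m → P' j m) : Tab vC ρC F ϖ P' := by
  obtain ⟨ι, _, a, π, γ, G, H, j, m, h1, h2, h3, h4⟩ := h
  exact ⟨ι, inferInstance, a, π, γ, G, H, j, m, h1, h2, h3,
    fun i => ⟨(h4 i).1, (h4 i).2.1, (h4 i).2.2.1, hP _ _ (h4 i).2.2.2⟩⟩

theorem v_two {vC : Valuation C ℝ≥0} {ρC : C → k} (hr : IsRes vC ρC) (h2 : (2 : k) ≠ 0) :
    vC 2 = 1 := by
  have h1 : vC (1 : C) ≤ 1 := by simp
  have h3 := hr.add 1 1 h1 h1
  rw [hr.one, one_add_one_eq_two, one_add_one_eq_two] at h3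
  refine (hr.ne_zero_iff ?_).mp (h3 ▸ h2)
  rw [← one_add_one_eq_two]
  exact (Valuation.map_add _ _ _).trans (max_le h1 h1)

variable {K : Type} [IsAlgClosed C] [CharZero C] [Field K]
  [Algebra C K] [Algebra (RatFunc C) K] [IsScalarTower C (RatFunc C) K]
  [FiniteDimensional (RatFunc C) K] [Algebra.IsSeparable (RatFunc C) K] [IsAlgClosed k]
  {vC : Valuation C ℝ≥0} {ρC : C → k} {F : C[X]} {x w : K} {ϖ : C} {P : ℤ → ℤ → Prop}

theorem Tab.act (hN : NOS) (h : Tab vC ρC F ϖ P) (hr : IsRes vC ρC) (h2 : (2 : k) ≠ 0) {p : ℕ}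
    (hp : p.Prime) (hpv : vC p < 1) (hy : Hyp F x w) (h0 : ϖ ≠ 0) (e : SI C K C K)
    (hs : Inr vC e.s) {ζ ε : C} (hζ : e.s ϖ = ζ * ϖ) (hx : e.f x = x)
    (hw : e.f w = algebraMap C K ε * w) (hP : ∀ j m, P j m → ζ ^ j = 1 ∧ ζ ^ m = ε)
    {n : ℕ} (hn : vC n = 1) {y : Pic C K} (hy0 : n • y = 0) : e.pic y = y := by
  obtain ⟨ι, _, a, π, γ, G, H, j, m, h1, h3, h4, h5⟩ := h
  refine nos_of_charts hN hr h2 hp hpv hy h1 h3 h4 e hs (α := 1) (β := 0) (ε := ε)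
    (by simpa using hx) hw (fun i => hs.chi h0 hζ (h5 i).2.1 (hP _ _ (h5 i).2.2.2).1) (fun i => ?_)
    (fun i => hs.chi h0 hζ (h5 i).2.2.1 (hP _ _ (h5 i).2.2.2).2) hn hy0
  have : e.s (a i) = a i := by
    rcases (h5 i).1 with h6 | ⟨h6, q, h7⟩
    · rw [h6, map_zero]
    · exact hs.fix_of_sq (v_two hr h2) h6 (by rw [h7, map_ratCast])
  rw [this]
  simp

/-- elements of inertia fixing `x`, `w` and `ϖ` act trivially -/
theorem Tab.triv (hN : NOS) (h : Tab vC ρC F ϖ P) (hr : IsRes vC ρC) (h2 : (2 : k) ≠ 0) {p : ℕ}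
    (hp : p.Prime) (hpv : vC p < 1) (hy : Hyp F x w) (h0 : ϖ ≠ 0) (e : SI C K C K)
    (hs : Inr vC e.s) (hζ : e.s ϖ = ϖ) (hx : e.f x = x) (hw : e.f w = w)
    {n : ℕ} (hn : vC n = 1) {y : Pic C K} (hy0 : n • y = 0) : e.pic y = y :=
  h.act hN hr h2 hp hpv hy h0 e hs (ζ := 1) (ε := 1) (by simpa using hζ) hx (by simpa using hw)
    (fun j m _ => by simp) hn hy0

/-- odd scales: elements of inertia with `ϖ ↦ -ϖ` act as `-1` -/
theorem Tab.neg (hN : NOS) (h : Tab vC ρC F ϖ fun j m => Even j ∧ Odd m) (hr : IsRes vC ρC)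
    (h2 : (2 : k) ≠ 0) {p : ℕ} (hp : p.Prime) (hpv : vC p < 1) (hy : Hyp F x w)
    (hodd : Odd F.natDegree) (h0 : ϖ ≠ 0) (e : SI C K C K)
    (hs : Inr vC e.s) (hζ : e.s ϖ = -ϖ) (hx : e.f x = x) (hw : e.f w = w)
    {n : ℕ} (hn : vC n = 1) {y : Pic C K} (hy0 : n • y = 0) : e.pic y = -y := by
  have hn0 : n ≠ 0 := by rintro rfl; simp at hn
  have h1 := h.act hN hr h2 hp hpv hy h0 (hy.siota.trans e) (ζ := -1) (ε := -1) hs
    (by show e.s ϖ = _; rw [hζ]; ring)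
    (by show e.f (hy.iota x) = _; rw [hy.iota_x, hx])
    (by show e.f (hy.iota w) = _; rw [hy.iota_w, map_neg, hw]; simp)
    (fun j m hjm => ⟨hjm.1.neg_one_zpow, hjm.2.neg_one_zpow⟩) hn hy0
  rw [SI.pic_trans, iota_pic hy hodd (degPic_of_tors hn0 hy0), map_neg] at h1
  exact (neg_eq_iff_eq_neg.mp h1)

end tab

section irr

variable {C : Type*} [Field C] {vC : Valuation C ℝ≥0}

theorem Inr.conj {s t : C ≃+* C} (hs : Inr vC s) (ht : ∀ c, vC (t c) = vC c) :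
    Inr vC ((t.symm.trans s).trans t) := by
  intro c hc
  show vC (t (s (t.symm c)) - c) < 1
  have h1 : vC (t.symm c) ≤ 1 := by rwa [← ht, RingEquiv.apply_symm_apply]
  have := hs _ h1
  rwa [← ht, map_sub, RingEquiv.apply_symm_apply] at this

/-- the relations `σ ^ 2 = -1`, `τ σ = - σ τ` on a stable subgroup `T` -/
theorem irr {Γ M : Type*} [Group Γ] [AddCommGroup M] [DistribMulAction Γ M] (T : M → Prop)
    (hT : ∀ (g : Γ) y, T y → T (g • y)) (s : Γ → C ≃+* C)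
    (hm : ∀ g g' c, s (g * g') c = s g (s g' c)) (h2 : vC 2 = 1) {ϖ i : C} (h0 : ϖ ≠ 0)
    (hi : i ^ 2 = -1)
    (h1 : ∀ g, Inr vC (s g) → s g ϖ = ϖ → ∀ y, T y → g • y = y)
    (h3 : ∀ g, Inr vC (s g) → s g ϖ = -ϖ → ∀ y, T y → g • y = -y)
    {σ τ : Γ} (hσ : Inr vC (s σ)) (hσ' : s σ (ϖ ^ 2) = -ϖ ^ 2) (hσ4 : s τ (ϖ ^ 4) = ϖ ^ 4)
    (hτ : ∀ c, vC (s τ c) = vC c) (hτ' : s τ i = -i) (y : M) (hy : T y) :
    σ • σ • y = -y ∧ τ • σ • y = -(σ • τ • y) := by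
  have h1' : ∀ c, s 1 c = c := fun c => (s 1).injective (by rw [← hm, mul_one])
  have hinv : ∀ g c, s g⁻¹ c = (s g).symm c := fun g c => by
    rw [eq_comm, RingEquiv.symm_apply_eq, ← hm, mul_inv_cancel, h1']
  have hvi : vC i = 1 := by
    have := congrArg vC hi
    rw [map_pow, Valuation.map_neg, map_one] at this
    exact (pow_eq_one_iff_of_nonneg zero_le two_ne_zero).mp this
  have hσi : s σ i = i := hσ.fix_of_sq h2 hvi (by rw [hi, map_neg, map_one])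
  obtain ⟨η, hη, hη'⟩ : ∃ η, s σ ϖ = η * ϖ ∧ (η = i ∨ η = -i) := by
    refine ⟨s σ ϖ / ϖ, (div_mul_cancel₀ _ h0).symm, sq_eq_sq_iff_eq_or_eq_neg.mp ?_⟩
    rw [div_pow, ← map_pow, hσ', hi, neg_div, div_self (pow_ne_zero 2 h0)]
  have hη2 : η * η = -1 := by rcases hη' with rfl | rfl <;> linear_combination hi
  have hση : s σ η = η := by rcases hη' with rfl | rfl <;> simp [hσi]
  have hτη : s τ η = -η := by rcases hη' with rfl | rfl <;> simp [hτ']
  have A : ∀ y, T y → σ • σ • y = -y := fun y hy => by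
    rw [← mul_smul]
    refine h3 _ (fun c hc => by rw [hm]; exact hσ.trans hσ c hc) ?_ y hy
    rw [hm, hη, map_mul, hση, hη, ← mul_assoc, hη2, neg_one_mul]
  refine ⟨A y hy, ?_⟩
  obtain ⟨ζ, hζ, hζ'⟩ : ∃ ζ, (s τ).symm ϖ = ζ * ϖ ∧ s σ ζ = ζ := by
    refine ⟨(s τ).symm ϖ / ϖ, (div_mul_cancel₀ _ h0).symm, ?_⟩
    set ζ := (s τ).symm ϖ / ϖ
    have h4 : ζ ^ 4 = 1 := by
      rw [div_pow, ← map_pow, (s τ).symm_apply_eq.mpr hσ4.symm, div_self (pow_ne_zero 4 h0)]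
    have h5 : (ζ - 1) * (ζ + 1) * ((ζ - i) * (ζ + i)) = 0 := by
      linear_combination h4 - (ζ ^ 2 - 1) * hi
    rcases mul_eq_zero.mp h5 with h6 | h6 <;> rcases mul_eq_zero.mp h6 with h7 | h7
    · rw [sub_eq_zero.mp h7, map_one]
    · rw [eq_neg_of_add_eq_zero_left h7, map_neg, map_one]
    · rw [sub_eq_zero.mp h7, hσi]
    · rw [eq_neg_of_add_eq_zero_left h7, map_neg, hσi]
  have hτη' : (s τ).symm η = -η := by
    rw [RingEquiv.symm_apply_eq, map_neg, hτη, neg_neg]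
  have B : ∀ y, T y → (τ * σ * τ⁻¹ * σ) • y = y := h1 _
    (fun c hc => by
      rw [hm, hm, hm, hinv]
      exact hσ.trans (hσ.conj hτ) c hc)
    (by
      have h7 : s σ (-η * (ζ * ϖ)) = ζ * ϖ := by
        rw [map_mul, map_mul, map_neg, hση, hζ', hη]
        linear_combination (-ζ * ϖ) * hη2
      rw [hm, hm, hm, hinv, hη, map_mul, hτη', hζ, h7, ← hζ, RingEquiv.apply_symm_apply])
  have h6 := B _ (hT σ _ (hT τ y hy))
  rw [mul_smul, mul_smul, mul_smul, A _ (hT τ y hy), smul_neg, inv_smul_smul, smul_neg,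
    smul_neg] at h6
  exact neg_eq_iff_eq_neg.mp h6

end irr

end Crest.Agent.T15.Nf
end

-- ▼ part T15/RtT_22
section

/-!
# Row 15, block F (helper22): the reduction table of the normal form
-/

set_option autoImplicit false
set_option linter.all false

namespace Crest.Agent.T15.RtT

open Polynomial
open scoped NNReal
open Crest.Agent.R013.GR4_921 Crest.Agent.T15.Mo Crest.Agent.T15.Nf
open Crest.Agent.T15.Rt (Itg eq_of_sq add_small vlt)

variable {C k : Type} [Field C] [Field k] {v : Valuation C ℝ≥0} {ρ : C → k}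

/-- `π² X² - a = s f` with `f` reducing to `g` -/
def Fc (v : Valuation C ℝ≥0) (ρ : C → k) (z π a s : C) (g : k[X]) : Prop :=
  ∃ f : C[X], (Polynomial.C z + Polynomial.C π * X) ^ 2 - Polynomial.C a = Polynomial.C s * f ∧
    Rd v ρ f g

theorem div_lt1 {a b : C} (h : v a < v b) : v (a / b) < 1 := by
  rw [map_div₀]; exact (div_lt_one₀ (lt_of_le_of_lt zero_le h)).2 h

theorem div_eq1 {a b : C} (hb : b ≠ 0) (h : v a = v b) : v (a / b) = 1 := by
  rw [map_div₀, h, div_self (by simpa using hb)]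

theorem fc_lt (hr : IsRes v ρ) {π a : C} (h : v a < v (π ^ 2)) : Fc v ρ 0 π a (π ^ 2) (X ^ 2) := by
  have h0 : π ^ 2 ≠ 0 := by rintro e; rw [e] at h; simp at h
  refine ⟨X ^ 2 - Polynomial.C (a / π ^ 2), ?_,
    (((Rd.X hr).pow hr 2).sub hr (Rd.cst_lt hr (div_lt1 h))).congr rfl (sub_zero _)⟩
  rw [mul_sub, ← C_mul, mul_div_cancel₀ _ h0]; simp; ring

theorem fc_eq (hr : IsRes v ρ) {π a : C} (h0 : π ≠ 0) (h : v a = v (π ^ 2)) :
    Fc v ρ 0 π a (π ^ 2) (X ^ 2 - Polynomial.C (ρ (a / π ^ 2))) := by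
  have h0 : π ^ 2 ≠ 0 := pow_ne_zero 2 h0
  refine ⟨X ^ 2 - Polynomial.C (a / π ^ 2), ?_,
    ((Rd.X hr).pow hr 2).sub hr (Rd.cst hr (div_eq1 h0 h).le)⟩
  rw [mul_sub, ← C_mul, mul_div_cancel₀ _ h0]; simp; ring

theorem fc_gt (hr : IsRes v ρ) {π a : C} (h : v (π ^ 2) < v a) : Fc v ρ 0 π a (-a) 1 := by
  have h0 : a ≠ 0 := by rintro e; rw [e] at h; simp at h
  refine ⟨1 - Polynomial.C (π ^ 2 / a) * X ^ 2, ?_, ((Rd.one hr).sub hr
    ((Rd.cst_lt hr (div_lt1 h)).mul hr ((Rd.X hr).pow hr 2))).congr rfl (by simp)⟩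
  rw [mul_sub, ← mul_assoc, ← C_mul, neg_mul, mul_div_cancel₀ _ h0]; simp; ring

theorem fc_st (hr : IsRes v ρ) {z π a : C} (h0 : π ≠ 0) (hπ : v π < 1) (hz : v (2 * z) ≤ 1)
    (h : v ((z ^ 2 - a) / π) ≤ 1) : Fc v ρ z π a π
      (Polynomial.C (ρ (2 * z)) * X + Polynomial.C (ρ ((z ^ 2 - a) / π))) := by
  refine ⟨Polynomial.C π * X ^ 2 + (Polynomial.C (2 * z) * X + Polynomial.C ((z ^ 2 - a) / π)), ?_,
    (((Rd.cst_lt hr hπ).mul hr ((Rd.X hr).pow hr 2)).add hr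
      (((Rd.cst hr hz).mul hr (Rd.X hr)).add hr (Rd.cst hr h))).congr rfl (by simp)⟩
  rw [mul_add, mul_add, ← C_mul, mul_div_cancel₀ _ h0]; simp [map_ofNat]; ring

theorem comp_Fm (c a1 a2 a3 : C) (q : C[X]) : (Fm c a1 a2 a3).comp q =
    Polynomial.C c * q * (q ^ 2 - Polynomial.C a1) * (q ^ 2 - Polynomial.C a2) *
      (q ^ 2 - Polynomial.C a3) := by
  simp [Fm]

/-- a chart centred at `0` -/
theorem ch0 (hr : IsRes v ρ) {c a1 a2 a3 π γ s1 s2 s3 : C} {g1 g2 g3 G H : k[X]} (hπ : π ≠ 0)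
    (hγ : γ ≠ 0) (h1 : Fc v ρ 0 π a1 s1 g1) (h2 : Fc v ρ 0 π a2 s2 g2) (h3 : Fc v ρ 0 π a3 s3 g3)
    (hu : v (c * π * s1 * s2 * s3) = v (γ ^ 2)) (hG : G ≠ 0)
    (he : X * g1 * g2 * g3 = G ^ 2 * H) (hs : H.Separable) (hp : 0 < H.natDegree) :
    ∃ H' : k[X], Ch v ρ (Fm c a1 a2 a3) 0 π γ G H' ∧ H'.natDegree = H.natDegree := by
  obtain ⟨f1, e1, r1⟩ := h1
  obtain ⟨f2, e2, r2⟩ := h2
  obtain ⟨f3, e3, r3⟩ := h3
  have hγ2 := pow_ne_zero 2 hγ
  have u1 := div_eq1 hγ2 hu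
  have u0 : ρ (c * π * s1 * s2 * s3 / γ ^ 2) ≠ 0 := (hr.ne_zero_iff u1.le).2 u1
  refine ⟨Polynomial.C (ρ (c * π * s1 * s2 * s3 / γ ^ 2)) * H, Ch.mk' hπ hγ
    (F1 := Polynomial.C (c * π * s1 * s2 * s3 / γ ^ 2) * (X * f1 * f2 * f3)) ?_
    (((Rd.cst hr u1.le).mul hr ((((Rd.X hr).mul hr r1).mul hr r2).mul hr r3)).congr rfl
      (by rw [he]; ring)) hG ?_ (by rwa [natDegree_C_mul u0]), natDegree_C_mul u0⟩
  · rw [comp_Fm, e1, e2, e3, ← mul_assoc (Polynomial.C (γ ^ 2)), ← C_mul, mul_div_cancel₀ _ hγ2]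
    simp; ring
  · exact (associated_unit_mul_right H _ (isUnit_C.2 (IsUnit.mk0 _ u0))).separable hs

/-- a chart centred at a unit -/
theorem ch1 (hr : IsRes v ρ) {c a1 a2 a3 z π γ s1 s2 s3 : C} {g1 g2 g3 : k[X]} (hπ : π ≠ 0)
    (hπ1 : v π < 1) (hz : v z = 1)
    (hγ : γ ≠ 0) (h1 : Fc v ρ z π a1 s1 g1) (h2 : Fc v ρ z π a2 s2 g2) (h3 : Fc v ρ z π a3 s3 g3)
    (hu : v (c * s1 * s2 * s3) = v (γ ^ 2)) (hs : (g1 * g2 * g3).Separable)
    (hp : 0 < (g1 * g2 * g3).natDegree) :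
    ∃ H' : k[X], Ch v ρ (Fm c a1 a2 a3) z π γ 1 H' ∧ H'.natDegree = (g1 * g2 * g3).natDegree := by
  obtain ⟨f1, e1, r1⟩ := h1
  obtain ⟨f2, e2, r2⟩ := h2
  obtain ⟨f3, e3, r3⟩ := h3
  have hγ2 := pow_ne_zero 2 hγ
  have u1 := div_eq1 hγ2 hu
  have u0 : ρ (c * s1 * s2 * s3 / γ ^ 2) * ρ z ≠ 0 :=
    mul_ne_zero ((hr.ne_zero_iff u1.le).2 u1) ((hr.ne_zero_iff hz.le).2 hz)
  refine ⟨Polynomial.C (ρ (c * s1 * s2 * s3 / γ ^ 2) * ρ z) * (g1 * g2 * g3), Ch.mk' hπ hγ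
    (F1 := Polynomial.C (c * s1 * s2 * s3 / γ ^ 2) *
      ((Polynomial.C z + Polynomial.C π * X) * f1 * f2 * f3)) ?_
    (((Rd.cst hr u1.le).mul hr (((((Rd.cst hr hz.le).add hr ((Rd.cst_lt hr hπ1).mul hr
      (Rd.X hr))).mul hr r1).mul hr r2).mul hr r3)).congr rfl
      (by simp; ring)) one_ne_zero ?_ (by rwa [natDegree_C_mul u0]), natDegree_C_mul u0⟩
  · rw [comp_Fm, e1, e2, e3, ← mul_assoc (Polynomial.C (γ ^ 2)), ← C_mul, mul_div_cancel₀ _ hγ2]
    simp; ring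
  · exact (associated_unit_mul_right _ _ (isUnit_C.2 (IsUnit.mk0 _ u0))).separable hs

theorem sep1 (h2 : (2 : k) ≠ 0) {a : k} (ha : a ≠ 0) :
    (X * (X ^ 2 - Polynomial.C a) : k[X]).Separable ∧
      (X * (X ^ 2 - Polynomial.C a) : k[X]).natDegree = 3 := by
  refine ⟨separable_X.mul (separable_X_pow_sub_C a (by exact_mod_cast h2) ha)
    (by simpa using cop_X one_ne_zero ha), ?_⟩
  rw [natDegree_mul X_ne_zero (X_pow_sub_C_ne_zero two_pos a), natDegree_X, natDegree_X_pow_sub_C]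
  rfl

theorem sep2 (h2 : (2 : k) ≠ 0) {a b : k} (ha : a ≠ 0) (hb : b ≠ 0) (hab : a ≠ b) :
    (X * (X ^ 2 - Polynomial.C a) * (X ^ 2 - Polynomial.C b) : k[X]).Separable ∧
      (X * (X ^ 2 - Polynomial.C a) * (X ^ 2 - Polynomial.C b) : k[X]).natDegree = 5 := by
  refine ⟨(sep1 h2 ha).1.mul (separable_X_pow_sub_C b (by exact_mod_cast h2) hb)
    (IsCoprime.mul_left (by simpa using cop_X one_ne_zero hb) (cop_sq hab)), ?_⟩
  rw [natDegree_mul (mul_ne_zero X_ne_zero (X_pow_sub_C_ne_zero two_pos a))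
    (X_pow_sub_C_ne_zero two_pos b), (sep1 h2 ha).2, natDegree_X_pow_sub_C]
  rfl

theorem sep3 {s a b c : k} (hs : s ≠ 0) (hab : a ≠ b) (hac : a ≠ c) (hbc : b ≠ c) :
    ((Polynomial.C s * X + Polynomial.C a) * (Polynomial.C s * X + Polynomial.C b) *
      (Polynomial.C s * X + Polynomial.C c) : k[X]).Separable ∧
    ((Polynomial.C s * X + Polynomial.C a) * (Polynomial.C s * X + Polynomial.C b) *
      (Polynomial.C s * X + Polynomial.C c) : k[X]).natDegree = 3 := by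
  have l : ∀ a : k, (Polynomial.C s * X + Polynomial.C a : k[X]).Separable := fun a =>
    ⟨0, Polynomial.C s⁻¹, by simp [← C_mul, inv_mul_cancel₀ hs]⟩
  have m : ∀ a b : k, a ≠ b → IsCoprime (Polynomial.C s * X + Polynomial.C a : k[X])
      (Polynomial.C s * X + Polynomial.C b) := fun a b h => by
    refine ⟨Polynomial.C (a - b)⁻¹, -Polynomial.C (a - b)⁻¹, ?_⟩
    have : Polynomial.C (a - b)⁻¹ * Polynomial.C (a - b) = 1 := by
      rw [← C_mul, inv_mul_cancel₀ (sub_ne_zero.2 h), C_1]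
    rw [C_sub] at this
    linear_combination this
  have d : ∀ a : k, (Polynomial.C s * X + Polynomial.C a : k[X]).natDegree = 1 := fun a =>
    natDegree_linear hs
  have n : ∀ a : k, (Polynomial.C s * X + Polynomial.C a : k[X]) ≠ 0 := fun a h => by
    have := d a; rw [h] at this; simp at this
  refine ⟨((l a).mul (l b) (m a b hab)).mul (l c) ((m a c hac).mul_left (m b c hbc)), ?_⟩
  rw [natDegree_mul (mul_ne_zero (n a) (n b)) (n c), natDegree_mul (n a) (n b), d, d, d]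

theorem res_ne (hr : IsRes v ρ) {a b : C} (ha : v a ≤ 1) (hb : v b ≤ 1) (h : v (a - b) = 1) :
    ρ a ≠ ρ b := fun e => by
  rw [hr.eq_iff ha hb, h] at e; exact lt_irrefl _ e

theorem res_ne0 (hr : IsRes v ρ) {a : C} (h : v a = 1) : ρ a ≠ 0 := (hr.ne_zero_iff h.le).2 h

theorem res_div_ne (hr : IsRes v ρ) {a b s : C} (hs : s ≠ 0) (ha : v a = v s) (hb : v b = v s)
    (h : v (a - b) = v s) : ρ (a / s) ≠ ρ (b / s) :=
  res_ne hr (div_eq1 hs ha).le (div_eq1 hs hb).le (by rw [← sub_div]; exact div_eq1 hs h)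

section rows

variable (hr : IsRes v ρ) (h2 : (2 : k) ≠ 0) {ϖ c a1 a2 a3 : C} (h0 : ϖ ≠ 0) (h1 : v ϖ < 1)
  {P : ℤ → ℤ → Prop}
include hr h2 h0 h1

omit hr h2 in
theorem pw_lt {i j : ℤ} (h : j < i) : v ϖ ^ i < v ϖ ^ j :=
  zpow_lt_zpow_right_of_lt_one₀ ((Valuation.pos_iff v).2 h0) h1 h

omit hr h2 h1 in
theorem v_sq (j : ℤ) : v ((ϖ ^ j) ^ 2) = v ϖ ^ (2 * j) := by
  rw [map_pow, map_zpow₀, ← zpow_natCast, ← zpow_mul, mul_comm]; rfl

omit hr h2 h1 in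
theorem c_ne {m : ℤ} (hc : v c = v ϖ ^ m) : c ≠ 0 := by
  rintro rfl
  exact zpow_ne_zero m ((Valuation.pos_iff v).2 h0).ne' (by rw [← hc, map_zero])

/-- one disc of genus three -/
theorem tab_good {m : ℤ} (e1 : v a1 = 1) (e2 : v a2 = 1) (e3 : v a3 = 1) (e12 : v (a1 - a2) = 1)
    (e31 : v (a3 - a1) = 1) (e32 : v (a3 - a2) = 1) (hc : v c = v ϖ ^ (2 * m)) (hP : P 0 m) :
    Tab v ρ (Fm c a1 a2 a3) ϖ P := by
  have o : v ((1 : C) ^ 2) = 1 := by simp
  have n : (1 : C) ^ 2 ≠ 0 := by simp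
  have hs := sep_Fm h2 (one_ne_zero (α := k)) (res_ne0 hr (div_eq1 n (e1.trans o.symm)))
    (res_ne0 hr (div_eq1 n (e2.trans o.symm))) (res_ne0 hr (div_eq1 n (e3.trans o.symm)))
    (res_div_ne hr n (e1.trans o.symm) (e2.trans o.symm) (e12.trans o.symm))
    (res_div_ne hr n (e3.trans o.symm) (e1.trans o.symm) (e31.trans o.symm)).symm
    (res_div_ne hr n (e3.trans o.symm) (e2.trans o.symm) (e32.trans o.symm)).symm
  obtain ⟨H, hH, dH⟩ := ch0 hr (c := c) (γ := ϖ ^ m) one_ne_zero (zpow_ne_zero _ h0)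
    (fc_eq hr one_ne_zero (e1.trans o.symm)) (fc_eq hr one_ne_zero (e2.trans o.symm))
    (fc_eq hr one_ne_zero (e3.trans o.symm)) (by rw [v_sq h0, ← hc]; simp) one_ne_zero
    (by simp [Fm]) hs (by rw [natDegree_Fm one_ne_zero]; norm_num)
  rw [natDegree_Fm one_ne_zero] at dH
  refine ⟨Unit, inferInstance, fun _ => 0, fun _ => 1, fun _ => ϖ ^ m, fun _ => 1, fun _ => H,
    fun _ => 0, fun _ => m, fun _ => hH, fun i i' h => absurd rfl h, ?_,
    fun _ => ⟨Or.inl rfl, by simp, by simp, hP⟩⟩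
  simp [natDegree_Fm (c_ne h0 hc), dH]

/-- three concentric discs -/
theorem tab_chain {j1 j2 j3 m m1 m2 m3 : ℤ} (e1 : v a1 = v ϖ ^ (2 * j1))
    (e2 : v a2 = v ϖ ^ (2 * j2)) (e3 : v a3 = v ϖ ^ (2 * j3)) (l1 : j2 < j1) (l2 : j3 < j2)
    (hc : v c = v ϖ ^ m) (k1 : 2 * m1 = m + 3 * j1 + 2 * j2 + 2 * j3)
    (k2 : 2 * m2 = m + 5 * j2 + 2 * j3) (k3 : 2 * m3 = m + 7 * j3) (p1 : P j1 m1) (p2 : P j2 m2)
    (p3 : P j3 m3) : Tab v ρ (Fm c a1 a2 a3) ϖ P := by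
  have p0 := ((Valuation.pos_iff v).2 h0).ne'
  have n : ∀ j : ℤ, ϖ ^ j ≠ 0 := fun j => zpow_ne_zero _ h0
  have q1 : v a1 = v ((ϖ ^ j1) ^ 2) := by rw [e1, v_sq h0]
  have q2 : v a2 = v ((ϖ ^ j2) ^ 2) := by rw [e2, v_sq h0]
  have q3 : v a3 = v ((ϖ ^ j3) ^ 2) := by rw [e3, v_sq h0]
  have s1 := sep1 h2 (res_ne0 hr (div_eq1 (pow_ne_zero 2 (n _)) q1))
  have s2 := sep1 h2 (res_ne0 hr (div_eq1 (pow_ne_zero 2 (n _)) q2))
  have s3 := sep1 h2 (res_ne0 hr (div_eq1 (pow_ne_zero 2 (n _)) q3))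
  obtain ⟨H1, hH1, d1⟩ := ch0 hr (c := c) (γ := ϖ ^ m1) (G := 1) (n j1) (n _) (fc_eq hr (n _) q1)
    (fc_gt hr (a := a2) (by rw [e2, v_sq h0]; exact pw_lt h0 h1 (by omega)))
    (fc_gt hr (a := a3) (by rw [e3, v_sq h0]; exact pw_lt h0 h1 (by omega)))
    (by simp only [map_mul, Valuation.map_neg, v_sq h0, map_zpow₀, hc, e2, e3, ← zpow_add₀ p0]
        congr 1; omega) one_ne_zero (by ring) s1.1 (by rw [s1.2]; norm_num)
  obtain ⟨H2, hH2, d2⟩ := ch0 hr (c := c) (γ := ϖ ^ m2) (G := X) (n j2) (n _)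
    (fc_lt hr (a := a1) (by rw [e1, v_sq h0]; exact pw_lt h0 h1 (by omega))) (fc_eq hr (n _) q2)
    (fc_gt hr (a := a3) (by rw [e3, v_sq h0]; exact pw_lt h0 h1 (by omega)))
    (by simp only [map_mul, Valuation.map_neg, v_sq h0, map_zpow₀, hc, e3, ← zpow_add₀ p0]
        congr 1; omega) X_ne_zero (by ring) s2.1 (by rw [s2.2]; norm_num)
  obtain ⟨H3, hH3, d3⟩ := ch0 hr (c := c) (γ := ϖ ^ m3) (G := X ^ 2) (n j3) (n _)
    (fc_lt hr (a := a1) (by rw [e1, v_sq h0]; exact pw_lt h0 h1 (by omega)))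
    (fc_lt hr (a := a2) (by rw [e2, v_sq h0]; exact pw_lt h0 h1 (by omega))) (fc_eq hr (n _) q3)
    (by simp only [map_mul, v_sq h0, map_zpow₀, hc, ← zpow_add₀ p0]
        congr 1; omega) (pow_ne_zero 2 X_ne_zero) (by ring) s3.1 (by rw [s3.2]; norm_num)
  rw [s1.2] at d1; rw [s2.2] at d2; rw [s3.2] at d3
  have inj : ∀ {i j : ℤ}, i ≠ j → v (ϖ ^ i) ≠ v (ϖ ^ j) := fun {i j} h => by
    rw [map_zpow₀, map_zpow₀]
    rcases lt_or_gt_of_ne h with h | h
    · exact (pw_lt h0 h1 h).ne'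
    · exact (pw_lt h0 h1 h).ne
  refine ⟨Fin 3, inferInstance, fun _ => 0, ![ϖ ^ j1, ϖ ^ j2, ϖ ^ j3], ![ϖ ^ m1, ϖ ^ m2, ϖ ^ m3],
    ![1, X, X ^ 2], ![H1, H2, H3], ![j1, j2, j3], ![m1, m2, m3], ?_, ?_, ?_, ?_⟩
  · intro i; fin_cases i <;> assumption
  · intro i i' h
    fin_cases i <;> fin_cases i' <;> first | exact absurd rfl h | exact Or.inl (inj (by omega))
  · simp [natDegree_Fm (c_ne h0 hc), Fin.sum_univ_three, d1, d2, d3]
  · intro i
    fin_cases i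
    · exact ⟨Or.inl rfl, by simp, by simp, p1⟩
    · exact ⟨Or.inl rfl, by simp, by simp, p2⟩
    · exact ⟨Or.inl rfl, by simp, by simp, p3⟩

/-- a small disc of genus two inside a disc of genus one -/
theorem tab_21 {j1 j3 m m1 m3 : ℤ} (e1 : v a1 = v ϖ ^ (2 * j1)) (e2 : v a2 = v ϖ ^ (2 * j1))
    (e12 : v (a1 - a2) = v ϖ ^ (2 * j1)) (e3 : v a3 = v ϖ ^ (2 * j3)) (l1 : j3 < j1)
    (hc : v c = v ϖ ^ m) (k1 : 2 * m1 = m + 5 * j1 + 2 * j3) (k3 : 2 * m3 = m + 7 * j3)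
    (p1 : P j1 m1) (p3 : P j3 m3) : Tab v ρ (Fm c a1 a2 a3) ϖ P := by
  have p0 := ((Valuation.pos_iff v).2 h0).ne'
  have n : ∀ j : ℤ, ϖ ^ j ≠ 0 := fun j => zpow_ne_zero _ h0
  have q1 : v a1 = v ((ϖ ^ j1) ^ 2) := by rw [e1, v_sq h0]
  have q2 : v a2 = v ((ϖ ^ j1) ^ 2) := by rw [e2, v_sq h0]
  have q12 : v (a1 - a2) = v ((ϖ ^ j1) ^ 2) := by rw [e12, v_sq h0]
  have q3 : v a3 = v ((ϖ ^ j3) ^ 2) := by rw [e3, v_sq h0]
  have s1 := sep2 h2 (res_ne0 hr (div_eq1 (pow_ne_zero 2 (n _)) q1))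
    (res_ne0 hr (div_eq1 (pow_ne_zero 2 (n _)) q2)) (res_div_ne hr (pow_ne_zero 2 (n _)) q1 q2 q12)
  have s3 := sep1 h2 (res_ne0 hr (div_eq1 (pow_ne_zero 2 (n _)) q3))
  obtain ⟨H1, hH1, d1⟩ := ch0 hr (c := c) (γ := ϖ ^ m1) (G := 1) (n j1) (n _) (fc_eq hr (n _) q1)
    (fc_eq hr (n _) q2) (fc_gt hr (a := a3) (by rw [e3, v_sq h0]; exact pw_lt h0 h1 (by omega)))
    (by simp only [map_mul, Valuation.map_neg, v_sq h0, map_zpow₀, hc, e3, ← zpow_add₀ p0]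
        congr 1; omega) one_ne_zero (by ring) s1.1 (by rw [s1.2]; norm_num)
  obtain ⟨H3, hH3, d3⟩ := ch0 hr (c := c) (γ := ϖ ^ m3) (G := X ^ 2) (n j3) (n _)
    (fc_lt hr (a := a1) (by rw [e1, v_sq h0]; exact pw_lt h0 h1 (by omega)))
    (fc_lt hr (a := a2) (by rw [e2, v_sq h0]; exact pw_lt h0 h1 (by omega))) (fc_eq hr (n _) q3)
    (by simp only [map_mul, v_sq h0, map_zpow₀, hc, ← zpow_add₀ p0]
        congr 1; omega) (pow_ne_zero 2 X_ne_zero) (by ring) s3.1 (by rw [s3.2]; norm_num)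
  rw [s1.2] at d1; rw [s3.2] at d3
  refine ⟨Fin 2, inferInstance, fun _ => 0, ![ϖ ^ j1, ϖ ^ j3], ![ϖ ^ m1, ϖ ^ m3],
    ![1, X ^ 2], ![H1, H3], ![j1, j3], ![m1, m3], ?_, ?_, ?_, ?_⟩
  · intro i; fin_cases i <;> assumption
  · intro i i' h
    have := pw_lt h0 h1 l1
    fin_cases i <;> fin_cases i'
    · exact absurd rfl h
    · exact Or.inl (by simpa using this.ne)
    · exact Or.inl (by simpa using this.ne')
    · exact absurd rfl h
  · simp [natDegree_Fm (c_ne h0 hc), Fin.sum_univ_two, d1, d3]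
  · intro i
    fin_cases i
    · exact ⟨Or.inl rfl, by simp, by simp, p1⟩
    · exact ⟨Or.inl rfl, by simp, by simp, p3⟩

/-- a small disc of genus one inside a disc of genus two -/
theorem tab_12 {j1 j2 m m1 m2 : ℤ} (e1 : v a1 = v ϖ ^ (2 * j1)) (e2 : v a2 = v ϖ ^ (2 * j2))
    (e3 : v a3 = v ϖ ^ (2 * j2)) (e23 : v (a2 - a3) = v ϖ ^ (2 * j2)) (l1 : j2 < j1)
    (hc : v c = v ϖ ^ m) (k1 : 2 * m1 = m + 3 * j1 + 4 * j2) (k2 : 2 * m2 = m + 7 * j2)
    (p1 : P j1 m1) (p2 : P j2 m2) : Tab v ρ (Fm c a1 a2 a3) ϖ P := by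
  have p0 := ((Valuation.pos_iff v).2 h0).ne'
  have n : ∀ j : ℤ, ϖ ^ j ≠ 0 := fun j => zpow_ne_zero _ h0
  have q1 : v a1 = v ((ϖ ^ j1) ^ 2) := by rw [e1, v_sq h0]
  have q2 : v a2 = v ((ϖ ^ j2) ^ 2) := by rw [e2, v_sq h0]
  have q3 : v a3 = v ((ϖ ^ j2) ^ 2) := by rw [e3, v_sq h0]
  have q23 : v (a2 - a3) = v ((ϖ ^ j2) ^ 2) := by rw [e23, v_sq h0]
  have s1 := sep1 h2 (res_ne0 hr (div_eq1 (pow_ne_zero 2 (n _)) q1))
  have s2 := sep2 h2 (res_ne0 hr (div_eq1 (pow_ne_zero 2 (n _)) q2))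
    (res_ne0 hr (div_eq1 (pow_ne_zero 2 (n _)) q3)) (res_div_ne hr (pow_ne_zero 2 (n _)) q2 q3 q23)
  obtain ⟨H1, hH1, d1⟩ := ch0 hr (c := c) (γ := ϖ ^ m1) (G := 1) (n j1) (n _) (fc_eq hr (n _) q1)
    (fc_gt hr (a := a2) (by rw [e2, v_sq h0]; exact pw_lt h0 h1 (by omega)))
    (fc_gt hr (a := a3) (by rw [e3, v_sq h0]; exact pw_lt h0 h1 (by omega)))
    (by simp only [map_mul, Valuation.map_neg, v_sq h0, map_zpow₀, hc, e2, e3, ← zpow_add₀ p0]
        congr 1; omega) one_ne_zero (by ring) s1.1 (by rw [s1.2]; norm_num)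
  obtain ⟨H2, hH2, d2⟩ := ch0 hr (c := c) (γ := ϖ ^ m2) (G := X) (n j2) (n _)
    (fc_lt hr (a := a1) (by rw [e1, v_sq h0]; exact pw_lt h0 h1 (by omega)))
    (fc_eq hr (n _) q2) (fc_eq hr (n _) q3)
    (by simp only [map_mul, v_sq h0, map_zpow₀, hc, ← zpow_add₀ p0]
        congr 1; omega) X_ne_zero (by ring) s2.1 (by rw [s2.2]; norm_num)
  rw [s1.2] at d1; rw [s2.2] at d2
  refine ⟨Fin 2, inferInstance, fun _ => 0, ![ϖ ^ j1, ϖ ^ j2], ![ϖ ^ m1, ϖ ^ m2],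
    ![1, X], ![H1, H2], ![j1, j2], ![m1, m2], ?_, ?_, ?_, ?_⟩
  · intro i; fin_cases i <;> assumption
  · intro i i' h
    have := pw_lt h0 h1 l1
    fin_cases i <;> fin_cases i'
    · exact absurd rfl h
    · exact Or.inl (by simpa using this.ne)
    · exact Or.inl (by simpa using this.ne')
    · exact absurd rfl h
  · simp [natDegree_Fm (c_ne h0 hc), Fin.sum_univ_two, d1, d2]
  · intro i
    fin_cases i
    · exact ⟨Or.inl rfl, by simp, by simp, p1⟩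
    · exact ⟨Or.inl rfl, by simp, by simp, p2⟩

/-- the unit disc and two small discs -/
theorem tab_star [IsAlgClosed C] {j m m1 : ℤ} (e1 : v a1 = 1) (hq : ∃ q : ℚ, a1 = q) (hj : 0 < j)
    (e12 : v (a1 - a2) = v ϖ ^ j) (e31 : v (a3 - a1) = v ϖ ^ j) (e32 : v (a3 - a2) = v ϖ ^ j)
    (hc : v c = v ϖ ^ (2 * m)) (k1 : 2 * m1 = 2 * m + 3 * j) (p0 : P 0 m) (p1 : P j m1) :
    Tab v ρ (Fm c a1 a2 a3) ϖ P := by
  have pp := ((Valuation.pos_iff v).2 h0).ne'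
  have n : ∀ j : ℤ, ϖ ^ j ≠ 0 := fun j => zpow_ne_zero _ h0
  have two := v_two hr h2
  have lt : v ϖ ^ j < 1 := by simpa using pw_lt h0 h1 hj
  have e2 : v a2 = 1 := by
    rw [show a2 = a1 + (a1 - a2) * -1 by ring]
    exact add_small e1 (vlt (e12 ▸ lt) (by simp))
  have e3 : v a3 = 1 := by
    rw [show a3 = a1 + (a3 - a1) by ring]
    exact add_small e1 (e31 ▸ lt)
  have o : v ((1 : C) ^ 2) = 1 := by simp
  have n1 : (1 : C) ^ 2 ≠ 0 := by simp
  have r2 : ρ (a2 / 1 ^ 2) = ρ (a1 / 1 ^ 2) := by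
    simp only [one_pow, div_one]
    rw [eq_comm, hr.eq_iff e1.le e2.le, e12]; exact lt
  have r3 : ρ (a3 / 1 ^ 2) = ρ (a1 / 1 ^ 2) := by
    simp only [one_pow, div_one]
    rw [hr.eq_iff e3.le e1.le, e31]; exact lt
  have s0 := sep1 h2 (res_ne0 hr (div_eq1 n1 (e1.trans o.symm)))
  obtain ⟨H0, hH0, d0⟩ := ch0 hr (c := c) (γ := ϖ ^ m)
    (G := X ^ 2 - Polynomial.C (ρ (a1 / 1 ^ 2))) one_ne_zero (n _)
    (fc_eq hr one_ne_zero (e1.trans o.symm)) (fc_eq hr one_ne_zero (e2.trans o.symm))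
    (fc_eq hr one_ne_zero (e3.trans o.symm)) (by rw [v_sq h0, ← hc]; simp)
    (X_pow_sub_C_ne_zero two_pos _) (by rw [r2, r3]; ring) s0.1 (by rw [s0.2]; norm_num)
  rw [s0.2] at d0
  have key : ∀ z : C, z ^ 2 = a1 → v z = 1 ∧
      ∃ H : k[X], Ch v ρ (Fm c a1 a2 a3) z (ϖ ^ j) (ϖ ^ m1) 1 H ∧ H.natDegree = 3 := fun z hz => by
    have vz : v z = 1 := eq_of_sq (by rw [← map_pow, hz, e1, one_pow])
    have v2 : v (2 * z) = 1 := by rw [map_mul, two, vz, one_mul]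
    have b1 : v ((z ^ 2 - a1) / ϖ ^ j) ≤ 1 := by rw [hz]; simp
    have b2 : v ((z ^ 2 - a2) / ϖ ^ j) = 1 := div_eq1 (n _) (by rw [hz, e12, map_zpow₀])
    have b3 : v ((z ^ 2 - a3) / ϖ ^ j) = 1 :=
      div_eq1 (n _) (by rw [hz, Valuation.map_sub_swap, e31, map_zpow₀])
    have s := sep3 (res_ne0 hr v2)
      (res_ne hr b1 b2.le (by
        rw [← sub_div]
        exact div_eq1 (n _) (by
          rw [show z ^ 2 - a1 - (z ^ 2 - a2) = -(a1 - a2) by ring, Valuation.map_neg, e12,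
            map_zpow₀])))
      (res_ne hr b1 b3.le (by
        rw [← sub_div]
        exact div_eq1 (n _) (by
          rw [show z ^ 2 - a1 - (z ^ 2 - a3) = a3 - a1 by ring, e31, map_zpow₀])))
      (res_ne hr b2.le b3.le (by
        rw [← sub_div]
        exact div_eq1 (n _) (by
          rw [show z ^ 2 - a2 - (z ^ 2 - a3) = a3 - a2 by ring, e32, map_zpow₀])))
    have lt' : v (ϖ ^ j) < 1 := by rwa [map_zpow₀]
    obtain ⟨H, hH, d⟩ := ch1 hr (c := c) (γ := ϖ ^ m1) (n j) lt' vz (n _)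
      (fc_st hr (n _) lt' v2.le b1) (fc_st hr (n _) lt' v2.le b2.le)
      (fc_st hr (n _) lt' v2.le b3.le)
      (by simp only [map_mul, v_sq h0, map_zpow₀, hc, ← zpow_add₀ pp]
          congr 1; omega) s.1 (by rw [s.2]; norm_num)
    exact ⟨vz, H, hH, d.trans s.2⟩
  obtain ⟨z, hz⟩ := IsAlgClosed.exists_pow_nat_eq a1 two_pos
  obtain ⟨vz, H1, hH1, d1⟩ := key z hz
  obtain ⟨vz', H2, hH2, d2⟩ := key (-z) (by rw [neg_sq, hz])
  obtain ⟨q, hq⟩ := hq
  have far : v ϖ ^ j < v (z - -z) := by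
    rw [show z - -z = 2 * z by ring, map_mul, two, vz, one_mul]; exact lt
  refine ⟨Fin 3, inferInstance, ![0, z, -z], ![1, ϖ ^ j, ϖ ^ j], ![ϖ ^ m, ϖ ^ m1, ϖ ^ m1],
    ![X ^ 2 - Polynomial.C (ρ (a1 / 1 ^ 2)), 1, 1], ![H0, H1, H2], ![0, j, j], ![m, m1, m1],
    ?_, ?_, ?_, ?_⟩
  · intro i; fin_cases i <;> assumption
  · intro i i' h
    fin_cases i <;> fin_cases i'
    · exact absurd rfl h
    · exact Or.inl (by simpa using lt.ne')
    · exact Or.inl (by simpa using lt.ne')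
    · exact Or.inl (by simpa using lt.ne)
    · exact absurd rfl h
    · exact Or.inr (by simpa using far)
    · exact Or.inl (by simpa using lt.ne)
    · exact Or.inr (by rw [Valuation.map_sub_swap] at far; simpa using far)
    · exact absurd rfl h
  · simp [natDegree_Fm (c_ne h0 hc), Fin.sum_univ_three, d0, d1, d2]
  · intro i
    fin_cases i
    · exact ⟨Or.inl rfl, by simp, by simp, p0⟩
    · exact ⟨Or.inr ⟨vz, q, hz.trans hq⟩, by simp, by simp, p1⟩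
    · exact ⟨Or.inr ⟨vz', q, (neg_sq z).trans (hz.trans hq)⟩, by simp, by simp, p1⟩

end rows

/-- **the table**: one form has norm `|ϖ| ^ (4 (T + κ))`, the others are units, and
`|t| = |ϖ| ^ (2 T)` -/
theorem tab [IsAlgClosed C] (hr : IsRes v ρ) (h2 : (2 : k) ≠ 0) (three : v 3 = 1) {ϖ : C}
    (h0 : ϖ ≠ 0) (h1 : v ϖ < 1) {P : Par C} (hq : ∃ q : ℚ, P.a1 = q) {T κ : ℤ}
    {e1 e2 e3 f1 f2 f3 : ℕ} (v1 : v P.p1 = v ϖ ^ (4 * e1 : ℤ)) (v2 : v P.p2 = v ϖ ^ (4 * e2 : ℤ))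
    (v3 : v P.p3 = v ϖ ^ (4 * e3 : ℤ)) (w1 : v P.d1 = v ϖ ^ (4 * f1 : ℤ))
    (w2 : v P.d2 = v ϖ ^ (4 * f2 : ℤ)) (w3 : v P.d3 = v ϖ ^ (4 * f3 : ℤ))
    (vt : v P.t = v ϖ ^ (2 * T)) (hs : (e1 + e2 + e3 + f1 + f2 + f3 : ℤ) = T + κ)
    (one : (e1 = 0 ∧ f1 = 0 ∧ (e2 + e3 = 0 ∨ f2 + f3 = 0)) ∨
      (e2 + e3 + f2 + f3 = 0 ∧ (e1 = 0 ∨ f1 = 0))) :
    Tab v ρ P.F ϖ fun j m => Even j ∧ Even (m + κ) := by
  have pp := (Valuation.pos_iff v).2 h0
  have le : ∀ e : ℕ, v ϖ ^ (4 * e : ℤ) ≤ 1 := fun e => zpow_le_one₀ pp h1.le (by omega)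
  have lt : ∀ e : ℕ, e ≠ 0 → v ϖ ^ (4 * e : ℤ) < 1 := fun e he => zpow_lt_one₀ pp h1 (by omega)
  have hI : Itg v P := ⟨v_two hr h2, v1 ▸ le _, v2 ▸ le _⟩
  by_cases hz : e1 = 0 ∧ f1 = 0
  · obtain ⟨rfl, rfl⟩ := hz
    obtain ⟨a1, a2, a3, a12, a31, a32, ac⟩ := hI.row0 (by simpa using v1) (by simpa using w1)
    have hc : v P.c = v ϖ ^ (2 * -κ) := eq_of_sq (mul_right_cancel₀
      (zpow_ne_zero (4 * (T + κ)) pp.ne') (by
        rw [v2, v3, w2, w3, vt, ← zpow_add₀ pp.ne', ← zpow_add₀ pp.ne', ← zpow_add₀ pp.ne',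
          show (4 * e2 + 4 * e3 + (4 * f2 + 4 * f3) : ℤ) = 4 * (T + κ) by
            push_cast at hs; omega] at ac
        rw [ac, ← zpow_natCast, ← zpow_natCast, ← zpow_mul, ← zpow_mul, ← zpow_add₀ pp.ne']
        congr 1; push_cast; ring))
    rw [v2, v3, ← zpow_add₀ pp.ne'] at a12 a31 a32
    by_cases h23 : e2 + e3 = 0
    · have z : (4 * e2 + 4 * e3 : ℤ) = 0 := by omega
      rw [z, zpow_zero] at a12 a31 a32
      exact tab_good hr h2 h0 h1 a1 a2 a3 a12 a31 a32 hc ⟨by simp, by simp⟩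
    · exact tab_star hr h2 h0 h1 (m1 := -κ + 6 * e2 + 6 * e3) a1 hq (by omega) a12 a31 a32 hc
        (by ring) ⟨by simp, by simp⟩ ⟨⟨2 * e2 + 2 * e3, by ring⟩, ⟨3 * e2 + 3 * e3, by ring⟩⟩
  have h4 : e2 = 0 ∧ e3 = 0 ∧ f2 = 0 ∧ f3 = 0 := by omega
  obtain ⟨rfl, rfl, rfl, rfl⟩ := h4
  have u2 : v P.p2 = 1 := by simpa using v2
  by_cases h5 : f1 = 0
  · subst h5
    have hκ : κ = e1 - T := by push_cast at hs; omega
    obtain ⟨a1, a2, a3⟩ := hI.row1 (v1 ▸ lt e1 (by omega)) u2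
    have b1 : v P.a1 = v ϖ ^ (2 * (2 * e1) : ℤ) := by rw [a1, v1]; congr 1; ring
    have b2 : v P.a2 = v ϖ ^ (2 * (-2 * e1) : ℤ) := by rw [a2, v1, ← zpow_neg]; congr 1; ring
    rcases a3 with ⟨a3, ac⟩ | ⟨a3, ac⟩
    · have b3 : v P.a3 = v ϖ ^ (2 * (6 * e1) : ℤ) := by
        rw [a3, v1, ← zpow_natCast, ← zpow_mul]; congr 1; push_cast; ring
      rw [vt, v1, ← zpow_add₀ pp.ne'] at ac
      rw [show P.F = Fm P.c P.a3 P.a1 P.a2 by simp only [Par.F, Fm]; ring]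
      exact tab_chain hr h2 h0 h1 (m1 := T + 11 * e1) (m2 := T + 5 * e1) (m3 := T - 5 * e1)
        b3 b1 b2 (by omega) (by omega) ac (by ring) (by ring) (by ring)
        ⟨⟨3 * e1, by ring⟩, ⟨6 * e1, by rw [hκ]; ring⟩⟩ ⟨⟨e1, by ring⟩, ⟨3 * e1, by rw [hκ]; ring⟩⟩
        ⟨⟨-e1, by ring⟩, ⟨-2 * e1, by rw [hκ]; ring⟩⟩
    · have b3 : v P.a3 = v ϖ ^ (2 * (-6 * e1) : ℤ) := by
        rw [a3, v1, ← zpow_natCast, ← zpow_mul, ← zpow_neg]; congr 1; push_cast; ring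
      rw [vt, v1, ← zpow_natCast, ← zpow_mul, ← zpow_add₀ pp.ne'] at ac
      exact tab_chain hr h2 h0 h1 (m1 := T - e1) (m2 := T - 7 * e1) (m3 := T - 17 * e1)
        b1 b2 b3 (by omega) (by omega) ac (by push_cast; ring) (by push_cast; ring)
        (by push_cast; ring)
        ⟨⟨e1, by ring⟩, ⟨0, by rw [hκ]; ring⟩⟩ ⟨⟨-e1, by ring⟩, ⟨-3 * e1, by rw [hκ]; ring⟩⟩
        ⟨⟨-3 * e1, by ring⟩, ⟨-8 * e1, by rw [hκ]; ring⟩⟩
  · obtain rfl : e1 = 0 := by omega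
    have hκ : κ = f1 - T := by push_cast at hs; omega
    obtain ⟨a1, a2, a3⟩ := hI.rowd three (w1 ▸ lt f1 h5) u2
    have i1 : (v P.d1)⁻¹ = v ϖ ^ (2 * (-2 * f1) : ℤ) := by rw [w1, ← zpow_neg]; congr 1; ring
    have i2 : v P.d1 = v ϖ ^ (2 * (2 * f1) : ℤ) := by rw [w1]; congr 1; ring
    rcases a3 with ⟨a3, a32, ac⟩ | ⟨a3, a31, ac⟩
    · rw [vt] at ac
      rw [show P.F = Fm P.c P.a3 P.a2 P.a1 by simp only [Par.F, Fm]; ring]
      exact tab_21 hr h2 h0 h1 (m1 := T + 3 * f1) (m3 := T - 7 * f1) (a3.trans i2) (a2.trans i2)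
        (a32.trans i2) (a1.trans i1) (by omega) ac (by ring) (by ring)
        ⟨⟨f1, by ring⟩, ⟨2 * f1, by rw [hκ]; ring⟩⟩ ⟨⟨-f1, by ring⟩, ⟨-3 * f1, by rw [hκ]; ring⟩⟩
    · rw [vt, w1, ← zpow_natCast, ← zpow_mul, ← zpow_add₀ pp.ne'] at ac
      rw [show P.F = Fm P.c P.a2 P.a3 P.a1 by simp only [Par.F, Fm]; ring]
      exact tab_12 hr h2 h0 h1 (m1 := T + 5 * f1) (m2 := T - f1) (a2.trans i2) (a3.trans i1)
        (a1.trans i1) (a31.trans i1) (by omega) ac (by push_cast; ring) (by push_cast; ring)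
        ⟨⟨f1, by ring⟩, ⟨3 * f1, by rw [hκ]; ring⟩⟩ ⟨⟨-f1, by ring⟩, ⟨0, by rw [hκ]; ring⟩⟩

section act

open Crest.Agent.R013.PicD_398 Crest.Agent.R013.Frob1_914 Crest.Agent.T15.Hy

variable {K : Type} [IsAlgClosed C] [CharZero C] [Field K]
  [Algebra C K] [Algebra (RatFunc C) K] [IsScalarTower C (RatFunc C) K]
  [FiniteDimensional (RatFunc C) K] [Algebra.IsSeparable (RatFunc C) K] [IsAlgClosed k]

omit [IsAlgClosed C] [CharZero C] in
/-- inertia fixes `α` and `β` -/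
theorem fix_al_be {s : C ≃+* C} (hs : Inr v s) (two : v 2 = 1) {ϖ : C} (h0 : ϖ ≠ 0)
    (hϖ : s (ϖ ^ 2) = ϖ ^ 2) {P : Par C} (hf : P.Fix s) {e2 e3 f2 f3 : ℕ}
    (v2 : v P.p2 = v ϖ ^ (4 * e2 : ℤ)) (v3 : v P.p3 = v ϖ ^ (4 * e3 : ℤ))
    (w2 : v P.d2 = v ϖ ^ (4 * f2 : ℤ)) (w3 : v P.d3 = v ϖ ^ (4 * f3 : ℤ)) :
    s P.al = P.al ∧ s P.be = P.be := by
  have pp := ((Valuation.pos_iff v).2 h0).ne'
  constructor
  · refine hs.fix_of_sq' two (pow_ne_zero 2 h0) hϖ (j := 3 * e2 + f2) (eq_of_sq ?_) ?_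
    · rw [Itg.al_sq, v2, w2, map_pow]
      simp only [← zpow_natCast, ← zpow_mul, ← zpow_add₀ pp]
      congr 1; push_cast; ring
    · rw [P.hal]; simp [hf.p1, hf.p2, hf.p3]
  · refine hs.fix_of_sq' two (pow_ne_zero 2 h0) hϖ (j := 3 * e3 + f3) (eq_of_sq ?_) ?_
    · rw [Itg.be_sq, v3, w3, map_pow]
      simp only [← zpow_natCast, ← zpow_mul, ← zpow_add₀ pp]
      congr 1; push_cast; ring
    · rw [P.hbe]; simp [hf.p1, hf.p2, hf.p3]

/-- the action of inertia from the table -/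
theorem act (hN : NOS) {F : C[X]} {ϖ : C} {κ : ℤ}
    (h : Tab v ρ F ϖ fun j m => Even j ∧ Even (m + κ)) (hr : IsRes v ρ) (h2 : (2 : k) ≠ 0) {p : ℕ}
    (hp : p.Prime) (hpv : v p < 1) {x w : K} (hy : Hyp F x w) (hodd : Odd F.natDegree) (h0 : ϖ ≠ 0)
    (e : SI C K C K) (hs : Inr v e.s) (hx : e.f x = x) (hw : e.f w = w) {n : ℕ} (hn : v n = 1)
    {y : Pic C K} (hy0 : n • y = 0) :
    (e.s ϖ = ϖ → e.pic y = y) ∧ (e.s ϖ = -ϖ → Even κ → e.pic y = y) ∧
      (e.s ϖ = -ϖ → Odd κ → e.pic y = -y) := by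
  refine ⟨fun h1 => h.triv hN hr h2 hp hpv hy h0 e hs h1 hx hw hn hy0, fun h1 hκ => ?_,
    fun h1 hκ => ?_⟩
  · exact h.act hN hr h2 hp hpv hy h0 e hs (ζ := -1) (ε := 1) (by rw [h1]; ring) hx
      (by simpa using hw) (fun j m hjm => ⟨hjm.1.neg_one_zpow,
        ((Int.even_add.1 hjm.2).2 hκ).neg_one_zpow⟩) hn hy0
  · exact Tab.neg hN (h.mono fun j m hjm => ⟨hjm.1, by
      rw [← Int.not_even_iff_odd] at hκ ⊢
      exact fun hm => hκ ((Int.even_add.1 hjm.2).1 hm)⟩) hr h2 hp hpv hy hodd h0 e hs h1 hx hw hn hy0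

end act

end Crest.Agent.T15.RtT
end

-- ▼ part T15/NosF_92
section

/-!
# Row 15, block F (helper92): `Nf.NOS`
-/

set_option autoImplicit false
set_option linter.all false

namespace Crest.Agent.T15.Nf

theorem nos : NOS := by
  intro C K k _ _ _ _ _ _ _ _ _ _ _ vC ρC p hp hpv ι _ W hW κ _ _ ρ hR g hg hs e he n hn y hy
  haveI : Fact p.Prime := ⟨hp⟩
  exact Ct.nos hR hW hg p hpv hs e (fun i x hx => he i x hx.le) hn hy

end Crest.Agent.T15.Nf
end

-- ▼ part T15/RtG_22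
section

/-!
# Row 15, block F (helper22): the leaves `UnrStmt` and `RamStmt`
-/

set_option autoImplicit false
set_option linter.all false

noncomputable section

namespace Crest.Agent.T15.FA

open scoped NNReal
open Crest.Agent.R013.PicD_398 Crest.Agent.R013.Frob1_914 Crest.Agent.R013.GR4_921
open Crest.Agent.R018.Placesx484
open Crest.Agent.T15.C (Om Gam In)
open Crest.Agent.T15.Top (Plc)
open Crest.Agent.T15.Mo (Par)
open Crest.Agent.T15.Ar
open Crest.Agent.T15.Ht (Mdl Is)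
open Crest.Agent.T15.Nf

namespace G22

/-- the valuation of a place, with values in `ℝ≥0` -/
def vQ (Q : Plc) : Valuation Om ℝ≥0 where
  toFun x := ⟨Cg.av Q x, (Cg.av Q).nonneg x⟩
  map_zero' := NNReal.eq (Cg.av Q).map_zero
  map_one' := NNReal.eq (Cg.av Q).map_one
  map_mul' x y := NNReal.eq ((Cg.av Q).map_mul x y)
  map_add_le_max' x y := by
    rcases le_max_iff.1 (Cg.av_nonarch Q x y) with h | h
    · exact le_max_of_le_left h
    · exact le_max_of_le_right h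

theorem vQ_le (Q : Plc) (x : Om) : vQ Q x ≤ 1 ↔ Q.v x ≤ 1 := Cg.av_le_one_iff' Q x
theorem vQ_lt (Q : Plc) (x : Om) : vQ Q x < 1 ↔ Q.v x < 1 := Cg.av_lt_one_iff Q x

theorem vQ_nat (Q : Plc) {n : ℕ} (h : ¬ Q.rchar ∣ n) : vQ Q n = 1 := by
  have := (Q.v_natCast_eq_one_iff n).2 h
  exact le_antisymm ((vQ_le Q _).2 this.le) (not_lt.1 fun e => ((vQ_lt Q _).1 e).ne this)

theorem vQ_l (Q : Plc) : vQ Q Q.rchar < 1 :=
  (vQ_lt Q _).2 (lt_of_le_of_ne (Q.v_natCast_le_one _) fun h =>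
    (Q.v_natCast_eq_one_iff _).1 h dvd_rfl)

theorem vQ_int (Q : Plc) {a : ℤ} (ha : a ≠ 0) :
    vQ Q a = vQ Q Q.rchar ^ padicValInt Q.rchar a := by
  haveI : Fact Q.rchar.Prime := ⟨Q.rchar_prime⟩
  obtain ⟨e, b, hb, hab⟩ := Nat.exists_eq_pow_mul_and_not_dvd (Int.natAbs_ne_zero.2 ha) Q.rchar
    Q.rchar_prime.ne_one
  have hv : padicValInt Q.rchar a = e := by
    rw [padicValInt, hab, padicValNat.mul (pow_ne_zero _ Q.rchar_prime.ne_zero)
      (by rintro rfl; exact hb (dvd_zero _)), padicValNat.prime_pow,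
      padicValNat.eq_zero_of_not_dvd hb, add_zero]
  have : vQ Q a = vQ Q (a.natAbs : Om) := by
    rcases Int.natAbs_eq a with h | h
    · conv_lhs => rw [h]
      simp only [Int.cast_natCast]
    · conv_lhs => rw [h]
      simp only [Int.cast_neg, Int.cast_natCast, Valuation.map_neg]
  rw [this, hv, hab, Nat.cast_mul, Nat.cast_pow, map_mul, map_pow, vQ_nat Q hb, mul_one]

theorem inr {Q : Plc} {σ : Gam} (hσ : σ ∈ In Q) {s : Om ≃+* Om} (hs : ∀ c, s c = σ c) :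
    Inr (vQ Q) s := fun c hc => by
  rw [hs]; exact (vQ_lt Q _).2 (Q.v_smul_sub_lt_one hσ c ((vQ_le Q _).1 hc))

theorem fx_zw {C : Type} [Field C] [IsAlgClosed C] {P : Par C} (M : Mdl P) {e : SI C M.Y C M.Y}
    (he : M.Fx e) (ha : e.s P.al = P.al) (hb : e.s P.be = P.be) :
    e.f M.z = M.z ∧ e.f M.w = M.w := by
  obtain ⟨hA, hB, hu, h1, h2, ht⟩ := he
  have h3 : e.s P.p3 = P.p3 := by rw [P.p3_eq, map_sub, map_neg, h1, h2]
  have hz : e.f M.z = M.z := by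
    simp only [Mdl.z, Par.z, Par.V', Par.R', Par.V, Par.R, Par.d2, Par.d3, Par.map_p1, Par.map_p2,
      Par.map_p3, Par.map_t, Par.map_al, Par.map_be, map_add, map_mul, map_div₀, map_sub, map_pow,
      map_ofNat, e.comm, h1, h2, h3, ht, ha, hb, hA, hB, hu]
  refine ⟨hz, ?_⟩
  have hw : M.w = M.A * M.z * (M.z ^ 2 - (P.map (algebraMap C M.Y)).a1) *
    (M.z ^ 2 - (P.map (algebraMap C M.Y)).a2) / (M.z ^ 2 - (P.map (algebraMap C M.Y)).b) := rfl
  rw [hw]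
  simp only [Par.a1, Par.a2, Par.b, Par.d1, Par.map_p1, Par.map_p2,
    Par.map_p3, Par.map_t, Par.map_al, Par.map_be, map_add, map_mul, map_div₀, map_sub, map_pow,
    map_neg, map_ofNat, e.comm, h1, h2, h3, ht, ha, hb, hA, hz]

/-- at most one of the six forms is divisible by `l ≥ 5` -/
theorem one {del : ℚ} {m p1 p2 p3 t D : ℤ} (h : Cert del m p1 p2 p3 t D) {l : ℕ} (hl : l.Prime)
    (h2 : l ≠ 2) (h3 : l ≠ 3) {a b c d e f : ℕ} (ha : a = padicValInt l p1)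
    (hb : b = padicValInt l p2) (hc : c = padicValInt l p3) (hd : d = padicValInt l (p2 - p3))
    (he : e = padicValInt l (p3 - p1)) (hf : f = padicValInt l (p1 - p2)) :
    b + c + d + e + f = 0 ∨ a + c + d + e + f = 0 ∨ a + b + d + e + f = 0 ∨
      a + b + c + e + f = 0 ∨ a + b + c + d + f = 0 ∨ a + b + c + d + e = 0 := by
  subst ha hb hc hd he hf
  by_cases a : (l : ℤ) ∣ p1
  · obtain ⟨b, c, d, e, f⟩ := h.only_p1 hl h2 a
    simp [val_zero b, val_zero c, val_zero d, val_zero e, val_zero f]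
  by_cases b : (l : ℤ) ∣ p2
  · obtain ⟨a, c, d, e, f⟩ := h.only_p2 hl h2 b
    simp [val_zero a, val_zero c, val_zero d, val_zero e, val_zero f]
  by_cases c : (l : ℤ) ∣ p3
  · obtain ⟨a, b, d, e, f⟩ := h.only_p3 hl h2 c
    simp [val_zero a, val_zero b, val_zero d, val_zero e, val_zero f]
  by_cases d : (l : ℤ) ∣ p2 - p3
  · obtain ⟨a, b, c, e, f⟩ := h.only_d1 hl h2 h3 d
    simp [val_zero a, val_zero b, val_zero c, val_zero e, val_zero f]
  by_cases e : (l : ℤ) ∣ p3 - p1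
  · obtain ⟨a, b, c, d, f⟩ := h.only_d2 hl h2 h3 e
    simp [val_zero a, val_zero b, val_zero c, val_zero d, val_zero f]
  simp [val_zero a, val_zero b, val_zero c, val_zero d, val_zero e]

/-- the common part: `|l| = |ϖ| ^ r`, every form has norm `|ϖ| ^ (4 e)` -/
theorem core {p1 p2 p3 t : ℤ} {P : Par Om} (M : Mdl P) (Q : Plc)
    (hI : Is P p1 p2 p3 t) (h2 : Q.rchar ≠ 2) (h3 : Q.rchar ≠ 3) {ϖ : Om} (h0 : ϖ ≠ 0)
    (h1 : vQ Q ϖ < 1) {T κ : ℤ} {e1 e2 e3 f1 f2 f3 : ℕ}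
    (v1 : vQ Q p1 = vQ Q ϖ ^ (4 * e1 : ℤ)) (v2 : vQ Q p2 = vQ Q ϖ ^ (4 * e2 : ℤ))
    (v3 : vQ Q p3 = vQ Q ϖ ^ (4 * e3 : ℤ)) (w1 : vQ Q (p2 - p3 : ℤ) = vQ Q ϖ ^ (4 * f1 : ℤ))
    (w2 : vQ Q (p3 - p1 : ℤ) = vQ Q ϖ ^ (4 * f2 : ℤ))
    (w3 : vQ Q (p1 - p2 : ℤ) = vQ Q ϖ ^ (4 * f3 : ℤ))
    (vt : vQ Q t = vQ Q ϖ ^ (2 * T)) (hs : (e1 + e2 + e3 + f1 + f2 + f3 : ℤ) = T + κ)
    (one : (e1 = 0 ∧ f1 = 0 ∧ (e2 + e3 = 0 ∨ f2 + f3 = 0)) ∨
      (e2 + e3 + f2 + f3 = 0 ∧ (e1 = 0 ∨ f1 = 0)))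
    {σ : Gam} (hσ : σ ∈ In Q) (hϖ : σ (ϖ ^ 2) = ϖ ^ 2) {e : SI Om M.Y Om M.Y} (he : Ov M σ e)
    {n : ℕ} {x : Pic Om M.Y} (hn : ¬ Q.rchar ∣ n) (hx : n • x = 0) :
    (σ ϖ = ϖ → e.pic x = x) ∧ (σ ϖ = -ϖ → Even κ → e.pic x = x) ∧
      (σ ϖ = -ϖ → Odd κ → e.pic x = -x) := by
  have hl := Q.rchar_prime
  haveI : IsAlgClosed (kap (vQ Q)) := R013.Red332.isAlgClosed_residue _
  have hr := isRes_rs (vQ Q)
  have two : vQ Q 2 = 1 := by
    simpa using vQ_nat Q (n := 2) fun h => h2 ((Nat.prime_dvd_prime_iff_eq hl Nat.prime_two).1 h)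
  have three : vQ Q 3 = 1 := by
    simpa using vQ_nat Q (n := 3) fun h => h3 ((Nat.prime_dvd_prime_iff_eq hl Nat.prime_three).1 h)
  have k2 : (2 : kap (vQ Q)) ≠ 0 := by
    have := RtT.res_ne0 hr two
    rwa [show (2 : Om) = 1 + 1 by norm_num, hr.add _ _ (by simp) (by simp), hr.one,
      one_add_one_eq_two] at this
  have d1 : P.d1 = (p2 - p3 : ℤ) := by simp [Par.d1, hI.h2, hI.h3]
  have d2 : P.d2 = (p3 - p1 : ℤ) := by simp [Par.d2, hI.h1, hI.h3]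
  have d3 : P.d3 = (p1 - p2 : ℤ) := by simp [Par.d3, hI.h1, hI.h2]
  rw [← hI.h1] at v1; rw [← hI.h2] at v2; rw [← hI.h3] at v3; rw [← hI.ht] at vt
  rw [← d1] at w1; rw [← d2] at w2; rw [← d3] at w3
  have hq : ∃ q : ℚ, P.a1 = q := ⟨-p1 / (p2 - p3 : ℤ), by rw [Par.a1, d1, hI.h1]; push_cast; rfl⟩
  have hT := RtT.tab hr k2 three h0 h1 hq v1 v2 v3 w1 w2 w3 vt hs one
  have hin : Inr (vQ Q) e.s := inr hσ he.2
  have hf : P.Fix e.s := ⟨by rw [he.2, hI.h1, map_intCast], by rw [he.2, hI.h2, map_intCast],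
    by rw [he.2, hI.h3, map_intCast], by rw [he.2, hI.ht, map_intCast]⟩
  obtain ⟨ha, hb⟩ := RtT.fix_al_be hin two h0 (by rw [he.2, hϖ]) hf v2 v3 w2 w3
  obtain ⟨hz, hw⟩ := fx_zw M he.1 ha hb
  have := RtT.act nos hT hr k2 hl (vQ_l Q) M.hyp31
    (by rw [P.natDegree_F two_ne_zero]; decide) h0 e hin hz hw (vQ_nat Q hn) hx
  rwa [he.2] at this

end G22

open G22

/-- **leaf UNR** -/
theorem unrStmt : UnrStmt := by
  intro del m p1 p2 p3 t D P M Q hC hI hD σ hσ e he n x hn hx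
  have hl := Q.rchar_prime
  haveI : Fact Q.rchar.Prime := ⟨hl⟩
  have hD' : ¬ (Q.rchar : ℤ) ∣ D := fun h => hD ((Int.natCast_dvd.1 h).mul_left 3)
  have h2 : Q.rchar ≠ 2 := fun h => hD' (by rw [h]; exact hC.two)
  have h3 : Q.rchar ≠ 3 := fun h => hD (by rw [h]; exact dvd_mul_right _ _)
  obtain ⟨ϖ, hϖ⟩ := IsAlgClosed.exists_pow_nat_eq (Q.rchar : Om) two_pos
  have h0 : ϖ ≠ 0 := by
    rintro rfl; exact (Nat.cast_ne_zero.2 hl.ne_zero : (Q.rchar : Om) ≠ 0) (by rw [← hϖ]; simp)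
  have hv : vQ Q Q.rchar = vQ Q ϖ ^ 2 := by rw [← hϖ, map_pow]
  have h1 : vQ Q ϖ < 1 := by
    have := vQ_l Q
    rw [hv] at this
    exact lt_of_pow_lt_pow_left₀ 2 zero_le_one (by simpa using this)
  have key : ∀ {a : ℤ}, a ≠ 0 → padicValInt Q.rchar a % 2 = 0 →
      vQ Q a = vQ Q ϖ ^ (4 * (padicValInt Q.rchar a / 2 : ℕ) : ℤ) := fun {a} ha he => by
    rw [vQ_int Q ha, hv, ← pow_mul, ← zpow_natCast]; congr 1; omega
  have s := hC.val_sum Q.rchar
  rw [val_zero hD'] at s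
  have o := one hC hl h2 h3 rfl rfl rfl rfl rfl rfl
  have hfix : σ (ϖ ^ 2) = ϖ ^ 2 := by rw [hϖ, map_natCast]
  have := core M Q hI h2 h3 h0 h1 (T := padicValInt Q.rchar t) (κ := 0)
    (key hC.p1_ne (by omega)) (key hC.p2_ne (by omega)) (key hC.p3_ne (by omega))
    (key hC.d1_ne (by omega)) (key hC.d2_ne (by omega)) (key hC.d3_ne (by omega))
    (by rw [vQ_int Q hC.t_ne, hv, ← pow_mul, ← zpow_natCast]; congr 1) (by omega) (by omega)
    hσ hfix he hn hx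
  rw [map_pow] at hfix
  rcases sq_eq_sq_iff_eq_or_eq_neg.1 hfix with h | h
  · exact this.1 h
  · exact this.2.1 h (by decide)

/-- **leaf RAM** -/
theorem ramStmt : RamStmt := by
  intro del m p1 p2 p3 t D P M Q hC hI hD h2 ϖ hϖ σ hσ e he n x hn hx
  have hl := Q.rchar_prime
  haveI : Fact Q.rchar.Prime := ⟨hl⟩
  have hD' : (Q.rchar : ℤ) ∣ D := Int.natCast_dvd.2 hD
  have h3 : Q.rchar ≠ 3 := fun h => hC.three (by rw [h] at hD'; exact hD')
  have h0 : ϖ ≠ 0 := by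
    rintro rfl; exact (Nat.cast_ne_zero.2 hl.ne_zero : (Q.rchar : Om) ≠ 0) (by rw [← hϖ]; simp)
  have hv : vQ Q Q.rchar = vQ Q ϖ ^ 4 := by rw [← hϖ, map_pow]
  have h1 : vQ Q ϖ < 1 := by
    have := vQ_l Q
    rw [hv] at this
    exact lt_of_pow_lt_pow_left₀ 4 zero_le_one (by simpa using this)
  have key : ∀ {a : ℤ}, a ≠ 0 →
      vQ Q a = vQ Q ϖ ^ (4 * (padicValInt Q.rchar a : ℕ) : ℤ) := fun {a} ha => by
    rw [vQ_int Q ha, hv, ← pow_mul, ← zpow_natCast]; congr 1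
  have s := hC.val_sum Q.rchar
  have s1 := hC.val_D Q.rchar
  have s2 := (dvd_iff_val hC.D_ne).1 hD'
  have o := one hC hl h2 h3 rfl rfl rfl rfl rfl rfl
  have main := fun hfix : σ (ϖ ^ 2) = ϖ ^ 2 =>
    core M Q hI h2 h3 h0 h1 (T := 2 * padicValInt Q.rchar t) (κ := 1)
    (key hC.p1_ne) (key hC.p2_ne) (key hC.p3_ne) (key hC.d1_ne) (key hC.d2_ne) (key hC.d3_ne)
    (by rw [key hC.t_ne]; congr 1; ring) (by omega) (by omega) hσ hfix he hn hx
  exact ⟨fun h => (main (by rw [map_pow, h])).1 h,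
    fun h => (main (by rw [map_pow, h, neg_sq])).2.2 h (by decide)⟩

end Crest.Agent.T15.FA
end
end

-- ▼ part T15/ModD_53
section

/-!
# T15 / ModD (helper53): the scalar bound for a modular parametrisation

* `exists_loc` the local solution of the Abel-Jacobi equation along an analytic arc;
* `exists_sol` its Taylor series have symmetric functions in `K0 M`;
* `scal_mod`, `scal_mod_fam`, `scal_fin` the bound for the `q`-coefficients.
-/

set_option autoImplicit false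
set_option linter.all false
set_option maxHeartbeats 400000

noncomputable section

namespace Crest.Agent.T15.Mod

open UpperHalfPlane ModularForm CongruenceSubgroup Matrix.SpecialLinearGroup Filter Topology Set
open Polynomial
open scoped MatrixGroups Manifold NNReal Real
open Crest.Agent.R007 Crest.Agent.R007.Rat Crest.Agent.T15.Hs Crest.Agent.T15.Mf
open Crest.Agent.T15.AlgM Crest.Agent.T15.Esc Crest.Agent.T15.Mum Crest.Agent.T15.Ax
open Crest.Agent.T15.Sc3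

attribute [-instance] HahnSeries.powerSeriesAlgebra

variable {A : Type*} [AddCommGroup A] {F : ℂ[X]} {g : ℕ} {cl : ℂ × ℂ → A}
  {ex : (Fin g → ℂ) →+ A} {M : ℕ}

/-- the local inverse attached to `g` charts, with its differential equation -/
theorem exists_loc (he : IsExp F g cl ex) (c : Fin g → Ch F g)
    (hx : Function.Injective fun j => (c j).x 0) :
    ∃ x w : Fin g → (Fin g → ℂ) → ℂ, LocInv F g cl ex x w ∧ (∀ j, x j 0 = (c j).x 0) ∧
      (∀ j, w j 0 = (c j).w 0) ∧ ∀ Ψ : ℂ → Fin g → ℂ, AnalyticAt ℂ Ψ 0 → Ψ 0 = 0 →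
        (∀ j, (c j).w 0 ≠ 0) → ∀ k : Fin g, ∀ᶠ t in 𝓝 (0 : ℂ),
          ∑ j, x j (Ψ t) ^ (k : ℕ) * deriv (fun t => x j (Ψ t)) t * (w j (Ψ t))⁻¹ =
            deriv (fun t => Ψ t k) t := by
  obtain ⟨ψ, h1, h2, h3, -⟩ := vinv c hx
  have ht : Tendsto ψ (𝓝 0) (𝓝 0) := by simpa [h2] using h1.continuousAt.tendsto
  have a1 : ∀ j, AnalyticAt ℂ (fun z => ψ z j) 0 := analyticAt_pi_iff.1 h1
  have z1 : ∀ j, ψ 0 j = 0 := fun j => by rw [h2]; rfl
  refine ⟨fun j z => (c j).x (ψ z j), fun j z => (c j).w (ψ z j), ⟨fun j => ?_, fun j => ?_,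
    fun j => ?_, ?_⟩, fun j => congrArg (c j).x (z1 j), fun j => congrArg (c j).w (z1 j), fun Ψ hΨ h0 hw k => ?_⟩
  · exact (c j).anx.comp_of_eq (a1 j) (z1 j)
  · exact (c j).anw.comp_of_eq (a1 j) (z1 j)
  · exact (ht.eventually (ev_pi fun j => (c j).ev)).mono fun z hz => (hz j).1
  · filter_upwards [ht.eventually (he.sum c), h3] with z e1 e2
    simp only [z1]
    rw [e2] at e1
    exact e1
  · have tΨ : Tendsto Ψ (𝓝 0) (𝓝 0) := by simpa [h0] using hΨ.continuousAt.tendsto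
    have a2 : ∀ j, AnalyticAt ℂ (fun t => ψ (Ψ t) j) 0 := fun j => (a1 j).comp_of_eq hΨ h0
    have n1 : ∀ j, ∀ᶠ t in 𝓝 (0 : ℂ), (c j).w t ≠ 0 := fun j =>
      (c j).anw.continuousAt.eventually_ne (hw j)
    filter_upwards [(ht.comp tΨ).eventually (ev_pi fun j => (c j).ev.and (n1 j)),
      (tΨ.eventually h3).eventually_nhds, eventually_all.2 fun j => (a2 j).eventually_analyticAt]
      with t e1 e2 e3
    simp only [Function.comp_apply] at e1
    have d1 := fun j => (e3 j).differentiableAt.hasDerivAt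
    have d2 := fun j => (e1 j).1.2.1.comp t (d1 j)
    have d3 := fun j => (hasDerivAt_pi.1 (e1 j).1.2.2.2.1 k).comp t (d1 j)
    have d4 := (HasDerivAt.fun_sum (u := Finset.univ) fun j _ => d3 j).congr_of_eventuallyEq
      (f₁ := fun t => Ψ t k) (e2.mono fun s hs => by
        have := congrFun hs k
        rw [sab, Finset.sum_apply] at this
        exact this.symm)
    rw [d4.deriv]
    refine Finset.sum_congr rfl fun j _ => ?_
    rw [show deriv (fun t => (c j).x (ψ (Ψ t) j)) t = _ from (d2 j).deriv]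
    have := (e1 j).2
    field_simp

theorem an_prim {Φ : Fin g → ℍ → ℂ} {f : Fin g → ℍ → ℂ} (hΦ : ∀ k, IsPrim (Φ k) (f k)) (τ : ℍ) :
    AnalyticAt ℂ (fun t k => Φ k (ofComplex t)) τ :=
  analyticAt_pi_iff.2 fun k => an_of_mdiff (hΦ k).mdiff τ

/-- Mumford coordinates of `c + ex Φ` are meromorphic, also at the cusps -/
theorem mero_mum (hc : Cls F g cl) {x w : Fin g → (Fin g → ℂ) → ℂ} (hl : LocInv F g cl ex x w)
    (hM : M ≠ 0) {f Φ : Fin g → ℍ → ℂ} (hf : ∀ k, f k ∈ CS (Gamma M) 2)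
    (hΦ : ∀ k, IsPrim (Φ k) (f k)) {a : A} (ha : IsSum F cl a) (n : ℕ) :
    (Mero fun τ => (mum F g cl (a + ex fun k => Φ k τ)).1.coeff n) ∧
    (Mero fun τ => (mum F g cl (a + ex fun k => Φ k τ)).2.coeff n) ∧
    (∀ s : SL(2, ℤ), Cusp M fun τ => (mum F g cl (a + ex fun k => Φ k (s • τ))).1.coeff n) ∧
    (∀ s : SL(2, ℤ), Cusp M fun τ => (mum F g cl (a + ex fun k => Φ k (s • τ))).2.coeff n) := by
  choose Ψ h1 h2 using fun s k => exists_Psi hM (hf k) (hΦ k) s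
  have h3 := fun s => hl.fam hc ha (Φ := fun t k => Ψ s k t) (analyticAt_pi_iff.2 (h1 s)) n
  refine ⟨fun τ => (hl.fam hc ha (an_prim hΦ τ) n).1, fun τ => (hl.fam hc ha (an_prim hΦ τ) n).2,
    fun s => ⟨_, ∅, (h3 s).1, countable_empty, Eventually.of_forall fun τ _ => ?_⟩,
    fun s => ⟨_, ∅, (h3 s).2, countable_empty, Eventually.of_forall fun τ _ => ?_⟩⟩ <;>
  simp only [h2]

/-- **the formal solution has symmetric functions in `K0 M`** -/
theorem exists_sol (hc : Cls F g cl) (he : IsExp F g cl ex) (hM : 3 ≤ M) {f : Fin g → ℍ → ℂ}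
    (hf : ∀ k, f k ∈ CS (Gamma M) 2)
    (hper : ∀ γ ∈ Gamma M, ex (fun k => 2 * π * Complex.I * per (f k) γ) = 0) :
    ∃ x w : Fin g → HS ℂ, (∀ n, (∏ j, (X - C (x j))).coeff n ∈ K0 M) ∧
      (∀ j, w j ^ 2 = aeval (x j) F) ∧
      ∀ k : Fin g, ∑ j, x j ^ (k : ℕ) * ((M : ℂ) • th (x j)) / w j =
        HahnSeries.C (M : ℂ) * qf (f k) := by
  classical
  have hM0 : M ≠ 0 := by omega
  have hF : Squarefree F := hc.sep.squarefree
  obtain ⟨c, hx, hB⟩ := exists_charts hF g (Fin g) F.roots.toFinset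
  have hw : ∀ j, (c j).w 0 ≠ 0 := fun j h => hB j (by
    have := (c j).on0
    rw [h] at this
    rw [Multiset.mem_toFinset, mem_roots hF.ne_zero]
    simpa using this.symm)
  obtain ⟨x, w, hl, x0, w0, ode⟩ := exists_loc he c hx
  have hf' : ∀ k, (2 * π * Complex.I : ℂ) • f k ∈ CS (Gamma M) 2 := fun k =>
    Submodule.smul_mem _ _ (hf k)
  have hP : ∀ k, IsPrim (prim ((2 * π * Complex.I : ℂ) • f k)) _ := fun k => isPrim_prim (hf' k).1
  choose Ψ0 a0 e0 using fun k => exists_Psi hM0 (hf' k) (hP k) 1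
  simp only [one_smul] at e0
  set Φ : Fin g → ℍ → ℂ := fun k τ => prim ((2 * π * Complex.I : ℂ) • f k) τ - Ψ0 k 0 with hΦd
  have hΦ : ∀ k, IsPrim (Φ k) ((2 * π * Complex.I : ℂ) • f k) := fun k => by
    have := (hP k).sub (isPrim_const (Ψ0 k 0))
    rwa [sub_zero] at this
  set Ψ : ℂ → Fin g → ℂ := fun t k => Ψ0 k t - Ψ0 k 0 with hΨd
  have aΨ' : ∀ k, AnalyticAt ℂ (fun t => Ψ t k) 0 := fun k => (a0 k).sub analyticAt_const
  have aΨ : AnalyticAt ℂ Ψ 0 := analyticAt_pi_iff.2 aΨ'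
  have zΨ : Ψ 0 = 0 := funext fun k => sub_self _
  have eΨ : ∀ k (τ : ℍ), Φ k τ = Ψ (Function.Periodic.qParam M τ) k := fun k τ => by
    simp only [hΦd, hΨd, e0]
  have tΨ : Tendsto Ψ (𝓝 0) (𝓝 0) := by simpa [zΨ] using aΨ.continuousAt.tendsto
  have ax : ∀ j, AnalyticAt ℂ (fun t => x j (Ψ t)) 0 := fun j => (hl.anx j).comp_of_eq aΨ zΨ
  have aw : ∀ j, AnalyticAt ℂ (fun t => w j (Ψ t)) 0 := fun j => (hl.anw j).comp_of_eq aΨ zΨ
  have nw : ∀ j, w j (Ψ 0) ≠ 0 := fun j => by rw [zΨ, w0]; exact hw j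
  have ha : IsSum F cl (∑ j, cl (x j 0, w j 0)) :=
    IsSum.sum (P := fun j => (x j 0, w j 0)) fun j => (hl.on j).self_of_nhds
  refine ⟨fun j => tq M fun t => x j (Ψ t), fun j => tq M fun t => w j (Ψ t), fun n => ?_,
    fun j => ?_, fun k => ?_⟩
  · obtain ⟨m1, -, m2, -⟩ := mero_mum hc hl hM0 hf' hΦ ha n
    obtain ⟨p1, p2⟩ := tq_coeff_prod (M := M) ax n
    rw [← p2]
    refine tq_mem_K0 hM m1 (fun γ hγ => AE.of_eq (funext fun τ => ?_)) m2 p1 countable_empty ?_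
    · have : (fun k => Φ k (γ • τ)) =
          (fun k => 2 * π * Complex.I * per (f k) γ) + fun k => Φ k τ := funext fun k => by
        rw [per_SL (hΦ k) ((hf' k).2.1 γ hγ), per_smul _ (hf k).1]; rfl
      rw [this, map_add, hper γ hγ, zero_add]
    · have hi : Function.Injective fun j => x j 0 := by simpa only [x0] using hx
      filter_upwards [(tΨ.comp ((tend_q hM0).mono_right nhdsWithin_le_nhds)).eventually
        (hl.mum_near hc hi)] with τ hτ _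
      simp only [eΨ]
      exact congrArg (fun p : ℂ[X] × ℂ[X] => p.1.coeff n) hτ.2
  · rw [← tq_eval hM0 (ax j), pow_two, ← tq_mul (aw j) (aw j)]
    exact tq_congr ((tΨ.eventually (hl.on j)).mono fun t ht => (pow_two _).symm.trans ht)
  · rw [← th_tq_Psi hM0 (isF_of_CS (hf k)) (hΦ k) (aΨ' k) (eΨ k)]
    let X' : Fin g → An0 := fun j => ⟨_, ax j⟩
    let D' : Fin g → An0 := fun j => ⟨_, analyticAt_id.mul (ax j).deriv⟩
    let W' : Fin g → An0 := fun j => ⟨_, (aw j).inv (nw j)⟩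
    have e1 : tqH M (∑ j, X' j ^ (k : ℕ) * D' j * W' j) = tq M (id * deriv fun t => Ψ t k) := by
      refine tq_congr ((ode Ψ aΨ zΨ hw k).mono fun t ht => ?_)
      show ev0 t _ = t * _
      rw [← ht, map_sum, Finset.mul_sum]
      refine Finset.sum_congr rfl fun j _ => ?_
      rw [map_mul, map_mul, map_pow]
      show x j (Ψ t) ^ (k : ℕ) * (t * _) * (w j (Ψ t))⁻¹ = _
      ring
    rw [← e1, map_sum]
    refine Finset.sum_congr rfl fun j _ => ?_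
    rw [map_mul, map_mul, map_pow, th_tq hM0 (ax j), div_eq_mul_inv,
      ← (tq_inv (M := M) (aw j) (nw j)).2]
    rfl

/-- **scalar bound for a modular parametrisation** -/
theorem scal_mod {ex : (Fin 3 → ℂ) →+ A} (hc : Cls F 3 cl) (he : IsExp F 3 cl ex) {c a1 a2 a3 : ℂ}
    (hF : F = C c * X * (X ^ 2 - C a1) * (X ^ 2 - C a2) * (X ^ 2 - C a3)) (hM : 3 ≤ M)
    {f : Fin 3 → ℍ → ℂ} (hf : ∀ k, f k ∈ CS (Gamma M) 2)
    (hper : ∀ γ ∈ Gamma M, ex (fun k => 2 * π * Complex.I * per (f k) γ) = 0)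
    (hB : qf (f 1) ∈ Bz) (v : Valuation ℂ ℝ≥0) (r : ℚ) :
    v ((1944 * (M * (qf (f 1)).coeff r)) ^ 4 * T1 c a1 a2 a3) ≤ 1 ∧
      v ((1944 * (M * (qf (f 1)).coeff r)) ^ 4 * T2 c a1 a2 a3) ≤ 1 := by
  obtain ⟨x, w, h1, h2, h3⟩ := exists_sol hc he hM hf hper
  simp only [Fin.prod_univ_three, Cubic.prod_X_sub_C_eq] at h1
  have k1 := (K0 M).neg_mem (h1 2)
  have k2 := h1 1
  have k3 := (K0 M).neg_mem (h1 0)
  simp only [Cubic.coeff_eq_b, Cubic.coeff_eq_c, Cubic.coeff_eq_d, neg_neg] at k1 k2 k3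
  have hg : HahnSeries.C (M : ℂ) * qf (f 1) ∈ K0 M :=
    mul_mem ((K0 M).algebraMap_mem _) (qf_mem_K0 hM (isF_of_CS (hf 1)))
  have hgB : HahnSeries.C (M : ℂ) * qf (f 1) ∈ Bz := mul_mem (Bz.algebraMap_mem _) hB
  have h4 := h3 1
  simp only [Fin.sum_univ_three, Fin.val_one, pow_one] at h4
  have h5 : ∀ j, w j ^ 2 = HahnSeries.C c * x j * (x j ^ 2 - HahnSeries.C a1) *
      (x j ^ 2 - HahnSeries.C a2) * (x j ^ 2 - HahnSeries.C a3) := fun j => by
    rw [h2, hF]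
    simp only [map_mul, map_sub, map_pow, aeval_C, aeval_X, algebraMap_HS]
  let ι := algebraMap ℂ (K0 M)
  haveI : CharZero (HS ℂ) := charZero_of_injective_ringHom (algebraMap ℂ (HS ℂ)).injective
  obtain ⟨r1, r2⟩ := scal_ext (wK v M) (K0 M).val.toRingHom ((M : ℂ) • th) (dK M) (fun _ => rfl)
    wK_dK (c := ι c) (a1 := ι a1) (a2 := ι a2) (a3 := ι a3) (e1 := ⟨_, k1⟩) (e2 := ⟨_, k2⟩)
    (e3 := ⟨_, k3⟩) (g := ⟨_, hg⟩) ((dK M).map_algebraMap _) ((dK M).map_algebraMap _)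
    ((dK M).map_algebraMap _) rfl rfl rfl (h5 0) (h5 1) (h5 2) h4
  have key : ∀ T : ℂ, wK v M ((1944 * ⟨_, hg⟩) ^ 4 * ι T) ≤ 1 →
      v ((1944 * (M * (qf (f 1)).coeff r)) ^ 4 * T) ≤ 1 := fun T hT => by
    refine le_trans ?_ hT
    have e : (1944 : K0 M) = ι 1944 := (map_ofNat ι 1944).symm
    rw [e, map_mul, map_mul, map_pow, map_pow, map_mul, map_mul (wK v M), wK_const, wK_const,
      ← coeff_C_mul]
    exact mul_le_mul_left (pow_le_pow_left' (mul_le_mul_right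
      (coeff_le_wK (x := ⟨_, hg⟩) hgB r) _) 4) _
  rw [← map_T1 ι] at r1
  rw [← map_T2 ι] at r2
  exact ⟨key _ r1, key _ r2⟩



end Crest.Agent.T15.Mod
end
end

-- ▼ part T15/Scal_53
section

/-!
# T15 / Scal (helper53): the leaves `ScalStmt` and `ValStmt`
-/

set_option autoImplicit false
set_option linter.all false

noncomputable section

namespace Crest.Agent.T15.Mod

open UpperHalfPlane CongruenceSubgroup
open scoped MatrixGroups Real
open Crest.Agent.R007.Rat Crest.Agent.T15.Hs Crest.Agent.T15.Mf Crest.Agent.T15.Esc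
open Crest.Agent.T15.Und (QS)

theorem gamma_le (L : ℕ) : Gamma L ≤ Gamma0 L := fun γ h => Gamma0_mem.2 (Gamma_mem.1 h).2.2.1

theorem qf_of_QS {M : ℕ} {k : ℤ} {f : ℍ → ℂ} {c : ℕ → ℂ} (hM : M ≠ 0) (hf : IsF M k f)
    (h : QS c f) : qf f = hq 1 (PowerSeries.mk c) := by
  refine qf_unique hM hf one_ne_zero (lev_hq one_ne_zero _) fun τ => ?_
  rw [hasSum_iff_lev one_ne_zero (lev_hq one_ne_zero _)]
  convert h τ using 2 with n
  rw [coeff_hq one_ne_zero, PowerSeries.coeff_mk, Function.Periodic.qParam, ← Complex.exp_nat_mul]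
  congr 2
  push_cast
  ring

theorem coeff_qf_of_QS {M : ℕ} {k : ℤ} {f : ℍ → ℂ} {c : ℕ → ℂ} (hM : M ≠ 0) (hf : IsF M k f)
    (h : QS c f) (n : ℕ) : (qf f).coeff n = c n := by
  have := coeff_hq one_ne_zero (PowerSeries.mk c) n
  rwa [Nat.cast_one, div_one, PowerSeries.coeff_mk, ← qf_of_QS hM hf h] at this

end Crest.Agent.T15.Mod

namespace Crest.Agent.T15.Ht

open Crest.Agent.T15.Mod Crest.Agent.T15.Esc

theorem scalStmt : ScalStmt := by
  intro c0 a1 a2 a3 A _ cl ex L c h lt hL hc ⟨S, hS, hcS⟩ hp v n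
  have h0 : L ≠ 0 := by omega
  have hf := fun k => CS_anti (gamma_le L) (hc k).1
  have := scal_mod lt.cls lt.exp rfl hL hf (fun γ hγ => hp γ (gamma_le L hγ))
    (by
      rw [qf_of_QS h0 (isF_of_CS (hf 1)) (hc 1).2]
      exact (hq_mem one_ne_zero hS fun n => by rw [PowerSeries.coeff_mk]; exact hcS n).1) v n
  rwa [coeff_qf_of_QS h0 (isF_of_CS (hf 1)) (hc 1).2] at this

theorem valStmt : ValStmt := fun _ hl => exists_val hl

end Crest.Agent.T15.Ht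
end
end

-- ▼ part T15/Desc_48
section

/-!
# Row 15, block T (helper48): descent of smooth actions of `Aut ℂ` to `Gal(ℚ̄/ℚ)`

A subgroup `N` of `Aut ℂ` normalised by `Aut(ℂ/ℚ̄)` that contains the pointwise stabiliser of a
finite set contains `Aut(ℂ/K)` for a number field `K`.
-/

set_option autoImplicit false

noncomputable section

namespace Crest.Agent.T15.Desc

open Cardinal TensorProduct Crest.Agent.T15.Cg

theorem ext_alg (R K L : Type) [CommRing R] [Field K] [Field L] [IsAlgClosed K] [IsAlgClosed L]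
    [Algebra R K] [Algebra R L] [FaithfulSMul R K] [FaithfulSMul R L] (hR : #R ≤ ℵ₀)
    (hK : ℵ₀ < #K) (hKL : #K = #L) :
    ∃ e : K ≃+* L, ∀ r, e (algebraMap R K r) = algebraMap R L r := by
  have : Nontrivial R := RingHom.domain_nontrivial (algebraMap R K)
  obtain ⟨s, hs⟩ := exists_isTranscendenceBasis R K
  obtain ⟨t, ht⟩ := exists_isTranscendenceBasis R L
  have h1 := IsAlgClosed.cardinal_eq_cardinal_transcendence_basis_of_aleph0_lt' _ hs hR hK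
  have h2 := IsAlgClosed.cardinal_eq_cardinal_transcendence_basis_of_aleph0_lt' _ ht hR (hKL ▸ hK)
  obtain ⟨e⟩ := Cardinal.eq.1 (h1.symm.trans (hKL.trans h2))
  let := IsAlgClosed.isAlgClosure_of_transcendence_basis _ hs
  let := IsAlgClosed.isAlgClosure_of_transcendence_basis _ ht
  let e' : Algebra.adjoin R (Set.range ((↑) : s → K)) ≃ₐ[R]
      Algebra.adjoin R (Set.range ((↑) : t → L)) :=
    (hs.1.aevalEquiv.symm.trans (MvPolynomial.renameEquiv R e)).trans ht.1.aevalEquiv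
  refine ⟨IsAlgClosure.equivOfEquiv K L e'.toRingEquiv, fun r => ?_⟩
  have a1 : algebraMap R K r = algebraMap (Algebra.adjoin R (Set.range ((↑) : s → K))) K
    (algebraMap R _ r) := rfl
  rw [a1, IsAlgClosure.equivOfEquiv_algebraMap]
  exact congrArg (algebraMap (Algebra.adjoin R (Set.range ((↑) : t → L))) L) (e'.commutes r)

theorem ext_hom {R K L : Type} [CommRing R] [Field K] [Field L] [IsAlgClosed K] [IsAlgClosed L]
    (f : R →+* K) (g : R →+* L) (hf : Function.Injective f) (hg : Function.Injective g)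
    (hR : #R ≤ ℵ₀) (hK : ℵ₀ < #K) (hKL : #K = #L) : ∃ e : K ≃+* L, ∀ r, e (f r) = g r := by
  let := f.toAlgebra
  let := g.toAlgebra
  have : FaithfulSMul R K := (faithfulSMul_iff_algebraMap_injective R K).2 hf
  have : FaithfulSMul R L := (faithfulSMul_iff_algebraMap_injective R L).2 hg
  exact ext_alg R K L hR hK hKL

/-- two points of a countable ring with the same kernel are conjugate -/
theorem ext_ker {R : Type} [CommRing R] (hR : #R ≤ ℵ₀) (f g : R →+* ℂ)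
    (h : ∀ r, f r = 0 ↔ g r = 0) : ∃ σ : ℂ ≃+* ℂ, ∀ r, σ (f r) = g r := by
  have hk : RingHom.ker f = RingHom.ker g := Ideal.ext h
  obtain ⟨σ, hσ⟩ := ext_hom (RingHom.kerLift f)
    (Ideal.Quotient.lift (RingHom.ker f) g fun a ha => (h a).1 ha) (RingHom.kerLift_injective f)
    (RingHom.lift_injective_of_ker_le_ideal _ _ hk.ge)
    ((mk_le_of_surjective Ideal.Quotient.mk_surjective).trans hR)
    (by rw [mk_complex]; exact aleph0_lt_continuum) rfl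
  exact ⟨σ, fun r => hσ (Ideal.Quotient.mk _ r)⟩

variable {E : Type} [Field E] [CharZero E] [IsGalois ℚ E] (ι : E →+* ℂ)

lemma mk_E : #E ≤ ℵ₀ := mk_le_aleph0_iff.2 countable_E

lemma mk_poly (T : Finset ℂ) : #(MvPolynomial T E) ≤ ℵ₀ :=
  MvPolynomial.cardinalMk_le_max.trans (max_le (max_le mk_E mk_le_aleph0) le_rfl)

/-- an endomorphism of `ℂ` over `E` agrees with an automorphism on a finite set -/
theorem exists_agree (f : ℂ →+* ℂ) (hf : ∀ x, f (ι x) = ι x) (T : Finset ℂ) :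
    ∃ τ : ℂ ≃+* ℂ, (∀ x, τ (ι x) = ι x) ∧ ∀ a ∈ T, τ a = f a := by
  obtain ⟨τ, hτ⟩ := ext_ker (mk_poly (E := E) T) (MvPolynomial.eval₂Hom ι ((↑) : T → ℂ))
    (f.comp (MvPolynomial.eval₂Hom ι ((↑) : T → ℂ))) fun r => by
      rw [RingHom.comp_apply, map_eq_zero_iff f f.injective]
  refine ⟨τ, fun x => ?_, fun a ha => ?_⟩
  · simpa [hf] using hτ (MvPolynomial.C x)
  · simpa using hτ (MvPolynomial.X ⟨a, ha⟩)

/-- amalgam: two endomorphisms of `ℂ` over `E` with independent images -/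
theorem exists_amalg [IsAlgClosed E] (σ : ℂ ≃+* ℂ) (hσ : ∀ x, σ (ι x) = ι x) :
    ∃ (f₁ f₂ : ℂ →+* ℂ) (ρ : ℂ ≃+* ℂ), (∀ x, f₁ (ι x) = ι x) ∧ (∀ x, f₂ (ι x) = ι x) ∧
      (∀ a, ρ (f₁ a) = f₁ (σ a)) ∧ ∀ a, ρ (f₂ a) = f₂ a := by
  let := ι.toAlgebra
  have : IsDomain (ℂ ⊗[E] ℂ) := Crest.Agent.R270.TSame_927.isDomain_tensor
  let F := FractionRing (ℂ ⊗[E] ℂ)
  let K := AlgebraicClosure F
  let j : ℂ ⊗[E] ℂ →+* K := (algebraMap F K).comp (algebraMap _ F)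
  let l : ℂ →+* ℂ ⊗[E] ℂ := Algebra.TensorProduct.includeLeftRingHom
  let r : ℂ →+* ℂ ⊗[E] ℂ := (Algebra.TensorProduct.includeRight (R := E) (A := ℂ)).toRingHom
  have hD : #(ℂ ⊗[E] ℂ) ≤ 𝔠 := by
    have h : Function.Surjective fun S : Finset (ℂ × ℂ) => ∑ i ∈ S, i.1 ⊗ₜ[E] i.2 := fun x =>
      let ⟨S, hS⟩ := TensorProduct.exists_finset x
      ⟨S, hS.symm⟩
    refine (mk_le_of_surjective h).trans ?_
    rw [mk_finset_of_infinite]
    simp
  have hK : #K = 𝔠 := by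
    refine le_antisymm ((Algebra.IsAlgebraic.cardinalMk_le_max F K).trans
      (max_le ?_ aleph0_le_continuum)) ?_
    · rw [FractionRing.cardinalMk]; exact hD
    · rw [← mk_complex]; exact mk_le_of_injective (j.comp l).injective
  obtain ⟨ψ, hψ⟩ := ext_hom ((j.comp l).comp ι) ι (RingHom.injective _) ι.injective mk_E
    (by rw [hK]; exact aleph0_lt_continuum) (by rw [hK, mk_complex])
  let σE : ℂ ≃ₐ[E] ℂ := { σ with commutes' := hσ }
  let σD : ℂ ⊗[E] ℂ ≃ₐ[E] ℂ ⊗[E] ℂ := Algebra.TensorProduct.congr σE AlgEquiv.refl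
  let σF : F ≃+* F := IsFractionRing.ringEquivOfRingEquiv σD.toRingEquiv
  let σK : K ≃+* K := IsAlgClosure.equivOfEquiv K K σF
  have key : ∀ x, σK (j x) = j (σD x) := fun x => by
    change σK (algebraMap F K (algebraMap _ F x)) = algebraMap F K (algebraMap _ F (σD x))
    rw [IsAlgClosure.equivOfEquiv_algebraMap, IsFractionRing.ringEquivOfRingEquiv_algebraMap]
    rfl
  refine ⟨ψ.toRingHom.comp (j.comp l), ψ.toRingHom.comp (j.comp r), ψ.symm.trans (σK.trans ψ),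
    hψ, fun x => ?_, fun a => ?_, fun a => ?_⟩
  · refine Eq.trans ?_ (hψ x)
    change ψ (j ((1 : ℂ) ⊗ₜ[E] algebraMap E ℂ x)) = ψ (j (algebraMap E ℂ x ⊗ₜ[E] (1 : ℂ)))
    rw [Algebra.TensorProduct.tmul_one_eq_one_tmul]
  · change ψ (σK (ψ.symm (ψ (j (a ⊗ₜ[E] (1 : ℂ)))))) = ψ (j (σ a ⊗ₜ[E] (1 : ℂ)))
    rw [RingEquiv.symm_apply_apply, key]
    rfl
  · change ψ (σK (ψ.symm (ψ (j ((1 : ℂ) ⊗ₜ[E] a))))) = ψ (j ((1 : ℂ) ⊗ₜ[E] a))
    rw [RingEquiv.symm_apply_apply, key]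
    change ψ (j (σ 1 ⊗ₜ[E] a)) = _
    rw [map_one]

/-- rigidity -/
theorem rigid [IsAlgClosed E] (N : Subgroup (ℂ ≃+* ℂ))
    (hN : ∀ τ : ℂ ≃+* ℂ, (∀ x, τ (ι x) = ι x) → ∀ n ∈ N, τ * n * τ⁻¹ ∈ N) (S : Finset ℂ)
    (hS : ∀ σ : ℂ ≃+* ℂ, (∀ x, σ (ι x) = ι x) → (∀ a ∈ S, σ a = a) → σ ∈ N) (σ : ℂ ≃+* ℂ)
    (hσ : ∀ x, σ (ι x) = ι x) : σ ∈ N := by
  classical
  obtain ⟨f₁, f₂, ρ, h₁, h₂, hρ₁, hρ₂⟩ := exists_amalg ι σ hσ
  obtain ⟨τ₁, a₁, b₁⟩ := exists_agree ι f₁ h₁ (S ∪ S.image σ)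
  obtain ⟨τ₂, a₂, b₂⟩ := exists_agree ι f₂ h₂ S
  have inv : ∀ τ : ℂ ≃+* ℂ, (∀ x, τ (ι x) = ι x) → ∀ x, τ⁻¹ (ι x) = ι x := fun τ h x =>
    τ.symm_apply_eq.2 (h x).symm
  have hρ : ∀ x, ρ (ι x) = ι x := fun x => by rw [← h₂, hρ₂]
  have e1 : τ₂⁻¹ * ρ * τ₂ ∈ N := by
    refine hS _ (fun x => ?_) fun a ha => ?_
    · change τ₂⁻¹ (ρ (τ₂ (ι x))) = ι x
      rw [a₂, hρ, inv τ₂ a₂]
    · change τ₂.symm (ρ (τ₂ a)) = a
      rw [RingEquiv.symm_apply_eq, b₂ a ha, hρ₂]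
  have e2 : ρ ∈ N := by simpa [mul_assoc] using hN τ₂ a₂ _ e1
  have e3 : τ₁⁻¹ * ρ * τ₁ ∈ N := by simpa using hN τ₁⁻¹ (inv τ₁ a₁) _ e2
  have e4 : σ⁻¹ * (τ₁⁻¹ * ρ * τ₁) ∈ N := by
    refine hS _ (fun x => ?_) fun a ha => ?_
    · change σ⁻¹ (τ₁⁻¹ (ρ (τ₁ (ι x)))) = ι x
      rw [a₁, hρ, inv τ₁ a₁, inv σ hσ]
    · change σ.symm (τ₁.symm (ρ (τ₁ a))) = a
      rw [RingEquiv.symm_apply_eq, RingEquiv.symm_apply_eq,
        b₁ a (Finset.mem_union_left _ ha), hρ₁,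
        b₁ _ (Finset.mem_union_right _ (Finset.mem_image_of_mem _ ha))]
  have e5 := N.mul_mem e3 (N.inv_mem e4)
  rwa [mul_inv_rev, inv_inv, mul_inv_cancel_left] at e5

/-- the ideal of a finite set over `E` is defined over a number field -/
theorem exists_field (S : Finset ℂ) : ∃ K : IntermediateField ℚ E, FiniteDimensional ℚ K ∧
    IsGalois ℚ K ∧ ∀ σ : ℂ ≃+* ℂ, resA ι σ ∈ K.fixingSubgroup →
      ∃ τ : ℂ ≃+* ℂ, (∀ x, τ (ι x) = ι x) ∧ ∀ a ∈ S, τ a = σ a := by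
  classical
  let f : MvPolynomial S E →+* ℂ := MvPolynomial.eval₂Hom ι (↑)
  obtain ⟨T, hT⟩ := (isNoetherianRing_iff_ideal_fg _).1 inferInstance (RingHom.ker f)
  let c : Finset E := T.biUnion MvPolynomial.coeffs
  let K := (FiniteGaloisIntermediateField.adjoin ℚ (c : Set E)).toIntermediateField
  have hc : ∀ x ∈ c, x ∈ K := fun x hx => FiniteGaloisIntermediateField.subset_adjoin ℚ _ hx
  have st : ∀ g ∈ K.fixingSubgroup, ∀ p, f p = 0 →
      f (MvPolynomial.map (g : E →+* E) p) = 0 := fun g hg p hp => by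
    have h : RingHom.ker f ≤ (RingHom.ker f).comap (MvPolynomial.map (g : E →+* E)) := by
      conv_lhs => rw [← hT]
      refine Ideal.span_le.2 fun q hq => ?_
      have e : MvPolynomial.map (g : E →+* E) q = q := by
        ext m
        rw [MvPolynomial.coeff_map]
        by_cases h0 : q.coeff m = 0
        · rw [h0, map_zero]
        · exact (IntermediateField.mem_fixingSubgroup_iff _ _).1 hg _
            (hc _ (Finset.mem_biUnion.2 ⟨q, hq, MvPolynomial.coeff_mem_coeffs m h0⟩))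
      rw [SetLike.mem_coe, Ideal.mem_comap, e, ← hT]
      exact Ideal.subset_span hq
    exact h hp
  refine ⟨K, inferInstance, (FiniteGaloisIntermediateField.adjoin ℚ (c : Set E)).isGalois,
    fun σ hσ => ?_⟩
  let g : MvPolynomial S E →+* ℂ := MvPolynomial.eval₂Hom ι fun a => σ a
  have e : ∀ p, g (MvPolynomial.map (resA ι σ : E →+* E) p) = σ (f p) := fun p => by
    have : g.comp (MvPolynomial.map (resA ι σ : E →+* E)) = σ.toRingHom.comp f := by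
      ext x
      · simp [f, g, iota_resA]
      · simp [f, g]
    exact RingHom.congr_fun this p
  have e' : ∀ p : MvPolynomial S E, MvPolynomial.map (resA ι σ : E →+* E)
      (MvPolynomial.map ((resA ι σ)⁻¹ : E ≃ₐ[ℚ] E).toRingEquiv.toRingHom p) = p := fun p => by
    ext m
    rw [MvPolynomial.coeff_map, MvPolynomial.coeff_map]
    exact (resA ι σ).apply_symm_apply _
  have e'' : ∀ p, g p = σ (f (MvPolynomial.map
      ((resA ι σ)⁻¹ : E ≃ₐ[ℚ] E).toRingEquiv.toRingHom p)) := fun p => by rw [← e, e']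
  obtain ⟨τ, hτ⟩ := ext_ker (mk_poly (E := E) S) f g fun p => by
    rw [e'', map_eq_zero_iff σ σ.injective]
    refine ⟨fun h => st _ (K.fixingSubgroup.inv_mem hσ) p h, fun h => ?_⟩
    have := st _ hσ _ h
    rwa [e'] at this
  refine ⟨τ, fun x => ?_, fun a ha => ?_⟩
  · simpa [f, g] using hτ (MvPolynomial.C x)
  · simpa [f, g] using hτ (MvPolynomial.X ⟨a, ha⟩)

variable [IsAlgClosed E]

/-- **descent**, subgroup form -/
theorem desc_sub (N : Subgroup (ℂ ≃+* ℂ))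
    (hN : ∀ τ : ℂ ≃+* ℂ, (∀ x, τ (ι x) = ι x) → ∀ n ∈ N, τ * n * τ⁻¹ ∈ N) (S : Finset ℂ)
    (hS : ∀ σ : ℂ ≃+* ℂ, (∀ a ∈ S, σ a = a) → σ ∈ N) :
    ∃ K : IntermediateField ℚ E, FiniteDimensional ℚ K ∧ IsGalois ℚ K ∧
      ∀ σ : ℂ ≃+* ℂ, resA ι σ ∈ K.fixingSubgroup → σ ∈ N := by
  obtain ⟨K, h1, h2, h3⟩ := exists_field ι S
  refine ⟨K, h1, h2, fun σ hσ => ?_⟩
  obtain ⟨τ, a, b⟩ := h3 σ hσ
  have e1 := rigid ι N hN S (fun σ _ h => hS σ h) τ a
  have e2 : τ⁻¹ * σ ∈ N := hS _ fun x hx => τ.symm_apply_eq.2 (b x hx).symm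
  simpa using N.mul_mem e1 e2

/-- **descent** of a homomorphism to any monoid -/
theorem desc_hom {M : Type*} [Monoid M] (φ : (ℂ ≃+* ℂ) →* M) (S : Finset ℂ)
    (hS : ∀ σ : ℂ ≃+* ℂ, (∀ a ∈ S, σ a = a) → φ σ = 1) :
    ∃ ρ : (E ≃ₐ[ℚ] E) →* M, (∀ σ, ρ (resA ι σ) = φ σ) ∧ IsOpen (ρ.ker : Set (E ≃ₐ[ℚ] E)) ∧
      ∃ K : IntermediateField ℚ E, FiniteDimensional ℚ K ∧ IsGalois ℚ K ∧
        K.fixingSubgroup ≤ ρ.ker := by
  obtain ⟨K, h1, h2, h3⟩ := desc_sub ι φ.ker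
    (fun τ _ n hn => (MonoidHom.normal_ker φ).conj_mem n hn τ) S hS
  have wd : ∀ σ τ, resA ι σ = resA ι τ → φ σ = φ τ := fun σ τ h => by
    have : φ (τ⁻¹ * σ) = 1 := h3 _ (by rw [map_mul, map_inv, h, inv_mul_cancel]; exact one_mem _)
    rw [← mul_inv_cancel_left τ σ, map_mul, this, mul_one]
  have hs := resA_surjective ι
  let ρ : (E ≃ₐ[ℚ] E) →* M :=
    { toFun := fun g => φ (Function.surjInv hs g)
      map_one' := by
        rw [wd _ 1 (by rw [Function.surjInv_eq hs, map_one]), map_one]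
      map_mul' := fun g h => by
        rw [← map_mul]
        exact wd _ _ (by simp only [map_mul, Function.surjInv_eq hs]) }
  have hρ : ∀ σ, ρ (resA ι σ) = φ σ := fun σ => wd _ _ (Function.surjInv_eq hs _)
  have hK : K.fixingSubgroup ≤ ρ.ker := fun g hg => by
    obtain ⟨σ, rfl⟩ := hs g
    rw [MonoidHom.mem_ker, hρ]
    exact h3 σ hg
  exact ⟨ρ, hρ, Subgroup.isOpen_mono hK K.fixingSubgroup_isOpen, K, h1, h2, hK⟩

omit [Field E] [CharZero E] [IsGalois ℚ E] [IsAlgClosed E] in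
lemma exists_common {X : Type*} [Finite X] (p : X → (ℂ ≃+* ℂ) → Prop)
    (h : ∀ x, ∃ S : Finset ℂ, ∀ σ : ℂ ≃+* ℂ, (∀ a ∈ S, σ a = a) → p x σ) :
    ∃ S : Finset ℂ, ∀ σ : ℂ ≃+* ℂ, (∀ a ∈ S, σ a = a) → ∀ x, p x σ := by
  classical
  have := Fintype.ofFinite X
  choose S hS using h
  exact ⟨Finset.univ.biUnion S, fun σ hσ x => hS x σ fun a ha =>
    hσ a (Finset.mem_biUnion.2 ⟨x, Finset.mem_univ _, ha⟩)⟩


/-- **descent** of a linear action on a finitely generated module -/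
theorem desc_end {O V : Type*} [CommSemiring O] [AddCommMonoid V] [Module O V] [Module.Finite O V]
    (φ : (ℂ ≃+* ℂ) →* Module.End O V)
    (h : ∀ v : V, ∃ S : Finset ℂ, ∀ σ : ℂ ≃+* ℂ, (∀ a ∈ S, σ a = a) → φ σ v = v) :
    ∃ ρ : (E ≃ₐ[ℚ] E) →* Module.End O V, (∀ σ, ρ (resA ι σ) = φ σ) ∧
      IsOpen (ρ.ker : Set (E ≃ₐ[ℚ] E)) ∧
      ∃ K : IntermediateField ℚ E, FiniteDimensional ℚ K ∧ IsGalois ℚ K ∧
        K.fixingSubgroup ≤ ρ.ker := by
  obtain ⟨T, hT⟩ := Module.Finite.fg_top (R := O) (M := V)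
  obtain ⟨S, hS⟩ := exists_common (X := T) (fun v σ => φ σ v = v) fun v => h v
  exact desc_hom ι φ S fun σ hσ => LinearMap.ext_on hT fun v hv => hS σ hσ ⟨v, hv⟩

end Crest.Agent.T15.Desc

end
end

-- ▼ part T15/Sm_48
section

/-!
# Row 15, block T (helper48): the action of `Aut ℂ` on modular functions is smooth
-/

set_option autoImplicit false

noncomputable section

namespace Crest.Agent.T15.Desc

open UpperHalfPlane ModularForm CongruenceSubgroup Matrix.SpecialLinearGroup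
open scoped MatrixGroups
open Crest.Agent.R007 Crest.Agent.R007.Rat Crest.Agent.T15.Mf Crest.Agent.T15.Hs
open Crest.Agent.T15.Cg

/-- qualitative Sturm bound -/
theorem exists_sturm (M : ℕ) [NeZero M] (k : ℤ) : ∃ B : ℕ, ∀ F : ℍ → ℂ, IsF M k F →
    (∀ n < B, PowerSeries.coeff n (qe M F) = 0) → F = 0 := by
  let W : ℕ → Submodule ℂ (FS M k) := fun B =>
    { carrier := {F | ∀ n < B, PowerSeries.coeff n (qe M F.1) = 0}
      add_mem' := fun {F G} hF hG n hn => by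
        rw [Submodule.coe_add, Rat.qe_add F.2 G.2, map_add, hF n hn, hG n hn, add_zero]
      zero_mem' := fun n _ => by rw [Submodule.coe_zero, Rat.qe_zero, map_zero]
      smul_mem' := fun c F hF n hn => by
        rw [Submodule.coe_smul, Rat.qe_smul F.2, map_smul, hF n hn, smul_zero] }
  obtain ⟨B, hB⟩ := IsArtinian.monotone_stabilizes (R := ℂ) (M := FS M k)
    ⟨fun B => OrderDual.toDual (W B), fun a b hab F hF n hn => hF n (hn.trans_le hab)⟩
  refine ⟨B, fun F hF h => (Rat.qe_eq_zero_iff hF).1 (PowerSeries.ext fun n => ?_)⟩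
  have e : W B = W (max B (n + 1)) := hB _ (le_max_left _ _)
  have h1 : (⟨F, hF⟩ : FS M k) ∈ W B := h
  rw [e] at h1
  rw [map_zero]
  exact h1 n (lt_max_of_lt_right n.lt_succ_self)

theorem smooth_form {M : ℕ} (hM : M ≠ 0) {k : ℤ} {F : ℍ → ℂ} (hF : IsF M k F) :
    ∃ S : Finset ℂ, ∀ σ : ℂ →+* ℂ, (∀ a ∈ S, σ a = a) → hm σ (qf F) = qf F := by
  classical
  have hM3 : M * 3 ≠ 0 := mul_ne_zero hM (by norm_num)
  have : NeZero (M * 3) := ⟨hM3⟩
  have hF3 : IsF (M * 3) k F := level_mul_left (N := 3) hF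
  obtain ⟨B, hB⟩ := exists_sturm (M * 3) k
  refine ⟨(Finset.range B).image fun n => PowerSeries.coeff n (qe (M * 3) F), fun σ hσ => ?_⟩
  obtain ⟨s, hs⟩ := exists_zpow_zeta σ (M * 3)
  obtain ⟨F', hF'⟩ := exists_gal (σ := σ) (by omega) hs hF3
  have h1 := qf_of_cjT hM3 hF' (Tw.one s _)
  have h2 := hF'.eq 1 1 (Tw.one s _)
  simp only [SlashAction.slash_one] at h1 h2
  have h3 : F' + (-1 : ℂ) • F = 0 := hB _ (hF'.right.add (hF3.smul _)) fun n hn => by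
    rw [Rat.qe_add hF'.right (hF3.smul _), Rat.qe_smul hF3, map_add, map_smul, h2,
      PowerSeries.coeff_map, hσ _ (Finset.mem_image_of_mem _ (Finset.mem_range.2 hn))]
    simp
  rw [← h1, show F' = F by rw [neg_one_smul, ← sub_eq_add_neg, sub_eq_zero] at h3; exact h3]

/-- **smoothness**: a modular function is fixed by the stabiliser of a finite set -/
theorem smooth_gal (x : FF) :
    ∃ S : Finset ℂ, ∀ σ : ℂ →+* ℂ, (∀ a ∈ S, σ a = a) → gal σ x = x := by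
  classical
  obtain ⟨M, k, F, G, hM, hF, hG, -, rfl⟩ := exists_quo x
  obtain ⟨S, hS⟩ := smooth_form hM hF
  obtain ⟨T, hT⟩ := smooth_form hM hG
  refine ⟨S ∪ T, fun σ hσ => qx_injective ?_⟩
  rw [qx_gal, qx_quo hM hF hG, map_div₀, hS σ fun a ha => hσ a (Finset.mem_union_left _ ha),
    hT σ fun a ha => hσ a (Finset.mem_union_right _ ha)]

theorem smooth (x : FF) :
    ∃ S : Finset ℂ, ∀ σ : ℂ ≃+* ℂ, (∀ a ∈ S, σ a = a) → σ • x = x :=
  let ⟨S, hS⟩ := smooth_gal x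
  ⟨S, fun σ hσ => hS (σ : ℂ →+* ℂ) hσ⟩

variable {E : Type} [Field E] [CharZero E] [IsGalois ℚ E] [IsAlgClosed E] (ι : E →+* ℂ)

/-- a linear action read on modular functions (possibly twisted by the action on a root of unity
`ζ`) descends to `Gal(E/ℚ)` -/
theorem desc_FF {O V : Type*} [CommSemiring O] [AddCommMonoid V] [Module O V] [Module.Finite O V]
    (φ : (ℂ ≃+* ℂ) →* Module.End O V) (S : Finset ℂ)
    (h : ∀ v : V, ∃ T : Finset FF, ∀ σ : ℂ ≃+* ℂ, (∀ a ∈ S, σ a = a) → (∀ f ∈ T, σ • f = f) →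
      φ σ v = v) :
    ∃ ρ : (E ≃ₐ[ℚ] E) →* Module.End O V, (∀ σ, ρ (resA ι σ) = φ σ) ∧
      IsOpen (ρ.ker : Set (E ≃ₐ[ℚ] E)) ∧
      ∃ K : IntermediateField ℚ E, FiniteDimensional ℚ K ∧ IsGalois ℚ K ∧
        K.fixingSubgroup ≤ ρ.ker := by
  classical
  refine desc_end ι φ fun v => ?_
  obtain ⟨T, hT⟩ := h v
  obtain ⟨S', hS'⟩ := exists_common (X := T) (fun f σ => σ • f.1 = f.1) fun f => smooth f.1
  exact ⟨S ∪ S', fun σ hσ => hT σ (fun a ha => hσ a (Finset.mem_union_left _ ha)) fun f hf =>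
    hS' σ (fun a ha => hσ a (Finset.mem_union_right _ ha)) ⟨f, hf⟩⟩

end Crest.Agent.T15.Desc

end
end

-- ▼ part T15/BetAct_91

/-!
# T15 / BetAct (helper91): the Galois action on `Hom(Γ_H(M), A)`
-/

set_option autoImplicit false

noncomputable section

namespace Crest.Agent.T15.Bet

open Crest.Agent.T15.Mf Crest.Agent.T15.Lv Crest.Agent.T15.Hk Crest.Agent.T15.Cg

theorem exists_act {E : Type} [Field E] [CharZero E] [IsGalois ℚ E] [IsAlgClosed E] (ι : E →+* ℂ)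
    {M : ℕ} {H : Subgroup (ZMod M)ˣ} (hM : M ≠ 0) (h4 : 4 ∣ M)
    (hH : ∀ u ∈ H, ZMod.unitsMap h4 u = 1) (n : ℕ) [NeZero n] (O A : Type*) [CommRing O]
    [AddCommGroup A] [Module O A] [Finite A] (hm : ∀ c : A, n • c = 0) :
    ∃ ρ : (E ≃ₐ[ℚ] E) →* Module.End O (HH (Gq M H) A),
      (∀ σ, ActK n (AddMonoidHom.id _) σ (ρ (resA ι σ))) ∧ IsOpen (ρ.ker : Set (E ≃ₐ[ℚ] E)) := by
  classical
  have : NeZero M := ⟨hM⟩
  have := fg_Gq h4 hH
  have := fin_HH (Γ := Gq M H) A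
  have : Module.Finite O (HH (Gq M H) A) := Module.Finite.of_finite
  have : Fintype (A →+ ZMod n) := Fintype.ofFinite _
  obtain ⟨g, hg⟩ := exists_galH (n := n) hM (GH_le_G4 h4 hH)
  obtain ⟨ρ, h1, h2, -⟩ := Desc.desc_FF ι ((Bc.bcE O hm (Gq M H)).toMonoidHom.comp g) ∅ fun v => by
    choose x hx using fun l : A →+ ZMod n => hex_Gq hM h4 hH (l.comp v)
    refine ⟨Finset.univ.image x, fun σ _ hσ => Bc.HH_sep hm fun l => ?_⟩
    have := hg σ _ _ (hx l)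
    rw [hσ _ (Finset.mem_image_of_mem x (Finset.mem_univ l))] at this
    exact (Bc.comp_bcE (O := O) hm (g σ) v l).trans (this.unique (hx l))
  refine ⟨ρ, fun σ l x f hf => ?_, h2⟩
  rw [h1]
  exact (Bc.comp_bcE (O := O) hm (g σ) x l).symm ▸ hg σ _ f hf

end Crest.Agent.T15.Bet
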