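import Crest.Agent.T15.Top_88

/-!
# Row 15, block F (helper22): arithmetic glue

From the side conditions `Top.Side` at the base point `b = 10773 = 81 * 7 * 19` to the integers
`p1 p2 p3 t D` of the family (`r = -p1/p2`).
-/

set_option autoImplicit false

namespace Crest.Agent.T15.Ar

open Crest.Agent.T15.Top

/-- the arithmetic data of a member of the family -/
structure Cert (del : ℚ) (m p1 p2 p3 t D : ℤ) : Prop where
  sum : p1 + p2 + p3 = 0
  cop : IsCoprime p1 p2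
  pos : 0 < p2
  tpos : 0 < t
  prod : p1 * p2 * p3 * ((p2 - p3) * (p3 - p1) * (p1 - p2)) = D * t ^ 2
  sqf : Squarefree D
  neg : D < 0
  two : 2 ∣ D
  three : ¬ 3 ∣ D
  v3 : padicValInt 3 p1 = 4
  v7 : padicValInt 7 p1 = 1
  v19 : padicValInt 19 p1 = 1
  v31 : padicValInt 31 (p3 - p1) = 1
  v139 : padicValInt 139 (p3 - p1) = 1
  real : |(-p1 : ℚ) / p2 - 10773| < del
  one : |(-p1 : ℚ) / p2 - 10773| < 1
  cong : m ∣ p1 + 10773 * p2

theorem val_eq {p : ℕ} [Fact p.Prime] {a : ℤ} {e : ℕ} (h1 : (p : ℤ) ^ e ∣ a)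
    (h2 : ¬ (p : ℤ) ^ (e + 1) ∣ a) : padicValInt p a = e := by
  rw [padicValInt_dvd_iff] at h1 h2
  push Not at h2
  rcases h1 with h1 | h1
  · exact absurd h1 h2.1
  · omega

theorem val_zero {p : ℕ} {a : ℤ} (h : ¬ (p : ℤ) ∣ a) : padicValInt p a = 0 :=
  padicValInt.eq_zero_of_not_dvd h

theorem dvd_iff_val {p : ℕ} [Fact p.Prime] {a : ℤ} (ha : a ≠ 0) :
    (p : ℤ) ∣ a ↔ 0 < padicValInt p a := by
  have := padicValInt_dvd_iff (p := p) 1 a
  rw [pow_one] at this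
  rw [this]; simp [ha]; omega

theorem val_sq {p : ℕ} [Fact p.Prime] {t : ℤ} (ht : t ≠ 0) :
    padicValInt p (t ^ 2) = 2 * padicValInt p t := by
  rw [sq, padicValInt.mul ht ht]; ring

theorem val_le_one {p : ℕ} [hp : Fact p.Prime] {D : ℤ} (h : Squarefree D) :
    padicValInt p D ≤ 1 := by
  by_contra hc
  have h2 : (p : ℤ) ^ 2 ∣ D := (padicValInt_dvd_iff 2 D).2 (Or.inr (by omega))
  rw [sq] at h2
  have := Int.isUnit_iff.1 (h _ h2)
  have := hp.out.two_le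
  omega

theorem val_six {p : ℕ} [Fact p.Prime] {a b c d e f : ℤ} (ha : a ≠ 0) (hb : b ≠ 0) (hc : c ≠ 0)
    (hd : d ≠ 0) (he : e ≠ 0) (hf : f ≠ 0) :
    padicValInt p (a * b * c * (d * e * f)) = padicValInt p a + padicValInt p b + padicValInt p c
      + (padicValInt p d + padicValInt p e + padicValInt p f) := by
  rw [padicValInt.mul (by positivity) (by positivity), padicValInt.mul (by positivity) hc,
    padicValInt.mul ha hb, padicValInt.mul (by positivity) hf, padicValInt.mul hd he]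

/-- real position: `10772 p2 < -p1 < 10774 p2` -/
theorem real_int {p1 p2 : ℤ} (h2 : 0 < p2) (h : |(-p1 : ℚ) / p2 - 10773| < 1) :
    10772 * p2 < -p1 ∧ -p1 < 10774 * p2 := by
  have h2' : (0 : ℚ) < p2 := by exact_mod_cast h2
  rw [abs_lt] at h
  have a : (10772 : ℚ) < (-p1 : ℚ) / p2 := by linarith [h.1]
  have b : (-p1 : ℚ) / p2 < 10774 := by linarith [h.2]
  rw [lt_div_iff₀ h2'] at a
  rw [div_lt_iff₀ h2'] at b
  exact ⟨by exact_mod_cast a, by exact_mod_cast b⟩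

namespace Cert

variable {del : ℚ} {m p1 p2 p3 t D : ℤ}

theorem lo (h : Cert del m p1 p2 p3 t D) : 10772 * p2 < -p1 := (real_int h.pos h.one).1
theorem hi (h : Cert del m p1 p2 p3 t D) : -p1 < 10774 * p2 := (real_int h.pos h.one).2

theorem p1_neg (h : Cert del m p1 p2 p3 t D) : p1 < 0 := by have := h.lo; have := h.pos; omega
theorem p3_pos (h : Cert del m p1 p2 p3 t D) : 0 < p3 := by
  have := h.lo; have := h.pos; have := h.sum; omega
theorem d1_neg (h : Cert del m p1 p2 p3 t D) : p2 - p3 < 0 := by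
  have := h.lo; have := h.pos; have := h.sum; omega
theorem d2_pos (h : Cert del m p1 p2 p3 t D) : 0 < p3 - p1 := by
  have := h.lo; have := h.pos; have := h.sum; omega
theorem d3_neg (h : Cert del m p1 p2 p3 t D) : p1 - p2 < 0 := by
  have := h.lo; have := h.pos; omega

theorem p1_ne (h : Cert del m p1 p2 p3 t D) : p1 ≠ 0 := h.p1_neg.ne
theorem p2_ne (h : Cert del m p1 p2 p3 t D) : p2 ≠ 0 := h.pos.ne'
theorem p3_ne (h : Cert del m p1 p2 p3 t D) : p3 ≠ 0 := h.p3_pos.ne'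
theorem d1_ne (h : Cert del m p1 p2 p3 t D) : p2 - p3 ≠ 0 := h.d1_neg.ne
theorem d2_ne (h : Cert del m p1 p2 p3 t D) : p3 - p1 ≠ 0 := h.d2_pos.ne'
theorem d3_ne (h : Cert del m p1 p2 p3 t D) : p1 - p2 ≠ 0 := h.d3_neg.ne
theorem t_ne (h : Cert del m p1 p2 p3 t D) : t ≠ 0 := h.tpos.ne'
theorem D_ne (h : Cert del m p1 p2 p3 t D) : D ≠ 0 := h.neg.ne

/-- every form has size `p2` up to a constant -/
theorem size (h : Cert del m p1 p2 p3 t D) :
    (p2 ≤ |p1| ∧ |p1| ≤ 21547 * p2) ∧ (p2 ≤ |p3| ∧ |p3| ≤ 21547 * p2) ∧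
    (p2 ≤ |p2 - p3| ∧ |p2 - p3| ≤ 21547 * p2) ∧ (p2 ≤ |p3 - p1| ∧ |p3 - p1| ≤ 21547 * p2) ∧
    (p2 ≤ |p1 - p2| ∧ |p1 - p2| ≤ 21547 * p2) := by
  rw [abs_of_neg h.p1_neg, abs_of_pos h.p3_pos, abs_of_neg h.d1_neg, abs_of_pos h.d2_pos,
    abs_of_neg h.d3_neg]
  have := h.lo; have := h.hi; have := h.pos; have := h.sum
  omega




theorem cop12 (h : Cert del m p1 p2 p3 t D) : IsCoprime p1 p2 := h.cop
theorem cop13 (h : Cert del m p1 p2 p3 t D) : IsCoprime p1 p3 := by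
  obtain ⟨u, v, e⟩ := h.cop
  exact ⟨u - v, -v, by linear_combination e - v * h.sum⟩
theorem cop23 (h : Cert del m p1 p2 p3 t D) : IsCoprime p2 p3 := by
  obtain ⟨u, v, e⟩ := h.cop
  exact ⟨v - u, -u, by linear_combination e - u * h.sum⟩
/-- `p1`, `d2` -/
theorem cop1d2 (h : Cert del m p1 p2 p3 t D) : IsCoprime p1 (p3 - p1) := by
  obtain ⟨u, v, e⟩ := h.cop13
  exact ⟨u + v, v, by linear_combination e⟩
theorem cop1d3 (h : Cert del m p1 p2 p3 t D) : IsCoprime p1 (p1 - p2) := by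
  obtain ⟨u, v, e⟩ := h.cop12
  exact ⟨u + v, -v, by linear_combination e⟩
theorem cop2d1 (h : Cert del m p1 p2 p3 t D) : IsCoprime p2 (p2 - p3) := by
  obtain ⟨u, v, e⟩ := h.cop23
  exact ⟨u + v, -v, by linear_combination e⟩
theorem cop2d3 (h : Cert del m p1 p2 p3 t D) : IsCoprime p2 (p1 - p2) := by
  obtain ⟨u, v, e⟩ := h.cop12
  exact ⟨u + v, u, by linear_combination e⟩
theorem cop3d1 (h : Cert del m p1 p2 p3 t D) : IsCoprime p3 (p2 - p3) := by
  obtain ⟨u, v, e⟩ := h.cop23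
  exact ⟨u + v, u, by linear_combination e⟩
theorem cop3d2 (h : Cert del m p1 p2 p3 t D) : IsCoprime p3 (p3 - p1) := by
  obtain ⟨u, v, e⟩ := h.cop13
  exact ⟨u + v, -u, by linear_combination e⟩
/-- `gcd (p_i, d_i) ∣ 2` -/
theorem dvd1d1 (h : Cert del m p1 p2 p3 t D) {l : ℤ} (h1 : l ∣ p1) (h2 : l ∣ p2 - p3) : l ∣ 2 := by
  obtain ⟨u, v, e⟩ := h.cop12
  have : (2 : ℤ) = (2 * u - v) * p1 + v * (p2 - p3) := by linear_combination -2 * e + v * h.sum
  rw [this]; exact dvd_add (h1.mul_left _) (h2.mul_left _)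
theorem dvd2d2 (h : Cert del m p1 p2 p3 t D) {l : ℤ} (h1 : l ∣ p2) (h2 : l ∣ p3 - p1) : l ∣ 2 := by
  obtain ⟨u, v, e⟩ := h.cop23
  have : (2 : ℤ) = (2 * u - v) * p2 + v * (p3 - p1) := by linear_combination -2 * e + v * h.sum
  rw [this]; exact dvd_add (h1.mul_left _) (h2.mul_left _)
theorem dvd3d3 (h : Cert del m p1 p2 p3 t D) {l : ℤ} (h1 : l ∣ p3) (h2 : l ∣ p1 - p2) : l ∣ 2 := by
  obtain ⟨u, v, e⟩ := h.cop13
  have : (2 : ℤ) = (2 * v - u) * p3 + u * (p1 - p2) := by linear_combination -2 * e + u * h.sum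
  rw [this]; exact dvd_add (h1.mul_left _) (h2.mul_left _)
/-- `gcd (d_i, d_j) ∣ 3` -/
theorem dvdd12 (h : Cert del m p1 p2 p3 t D) {l : ℤ} (h1 : l ∣ p2 - p3) (h2 : l ∣ p3 - p1) :
    l ∣ 3 := by
  obtain ⟨u, v, e⟩ := h.cop12
  have : (3 : ℤ) = (2 * v - u) * (p2 - p3) + (v - 2 * u) * (p3 - p1) := by
    linear_combination -3 * e + (u + v) * h.sum
  rw [this]; exact dvd_add (h1.mul_left _) (h2.mul_left _)
theorem dvdd13 (h : Cert del m p1 p2 p3 t D) {l : ℤ} (h1 : l ∣ p2 - p3) (h2 : l ∣ p1 - p2) :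
    l ∣ 3 :=
  h.dvdd12 h1 (by
    rw [show p3 - p1 = -((p2 - p3) + (p1 - p2)) by ring]; exact (dvd_add h1 h2).neg_right)
theorem dvdd23 (h : Cert del m p1 p2 p3 t D) {l : ℤ} (h1 : l ∣ p3 - p1) (h2 : l ∣ p1 - p2) :
    l ∣ 3 :=
  h.dvdd12 (by
    rw [show p2 - p3 = -((p3 - p1) + (p1 - p2)) by ring]; exact (dvd_add h1 h2).neg_right) h1

/-- the sum of the six valuations -/
theorem val_sum (h : Cert del m p1 p2 p3 t D) (l : ℕ) [Fact l.Prime] :
    padicValInt l p1 + padicValInt l p2 + padicValInt l p3 + (padicValInt l (p2 - p3) +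
      padicValInt l (p3 - p1) + padicValInt l (p1 - p2)) =
      padicValInt l D + 2 * padicValInt l t := by
  rw [← val_six h.p1_ne h.p2_ne h.p3_ne h.d1_ne h.d2_ne h.d3_ne, h.prod,
    padicValInt.mul h.D_ne (pow_ne_zero _ h.t_ne), val_sq h.t_ne]

theorem val_D (h : Cert del m p1 p2 p3 t D) (l : ℕ) [Fact l.Prime] : padicValInt l D ≤ 1 :=
  val_le_one h.sqf

theorem not_both {l : ℕ} (hl : l.Prime) {a b : ℤ} (hc : IsCoprime a b) (h1 : (l : ℤ) ∣ a) :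
    ¬ (l : ℤ) ∣ b := fun h2 => by
  have := Int.isUnit_iff.1 (hc.isUnit_of_dvd' h1 h2)
  have := hl.two_le
  omega

theorem not_dvd_two {l : ℕ} (hl : l.Prime) (h : l ≠ 2) : ¬ (l : ℤ) ∣ 2 := fun h2 =>
  h ((Nat.prime_dvd_prime_iff_eq hl Nat.prime_two).1 (by exact_mod_cast h2))

theorem not_dvd_three {l : ℕ} (hl : l.Prime) (h : l ≠ 3) : ¬ (l : ℤ) ∣ 3 := fun h2 =>
  h ((Nat.prime_dvd_prime_iff_eq hl Nat.prime_three).1 (by exact_mod_cast h2))

/-- an odd prime dividing `p1` divides no other form -/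
theorem only_p1 (h : Cert del m p1 p2 p3 t D) {l : ℕ} (hl : l.Prime) (h2 : l ≠ 2)
    (hd : (l : ℤ) ∣ p1) : ¬ (l : ℤ) ∣ p2 ∧ ¬ (l : ℤ) ∣ p3 ∧ ¬ (l : ℤ) ∣ p2 - p3 ∧
      ¬ (l : ℤ) ∣ p3 - p1 ∧ ¬ (l : ℤ) ∣ p1 - p2 :=
  ⟨not_both hl h.cop12 hd, not_both hl h.cop13 hd, fun e => not_dvd_two hl h2 (h.dvd1d1 hd e),
    not_both hl h.cop1d2 hd, not_both hl h.cop1d3 hd⟩
theorem only_p2 (h : Cert del m p1 p2 p3 t D) {l : ℕ} (hl : l.Prime) (h2 : l ≠ 2)
    (hd : (l : ℤ) ∣ p2) : ¬ (l : ℤ) ∣ p1 ∧ ¬ (l : ℤ) ∣ p3 ∧ ¬ (l : ℤ) ∣ p2 - p3 ∧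
      ¬ (l : ℤ) ∣ p3 - p1 ∧ ¬ (l : ℤ) ∣ p1 - p2 :=
  ⟨not_both hl h.cop12.symm hd, not_both hl h.cop23 hd, not_both hl h.cop2d1 hd,
    fun e => not_dvd_two hl h2 (h.dvd2d2 hd e), not_both hl h.cop2d3 hd⟩
theorem only_p3 (h : Cert del m p1 p2 p3 t D) {l : ℕ} (hl : l.Prime) (h2 : l ≠ 2)
    (hd : (l : ℤ) ∣ p3) : ¬ (l : ℤ) ∣ p1 ∧ ¬ (l : ℤ) ∣ p2 ∧ ¬ (l : ℤ) ∣ p2 - p3 ∧
      ¬ (l : ℤ) ∣ p3 - p1 ∧ ¬ (l : ℤ) ∣ p1 - p2 :=
  ⟨not_both hl h.cop13.symm hd, not_both hl h.cop23.symm hd, not_both hl h.cop3d1 hd,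
    not_both hl h.cop3d2 hd, fun e => not_dvd_two hl h2 (h.dvd3d3 hd e)⟩
/-- a prime `≥ 5` dividing `d1` divides no other form -/
theorem only_d1 (h : Cert del m p1 p2 p3 t D) {l : ℕ} (hl : l.Prime) (h2 : l ≠ 2) (h3 : l ≠ 3)
    (hd : (l : ℤ) ∣ p2 - p3) : ¬ (l : ℤ) ∣ p1 ∧ ¬ (l : ℤ) ∣ p2 ∧ ¬ (l : ℤ) ∣ p3 ∧
      ¬ (l : ℤ) ∣ p3 - p1 ∧ ¬ (l : ℤ) ∣ p1 - p2 :=
  ⟨fun e => not_dvd_two hl h2 (h.dvd1d1 e hd), not_both hl h.cop2d1.symm hd,
    not_both hl h.cop3d1.symm hd, fun e => not_dvd_three hl h3 (h.dvdd12 hd e),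
    fun e => not_dvd_three hl h3 (h.dvdd13 hd e)⟩
theorem only_d2 (h : Cert del m p1 p2 p3 t D) {l : ℕ} (hl : l.Prime) (h2 : l ≠ 2) (h3 : l ≠ 3)
    (hd : (l : ℤ) ∣ p3 - p1) : ¬ (l : ℤ) ∣ p1 ∧ ¬ (l : ℤ) ∣ p2 ∧ ¬ (l : ℤ) ∣ p3 ∧
      ¬ (l : ℤ) ∣ p2 - p3 ∧ ¬ (l : ℤ) ∣ p1 - p2 :=
  ⟨not_both hl h.cop1d2.symm hd, fun e => not_dvd_two hl h2 (h.dvd2d2 e hd),
    not_both hl h.cop3d2.symm hd, fun e => not_dvd_three hl h3 (h.dvdd12 e hd),
    fun e => not_dvd_three hl h3 (h.dvdd23 hd e)⟩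

theorem three_dvd (h : Cert del m p1 p2 p3 t D) : ((3 : ℕ) : ℤ) ∣ p1 := by
  have : Fact (Nat.Prime 3) := ⟨by norm_num⟩
  rw [dvd_iff_val h.p1_ne, h.v3]; norm_num

theorem v3t (h : Cert del m p1 p2 p3 t D) : padicValInt 3 t = 2 := by
  have : Fact (Nat.Prime 3) := ⟨by norm_num⟩
  obtain ⟨a, b, c, d, e⟩ := h.only_p1 (l := 3) (by norm_num) (by norm_num) h.three_dvd
  have s := h.val_sum 3
  rw [h.v3, val_zero a, val_zero b, val_zero c, val_zero d, val_zero e,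
    val_zero (p := 3) h.three] at s
  omega




end Cert

/-! ### the neighbourhood -/

/-- the product of the forms at the base point -/
def P0 : ℕ := 10773 * 10772 * 10771 * 21545 * 10774

/-- the modulus -/
def M0 (m : ℕ) : ℕ := 24 * P0 ^ 2 * m

/-- the neighbourhood of `b = 10773`; forms `r, r - 1, r - 2, 2 r - 1, r + 1` -/
def nb (del : ℚ) (hd : 0 < del) (m : ℕ) (hm : 0 < m) (h17 : ¬ 17 ∣ m) : Nb where
  m := 5
  c := ![1, 1, 1, 2, 1]
  d := ![0, 1, 2, 1, -1]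
  M := M0 m
  b := 10773
  δ := min del 1
  hM := by unfold M0 P0; positivity
  h24 := ⟨P0 ^ 2 * m, by unfold M0; ring⟩
  h17 := by
    intro h
    rcases (Nat.Prime.dvd_mul (by norm_num : Nat.Prime 17)).1 h with h | h
    · revert h; unfold P0; norm_num
    · exact h17 h
  hδ := lt_min hd one_pos
  hc := by intro j; fin_cases j <;> simp
  ne := by intro j; fin_cases j <;> norm_num
  unit := by
    intro p hp hM j
    have key : ∀ a : ℕ, a ∣ P0 → padicValRat p (a : ℚ) = 0 := fun a ha => by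
      rw [padicValRat.of_nat, padicValNat.eq_zero_of_not_dvd]
      · rfl
      · intro h
        exact hM (((h.trans ha).trans (Dvd.intro_left P0 (sq P0).symm)).trans
          ⟨24 * m, by unfold M0; ring⟩)
    fin_cases j
    · have := key 10773 (by unfold P0; norm_num); norm_num at this ⊢; exact this
    · have := key 10772 (by unfold P0; norm_num); norm_num at this ⊢; exact this
    · have := key 10771 (by unfold P0; norm_num); norm_num at this ⊢; exact this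
    · have := key 21545 (by unfold P0; norm_num); norm_num at this ⊢; exact this
    · have := key 10774 (by unfold P0; norm_num); norm_num at this ⊢; exact this

theorem dvd_of_adic {M : ℕ} (hM : 0 < M) (b : ℤ) (y : ℚ)
    (h : ∀ p : ℕ, p.Prime → p ∣ M → y = b ∨ (padicValNat p M : ℤ) ≤ padicValRat p (y - b)) :
    (M : ℤ) ∣ y.num - b * y.den := by
  by_cases hy : y = b
  · subst hy; simp
  have hd : (y.den : ℚ) ≠ 0 := by exact_mod_cast y.den_nz
  have e : y - b = ((y.num - b * y.den : ℤ) : ℚ) / (y.den : ℚ) := by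
    push_cast; field_simp; rw [sub_mul, Rat.mul_den_eq_num]
  have hn : y.num - b * y.den ≠ 0 := by
    intro h0; rw [h0] at e; apply hy; simpa [sub_eq_zero] using e
  rw [Int.natCast_dvd]
  rw [← Nat.factorization_prime_le_iff_dvd hM.ne' (Int.natAbs_ne_zero.2 hn)]
  intro p hp
  have : Fact p.Prime := ⟨hp⟩
  rw [Nat.factorization_def _ hp, Nat.factorization_def _ hp]
  by_cases hpM : p ∣ M
  · rcases h p hp hpM with h1 | h1
    · exact absurd h1 hy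
    · rw [e, padicValRat.div (by exact_mod_cast hn) hd, padicValRat.of_int,
        padicValRat.of_nat] at h1
      unfold padicValInt at h1
      omega
  · rw [padicValNat.eq_zero_of_not_dvd hpM]; exact Nat.zero_le _

theorem loc {a n s : ℤ} (hs : a - 10773 * n = 8 * 243 * 49 * 361 * 961 * 19321 * s)
    (d2 : ¬ 2 ∣ n) (d3 : ¬ 3 ∣ n) (d7 : ¬ 7 ∣ n) (d19 : ¬ 19 ∣ n) (d31 : ¬ 31 ∣ n)
    (d139 : ¬ 139 ∣ n) :
    (padicValInt 2 (-a) = 0 ∧ padicValInt 2 n = 0 ∧ padicValInt 2 (a - n) = 2 ∧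
      padicValInt 2 (n - (a - n)) = 0 ∧ padicValInt 2 (a - n - -a) = 0 ∧
      padicValInt 2 (-a - n) = 1) ∧
    (padicValInt 3 (-a) = 4 ∧ padicValInt 3 n = 0 ∧ padicValInt 3 (a - n) = 0 ∧
      padicValInt 3 (n - (a - n)) = 0 ∧ padicValInt 3 (a - n - -a) = 0 ∧
      padicValInt 3 (-a - n) = 0) ∧
    padicValInt 7 (-a) = 1 ∧ padicValInt 19 (-a) = 1 ∧
    padicValInt 31 (a - n - -a) = 1 ∧ padicValInt 139 (a - n - -a) = 1 := by
  have f2 : Fact (Nat.Prime 2) := ⟨by norm_num⟩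
  have f3 : Fact (Nat.Prime 3) := ⟨by norm_num⟩
  have f7 : Fact (Nat.Prime 7) := ⟨by norm_num⟩
  have f19 : Fact (Nat.Prime 19) := ⟨by norm_num⟩
  have f31 : Fact (Nat.Prime 31) := ⟨by norm_num⟩
  have f139 : Fact (Nat.Prime 139) := ⟨by norm_num⟩
  obtain ⟨s2, e2⟩ : ∃ s2, a = 5 * n + 8 * s2 :=
    ⟨1346 * n + 243 * 49 * 361 * 961 * 19321 * s, by linarith⟩
  obtain ⟨s3, e3⟩ : ∃ s3, a = 81 * n + 243 * s3 :=
    ⟨44 * n + 8 * 49 * 361 * 961 * 19321 * s, by linarith⟩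
  obtain ⟨s7, e7⟩ : ∃ s7, a = 42 * n + 49 * s7 :=
    ⟨219 * n + 8 * 243 * 361 * 961 * 19321 * s, by linarith⟩
  obtain ⟨s19, e19⟩ : ∃ s19, a = 304 * n + 361 * s19 :=
    ⟨29 * n + 8 * 243 * 49 * 961 * 19321 * s, by linarith⟩
  obtain ⟨s31, e31⟩ : ∃ s31, a = 202 * n + 961 * s31 :=
    ⟨11 * n + 8 * 243 * 49 * 361 * 19321 * s, by linarith⟩
  obtain ⟨s139, e139⟩ : ∃ s139, a = 10773 * n + 19321 * s139 :=
    ⟨8 * 243 * 49 * 361 * 961 * s, by linarith⟩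
  clear hs
  refine ⟨?_, ?_, ?_, ?_, ?_, ?_⟩
  · clear * - e2 d2 f2
    refine ⟨val_zero ?_, val_zero ?_, val_eq ?_ ?_, val_zero ?_, val_zero ?_, val_eq ?_ ?_⟩ <;>
      norm_num <;> omega
  · clear * - e3 d3 f3
    refine ⟨val_eq ?_ ?_, val_zero ?_, val_zero ?_, val_zero ?_, val_zero ?_, val_zero ?_⟩ <;>
      norm_num <;> omega
  · clear * - e7 d7 f7
    refine val_eq ?_ ?_ <;> norm_num <;> omega
  · clear * - e19 d19 f19
    refine val_eq ?_ ?_ <;> norm_num <;> omega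
  · clear * - e31 d31 f31
    refine val_eq ?_ ?_ <;> norm_num <;> omega
  · clear * - e139 d139 f139
    refine val_eq ?_ ?_ <;> norm_num <;> omega

/-- from the side conditions to the certificate -/
theorem cert_of {del : ℚ} (hd : 0 < del) {m : ℕ} (hm : 0 < m) (h17 : ¬ 17 ∣ m) {y : ℚ}
    {S : Finset ℕ} (h : Side (nb del hd m hm h17) y S) :
    ∃ t D : ℤ, Cert del m (-y.num) y.den (y.num - y.den) t D ∧
      (∀ p : ℕ, p.Prime → (p : ℤ) ∣ D → p ∣ M0 m ∨ p ∈ S) ∧ D.natAbs ∣ M0 m * ∏ p ∈ S, p := by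
  have hM := dvd_of_adic (M := M0 m) (nb del hd m hm h17).hM 10773 y
    (fun p hp hpM => by simpa [nb] using h.adic p hp hpM)
  have hr : |y - 10773| < min del 1 := h.real
  have hpos : (0 : ℤ) < y.den := by exact_mod_cast y.den_pos
  have ey : (-((-y.num : ℤ) : ℚ)) / ((y.den : ℤ) : ℚ) = y := by
    push_cast; rw [neg_neg, Rat.num_div_den]
  have hone : |(-((-y.num : ℤ) : ℚ)) / ((y.den : ℤ) : ℚ) - 10773| < 1 := by
    rw [ey]; exact hr.trans_le (min_le_right _ _)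
  obtain ⟨lo, hi⟩ := real_int hpos hone
  rw [neg_neg] at lo hi
  have hcop : IsCoprime y.num (y.den : ℤ) := Rat.isCoprime_num_den y
  have ya : y = ((y.num : ℤ) : ℚ) / ((y.den : ℤ) : ℚ) := by push_cast; rw [Rat.num_div_den]
  generalize (y.den : ℤ) = n at *
  generalize y.num = a at *
  have n1 : -a ≠ 0 := by omega
  have n2 : n ≠ 0 := by omega
  have n3 : a - n ≠ 0 := by omega
  have n4 : n - (a - n) ≠ 0 := by omega
  have n5 : a - n - -a ≠ 0 := by omega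
  have n6 : -a - n ≠ 0 := by omega
  set P : ℤ := -a * n * (a - n) * ((n - (a - n)) * (a - n - -a) * (-a - n)) with hP
  have hPneg : P < 0 := by
    have : P = -(a * n * (a - n) * ((a - 2 * n) * (2 * a - n) * (a + n))) := by rw [hP]; ring
    rw [this, neg_lt_zero]
    have : 0 < a := by omega
    have : 0 < a - n := by omega
    have : 0 < a - 2 * n := by omega
    have : 0 < 2 * a - n := by omega
    positivity
  obtain ⟨D, t, hD, ht, e, sq⟩ := Nat.sq_mul_squarefree_of_pos (Int.natAbs_pos.2 hPneg.ne)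
  have eP : P = -(D : ℤ) * (t : ℤ) ^ 2 := by
    have : ((t ^ 2 * D : ℕ) : ℤ) = -P := by rw [e, Int.natCast_natAbs, abs_of_neg hPneg]
    push_cast at this; linarith
  have hD0 : -(D : ℤ) ≠ 0 := by omega
  have ht0 : (t : ℤ) ≠ 0 := by omega
  have sqD : Squarefree (-(D : ℤ)) := by rw [← Int.squarefree_natAbs]; simpa using sq
  have vs : ∀ (l : ℕ) [Fact l.Prime], padicValInt l (-a) + padicValInt l n + padicValInt l (a - n)
      + (padicValInt l (n - (a - n)) + padicValInt l (a - n - -a) + padicValInt l (-a - n)) =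
      padicValInt l (-(D : ℤ)) + 2 * padicValInt l t := fun l _ => by
    rw [← val_six n1 n2 n3 n4 n5 n6, ← hP, eP, padicValInt.mul hD0 (pow_ne_zero _ ht0), val_sq ht0]
  have hK : (8 * 243 * 49 * 361 * 961 * 19321 : ℤ) ∣ a - 10773 * n := by
    refine Dvd.dvd.trans ?_ hM
    have : (8 * 243 * 49 * 361 * 961 * 19321 : ℕ) ∣ M0 m :=
      Dvd.dvd.mul_right (by unfold P0; norm_num) m
    exact_mod_cast this
  obtain ⟨s, hs⟩ := hK
  obtain ⟨u, v, huv⟩ := hcop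
  have nd : ∀ l : ℤ, 1 < l → l ∣ 8 * 243 * 49 * 361 * 961 * 19321 → ¬ l ∣ n :=
      fun l hl h1 h2 => by
    have h3 : l ∣ a := by
      have : a = 8 * 243 * 49 * 361 * 961 * 19321 * s + 10773 * n := by linarith
      rw [this]; exact dvd_add (h1.mul_right _) (h2.mul_left _)
    have : l ∣ 1 := huv ▸ dvd_add (h3.mul_left _) (h2.mul_left _)
    have := Int.le_of_dvd one_pos this
    omega
  have d2 := nd 2 (by norm_num) (by norm_num)
  have d3 := nd 3 (by norm_num) (by norm_num)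
  have d7 := nd 7 (by norm_num) (by norm_num)
  have d19 := nd 19 (by norm_num) (by norm_num)
  have d31 := nd 31 (by norm_num) (by norm_num)
  have d139 := nd 139 (by norm_num) (by norm_num)
  have f2 : Fact (Nat.Prime 2) := ⟨by norm_num⟩
  have f3 : Fact (Nat.Prime 3) := ⟨by norm_num⟩
  obtain ⟨⟨a1, a2, a3, a4, a5, a6⟩, ⟨v3, b2, b3, b4, b5, b6⟩, v7, v19, v31, v139⟩ :=
    loc hs d2 d3 d7 d19 d31 d139
  have two : (2 : ℤ) ∣ -(D : ℤ) := by
    have s2 := vs 2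
    rw [a1, a2, a3, a4, a5, a6] at s2
    exact (dvd_iff_val (p := 2) hD0).2 (by clear * - s2; omega)
  have three : ¬ (3 : ℤ) ∣ -(D : ℤ) := by
    have s3 := vs 3
    rw [v3, b2, b3, b4, b5, b6] at s3
    intro h3
    have c1 := (dvd_iff_val (p := 3) hD0).1 h3
    have c2 := val_le_one (p := 3) sqD
    clear * - s3 c1 c2
    omega
  have hprime : ∀ p : ℕ, p.Prime → (p : ℤ) ∣ -(D : ℤ) → p ∣ M0 m ∨ p ∈ S := by
    intro p hp hpD
    by_contra hc
    push Not at hc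
    have : Fact p.Prime := ⟨hp⟩
    have ev := h.even p hp hc.1 hc.2
    have hnq : (n : ℚ) ≠ 0 := by exact_mod_cast n2
    have k : ∀ (j : Fin 5) (z : ℤ), z ≠ 0 → ((nb del hd m hm h17).fm j y) ^ 2 = ((z : ℚ) / n) ^ 2 →
        Even ((padicValInt p z : ℤ) - padicValInt p n) := fun j z hz e => by
      have e1 := ev j
      have e2 := congrArg (padicValRat p) e
      rw [padicValRat.pow, padicValRat.pow, padicValRat.div (by exact_mod_cast hz) hnq,
        padicValRat.of_int, padicValRat.of_int] at e2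
      obtain ⟨w, hw⟩ := e1
      exact ⟨w, by push_cast at e2; omega⟩
    obtain ⟨w0, k0⟩ := k 0 (-a) n1 (by rw [ya]; simp [Nb.fm, nb]; field_simp)
    obtain ⟨w1, k1⟩ := k 1 (a - n) n3 (by rw [ya]; simp [Nb.fm, nb]; field_simp)
    obtain ⟨w2, k2⟩ := k 2 (n - (a - n)) n4 (by rw [ya]; simp [Nb.fm, nb]; field_simp; ring)
    obtain ⟨w3, k3⟩ := k 3 (a - n - -a) n5 (by rw [ya]; simp [Nb.fm, nb]; field_simp; ring)
    obtain ⟨w4, k4⟩ := k 4 (-a - n) n6 (by rw [ya]; simp [Nb.fm, nb]; field_simp; ring)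
    have s := vs p
    have c1 := (dvd_iff_val hD0).1 hpD
    have c2 := val_le_one (p := p) sqD
    clear * - s c1 c2 k0 k1 k2 k3 k4
    omega
  refine ⟨t, -D, ⟨by ring, ⟨-u, v, by linear_combination huv⟩, hpos, by exact_mod_cast ht, eP, sqD,
    neg_lt_zero.2 (by exact_mod_cast hD), two, three, v3, v7, v19, v31, v139, ?_, hone, ?_⟩, hprime, ?_⟩
  · rw [ey]; exact hr.trans_le (min_le_left _ _)
  · have : (m : ℤ) ∣ (M0 m : ℤ) := by exact_mod_cast Dvd.intro_left _ rfl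
    rw [show -a + 10773 * n = -(a - 10773 * n) by ring]
    exact (this.trans hM).neg_right
  · rw [Int.natAbs_neg, Int.natAbs_natCast]
    have hne : M0 m * ∏ p ∈ S, p ≠ 0 :=
      mul_ne_zero (nb del hd m hm h17).hM.ne' (Finset.prod_ne_zero_iff.2 fun p hp =>
        (h.prime p hp).ne_zero)
    rw [← Nat.factorization_prime_le_iff_dvd hD.ne' hne]
    intro p hp
    by_cases hpD : p ∣ D
    · have h1 : D.factorization p ≤ 1 := sq.natFactorization_le_one p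
      have h2 : p ∣ M0 m * ∏ p ∈ S, p := by
        rcases hprime p hp (by exact_mod_cast (Int.natCast_dvd_natCast.2 hpD).neg_right) with h3 | h3
        · exact h3.mul_right _
        · exact (Finset.dvd_prod_of_mem _ h3).mul_left _
      exact h1.trans ((hp.dvd_iff_one_le_factorization hne).1 h2)
    · rw [Nat.factorization_eq_zero_of_not_dvd hpD]; exact Nat.zero_le _

/-- numerator and denominator of `r = -p1/p2` -/
theorem Cert.num_den {del : ℚ} {m p1 p2 p3 t D : ℤ} (h : Cert del m p1 p2 p3 t D) :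
    ((-p1 : ℚ) / p2).num = -p1 ∧ ((((-p1 : ℚ) / p2).den : ℕ) : ℤ) = p2 := by
  have c : Nat.Coprime (-p1).natAbs p2.natAbs := by
    rw [Int.natAbs_neg]; exact Int.isCoprime_iff_gcd_eq_one.1 h.cop
  have a := Rat.num_div_eq_of_coprime h.pos c
  have b := Rat.den_div_eq_of_coprime h.pos c
  push_cast at a b
  exact ⟨a, b⟩

/-- the height of `r = -p1/p2` -/
theorem Cert.height {del : ℚ} {m p1 p2 p3 t D : ℤ} (h : Cert del m p1 p2 p3 t D) :
    Height.logHeight₁ ((-p1 : ℚ) / p2) ≤ Real.log 21547 + Real.log p2 := by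
  obtain ⟨a, b⟩ := h.num_den
  have hp : (0 : ℝ) < p2 := by exact_mod_cast h.pos
  rw [Rat.logHeight₁_eq_log_max, ← Real.log_mul (by norm_num) hp.ne']
  have c := h.size.1.2
  have e : ((max ((-p1 : ℚ) / p2).num.natAbs ((-p1 : ℚ) / p2).den : ℕ) : ℤ) ≤ 21547 * p2 := by
    have := h.pos
    rw [Nat.cast_max, b, a, Int.natCast_natAbs, abs_neg]
    exact max_le c (by omega)
  refine Real.log_le_log (by exact_mod_cast lt_max_of_lt_right (Rat.den_pos _)) ?_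
  generalize max ((-p1 : ℚ) / p2).num.natAbs ((-p1 : ℚ) / p2).den = x at e ⊢
  exact_mod_cast e

/-- `cert_of` with the size bound, in the words of `Top.FStmt` -/
theorem cert_le {del : ℚ} (hd : 0 < del) {m : ℕ} (hm : 0 < m) (h17 : ¬ 17 ∣ m) {y : ℚ}
    {S : Finset ℕ} (h : Side (nb del hd m hm h17) y S) :
    ∃ p1 p2 p3 t D : ℤ, Cert del m p1 p2 p3 t D ∧ y = (-p1 : ℚ) / p2 ∧
      (D.natAbs : ℝ) ≤ (M0 m : ℝ) * (∏ p ∈ S, (p : ℝ)) ^ 1 := by
  obtain ⟨t, D, hc, -, hdv⟩ := cert_of hd hm h17 h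
  refine ⟨_, _, _, t, D, hc, by push_cast; rw [neg_neg, Rat.num_div_den], ?_⟩
  have hS1 : 1 ≤ ∏ p ∈ S, p := Nat.pos_of_ne_zero (Finset.prod_ne_zero_iff.2 fun p hp =>
    (h.prime p hp).ne_zero)
  have hle : D.natAbs ≤ M0 m * ∏ p ∈ S, p :=
    Nat.le_of_dvd (Nat.mul_pos (nb del hd m hm h17).hM hS1) hdv
  rw [pow_one, ← Nat.cast_prod]
  exact_mod_cast hle


end Crest.Agent.T15.Ar
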