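import Crest.Agent.T15.AlgMC_4

/-!
# Row 15, block Ht, bridges (i), (iv): algebraicity over a number field, periods

* `MD` : functions meromorphic on the unit disc, analytic at `0` (a subalgebra), `tayH` Taylor series;
* `InvBy γ U` : `U (e (γ τ)) = U (e τ)` off a countable set;
* `algK` : coefficients integral in a number field, all conjugates invariant ⇒ algebraic over `ℂ(X)`;
* `Xf = E₆² / E₄³`;
* `per_mul_mem` : a multiple of every period lies in the lattice.
-/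

set_option autoImplicit false

open Set Filter Topology Metric Polynomial UpperHalfPlane
open scoped Polynomial.Bivariate MatrixGroups
open Crest.Agent.T15.AlgM

noncomputable section

namespace Crest.Agent.T15.Br

/-! ### countable exceptional sets -/

lemma ev_co {α : Type*} {p : α → Prop} : (∀ᶠ x in cocountable, p x) ↔ {x | ¬ p x}.Countable :=
  mem_cocountable

lemma ev_co_all {α ι : Type*} [Countable ι] {p : ι → α → Prop}
    (h : ∀ i, ∀ᶠ x in cocountable, p i x) : ∀ᶠ x in cocountable, ∀ i, p i x := by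
  rw [ev_co]
  refine (countable_iUnion fun i => ev_co.mp (h i)).mono fun x hx => ?_
  simpa using hx

lemma ev_co_inj {α β : Type*} {f : α → β} (hf : Function.Injective f) {p : β → Prop}
    (h : ∀ᶠ y in cocountable, p y) : ∀ᶠ x in cocountable, p (f x) :=
  ev_co.mpr ((ev_co.mp h).preimage hf)

lemma ev_co_exists {p : ℍ → Prop} (h : ∀ᶠ x in cocountable, p x) : ∃ x, p x := by
  by_contra hn
  push Not at hn
  have h1 : (univ : Set ℍ).Countable := (ev_co.mp h).mono fun x _ => hn x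
  have h2 : Function.Injective fun t : ℝ => t +ᵥ UpperHalfPlane.I := by
    intro s t e
    have := congrArg UpperHalfPlane.re e
    simpa using this
  exact Cardinal.not_countable_real (h1.preimage h2)

lemma ev_co_of_discrete {U : Set ℂ} {p : ℂ → Prop} (h : ∀ x ∈ U, ∀ᶠ y in 𝓝[≠] x, p y) :
    ∀ᶠ q in cocountable, q ∈ U → p q := by
  have h1 : ({z | p z}ᶜ ∩ U).Countable := by
    apply (HereditarilyLindelofSpace.isLindelof _).countable_of_isDiscrete
      (isDiscrete_of_codiscreteWithin _)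
    rw [compl_compl, mem_codiscreteWithin]
    intro x hx
    rw [disjoint_principal_right]
    filter_upwards [h x hx] with y hy
    simp [hy]
  refine ev_co.mpr (h1.mono fun q hq => ?_)
  simp only [mem_ofPred_eq, Classical.not_imp] at hq
  exact ⟨hq.2, hq.1⟩

lemma ee_mem (τ : ℍ) : ee τ ∈ ball (0 : ℂ) 1 := by
  rw [mem_ball_zero_iff, norm_ee, Real.exp_lt_one_iff]
  have := mul_pos (mul_pos two_pos Real.pi_pos) τ.im_pos
  simpa using this

lemma ev_co_ee {p : ℂ → Prop} (h : ∀ᶠ q in cocountable, q ∈ ball (0 : ℂ) 1 → p q) :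
    ∀ᶠ τ : ℍ in cocountable, p (ee τ) := by
  have h1 : ∀ᶠ t : ℂ in cocountable, ee t ∈ ball (0 : ℂ) 1 → p (ee t) :=
    ev_co.mpr (countable_ee (ev_co.mp h))
  exact (ev_co_inj (f := fun τ : ℍ => (τ : ℂ)) (fun _ _ e => UpperHalfPlane.ext e) h1).mono
    fun τ h => h (ee_mem τ)

lemma ev_co_smul (γ : SL(2, ℤ)) {p : ℍ → Prop} (h : ∀ᶠ τ in cocountable, p τ) :
    ∀ᶠ τ in cocountable, p (γ • τ) := ev_co_inj (MulAction.injective γ) h

/-! ### meromorphic functions on the disc -/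

/-- meromorphic on the unit disc, analytic at the origin -/
def MD : Subalgebra ℂ (ℂ → ℂ) where
  carrier := {U | MeromorphicOn U (ball 0 1) ∧ AnalyticAt ℂ U 0}
  mul_mem' ha hb := ⟨ha.1.mul hb.1, ha.2.mul hb.2⟩
  add_mem' ha hb := ⟨ha.1.add hb.1, ha.2.add hb.2⟩
  algebraMap_mem' c := ⟨fun x _ => MeromorphicAt.const c x, analyticAt_const⟩


/-- Taylor series -/
def tayH : MD →ₐ[ℂ] PowerSeries ℂ where
  toFun U := tay U.1
  map_one' := tay_one
  map_mul' a b := tay_mul a.2.2 b.2.2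
  map_zero' := tay_zero
  map_add' a b := tay_add a.2.2 b.2.2
  commutes' c := tay_const c

/-- evaluation -/
def evH (q : ℂ) : MD →ₐ[ℂ] ℂ := (Pi.evalAlgHom ℂ (fun _ : ℂ => ℂ) q).comp MD.val

lemma tay_smul {U : ℂ → ℂ} (hU : AnalyticAt ℂ U 0) (c : ℂ) : tay (c • U) = c • tay U := by
  have : c • U = (fun _ => c) * U := rfl
  rw [this, tay_mul analyticAt_const hU, tay_const, PowerSeries.smul_eq_C_mul]

lemma tay_sub {U V : ℂ → ℂ} (hU : AnalyticAt ℂ U 0) (hV : AnalyticAt ℂ V 0) :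
    tay (U - V) = tay U - tay V := by
  have := tay_add (hU.sub hV) hV
  rw [sub_add_cancel] at this
  rw [this, add_sub_cancel_right]

lemma tay_eq_zero {U : ℂ → ℂ} (hU : AnalyticAt ℂ U 0) (h : tay U = 0) : U =ᶠ[𝓝 0] 0 := by
  by_contra hn
  obtain ⟨n, g, hg, g0, e⟩ := hU.exists_eventuallyEq_pow_smul_nonzero_iff.mpr hn
  have h1 : tay U = tay (id ^ n * g) := tay_congr (e.mono fun z hz => by simpa using hz)
  rw [tay_mul (analyticAt_id.pow n) hg, tay_pow analyticAt_id, tay_id, h] at h1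
  have h2 := (mul_eq_zero.mp h1.symm).resolve_left (pow_ne_zero n PowerSeries.X_ne_zero)
  exact g0 (by rw [← constantCoeff_tay g, h2, map_zero])

lemma tay_inj {U V : ℂ → ℂ} (hU : AnalyticAt ℂ U 0) (hV : AnalyticAt ℂ V 0) (h : tay U = tay V) :
    U =ᶠ[𝓝 0] V :=
  (tay_eq_zero (hU.sub hV) (by rw [tay_sub hU hV, h, sub_self])).mono fun _ h => sub_eq_zero.mp h

lemma zero_ae {S : Set ℂ} (hS : IsPreconnected S) {U : ℂ → ℂ} (hU : MeromorphicOn U S) {a : ℂ}
    (ha : a ∈ S) (h : ∀ᶠ q in 𝓝[≠] a, U q = 0) : ∀ᶠ q in cocountable, q ∈ S → U q = 0 := by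
  refine ev_co_of_discrete fun x hx => ?_
  by_contra hn
  exact hU.meromorphicOrderAt_ne_top_of_isPreconnected hS hx ha
    (fun e => hn (meromorphicOrderAt_eq_top_iff.mp e)) (meromorphicOrderAt_eq_top_iff.mpr h)

lemma ne_ae {S : Set ℂ} (hS : IsPreconnected S) {U : ℂ → ℂ} (hU : MeromorphicOn U S) {a : ℂ}
    (ha : a ∈ S) (h : ¬ ∀ᶠ q in 𝓝[≠] a, U q = 0) : ∀ᶠ q in cocountable, q ∈ S → U q ≠ 0 :=
  ev_co_of_discrete fun x hx => (meromorphicOrderAt_ne_top_iff_eventually_ne_zero (hU x hx)).1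
    (hU.meromorphicOrderAt_ne_top_of_isPreconnected hS ha hx
      fun e => h (meromorphicOrderAt_eq_top_iff.mp e))

lemma MD_zero_ae {U : ℂ → ℂ} (hU : U ∈ MD) (h : tay U = 0) :
    ∀ᶠ τ : ℍ in cocountable, U (ee τ) = 0 :=
  ev_co_ee (p := fun q => U q = 0) (zero_ae (convex_ball 0 1).isPreconnected hU.1
    (mem_ball_self one_pos) (nhdsWithin_le_nhds (tay_eq_zero hU.2 h)))


lemma MD_ne_ae {U : ℂ → ℂ} (hU : U ∈ MD) (h : tay U ≠ 0) :
    ∀ᶠ τ : ℍ in cocountable, U (ee τ) ≠ 0 := by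
  refine ev_co_ee (p := fun q => U q ≠ 0) (ne_ae (convex_ball 0 1).isPreconnected hU.1
    (mem_ball_self one_pos) fun h0 => h ?_)
  have := (hU.2.frequently_zero_iff_eventually_zero).mp h0.frequently
  rw [tay_congr (g := 0) this, tay_zero]

/-! ### algebraic relations -/

/-- `u` is algebraic over `ℂ(x)` -/
def AlgRel (x u : PowerSeries ℂ) : Prop := ∃ Q : ℂ[X][Y], Q ≠ 0 ∧ aevalAeval x u Q = 0

lemma map_aevalAeval {A B : Type*} [CommRing A] [CommRing B] [Algebra ℂ A] [Algebra ℂ B]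
    (φ : A →ₐ[ℂ] B) (a b : A) (Q : ℂ[X][Y]) :
    φ (aevalAeval a b Q) = aevalAeval (φ a) (φ b) Q := by
  have : φ.comp (aevalAeval a b) = aevalAeval (φ a) (φ b) := by
    apply (aevalAevalEquiv ℂ B).symm.injective
    simp [aevalAevalEquiv]
  exact congr($this Q)

/-- pointwise form of an algebraic relation -/
lemma AlgRel.ae {X U : ℂ → ℂ} (hX : X ∈ MD) (hU : U ∈ MD) (h : AlgRel (tay X) (tay U)) :
    ∃ Q : ℂ[X][Y], Q ≠ 0 ∧ ∀ᶠ τ : ℍ in cocountable, Q.evalEval (X (ee τ)) (U (ee τ)) = 0 := by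
  obtain ⟨Q, hQ, h⟩ := h
  refine ⟨Q, hQ, ?_⟩
  set G : MD := aevalAeval (⟨X, hX⟩ : MD) ⟨U, hU⟩ Q with hG
  have h1 : tay G.1 = 0 := (map_aevalAeval tayH _ _ Q).trans h
  filter_upwards [MD_zero_ae G.2 h1] with τ hτ
  have := map_aevalAeval (evH (ee τ)) (⟨X, hX⟩ : MD) ⟨U, hU⟩ Q
  rw [coe_aevalAeval_eq_evalEval] at this
  exact this.symm.trans hτ

/-- not constant -/
def NC (x : PowerSeries ℂ) : Prop := ∀ c : ℂ, x ≠ PowerSeries.C c

lemma NC.aeval_ne {x : PowerSeries ℂ} (hx : NC x) {p : ℂ[X]} (hp : p ≠ 0) : aeval x p ≠ 0 := by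
  intro h
  have hs := IsAlgClosed.splits p
  rw [hs.eq_prod_roots, map_mul, map_multiset_prod] at h
  rcases mul_eq_zero.mp h with h | h
  · rw [aeval_C] at h
    exact leadingCoeff_ne_zero.mpr hp ((algebraMap ℂ (PowerSeries ℂ)).injective
      (h.trans (map_zero _).symm))
  · rw [Multiset.prod_eq_zero_iff, Multiset.map_map, Multiset.mem_map] at h
    obtain ⟨c, -, hc⟩ := h
    apply hx c
    simpa [sub_eq_zero] using hc

lemma aevalAeval_eq (x u : PowerSeries ℂ) (Q : ℂ[X][Y]) :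
    aevalAeval x u Q = aeval u (Q.map ((aeval x).codRestrict (Algebra.adjoin ℂ {x})
      fun _ => Polynomial.aeval_mem_adjoin_singleton ℂ x).toRingHom) := by
  induction Q using Polynomial.induction_on' with
  | add p q hp hq => rw [Polynomial.map_add, map_add, map_add, hp, hq]
  | monomial n p =>
    rw [← C_mul_X_pow_eq_monomial, map_mul, map_pow, aevalAeval_C, aevalAeval_Y]
    simp

lemma algRel_iff {x : PowerSeries ℂ} (hx : NC x) (u : PowerSeries ℂ) :
    AlgRel x u ↔ IsAlgebraic (Algebra.adjoin ℂ {x}) u := by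
  set φ := ((aeval x).codRestrict (Algebra.adjoin ℂ {x})
      fun p => Polynomial.aeval_mem_adjoin_singleton ℂ x).toRingHom with hφ
  have hi : Function.Injective φ := by
    rw [injective_iff_map_eq_zero]
    intro p hp
    by_contra h0
    exact hx.aeval_ne h0 (congrArg Subtype.val hp)
  have hs : Function.Surjective φ := by
    rintro ⟨y, hy⟩
    rw [Algebra.adjoin_singleton_eq_range_aeval] at hy
    obtain ⟨p, rfl⟩ := hy
    exact ⟨p, rfl⟩
  constructor
  · rintro ⟨Q, hQ, h⟩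
    exact ⟨Q.map φ, (Polynomial.map_ne_zero_iff hi).mpr hQ, (aevalAeval_eq x u Q).symm.trans h⟩
  · rintro ⟨P, hP, h⟩
    obtain ⟨Q, rfl⟩ := Polynomial.map_surjective φ hs P
    exact ⟨Q, fun e => hP (by simp [e]), (aevalAeval_eq x u Q).trans h⟩

/-! ### invariance -/

/-- invariance under `γ` off a countable set -/
def InvBy (γ : SL(2, ℤ)) (U : ℂ → ℂ) : Prop :=
  ∀ᶠ τ : ℍ in cocountable, U (ee (γ • τ : ℍ)) = U (ee τ)

/-- the parabolic element `(1 0; N 1)` -/
def gN (N : ℕ) : SL(2, ℤ) := ⟨!![1, 0; N, 1], by simp [Matrix.det_fin_two]⟩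

lemma gN_smul (N : ℕ) (τ : ℍ) : ((gN N • τ : ℍ) : ℂ) = τ / (N * τ + 1) := by
  rw [UpperHalfPlane.specialLinearGroup_apply]
  simp [gN]

lemma gN_eq (N : ℕ) : gN N = (ModularGroup.S * ModularGroup.T ^ N * ModularGroup.S⁻¹)⁻¹ := by
  rw [eq_inv_iff_mul_eq_one]
  ext i j
  have := ModularGroup.coe_T_zpow (N : ℤ)
  rw [zpow_natCast] at this
  simp only [Matrix.SpecialLinearGroup.coe_mul, this, Matrix.SpecialLinearGroup.coe_inv,
    ModularGroup.coe_S, gN]
  fin_cases i <;> fin_cases j <;> simp [Matrix.mul_apply, Fin.sum_univ_two, Matrix.adjugate_fin_two]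

theorem algZ {N : ℕ} (hN : 0 < N) {X U : ℂ → ℂ} (hX : X ∈ MD) (hU : U ∈ MD)
    (iX : InvBy (gN N) X) (iU : InvBy (gN N) U) {x u : PowerSeries ℤ} (hx : tay X = toC x)
    (hu : tay U = toC u) : AlgRel (tay X) (tay U) := by
  classical
  have hZ := (ev_co.mp (iX.and iU)).image fun τ : ℍ => (τ : ℂ)
  obtain ⟨D, t, ht, h⟩ := alg_sum hN hX.1 hU.1 hX.2 hU.2 hx hu hZ (by
    intro τ hτ hn
    by_contra hc
    refine hn ⟨⟨τ, hτ⟩, ?_, rfl⟩
    simp only [mem_ofPred_eq, gN_smul]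
    exact hc)
  refine ⟨∑ p : Fin D × Fin D, monomial (p.2 : ℕ) (monomial (p.1 : ℕ) (t p : ℂ)), ?_, ?_⟩
  · intro h0
    apply ht
    funext p
    have := congrArg (fun Q : ℂ[X][Y] => (Q.coeff p.2).coeff p.1) h0
    simp only [finsetSum_coeff, coeff_zero] at this
    rw [Finset.sum_eq_single p] at this
    · simpa using this
    · intro b _ hb
      rw [coeff_monomial]
      split_ifs with h2
      · rw [coeff_monomial, if_neg]
        exact fun h1 => hb (Prod.ext (Fin.ext h1) (Fin.ext h2))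
      · simp
    · simp
  · have := congrArg toC h
    rw [map_sum, map_zero] at this
    rw [map_sum, hx, hu, ← this]
    refine Finset.sum_congr rfl fun p _ => ?_
    simp [← C_mul_X_pow_eq_monomial, mul_assoc]

open NumberField in
/-- **algebraicity over a number field** -/
theorem algK {N : ℕ} (hN : 0 < N) {X : ℂ → ℂ} (hX : X ∈ MD) (iX : InvBy (gN N) X)
    {x : PowerSeries ℤ} (hx : tay X = toC x) (nc : NC (tay X)) {K : Type*} [Field K]
    [NumberField K] {y : PowerSeries K} {d : ℕ} (hd : 0 < d)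
    (hy : ∀ n, IsIntegral ℤ ((d : K) * PowerSeries.coeff n y)) {U : (K →+* ℂ) → ℂ → ℂ}
    (hU : ∀ σ, U σ ∈ MD) (iU : ∀ σ, InvBy (gN N) (U σ))
    (hu : ∀ σ, tay (U σ) = PowerSeries.map σ y) (σ₀ : K →+* ℂ) : AlgRel (tay X) (tay (U σ₀)) := by
  classical
  have key : ∀ a : K, IsIntegral ℤ a →
      IsAlgebraic (Algebra.adjoin ℂ {tay X}) (∑ σ : K →+* ℂ, (σ a * d) • tay (U σ)) := by
    intro a ha
    rw [← algRel_iff nc]
    have h1 : ∀ n, ∃ z : ℤ, (z : ℂ) = ∑ σ : K →+* ℂ, σ (a * (d * PowerSeries.coeff n y)) := by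
      intro n
      have h2 : IsIntegral ℤ (Algebra.trace ℚ K (a * (d * PowerSeries.coeff n y))) :=
        Algebra.isIntegral_trace (ha.mul (hy n))
      obtain ⟨z, hz⟩ := IsIntegrallyClosed.isIntegral_iff.mp h2
      refine ⟨z, ?_⟩
      have h3 := trace_eq_sum_embeddings ℂ (K := ℚ) (L := K)
        (x := a * (d * PowerSeries.coeff n y))
      rw [← hz] at h3
      rw [← (RingHom.equivRatAlgHom K ℂ).symm.sum_comp]
      simpa using h3
    choose z hz using h1
    have hS : (∑ σ : K →+* ℂ, (σ a * d) • U σ) ∈ MD :=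
      MD.sum_mem fun σ _ => MD.smul_mem (hU σ) _
    have hT : tay (∑ σ : K →+* ℂ, (σ a * d) • U σ) = ∑ σ : K →+* ℂ, (σ a * d) • tay (U σ) := by
      rw [tay_sum _ fun σ _ => (MD.smul_mem (hU σ) _).2]
      exact Finset.sum_congr rfl fun σ _ => tay_smul (hU σ).2 _
    rw [← hT]
    refine algZ hN hX hS iX ?_ hx (u := PowerSeries.mk z) ?_
    · filter_upwards [ev_co_all iU] with τ hτ
      simp only [Finset.sum_apply, Pi.smul_apply, hτ]
    · rw [hT]
      ext n
      simp [hz, hu, mul_assoc]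
  let b := canonicalEmbedding.latticeBasis K
  have hb := b.sum_repr (Pi.single σ₀ 1)
  have hd' : (d : ℂ) ≠ 0 := by exact_mod_cast hd.ne'
  have h2 : tay (U σ₀) = ∑ i, (b.repr (Pi.single σ₀ 1) i / d) •
      ∑ σ : K →+* ℂ, (σ (integralBasis K i) * d) • tay (U σ) := by
    simp_rw [Finset.smul_sum, smul_smul]
    rw [Finset.sum_comm]
    simp_rw [← Finset.sum_smul]
    have h3 : ∀ σ : K →+* ℂ, ∑ i, b.repr (Pi.single σ₀ 1) i / d * (σ (integralBasis K i) * d) =
        (Pi.single σ₀ 1 : (K →+* ℂ) → ℂ) σ := by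
      intro σ
      rw [← congrFun hb σ, Finset.sum_apply]
      refine Finset.sum_congr rfl fun i _ => ?_
      simp only [b, canonicalEmbedding.latticeBasis_apply, Pi.smul_apply, smul_eq_mul,
        canonicalEmbedding.apply_at]
      field_simp
    simp_rw [h3]
    rw [Finset.sum_eq_single σ₀] <;> simp +contextual
  rw [algRel_iff nc, h2]
  refine Finset.sum_induction _ _ (fun _ _ => IsAlgebraic.add) isAlgebraic_zero fun i _ => ?_
  rw [Algebra.smul_def]
  refine IsAlgebraic.mul ?_ (key _ ?_)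
  · exact isAlgebraic_algebraMap (algebraMap ℂ (Algebra.adjoin ℂ {tay X}) _)
  · rw [integralBasis_apply]
    exact RingOfIntegers.isIntegral_coe _

/-! ### the function `E₆² / E₄³` -/

open ModularForm ArithmeticFunction in
/-- integral `q`-expansions of `E₄`, `E₆` -/
def eZ (c : ℤ) (k : ℕ) : PowerSeries ℤ :=
  PowerSeries.mk fun m => if m = 0 then 1 else c * (sigma k m : ℤ)

open ModularForm in
lemma tay_E4 : tay (cuspFunction 1 E₄) = toC (eZ 240 3) := by
  ext m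
  have := EisensteinSeries.E_qExpansion_coeff (by norm_num : 3 ≤ 4) ⟨2, rfl⟩ m
  rw [show _root_.bernoulli 4 = -1 / 30 by decide +kernel] at this
  refine Eq.trans (b := (qExpansion 1 E₄).coeff m) (by rw [coeff_tay, qExpansion_coeff]) ?_
  rw [this]
  by_cases hm : m = 0 <;> simp [eZ, hm]
  norm_num

open ModularForm in
lemma tay_E6 : tay (cuspFunction 1 E₆) = toC (eZ (-504) 5) := by
  ext m
  have := EisensteinSeries.E_qExpansion_coeff (by norm_num : 3 ≤ 6) ⟨3, rfl⟩ m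
  rw [show _root_.bernoulli 6 = 1 / 42 by decide +kernel] at this
  refine Eq.trans (b := (qExpansion 1 E₆).coeff m) (by rw [coeff_tay, qExpansion_coeff]) ?_
  rw [this]
  by_cases hm : m = 0 <;> simp [eZ, hm]
  norm_num

open ModularForm in
/-- `E₆² / E₄³ = 1 - 1728 / j` as a function of `q` -/
def Xf : ℂ → ℂ := cuspFunction 1 E₆ ^ 2 / cuspFunction 1 E₄ ^ 3

/-- its integral expansion -/
def xZ : PowerSeries ℤ := eZ (-504) 5 ^ 2 * PowerSeries.invOfUnit (eZ 240 3) 1 ^ 3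

lemma cusp_an {k : ℤ} (f : ModularForm 𝒮ℒ k) : AnalyticOnNhd ℂ (cuspFunction 1 f) (ball 0 1) :=
  DifferentiableOn.analyticOnNhd (fun _ hq => (ModularFormClass.differentiableAt_cuspFunction f
    one_pos one_mem_strictPeriods_SL (mem_ball_zero_iff.mp hq)).differentiableWithinAt) isOpen_ball

open ModularForm in
lemma E4_zero : cuspFunction 1 E₄ 0 = 1 := by
  rw [← constantCoeff_tay (cuspFunction 1 E₄), tay_E4, ← PowerSeries.coeff_zero_eq_constantCoeff_apply]
  simp [eZ]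

open ModularForm in
lemma Xf_mem : Xf ∈ MD :=
  ⟨((cusp_an E₆).meromorphicOn.pow 2).div ((cusp_an E₄).meromorphicOn.pow 3),
    ((cusp_an E₆ 0 (mem_ball_self one_pos)).pow 2).div
      ((cusp_an E₄ 0 (mem_ball_self one_pos)).pow 3) (by simp [E4_zero])⟩

lemma eZ_inv : eZ 240 3 * PowerSeries.invOfUnit (eZ 240 3) 1 = 1 :=
  PowerSeries.mul_invOfUnit _ _ (by
    rw [← PowerSeries.coeff_zero_eq_constantCoeff_apply]
    simp [eZ])

lemma xZ_mul : xZ * eZ 240 3 ^ 3 = eZ (-504) 5 ^ 2 := by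
  rw [xZ, mul_assoc, ← mul_pow, mul_comm _ (eZ 240 3), eZ_inv, one_pow, mul_one]

open ModularForm in
lemma tay_Xf : tay Xf = toC xZ := by
  have a4 := cusp_an E₄ 0 (mem_ball_self one_pos)
  have a6 := cusp_an E₆ 0 (mem_ball_self one_pos)
  have h1 : tay (Xf * cuspFunction 1 E₄ ^ 3) = tay (cuspFunction 1 E₆ ^ 2) := by
    refine tay_congr ?_
    filter_upwards [a4.continuousAt.eventually_ne (y := 0) (by simp [E4_zero])] with q hq
    simp only [Xf, Pi.mul_apply, Pi.div_apply, Pi.pow_apply]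
    field_simp
  rw [tay_mul Xf_mem.2 (a4.pow 3), tay_pow a4, tay_pow a6, tay_E4, tay_E6, ← map_pow, ← map_pow,
    ← xZ_mul, map_mul] at h1
  refine mul_right_cancel₀ ?_ h1
  intro h0
  have := congrArg toC (congrArg (· ^ 3) eZ_inv)
  simp only [mul_pow, map_mul, h0] at this
  simp at this

lemma Xf_nc : NC (tay Xf) := by
  intro c hc
  have h := congrArg toC xZ_mul
  rw [map_mul, ← tay_Xf, hc] at h
  have e0 : ∀ (c : ℤ) (k : ℕ), PowerSeries.coeff 0 (eZ c k) = 1 := fun c k => by simp [eZ]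
  have e1 : ∀ (c : ℤ) (k : ℕ), PowerSeries.coeff 1 (eZ c k) = c := fun c k => by simp [eZ]
  have h0 := congrArg (PowerSeries.coeff 0) h
  have h1 := congrArg (PowerSeries.coeff 1) h
  simp only [PowerSeries.coeff_C_mul, PowerSeries.coeff_map, pow_succ, pow_zero, one_mul,
    PowerSeries.coeff_one_mul, e1,
    PowerSeries.coeff_zero_eq_constantCoeff, map_mul] at h0 h1
  simp only [← PowerSeries.coeff_zero_eq_constantCoeff_apply, PowerSeries.coeff_map, e0] at h0 h1
  simp at h0 h1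
  rw [h0] at h1
  norm_num at h1

open ModularForm in
lemma Xf_inv (γ : SL(2, ℤ)) (τ : ℍ) : Xf (ee (γ • τ : ℍ)) = Xf (ee τ) := by
  have h : ∀ {k : ℤ} (f : ModularForm 𝒮ℒ k) (z : ℍ), cuspFunction 1 f (ee z) = f z := by
    intro k f z
    rw [← qParam_one]
    exact SlashInvariantFormClass.eq_cuspFunction f z one_mem_strictPeriods_SL one_ne_zero
  have hd : denom γ τ ≠ 0 := denom_ne_zero _ _
  simp only [Xf, Pi.div_apply, Pi.pow_apply, h]
  have e4 : E₄ (γ • τ) = denom γ τ ^ (4 : ℤ) * E₄ τ :=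
    SlashInvariantForm.slash_action_eqn'' (Γ := 𝒮ℒ) E₄ (γ := (γ : GL (Fin 2) ℝ)) ⟨γ, rfl⟩ τ
  have e6 : E₆ (γ • τ) = denom γ τ ^ (6 : ℤ) * E₆ τ :=
    SlashInvariantForm.slash_action_eqn'' (Γ := 𝒮ℒ) E₆ (γ := (γ : GL (Fin 2) ℝ)) ⟨γ, rfl⟩ τ
  rw [e4, e6, mul_pow, mul_pow]
  have : (denom γ τ ^ (6 : ℤ)) ^ 2 = (denom γ τ ^ (4 : ℤ)) ^ 3 := by
    rw [zpow_ofNat, zpow_ofNat, ← pow_mul, ← pow_mul]
  rw [this, mul_div_mul_left _ _ (pow_ne_zero _ (zpow_ne_zero _ hd))]

lemma Xf_invBy (γ : SL(2, ℤ)) : InvBy γ Xf := Eventually.of_forall (Xf_inv γ)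

/-! ### periods -/

/-- **a multiple of the period lies in the lattice** -/
theorem per_mul_mem {ι E : Type*} [Finite ι] [AddCommGroup E] (Λ : AddSubgroup E) {Φ : ℍ → E}
    {δ : SL(2, ℤ)} {w : E} (hΦ : ∀ τ, Φ (δ • τ) = w + Φ τ) {U : ι → ℂ → ℂ} (hU : ∀ i, U i ∈ MD)
    (alg : ∀ i, AlgRel (tay Xf) (tay (U i))) {p : ℍ → Prop} (hp : ∀ᶠ τ in cocountable, p τ)
    (sep : ∀ τ τ', p τ → p τ' → (∀ i, U i (ee τ) = U i (ee τ')) → Φ τ - Φ τ' ∈ Λ) :
    ∃ k : ℕ, 0 < k ∧ k • w ∈ Λ := by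
  classical
  choose Q hQ hQe using fun i => (alg i).ae Xf_mem (hU i)
  have h1 : ∀ i, ∀ᶠ τ : ℍ in cocountable, (Q i).leadingCoeff.eval (Xf (ee τ)) ≠ 0 := by
    intro i
    set G : MD := aeval (⟨Xf, Xf_mem⟩ : MD) (Q i).leadingCoeff with hG
    have h2 : tay G.1 ≠ 0 := by
      have := aeval_algHom_apply tayH (⟨Xf, Xf_mem⟩ : MD) (Q i).leadingCoeff
      exact fun e => Xf_nc.aeval_ne (leadingCoeff_ne_zero.mpr (hQ i)) (this.trans e)
    filter_upwards [MD_ne_ae G.2 h2] with τ hτ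
    have := aeval_algHom_apply (evH (ee τ)) (⟨Xf, Xf_mem⟩ : MD) (Q i).leadingCoeff
    rw [coe_aeval_eq_eval] at this
    exact fun e => hτ (this.symm.trans e)
  obtain ⟨τ, a, b⟩ := ev_co_exists ((ev_co_all h1).and (ev_co_all fun k : ℕ =>
    ev_co_smul (δ ^ k) (hp.and (ev_co_all hQe))))
  let R : ι → ℂ[X] := fun i => (Q i).map (evalRingHom (Xf (ee τ)))
  have hR : ∀ i, R i ≠ 0 := fun i e => a i (by
    have := congrArg (fun p => p.coeff (Q i).natDegree) e
    simpa [R] using this)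
  have hf : (Set.pi univ fun i => ((R i).roots.toFinset : Set ℂ)).Finite :=
    Set.Finite.pi fun i => Finset.finite_toSet _
  have hmem : ∀ k : ℕ, (fun i => U i (ee (δ ^ k • τ : ℍ))) ∈
      Set.pi univ fun i => ((R i).roots.toFinset : Set ℂ) := by
    intro k i _
    have := (b k).2 i
    rw [Xf_inv] at this
    simp only [Finset.mem_coe, Multiset.mem_toFinset, mem_roots (hR i), IsRoot.def, R]
    rw [map_evalRingHom_eval]
    exact this
  obtain ⟨k, l, hkl, he⟩ := hf.exists_lt_map_eq_of_forall_mem hmem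
  have hpow : ∀ k : ℕ, Φ (δ ^ k • τ) = k • w + Φ τ := by
    intro k
    induction k with
    | zero => simp
    | succ k ih => rw [pow_succ', mul_smul, hΦ, ih, succ_nsmul']; abel
  refine ⟨l - k, Nat.sub_pos_of_lt hkl, ?_⟩
  have := sep _ _ (b l).1 (b k).1 fun i => (congrFun he i).symm
  rw [hpow, hpow] at this
  convert this using 1
  rw [sub_nsmul _ hkl.le]
  abel

end Crest.Agent.T15.Br
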