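import Mathlib
import Crest.Agent.T15.Rk1_31
import Crest.Agent.T15.Hy_90
import Crest.Agent.R013.Rig_280

/-!
# Row 15, block F (helper31): constant field extensions and torsion classes

`F ≤ Ω` algebraically closed, `hι : IsCE Ω ι`.  No compatibility of the `RatFunc` structures.
* `baseP hι : Pic F K →+ Pic Ω L`, `baseP_SI`, `baseP_injective`, `exists_baseP` (torsion classes
  are constant, characteristic zero), `tateBase`, `card_base`;
* `hyp_base` : base change of a hyperelliptic model.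
-/

set_option autoImplicit false
set_option linter.all false

namespace Crest.Agent.T15.Rk

open WithZero Module TensorProduct Polynomial nonZeroDivisors
open Crest.Agent.R013.RR7_948 Crest.Agent.R013.RR8_948 Crest.Agent.R013.RR9_948
open Crest.Agent.R013.RR11_948 Crest.Agent.R013.RR12_948 Crest.Agent.R013.RR13_948
open Crest.Agent.R013.PicD_398 Crest.Agent.R013.Frob1_914 Crest.Agent.R013.TP_928
open Crest.Agent.R013.CE3_280 (IsCE mu mu_tmul Over conP_Over plQ_At)
open Crest.Agent.R013.CE5_280 (base base_conP base_plQ base_single degD_base)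
open Crest.Agent.R013.CE9_280 (KO iota isCE xK_eq)

section alg

variable {F Ω K L L' : Type*} [Field F] [Field Ω] [Algebra F Ω] [Field K] [Algebra F K] [Field L]
  [Algebra Ω L] [Algebra F L] [IsScalarTower F Ω L] [Field L']
  [Algebra Ω L'] [Algebra F L'] [IsScalarTower F Ω L'] {ι : K →ₐ[F] L} {ι' : K →ₐ[F] L'}

/-- uniqueness of the constant field extension -/
theorem exists_iso [IsAlgClosed F] (h : IsCE Ω ι) (h' : IsCE Ω ι') :
    ∃ e : SI Ω L Ω L', e.s = RingEquiv.refl Ω ∧ ∀ f, e.f (ι f) = ι' f := by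
  letI : Algebra (Ω ⊗[F] K) L := (mu (Ω := Ω) ι).toRingHom.toAlgebra
  letI : Algebra (Ω ⊗[F] K) L' := (mu (Ω := Ω) ι').toRingHom.toAlgebra
  haveI : FaithfulSMul (Ω ⊗[F] K) L := (faithfulSMul_iff_algebraMap_injective _ _).mpr h.inj
  haveI : FaithfulSMul (Ω ⊗[F] K) L' := (faithfulSMul_iff_algebraMap_injective _ _).mpr h'.inj
  haveI : IsFractionRing (Ω ⊗[F] K) L := IsFractionRing.of_field _ _ fun z => by
    obtain ⟨a, b, hb, hab⟩ := h.frac z
    exact ⟨a, b, eq_div_of_mul_eq (h.ne_zero hb) hab⟩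
  haveI : IsFractionRing (Ω ⊗[F] K) L' := IsFractionRing.of_field _ _ fun z => by
    obtain ⟨a, b, hb, hab⟩ := h'.frac z
    exact ⟨a, b, eq_div_of_mul_eq (h'.ne_zero hb) hab⟩
  let φ := IsLocalization.algEquiv (Ω ⊗[F] K)⁰ L L'
  have hφ : ∀ t, φ (mu ι t) = mu ι' t := fun t => φ.commutes t
  refine ⟨⟨RingEquiv.refl Ω, φ.toRingEquiv, fun c => ?_⟩, rfl, fun f => ?_⟩
  · have := hφ (c ⊗ₜ 1)
    simpa using this
  · have := hφ (1 ⊗ₜ f)
    simpa using this

theorem aeval_iota (ι : K →ₐ[F] L) (x : K) (p : F[X]) :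
    aeval (ι x) (p.map (algebraMap F Ω)) = ι (aeval x p) := by
  rw [aeval_map_algebraMap, aeval_algHom_apply]

theorem tr_base (h : IsCE Ω ι) {x : K} (hx : ∀ p : F[X], aeval x p = 0 → p = 0) (q : Polynomial Ω)
    (hq : aeval (ι x) q = 0) : q = 0 := by
  have hinj : Function.Injective (aeval (R := F) x) := (injective_iff_map_eq_zero _).mpr hx
  have hind : LinearIndependent F (fun n : Fin (q.natDegree + 1) => x ^ (n : ℕ)) := by
    have h1 := (basisMonomials F).linearIndependent.map'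
      (aeval (R := F) x).toLinearMap (LinearMap.ker_eq_bot.mpr hinj)
    have h2 := h1.comp (fun n : Fin (q.natDegree + 1) => (n : ℕ)) Fin.val_injective
    have h3 : (fun n : Fin (q.natDegree + 1) => x ^ (n : ℕ)) =
        ((aeval (R := F) x).toLinearMap ∘ (basisMonomials F)) ∘
          (fun n : Fin (q.natDegree + 1) => (n : ℕ)) := by
      ext n
      simp [← X_pow_eq_monomial]
    rw [h3]
    exact h2
  have h3 := Crest.Agent.R013.CE8_280.coeff_eq_zero (N := Ω) hind (fun n => q.coeff n) (by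
    apply h.inj
    rw [map_sum, map_zero, ← hq, aeval_eq_sum_range, Finset.sum_range]
    refine Finset.sum_congr rfl fun i _ => ?_
    rw [mu_tmul, map_pow, Algebra.smul_def])
  ext n
  by_cases hn : n < q.natDegree + 1
  · exact congrFun h3 ⟨n, hn⟩
  · rw [coeff_zero]
    exact coeff_eq_zero_of_natDegree_lt (by omega)

theorem norm_ne {k : Type*} [Field k] {G A B : k[X]} (hs : G.Separable) (hp : 0 < G.natDegree)
    (h1 : A ^ 2 - B ^ 2 * G = 0) : A = 0 ∧ B = 0 := by
  by_cases hB : B = 0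
  · subst hB
    exact ⟨by simpa using h1, rfl⟩
  · exfalso
    have h2 : B ^ 2 ∣ A ^ 2 := ⟨G, by linear_combination h1⟩
    obtain ⟨D, rfl⟩ := (IsIntegrallyClosed.pow_dvd_pow_iff two_ne_zero).mp h2
    have h3 : G = D * D := by
      apply mul_left_cancel₀ (pow_ne_zero 2 hB)
      linear_combination -h1
    have h4 : IsUnit D := hs.squarefree D (by rw [h3])
    rw [h3, natDegree_eq_zero_of_isUnit (h4.mul h4)] at hp
    exact lt_irrefl _ hp

open Crest.Agent.T15.Hy in
/-- base change of a hyperelliptic model -/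
theorem hyp_base (h : IsCE Ω ι) {G : F[X]} {x w : K} (hy : Hyp G x w) :
    Hyp (G.map (algebraMap F Ω)) (ι x) (ι w) := by
  have hsq : ι w ^ 2 = aeval (ι x) (G.map (algebraMap F Ω)) := by
    rw [aeval_iota, ← hy.sq, map_pow]
  have hsep : (G.map (algebraMap F Ω)).Separable := hy.sep.map
  have hpos : 0 < (G.map (algebraMap F Ω)).natDegree := by rw [natDegree_map]; exact hy.pos
  refine ⟨?_, hsep, hpos, tr_base h hy.tr, hsq, fun f => ?_⟩
  · rw [← map_ofNat (algebraMap F Ω) 2]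
    exact (_root_.map_ne_zero _).mpr hy.two
  have hmu : ∀ t : Ω ⊗[F] K, ∃ A B c : Polynomial Ω, c ≠ 0 ∧
      mu ι t * aeval (ι x) c = el (ι x) (ι w) A B := by
    intro t
    induction t with
    | zero => exact ⟨0, 0, 1, one_ne_zero, by simp [el]⟩
    | add t t' h h' =>
      obtain ⟨A, B, c, hc, h⟩ := h
      obtain ⟨A', B', c', hc', h'⟩ := h'
      refine ⟨A * c' + A' * c, B * c' + B' * c, c * c', mul_ne_zero hc hc', ?_⟩
      rw [← el_add, ← el_mul_aeval, ← el_mul_aeval, ← h, ← h', map_add, map_mul]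
      ring
    | tmul a g =>
      obtain ⟨A, B, c, hc, h⟩ := hy.gen g
      refine ⟨A.map (algebraMap F Ω) * C a, B.map (algebraMap F Ω) * C a, c.map (algebraMap F Ω),
        Polynomial.map_ne_zero hc, ?_⟩
      have h1 := congrArg ι h
      rw [← el_mul_aeval, mu_tmul, aeval_iota, aeval_C, mul_assoc, ← map_mul, h1, mul_comm]
      simp only [el, map_add, map_mul, aeval_iota]
  obtain ⟨a, b, hb, hab⟩ := h.frac f
  obtain ⟨A, B, c, hc, h1⟩ := hmu a
  obtain ⟨A', B', c', hc', h2⟩ := hmu b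
  have hN : A' ^ 2 - B' ^ 2 * G.map (algebraMap F Ω) ≠ 0 := fun h0 => by
    obtain ⟨rfl, rfl⟩ := norm_ne hsep hpos h0
    have h3 : mu ι b * aeval (ι x) c' = 0 := by rw [h2]; simp [el]
    rcases mul_eq_zero.mp h3 with h4 | h4
    · exact h.ne_zero hb h4
    · exact hc' (tr_base h hy.tr _ h4)
  have key : f * aeval (ι x) (c * (A' ^ 2 - B' ^ 2 * G.map (algebraMap F Ω))) =
      el (ι x) (ι w) A B * el (ι x) (ι w) (A' * c') (-B' * c') := by
    rw [map_mul, ← el_norm hsq, ← h2, ← el_mul_aeval, ← h1, ← hab]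
    ring
  exact ⟨_, _, _, mul_ne_zero hc hN, key.trans (el_mul hsq _ _ _ _)⟩

end alg

variable {F Ω K L : Type*} [Field F] [Field Ω] [Algebra F Ω] [Field K] [Algebra F K] [Field L]
  [Algebra Ω L] [Algebra F L] [IsScalarTower F Ω L] [Algebra (RatFunc F) K]
  [IsScalarTower F (RatFunc F) K] [FiniteDimensional (RatFunc F) K]
  [Algebra.IsSeparable (RatFunc F) K]
  [Algebra (RatFunc Ω) L] [IsScalarTower Ω (RatFunc Ω) L] [FiniteDimensional (RatFunc Ω) L]
  [Algebra.IsSeparable (RatFunc Ω) L] [IsAlgClosed F] [IsAlgClosed Ω] {ι : K →ₐ[F] L}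

theorem base_divf (hι : IsCE Ω ι) {f : K} (hf : f ≠ 0) : base hι (divf f) = divf (ι f) := by
  have hf' : ι f ≠ 0 := by simpa using hf
  ext w
  rcases Crest.Agent.R013.CE3_280.cases hι w with ⟨P, rfl⟩ | ⟨Q, rfl⟩
  · have h1 := (conP_Over hι P).v_iota hι f
    rw [v_eq hf', v_eq hf, exp_inj] at h1
    rw [base_conP]
    omega
  · have h1 := (plQ_At hι Q).iota_eq_one hf
    rw [v_eq hf', ← exp_zero, exp_inj] at h1
    rw [base_plQ]
    omega

/-- base change of classes -/
noncomputable def baseP (hι : IsCE Ω ι) : Pic F K →+ Pic Ω L :=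
  QuotientAddGroup.map _ _ (base hι) (by
    intro D hD
    obtain ⟨f, hf, rfl⟩ := mem_Prin.mp hD
    exact mem_Prin.mpr ⟨_, by simpa using hf, (base_divf hι hf).symm⟩)

theorem baseP_cls (hι : IsCE Ω ι) (D : Pl F K →₀ ℤ) : baseP hι (cls D) = cls (base hι D) := rfl

theorem degPic_baseP (hι : IsCE Ω ι) (x : Pic F K) : degPic (baseP hι x) = degPic x := by
  obtain ⟨D, rfl⟩ := cls_surjective x
  rw [baseP_cls, degPic_cls, degPic_cls, degD_base]

section SI

variable {F' Ω' K' L' : Type*} [Field F'] [Field Ω'] [Algebra F' Ω'] [Field K'] [Algebra F' K']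
  [Field L'] [Algebra Ω' L'] [Algebra F' L'] [IsScalarTower F' Ω' L'] [Algebra (RatFunc F') K']
  [IsScalarTower F' (RatFunc F') K'] [FiniteDimensional (RatFunc F') K']
  [Algebra.IsSeparable (RatFunc F') K']
  [Algebra (RatFunc Ω') L'] [IsScalarTower Ω' (RatFunc Ω') L'] [FiniteDimensional (RatFunc Ω') L']
  [Algebra.IsSeparable (RatFunc Ω') L'] [IsAlgClosed F'] [IsAlgClosed Ω'] {ι' : K' →ₐ[F'] L'}

theorem base_SI (hι : IsCE Ω ι) (hι' : IsCE Ω' ι') {e : SI F K F' K'} {e' : SI Ω L Ω' L'}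
    (h : ∀ f, e'.f (ι f) = ι' (e.f f)) (D : Pl F K →₀ ℤ) :
    e'.D (base hι D) = base hι' (e.D D) := by
  induction D using Finsupp.induction_linear with
  | zero => simp
  | add D E h1 h2 => simp only [map_add, h1, h2]
  | single P n =>
    rw [base_single, SI.D_single, SI.D_single, base_single]
    congr 1
    have h1 : ∀ f : K', (e'.pl (Crest.Agent.R013.CE3_280.conP hι P)).v (ι' f) = (e.pl P).v f := by
      intro f
      have h2 : e'.f.symm (ι' f) = ι (e.f.symm f) := by
        rw [RingEquiv.symm_apply_eq, h, RingEquiv.apply_symm_apply]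
      rw [SI.pl_v, SI.pl_v, h2, (conP_Over hι P).v_iota hι]
    exact Over.unique hι' ⟨fun f hf => by rwa [h1], fun f hf => by rwa [h1]⟩ (conP_Over hι' _)

/-- equivariance of the base change -/
theorem baseP_SI (hι : IsCE Ω ι) (hι' : IsCE Ω' ι') {e : SI F K F' K'} {e' : SI Ω L Ω' L'}
    (h : ∀ f, e'.f (ι f) = ι' (e.f f)) (x : Pic F K) :
    e'.pic (baseP hι x) = baseP hι' (e.pic x) := by
  obtain ⟨D, rfl⟩ := cls_surjective x
  rw [baseP_cls, SI.pic_cls, SI.pic_cls, baseP_cls, base_SI hι hι' h]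

end SI

variable [CharZero F]

theorem baseP_injective (hι : IsCE Ω ι) : Function.Injective (baseP hι) := by
  haveI : CharZero Ω := charZero_of_injective_algebraMap (algebraMap F Ω).injective
  obtain ⟨e, -, he⟩ := exists_iso hι (isCE F K Ω)
  rw [injective_iff_map_eq_zero]
  intro x hx
  have h1 := baseP_SI hι (isCE F K Ω) (e := SI.refl F K) he x
  rw [hx, map_zero, pic_refl] at h1
  obtain ⟨D, rfl⟩ := cls_surjective x
  obtain ⟨g, hg, h2⟩ := cls_eq_zero_iff.mp h1.symm
  obtain ⟨f, hf, rfl⟩ := Crest.Agent.R013.Rig_280.exists_divf_of_base (isCE F K Ω) (xK_eq F K Ω)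
    hg h2.symm
  exact cls_divf hf

/-- **torsion classes are constant** -/
theorem exists_baseP (hι : IsCE Ω ι) {n : ℕ} (hn : n ≠ 0) {y : Pic Ω L} (hy : n • y = 0) :
    ∃ x : Pic F K, n • x = 0 ∧ baseP hι x = y := by
  haveI : CharZero Ω := charZero_of_injective_algebraMap (algebraMap F Ω).injective
  obtain ⟨e, -, he⟩ := exists_iso hι (isCE F K Ω)
  obtain ⟨D, hD⟩ := cls_surjective (e.pic y)
  obtain ⟨f, hf, h1⟩ := Wp.exists_fun (n := n) (D := D) (by rw [hD, ← map_nsmul, hy, map_zero])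
  obtain ⟨D₀, f₀, h, hf₀, hh, h2, h3⟩ := Crest.Agent.R013.Rig_280.torsion_rigid (isCE F K Ω)
    (xK_eq F K Ω) (Nat.pos_of_ne_zero hn) hf h1.symm
  refine ⟨cls D₀, Wp.nsmul_cls hf₀ h2.symm, e.pic.injective ?_⟩
  rw [baseP_SI hι (isCE F K Ω) (e := SI.refl F K) he, pic_refl, baseP_cls, ← hD, h3, map_add,
    cls_divf hh, add_zero]

theorem card_base (hι : IsCE Ω ι) {n : ℕ} (hn : n ≠ 0) :
    Nat.card {x : Pic F K // n • x = 0} = Nat.card {y : Pic Ω L // n • y = 0} := by
  refine Nat.card_eq_of_bijective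
    (fun x => ⟨baseP hι x.1, by rw [← map_nsmul, x.2, map_zero]⟩) ⟨fun x y h => ?_, fun y => ?_⟩
  · exact Subtype.ext (baseP_injective hι (congrArg Subtype.val h))
  · obtain ⟨x, hx, h⟩ := exists_baseP hι hn y.2
    exact ⟨⟨x, hx⟩, Subtype.ext h⟩



end Crest.Agent.T15.Rk
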