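import Mathlib
import Crest.Agent.T15.MoB_29
import Crest.Agent.T15.Rk4_31
import Crest.Agent.R013.RR20_948

-- ▼ part T15/KfA_83
section

/-!
# Row 15, block F (helper83): the fields `Y ⊆ K` of the automorphism family, part A

Parameters `Par`, the equations `E1`, `E2`, the concrete tower `F1 ⊆ F2 ⊆ YY ⊆ KK` over
`RatFunc C` (`X = u`).
-/

set_option autoImplicit false
set_option linter.all false

namespace Crest.Agent.T15.Kf

open Polynomial

/-- parameters of the family -/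
structure Par (C : Type*) [Field C] where
  p1 : C
  p2 : C
  p3 : C
  t : C
  sum : p1 + p2 + p3 = 0
  two : (2 : C) ≠ 0
  h1 : p1 ≠ 0
  h2 : p2 ≠ 0
  h3 : p3 ≠ 0
  e1 : p2 - p3 ≠ 0
  e2 : p3 - p1 ≠ 0
  e3 : p1 - p2 ≠ 0
  ht : t ≠ 0

namespace Par

variable {C : Type*} [Field C] (P : Par C)

def d1 : C := P.p2 - P.p3
def d2 : C := P.p3 - P.p1
def d3 : C := P.p1 - P.p2
def m1 : C := P.p1 * P.d1
def m2 : C := P.p2 * P.d2
def m3 : C := P.p3 * P.d3
def n1 : C := P.p1 * P.d1 ^ 3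
def n2 : C := P.p2 * P.d2 ^ 3
def n3 : C := P.p3 * P.d3 ^ 3
def q : C := P.p1 * P.p2 + P.p1 * P.p3 + P.p2 * P.p3
def pi : C := (P.p1 * P.p2 * P.p3) ^ 2
def V (A B2 : C) : C := (A ^ 2 + B2) / (2 * P.t * P.d3)
def R (A B2 : C) : C := (A ^ 2 - B2) / (2 * P.t * P.d2)
def S (A B : C) : C := A * B / (P.t * P.d1)
def X (A B2 : C) : C := P.p1 * P.p2 * (4 * P.p3 ^ 2 - P.p1 * P.p2) + P.m1 * P.m2 * P.V A B2 ^ 2
/-- the plane quartic -/
def E1 (A B2 : C) : Prop :=
  P.n1 * (A ^ 2 + B2) ^ 2 + 4 * P.n3 * A ^ 2 * B2 = 4 * (P.t * P.d1 * P.d2 * P.d3) ^ 2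
/-- the cubic -/
def E2 (A B2 u : C) : Prop := u ^ 3 + 2 * P.q * u ^ 2 - P.X A B2 * u - 2 * P.pi = 0
/-- the second root of the cubic -/
def nx (A B u : C) : C :=
  (-2 * P.q - u + P.m1 * P.m2 * P.m3 * u * (P.V A (B ^ 2) / (u + P.p1 * P.p2)) *
    (P.R A (B ^ 2) / (u + P.p1 * P.p3)) * (P.S A B / (u + P.p2 * P.p3))) / 2

theorem d1_ne : P.d1 ≠ 0 := P.e1
theorem d2_ne : P.d2 ≠ 0 := P.e2
theorem d3_ne : P.d3 ≠ 0 := P.e3
theorem m1_ne : P.m1 ≠ 0 := mul_ne_zero P.h1 P.e1
theorem m2_ne : P.m2 ≠ 0 := mul_ne_zero P.h2 P.e2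
theorem m3_ne : P.m3 ≠ 0 := mul_ne_zero P.h3 P.e3
theorem n1_ne : P.n1 ≠ 0 := mul_ne_zero P.h1 (pow_ne_zero _ P.e1)
theorem n2_ne : P.n2 ≠ 0 := mul_ne_zero P.h2 (pow_ne_zero _ P.e2)
theorem n3_ne : P.n3 ≠ 0 := mul_ne_zero P.h3 (pow_ne_zero _ P.e3)
theorem pi_ne : P.pi ≠ 0 := pow_ne_zero _ (mul_ne_zero (mul_ne_zero P.h1 P.h2) P.h3)
theorem p3_eq : P.p3 = -P.p1 - P.p2 := by linear_combination P.sum
theorem n_sum : P.n1 + P.n2 + P.n3 = 0 := by
  simp only [n1, n2, n3, d1, d2, d3, P.p3_eq]; ring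

@[ext] theorem ext' {P Q : Par C} (a : P.p1 = Q.p1) (b : P.p2 = Q.p2) (c : P.p3 = Q.p3)
    (d : P.t = Q.t) : P = Q := by
  cases P; cases Q; simp_all

variable {K : Type*} [Field K] {K' : Type*} [Field K']

/-- image of the parameters -/
def map (s : C →+* K) : Par K where
  p1 := s P.p1
  p2 := s P.p2
  p3 := s P.p3
  t := s P.t
  sum := by rw [← map_add, ← map_add, P.sum, map_zero]
  two := by rw [← map_ofNat s 2]; exact (map_ne_zero s).mpr P.two
  h1 := (map_ne_zero s).mpr P.h1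
  h2 := (map_ne_zero s).mpr P.h2
  h3 := (map_ne_zero s).mpr P.h3
  e1 := by rw [← map_sub]; exact (map_ne_zero s).mpr P.e1
  e2 := by rw [← map_sub]; exact (map_ne_zero s).mpr P.e2
  e3 := by rw [← map_sub]; exact (map_ne_zero s).mpr P.e3
  ht := (map_ne_zero s).mpr P.ht

variable (s : C →+* K)

@[simp] theorem map_p1 : (P.map s).p1 = s P.p1 := rfl
@[simp] theorem map_p2 : (P.map s).p2 = s P.p2 := rfl
@[simp] theorem map_p3 : (P.map s).p3 = s P.p3 := rfl
@[simp] theorem map_t : (P.map s).t = s P.t := rfl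
@[simp] theorem map_d1 : (P.map s).d1 = s P.d1 := by simp [d1]
@[simp] theorem map_d2 : (P.map s).d2 = s P.d2 := by simp [d2]
@[simp] theorem map_d3 : (P.map s).d3 = s P.d3 := by simp [d3]
@[simp] theorem map_m1 : (P.map s).m1 = s P.m1 := by simp [m1]
@[simp] theorem map_m2 : (P.map s).m2 = s P.m2 := by simp [m2]
@[simp] theorem map_m3 : (P.map s).m3 = s P.m3 := by simp [m3]
@[simp] theorem map_n1 : (P.map s).n1 = s P.n1 := by simp [n1]
@[simp] theorem map_n2 : (P.map s).n2 = s P.n2 := by simp [n2]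
@[simp] theorem map_n3 : (P.map s).n3 = s P.n3 := by simp [n3]
@[simp] theorem map_q : (P.map s).q = s P.q := by simp [q]
@[simp] theorem map_pi : (P.map s).pi = s P.pi := by simp [pi]
theorem map_map (φ : K →+* K') : (P.map s).map φ = P.map (φ.comp s) := rfl
theorem map_id : P.map (RingHom.id C) = P := rfl

theorem map_V (A B2 : C) : s (P.V A B2) = (P.map s).V (s A) (s B2) := by
  simp [V, map_ofNat]
theorem map_R (A B2 : C) : s (P.R A B2) = (P.map s).R (s A) (s B2) := by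
  simp [R, map_ofNat]
theorem map_S (A B : C) : s (P.S A B) = (P.map s).S (s A) (s B) := by
  simp [S]
theorem map_X (A B2 : C) : s (P.X A B2) = (P.map s).X (s A) (s B2) := by
  simp [X, map_V, map_ofNat]
theorem map_nx (A B u : C) : s (P.nx A B u) = (P.map s).nx (s A) (s B) (s u) := by
  simp [nx, map_V, map_R, map_S, map_ofNat]
theorem map_E1 {A B2 : C} : (P.map s).E1 (s A) (s B2) ↔ P.E1 A B2 := by
  unfold E1
  rw [← s.injective.eq_iff]
  simp [map_ofNat]
theorem map_E2 {A B2 u : C} : (P.map s).E2 (s A) (s B2) (s u) ↔ P.E2 A B2 u := by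
  unfold E2
  rw [← s.injective.eq_iff, ← map_X]
  simp [map_ofNat]

theorem A_sq (A B2 : C) : A ^ 2 = P.t * (P.d3 * P.V A B2 + P.d2 * P.R A B2) := by
  have := P.two; have := P.ht; have := P.d2_ne; have := P.d3_ne
  unfold V R; field_simp; ring

theorem B_sq (A B2 : C) : B2 = P.t * (P.d3 * P.V A B2 - P.d2 * P.R A B2) := by
  have := P.two; have := P.ht; have := P.d2_ne; have := P.d3_ne
  unfold V R; field_simp; ring

theorem V_of {A B2 v r : C} (h1 : A ^ 2 = P.t * (P.d3 * v + P.d2 * r))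
    (h2 : B2 = P.t * (P.d3 * v - P.d2 * r)) : P.V A B2 = v := by
  have := P.two; have := P.ht; have := P.d2_ne; have := P.d3_ne
  unfold V; rw [h1, h2]; field_simp; ring

theorem R_of {A B2 v r : C} (h1 : A ^ 2 = P.t * (P.d3 * v + P.d2 * r))
    (h2 : B2 = P.t * (P.d3 * v - P.d2 * r)) : P.R A B2 = r := by
  have := P.two; have := P.ht; have := P.d2_ne; have := P.d3_ne
  unfold R; rw [h1, h2]; field_simp; ring

theorem E1_iff (A B2 : C) :
    P.E1 A B2 ↔ P.m2 * P.V A B2 ^ 2 + P.m3 * P.R A B2 ^ 2 + P.d1 ^ 2 = 0 := by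
  have hA := P.A_sq A B2
  have hB := P.B_sq A B2
  have hn := P.n_sum
  have h4 : (4 : C) * (P.t * P.d2 * P.d3) ^ 2 ≠ 0 := by
    have : (4 : C) = 2 * 2 := by norm_num
    rw [this]
    exact mul_ne_zero (mul_ne_zero P.two P.two)
      (pow_ne_zero _ (mul_ne_zero (mul_ne_zero P.ht P.e2) P.e3))
  set v := P.V A B2
  set r := P.R A B2
  have key : P.n1 * (A ^ 2 + B2) ^ 2 + 4 * P.n3 * A ^ 2 * B2 - 4 * (P.t * P.d1 * P.d2 * P.d3) ^ 2
      = -(4 * (P.t * P.d2 * P.d3) ^ 2) * (P.m2 * v ^ 2 + P.m3 * r ^ 2 + P.d1 ^ 2) := by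
    have e1 : P.n1 = -P.n2 - P.n3 := by linear_combination hn
    have e2 : 4 * P.n3 * A ^ 2 * B2 = 4 * P.n3 * (A ^ 2 * B2) := by ring
    rw [e2, hA]
    conv_lhs => rw [hB]
    rw [e1]
    simp only [n2, n3, m2, m3]
    ring
  unfold E1
  rw [← sub_eq_zero, key, mul_eq_zero, neg_eq_zero, or_iff_right h4]

theorem E2_iff (A B2 u : C) : P.E2 A B2 u ↔
    P.m1 * P.m2 * P.V A B2 ^ 2 * u = (u - 2 * P.p3 ^ 2) * (u + P.p1 * P.p2) ^ 2 := by
  unfold E2 X
  set v := P.V A B2
  have key : u ^ 3 + 2 * P.q * u ^ 2 -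
      (P.p1 * P.p2 * (4 * P.p3 ^ 2 - P.p1 * P.p2) + P.m1 * P.m2 * v ^ 2) * u - 2 * P.pi
      = (u - 2 * P.p3 ^ 2) * (u + P.p1 * P.p2) ^ 2 - P.m1 * P.m2 * v ^ 2 * u := by
    simp only [q, pi, P.p3_eq]; ring
  rw [key, sub_eq_zero, eq_comm]

theorem idR (u : C) : (u - 2 * P.p3 ^ 2) * (u + P.p1 * P.p2) ^ 2 +
    (2 * P.p2 ^ 2 - u) * (u + P.p1 * P.p3) ^ 2 + P.m1 * P.d1 ^ 2 * u = 0 := by
  simp only [m1, d1, P.p3_eq]; ring

theorem idS (u : C) : P.m3 * P.d3 ^ 2 * ((u - 2 * P.p3 ^ 2) * (u + P.p1 * P.p2) ^ 2) -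
    P.m2 * P.d2 ^ 2 * ((2 * P.p2 ^ 2 - u) * (u + P.p1 * P.p3) ^ 2) =
    P.m1 * P.d1 ^ 2 * ((2 * P.p1 ^ 2 - u) * (u + P.p2 * P.p3) ^ 2) := by
  simp only [m1, m2, m3, d1, d2, d3, P.p3_eq]; ring

variable {P}

theorem V_sq {A B2 u : C} (h2 : P.E2 A B2 u) :
    P.m1 * P.m2 * P.V A B2 ^ 2 * u = (u - 2 * P.p3 ^ 2) * (u + P.p1 * P.p2) ^ 2 :=
  (P.E2_iff A B2 u).mp h2

theorem R_sq {A B2 u : C} (h1 : P.E1 A B2) (h2 : P.E2 A B2 u) :
    P.m1 * P.m3 * P.R A B2 ^ 2 * u = (2 * P.p2 ^ 2 - u) * (u + P.p1 * P.p3) ^ 2 := by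
  have a := (P.E1_iff A B2).mp h1
  have b := V_sq h2
  linear_combination P.m1 * u * a - b - P.idR u

theorem AB_sq {A B2 u : C} (h1 : P.E1 A B2) (h2 : P.E2 A B2 u) :
    P.m2 * P.m3 * (A ^ 2 * B2) * u =
      (P.t * P.d1) ^ 2 * ((2 * P.p1 ^ 2 - u) * (u + P.p2 * P.p3) ^ 2) := by
  have b := V_sq h2
  have c := R_sq h1 h2
  have hAB : A ^ 2 * B2 = P.t ^ 2 * (P.d3 ^ 2 * P.V A B2 ^ 2 - P.d2 ^ 2 * P.R A B2 ^ 2) := by
    have hA := P.A_sq A B2
    have hB := P.B_sq A B2
    set v := P.V A B2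
    set r := P.R A B2
    rw [hA]
    conv_lhs => rw [hB]
    ring
  apply mul_left_cancel₀ P.m1_ne
  rw [hAB]
  linear_combination P.t ^ 2 * P.m3 * P.d3 ^ 2 * b - P.t ^ 2 * P.m2 * P.d2 ^ 2 * c
    + P.t ^ 2 * P.idS u

theorem S_sq {A B u : C} (h1 : P.E1 A (B ^ 2)) (h2 : P.E2 A (B ^ 2) u) :
    P.m2 * P.m3 * P.S A B ^ 2 * u = (2 * P.p1 ^ 2 - u) * (u + P.p2 * P.p3) ^ 2 := by
  have a := AB_sq h1 h2
  have h0 : P.t * P.d1 ≠ 0 := mul_ne_zero P.ht P.e1
  apply mul_left_cancel₀ (pow_ne_zero 2 h0)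
  rw [← a]
  have := P.ht; have := P.d1_ne
  unfold S
  field_simp

theorem u_ne {A B2 u : C} (h2 : P.E2 A B2 u) : u ≠ 0 := by
  rintro rfl
  unfold E2 at h2
  apply mul_ne_zero P.two P.pi_ne
  linear_combination -h2

end Par

/-- `Y = C(A, B2, u)` -/
structure IsY {C : Type*} [Field C] (P : Par C) {Y : Type*} [Field Y] [Algebra C Y]
    (A B2 u : Y) : Prop where
  eq1 : (P.map (algebraMap C Y)).E1 A B2
  eq2 : (P.map (algebraMap C Y)).E2 A B2 u
  tr : Transcendental C u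
  gen : IntermediateField.adjoin C {A, B2, u} = ⊤

/-- `K = C(A, B, u)` -/
structure IsK {C : Type*} [Field C] (P : Par C) {K : Type*} [Field K] [Algebra C K]
    (A B u : K) : Prop where
  eq1 : (P.map (algebraMap C K)).E1 A (B ^ 2)
  eq2 : (P.map (algebraMap C K)).E2 A (B ^ 2) u
  tr : Transcendental C u
  gen : IntermediateField.adjoin C {A, B, u} = ⊤

/-- the second root `x u` of the cubic in a `C`-algebra -/
abbrev xu {C : Type*} [Field C] (P : Par C) {K : Type*} [Field K] [Algebra C K] (A B u : K) : K :=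
  (P.map (algebraMap C K)).nx A B u

/-! ### squares -/

section sq

variable {C : Type*} [Field C]


variable {F : Type*} [Field F]











end sq

end Crest.Agent.T15.Kf
end

-- ▼ part T15/KfE_23
section

/-!
# Row 15, block F (helper23): the subfield `Ei = C(A, B2)` of `Y`

`finrank Ei Y = 3`, `A` is transcendental, `W ^ 2 = a (A ^ 4 - b)`.
-/

set_option autoImplicit false
set_option linter.all false

namespace Crest.Agent.T15.KfJ

open Polynomial Module IntermediateField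
open Crest.Agent.T15.Kf

variable {C Y : Type*} [Field C] [Field Y] [Algebra C Y]

theorem no_root {X0 : Y} (hX : Transcendental C X0) {α β : C} (hβ : β ≠ 0) {r : Y}
    (hr : r ∈ adjoin C {X0}) :
    r ^ 3 + algebraMap C Y α * r ^ 2 - X0 * r - algebraMap C Y β ≠ 0 := by
  intro h
  obtain ⟨a, b, rfl⟩ := (mem_adjoin_simple_iff C r).mp hr
  have inj : Function.Injective (aeval X0 : C[X] →ₐ[C] Y) := transcendental_iff_injective.mp hX
  by_cases hb : b = 0
  · subst hb
    simp at h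
    exact hβ h
  have hb' : aeval X0 b ≠ 0 := fun h0 => hb (inj (by rw [h0, map_zero]))
  have h1 : a ^ 3 + Polynomial.C α * a ^ 2 * b - X * a * b ^ 2 - Polynomial.C β * b ^ 3 = 0 := by
    apply inj
    simp only [map_sub, map_add, map_mul, map_pow, aeval_C, aeval_X, map_zero]
    field_simp at h
    linear_combination h
  -- integrality
  have h2 : IsIntegral C[X] (algebraMap C[X] (RatFunc C) a / algebraMap C[X] (RatFunc C) b) := by
    refine ⟨X ^ 3 + (Polynomial.C (Polynomial.C α) * X ^ 2 - Polynomial.C X * X -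
      Polynomial.C (Polynomial.C β)), ?_, ?_⟩
    · apply Monic.add_of_left (monic_X_pow 3)
      rw [degree_X_pow]
      compute_degree!
    · have hb2 : algebraMap C[X] (RatFunc C) b ≠ 0 := RatFunc.algebraMap_ne_zero hb
      have h3 := congrArg (algebraMap C[X] (RatFunc C)) h1
      simp only [map_sub, map_add, map_mul, map_pow, map_zero] at h3
      simp only [eval₂_add, eval₂_sub, eval₂_mul, eval₂_X_pow, eval₂_C, eval₂_X, eval₂_pow]
      field_simp
      linear_combination h3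
  obtain ⟨p, hp⟩ := IsIntegrallyClosed.isIntegral_iff.mp h2
  have hb2 : algebraMap C[X] (RatFunc C) b ≠ 0 := RatFunc.algebraMap_ne_zero hb
  have h4 : a = p * b := by
    apply IsFractionRing.injective C[X] (RatFunc C)
    rw [map_mul, hp]; field_simp
  subst h4
  have h5 : p * (p ^ 2 + Polynomial.C α * p - X) = Polynomial.C β := by
    apply mul_left_cancel₀ (pow_ne_zero 3 hb)
    linear_combination h1
  have h6 : IsUnit (p * (p ^ 2 + Polynomial.C α * p - X)) := by
    rw [h5]; exact isUnit_C.mpr (Ne.isUnit hβ)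
  obtain ⟨c, -, rfl⟩ := isUnit_iff.mp (isUnit_of_mul_isUnit_left h6)
  have h7 := natDegree_eq_zero_of_isUnit (isUnit_of_mul_isUnit_right h6)
  have h8 : (Polynomial.C c ^ 2 + Polynomial.C α * Polynomial.C c - X : C[X]) =
      -(X - Polynomial.C (c ^ 2 + α * c)) := by
    simp only [map_add, map_mul, map_pow]; ring
  rw [h8, natDegree_neg, natDegree_X_sub_C] at h7
  exact one_ne_zero h7

/-- the cubic over a subfield -/
noncomputable def cub (S : IntermediateField C Y) (α β : C) (X0 : S) : S[X] :=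
  X ^ 3 + (Polynomial.C (algebraMap C S α) * X ^ 2 - Polynomial.C X0 * X -
    Polynomial.C (algebraMap C S β))

theorem cub_monic (S : IntermediateField C Y) (α β : C) (X0 : S) : (cub S α β X0).Monic := by
  apply Monic.add_of_left (monic_X_pow 3)
  rw [degree_X_pow]
  compute_degree!

theorem cub_natDegree (S : IntermediateField C Y) (α β : C) (X0 : S) :
    (cub S α β X0).natDegree = 3 := by
  unfold cub
  compute_degree!

theorem aeval_cub (S : IntermediateField C Y) (α β : C) (X0 : S) (r : Y) :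
    aeval r (cub S α β X0) =
      r ^ 3 + algebraMap C Y α * r ^ 2 - (X0 : Y) * r - algebraMap C Y β := by
  simp only [cub, map_add, map_sub, map_mul, map_pow, aeval_X, aeval_C]
  rw [← IsScalarTower.algebraMap_apply, ← IsScalarTower.algebraMap_apply]
  show _ + (_ - (X0 : Y) * r - _) = _
  ring

theorem three_dvd {X0 u : Y} (hX : Transcendental C X0) {α β : C} (hβ : β ≠ 0)
    (h : u ^ 3 + algebraMap C Y α * u ^ 2 - X0 * u - algebraMap C Y β = 0) :
    3 ∣ finrank (adjoin C {X0}) Y := by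
  obtain ⟨p, hp⟩ : ∃ p, p = cub (adjoin C {X0}) α β ⟨X0, mem_adjoin_simple_self C X0⟩ := ⟨_, rfl⟩
  have hm : p.Monic := hp ▸ cub_monic _ _ _ _
  have hd : p.natDegree = 3 := hp ▸ cub_natDegree _ _ _ _
  have h0 : aeval u p = 0 := by rw [hp, aeval_cub]; exact h
  have hi : Irreducible p := by
    rw [hm.irreducible_iff_roots_eq_zero_of_degree_le_three (by omega) hd.le]
    apply Multiset.eq_zero_of_forall_notMem
    intro r hr
    have h1 : p.eval r = 0 := (mem_roots hm.ne_zero).mp hr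
    have h2 : aeval (algebraMap _ Y r) p = 0 := by
      rw [aeval_algebraMap_apply, coe_aeval_eq_eval, h1, map_zero]
    rw [hp, aeval_cub] at h2
    exact no_root hX hβ r.2 h2
  have h3 := minpoly.eq_of_irreducible_of_monic hi h0 hm
  rw [← hd, h3]
  exact minpoly.degree_dvd ⟨p, hm, h0⟩

theorem rel_quad {S T : IntermediateField C Y} (h : S ≤ T) {s : Y} (hs : s ∈ T) (h2 : s ^ 2 ∈ S)
    (hT : T ≤ adjoin C (insert s (S : Set Y))) : relfinrank S T ∣ 2 := by
  have e : extendScalars h = adjoin S {s} := by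
    apply le_antisymm
    · intro y hy
      have h1 := hT hy
      have h3 : adjoin C (insert s (S : Set Y)) ≤ (adjoin S {s}).restrictScalars C := by
        rw [adjoin_le_iff]
        rintro z (rfl | hz)
        · exact mem_adjoin_simple_self S z
        · exact (adjoin S {s}).algebraMap_mem ⟨z, hz⟩
      exact h3 h1
    · rw [adjoin_simple_le_iff]; exact hs
  have hm : (X ^ 2 - Polynomial.C (⟨s ^ 2, h2⟩ : S)).Monic := monic_X_pow_sub_C _ two_ne_zero
  have h0 : aeval s (X ^ 2 - Polynomial.C (⟨s ^ 2, h2⟩ : S)) = 0 := by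
    simp only [map_sub, map_pow, aeval_X, aeval_C]
    exact sub_self _
  have hi : IsIntegral S s := ⟨_, hm, h0⟩
  rw [relfinrank_eq_finrank_of_le h, e, adjoin.finrank hi]
  have h4 := natDegree_le_natDegree (minpoly.min S s hm h0)
  rw [natDegree_X_pow_sub_C] at h4
  have h5 := minpoly.natDegree_pos hi
  interval_cases (minpoly S s).natDegree <;> norm_num

theorem tr_of_cubic {X0 u : Y} (hu : Transcendental C u) {α β : C}
    (h : u ^ 3 + algebraMap C Y α * u ^ 2 - X0 * u - algebraMap C Y β = 0) :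
    Transcendental C X0 := by
  intro ha
  have h1 : X0 ∈ algebraicClosure C Y := mem_algebraicClosure_iff.mpr ha
  have h2 : IsIntegral (algebraicClosure C Y) u :=
    ⟨cub _ α β ⟨X0, h1⟩, cub_monic _ _ _ _, by rw [← aeval_def, aeval_cub]; exact h⟩
  exact hu (isIntegral_trans u h2).isAlgebraic

variable (C) in
/-- the subfield `C(A, B2)` -/
abbrev Ei (A B2 : Y) : IntermediateField C Y := adjoin C {A, B2}

theorem A_mem (A B2 : Y) : A ∈ Ei C A B2 := subset_adjoin _ _ (by simp)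
theorem B_mem (A B2 : Y) : B2 ∈ Ei C A B2 := subset_adjoin _ _ (by simp)

/-- the second coordinate of `Ei` -/
def W (P : Par C) (A B2 : Y) : Y :=
  algebraMap C Y P.n1 * B2 + algebraMap C Y (P.n1 + 2 * P.n3) * A ^ 2

/-- the quartic of `Ei` -/
noncomputable def G (P : Par C) : C[X] :=
  Polynomial.C (-(4 * P.n2 * P.n3)) *
    (X ^ 4 - Polynomial.C (P.n1 * (P.t * P.d1 * P.d2 * P.d3) ^ 2 / (P.n2 * P.n3)))

theorem four_ne (P : Par C) : (4 : C) ≠ 0 := by
  have : (4 : C) = 2 * 2 := by norm_num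
  rw [this]; exact mul_ne_zero P.two P.two

theorem lc_ne (P : Par C) : -(4 * P.n2 * P.n3) ≠ 0 :=
  neg_ne_zero.mpr (mul_ne_zero (mul_ne_zero (four_ne P) P.n2_ne) P.n3_ne)

theorem natDegree_G (P : Par C) : (G P).natDegree = 4 := by
  rw [G, natDegree_C_mul (lc_ne P), natDegree_X_pow_sub_C]

theorem sep_G (P : Par C) : (G P).Separable := by
  have h1 : (X ^ 4 - Polynomial.C (P.n1 * (P.t * P.d1 * P.d2 * P.d3) ^ 2 / (P.n2 * P.n3)) :
      C[X]).Separable :=
    separable_X_pow_sub_C _ (by exact_mod_cast four_ne P)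
      (div_ne_zero (mul_ne_zero P.n1_ne (pow_ne_zero _ (mul_ne_zero (mul_ne_zero
        (mul_ne_zero P.ht P.d1_ne) P.d2_ne) P.d3_ne))) (mul_ne_zero P.n2_ne P.n3_ne))
  exact (Associated.separable ((associated_unit_mul_left _ _
    (isUnit_C.mpr (lc_ne P).isUnit)).symm) h1)

theorem W_mem (P : Par C) (A B2 : Y) : W P A B2 ∈ Ei C A B2 :=
  add_mem (mul_mem (_root_.algebraMap_mem _ _) (B_mem A B2))
    (mul_mem (_root_.algebraMap_mem _ _) (pow_mem (A_mem A B2) 2))

theorem B_eq (P : Par C) (A B2 : Y) :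
    B2 = (W P A B2 - algebraMap C Y (P.n1 + 2 * P.n3) * A ^ 2) / algebraMap C Y P.n1 := by
  have : algebraMap C Y P.n1 ≠ 0 := (_root_.map_ne_zero _).mpr P.n1_ne
  unfold W; field_simp; ring

theorem adjoin_AW (P : Par C) (A B2 : Y) : adjoin C {A, W P A B2} = Ei C A B2 := by
  apply le_antisymm
  · rw [adjoin_le_iff]
    rintro z (rfl | rfl)
    · exact A_mem _ _
    · exact W_mem _ _ _
  · have hA : A ∈ adjoin C {A, W P A B2} := subset_adjoin _ _ (by simp)
    have hW : W P A B2 ∈ adjoin C {A, W P A B2} := subset_adjoin _ _ (by simp)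
    rw [adjoin_le_iff]
    rintro z (rfl | rfl)
    · exact hA
    · have := div_mem (sub_mem hW (mul_mem (_root_.algebraMap_mem _ (P.n1 + 2 * P.n3)) (pow_mem hA 2)))
        (_root_.algebraMap_mem _ P.n1)
      rwa [← B_eq] at this

theorem W_sq {P : Par C} {A B2 : Y} (h : (P.map (algebraMap C Y)).E1 A B2) :
    W P A B2 ^ 2 = aeval A (G P) := by
  have h2 : algebraMap C Y P.n2 ≠ 0 := (_root_.map_ne_zero _).mpr P.n2_ne
  have h3 : algebraMap C Y P.n3 ≠ 0 := (_root_.map_ne_zero _).mpr P.n3_ne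
  have h4 := congrArg (algebraMap C Y) P.n_sum
  unfold Par.E1 at h
  simp only [Par.map_n1, Par.map_n3, Par.map_t, Par.map_d1, Par.map_d2, Par.map_d3] at h
  simp only [map_add, map_zero] at h4
  simp only [W, G, map_mul, map_sub, map_pow, aeval_C, aeval_X, map_neg, map_add, map_ofNat,
    map_div₀]
  generalize algebraMap C Y P.n1 = n1 at *
  generalize algebraMap C Y P.n2 = n2 at *
  generalize algebraMap C Y P.n3 = n3 at *
  field_simp
  linear_combination n1 * h + 4 * n3 * A ^ 4 * h4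

theorem cubic_eq {P : Par C} {A B2 u : Y} (h : (P.map (algebraMap C Y)).E2 A B2 u) :
    u ^ 3 + algebraMap C Y (2 * P.q) * u ^ 2 - (P.map (algebraMap C Y)).X A B2 * u -
      algebraMap C Y (2 * P.pi) = 0 := by
  unfold Par.E2 at h
  simpa [map_ofNat] using h

theorem V_mem (P : Par C) {A B2 : Y} {S : IntermediateField C Y} (hA : A ^ 2 ∈ S) (hB : B2 ∈ S) :
    (P.map (algebraMap C Y)).V A B2 ∈ S := by
  simp only [Par.V, Par.map_t, Par.map_d3]
  exact div_mem (add_mem hA hB)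
    (mul_mem (mul_mem (ofNat_mem _ 2) (_root_.algebraMap_mem _ _)) (_root_.algebraMap_mem _ _))

theorem R_mem (P : Par C) {A B2 : Y} {S : IntermediateField C Y} (hA : A ^ 2 ∈ S) (hB : B2 ∈ S) :
    (P.map (algebraMap C Y)).R A B2 ∈ S := by
  simp only [Par.R, Par.map_t, Par.map_d2]
  exact div_mem (sub_mem hA hB)
    (mul_mem (mul_mem (ofNat_mem _ 2) (_root_.algebraMap_mem _ _)) (_root_.algebraMap_mem _ _))

theorem X_mem (P : Par C) {A B2 : Y} {S : IntermediateField C Y}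
    (hV : (P.map (algebraMap C Y)).V A B2 ∈ S) : (P.map (algebraMap C Y)).X A B2 ∈ S := by
  have c : ∀ a : C, algebraMap C Y a ∈ S := S.algebraMap_mem
  simp only [Par.X, Par.map_p1, Par.map_p2, Par.map_p3, Par.map_m1, Par.map_m2]
  exact add_mem (mul_mem (mul_mem (c _) (c _)) (sub_mem (mul_mem (ofNat_mem _ 4)
    (pow_mem (c _) 2)) (mul_mem (c _) (c _)))) (mul_mem (mul_mem (c _) (c _)) (pow_mem hV 2))

section IsY

variable {P : Par C} {A B2 u : Y} (h : IsY P A B2 u)
include h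

theorem tr_X : Transcendental C ((P.map (algebraMap C Y)).X A B2) :=
  tr_of_cubic h.tr (cubic_eq h.eq2)

theorem tr_A : Transcendental C A := by
  intro ha
  have hA : A ∈ algebraicClosure C Y := mem_algebraicClosure_iff.mpr ha
  have hW : W P A B2 ∈ algebraicClosure C Y := by
    rw [mem_algebraicClosure_iff]
    apply IsAlgebraic.of_pow two_pos
    rw [W_sq h.eq1]
    rw [← mem_algebraicClosure_iff, G]
    simp only [map_mul, map_sub, map_pow, aeval_C, aeval_X]
    exact mul_mem (_root_.algebraMap_mem _ _) (sub_mem (pow_mem hA 4) (_root_.algebraMap_mem _ _))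
  have hB : B2 ∈ algebraicClosure C Y := by
    rw [B_eq P A B2]
    exact div_mem (sub_mem hW (mul_mem (_root_.algebraMap_mem _ _) (pow_mem hA 2))) (_root_.algebraMap_mem _ _)
  exact tr_X h (mem_algebraicClosure_iff.mp (X_mem P (V_mem P (pow_mem hA 2) hB)))

theorem adjoin_u : adjoin (Ei C A B2) {u} = ⊤ := by
  apply restrictScalars_injective C
  rw [restrictScalars_top, eq_top_iff, ← h.gen, adjoin_le_iff]
  rintro z (rfl | rfl | rfl)
  · exact (adjoin (Ei C z B2) {u}).algebraMap_mem ⟨z, A_mem _ _⟩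
  · exact (adjoin (Ei C A z) {u}).algebraMap_mem ⟨z, B_mem _ _⟩
  · exact mem_adjoin_simple_self (Ei C A B2) z

theorem finrank_le : 0 < finrank (Ei C A B2) Y ∧ finrank (Ei C A B2) Y ≤ 3 := by
  have hX : (P.map (algebraMap C Y)).X A B2 ∈ Ei C A B2 :=
    X_mem P (V_mem P (pow_mem (A_mem _ _) 2) (B_mem _ _))
  have hm := cub_monic (Ei C A B2) (2 * P.q) (2 * P.pi) ⟨_, hX⟩
  have h0 : aeval u (cub (Ei C A B2) (2 * P.q) (2 * P.pi) ⟨_, hX⟩) = 0 := by
    rw [aeval_cub]; exact cubic_eq h.eq2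
  have hi : IsIntegral (Ei C A B2) u := ⟨_, hm, h0⟩
  rw [← finrank_top', ← adjoin_u h, adjoin.finrank hi]
  refine ⟨minpoly.natDegree_pos hi, ?_⟩
  have h4 := natDegree_le_natDegree (minpoly.min _ u hm h0)
  rwa [cub_natDegree] at h4

theorem finite_Ei : FiniteDimensional (Ei C A B2) Y := Module.finite_of_finrank_pos (finrank_le h).1

/-- `[Y : C(A, B2)] = 3` -/
theorem finrank_Ei : finrank (Ei C A B2) Y = 3 := by
  obtain ⟨Q, hQ⟩ : ∃ Q, Q = P.map (algebraMap C Y) := ⟨_, rfl⟩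
  have h3 := three_dvd (tr_X h) (mul_ne_zero P.two P.pi_ne) (cubic_eq h.eq2)
  have hV : Q.V A B2 ∈ Ei C A B2 := hQ ▸ V_mem P (pow_mem (A_mem _ _) 2) (B_mem _ _)
  have hR : Q.R A B2 ∈ Ei C A B2 := hQ ▸ R_mem P (pow_mem (A_mem _ _) 2) (B_mem _ _)
  rw [← hQ] at h3
  have m1 : Q.V A B2 ∈ adjoin C {Q.V A B2} := mem_adjoin_simple_self C _
  have m2 : Q.V A B2 ∈ adjoin C {Q.V A B2, Q.R A B2} := subset_adjoin _ _ (by simp)
  have m3 : Q.R A B2 ∈ adjoin C {Q.V A B2, Q.R A B2} := subset_adjoin _ _ (by simp)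
  have l1 : adjoin C {Q.X A B2} ≤ adjoin C {Q.V A B2} := by
    rw [adjoin_simple_le_iff, hQ]; exact X_mem P (hQ ▸ m1)
  have l2 : adjoin C {Q.V A B2} ≤ adjoin C {Q.V A B2, Q.R A B2} := by
    rw [adjoin_simple_le_iff]; exact m2
  have l3 : adjoin C {Q.V A B2, Q.R A B2} ≤ Ei C A B2 := by
    rw [adjoin_le_iff]
    rintro z (rfl | rfl)
    · exact hV
    · exact hR
  have cc : ∀ (S : IntermediateField C Y), Q.p1 ∈ S ∧ Q.p2 ∈ S ∧ Q.p3 ∈ S ∧ Q.t ∈ S ∧ Q.d1 ∈ S ∧
      Q.d2 ∈ S ∧ Q.d3 ∈ S ∧ Q.m1 ∈ S ∧ Q.m2 ∈ S ∧ Q.m3 ∈ S := fun S => by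
    subst hQ
    simp only [Par.map_p1, Par.map_p2, Par.map_p3, Par.map_t, Par.map_d1, Par.map_d2, Par.map_d3,
      Par.map_m1, Par.map_m2, Par.map_m3]
    simp only [S.algebraMap_mem, and_self]
  have q1 : relfinrank (adjoin C {Q.X A B2}) (adjoin C {Q.V A B2}) ∣ 2 := by
    refine rel_quad l1 m1 ?_ (adjoin.mono _ _ _ (by simp))
    obtain ⟨c1, c2, c3, -, -, -, -, c4, c5, -⟩ := cc (adjoin C {Q.X A B2})
    have e : Q.V A B2 ^ 2 = (Q.X A B2 - Q.p1 * Q.p2 * (4 * Q.p3 ^ 2 - Q.p1 * Q.p2)) /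
        (Q.m1 * Q.m2) := by
      have := Q.m1_ne; have := Q.m2_ne
      unfold Par.X; field_simp; ring
    rw [e]
    exact div_mem (sub_mem (mem_adjoin_simple_self C _) (mul_mem (mul_mem c1 c2)
      (sub_mem (mul_mem (ofNat_mem _ 4) (pow_mem c3 2)) (mul_mem c1 c2)))) (mul_mem c4 c5)
  have q2 : relfinrank (adjoin C {Q.V A B2}) (adjoin C {Q.V A B2, Q.R A B2}) ∣ 2 := by
    refine rel_quad l2 m3 ?_ (adjoin.mono _ _ _ ?_)
    · obtain ⟨-, -, -, -, c1, -, -, -, c2, c3⟩ := cc (adjoin C {Q.V A B2})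
      have e : Q.R A B2 ^ 2 = -(Q.m2 * Q.V A B2 ^ 2 + Q.d1 ^ 2) / Q.m3 := by
        have h1 := (Q.E1_iff A B2).mp (hQ ▸ h.eq1)
        have := Q.m3_ne
        field_simp; linear_combination h1
      rw [e]
      exact div_mem (neg_mem (add_mem (mul_mem c2 (pow_mem m1 2)) (pow_mem c1 2))) c3
    · rintro z (rfl | rfl)
      · exact Or.inr m1
      · exact Or.inl rfl
  have q3 : relfinrank (adjoin C {Q.V A B2, Q.R A B2}) (Ei C A B2) ∣ 2 := by
    obtain ⟨-, -, -, c1, -, c2, c3, -⟩ := cc (adjoin C {Q.V A B2, Q.R A B2})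
    refine rel_quad l3 (A_mem _ _) ?_ (adjoin.mono _ _ _ ?_)
    · rw [Q.A_sq A B2]
      exact mul_mem c1 (add_mem (mul_mem c3 m2) (mul_mem c2 m3))
    · rintro z (rfl | rfl)
      · exact Or.inl rfl
      · refine Or.inr ?_
        have := mul_mem c1 (sub_mem (mul_mem c3 m2) (mul_mem c2 m3))
        rwa [← Q.B_sq A z] at this
  rw [← relfinrank_mul_finrank_top (l1.trans (l2.trans l3)),
    ← relfinrank_mul_relfinrank l1 (l2.trans l3), ← relfinrank_mul_relfinrank l2 l3] at h3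
  have h8 := mul_dvd_mul q1 (mul_dvd_mul q2 q3)
  have h9 : Nat.Coprime 3 _ := Nat.Coprime.coprime_dvd_right h8 (by norm_num)
  have h10 := h9.dvd_of_dvd_mul_left h3
  have := finrank_le h
  omega

end IsY

end Crest.Agent.T15.KfJ
end

-- ▼ part T15/MoC_29
section

/-!
# Row 15, block F (helper29): the normal form in 83's words (`Kf.Par`, `Kf.IsY`)
-/

set_option autoImplicit false
set_option linter.all false

namespace Crest.Agent.T15.Mo

open Polynomial
open Crest.Agent.T15.Hy Crest.Agent.R013.Frob1_914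

variable {C Y : Type*} [Field C] [Field Y] [Algebra C Y]

/-- `al`, `be` are square roots of `-p₂³ d₂`, `p₃³ d₃` -/
structure Rt (P : Kf.Par C) (al be : C) : Prop where
  hal : al ^ 2 = -P.p2 ^ 3 * P.d2
  hbe : be ^ 2 = P.p3 ^ 3 * P.d3

theorem exists_rt [IsAlgClosed C] (P : Kf.Par C) : ∃ al be, Rt P al be := by
  obtain ⟨al, hal⟩ := IsAlgClosed.exists_pow_nat_eq (-P.p2 ^ 3 * P.d2) two_pos
  obtain ⟨be, hbe⟩ := IsAlgClosed.exists_pow_nat_eq (P.p3 ^ 3 * P.d3) two_pos
  exact ⟨al, be, hal, hbe⟩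

/-- the parameters of the normal form -/
def Rt.par {P : Kf.Par C} {al be : C} (h : Rt P al be) : Par C where
  p1 := P.p1
  p2 := P.p2
  p3 := P.p3
  t := P.t
  al := al
  be := be
  sum := P.sum
  h1 := P.h1
  h2 := P.h2
  h3 := P.h3
  k1 := P.e1
  k2 := P.e2
  k3 := P.e3
  ht := P.ht
  hal := h.hal
  hbe := h.hbe

namespace Rt

variable {P : Kf.Par C} {al be : C} (h : Rt P al be)

@[simp] theorem par_p1 : h.par.p1 = P.p1 := rfl
@[simp] theorem par_p2 : h.par.p2 = P.p2 := rfl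
@[simp] theorem par_p3 : h.par.p3 = P.p3 := rfl
@[simp] theorem par_t : h.par.t = P.t := rfl
@[simp] theorem par_al : h.par.al = al := rfl
@[simp] theorem par_be : h.par.be = be := rfl
@[simp] theorem par_d1 : h.par.d1 = P.d1 := rfl
@[simp] theorem par_d2 : h.par.d2 = P.d2 := rfl
@[simp] theorem par_d3 : h.par.d3 = P.d3 := rfl

theorem isY {A B2 u : Y} (hY : Kf.IsY P A B2 u) : IsY h.par A B2 u where
  two := P.two
  k0 := hY.eq1
  cub := hY.eq2
  tr := hY.tr
  gen := hY.gen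

/-- **the normal form** of `Kf.IsY` -/
theorem hyp {A B2 u : Y} (hY : Kf.IsY P A B2 u) :
    Hyp h.par.F (h.par.zY A B2 u) (h.par.wY A B2 u) := (h.isY hY).hyp

end Rt

end Crest.Agent.T15.Mo
end

-- ▼ part T15/KfJ_23
section

/-!
# Row 15, block F (helper23): the two geometric inputs of the `j`-algebra

* `pic_neg` : the hyperelliptic involution is `-1` on classes of degree zero; `pic_negY`;
* `hypE`, `algE`, `rank_E`, `rank_Y` : the genus one subfield `Ei = C(A, B2)` of `Y`.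
-/

set_option autoImplicit false
set_option linter.all false

namespace Crest.Agent.T15.KfJ

open Polynomial Module IntermediateField
open Crest.Agent.R013.RR7_948 Crest.Agent.R013.RR8_948 Crest.Agent.R013.RR9_948
open Crest.Agent.R013.RR11_948 Crest.Agent.R013.RR12_948 Crest.Agent.R013.PicD_398
open Crest.Agent.R013.GR2_921 Crest.Agent.R013.Frob1_914 Crest.Agent.R013.TP_928
open Crest.Agent.R013.RR20_948 (ratAlg ratHom ratAlg_tower ratHom_X)
open Crest.Agent.T15.Hy Crest.Agent.T15.Kf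

section hyp

variable {k K : Type*} [Field k] [Field K] [Algebra k K] {F : k[X]} {x w : K}

theorem hyp_tr (h : Hyp F x w) : Transcendental k x := fun ⟨p, hp, h0⟩ => hp (h.tr p h0)

theorem ratHom_alg (hx : Transcendental k x) (p : k[X]) :
    ratHom x hx (algebraMap k[X] (RatFunc k) p) = aeval x p := by
  rw [← RatFunc.aeval_X_left_eq_algebraMap, ← aeval_algHom_apply, ratHom_X]

theorem hyp_finite (h : Hyp F x w) :
    letI := ratAlg x (hyp_tr h); FiniteDimensional (RatFunc k) K := by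
  classical
  letI := ratAlg x (hyp_tr h)
  refine ⟨⟨{1, w}, eq_top_iff.mpr fun f _ => ?_⟩⟩
  obtain ⟨A, B, c, hc, he⟩ := h.gen f
  rw [Finset.coe_pair, Submodule.mem_span_pair]
  refine ⟨algebraMap k[X] _ A / algebraMap k[X] _ c, algebraMap k[X] _ B / algebraMap k[X] _ c, ?_⟩
  have e : ∀ r : RatFunc k, algebraMap (RatFunc k) K r = ratHom x (hyp_tr h) r := fun _ => rfl
  rw [Algebra.smul_def, Algebra.smul_def, e, e, map_div₀, map_div₀, ratHom_alg, ratHom_alg,
    ratHom_alg]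
  have := h.aeval_ne hc
  unfold el at he
  field_simp
  linear_combination -he

theorem eq_iota (h : Hyp F x w) (f : K →+* K) (hc : ∀ c, f (algebraMap k K c) = algebraMap k K c)
    (hx : f x = x) (hw : f w = -w) (y : K) : f y = h.iota y := by
  let f' : K →ₐ[k] K := { f with commutes' := hc }
  have ha : ∀ p : k[X], f (aeval x p) = aeval x p := fun p => by
    have := aeval_algHom_apply f' x p
    rw [show f' x = x from hx] at this
    exact this.symm
  obtain ⟨A, B, c, hc0, he⟩ := h.gen y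
  apply mul_right_cancel₀ (h.aeval_ne hc0)
  have h1 := congrArg f he
  rw [map_mul, ha] at h1
  rw [h1, show h.iota y = h.io y from rfl, h.io_spec he]
  simp only [el, map_add, map_mul, ha, hw, map_neg]
  ring

variable [Algebra (RatFunc k) K] [IsScalarTower k (RatFunc k) K] [FiniteDimensional (RatFunc k) K]
  [Algebra.IsSeparable (RatFunc k) K] [IsAlgClosed k]

theorem cls_add_iota (h : Hyp F x w) (D : Pl k K →₀ ℤ) (hD : ∀ P, D P ≠ 0 → P.v x ≤ 1) :
    cls D + cls (h.siota.D D) = cls (degD D • Dinf k x) := by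
  have key : ∀ P, D P ≠ 0 → cls (Finsupp.single P (1 : ℤ)) +
      cls (Finsupp.single (h.siota.pl P) (1 : ℤ)) = cls (Dinf k x) := fun P hP => by
    have hA := h.at_ev (hD P hP)
    have := h.cls_pt_add (hA.sq h.sq)
    rwa [h.pt_eq hA, h.pt_eq (hA.iota h)] at this
  rw [degD_eq_sum]
  conv_lhs => rw [← Finsupp.sum_single D]
  simp only [Finsupp.sum, map_sum]
  rw [← Finset.sum_add_distrib, Finset.sum_smul, map_sum]
  refine Finset.sum_congr rfl fun P hP => ?_
  rw [map_zsmul, ← key P (Finsupp.mem_support_iff.mp hP), SI.D_single, ← map_add, ← map_add,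
    ← map_zsmul, smul_add, Finsupp.smul_single, Finsupp.smul_single, smul_eq_mul, mul_one]

/-- the hyperelliptic involution is `-1` on classes of degree zero -/
theorem pic_siota (h : Hyp F x w) {ξ : Pic k K} (h0 : degPic ξ = 0) : h.siota.pic ξ = -ξ := by
  obtain ⟨D, rfl, hD⟩ := Wp.exists_move ξ (Dinf k x).support
  have h1 := cls_add_iota h D fun P hP => by
    by_contra hc
    have h2 := not_le.mp hc
    refine hP (hD P (Finsupp.mem_support_iff.mpr ?_))
    rw [Dinf_of_lt h.x_ne h2]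
    have := divf_neg_of_lt (k := k) h.x_ne h2
    omega
  rw [degPic_cls] at h0
  rw [h0, zero_smul, map_zero] at h1
  rw [SI.pic_cls]
  exact eq_neg_of_add_eq_zero_right h1

theorem pic_neg (h : Hyp F x w) (e : SI k K k K)
    (hc : ∀ c, e.f (algebraMap k K c) = algebraMap k K c) (hx : e.f x = x) (hw : e.f w = -w)
    {ξ : Pic k K} (h0 : degPic ξ = 0) : e.pic ξ = -ξ := by
  rw [← pic_siota h h0]
  exact Rk.pic_ext (fun y => eq_iota h (e.f : K →+* K) hc hx hw y) ξ

end hyp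

section Y

variable {C Y : Type*} [Field C] [Field Y] [Algebra C Y] {P : Par C} {A B2 u : Y}

/-- `A` in `Ei` -/
def AE (A B2 : Y) : Ei C A B2 := ⟨A, A_mem A B2⟩
/-- `W` in `Ei` -/
def WE (P : Par C) (A B2 : Y) : Ei C A B2 := ⟨W P A B2, W_mem P A B2⟩

/-- `Ei` is `W ^ 2 = a (A ^ 4 - b)` -/
theorem hypE (h : IsY P A B2 u) : Hyp (G P) (AE A B2 : Ei C A B2) (WE P A B2) := by
  refine Mo.hyp_of_adjoin P.two (sep_G P) (by rw [natDegree_G]; norm_num) ?_ ?_ ?_
  · intro ha
    exact tr_A h (ha.algebraMap (A := Y))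
  · apply Subtype.ext
    have := aeval_algebraMap_apply Y (AE A B2 : Ei C A B2) (G P)
    exact (W_sq h.eq1).trans this
  · apply IntermediateField.map_injective (Ei C A B2).val
    rw [adjoin_map, Set.image_pair, ← AlgHom.fieldRange_eq_map, fieldRange_val]
    exact adjoin_AW P A B2

/-- the function field structure of `Ei` -/
@[reducible] noncomputable def algE (h : IsY P A B2 u) : Algebra (RatFunc C) (Ei C A B2) :=
  ratAlg (AE A B2) (hyp_tr (hypE h))

theorem towE (h : IsY P A B2 u) : letI := algE h; IsScalarTower C (RatFunc C) (Ei C A B2) :=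
  ratAlg_tower _ _

theorem finE (h : IsY P A B2 u) : letI := algE h; FiniteDimensional (RatFunc C) (Ei C A B2) :=
  hyp_finite (hypE h)

theorem sepE [CharZero C] (h : IsY P A B2 u) :
    letI := algE h; Algebra.IsSeparable (RatFunc C) (Ei C A B2) := by
  letI := algE h
  haveI := finE h
  infer_instance

theorem sepEY [CharZero C] (h : IsY P A B2 u) : Algebra.IsSeparable (Ei C A B2) Y := by
  haveI := finite_Ei h
  haveI : CharZero (Ei C A B2) := algebraRat.charZero _
  infer_instance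



variable [Algebra (RatFunc C) Y] [IsScalarTower C (RatFunc C) Y] [FiniteDimensional (RatFunc C) Y]
  [Algebra.IsSeparable (RatFunc C) Y] [IsAlgClosed C]

/-- `A ↦ -A` is `-1` on classes of degree zero -/
theorem pic_negY (h : IsY P A B2 u) (e : SI C Y C Y)
    (hc : ∀ c, e.f (algebraMap C Y c) = algebraMap C Y c) (hA : e.f A = -A) (hB : e.f B2 = B2)
    (hu : e.f u = u) {ξ : Pic C Y} (h0 : degPic ξ = 0) : e.pic ξ = -ξ := by
  obtain ⟨al, be, hr⟩ := Mo.exists_rt P
  have a : Mo.Act hr.par A B2 u (RingHom.id C) (e.f : Y →+* Y) (-1) :=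
    ⟨hc, ⟨rfl, rfl, rfl, rfl⟩, by simpa using hA, by simpa using hB, hu⟩
  obtain ⟨h1, h2⟩ := (hr.isY h).act_neg a rfl rfl
  exact pic_neg (hr.hyp h) e hc h1 h2 h0


end Y

section rank

variable {C Y : Type} [Field C] [Field Y] [Algebra C Y] {P : Par C} {A B2 u : Y}
  [IsAlgClosed C] [CharZero C]

theorem rank_Y [Algebra (RatFunc C) Y] [IsScalarTower C (RatFunc C) Y]
    [FiniteDimensional (RatFunc C) Y] [Algebra.IsSeparable (RatFunc C) Y] (φ : C →+* ℂ)
    (h : IsY P A B2 u) (p : ℕ) [Fact p.Prime] :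
    Module.Finite ℤ_[p] (Tate p (Pic C Y)) ∧ finrank ℤ_[p] (Tate p (Pic C Y)) = 6 := by
  obtain ⟨al, be, hr⟩ := Mo.exists_rt P
  have hd := hr.par.natDegree_F P.two
  exact ⟨Rk.rkStmt.finite φ (hr.hyp h) p,
    Rk.rkStmt.finrank (g := 3) φ (hr.hyp h) (by omega) (by omega) p⟩

/-- for ANY function field structure on `Ei` -/
theorem rank_E [Algebra (RatFunc C) (Ei C A B2)] [IsScalarTower C (RatFunc C) (Ei C A B2)]
    [FiniteDimensional (RatFunc C) (Ei C A B2)] [Algebra.IsSeparable (RatFunc C) (Ei C A B2)]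
    (φ : C →+* ℂ) (h : IsY P A B2 u) (p : ℕ) [Fact p.Prime] :
    Module.Finite ℤ_[p] (Tate p (Pic C (Ei C A B2))) ∧
      finrank ℤ_[p] (Tate p (Pic C (Ei C A B2))) = 2 := by
  have hd := natDegree_G P
  exact ⟨Rk.rkStmt.finite φ (hypE h) p,
    Rk.rkStmt.finrank (g := 1) φ (hypE h) (by omega) (by omega) p⟩

end rank

end Crest.Agent.T15.KfJ
end

-- ▼ part T15/Jc_16

/-!
# Row 15, block F (helper16): the cyclic cubic, quadratic extensions, the relations for `r`
-/

set_option autoImplicit false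
set_option linter.all false

noncomputable section

namespace Crest.Agent.T15.Jm

open Polynomial
open Crest.Agent.T15.Kf

section cubic

variable {L : Type*} [Field L] (P : Par L)

/-- `m₁ m₂ m₃ V R S` -/
def Dl (A B : L) : L := P.m1 * P.m2 * P.m3 * P.V A (B ^ 2) * P.R A (B ^ 2) * P.S A B

/-- the denominator -/
def dn (v : L) : L := (v + P.p1 * P.p2) * (v + P.p1 * P.p3) * (v + P.p2 * P.p3)

theorem dn_eq (v : L) : dn P v = v ^ 3 + P.q * v ^ 2 + P.pi := by
  simp only [dn, Par.q, Par.pi, P.p3_eq]; ring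

theorem nx_eq (A B v : L) : P.nx A B v = (-2 * P.q - v + Dl P A B * v / dn P v) / 2 := by
  simp only [Par.nx, Dl, dn, div_eq_mul_inv, mul_inv]; ring

theorem Dl_rot (A B : L) : Dl P (-B) A = Dl P A B := by
  simp only [Dl, Par.V, Par.R, Par.S]; ring

theorem Dl_neg (A B : L) : Dl P A (-B) = -Dl P A B := by
  simp only [Dl, Par.V, Par.R, Par.S]; ring

theorem Dl_i {i : L} (hi : i ^ 2 = -1) (A B : L) : Dl P (i * A) (i * B) = -Dl P A B := by
  have h : i * A * (i * B) = -(A * B) := by linear_combination A * B * hi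
  simp only [Dl, Par.V, Par.R, Par.S, mul_pow, hi, h]; ring

theorem nx_rot (A B v : L) : P.nx (-B) A v = P.nx A B v := by rw [nx_eq, nx_eq, Dl_rot]

theorem nx_i {i : L} (hi : i ^ 2 = -1) (A B v : L) : P.nx (i * A) (i * B) v = P.nx A (-B) v := by
  rw [nx_eq, nx_eq, Dl_i P hi, Dl_neg]

theorem nx_sum (A B v : L) : v + P.nx A B v + P.nx A (-B) v = -2 * P.q := by
  have := P.two
  rw [nx_eq, nx_eq, Dl_neg]; field_simp; ring

theorem nx_sub (A B : L) {v : L} (h : dn P v ≠ 0) :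
    (P.nx A B v - P.nx A (-B) v) * dn P v = Dl P A B * v := by
  have := P.two
  rw [nx_eq, nx_eq, Dl_neg]; field_simp; ring

variable {P} {A B u : L}

theorem Dl_sq (h1 : P.E1 A (B ^ 2)) (h2 : P.E2 A (B ^ 2) u) :
    Dl P A B ^ 2 * u ^ 3 =
      (u - 2 * P.p3 ^ 2) * (2 * P.p2 ^ 2 - u) * (2 * P.p1 ^ 2 - u) * dn P u ^ 2 := by
  have a := Par.V_sq h2
  have b := Par.R_sq h1 h2
  have c := Par.S_sq h1 h2
  have : Dl P A B ^ 2 * u ^ 3 = (P.m1 * P.m2 * P.V A (B ^ 2) ^ 2 * u) *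
      (P.m1 * P.m3 * P.R A (B ^ 2) ^ 2 * u) * (P.m2 * P.m3 * P.S A B ^ 2 * u) := by
    unfold Dl; ring
  rw [this, a, b, c, dn]; ring

theorem nx_prod (h1 : P.E1 A (B ^ 2)) (h2 : P.E2 A (B ^ 2) u) (h : dn P u ≠ 0) :
    u * P.nx A B u * P.nx A (-B) u = 2 * P.pi := by
  have a := nx_sum P A B u
  have b := nx_sub P A B h
  have c := Dl_sq h1 h2
  set x := P.nx A B u
  set y := P.nx A (-B) u
  have d : (x - y) ^ 2 * u = (u - 2 * P.p3 ^ 2) * (2 * P.p2 ^ 2 - u) * (2 * P.p1 ^ 2 - u) := by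
    apply mul_right_cancel₀ (pow_ne_zero 2 h)
    rw [← c]
    linear_combination u * ((x - y) * dn P u + Dl P A B * u) * b
  have e : (2 * P.q + u) ^ 2 * u - (u - 2 * P.p3 ^ 2) * (2 * P.p2 ^ 2 - u) * (2 * P.p1 ^ 2 - u) =
      8 * P.pi := by
    simp only [Par.q, Par.pi, P.p3_eq]; ring
  apply mul_left_cancel₀ (mul_ne_zero P.two P.two)
  linear_combination e - d + u * (x + y - 2 * P.q - u) * a

theorem dn_root (h1 : P.E1 A (B ^ 2)) (h2 : P.E2 A (B ^ 2) u) (h : dn P u ≠ 0) (v : L) :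
    2 * dn P v = v ^ 2 * (2 * v - (u + P.nx A B u + P.nx A (-B) u)) +
      u * P.nx A B u * P.nx A (-B) u := by
  rw [nx_sum, nx_prod h1 h2 h, dn_eq]; ring

theorem nx_ne (h1 : P.E1 A (B ^ 2)) (h2 : P.E2 A (B ^ 2) u) (h : dn P u ≠ 0) :
    P.nx A B u ≠ u := fun h0 => by
  have := dn_root h1 h2 h u
  rw [h0] at this
  exact mul_ne_zero P.two h (by rw [this]; ring)

/-- **the cubic is cyclic** -/
theorem nx_nx (h1 : P.E1 A (B ^ 2)) (h2 : P.E2 A (B ^ 2) u) (h : dn P u ≠ 0)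
    (h' : dn P (P.nx A B u) ≠ 0) : P.nx A B (P.nx A B u) = P.nx A (-B) u := by
  have a := nx_sum P A B u
  have b := nx_sub P A B h
  have c := dn_root h1 h2 h u
  have d := dn_root h1 h2 h (P.nx A B u)
  have a' := nx_sum P A B (P.nx A B u)
  have b' := nx_sub P A B h'
  have hu := Par.u_ne h2
  set x := P.nx A B u
  set y := P.nx A (-B) u
  have e : 2 * Dl P A B = (x - y) * (u - x) * (u - y) := by
    apply mul_right_cancel₀ hu
    linear_combination -2 * b + (x - y) * c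
  have f : P.nx A B x - P.nx A (-B) x = y - u := by
    apply mul_right_cancel₀ h'
    apply mul_left_cancel₀ P.two
    linear_combination 2 * b' + x * e - (y - u) * d
  apply mul_left_cancel₀ P.two
  linear_combination f + a' - a

end cubic

section quad

variable {Y K : Type*} [Field Y] [Field K] [Algebra Y K] {B : K} {B2 : Y}

theorem minpoly_B (hB : B ^ 2 = algebraMap Y K B2) (nB : B ∉ Set.range (algebraMap Y K)) :
    minpoly Y B = X ^ 2 - C B2 := by
  have hi : IsIntegral Y B := ⟨X ^ 2 - C B2, monic_X_pow_sub_C _ two_ne_zero, by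
    simp [eval₂_sub, hB]⟩
  have h1 : minpoly Y B ∣ X ^ 2 - C B2 := minpoly.dvd _ _ (by simp [hB])
  refine eq_of_monic_of_dvd_of_natDegree_le (minpoly.monic hi)
    (monic_X_pow_sub_C _ two_ne_zero) h1 ?_ |>.symm
  rw [natDegree_X_pow_sub_C]
  exact (minpoly.two_le_natDegree_iff hi).2 nB

theorem finrank_two (hB : B ^ 2 = algebraMap Y K B2) (gK : IntermediateField.adjoin Y {B} = ⊤)
    (nB : B ∉ Set.range (algebraMap Y K)) : Module.finrank Y K = 2 := by
  have hi : IsIntegral Y B := ⟨X ^ 2 - C B2, monic_X_pow_sub_C _ two_ne_zero, by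
    simp [eval₂_sub, hB]⟩
  rw [← IntermediateField.finrank_top', ← gK, IntermediateField.adjoin.finrank hi, minpoly_B hB nB,
    natDegree_X_pow_sub_C]

/-- ring homomorphisms out of `K = Y(B)` -/
theorem exists_ext (hB : B ^ 2 = algebraMap Y K B2) (gK : IntermediateField.adjoin Y {B} = ⊤)
    (nB : B ∉ Set.range (algebraMap Y K)) {L : Type*} [Field L] (φ : Y →+* L) {b : L}
    (hb : b ^ 2 = φ B2) : ∃ ψ : K →+* L, (∀ f, ψ (algebraMap Y K f) = φ f) ∧ ψ B = b := by
  have hi : IsIntegral Y B := ⟨X ^ 2 - C B2, monic_X_pow_sub_C _ two_ne_zero, by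
    simp [eval₂_sub, hB]⟩
  letI : Algebra Y L := φ.toAlgebra
  let pb : PowerBasis Y K := (IntermediateField.adjoin.powerBasis hi).map
    ((IntermediateField.equivOfEq gK).trans IntermediateField.topEquiv)
  have hg : pb.gen = B := rfl
  have h0 : aeval b (minpoly Y pb.gen) = 0 := by
    rw [hg, minpoly_B hB nB, map_sub, map_pow, aeval_X, aeval_C, hb]; exact sub_self _
  exact ⟨(pb.lift b h0 : K →ₐ[Y] L), fun f => (pb.lift b h0).commutes f,
    hg ▸ pb.lift_gen b h0⟩

theorem ext_of_adjoin {C F L : Type*} [Field C] [Field F] [Field L] [Algebra C F] {S : Set F}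
    (hS : IntermediateField.adjoin C S = ⊤) {φ ψ : F →+* L}
    (hc : ∀ c, φ (algebraMap C F c) = ψ (algebraMap C F c)) (h : ∀ x ∈ S, φ x = ψ x) (f : F) :
    φ f = ψ f := by
  have hf : f ∈ IntermediateField.adjoin C S := hS ▸ IntermediateField.mem_top
  induction hf using IntermediateField.adjoin_induction with
  | mem x hx => exact h x hx
  | algebraMap c => exact hc c
  | add x y _ _ h1 h2 => rw [map_add, map_add, h1, h2]
  | inv x _ h1 => rw [map_inv₀, map_inv₀, h1]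
  | mul x y _ _ h1 h2 => rw [map_mul, map_mul, h1, h2]

/-- extension of automorphisms of `Y` to `K = Y(B)` -/
theorem exists_equiv (hB : B ^ 2 = algebraMap Y K B2) (gK : IntermediateField.adjoin Y {B} = ⊤)
    (nB : B ∉ Set.range (algebraMap Y K)) (φ : Y ≃+* Y) {c : Y} (hc : c ≠ 0)
    (hb : φ B2 = c ^ 2 * B2) : ∃ ψ : K ≃+* K, (∀ f, ψ (algebraMap Y K f) = algebraMap Y K (φ f)) ∧
      ψ B = algebraMap Y K c * B := by
  obtain ⟨ψ, h1, h2⟩ := exists_ext hB gK nB ((algebraMap Y K).comp φ.toRingHom)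
    (b := algebraMap Y K c * B) (by
      show _ = algebraMap Y K (φ B2)
      rw [hb, map_mul, map_pow, mul_pow, hB])
  refine ⟨RingEquiv.ofBijective ψ ⟨ψ.injective, fun f => ?_⟩, h1, h2⟩
  have hf : f ∈ IntermediateField.adjoin Y {B} := gK ▸ IntermediateField.mem_top
  have ha : ∀ c : Y, algebraMap Y K c ∈ ψ.fieldRange := fun c =>
    ⟨algebraMap Y K (φ.symm c), by rw [h1]; simp⟩
  show f ∈ ψ.fieldRange
  induction hf using IntermediateField.adjoin_induction with
  | mem x hx =>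
    rw [Set.mem_singleton_iff] at hx
    have : x = (algebraMap Y K c)⁻¹ * ψ B := by
      rw [hx, h2, inv_mul_cancel_left₀ ((_root_.map_ne_zero _).2 hc)]
    rw [this]
    exact mul_mem (inv_mem (ha c)) ⟨B, rfl⟩
  | algebraMap c => exact ha c
  | add x y _ _ h1 h2 => exact add_mem h1 h2
  | inv x _ h1 => exact inv_mem h1
  | mul x y _ _ h1 h2 => exact mul_mem h1 h2

end quad

/-! ## the model -/

variable {C Y K : Type*} [Field C] [Field Y] [Field K] [Algebra C Y] [Algebra C K] [Algebra Y K]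
  [IsScalarTower C Y K]

/-- the data of `Ht.Mdl` in the words of `Kf` -/
structure Md (P : Par C) (A B2 u : Y) (B : K) (r : K ≃ₐ[C] K) : Prop where
  isY : IsY P A B2 u
  hB : B ^ 2 = algebraMap Y K B2
  gK : IntermediateField.adjoin Y {B} = ⊤
  nB : B ∉ Set.range (algebraMap Y K)
  rA : r (algebraMap Y K A) = -B
  rB : r B = algebraMap Y K A
  ru : r (algebraMap Y K u) = xu P (algebraMap Y K A) B (algebraMap Y K u)

namespace Md

variable {P : Par C} {A B2 u : Y} {B : K} {r : K ≃ₐ[C] K} (H : Md P A B2 u B r)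
include H

theorem mapK : (P.map (algebraMap C Y)).map (algebraMap Y K) = P.map (algebraMap C K) := by
  rw [Par.map_map, ← IsScalarTower.algebraMap_eq]

theorem e1 : (P.map (algebraMap C K)).E1 (algebraMap Y K A) (B ^ 2) := by
  rw [H.hB, ← H.mapK, Par.map_E1]; exact H.isY.eq1

theorem e2 : (P.map (algebraMap C K)).E2 (algebraMap Y K A) (B ^ 2) (algebraMap Y K u) := by
  rw [H.hB, ← H.mapK, Par.map_E2]; exact H.isY.eq2

theorem add_ne (c : C) : algebraMap Y K u + algebraMap C K c ≠ 0 := fun h0 => by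
  rw [IsScalarTower.algebraMap_apply C Y K, ← map_add, _root_.map_eq_zero] at h0
  exact H.isY.tr (by
    rw [eq_neg_of_add_eq_zero_left h0, ← map_neg]; exact isAlgebraic_algebraMap _)

theorem dn_ne : dn (P.map (algebraMap C K)) (algebraMap Y K u) ≠ 0 := by
  simp only [dn, Par.map_p1, Par.map_p2, Par.map_p3, ← map_mul]
  exact mul_ne_zero (mul_ne_zero (H.add_ne _) (H.add_ne _)) (H.add_ne _)

omit H in
/-- a homomorphism that fixes the parameters acts on `xu` through the arguments -/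
theorem map_xu (ψ : K →+* K) (h1 : ψ (algebraMap C K P.p1) = algebraMap C K P.p1)
    (h2 : ψ (algebraMap C K P.p2) = algebraMap C K P.p2)
    (ht : ψ (algebraMap C K P.t) = algebraMap C K P.t) (a b v : K) :
    ψ (xu P a b v) = xu P (ψ a) (ψ b) (ψ v) := by
  have : (P.map (algebraMap C K)).map ψ = P.map (algebraMap C K) :=
    Par.ext' h1 h2 (by
      simp only [Par.map_p3, P.p3_eq, map_sub, map_neg, h1, h2]) ht
  rw [xu, Par.map_nx, this]

omit H in
theorem r_xu (ψ : K ≃ₐ[C] K) (a b v : K) : ψ (xu P a b v) = xu P (ψ a) (ψ b) (ψ v) :=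
  map_xu (ψ : K →+* K) (ψ.commutes _) (ψ.commutes _) (ψ.commutes _) a b v

theorem rru : r (r (algebraMap Y K u)) = xu P (algebraMap Y K A) (-B) (algebraMap Y K u) := by
  have h : dn (P.map (algebraMap C K)) (xu P (algebraMap Y K A) B (algebraMap Y K u)) ≠ 0 := by
    have := (_root_.map_ne_zero (r : K →+* K)).2 H.dn_ne
    rw [← H.ru]
    simpa [dn] using this
  conv_lhs => rw [H.ru, r_xu, H.rA, H.rB, H.ru]
  rw [xu, nx_rot]
  exact nx_nx H.e1 H.e2 H.dn_ne h

theorem rrru : r (r (r (algebraMap Y K u))) = algebraMap Y K u := by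
  have a : algebraMap Y K u + r (algebraMap Y K u) + r (r (algebraMap Y K u)) =
      algebraMap C K (-2 * P.q) := by
    rw [H.rru, H.ru, nx_sum]; simp [map_ofNat]
  have b := congrArg r a
  rw [map_add, map_add, r.commutes] at b
  linear_combination b - a

theorem ru_ne : r (algebraMap Y K u) ≠ algebraMap Y K u := by
  rw [H.ru]; exact nx_ne H.e1 H.e2 H.dn_ne

theorem rrA : r (r (algebraMap Y K A)) = -algebraMap Y K A := by rw [H.rA, map_neg, H.rB]

theorem rrB : r (r B) = -B := by rw [H.rB, H.rA]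

theorem two : Module.finrank Y K = 2 := finrank_two H.hB H.gK H.nB

theorem extY {L : Type*} [Field L] {φ ψ : Y →+* L}
    (hc : ∀ c, φ (algebraMap C Y c) = ψ (algebraMap C Y c)) (hA : φ A = ψ A) (hB : φ B2 = ψ B2)
    (hu : φ u = ψ u) (f : Y) : φ f = ψ f :=
  ext_of_adjoin H.isY.gen hc (by rintro x (rfl | rfl | rfl) <;> assumption) f

theorem extK {L : Type*} [Field L] {φ ψ : K →+* L}
    (hc : ∀ c, φ (algebraMap C K c) = ψ (algebraMap C K c))
    (hA : φ (algebraMap Y K A) = ψ (algebraMap Y K A)) (hB : φ B = ψ B)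
    (hu : φ (algebraMap Y K u) = ψ (algebraMap Y K u)) (f : K) : φ f = ψ f :=
  ext_of_adjoin H.gK (H.extY (φ := φ.comp (algebraMap Y K)) (ψ := ψ.comp (algebraMap Y K))
    (fun c => by
      simpa only [RingHom.comp_apply, ← IsScalarTower.algebraMap_apply] using hc c) hA
    (by simp only [RingHom.comp_apply, ← H.hB, map_pow, hB]) hu)
    (by rintro x rfl; exact hB) f

theorem B_ne : B ≠ 0 := fun h => H.nB ⟨0, by rw [h, map_zero]⟩

theorem exists_g : ∃ g : K ≃ₐ[Y] K, g B = -B ∧ g ≠ 1 := by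
  obtain ⟨ψ, h1, h2⟩ := exists_equiv H.hB H.gK H.nB (RingEquiv.refl Y) (c := -1)
    (neg_ne_zero.2 one_ne_zero) (by simp)
  have h3 : ψ B = -B := by simpa using h2
  refine ⟨AlgEquiv.ofRingEquiv (f := ψ) h1, h3, fun h => ?_⟩
  have h4 : ψ B = B := congrArg (fun s : K ≃ₐ[Y] K => s B) h
  refine mul_ne_zero (P.map (algebraMap C K)).two H.B_ne ?_
  linear_combination h3 - h4

theorem gal [FiniteDimensional Y K] : IsGalois Y K := by
  classical
  obtain ⟨g, -, hg⟩ := H.exists_g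
  refine IsGalois.of_card_aut_eq_finrank Y K (le_antisymm ?_ ?_)
  · rw [Nat.card_eq_fintype_card]; exact AlgEquiv.card_le
  · rw [H.two]
    haveI : Nontrivial (K ≃ₐ[Y] K) := ⟨g, 1, hg⟩
    exact Finite.one_lt_card

theorem grg {g : K ≃ₐ[Y] K} (hg : g B = -B) (f : K) : r (g (r (g f))) = f := by
  have gc : ∀ c, g (algebraMap C K c) = algebraMap C K c := fun c => by
    rw [IsScalarTower.algebraMap_apply C Y K, g.commutes]
  refine H.extK (φ := (r : K →+* K).comp ((g : K →+* K).comp ((r : K →+* K).comp (g : K →+* K))))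
    (ψ := RingHom.id K) (fun c => ?_) ?_ ?_ ?_ f
  · show r (g (r (g _))) = _
    rw [gc, r.commutes, gc, r.commutes]; rfl
  · show r (g (r (g _))) = _
    rw [g.commutes, H.rA, map_neg, hg, neg_neg, H.rB]; rfl
  · show r (g (r (g _))) = _
    rw [hg, map_neg, H.rB, map_neg, g.commutes, map_neg, H.rA, neg_neg]; rfl
  · show r (g (r (g _))) = _
    rw [g.commutes, H.ru]
    have := map_xu (P := P) (g : K →+* K) (gc _) (gc _) (gc _) (algebraMap Y K A) B
      (algebraMap Y K u)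
    simp only [RingHom.coe_coe] at this
    rw [this, g.commutes, g.commutes, hg, ← H.rru, H.rrru]; rfl

theorem r12 (f : K) : r (r (r (r (r (r (r (r (r (r (r (r f))))))))))) = f := by
  refine H.extK (φ := ((r ^ 12 : K ≃ₐ[C] K) : K →+* K)) (ψ := RingHom.id K)
    (fun c => (r ^ 12).commutes c) ?_ ?_ ?_ f
  · show r (r (r (r (r (r (r (r (r (r (r (r _))))))))))) = _
    simp only [H.rrA, map_neg, neg_neg]; rfl
  · show r (r (r (r (r (r (r (r (r (r (r (r _))))))))))) = _
    simp only [H.rrB, map_neg, neg_neg]; rfl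
  · show r (r (r (r (r (r (r (r (r (r (r (r _))))))))))) = _
    simp only [H.rrru]; rfl

theorem r4_ne : ∃ f, r (r (r (r f))) ≠ f :=
  ⟨algebraMap Y K u, by rw [H.rrru]; exact H.ru_ne⟩

theorem r4_fix {f : Y} (hf : f ∈ IntermediateField.adjoin C {A, B2}) :
    r (r (r (r (algebraMap Y K f)))) = algebraMap Y K f := by
  induction hf using IntermediateField.adjoin_induction with
  | mem x hx =>
    rcases hx with rfl | rfl
    · simp only [H.rrA, map_neg, neg_neg]
    · simp only [← H.hB, map_pow, H.rrB, map_neg, neg_neg]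
  | algebraMap c => simp only [← IsScalarTower.algebraMap_apply, r.commutes]
  | add x y _ _ h1 h2 => simp only [map_add, h1, h2]
  | inv x _ h1 => simp only [map_inv₀, h1]
  | mul x y _ _ h1 h2 => simp only [map_mul, h1, h2]

/-- `r⁶` induces the involution `A ↦ -A` of `Y` -/
theorem r6 {ι : Y →+* Y} (hc : ∀ c, ι (algebraMap C Y c) = algebraMap C Y c) (hA : ι A = -A)
    (hB : ι B2 = B2) (hu : ι u = u) (f : Y) :
    r (r (r (r (r (r (algebraMap Y K f)))))) = algebraMap Y K (ι f) := by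
  refine H.extY (φ := ((r ^ 6 : K ≃ₐ[C] K) : K →+* K).comp (algebraMap Y K))
    (ψ := (algebraMap Y K).comp ι) (fun c => ?_) ?_ ?_ ?_ f
  · show r (r (r (r (r (r (algebraMap Y K _)))))) = algebraMap Y K (ι _)
    simp only [hc, ← IsScalarTower.algebraMap_apply, r.commutes]
  · show r (r (r (r (r (r (algebraMap Y K _)))))) = algebraMap Y K (ι _)
    simp only [hA, H.rrA, map_neg, neg_neg]
  · show r (r (r (r (r (r (algebraMap Y K _)))))) = algebraMap Y K (ι _)
    simp only [hB, ← H.hB, map_pow, H.rrB, map_neg, neg_neg, neg_sq]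
  · show r (r (r (r (r (r (algebraMap Y K _)))))) = algebraMap Y K (ι _)
    simp only [hu, H.rrru]

/-- an automorphism of `Y` that fixes `A, B2, u` and the parameters extends to `K` and commutes
with `r` -/
theorem ext_fix (e : Y ≃+* Y) (s : C → C) (hc : ∀ c, e (algebraMap C Y c) = algebraMap C Y (s c))
    (h1 : s P.p1 = P.p1) (h2 : s P.p2 = P.p2) (ht : s P.t = P.t) (hA : e A = A) (hB : e B2 = B2)
    (hu : e u = u) : ∃ ψ : K ≃+* K, (∀ f, ψ (algebraMap Y K f) = algebraMap Y K (e f)) ∧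
      ψ B = B ∧ ∀ f, ψ (r f) = r (ψ f) := by
  obtain ⟨ψ, a, b⟩ := exists_equiv H.hB H.gK H.nB e (c := 1) one_ne_zero (by simp [hB])
  rw [map_one, one_mul] at b
  have c : ∀ c, ψ (algebraMap C K c) = algebraMap C K (s c) := fun c => by
    rw [IsScalarTower.algebraMap_apply C Y K, a, hc, ← IsScalarTower.algebraMap_apply]
  refine ⟨ψ, a, b, H.extK (φ := (ψ : K →+* K).comp (r : K →+* K))
    (ψ := (r : K →+* K).comp (ψ : K →+* K)) (fun x => ?_) ?_ ?_ ?_⟩
  · show ψ (r _) = r (ψ _)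
    rw [r.commutes, c, r.commutes]
  · show ψ (r _) = r (ψ _)
    rw [a, hA, H.rA, map_neg, b]
  · show ψ (r _) = r (ψ _)
    rw [b, H.rB, a, hA]
  · show ψ (r _) = r (ψ _)
    have := map_xu (P := P) (ψ : K →+* K) ((c _).trans (by rw [h1])) ((c _).trans (by rw [h2]))
      ((c _).trans (by rw [ht])) (algebraMap Y K A) B (algebraMap Y K u)
    simp only [RingHom.coe_coe] at this
    rw [a, hu, H.ru, this, a, a, hA, hu, b]

/-- `y` extends to `K`, `y r = r⁵ y` -/
theorem ext_y (y : Y ≃+* Y) (hc : ∀ c, y (algebraMap C Y c) = algebraMap C Y c) {i : C}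
    (hi : i ^ 2 = -1) (hA : y A = algebraMap C Y i * A) (hB : y B2 = -B2) (hu : y u = u) :
    ∃ ψ : K ≃+* K, (∀ f, ψ (algebraMap Y K f) = algebraMap Y K (y f)) ∧
      ψ B = algebraMap C K i * B ∧ ∀ f, ψ (r f) = r (r (r (r (r (ψ f))))) := by
  have hY : algebraMap C Y i ^ 2 = -1 := by rw [← map_pow, hi, map_neg, map_one]
  have hK : algebraMap C K i ^ 2 = -1 := by rw [← map_pow, hi, map_neg, map_one]
  obtain ⟨ψ, a, b⟩ := exists_equiv H.hB H.gK H.nB y (c := algebraMap C Y i)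
    (fun h => by rw [h] at hY; simp at hY) (by rw [hB, hY]; ring)
  rw [← IsScalarTower.algebraMap_apply] at b
  have c : ∀ c, ψ (algebraMap C K c) = algebraMap C K c := fun c => by
    rw [IsScalarTower.algebraMap_apply C Y K, a, hc]
  have a' : ψ (algebraMap Y K A) = algebraMap C K i * algebraMap Y K A := by
    rw [a, hA, map_mul, ← IsScalarTower.algebraMap_apply]
  refine ⟨ψ, a, b, H.extK (φ := (ψ : K →+* K).comp (r : K →+* K))
    (ψ := (r : K →+* K).comp ((r : K →+* K).comp ((r : K →+* K).comp ((r : K →+* K).comp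
      ((r : K →+* K).comp (ψ : K →+* K)))))) (fun x => ?_) ?_ ?_ ?_⟩
  · show ψ (r _) = r (r (r (r (r (ψ _)))))
    simp only [c, r.commutes]
  · show ψ (r _) = r (r (r (r (r (ψ _)))))
    rw [a', H.rA, map_neg, b]
    simp only [map_mul, r.commutes, H.rA, H.rB, map_neg, neg_neg, mul_neg]
  · show ψ (r _) = r (r (r (r (r (ψ _)))))
    rw [b, H.rB, a']
    simp only [map_mul, r.commutes, H.rA, H.rB, map_neg, neg_neg, mul_neg]
  · show ψ (r _) = r (r (r (r (r (ψ _)))))
    have := map_xu (P := P) (ψ : K →+* K) (c _) (c _) (c _) (algebraMap Y K A) B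
      (algebraMap Y K u)
    simp only [RingHom.coe_coe] at this
    rw [a, hu, H.rrru, H.rru, H.ru, this, a', a, hu, b]
    exact nx_i _ hK _ _ _

end Md

end Crest.Agent.T15.Jm
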