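import Crest.Agent.T15.RhoA_86

-- ▼ part T15/RhoB_86
section

/-!
# Row 15, block F (helper86): the two-dimensional representation of a QM module, II

`ρ σ = m (x_σ^*) U σ`; determinant, trace, the quadratic relation on `T`, the columns.
-/

set_option autoImplicit false
set_option linter.unusedSimpArgs false

noncomputable section

namespace Crest.Agent.T15.Rho

open scoped Quaternion
open Matrix

variable {α : ℤ_[3]}

/-- coefficients: a `ℤ₃`-algebra with square roots of `α` and `3` -/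
structure Cf (α : ℤ_[3]) (A : Type*) [CommRing A] where
  φ : ℤ_[3] →+* A
  s2 : A
  s3 : A
  hs2 : s2 ^ 2 = φ α
  hs3 : s3 ^ 2 = 3

section mat

variable {A B : Type*} [CommRing A] [CommRing B]

/-- change of coefficients -/
def Cf.map (c : Cf α A) (f : A →+* B) : Cf α B where
  φ := f.comp c.φ
  s2 := f c.s2
  s3 := f c.s3
  hs2 := by rw [← map_pow, c.hs2]; rfl
  hs3 := by rw [← map_pow, c.hs3, map_ofNat]

/-- the splitting `ℍ → M₂(A)` -/
def Cf.m (c : Cf α A) (x : H α) : Matrix (Fin 2) (Fin 2) A :=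
  !![c.φ x.re + c.φ x.imI * c.s2, (c.φ x.imJ + c.φ x.imK * c.s2) * c.s3;
    (c.φ x.imJ - c.φ x.imK * c.s2) * c.s3, c.φ x.re - c.φ x.imI * c.s2]

variable (c : Cf α A)

lemma Cf.m_one : c.m 1 = 1 := by
  ext i j; fin_cases i <;> fin_cases j <;> simp [Cf.m]

lemma Cf.m_add (x y : H α) : c.m (x + y) = c.m x + c.m y := by
  ext i j; fin_cases i <;> fin_cases j <;> simp [Cf.m] <;> ring

lemma Cf.m_smul (a : ℤ_[3]) (x : H α) : c.m (a • x) = c.φ a • c.m x := by
  ext i j; fin_cases i <;> fin_cases j <;> simp [Cf.m] <;> ring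

lemma Cf.m_mul (x y : H α) : c.m (x * y) = c.m x * c.m y := by
  have h2 := c.hs2
  have h3 := c.hs3
  ext i j
  fin_cases i <;> fin_cases j <;> simp [Cf.m, Matrix.mul_apply, Fin.sum_univ_two, map_ofNat] <;>
    rw [← h2] <;> (try rw [← h3]) <;> ring

lemma Cf.det_m (x : H α) : (c.m x).det = c.φ (nr x) := by
  have h2 := c.hs2
  have h3 := c.hs3
  simp only [Cf.m, nr, det_fin_two_of, map_add, map_sub, map_mul, map_pow, map_ofNat]
  rw [← h2, ← h3]; ring

lemma Cf.m_map (f : A →+* B) (x : H α) : (c.map f).m x = (c.m x).map f := by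
  ext i j; fin_cases i <;> fin_cases j <;> simp [Cf.m, Cf.map]

variable (A) in
/-- signed permutation matrices -/
def Um (e a b : ℤˣ) : Matrix (Fin 2) (Fin 2) A :=
  if a = 1 then !![((e : ℤ) : A), 0; 0, ((e * b : ℤˣ) : ℤ)] else !![0, ((e : ℤ) : A); ((e * b : ℤˣ) : ℤ), 0]

lemma neg_one_ne : (-1 : ℤˣ) ≠ 1 := by decide

@[simp] lemma Um_one : Um A 1 1 1 = 1 := by
  ext i j; fin_cases i <;> fin_cases j <;> simp [Um]

lemma Um_mul_m (e a b : ℤˣ) (x : H α) : Um A e a b * c.m x = c.m (cj a b x) * Um A e a b := by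
  rcases Int.units_eq_one_or a with rfl | rfl <;> rcases Int.units_eq_one_or b with rfl | rfl <;>
    ext i j <;> fin_cases i <;> fin_cases j <;>
    simp [Um, Cf.m, cj, Matrix.mul_apply, Fin.sum_univ_two] <;> ring

lemma Um_mul (e a b e' a' b' : ℤˣ) : Um A e a b * Um A e' a' b' =
    Um A (e * e' * if a = 1 then 1 else b') (a * a') (b * b') := by
  rcases Int.units_eq_one_or a with rfl | rfl <;> rcases Int.units_eq_one_or b with rfl | rfl <;>
    rcases Int.units_eq_one_or a' with rfl | rfl <;> rcases Int.units_eq_one_or b' with rfl | rfl <;>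
    ext i j <;> fin_cases i <;> fin_cases j <;>
    simp [Um, Matrix.mul_apply, Fin.sum_univ_two]

lemma det_Um (e a b : ℤˣ) : (Um A e a b).det = ((a * b : ℤˣ) : ℤ) := by
  rcases Int.units_eq_one_or a with rfl | rfl <;> rcases Int.units_eq_one_or b with rfl | rfl <;>
    rcases Int.units_eq_one_or e with rfl | rfl <;> simp [Um, det_fin_two_of]

lemma Um_map (f : A →+* B) (e a b : ℤˣ) : (Um A e a b).map f = Um B e a b := by
  unfold Um
  split_ifs <;> ext i j <;> fin_cases i <;> fin_cases j <;> simp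

end mat

variable {G : Type*} [Group G] {T : Type*} [AddCommGroup T] [Module ℤ_[3] T]

/-- a generator of `T` over `ℍ` and a lift of `(χa, χb)` to the dihedral group -/
structure Fr (Q : QM α G T) where
  t : T
  ht : Function.Bijective (Q.orb t)
  ε : G → ℤˣ
  hε : ∀ σ τ, ε (σ * τ) = ε σ * ε τ * if Q.χa σ = 1 then 1 else Q.χb τ

namespace Fr

variable {Q : QM α G T} (F : Fr Q)

lemma ε_one : F.ε 1 = 1 := by
  have := F.hε 1 1
  simpa using this


/-- the coordinate -/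
def co : T →ₗ[ℤ_[3]] H α := (LinearEquiv.ofBijective (Q.orb F.t) F.ht).symm

lemma ι_co (u : T) : Q.ι (F.co u) F.t = u :=
  (LinearEquiv.ofBijective (Q.orb F.t) F.ht).apply_symm_apply u

lemma co_ι (h : H α) : F.co (Q.ι h F.t) = h :=
  (LinearEquiv.ofBijective (Q.orb F.t) F.ht).symm_apply_apply h

lemma co_t : F.co F.t = 1 := by simpa using F.co_ι 1

/-- the cocycle -/
def x (σ : G) : H α := F.co (Q.act σ F.t)

lemma co_act (σ : G) (u : T) : F.co (Q.act σ u) = cj (Q.χa σ) (Q.χb σ) (F.co u) * F.x σ := by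
  conv_lhs => rw [← F.ι_co u, Q.act_ι, ← F.ι_co (Q.act σ F.t), ← Module.End.mul_apply, ← map_mul,
    co_ι]
  rfl

lemma x_mul (σ τ : G) : F.x (σ * τ) = cj (Q.χa σ) (Q.χb σ) (F.x τ) * F.x σ := by
  rw [x, map_mul, Module.End.mul_apply, co_act]; rfl

lemma x_one : F.x 1 = 1 := by simp [x, co_t]

variable {A B : Type*} [CommRing A] [CommRing B] (c : Cf α A)

/-- **the representation** -/
def ρ : G →* Matrix (Fin 2) (Fin 2) A where
  toFun σ := c.m (star (F.x σ)) * Um A (F.ε σ) (Q.χa σ) (Q.χb σ)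
  map_one' := by simp [x_one, ε_one, c.m_one]
  map_mul' σ τ := by
    rw [x_mul, star_mul, c.m_mul, ← cj_star, F.hε, map_mul, map_mul, ← Um_mul, mul_assoc, mul_assoc,
      ← mul_assoc (c.m (cj _ _ _)), ← Um_mul_m, mul_assoc]




/-- `T → M₂(A)`; its columns are equivariant maps `T → A²` on the kernel of `U` -/
def M (u : T) : Matrix (Fin 2) (Fin 2) A := c.m (star (F.co u))









/-! ### determinant -/

lemma e_ι (h : H α) (u v : T) :
    Q.e (Q.ι h u) v = Q.e u (Q.ι ⟨h.re, Q.η • h.imI, h.imJ, -(Q.η • h.imK)⟩ v) := by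
  simp only [Q.ι_apply, map_add, map_smul, LinearMap.add_apply, LinearMap.smul_apply, Q.ad2, Q.ad3,
    Q.h23, map_neg]
  rcases Int.units_eq_one_or Q.η with h | h <;> simp [h]

lemma e_swap (u v : T) : Q.e u v = -Q.e v u := by
  have := Q.alt (u + v)
  simp only [map_add, LinearMap.add_apply, Q.alt] at this
  linear_combination this

lemma e_self (z : H α) (u : T) : Q.e u (Q.ι z u) =
    if Q.η = 1 then z.imK * Q.e u (Q.j2 (Q.j3 u)) else z.imI * Q.e u (Q.j2 u) := by
  have h2 : (2 : ℤ_[3]) ≠ 0 := by norm_num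
  have h3 : Q.e u (Q.j3 u) = 0 := mul_left_cancel₀ h2 (by
    have := e_swap (Q := Q) u (Q.j3 u); rw [Q.ad3] at this; linear_combination this)
  simp only [Q.ι_apply, map_add, map_smul, Q.alt, h3, smul_eq_mul]
  rcases Int.units_eq_one_or Q.η with h | h
  · have : Q.e u (Q.j2 u) = 0 := mul_left_cancel₀ h2 (by
      have := e_swap (Q := Q) u (Q.j2 u); rw [Q.ad2, h, one_smul] at this; linear_combination this)
    simp [h, this]
  · have : Q.e u (Q.j2 (Q.j3 u)) = 0 := mul_left_cancel₀ h2 (by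
      have := e_swap (Q := Q) u (Q.j2 (Q.j3 u))
      rw [Q.ad2, Q.ad3, Q.h23, h] at this
      simp only [map_neg, Units.neg_smul, one_smul, neg_neg] at this
      linear_combination this)
    simp [h, this]

theorem nr_x (σ : G) :
    nr (F.x σ) = (if Q.η = 1 then Q.χa σ * Q.χb σ else Q.χa σ) • (Q.cyc σ : ℤ_[3]) := by
  have hne : (if Q.η = 1 then Q.e F.t (Q.j2 (Q.j3 F.t)) else Q.e F.t (Q.j2 F.t)) ≠ 0 := by
    intro h0
    refine Q.ne (LinearMap.ext₂ fun u v => ?_)
    rw [← F.ι_co u, ← F.ι_co v, e_ι, ← Module.End.mul_apply, ← map_mul, e_self]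
    split_ifs at h0 ⊢ <;> simp [h0]
  have key : ∀ h : H α, Q.cyc σ * Q.e F.t (Q.ι h F.t) = Q.e F.t (Q.ι
      (⟨(F.x σ).re, Q.η • (F.x σ).imI, (F.x σ).imJ, -(Q.η • (F.x σ).imK)⟩ *
        (cj (Q.χa σ) (Q.χb σ) h * F.x σ)) F.t) := fun h => by
    rw [← Q.he σ, ← F.ι_co (Q.act σ (Q.ι h F.t)), co_act, co_ι, ← F.ι_co (Q.act σ F.t), e_ι,
      ← Module.End.mul_apply, ← map_mul, ← x]
  refine mul_right_cancel₀ hne ?_
  rcases Int.units_eq_one_or Q.η with h | h
  · have := key ⟨0, 0, 0, 1⟩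
    rw [e_self, e_self] at this
    rcases Int.units_eq_one_or (Q.χa σ) with ha | ha <;>
      rcases Int.units_eq_one_or (Q.χb σ) with hb | hb <;>
      simp [h, ha, hb, cj, -mul_eq_mul_right_iff] at this ⊢ <;> unfold nr <;>
      first | linear_combination this | linear_combination -this
  · have := key ⟨0, 1, 0, 0⟩
    rw [e_self, e_self] at this
    rcases Int.units_eq_one_or (Q.χa σ) with ha | ha <;>
      rcases Int.units_eq_one_or (Q.χb σ) with hb | hb <;>
      simp [h, ha, hb, cj, -mul_eq_mul_right_iff] at this ⊢ <;> unfold nr <;>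
      first | linear_combination this | linear_combination -this


/-! ### trace -/

/-- the endomorphism attached to `σ` -/
def bb (Q : QM α G T) (σ : G) : Module.End ℤ_[3] T :=
  if Q.χa σ = 1 then (if Q.χb σ = 1 then 1 else Q.j2) else (if Q.χb σ = 1 then Q.j3 else Q.j2 * Q.j3)


/-- the `3`-adic integer `tr ρ σ / (ε β)` -/
def cc (σ : G) : ℤ_[3] :=
  2 * if Q.χa σ = 1 then (if Q.χb σ = 1 then (F.x σ).re else (F.x σ).imI)
    else (if Q.χb σ = 1 then (F.x σ).imJ else (F.x σ).imK)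


lemma co_ι' (h : H α) (u : T) : F.co (Q.ι h u) = h * F.co u := by
  conv_lhs => rw [← F.ι_co u, ← Module.End.mul_apply, ← map_mul, co_ι]

lemma co_inj {u v : T} (h : F.co u = F.co v) : u = v := by rw [← F.ι_co u, h, ι_co]

/-- **the quadratic relation on `T`** -/
theorem quad {σ : G} (h : Q.η = 1 ∨ Q.χb σ = 1) (u : T) :
    Q.act σ (Q.act σ u) + (if Q.χa σ = -1 ∧ Q.χb σ = -1 then -(Q.cyc σ : ℤ_[3]) else Q.cyc σ) • u =
      F.cc σ • bb Q σ (Q.act σ u) := by
  have hn := F.nr_x σ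
  have h2 : ∀ v, Q.j2 v = Q.ι ⟨0, 1, 0, 0⟩ v := fun v => by simp [Q.ι_apply]
  have h3 : ∀ v, Q.j3 v = Q.ι ⟨0, 0, 1, 0⟩ v := fun v => by simp [Q.ι_apply]
  replace hn : (Q.cyc σ : ℤ_[3]) = (if Q.η = 1 then Q.χa σ * Q.χb σ else Q.χa σ) • nr (F.x σ) := by
    rw [hn, smul_smul, Int.units_mul_self, one_smul]
  refine F.co_inj ?_
  rw [hn]
  rcases Int.units_eq_one_or Q.η with hη | hη <;>
    rcases Int.units_eq_one_or (Q.χa σ) with ha | ha <;>
    rcases Int.units_eq_one_or (Q.χb σ) with hb | hb <;>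
    first
    | exact absurd h (by rw [hη, hb]; decide)
    | (simp only [bb, cc, hη, ha, hb, neg_one_ne, neg_one_ne.symm, if_true, if_false, map_add,
        map_smul, Module.End.mul_apply, Module.End.one_apply, h2, h3, co_ι', co_act, and_self,
        and_true, and_false]
       ext <;> simp [cj, nr] <;> ring)

end Fr

end Crest.Agent.T15.Rho
end
end

-- ▼ part T15/RhoO_86
section

/-!
# Row 15, block F (helper86): the coefficient ring `ℤ₃[√3]`
-/

set_option autoImplicit false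

noncomputable section

namespace Crest.Agent.T15.Rho

open IsLocalRing QuadraticAlgebra

/-- `ℤ₃[√3]` -/
abbrev O3 : Type := QuadraticAlgebra ℤ_[3] 3 0

namespace O3

/-- `√3` -/
def s3 : O3 := ⟨0, 1⟩

lemma s3_sq : s3 ^ 2 = 3 := by
  rw [← map_ofNat (algebraMap ℤ_[3] O3) 3]
  ext <;> simp [s3, sq]

lemma norm_eq (z : O3) : norm z = z.re ^ 2 - 3 * z.im ^ 2 := by rw [norm_def]; ring

lemma eq_zero {z : O3} (h : norm z = 0) : z = 0 := by
  have := eq_zero_of_nr (α := 2) (x := ⟨z.re, 0, z.im, 0⟩) (by rw [norm_eq] at h; simpa [nr] using h)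
  ext
  · simpa using congrArg QuaternionAlgebra.re this
  · simpa using congrArg QuaternionAlgebra.imJ this

instance : NoZeroDivisors O3 where
  eq_zero_or_eq_zero_of_mul_eq_zero {a b} h := by
    have : norm a * norm b = 0 := by rw [← map_mul, h, QuadraticAlgebra.norm_zero]
    exact (mul_eq_zero.1 this).imp eq_zero eq_zero

instance : IsDomain O3 := NoZeroDivisors.to_isDomain _

/-- reduction modulo `√3` -/
def res : O3 →+* ZMod 3 where
  toFun z := r3 z.re
  map_one' := by simp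
  map_zero' := by simp
  map_add' z w := by simp
  map_mul' z w := by
    have : r3 3 = 0 := r3_eq_zero.2 dvd_rfl
    simp [this]

lemma res_apply (z : O3) : res z = r3 z.re := rfl

lemma isUnit_iff_res {z : O3} : IsUnit z ↔ res z ≠ 0 := by
  have : r3 3 = 0 := r3_eq_zero.2 dvd_rfl
  rw [isUnit_iff_norm_isUnit, isUnit_iff, norm_eq, res_apply]
  simp [this]

instance : IsLocalRing O3 := of_isUnit_or_isUnit_one_sub_self fun a => by
  rw [isUnit_iff_res, isUnit_iff_res, map_sub, map_one]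
  generalize res a = u
  revert u; decide

lemma mem_max {z : O3} : z ∈ maximalIdeal O3 ↔ res z = 0 := by
  rw [mem_maximalIdeal, mem_nonunits_iff, isUnit_iff_res, not_not]

lemma max_eq : maximalIdeal O3 = Ideal.span {s3} := by
  ext z
  rw [mem_max, res_apply, r3_eq_zero, Ideal.mem_span_singleton]
  constructor
  · rintro ⟨a, ha⟩
    exact ⟨⟨z.im, a⟩, by ext <;> simp [s3, ha]⟩
  · rintro ⟨w, rfl⟩
    exact ⟨w.im, by simp [s3]⟩

instance : IsNoetherianRing O3 := IsNoetherianRing.of_finite ℤ_[3] O3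

lemma s3_ne : s3 ≠ 0 := fun h => by simpa [s3] using congrArg QuadraticAlgebra.im h

instance : IsDiscreteValuationRing O3 :=
  ((IsDiscreteValuationRing.TFAE O3 (isField_iff_maximalIdeal_eq.not.2 (by
    rw [max_eq, Ideal.span_singleton_eq_bot]; exact s3_ne))).out 0 4).2
    (show (maximalIdeal O3).IsPrincipal from max_eq ▸ ⟨s3, rfl⟩)

lemma three_pow_dvd {n : ℕ} {z : O3} :
    (3 : O3) ^ n ∣ z ↔ (3 : ℤ_[3]) ^ n ∣ z.re ∧ (3 : ℤ_[3]) ^ n ∣ z.im := by
  have : (3 : O3) ^ n = algebraMap ℤ_[3] O3 (3 ^ n) := by rw [map_pow, map_ofNat]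
  rw [this]
  constructor
  · rintro ⟨w, rfl⟩
    exact ⟨⟨w.re, by simp [-map_pow]⟩, ⟨w.im, by simp [-map_pow]⟩⟩
  · rintro ⟨⟨a, ha⟩, ⟨b, hb⟩⟩
    exact ⟨⟨a, b⟩, by ext <;> simp [-map_pow, ha, hb]⟩

instance : IsAdicComplete (maximalIdeal O3) O3 where
  prec' f hf := by
    have h1 : ∀ (n : ℕ) (x y : O3), x ≡ y [SMOD (maximalIdeal O3 ^ n • ⊤ : Submodule O3 O3)] ↔
        s3 ^ n ∣ x - y := fun n x y => by
      rw [SModEq.sub_mem, max_eq, Ideal.span_singleton_pow, smul_eq_mul, Ideal.mul_top,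
        Ideal.mem_span_singleton]
    have h2 : ∀ (n : ℕ) (x y : ℤ_[3]),
        x ≡ y [SMOD (maximalIdeal ℤ_[3] ^ n • ⊤ : Submodule ℤ_[3] ℤ_[3])] ↔ (3 : ℤ_[3]) ^ n ∣ x - y :=
      fun n x y => by
        rw [SModEq.sub_mem, PadicInt.maximalIdeal_eq_span_p, Ideal.span_singleton_pow, smul_eq_mul,
          Ideal.mul_top, Ideal.mem_span_singleton]; rfl
    have h3 : ∀ {m n : ℕ}, m ≤ n → (3 : O3) ^ m ∣ f (2 * m) - f (2 * n) := fun {m n} h => by
      rw [← s3_sq, ← pow_mul, ← h1]; exact hf (by omega)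
    obtain ⟨a, ha⟩ := IsPrecomplete.prec' (I := maximalIdeal ℤ_[3]) (fun n => (f (2 * n)).re)
      fun h => (h2 _ _ _).2 (three_pow_dvd.1 (h3 h)).1
    obtain ⟨b, hb⟩ := IsPrecomplete.prec' (I := maximalIdeal ℤ_[3]) (fun n => (f (2 * n)).im)
      fun h => (h2 _ _ _).2 (three_pow_dvd.1 (h3 h)).2
    refine ⟨⟨a, b⟩, fun n => (hf (show n ≤ 2 * n by omega)).trans ((h1 _ _ _).2 ?_)⟩
    refine (pow_dvd_pow s3 (show n ≤ 2 * n by omega)).trans ?_
    rw [pow_mul, s3_sq, three_pow_dvd]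
    exact ⟨(h2 _ _ _).1 (ha n), (h2 _ _ _).1 (hb n)⟩

lemma res_surj : Function.Surjective res := ZMod.ringHom_surjective _

/-- the residue field is `𝔽₃` -/
def resEquiv : ResidueField O3 ≃+* ZMod 3 :=
  (Ideal.quotEquivOfEq (by ext z; rw [mem_max, RingHom.mem_ker])).trans
    (RingHom.quotientKerEquivOfSurjective res_surj)

lemma card_res : Nat.card (ResidueField O3) = 3 := by
  rw [Nat.card_congr resEquiv.toEquiv, Nat.card_zmod]

instance : Finite (ResidueField O3) := Finite.of_equiv _ resEquiv.symm.toEquiv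

lemma three_mem : (3 : O3) ∈ maximalIdeal O3 := by rw [mem_max, map_ofNat]; rfl

lemma s3_mem : s3 ∈ maximalIdeal O3 := by rw [max_eq]; exact Ideal.subset_span rfl

end O3

end Crest.Agent.T15.Rho
end
end

-- ▼ part T15/RhoC_86
section

/-!
# Row 15, block F (helper86): the representation over `ℤ₃[√3]` when `G` commutes with `j₃`
-/

set_option autoImplicit false
set_option linter.unusedSimpArgs false

noncomputable section

namespace Crest.Agent.T15.Rho

open Matrix

variable {α : ℤ_[3]}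

/-- coefficients: a `ℤ₃`-algebra with a square root of `3` -/
structure C3 (A : Type*) [CommRing A] where
  φ : ℤ_[3] →+* A
  s : A
  hs : s ^ 2 = 3

/-- the universal coefficients -/
def O3.c3 : C3 O3 := ⟨algebraMap _ _, O3.s3, O3.s3_sq⟩

section mat

variable {A B : Type*} [CommRing A] [CommRing B]

/-- change of coefficients -/
def C3.map (c : C3 A) (f : A →+* B) : C3 B where
  φ := f.comp c.φ
  s := f c.s
  hs := by rw [← map_pow, c.hs, map_ofNat]

/-- right multiplication in the basis `1, i` over `ℤ₃[j]` -/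
def C3.m (c : C3 A) (x : H α) : Matrix (Fin 2) (Fin 2) A :=
  !![c.φ x.re + c.φ x.imJ * c.s, c.φ α * (c.φ x.imI + c.φ x.imK * c.s);
    c.φ x.imI - c.φ x.imK * c.s, c.φ x.re - c.φ x.imJ * c.s]

variable (c : C3 A)

lemma C3.m_one : c.m (1 : H α) = 1 := by
  ext i j; fin_cases i <;> fin_cases j <;> simp [C3.m]

lemma C3.m_add (x y : H α) : c.m (x + y) = c.m x + c.m y := by
  ext i j; fin_cases i <;> fin_cases j <;> simp [C3.m] <;> ring

lemma C3.m_smul (a : ℤ_[3]) (x : H α) : c.m (a • x) = c.φ a • c.m x := by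
  ext i j; fin_cases i <;> fin_cases j <;> simp [C3.m] <;> ring

lemma C3.m_mul (x y : H α) : c.m (x * y) = c.m y * c.m x := by
  have h3 := c.hs
  ext i j
  fin_cases i <;> fin_cases j <;> simp [C3.m, Matrix.mul_apply, Fin.sum_univ_two, map_ofNat] <;>
    rw [← h3] <;> ring

lemma C3.det_m (x : H α) : (c.m x).det = c.φ (nr x) := by
  have h3 := c.hs
  simp only [C3.m, nr, det_fin_two_of, map_add, map_sub, map_mul, map_pow, map_ofNat]
  rw [← h3]; ring

lemma C3.m_map (f : A →+* B) (x : H α) : (c.map f).m x = (c.m x).map f := by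
  ext i j; fin_cases i <;> fin_cases j <;> simp [C3.m, C3.map]

lemma Um_mul_m3 (a : ℤˣ) (x : H α) : Um A 1 1 a * c.m x = c.m (cj a 1 x) * Um A 1 1 a := by
  rcases Int.units_eq_one_or a with rfl | rfl <;> ext i j <;> fin_cases i <;> fin_cases j <;>
    simp [Um, C3.m, cj, Matrix.mul_apply, Fin.sum_univ_two] <;> ring

end mat

variable {G : Type*} [Group G] {T : Type*} [AddCommGroup T] [Module ℤ_[3] T]

/-- a frame exists when `G` commutes with `j₃` -/
theorem exists_fr [Fact (r3 α = 2)] [Module.Free ℤ_[3] T] [Module.Finite ℤ_[3] T] (Q : QM α G T)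
    (hb : ∀ σ, Q.χb σ = 1) (hr : Module.finrank ℤ_[3] T = 4) : ∃ F : Fr Q, ∀ σ, F.ε σ = 1 := by
  obtain ⟨t, ht⟩ := Q.exists_gen hr
  exact ⟨⟨t, ht, fun _ => 1, fun σ τ => by simp [hb]⟩, fun _ => rfl⟩

namespace Fr

variable {Q : QM α G T} (F : Fr Q) (hb : ∀ σ, Q.χb σ = 1)
variable {A B : Type*} [CommRing A] [CommRing B] (c : C3 A)

/-- **the representation** -/
def ρ0 : G →* Matrix (Fin 2) (Fin 2) A where
  toFun σ := c.m (F.x σ) * Um A 1 1 (Q.χa σ)
  map_one' := by simp [x_one, c.m_one]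
  map_mul' σ τ := by
    have : Um A 1 1 (Q.χa σ * Q.χa τ) = Um A 1 1 (Q.χa σ) * Um A 1 1 (Q.χa τ) := by
      rw [Um_mul]; simp
    rw [x_mul, hb, c.m_mul, map_mul, this, mul_assoc, mul_assoc, ← mul_assoc (c.m (cj _ _ _)),
      ← Um_mul_m3, mul_assoc]

lemma ρ0_apply (σ : G) : F.ρ0 hb c σ = c.m (F.x σ) * Um A 1 1 (Q.χa σ) := rfl

lemma ρ0_map (f : A →+* B) (σ : G) : F.ρ0 hb (c.map f) σ = (F.ρ0 hb c σ).map f := by
  rw [ρ0_apply, ρ0_apply, Matrix.map_mul, Um_map, C3.m_map]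

theorem det_ρ0 (hη : Q.η = -1) (σ : G) : (F.ρ0 hb c σ).det = c.φ (Q.cyc σ) := by
  rw [ρ0_apply, det_mul, c.det_m, nr_x, det_Um, hη, if_neg neg_one_ne]
  rcases Int.units_eq_one_or (Q.χa σ) with ha | ha <;> simp [ha]

theorem trace_ρ0 (σ : G) :
    (F.ρ0 hb c σ).trace = c.φ (F.cc σ) * if Q.χa σ = 1 then 1 else c.s := by
  rw [ρ0_apply, cc, hb]
  rcases Int.units_eq_one_or (Q.χa σ) with ha | ha <;>
    simp [ha, Um, C3.m, trace_fin_two, map_ofNat] <;> ring

include hb in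
/-- the quadratic relation on `T` -/
theorem quad0 (σ : G) (u : T) :
    Q.act σ (Q.act σ u) + (Q.cyc σ : ℤ_[3]) • u =
      F.cc σ • (if Q.χa σ = 1 then Q.act σ u else Q.j3 (Q.act σ u)) := by
  have := F.quad (σ := σ) (Or.inr (hb σ)) u
  rw [hb, if_neg (fun h => neg_one_ne h.2.symm), bb, hb] at this
  rw [this]
  by_cases h : Q.χa σ = 1 <;> simp [h]

/-- the coordinates `T → A²` -/
def vec : T →+ (Fin 2 → A) :=
  AddMonoidHom.mk' (fun u => c.m (F.co u) *ᵥ ![1, 0]) fun u v => by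
    rw [map_add, c.m_add, add_mulVec]

lemma vec_apply (u : T) : F.vec c u =
    ![c.φ (F.co u).re + c.φ (F.co u).imJ * c.s, c.φ (F.co u).imI - c.φ (F.co u).imK * c.s] := by
  ext i; fin_cases i <;> simp [vec, C3.m]

lemma vec_act (σ : G) (u : T) : F.vec c (Q.act σ u) = F.ρ0 hb c σ *ᵥ F.vec c u := by
  have h : Um A 1 1 (Q.χa σ) *ᵥ ![1, 0] = ![1, 0] := by ext i; fin_cases i <;> simp [Um]
  simp only [vec, AddMonoidHom.mk'_apply]
  rw [co_act, hb, c.m_mul, ρ0_apply, mulVec_mulVec, mul_assoc, Um_mul_m3, ← mul_assoc,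
    ← mulVec_mulVec _ _ (Um A 1 1 _), h]

lemma vec_smul (a : ℤ_[3]) (u : T) : F.vec c (a • u) = c.φ a • F.vec c u := by
  simp only [vec, AddMonoidHom.mk'_apply]
  rw [map_smul, c.m_smul, smul_mulVec]

lemma co_j2 (u : T) : F.co (Q.j2 u) = ⟨0, 1, 0, 0⟩ * F.co u := by
  rw [← co_ι']; simp [Q.ι_apply]



lemma vec_t : F.vec c F.t = ![1, 0] := by rw [vec_apply, co_t]; simp

lemma vec_j2t : F.vec c (Q.j2 F.t) = ![0, 1] := by rw [vec_apply, co_j2, co_t]; simp



lemma ρ0_ext {σ : G} {X : Matrix (Fin 2) (Fin 2) A}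
    (h : ∀ u, F.vec c (Q.act σ u) = X *ᵥ F.vec c u) : F.ρ0 hb c σ = X := by
  have h1 := h F.t
  have h2 := h (Q.j2 F.t)
  rw [F.vec_act hb, vec_t] at h1
  rw [F.vec_act hb, vec_j2t] at h2
  ext i j
  fin_cases j
  · simpa [mulVec, dotProduct, Fin.sum_univ_two] using congrFun h1 i
  · simpa [mulVec, dotProduct, Fin.sum_univ_two] using congrFun h2 i

lemma ρ0_eq_one {σ : G} {a : ℤ_[3]} (h0 : c.φ a = 0) (h : ∀ u, ∃ v, Q.act σ u = u + a • v) :
    F.ρ0 hb c σ = 1 := F.ρ0_ext hb c fun u => by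
  obtain ⟨v, hv⟩ := h u
  rw [hv, map_add, vec_smul, h0, zero_smul, add_zero, one_mulVec]

lemma ρ0_eq_one' {σ : G} (h : Q.act σ = 1) : F.ρ0 hb c σ = 1 :=
  F.ρ0_ext hb c fun u => by rw [h, one_mulVec]; rfl

lemma ρ0_eq_neg {σ : G} (h : Q.act σ = -1) : F.ρ0 hb c σ = -1 :=
  F.ρ0_ext hb c fun u => by rw [h, neg_mulVec, one_mulVec, ← map_neg]; rfl

/-- **`A²` is a quotient of a power of `T / a`** -/
theorem exists_quot0 [Fintype A] {V : Type*} [AddCommGroup V] (π : T →+ V)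
    (hπ : Function.Surjective π) {a : ℤ_[3]} (h0 : c.φ a = 0) (hk : ∀ u, π u = 0 → ∃ u', u = a • u') :
    ∃ q : (A × Fin 2 → V) →+ (Fin 2 → A), Function.Surjective q ∧
      ∀ (σ : G) (s : V → V), (∀ u, π (Q.act σ u) = s (π u)) →
        ∀ f, q (fun i => s (f i)) = F.ρ0 hb c σ *ᵥ q f := by
  classical
  have hker : π.ker ≤ (F.vec c).ker := fun u hu => by
    obtain ⟨u', rfl⟩ := hk u hu
    exact show F.vec c _ = 0 by rw [vec_smul, h0, zero_smul]
  let N : V →+ (Fin 2 → A) := π.liftOfSurjective hπ ⟨F.vec c, hker⟩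
  have hN : ∀ u, N (π u) = F.vec c u := fun u => π.liftOfRightInverse_comp_apply _ _ _ u
  refine ⟨AddMonoidHom.mk' (fun f => ∑ i : A × Fin 2, i.1 • N (f i)) fun f g => ?_,
    fun w => ⟨Pi.single (w 0, 0) (π F.t) + Pi.single (w 1, 1) (π (Q.j2 F.t)), ?_⟩,
    fun σ s hs f => ?_⟩
  · simp only [Pi.add_apply, map_add, smul_add, Finset.sum_add_distrib]
  · rw [map_add]
    simp only [AddMonoidHom.mk'_apply]
    rw [Finset.sum_eq_single (w 0, 0)
        (fun b _ hb => by rw [Pi.single_eq_of_ne hb, map_zero, smul_zero]) (by simp),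
      Finset.sum_eq_single (w 1, 1)
        (fun b _ hb => by rw [Pi.single_eq_of_ne hb, map_zero, smul_zero]) (by simp)]
    simp only [Pi.single_eq_same, hN, vec_t, vec_j2t]
    ext i; fin_cases i <;> simp
  · simp only [AddMonoidHom.mk'_apply, Matrix.mulVec_sum]
    refine Finset.sum_congr rfl fun i _ => ?_
    obtain ⟨u, hu⟩ := hπ (f i)
    rw [← hu, ← hs, hN, hN, F.vec_act hb, mulVec_smul]

/-- modulo `√3` the representation normalises `J = !![0, α; 1, 0]` -/
theorem ρ0_mul_J (hs : c.s = 0) (σ : G) :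
    F.ρ0 hb c σ * !![0, c.φ α; 1, 0] = Q.χa σ • (!![0, c.φ α; 1, 0] * F.ρ0 hb c σ) := by
  rw [ρ0_apply]
  rcases Int.units_eq_one_or (Q.χa σ) with ha | ha <;> ext i j <;> fin_cases i <;> fin_cases j <;>
    simp [ha, hs, Um, C3.m, Matrix.mul_apply, Fin.sum_univ_two, mul_comm]

end Fr

/-- a matrix congruent to `1` whose order is a unit is `1` -/
theorem eq_one_of_pow {O : Type*} [CommRing O] [IsLocalRing O] {X : Matrix (Fin 2) (Fin 2) O} {m : ℕ}
    (hm : IsUnit (m : O)) (hX : X.map (IsLocalRing.residue O) = 1) (h : X ^ m = 1) : X = 1 := by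
  have h1 : (∑ i ∈ Finset.range m, X ^ i) * (X - 1) = 0 := by rw [geom_sum_mul, h, sub_self]
  have h2 : IsUnit (∑ i ∈ Finset.range m, X ^ i) := by
    rw [Matrix.isUnit_iff_isUnit_det, ← IsLocalRing.residue_ne_zero_iff_isUnit, RingHom.map_det,
      map_sum]
    simp only [map_pow, RingHom.mapMatrix_apply, hX, one_pow, Finset.sum_const, Finset.card_range]
    rw [← Nat.cast_smul_eq_nsmul (IsLocalRing.ResidueField O), det_smul, det_one, mul_one]
    exact pow_ne_zero _ (by simpa using (hm.map (IsLocalRing.residue O)).ne_zero)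
  exact sub_eq_zero.1 (h2.mul_right_eq_zero.1 h1)

end Crest.Agent.T15.Rho
end
end

-- ▼ part T15/RhoD_86

/-!
# Row 15, block F (helper86): the QM part `ker (j² - 3)` of a module with `j³ = 3 j`
-/

set_option autoImplicit false

noncomputable section

namespace Crest.Agent.T15.Rho

variable {G : Type*} [Group G]

/-- a nonzero QM module of rank `< 8` has rank `4` -/
theorem QM.finrank_eq {α : ℤ_[3]} [Fact (r3 α = 2)] {T : Type*} [AddCommGroup T] [Module ℤ_[3] T]
    [Module.Free ℤ_[3] T] [Module.Finite ℤ_[3] T] (Q : QM α G T)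
    (h8 : Module.finrank ℤ_[3] T < 8) : Module.finrank ℤ_[3] T = 4 := by
  obtain ⟨t, ht⟩ : ∃ t : T, t ≠ 0 := by
    by_contra h
    push Not at h
    exact Q.ne (LinearMap.ext fun u => by rw [h u, map_zero, map_zero])
  have hn : ∀ (h : H α) (u : T), Q.ι (star h) (Q.ι h u) = nr h • u := fun h u => by
    rw [← Module.End.mul_apply, ← map_mul, star_mul_self, map_smul, map_one]; rfl
  have hinj : Function.Injective (Q.orb t) := by
    rw [injective_iff_map_eq_zero]
    intro h hh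
    have := hn h t
    rw [← Q.orb_apply t h, hh, map_zero] at this
    exact eq_zero_of_nr ((smul_eq_zero.1 this.symm).resolve_right ht)
  have h4 : Module.finrank ℤ_[3] (H α) = 4 := QuaternionAlgebra.finrank_eq_four _ _ _
  have htor : ∀ u : T, ∃ a : ℤ_[3], a ≠ 0 ∧ a • u ∈ LinearMap.range (Q.orb t) := fun u => by
    by_contra hc
    push Not at hc
    have : Function.Injective ((Q.orb t).coprod (Q.orb u)) := by
      rw [injective_iff_map_eq_zero]
      rintro ⟨h, h'⟩ hh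
      rw [LinearMap.coprod_apply, Q.orb_apply u] at hh
      have h0 : h' = 0 := eq_zero_of_nr (by
        by_contra h1
        refine hc _ h1 ⟨-(star h' * h), ?_⟩
        rw [← hn, eq_neg_of_add_eq_zero_right hh, map_neg, map_neg, QM.orb_apply, QM.orb_apply,
          map_mul]; rfl)
      rw [h0, map_zero, LinearMap.zero_apply, add_zero] at hh
      exact Prod.ext (hinj (hh.trans (map_zero _).symm)) h0
    have := LinearMap.finrank_le_finrank_of_injective this
    rw [Module.finrank_prod, h4] at this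
    omega
  have h0 : Module.finrank ℤ_[3] (T ⧸ LinearMap.range (Q.orb t)) = 0 := by
    rw [Module.finrank_eq_zero_iff]
    intro x
    obtain ⟨u, rfl⟩ := Submodule.Quotient.mk_surjective _ x
    obtain ⟨a, ha, hu⟩ := htor u
    exact ⟨a, ha, by rw [← Submodule.Quotient.mk_smul, Submodule.Quotient.mk_eq_zero]; exact hu⟩
  rw [← Submodule.finrank_quotient_add_finrank (LinearMap.range (Q.orb t)), h0, zero_add,
    LinearMap.finrank_range_of_inj hinj, h4]

variable (G) (W : Type*) [AddCommGroup W] [Module ℤ_[3] W]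

/-- the full Tate module with `y² = -1`, `j³ = 3 j` -/
structure WQ where
  act : G →* Module.End ℤ_[3] W
  y : Module.End ℤ_[3] W
  j : Module.End ℤ_[3] W
  yy : ∀ u, y (y u) = -u
  jjj : ∀ u, j (j (j u)) = (3 : ℤ_[3]) • j u
  jy : ∀ u, j (y u) = -y (j u)
  j0 : j ≠ 0
  χ : G →* ℤˣ
  ay : ∀ σ u, act σ (y u) = χ σ • y (act σ u)
  aj : ∀ σ u, act σ (j u) = j (act σ u)
  cyc : G →* ℤ_[3]ˣ
  e : W →ₗ[ℤ_[3]] W →ₗ[ℤ_[3]] ℤ_[3]
  alt : ∀ u, e u u = 0
  nd : ∀ u, (∀ v, e u v = 0) → u = 0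
  he : ∀ σ u v, e (act σ u) (act σ v) = cyc σ * e u v
  ey : ∀ u v, e (y u) (y v) = e u v
  ej : ∀ u v, e (j u) v = e u (j v)

variable {G W}

namespace WQ

variable (R : WQ G W)

/-- the QM part -/
def T : Submodule ℤ_[3] W := LinearMap.ker (R.j * R.j - 3)

lemma mem_T {u : W} : u ∈ R.T ↔ R.j (R.j u) = (3 : ℤ_[3]) • u := by
  rw [T, LinearMap.mem_ker, LinearMap.sub_apply, sub_eq_zero, Module.End.mul_apply,
    Module.End.ofNat_apply, ← Nat.cast_smul_eq_nsmul ℤ_[3]]; rfl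

lemma j_mem (u : W) : R.j u ∈ R.T := R.mem_T.2 (R.jjj u)

lemma act_mem (σ : G) (u : W) (h : u ∈ R.T) : R.act σ u ∈ R.T := by
  rw [mem_T] at h ⊢; rw [← R.aj, ← R.aj, h, map_smul]

lemma y_mem (u : W) (h : u ∈ R.T) : R.y u ∈ R.T := by
  rw [mem_T] at h ⊢; rw [R.jy, map_neg, R.jy, neg_neg, h, map_smul]

variable [Module.IsTorsionFree ℤ_[3] W]

lemma mem_of_smul {a : ℤ_[3]} (ha : a ≠ 0) {u : W} (h : a • u ∈ R.T) : u ∈ R.T := by
  rw [mem_T] at h ⊢
  rw [map_smul, map_smul, smul_comm] at h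
  exact smul_right_injective W ha h

/-- the QM structure on `ker (j² - 3)` -/
def qm : QM (-1) G R.T where
  act :=
    { toFun σ := (R.act σ).restrict (R.act_mem σ)
      map_one' := by ext u; simp
      map_mul' σ τ := by ext u; simp }
  j2 := R.y.restrict R.y_mem
  j3 := R.j.restrict fun u _ => R.j_mem u
  h2 u := Subtype.ext (by simp [R.yy])
  h3 u := Subtype.ext (by simpa using R.mem_T.1 u.2)
  h23 u := Subtype.ext (by simp [R.jy])
  χa := R.χ
  χb := 1
  c2 σ u := Subtype.ext (by simp [R.ay, Units.smul_def])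
  c3 σ u := Subtype.ext (by simp [R.aj])
  cyc := R.cyc
  e := R.e.compl₁₂ R.T.subtype R.T.subtype
  alt u := R.alt u
  ne h := by
    refine R.j0 (LinearMap.ext fun u => ?_)
    have h1 : R.j (R.j u) = 0 := R.nd _ fun v => by
      rw [R.ej]
      exact LinearMap.congr_fun₂ h ⟨_, R.j_mem u⟩ ⟨_, R.j_mem v⟩
    have h2 := R.jjj u
    rw [h1, map_zero] at h2
    exact (smul_eq_zero.1 h2.symm).resolve_left three_ne
  he σ u v := R.he σ u v
  η := -1
  ad2 u v := by
    have := R.ey u (R.y v)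
    rw [R.yy, map_neg] at this
    simpa [neg_eq_iff_eq_neg] using this
  ad3 u v := R.ej u v

@[simp] lemma qm_act (σ : G) (u : R.T) : (R.qm.act σ u : W) = R.act σ u := rfl
@[simp] lemma qm_j2 (u : R.T) : (R.qm.j2 u : W) = R.y u := rfl
@[simp] lemma qm_j3 (u : R.T) : (R.qm.j3 u : W) = R.j u := rfl
lemma qm_χb (σ : G) : R.qm.χb σ = 1 := rfl

theorem exists_fr [Module.Finite ℤ_[3] W] (h8 : Module.finrank ℤ_[3] W < 8) : Nonempty (Fr R.qm) := by
  obtain ⟨F, -⟩ := Rho.exists_fr R.qm R.qm_χb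
    (R.qm.finrank_eq ((Submodule.finrank_le _).trans_lt h8))
  exact ⟨F⟩

/-- the quadratic relation on `j W` -/
theorem quad (F : Fr R.qm) (σ : G) (u : W) :
    R.j (R.act σ (R.act σ u) + (R.cyc σ : ℤ_[3]) • u -
      F.cc σ • (if R.χ σ = 1 then R.act σ u else R.j (R.act σ u))) = 0 := by
  have := congrArg Subtype.val (F.quad0 R.qm_χb σ ⟨_, R.j_mem u⟩)
  rw [map_sub, sub_eq_zero, map_add, map_smul, map_smul, ← R.aj σ (R.act σ u), ← R.aj σ u]
  by_cases h : R.χ σ = 1
  · rw [if_pos (show R.qm.χa σ = 1 from h)] at this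
    rw [if_pos h, ← R.aj σ u]; exact this
  · rw [if_neg (show ¬ R.qm.χa σ = 1 from h)] at this
    rw [if_neg h]; exact this

end WQ

end Crest.Agent.T15.Rho
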