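import Crest.Agent.T15.Rk1_31
import Crest.Agent.T15.RhoD_86
import Crest.Agent.T15.Jc_16_Mg
import Crest.Agent.T15.FaS_49
import Crest.Agent.T15.FDef_67

-- ▼ part T15/Jy_16
section

/-!
# Row 15, block F (helper16): the correspondence `j = push ∘ r ∘ con` on `Pic` and on the Tate module

`Y ⊆ K` is a quadratic Galois extension of function fields with group `{1, g}`, `r` an automorphism
of `K` with `g r g = r⁻¹` whose sixth power induces `-1` on `Pic⁰ Y`.
-/

set_option autoImplicit false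
set_option linter.all false

noncomputable section

namespace Crest.Agent.T15.Jy

open Module
open Crest.Agent.R013.PicD_398 Crest.Agent.R013.Frob1_914 Crest.Agent.R013.TP_928
open Crest.Agent.T15.Wp Crest.Agent.T15.Rk

variable {k : Type*} [Field k] [IsAlgClosed k] {Y : Type*} [Field Y] [Algebra k Y]
  [Algebra (RatFunc k) Y] [IsScalarTower k (RatFunc k) Y] [FiniteDimensional (RatFunc k) Y]
  [Algebra.IsSeparable (RatFunc k) Y]
  {K : Type*} [Field K] [Algebra k K] [Algebra Y K] [IsScalarTower k Y K]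
  [FiniteDimensional Y K] [Algebra.IsSeparable Y K]
  [Algebra (RatFunc k) K] [IsScalarTower k (RatFunc k) K] [FiniteDimensional (RatFunc k) K]
  [Algebra.IsSeparable (RatFunc k) K]

variable (Y) in
/-- the correspondence attached to an automorphism of `K` -/
def J (r : SI k K k K) : Pic k Y →+ Pic k Y :=
  (pushP Y).comp (r.pic.toAddMonoidHom.comp (conP K))

theorem J_apply (r : SI k K k K) (a : Pic k Y) : J Y r a = pushP Y (r.pic (conP K a)) := rfl



/-- an isomorphism that extends to `K` and commutes with `r` commutes with `J` -/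
theorem comm_J (r : SI k K k K) {e : SI k Y k Y} {e' : SI k K k K}
    (h : ∀ f, e'.f (algebraMap Y K f) = algebraMap Y K (e.f f))
    (hr : ∀ f, e'.f (r.f f) = r.f (e'.f f)) (a : Pic k Y) : e.pic (J Y r a) = J Y r (e.pic a) := by
  rw [J_apply, J_apply, ← pushP_SI h, conP_SI h, ← pic_comp (e := r.trans e') (fun _ => rfl),
    ← pic_comp (e := r.trans e') (fun f => hr f)]

theorem pic_symm (r : SI k K k K) (y : Pic k K) : r.symm.pic (r.pic y) = y :=
  (pic_comp (e := SI.refl k K) (e₁ := r.symm) (e₂ := r)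
    (fun f => (r.f.symm_apply_apply f).symm) y).symm.trans (pic_refl y)

theorem pic_symm' (r : SI k K k K) (y : Pic k K) : r.pic (r.symm.pic y) = y := pic_symm r.symm y

variable (Y) in
/-- the data: `Gal(K/Y) = {1, g}`, `g r g = r⁻¹` -/
structure Dat (r : SI k K k K) (g : K ≃ₐ[Y] K) : Prop where
  gal : IsGalois Y K
  two : finrank Y K = 2
  g1 : g ≠ 1
  grg : ∀ f, r.f (g (r.f (g f))) = f

namespace Dat

variable {r : SI k K k K} {g : K ≃ₐ[Y] K} (H : Dat Y r g)
include H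

theorem gg (f : K) : g (g f) = f := by
  haveI := H.gal
  have h : g ^ 2 = 1 := by
    rw [← H.two, ← IsGalois.card_aut_eq_finrank]; exact pow_card_eq_one'
  exact congrArg (fun s : K ≃ₐ[Y] K => s f) ((sq g).symm.trans h)

theorem g_r (y : Pic k K) : (siOf k g).pic (r.pic y) = r.symm.pic ((siOf k g).pic y) := by
  rw [← pic_comp (e := r.trans (siOf k g)) (fun _ => rfl)]
  refine pic_comp (fun f => ?_) y
  show g (r.f f) = r.f.symm (g f)
  rw [RingEquiv.eq_symm_apply]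
  have := H.grg (g f)
  rwa [H.gg] at this

theorem con_J (a : Pic k Y) :
    conP K (J Y r a) = r.pic (conP K a) + r.symm.pic (conP K a) := by
  haveI := H.gal
  rw [J_apply, conP_pushP_two H.two H.g1, H.g_r, siOf_conP]

theorem push_r (y : Pic k K) (hy : (siOf k g).pic y = y) :
    pushP Y (r.symm.pic y) = pushP Y (r.pic y) := by
  rw [← pushP_siOf g (r.pic y), H.g_r, hy]

theorem J_symm (a : Pic k Y) : J Y r.symm a = J Y r a := H.push_r _ (siOf_conP g a)

theorem push_con (a : Pic k Y) : pushP Y (conP K a) = 2 • a := by rw [pushP_conP, H.two]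

/-- `J a = 0` forces `r² = -1` on the conorm -/
theorem rr_of_J {a : Pic k Y} (h : J Y r a = 0) :
    r.pic (r.pic (conP K a)) = -conP K a := by
  have h1 := congrArg r.pic (H.con_J a)
  rw [h, map_zero, map_zero, map_add, pic_symm'] at h1
  exact eq_neg_of_add_eq_zero_left h1.symm

end Dat

/-- `r⁶ = -1` on the conorm of `Pic⁰ Y` -/
def Six (Y : Type*) [Field Y] [Algebra k Y] [Algebra (RatFunc k) Y] [IsScalarTower k (RatFunc k) Y]
    [FiniteDimensional (RatFunc k) Y] [Algebra.IsSeparable (RatFunc k) Y] [Algebra Y K]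
    [IsScalarTower k Y K] [FiniteDimensional Y K] [Algebra.IsSeparable Y K] (r : SI k K k K) : Prop :=
  ∀ a : Pic k Y, degPic a = 0 →
    r.pic (r.pic (r.pic (r.pic (r.pic (r.pic (conP K a)))))) = -conP K a

theorem six_of {r : SI k K k K} {ι : SI k Y k Y}
    (h : ∀ f, r.f (r.f (r.f (r.f (r.f (r.f (algebraMap Y K f)))))) = algebraMap Y K (ι.f f))
    (hι : ∀ a : Pic k Y, degPic a = 0 → ι.pic a = -a) : Six Y r := fun a ha => by
  have h1 := conP_SI (e := ι) (e' := r.trans (r.trans (r.trans (r.trans (r.trans r))))) h a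
  rw [hι a ha, map_neg] at h1
  simp only [SI.pic_trans] at h1
  exact h1.symm

namespace Dat

variable {r : SI k K k K} {g : K ≃ₐ[Y] K} (H : Dat Y r g) (h6 : Six Y r)
include H h6

theorem two_JJJ {a : Pic k Y} (ha : degPic a = 0) :
    2 • (J Y r (J Y r (J Y r a)) - 3 • J Y r a) = 0 := by
  set c := conP K a with hc
  have e1 : J Y r (J Y r (J Y r a)) = pushP Y (r.pic (r.pic (r.pic c))) + 3 • J Y r a := by
    rw [J_apply r (J Y r (J Y r a)), H.con_J, H.con_J]
    simp only [map_add, pic_symm, pic_symm']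
    rw [← hc, H.push_r c (siOf_conP g a), J_apply, ← hc]
    abel
  have e2 : (siOf k g).pic (r.pic (r.pic (r.pic c))) = -r.pic (r.pic (r.pic c)) := by
    rw [H.g_r, H.g_r, H.g_r, siOf_conP, ← hc]
    have := congrArg (fun y => r.symm.pic (r.symm.pic (r.symm.pic y))) (h6 a ha)
    simp only [pic_symm, map_neg] at this
    rw [← hc] at this
    rw [this, neg_neg]
  have e3 := pushP_siOf g (r.pic (r.pic (r.pic c)))
  rw [e2, map_neg] at e3
  rw [e1, add_sub_cancel_right, two_nsmul]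
  exact add_eq_zero_iff_eq_neg.2 e3.symm

/-- **`J³ = 3 J` on `Pic⁰`** -/
theorem JJJ [CharZero k] {a : Pic k Y} (ha : degPic a = 0) :
    J Y r (J Y r (J Y r a)) = 3 • J Y r a := by
  obtain ⟨b, hb⟩ := (divH k two_ne_zero).pic0 (K := Y) two_ne_zero ⟨a, ha⟩
  have hb' : 2 • (b : Pic k Y) = a := congrArg Subtype.val hb
  have h := H.two_JJJ h6 (a := b) b.2
  rw [← hb', map_nsmul, map_nsmul, map_nsmul, smul_comm, ← sub_eq_zero, ← nsmul_sub]
  exact h

/-- **`y J = - J y` on `Pic⁰`** -/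
theorem anti_J {y : SI k Y k Y} {y' : SI k K k K}
    (h : ∀ f, y'.f (algebraMap Y K f) = algebraMap Y K (y.f f))
    (hr : ∀ f, y'.f (r.f f) = r.f (r.f (r.f (r.f (r.f (y'.f f)))))) {a : Pic k Y}
    (ha : degPic a = 0) : J Y r (y.pic a) = -y.pic (J Y r a) := by
  have hy : degPic (y.pic a) = 0 := by rw [SI.degPic_pic, ha]
  have e1 : y'.pic (r.pic (conP K a)) = -r.symm.pic (conP K (y.pic a)) := by
    rw [← pic_comp (e := r.trans y') (fun _ => rfl),
      pic_ext (e' := y'.trans (r.trans (r.trans (r.trans (r.trans r))))) hr]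
    simp only [SI.pic_trans]
    rw [← conP_SI h, ← map_neg, ← h6 _ hy, pic_symm]
  rw [J_apply r a, ← pushP_SI h, e1, map_neg, neg_neg, ← J_apply, H.J_symm]

end Dat

/-! ## Tate modules -/

section tate

variable {p : ℕ} [hp : Fact p.Prime]

variable (p) in
/-- action of a semilinear automorphism on the Tate module -/
abbrev tm (e : SI k Y k Y) : Module.End ℤ_[p] (Tate p (Pic k Y)) :=
  Tate.map (e.pic : Pic k Y →+ Pic k Y)

theorem deg_tate (u : Tate p (Pic k Y)) (n : ℕ) : degPic (u n) = 0 :=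
  degPic_eq_zero (ppow_ne n) (u.pow_smul_apply n)

variable [NeZero (p : k)]

theorem tf_tm (e : SI k Y k Y) (he : e.s = RingEquiv.refl k) (u v : Tate p (Pic k Y)) :
    tf p (tm p e u) (tm p e v) = tf p u v := by
  rw [tf_SI, he, cyc_refl, one_mul]

/-- **`J` is self-adjoint** -/
theorem Dat.tf_J {r : SI k K k K} {g : K ≃ₐ[Y] K} (H : Dat Y r g) (hs : r.s = RingEquiv.refl k)
    (u v : Tate p (Pic k Y)) :
    tf p (Tate.map (J Y r) u) v = tf p u (Tate.map (J Y r) v) := by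
  have e1 : Tate.map (J Y r) u = Tate.map (pushP Y) (tm p r (Tate.map (conP K) u)) := rfl
  have e2 : Tate.map (J Y r) v = Tate.map (pushP Y) (tm p r.symm (Tate.map (conP K) v)) :=
    Tate.ext fun n => (H.J_symm (v n)).symm
  have e3 : Tate.map (conP K) v = tm p r (tm p r.symm (Tate.map (conP K) v)) :=
    Tate.ext fun n => (pic_symm' r _).symm
  rw [e1, e2, ← tf_con_right, ← tf_con_left]
  conv_lhs => rw [e3]
  exact tf_tm r hs _ _

end tate

/-! ## `J ≠ 0` -/

section ne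

variable {E : Type*} [Field E] [Algebra k E] [Algebra (RatFunc k) E] [IsScalarTower k (RatFunc k) E]
  [FiniteDimensional (RatFunc k) E] [Algebra.IsSeparable (RatFunc k) E]
  [Algebra E Y] [IsScalarTower k E Y] [FiniteDimensional E Y] [Algebra.IsSeparable E Y]

/-- on `ker J` the norm to the subfield `E` fixed by `g` and `r⁴` is injective up to `12` -/
theorem Dat.twelve {r : SI k K k K} {g : K ≃ₐ[Y] K} (H : Dat Y r g) (h3 : finrank E Y ≤ 3)
    (hE : ∀ f : E, r.f (r.f (r.f (r.f (algebraMap Y K (algebraMap E Y f))))) =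
      algebraMap Y K (algebraMap E Y f))
    (h4 : ∃ f, r.f (r.f (r.f (r.f f))) ≠ f)
    (h12 : ∀ f, r.f (r.f (r.f (r.f (r.f (r.f (r.f (r.f (r.f (r.f (r.f (r.f f))))))))))) = f)
    {a : Pic k Y} (ha : J Y r a = 0) (hp : pushP E a = 0) : 12 • a = 0 := by
  classical
  letI : Algebra E K := ((algebraMap Y K).comp (algebraMap E Y)).toAlgebra
  haveI : IsScalarTower E Y K := IsScalarTower.of_algebraMap_eq fun _ => rfl
  haveI : IsScalarTower k E K := IsScalarTower.of_algebraMap_eq fun c => by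
    rw [IsScalarTower.algebraMap_apply k Y K, IsScalarTower.algebraMap_apply k E Y]; rfl
  haveI : FiniteDimensional E K := Module.Finite.trans Y K
  haveI : Algebra.IsSeparable E K := Algebra.IsSeparable.trans E Y K
  let x : K ≃ₐ[E] K := AlgEquiv.ofRingEquiv (f := r.f.trans (r.f.trans (r.f.trans r.f))) hE
  let g' : K ≃ₐ[E] K := g.restrictScalars E
  have hx3 : orderOf x = 3 := by
    haveI : Fact (Nat.Prime 3) := ⟨Nat.prime_three⟩
    refine orderOf_eq_prime (AlgEquiv.ext fun f => h12 f) fun h => ?_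
    obtain ⟨f, hf⟩ := h4
    exact hf (congrArg (fun s : K ≃ₐ[E] K => s f) h)
  have hg2 : orderOf g' = 2 :=
    orderOf_eq_prime (AlgEquiv.ext fun f => H.gg f) fun h =>
      H.g1 (AlgEquiv.ext fun f => congrArg (fun s : K ≃ₐ[E] K => s f) h)
  have hle : finrank E K ≤ 6 := by
    rw [← finrank_mul_finrank E Y K, H.two]; omega
  let S : Subgroup (K ≃ₐ[E] K) :=
    { carrier := {s | (siOf k s).pic (conP K a) = conP K a}
      one_mem' := siOf_one _
      mul_mem' := fun {s t} hs ht => by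
        show (siOf k (s * t)).pic _ = _
        rw [siOf_mul, ht, hs]
      inv_mem' := fun {s} hs => by
        show (siOf k s⁻¹).pic _ = _
        conv_lhs => rw [← show (siOf k s).pic (conP K a) = conP K a from hs]
        rw [← siOf_mul, inv_mul_cancel, siOf_one] }
  have hxS : x ∈ S := by
    show (siOf k x).pic _ = _
    rw [pic_ext (e := siOf k x) (e' := r.trans (r.trans (r.trans r))) (fun _ => rfl)]
    simp only [SI.pic_trans]
    rw [H.rr_of_J ha, map_neg, map_neg, H.rr_of_J ha, neg_neg]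
  have hgS : g' ∈ S := by
    show (siOf k g').pic _ = _
    rw [pic_ext (e := siOf k g') (e' := siOf k g) (fun _ => rfl), siOf_conP]
  have h6 : 6 ∣ Nat.card S :=
    Nat.Coprime.mul_dvd_of_dvd_of_dvd (m := 2) (n := 3) (by norm_num)
      (hg2 ▸ S.orderOf_dvd_natCard hgS) (hx3 ▸ S.orderOf_dvd_natCard hxS)
  have c1 : Nat.card S ≤ Nat.card (K ≃ₐ[E] K) := S.card_le_card_group
  have c2 : Nat.card (K ≃ₐ[E] K) ≤ finrank E K := by
    rw [Nat.card_eq_fintype_card]; exact AlgEquiv.card_le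
  have c3 : 6 ≤ Nat.card S := Nat.le_of_dvd Nat.card_pos h6
  haveI : IsGalois E K := IsGalois.of_card_aut_eq_finrank E K (by omega)
  have hS : S = ⊤ := S.eq_top_of_le_card (by omega)
  have h7 := conP_pushP_of_inv (K := E) (y := conP K a) fun s => (hS ▸ Subgroup.mem_top s : s ∈ S)
  rw [← pushP_pushP (L := Y), H.push_con, map_nsmul, hp, nsmul_zero, map_zero,
    show finrank E K = 6 by omega] at h7
  have h8 := congrArg (pushP Y) h7
  rw [map_zero, map_nsmul, H.push_con, ← mul_nsmul'] at h8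
  exact h8.symm

variable {p : ℕ} [hp : Fact p.Prime]

/-- the rank of `ker J` is at most the rank of the Tate module of `E` -/
theorem Dat.finrank_ker_le {r : SI k K k K} {g : K ≃ₐ[Y] K} (H : Dat Y r g) (h3 : finrank E Y ≤ 3)
    (hE : ∀ f : E, r.f (r.f (r.f (r.f (algebraMap Y K (algebraMap E Y f))))) =
      algebraMap Y K (algebraMap E Y f))
    (h4 : ∃ f, r.f (r.f (r.f (r.f f))) ≠ f)
    (h12 : ∀ f, r.f (r.f (r.f (r.f (r.f (r.f (r.f (r.f (r.f (r.f (r.f (r.f f))))))))))) = f)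
    [Module.Finite ℤ_[p] (Tate p (Pic k E))] :
    finrank ℤ_[p] (LinearMap.ker (Tate.map (p := p) (J Y r))) ≤ finrank ℤ_[p] (Tate p (Pic k E)) := by
  refine LinearMap.finrank_le_finrank_of_injective
    (f := (Tate.map (pushP E)).comp (Submodule.subtype _)) ?_
  rw [injective_iff_map_eq_zero]
  intro u hu
  have h : (12 : ℕ) • (u : Tate p (Pic k Y)) = 0 := Tate.ext fun n => by
    rw [Tate.nsmul_apply]
    exact H.twelve h3 hE h4 h12 (congrArg (fun v : Tate p (Pic k Y) => v n) u.2)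
      (congrArg (fun v : Tate p (Pic k E) => v n) hu)
  rw [← Nat.cast_smul_eq_nsmul ℤ_[p], smul_eq_zero] at h
  exact Subtype.ext (h.resolve_left (by norm_num))


end ne

/-! ## the package `WQ` -/

section wq

variable [CharZero k]

instance : Fact (Nat.Prime 3) := ⟨Nat.prime_three⟩

/-- the hypotheses of `Rho.WQ` for the Tate module of `Y` -/
def wq {G : Type*} [Group G] (s : G →* (k ≃+* k)) (e : G → SI k Y k Y) (hs : ∀ σ, (e σ).s = s σ)
    (e1 : ∀ f, (e 1).f f = f) (em : ∀ σ τ f, (e (σ * τ)).f f = (e σ).f ((e τ).f f))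
    (j : Pic k Y →+ Pic k Y) (y : SI k Y k Y) (ys : y.s = RingEquiv.refl k) (χ : G →* ℤˣ)
    (yy : ∀ a, degPic a = 0 → y.pic (y.pic a) = -a)
    (jjj : ∀ a, degPic a = 0 → j (j (j a)) = 3 • j a)
    (jy : ∀ a, degPic a = 0 → j (y.pic a) = -y.pic (j a))
    (j0 : Tate.map (p := 3) j ≠ 0)
    (ay : ∀ σ a, degPic a = 0 → (e σ).pic (y.pic a) = χ σ • y.pic ((e σ).pic a))
    (aj : ∀ σ a, (e σ).pic (j a) = j ((e σ).pic a))
    (ej : ∀ u v : Tate 3 (Pic k Y), tf 3 (Tate.map j u) v = tf 3 u (Tate.map j v)) :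
    Rho.WQ G (Tate 3 (Pic k Y)) where
  act :=
    { toFun σ := tm 3 (e σ)
      map_one' := LinearMap.ext fun u => Tate.ext fun n => pic_of_id e1 (u n)
      map_mul' σ τ := LinearMap.ext fun u => Tate.ext fun n => pic_comp (em σ τ) (u n) }
  y := tm 3 y
  j := Tate.map j
  yy u := Tate.ext fun n => yy _ (deg_tate u n)
  jjj u := Tate.ext fun n => by
    rw [show (3 : ℤ_[3]) = ((3 : ℕ) : ℤ_[3]) by norm_num, Tate.natCast_smul_apply]
    exact jjj _ (deg_tate u n)
  jy u := Tate.ext fun n => jy _ (deg_tate u n)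
  j0 := j0
  χ := χ
  ay σ u := Tate.ext fun n => by
    have := ay σ _ (deg_tate u n)
    rcases Int.units_eq_one_or (χ σ) with h | h <;> rw [h] at this ⊢
    · rw [one_smul] at this ⊢; exact this
    · rw [Units.neg_smul, one_smul] at this ⊢; exact this
  aj σ u := Tate.ext fun n => aj σ (u n)
  cyc := (cyclotomicCharacter k 3).comp s
  e := tf 3
  alt := tf_self
  nd u h := eq_zero_of_tf h
  he σ u v := by
    have := tf_SI (p := 3) (e σ) u v
    rw [hs] at this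
    exact this
  ey := tf_tm y ys
  ej := ej

end wq

end Crest.Agent.T15.Jy
end
end

-- ▼ part T15/Jm_16

/-!
# Row 15, block F (helper16): the algebra of `j` and `y` for `Ht.Mdl`
-/

set_option autoImplicit false
set_option linter.all false

noncomputable section

namespace Crest.Agent.T15.Jm

open Module
open Crest.Agent.R013.PicD_398 Crest.Agent.R013.Frob1_914 Crest.Agent.R013.TP_928
open Crest.Agent.T15.Wp Crest.Agent.T15.Rk Crest.Agent.T15.Jy
open Crest.Agent.T15.Ht (Mdl)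
open Crest.Agent.T15.C (Om Gam)

section iso

variable {C Y : Type*} [Field C] [Field Y] [Algebra C Y]

/-- the parameters without `al`, `be` -/
def kf (P : Mo.Par C) (h2 : (2 : C) ≠ 0) : Kf.Par C :=
  ⟨P.p1, P.p2, P.p3, P.t, P.sum, h2, P.h1, P.h2, P.h3, P.k1, P.k2, P.k3, P.ht⟩

theorem eqs_uniq {P : Mo.Par Y} {A B2 u A' B2' u' : Y} (h : Mo.Eqs P A B2 u)
    (h' : Mo.Eqs P A' B2' u') (hb : P.z A B2 u ^ 2 - P.b ≠ 0) (hz : P.z A B2 u = P.z A' B2' u')
    (hw : P.w A B2 u = P.w A' B2' u') : A = A' ∧ B2 = B2' ∧ u = u' := by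
  have hu : u = u' := by rw [h.u_eq, h'.u_eq, hz]
  refine ⟨by rw [h.A_eq hb, h'.A_eq (hz ▸ hb), hz, hw], ?_, hu⟩
  rw [h.B_eq, h'.B_eq, h.V_eq, h.R_eq, h'.V_eq, h'.R_eq, h.V'_eq, h.R'_eq, h'.V'_eq, h'.R'_eq, hz,
    hu]

/-- two systems of generators differ by an automorphism -/
theorem exists_iso {P : Mo.Par C} {A B2 u A' B2' u' : Y} (h : Mo.IsY P A B2 u)
    (h' : Mo.IsY P A' B2' u') : ∃ e : SI C Y C Y, e.s = RingEquiv.refl C ∧ e.f A = A' ∧
      e.f B2 = B2' ∧ e.f u = u' := by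
  obtain ⟨e, h1, h2, h3⟩ := Fa.exists_SI h.hyp h'.hyp (RingEquiv.refl C) (by simp)
  have hc : ∀ c, e.f (algebraMap C Y c) = algebraMap C Y c := fun c => by rw [e.comm, h1]; rfl
  have hP : (P.up Y).map (e.f : Y →+* Y) = P.up Y := by
    simp only [Mo.Par.up, Mo.Par.map, RingHom.coe_coe, hc]
  have hz := Mo.map_z (e.f : Y →+* Y) (P.up Y) A B2 u
  have hw := Mo.map_w (e.f : Y →+* Y) (P.up Y) A B2 u
  rw [hP] at hz hw
  have hE : Mo.Eqs (P.up Y) (e.f A) (e.f B2) (e.f u) := by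
    refine ⟨h.eqs.two, ?_, ?_, ?_, ?_⟩
    · simpa [hc, map_ofNat] using congrArg e.f h.eqs.k0
    · simpa [hc, map_ofNat, Mo.Par.Xc, Mo.Par.V] using congrArg e.f h.eqs.cub
    · simpa [hc] using (map_ne_zero e.f).2 h.eqs.n3
    · simpa [hc] using (map_ne_zero e.f).2 h.eqs.n2
  obtain ⟨a, b, c⟩ := eqs_uniq h'.eqs hE h'.b_ne (h2.symm.trans hz) (h3.symm.trans hw)
  exact ⟨e, h1, a.symm, b.symm, c.symm⟩

theorem isY_i {P : Mo.Par C} {A B2 u : Y} (h : Mo.IsY P A B2 u) {i : C} (hi : i ^ 2 = -1) :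
    Mo.IsY P (algebraMap C Y i * A) (-B2) u := by
  have hY : algebraMap C Y i ^ 2 = -1 := by rw [← map_pow, hi, map_neg, map_one]
  refine ⟨h.two, ?_, ?_, h.tr, ?_⟩
  · rw [← h.k0, mul_pow, hY]; ring
  · rw [← h.cub]; simp only [Mo.Par.Xc, Mo.Par.V, mul_pow, hY]; ring
  · rw [eq_top_iff, ← h.gen, IntermediateField.adjoin_le_iff]
    rintro x (rfl | rfl | rfl)
    · have : x = algebraMap C Y (-i) * (algebraMap C Y i * x) := by
        rw [map_neg]; linear_combination x * hY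
      rw [SetLike.mem_coe, this]
      conv => enter [1]; rw [← this]
      exact mul_mem (IntermediateField.algebraMap_mem _ _)
        (IntermediateField.subset_adjoin _ _ (by simp))
    · exact neg_mem_iff.1 (IntermediateField.subset_adjoin _ _ (by simp))
    · exact IntermediateField.subset_adjoin _ _ (by simp)

end iso

variable {C : Type} [Field C] [IsAlgClosed C] [CharZero C] {P : Mo.Par C} (M : Mdl P)

theorem moY : Mo.IsY P M.A M.B2 M.u := ⟨two_ne_zero, M.eqs.k0, M.eqs.cub, M.tr, M.gen⟩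

theorem kfY : Kf.IsY (kf P two_ne_zero) M.A M.B2 M.u := ⟨M.eqs.k0, M.eqs.cub, M.tr, M.gen⟩

theorem md : Md (kf P two_ne_zero) M.A M.B2 M.u M.B M.r :=
  ⟨kfY M, M.hB, M.genK, M.nB, M.rA, M.rB, M.ru⟩


theorem exists_dat : ∃ g : M.K ≃ₐ[M.Y] M.K, g M.B = -M.B ∧ Dat M.Y M.rS g := by
  obtain ⟨g, h1, h2⟩ := (md M).exists_g
  exact ⟨g, h1, (md M).gal, (md M).two, h2, (md M).grg h1⟩

/-- the automorphism `y` -/
theorem exists_y {i : C} (hi : i ^ 2 = -1) : ∃ y : SI C M.Y C M.Y, y.s = RingEquiv.refl C ∧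
    y.f M.A = algebraMap C M.Y i * M.A ∧ y.f M.B2 = -M.B2 ∧ y.f M.u = M.u :=
  exists_iso (moY M) (isY_i (moY M) hi)

/-- `y` is of the type `A ↦ i A`, `B2 ↦ -B2`, `u ↦ u` -/
structure IsYy (i : C) (y : SI C M.Y C M.Y) : Prop where
  hi : i ^ 2 = -1
  s : y.s = RingEquiv.refl C
  hA : y.f M.A = algebraMap C M.Y i * M.A
  hB : y.f M.B2 = -M.B2
  hu : y.f M.u = M.u

theorem exists_isYy {i : C} (hi : i ^ 2 = -1) : ∃ y, IsYy M i y := by
  obtain ⟨y, a, b, c, d⟩ := exists_y M hi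
  exact ⟨y, hi, a, b, c, d⟩

variable {M}

theorem IsYy.comm {i : C} {y : SI C M.Y C M.Y} (h : IsYy M i y) (c : C) :
    y.f (algebraMap C M.Y c) = algebraMap C M.Y c := by rw [y.comm, h.s]; rfl

theorem IsYy.yyA {i : C} {y : SI C M.Y C M.Y} (h : IsYy M i y) : y.f (y.f M.A) = -M.A := by
  rw [h.hA, map_mul, h.comm, h.hA, ← mul_assoc, ← map_mul, ← sq, h.hi, map_neg, map_one,
    neg_one_mul]

/-- `y² = -1` on `Pic⁰` -/
theorem IsYy.yy {i : C} {y : SI C M.Y C M.Y} (h : IsYy M i y) {a : Pic C M.Y} (ha : degPic a = 0) :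
    y.pic (y.pic a) = -a := by
  rw [← SI.pic_trans]
  exact KfJ.pic_negY (kfY M) (y.trans y) (fun c => by
      show y.f (y.f _) = _
      rw [h.comm, h.comm]) h.yyA
    (by show y.f (y.f _) = _; rw [h.hB, map_neg, h.hB, neg_neg])
    (by show y.f (y.f _) = _; rw [h.hu, h.hu]) ha

variable (M) in
theorem six : Six M.Y M.rS := by
  obtain ⟨i, hi⟩ := IsAlgClosed.exists_pow_nat_eq (-1 : C) two_pos
  obtain ⟨y, h⟩ := exists_isYy M hi
  refine six_of (ι := y.trans y) ((md M).r6 (ι := ((y.trans y).f : M.Y →+* M.Y)) (fun c => ?_)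
    h.yyA ?_ ?_) fun a ha => by rw [SI.pic_trans, h.yy ha]
  · show y.f (y.f _) = _
    rw [h.comm, h.comm]
  · show y.f (y.f _) = _
    rw [h.hB, map_neg, h.hB, neg_neg]
  · show y.f (y.f _) = _
    rw [h.hu, h.hu]


variable (M) in
/-- **`j³ = 3 j` on `Pic⁰`** -/
theorem jjj {a : Pic C M.Y} (ha : degPic a = 0) : M.j (M.j (M.j a)) = 3 • M.j a := by
  obtain ⟨g, -, H⟩ := exists_dat M
  exact H.JJJ (six M) ha

/-- **`j y = - y j` on `Pic⁰`** -/
theorem IsYy.jy {i : C} {y : SI C M.Y C M.Y} (h : IsYy M i y) {a : Pic C M.Y} (ha : degPic a = 0) :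
    M.j (y.pic a) = -y.pic (M.j a) := by
  obtain ⟨g, -, H⟩ := exists_dat M
  obtain ⟨ψ, h1, -, h2⟩ := (md M).ext_y y.f h.comm h.hi h.hA h.hB h.hu
  exact H.anti_J (six M) (y' := ⟨RingEquiv.refl C, ψ, fun c => by
    rw [IsScalarTower.algebraMap_apply C M.Y M.K, h1, h.comm]
    exact (IsScalarTower.algebraMap_apply C M.Y M.K c).symm⟩) h1 h2 ha

/-- an `e` with `Fx e` extends to `K` and commutes with `r` -/
theorem exists_extK {e : SI C M.Y C M.Y} (h : M.Fx e) : ∃ e' : SI C M.K C M.K, e'.s = e.s ∧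
    (∀ f, e'.f (algebraMap M.Y M.K f) = algebraMap M.Y M.K (e.f f)) ∧ e'.f M.B = M.B ∧
    ∀ f, e'.f (M.r f) = M.r (e'.f f) := by
  obtain ⟨a, b, c, d, f, g⟩ := h
  obtain ⟨ψ, h1, h2, h3⟩ := (md M).ext_fix e.f e.s e.comm d f g a b c
  exact ⟨⟨e.s, ψ, fun c => by
    rw [IsScalarTower.algebraMap_apply C M.Y M.K, h1, e.comm,
      ← IsScalarTower.algebraMap_apply]⟩, rfl, h1, h2, h3⟩

/-- **the Galois action commutes with `j`** -/
theorem fx_j {e : SI C M.Y C M.Y} (h : M.Fx e) (a : Pic C M.Y) :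
    e.pic (M.j a) = M.j (e.pic a) := by
  obtain ⟨e', -, h1, -, h2⟩ := exists_extK h
  exact comm_J M.rS h1 h2 a

theorem fx_ext {e e' : SI C M.Y C M.Y} (h : M.Fx e) (h' : M.Fx e') (hs : ∀ c, e.s c = e'.s c)
    (f : M.Y) : e.f f = e'.f f :=
  (md M).extY (φ := (e.f : M.Y →+* M.Y)) (ψ := (e'.f : M.Y →+* M.Y))
    (fun c => by show e.f _ = e'.f _; rw [e.comm, e'.comm, hs]) (h.1.trans h'.1.symm)
    (h.2.1.trans h'.2.1.symm) (h.2.2.1.trans h'.2.2.1.symm) f

theorem IsYy.fx_of_eq {i : C} {y e : SI C M.Y C M.Y} (h : IsYy M i y) (he : M.Fx e)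
    (hi : e.s i = i) (a : Pic C M.Y) : e.pic (y.pic a) = y.pic (e.pic a) := by
  rw [← SI.pic_trans, ← SI.pic_trans]
  refine pic_ext ((md M).extY (φ := ((y.trans e).f : M.Y →+* M.Y))
    (ψ := ((e.trans y).f : M.Y →+* M.Y)) (fun c => ?_) ?_ ?_ ?_) a
  · show e.f (y.f _) = y.f (e.f _)
    rw [h.comm, e.comm, h.comm]
  · show e.f (y.f _) = y.f (e.f _)
    rw [he.1, h.hA, map_mul, e.comm, hi, he.1]
  · show e.f (y.f _) = y.f (e.f _)
    rw [he.2.1, h.hB, map_neg, he.2.1]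
  · show e.f (y.f _) = y.f (e.f _)
    rw [he.2.2.1, h.hu, he.2.2.1]

theorem IsYy.fx_of_ne {i : C} {y e : SI C M.Y C M.Y} (h : IsYy M i y) (he : M.Fx e)
    (hi : e.s i = -i) {a : Pic C M.Y} (ha : degPic a = 0) :
    e.pic (y.pic a) = -y.pic (e.pic a) := by
  rw [← h.yy (a := y.pic (e.pic a)) (by rw [SI.degPic_pic, SI.degPic_pic, ha]), ← SI.pic_trans,
    ← SI.pic_trans, ← SI.pic_trans, ← SI.pic_trans]
  refine pic_ext ((md M).extY (φ := ((y.trans e).f : M.Y →+* M.Y))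
    (ψ := ((((e.trans y).trans y).trans y).f : M.Y →+* M.Y)) (fun c => ?_) ?_ ?_ ?_) a
  · show e.f (y.f _) = y.f (y.f (y.f (e.f _)))
    rw [h.comm, e.comm, h.comm, h.comm, h.comm]
  · show e.f (y.f _) = y.f (y.f (y.f (e.f _)))
    rw [he.1, h.yyA, map_neg, h.hA, map_mul, e.comm, hi, he.1, map_neg, neg_mul]
  · show e.f (y.f _) = y.f (y.f (y.f (e.f _)))
    simp only [he.2.1, h.hB, map_neg, neg_neg]
  · show e.f (y.f _) = y.f (y.f (y.f (e.f _)))
    simp only [he.2.2.1, h.hu]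

variable (M) in
/-- **`j` is self-adjoint** -/
theorem tf_j (p : ℕ) [Fact p.Prime] (u v : Tate p (Pic C M.Y)) :
    tf p (Tate.map M.j u) v = tf p u (Tate.map M.j v) := by
  obtain ⟨g, -, H⟩ := exists_dat M
  exact H.tf_J rfl u v

variable (M) in
/-- `ker j` has rank at most two -/
theorem finrank_ker_j (φ : C →+* ℂ) (p : ℕ) [Fact p.Prime] :
    finrank ℤ_[p] (LinearMap.ker (Tate.map (p := p) M.j)) ≤ 2 := by
  obtain ⟨g, -, H⟩ := exists_dat M
  letI := KfJ.algE (kfY M)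
  haveI := KfJ.towE (kfY M)
  haveI := KfJ.finE (kfY M)
  haveI := KfJ.sepE (kfY M)
  haveI := KfJ.finite_Ei (kfY M)
  haveI := KfJ.sepEY (kfY M)
  obtain ⟨h1, h2⟩ := KfJ.rank_E φ (kfY M) p
  exact h2 ▸ H.finrank_ker_le (E := KfJ.Ei C M.A M.B2) (KfJ.finrank_le (kfY M)).2
    (fun f => (md M).r4_fix f.2) (md M).r4_ne (md M).r12

variable (M) in
/-- **`j ≠ 0` on the Tate module** -/
theorem j_ne (φ : C →+* ℂ) (p : ℕ) [Fact p.Prime] : Tate.map (p := p) M.j ≠ 0 := fun h => by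
  have h1 := finrank_ker_j M φ p
  rw [h, LinearMap.ker_zero, finrank_top, (KfJ.rank_Y φ (kfY M) p).2] at h1
  omega

/-- the character of `ℚ(i)` -/
def chi {G : Type*} [Group G] (s : G →* (C ≃+* C)) {i : C} (hi : i ^ 2 = -1) : G →* ℤˣ := by
  classical
  have h1 : ∀ σ, s σ i = i ∨ s σ i = -i := fun σ =>
    sq_eq_sq_iff_eq_or_eq_neg.1 (by rw [← map_pow, hi, map_neg, map_one])
  have h2 : -i ≠ i := fun h => by
    have : i = 0 := by linear_combination (-1 / 2 : C) * h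
    rw [this] at hi; simp at hi
  exact MonoidHom.mk' (fun σ => if s σ i = i then 1 else -1) fun σ τ => by
    rw [map_mul, RingAut.mul_apply]
    rcases h1 σ with a | a <;> rcases h1 τ with b | b <;> simp [a, b, h2]

theorem chi_eq_one {G : Type*} [Group G] (s : G →* (C ≃+* C)) {i : C} (hi : i ^ 2 = -1) (σ : G) :
    chi s hi σ = 1 ↔ s σ i = i := by
  unfold chi
  by_cases h : s σ i = i <;> simp [h]

/-- **the package `WQ` for the model** -/
theorem exists_wq (φ : C →+* ℂ) {G : Type*} [Group G] (s : G →* (C ≃+* C))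
    (E : G → SI C M.Y C M.Y) (hE : ∀ σ, M.Fx (E σ)) (hs : ∀ σ, (E σ).s = s σ) {i : C}
    {y : SI C M.Y C M.Y} (h : IsYy M i y) : ∃ R : Rho.WQ G (Tate 3 (Pic C M.Y)),
      (∀ σ, R.act σ = Tate.map (E σ).pic.toAddMonoidHom) ∧ R.j = Tate.map M.j ∧
      R.y = Tate.map y.pic.toAddMonoidHom ∧ R.e = tf 3 ∧ (∀ σ, R.χ σ = 1 ↔ s σ i = i) ∧
      ∀ σ, (R.cyc σ : ℤ_[3]) = cyc 3 (s σ) := by
  refine ⟨wq s E hs (fun f => ?_) (fun σ τ f => ?_) M.j y h.s (chi s h.hi) (fun a ha => h.yy ha)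
    (fun a ha => jjj M ha) (fun a ha => h.jy ha) (j_ne M φ 3) (fun σ a ha => ?_)
    (fun σ => fx_j (hE σ)) (tf_j M 3), fun _ => rfl, rfl, rfl, rfl, chi_eq_one s h.hi, fun _ => rfl⟩
  · exact fx_ext (e' := SI.refl C M.Y) (hE 1) ⟨rfl, rfl, rfl, rfl, rfl, rfl⟩
      (fun c => by rw [hs, map_one]; rfl) f
  · obtain ⟨a, b, c, d, e, g⟩ := hE σ
    obtain ⟨a', b', c', d', e', g'⟩ := hE τ
    refine fx_ext (e' := (E τ).trans (E σ)) (hE _) ⟨?_, ?_, ?_, ?_, ?_, ?_⟩ (fun c => ?_) f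
    · show (E σ).f ((E τ).f _) = _; rw [a', a]
    · show (E σ).f ((E τ).f _) = _; rw [b', b]
    · show (E σ).f ((E τ).f _) = _; rw [c', c]
    · show (E σ).s ((E τ).s _) = _; rw [d', d]
    · show (E σ).s ((E τ).s _) = _; rw [e', e]
    · show (E σ).s ((E τ).s _) = _; rw [g', g]
    · show _ = (E σ).s ((E τ).s _); rw [hs, hs, hs, map_mul]; rfl
  · rcases Int.units_eq_one_or (chi s h.hi σ) with h1 | h1
    · rw [h1, one_smul]
      exact h.fx_of_eq (hE σ) (by rw [hs]; exact (chi_eq_one s h.hi σ).1 h1) a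
    · rw [h1, Units.neg_smul, one_smul]
      refine h.fx_of_ne (hE σ) ?_ ha
      rw [hs]
      refine (sq_eq_sq_iff_eq_or_eq_neg.1 (by rw [← map_pow, h.hi, map_neg, map_one])).resolve_left
        fun h2 => ?_
      rw [(chi_eq_one s h.hi σ).2 h2] at h1
      exact absurd h1 (by decide)

/-- the body of `FA.WqStmt` -/
theorem wq_Om (P : Mo.Par Om) (M : Mdl P) (E : Gam → SI Om M.Y Om M.Y) (i : Om)
    (hE : ∀ σ, M.Fx (E σ) ∧ ∀ c, (E σ).s c = σ c) (hi : i ^ 2 = -1) :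
    ∃ R : Rho.WQ Gam (Tate 3 (Pic Om M.Y)),
      (∀ σ, R.act σ = Tate.map (E σ).pic.toAddMonoidHom) ∧ R.j = Tate.map M.j ∧
      (∀ σ, R.χ σ = 1 ↔ σ i = i) ∧
      ∀ (σ : Gam) (n a : ℕ) (ζ : Om), IsPrimitiveRoot ζ (3 ^ n) → σ ζ = ζ ^ a →
        (3 : ℤ_[3]) ^ n ∣ (R.cyc σ : ℤ_[3]) - a := by
  obtain ⟨φ⟩ := nonempty_hom (k := Om)
  obtain ⟨y, h⟩ := exists_isYy M hi
  obtain ⟨R, h1, h2, -, -, h3, h4⟩ := exists_wq φ (MulSemiringAction.toRingAut Gam Om) E
    (fun σ => (hE σ).1) (fun σ => RingEquiv.ext (hE σ).2) h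
  refine ⟨R, h1, h2, h3, fun σ n a ζ hζ ha => ?_⟩
  rw [h4]
  exact Ideal.mem_span_singleton.1 (cyc_sub_mem (p := 3) _ hζ ha)

end Crest.Agent.T15.Jm

namespace Crest.Agent.T15.FA

/-- **leaf WQ** -/
theorem wqStmt : WqStmt := fun P M E i hE hi => Jm.wq_Om P M E i hE hi

end Crest.Agent.T15.FA
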