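import Crest.Agent.T15.BetPc_91
import Crest.Agent.T15.CgJ_84
import Crest.Agent.T15.SrcK_71
import Crest.Agent.T15.EbC_64
import Crest.Agent.T15.Jm_16
import Crest.Agent.T15.Gal_31
import Crest.Agent.T15.HtDef_95
import Crest.Agent.T15.MoB_29
import Mathlib
import Crest.Agent.T15.HonDef_54
import Crest.Agent.R013.Car5_700
import Crest.Agent.T15.OmA_46
import Crest.Agent.T15.NfB_2
import Crest.Agent.T15.CtE_92
import Crest.Agent.T15.AjB_55
import Crest.Agent.T15.MoA_29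
import Crest.Agent.T15.CgB_84
import Crest.Agent.T15.RbA_67
import Crest.Agent.T15.TwAsm_16
import Crest.Agent.T15.Ar_22
import Crest.Agent.T15.BrA_37
import Crest.Agent.T15.MumB_4
import Crest.Agent.T15.AxC_14
import Crest.Agent.T15.UndA_98
import Crest.Agent.T15.AjC_55

-- ▼ part T15/BetDvd_91
section

/-!
# T15 / BetDvd (helper91): `Cg.DvdStmt` and the dictionary `Disc.KumR`
-/

set_option autoImplicit false

noncomputable section

namespace Crest.Agent.T15.Bet

open CongruenceSubgroup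
open scoped MatrixGroups
open Crest.Agent.T15.Mf Crest.Agent.T15.Hk Crest.Agent.T15.Lv

theorem dvdStmt : Cg.DvdStmt := fun _ _ _ h4 hH _ _ _ _ hp hK P =>
  IsK.dvd_divf isCong (GH_le_G4 h4 hH) hK hp P



end Crest.Agent.T15.Bet
end
end

-- ▼ part T15/EbD_64
section

/-!
# Row 15, block Ht (helper64): leaf E-BLOCK, closed
-/

set_option autoImplicit false

namespace Crest.Agent.T15.Eb

open Crest.Agent.R013.PicD_398 Crest.Agent.R013.Frob1_914 Crest.Agent.R013.TP_928
open Crest.Agent.T15.C (Om)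

theorem core : Core := by
  intro P M
  obtain ⟨φ⟩ := Rk.nonempty_hom (k := Om)
  obtain ⟨i, hi⟩ := IsAlgClosed.exists_pow_nat_eq (-1 : Om) two_pos
  obtain ⟨y, h⟩ := Jm.exists_isYy M hi
  refine ⟨Jy.tm 3 y, fun u => Tate.ext fun n => h.yy (Jy.deg_tate u n),
    fun u => Tate.ext fun n => h.jy (Jy.deg_tate u n), fun u => Tate.ext fun n => ?_,
    Jm.j_ne M φ 3, Jm.tf_j M 3⟩
  rw [show (3 : ℤ_[3]) = ((3 : ℕ) : ℤ_[3]) by norm_num, Tate.natCast_smul_apply]
  exact Jm.jjj M (Jy.deg_tate u n)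

end Crest.Agent.T15.Eb

namespace Crest.Agent.T15.Ht

/-- **leaf E-BLOCK** -/
theorem ebStmt : EbStmt := Eb.ebStmt_of galStmt moStmt Eb.core

end Crest.Agent.T15.Ht
end

-- ▼ part T15/OmqA_82
section

/-!
# Row 15, block Ht (helper82): the rational basis of the differentials of `Y`
-/

set_option autoImplicit false
set_option linter.all false

noncomputable section

namespace Crest.Agent.T15.Omq

open Polynomial Matrix
open Crest.Agent.T15.Mo (Par Eqs IsY Act)
open Crest.Agent.T15.Ht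

section alg

variable {R : Type*} [Field R]

/-- the rows are `om1`, `j om1 / 3`, `omE` -/
def Nm (P : Par R) : Matrix (Fin 3) (Fin 3) R :=
  !![0, -4 * (P.al * P.p3 - P.be * P.p2), 0;
    -4 * (P.al * P.p3 - P.be * P.p2) * (P.al / (2 * P.p2 ^ 2) + P.be / (2 * P.p3 ^ 2)) / 3, 0,
      -4 * (P.al * P.p3 - P.be * P.p2) * (P.al / (2 * P.p2 ^ 2) - P.be / (2 * P.p3 ^ 2)) / 3;
    -(P.al * P.be) * P.b⁻¹, 0, P.al * P.be]

variable [CharZero R] (P : Par R)

theorem three82 : P.al ^ 2 * P.p3 ^ 3 + P.be ^ 2 * P.p2 ^ 3 = 3 * P.p1 * P.p2 ^ 3 * P.p3 ^ 3 := by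
  rw [P.hal, P.hbe]
  linear_combination (-(P.p2 ^ 3 * P.p3 ^ 3)) * P.sum

theorem det_Nm : (Nm P).det ≠ 0 := by
  have h2 := P.h2; have h3 := P.h3; have h4 := P.add_ne2; have h5 := P.sub_ne2
  have e : (Nm P).det = -(16 * (P.al * P.p3 - P.be * P.p2) ^ 2 * (P.al * P.be) *
      (P.p1 * P.p2 * P.p3) / (P.al * P.p3 + P.be * P.p2)) := by
    simp only [Nm, det_fin_three, Par.b, inv_div, of_apply, cons_val', cons_val_zero, cons_val_one,
      cons_val_two, cons_val_fin_one, Nat.succ_eq_add_one, Nat.reduceAdd, head_cons, tail_cons,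
      head_fin_const, empty_val']
    field_simp
    linear_combination (-32 * P.al * P.be * (P.al * P.p3 - P.be * P.p2) ^ 2) * three82 P
  rw [e]
  exact neg_ne_zero.mpr (div_ne_zero (mul_ne_zero (mul_ne_zero (mul_ne_zero (by norm_num)
    (pow_ne_zero 2 h5)) (mul_ne_zero P.al_ne P.be_ne))
    (mul_ne_zero (mul_ne_zero P.h1 h2) h3)) h4)

theorem Nm_v1 : Nm P *ᵥ v1 P = ![1, 0, 0] := by
  have h5 := P.sub_ne2
  ext i
  fin_cases i <;> simp [Nm, v1, Sc3.kap, mulVec, dotProduct, Fin.sum_univ_three]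
  field_simp

theorem Nm_Mx : Nm P * Mx P =
    (!![0, 3, 0; 1, 0, 0; 0, 0, 0] : Matrix (Fin 3) (Fin 3) ℤ).map (Int.cast : ℤ → R) * Nm P := by
  have h1 := P.h1; have h2 := P.h2; have h3 := P.h3; have h4 := P.add_ne2; have h5 := P.sub_ne2
  ext i j
  fin_cases i <;> fin_cases j <;>
    simp [Nm, Mx, mul_apply, Fin.sum_univ_three, Par.b]
  · field_simp
  · field_simp
  · field_simp
    linear_combination (-2 : R) * three82 P
  · field_simp
    ring


variable {P} {s : R →+* R} (h : P.Fix s)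
include h

theorem s_pp (h1 : s P.al = P.al) (h2 : s P.be = P.be) (m k : Fin 3) : s (Nm P m k) = Nm P m k := by
  fin_cases m <;> fin_cases k <;> simp [Nm, map_ofNat, h1, h2, h.p2, h.p3, h.b_pp h1 h2]

theorem s_mm (h1 : s P.al = -P.al) (h2 : s P.be = -P.be) (m : Fin 3) :
    s (Nm P m 0) = Nm P m 0 ∧ s (Nm P m 1) = -Nm P m 1 ∧ s (Nm P m 2) = Nm P m 2 := by
  fin_cases m <;> simp [Nm, map_ofNat, h1, h2, h.p2, h.p3, h.b_mm h1 h2]
  · ring
  · constructor <;> ring

theorem s_pm (h1 : s P.al = P.al) (h2 : s P.be = -P.be) (m : Fin 3) :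
    s (Nm P m 0) = P.b * Nm P m 2 ∧ s (Nm P m 1) = P.b * Nm P m 1 ∧
      s (Nm P m 2) = P.b * Nm P m 0 := by
  have h4 := P.add_ne2; have h5 := P.sub_ne2; have h6 := P.h2; have h7 := P.h3
  have hb := h.b_pm h1 h2
  fin_cases m <;> simp [Nm, map_ofNat, h1, h2, h.p2, h.p3, hb]
  · unfold Par.b; field_simp
  · unfold Par.b; constructor <;> field_simp <;> ring
  · have := P.b_ne; constructor <;> field_simp

theorem s_mp (h1 : s P.al = -P.al) (h2 : s P.be = P.be) (m : Fin 3) :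
    s (Nm P m 0) = P.b * Nm P m 2 ∧ s (Nm P m 1) = -(P.b * Nm P m 1) ∧
      s (Nm P m 2) = P.b * Nm P m 0 := by
  have h4 := P.add_ne2; have h5 := P.sub_ne2; have h6 := P.h2; have h7 := P.h3
  have hb := h.b_mp h1 h2
  fin_cases m <;> simp [Nm, map_ofNat, h1, h2, h.p2, h.p3, hb]
  · unfold Par.b; field_simp; ring
  · unfold Par.b; constructor <;> field_simp <;> ring
  · have := P.b_ne; constructor <;> field_simp

end alg

section fx

variable {C Y : Type*} [Field C] [Field Y] [Algebra C Y]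

theorem aux1 {x y : Fin 3 → C} (z w : Y) (D : Derivation C Y Y) (h0 : x 0 = y 0)
    (h1 : x 1 = -y 1) (h2 : x 2 = y 2) :
    ∑ k : Fin 3, x k • ((-z) ^ (k : ℕ) / (-w) * D (-z)) =
      ∑ k : Fin 3, y k • (z ^ (k : ℕ) / w * D z) := by
  simp only [Fin.sum_univ_three, h0, h1, h2, map_neg, Algebra.smul_def, Fin.val_zero, Fin.val_one,
    Fin.val_two, div_neg]
  ring

theorem aux2 {x y : Fin 3 → C} {b : C} {z w : Y} (D : Derivation C Y Y) (hb : b ≠ 0) (hz : z ≠ 0)
    (hw : w ≠ 0) (h0 : x 0 = b * y 2) (h1 : x 1 = b * y 1) (h2 : x 2 = b * y 0) :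
    ∑ k : Fin 3, x k • (z⁻¹ ^ (k : ℕ) / (-(algebraMap C Y b * w / z ^ 4)) * D z⁻¹) =
      ∑ k : Fin 3, y k • (z ^ (k : ℕ) / w * D z) := by
  have hb' : algebraMap C Y b ≠ 0 := (_root_.map_ne_zero _).mpr hb
  rw [Derivation.leibniz_inv, smul_eq_mul]
  simp only [Fin.sum_univ_three, h0, h1, h2, map_mul, Algebra.smul_def, Fin.val_zero, Fin.val_one,
    Fin.val_two]
  field_simp
  ring

theorem aux3 {x y : Fin 3 → C} {b : C} {z w : Y} (D : Derivation C Y Y) (hb : b ≠ 0) (hz : z ≠ 0)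
    (hw : w ≠ 0) (h0 : x 0 = b * y 2) (h1 : x 1 = -(b * y 1)) (h2 : x 2 = b * y 0) :
    ∑ k : Fin 3, x k • ((-z⁻¹) ^ (k : ℕ) / (algebraMap C Y b * w / z ^ 4) * D (-z⁻¹)) =
      ∑ k : Fin 3, y k • (z ^ (k : ℕ) / w * D z) := by
  have hb' : algebraMap C Y b ≠ 0 := (_root_.map_ne_zero _).mpr hb
  rw [map_neg D, Derivation.leibniz_inv, smul_eq_mul]
  simp only [Fin.sum_univ_three, h0, h1, h2, map_mul, map_neg, Algebra.smul_def, Fin.val_zero,
    Fin.val_one, Fin.val_two]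
  field_simp
  ring

/-- the basis is rational -/
theorem fx_Nm [CharZero C] {P : Par C} {A B2 u : Y} (h : IsY P A B2 u) {s : C →+* C} {f : Y →+* Y}
    (a : Act P A B2 u s f 1) (D : Derivation C Y Y) (m : Fin 3) :
    ∑ k : Fin 3, s (Nm P m k) •
        (f (P.zY A B2 u) ^ (k : ℕ) / f (P.wY A B2 u) * D (f (P.zY A B2 u))) =
      ∑ k : Fin 3, Nm P m k • (P.zY A B2 u ^ (k : ℕ) / P.wY A B2 u * D (P.zY A B2 u)) := by
  rcases a.fix.al with h1 | h1 <;> rcases a.fix.be with h2 | h2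
  · obtain ⟨hz, hw⟩ := h.act_pp a h1 h2
    simp only [hz, hw, s_pp a.fix h1 h2]
  · obtain ⟨hz, hw⟩ := h.act_pm a h1 h2
    obtain ⟨e0, e1, e2⟩ := s_pm a.fix h1 h2 m
    rw [hz, hw]
    exact aux2 (x := fun k => s (Nm P m k)) D P.b_ne h.z_ne h.hyp.w_ne e0 e1 e2
  · obtain ⟨hz, hw⟩ := h.act_mp a h1 h2
    obtain ⟨e0, e1, e2⟩ := s_mp a.fix h1 h2 m
    rw [hz, hw]
    exact aux3 (x := fun k => s (Nm P m k)) D P.b_ne h.z_ne h.hyp.w_ne e0 e1 e2
  · obtain ⟨hz, hw⟩ := h.act_mm a h1 h2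
    obtain ⟨e0, e1, e2⟩ := s_mm a.fix h1 h2 m
    rw [hz, hw]
    exact aux1 (x := fun k => s (Nm P m k)) _ _ D e0 e1 e2

end fx

section mdl

variable {C : Type} [Field C] [IsAlgClosed C] [CharZero C] {P : Par C} (M : Mdl P)

theorem isY82 : IsY P M.A M.B2 M.u := ⟨two_ne_zero, M.eqs.k0, M.eqs.cub, M.tr, M.gen⟩

theorem hyp82 : Hy.Hyp P.F M.z M.w := (isY82 M).hyp

theorem fix82 {e : R013.Frob1_914.SI C M.Y C M.Y} (h : M.Fx e) : P.Fix e.s :=
  ⟨h.2.2.2.1, h.2.2.2.2.1, by rw [P.p3_eq, map_sub, map_neg, h.2.2.2.1, h.2.2.2.2.1], h.2.2.2.2.2⟩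

theorem fx_mdl {e : R013.Frob1_914.SI C M.Y C M.Y} (h : M.Fx e) (D : Derivation C M.Y M.Y)
    (m : Fin 3) :
    ∑ k : Fin 3, e.s (Nm P m k) • (e.f M.z ^ (k : ℕ) / e.f M.w * D (e.f M.z)) =
      ∑ k : Fin 3, Nm P m k • (M.z ^ (k : ℕ) / M.w * D M.z) :=
  fx_Nm (isY82 M) ((isY82 M).act_SI e (fix82 M h) h.1 h.2.1 h.2.2.1) D m

end mdl

end Crest.Agent.T15.Omq
end
end

-- ▼ part T15/Reg_22
section

/-!
# Row 15, block Ht (helper22): the standard differentials of `w ^ 2 = F(x)` are regular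
-/

set_option autoImplicit false
set_option linter.all false

namespace Crest.Agent.T15.Hon

open Polynomial WithZero Module
open Crest.Agent.R013.RR7_948 Crest.Agent.R013.RR8_948 Crest.Agent.R013.RR9_948
open Crest.Agent.R013.RR11_948 Crest.Agent.R013.RR12_948 Crest.Agent.R013.RR14_948
open Crest.Agent.R013.Car5_700 Crest.Agent.T15.Disc Crest.Agent.T15.Hy

variable {k K : Type*} [Field k] [PerfectField k] [Field K] [Algebra k K]
  [Algebra (RatFunc k) K] [IsScalarTower k (RatFunc k) K] [FiniteDimensional (RatFunc k) K]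
  [Algebra.IsSeparable (RatFunc k) K]

/-- `2 w dw = F'(x) dx` -/
theorem two_w_del_22 {F : k[X]} {x w : K} (h : Hyp F x w) :
    2 * w * del k K w = aeval x F.derivative * del k K x := by
  have := congrArg (del k K) h.sq
  rw [Derivation.leibniz_pow, Derivation.map_aeval] at this
  simp only [smul_eq_mul, nsmul_eq_mul] at this
  rw [← this]; push_cast; ring

/-- `x ^ m dx / w` is regular (any perfect constant field) -/
theorem reg_22 {F : k[X]} {x w : K} (h : Hyp F x w) {m : ℕ} (hm : 2 * m + 3 ≤ F.natDegree) :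
    x ^ m / w * del k K x ∈ LD (canD k K) := by
  rw [mem_LD]
  intro P
  have hw0 := h.w_ne
  rcases le_or_gt (P.v x) 1 with hx | hx
  · have hw : P.v w ≤ 1 := by
      have h1 : P.v w ^ 2 ≤ 1 := by rw [← map_pow, h.sq]; exact v_aeval_le_one P hx F
      by_contra hc
      exact absurd h1 (not_le.2 (one_lt_pow₀ (not_le.1 hc) two_ne_zero))
    have hxm : P.v (x ^ m) ≤ 1 := by rw [map_pow]; exact pow_le_one₀ zero_le hx
    rcases hw.eq_or_lt with hw1 | hw1
    · rw [map_mul, map_div₀, hw1, div_one]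
      exact (mul_le_of_le_one_left' hxm).trans (v_del_le P hx)
    · have hF : P.v (aeval x F) < 1 := by
        rw [← h.sq, map_pow]; exact pow_lt_one₀ zero_le hw1 two_ne_zero
      obtain ⟨p, q, hpq⟩ := h.sep
      have e := congrArg (aeval x) hpq
      rw [map_add, map_mul, map_mul, map_one] at e
      have h1 : P.v (aeval x p * aeval x F) < 1 := by
        rw [map_mul]
        exact (mul_le_of_le_one_left' (v_aeval_le_one P hx p)).trans_lt hF
      have e2 : x ^ m / w * del k K x =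
          x ^ m * (aeval x p * w * del k K x + aeval x q * (2 * del k K w)) := by
        have h2 := two_w_del_22 h
        have h3 := h.sq
        field_simp
        linear_combination x ^ m * (-del k K x) * e - x ^ m * aeval x p * del k K x * h3 -
          x ^ m * aeval x q * h2
      have two : P.v (2 : K) ≤ 1 := by
        have := v_const_le P (2 : k)
        rwa [map_ofNat] at this
      rw [e2, map_mul]
      refine (mul_le_of_le_one_left' hxm).trans ((Valuation.map_add _ _ _).trans (max_le ?_ ?_))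
      · rw [map_mul, map_mul]
        exact (mul_le_of_le_one_left' (mul_le_one' (v_aeval_le_one P hx p) hw)).trans
          (v_del_le P hx)
      · rw [map_mul, map_mul, ← mul_assoc]
        exact (mul_le_of_le_one_left' (mul_le_one' (v_aeval_le_one P hx q) two)).trans
          (v_del_le P hw)
  · have h2 := h.two_ord_w hx
    have h3 := divf_neg_of_lt (k := k) h.x_ne hx
    have h4 : -(m : ℤ) * divf (k := k) x P + divf (k := k) w P - divf (k := k) x P + 1 ≤ 0 := by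
      obtain ⟨j, hj⟩ := Nat.exists_eq_add_of_le hm
      rw [hj] at h2
      push_cast at h2
      rcases Nat.eq_zero_or_pos j with rfl | hj0
      · have : Even (divf (k := k) x P) := by
          refine ⟨divf (k := k) w P - (m + 1) * divf (k := k) x P, ?_⟩
          push_cast at h2; linarith
        obtain ⟨s, hs⟩ := this
        have : divf (k := k) x P ≤ -2 := by omega
        push_cast at h2; nlinarith
      · have : (1 : ℤ) ≤ j := by exact_mod_cast hj0
        nlinarith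
    rw [map_mul, map_div₀, map_pow]
    refine (mul_le_mul_right (v_del_le' P x) _).trans ?_
    rw [v_eq (k := k) h.x_ne, v_eq (k := k) hw0, ← exp_nsmul, ← exp_sub, ← exp_add, ← exp_add,
      exp_le_exp, nsmul_eq_mul]
    linarith


end Crest.Agent.T15.Hon
end

-- ▼ part T15/OmB_46
section

/-!
# Row 15, block Ht (helper46): the differentials `z^k dz / w` and the matrix of `j`, field level
-/

set_option autoImplicit false
set_option linter.all false

namespace Crest.Agent.T15.Om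

open Crest.Agent.T15.Mo

variable {K : Type*} [Field K]

/-- the normalising constant -/
def kap (P : Par K) : K := -4 * (P.al * P.p3 - P.be * P.p2)

theorem kap_ne (P : Par K) (h2 : (2 : K) ≠ 0) : kap P ≠ 0 := by
  have : (-4 : K) = -(2 * 2) := by norm_num
  unfold kap
  rw [this]
  exact mul_ne_zero (neg_ne_zero.mpr (mul_ne_zero h2 h2)) P.sub_ne2

/-- `S' = A B / (t d₁ (u + p₂ p₃))` -/
def S' (P : Par K) (A B u : K) : K := A * B / (P.t * P.d1) / (u + P.p2 * P.p3)

/-- the second root of the cubic -/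
def nu (P : Par K) (A B u : K) : K :=
  (-2 * (P.p1 * P.p2 + P.p1 * P.p3 + P.p2 * P.p3) - u +
    (P.p1 * P.d1) * (P.p2 * P.d2) * (P.p3 * P.d3) * u * P.V' A (B ^ 2) u * P.R' A (B ^ 2) u *
      (A * B / (P.t * P.d1) / (u + P.p2 * P.p3))) / 2

theorem S'_neg (P : Par K) (A B u : K) : S' P A (-B) u = -S' P A B u := by
  unfold S'; ring

theorem V_r (P : Par K) (A B : K) : P.V B (A ^ 2) = P.V A (B ^ 2) := by unfold Par.V; ring
theorem R_r (P : Par K) (A B : K) : P.R B (A ^ 2) = -P.R A (B ^ 2) := by unfold Par.R; ring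
theorem V_n (P : Par K) (A B : K) : P.V (-A) B = P.V A B := by unfold Par.V; ring
theorem R_n (P : Par K) (A B : K) : P.R (-A) B = P.R A B := by unfold Par.R; ring

theorem two_nu (P : Par K) (h2 : (2 : K) ≠ 0) (A B u : K) :
    2 * nu P A B u = U2 P (P.V' A (B ^ 2) u) (P.R' A (B ^ 2) u) (S' P A B u) u := by
  unfold nu U2 S'
  rw [mul_div_cancel₀ _ h2]

theorem AB_eq (P : Par K) {A B u : K} (hS : u + P.p2 * P.p3 ≠ 0) :
    A * B = P.t * P.d1 * (u + P.p2 * P.p3) * S' P A B u := by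
  unfold S'
  have := P.ht; have := P.d1_ne
  field_simp

theorem idS (P : Par K) (u : K) :
    P.p3 * P.d3 * P.d3 ^ 2 * ((u - 2 * P.p3 ^ 2) * (u + P.p1 * P.p2) ^ 2) -
    P.p2 * P.d2 * P.d2 ^ 2 * ((2 * P.p2 ^ 2 - u) * (u + P.p1 * P.p3) ^ 2) =
    P.p1 * P.d1 * P.d1 ^ 2 * ((2 * P.p1 ^ 2 - u) * (u + P.p2 * P.p3) ^ 2) := by
  simp only [Par.d1, Par.d2, Par.d3, P.p3_eq]; ring

theorem A_LL {P : Par K} {A B2 u : K} (h : Eqs P A B2 u) :
    A ^ 2 = P.t * LL P (P.V' A B2 u) (P.R' A B2 u) u := by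
  have := h.A_sq
  rwa [h.V_eq, h.R_eq] at this

theorem rl {P : Par K} {A B u : K} (h : Eqs P A (B ^ 2) u) (hS : u + P.p2 * P.p3 ≠ 0) :
    Rl P (P.V' A (B ^ 2) u) (P.R' A (B ^ 2) u) (S' P A B u) u := by
  refine ⟨h.V'_sq, h.R'_sq, ?_⟩
  have a := h.A_sq
  have b := h.B_eq
  rw [h.V_eq, h.R_eq] at a b
  have c := AB_eq P (A := A) (B := B) hS
  have hV := h.V'_sq
  have hR := h.R'_sq
  have e := idS P u
  apply mul_left_cancel₀ (mul_ne_zero (mul_ne_zero P.h1 P.d1_ne)
    (pow_ne_zero 2 (mul_ne_zero (mul_ne_zero P.ht P.d1_ne) hS)))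
  generalize P.V' A (B ^ 2) u = V at *
  generalize P.R' A (B ^ 2) u = R at *
  generalize S' P A B u = S at *
  have f : (P.t * P.d1 * (u + P.p2 * P.p3) * S) ^ 2 = P.t ^ 2 *
      (P.d3 ^ 2 * ((u + P.p1 * P.p2) * V) ^ 2 - P.d2 ^ 2 * ((u + P.p1 * P.p3) * R) ^ 2) := by
    rw [← c, mul_pow, a, b]; ring
  linear_combination (P.p1 * P.d1) * (P.p2 * P.d2) * (P.p3 * P.d3) * u * f +
    P.t ^ 2 * P.p3 * P.d3 ^ 3 * (u + P.p1 * P.p2) ^ 2 * hV -
    P.t ^ 2 * P.p2 * P.d2 ^ 3 * (u + P.p1 * P.p3) ^ 2 * hR + P.t ^ 2 * e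


section der

variable {R₀ : Type*} [CommSemiring R₀] [Algebra R₀ K]

/-- `D` kills the parameters -/
structure Kill (P : Par K) (D : Derivation R₀ K K) : Prop where
  p1 : D P.p1 = 0
  p2 : D P.p2 = 0
  p3 : D P.p3 = 0
  al : D P.al = 0

variable {P : Par K} {D : Derivation R₀ K K} {A B2 u : K}

theorem D_two (D : Derivation R₀ K K) : D 2 = 0 := by
  have : (2 : K) = ((2 : ℕ) : K) := by norm_num
  rw [this, D.map_natCast]

theorem D_u (hD : Kill P D) (h : Eqs P A B2 u) :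
    P.p3 ^ 2 * D u = (P.p1 * P.d1) * (P.p2 * P.d2) * u ^ 2 * P.V' A B2 u * D (P.V' A B2 u) := by
  have hV := h.V'_sq
  have e := congrArg D hV
  simp only [Par.d1, Par.d2, Derivation.leibniz, Derivation.leibniz_pow, map_sub, hD.p1, hD.p2,
    hD.p3, D_two, smul_eq_mul, nsmul_eq_mul] at e hV ⊢
  apply mul_left_cancel₀ h.two
  push_cast at e
  linear_combination D u * hV - u * e

theorem D_V (hD : Kill P D) (h : Eqs P A B2 u) :
    D (P.V A B2) = D u * P.V' A B2 u + (u + P.p1 * P.p2) * D (P.V' A B2 u) := by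
  rw [h.V_eq]
  simp only [Derivation.leibniz, map_add, hD.p1, hD.p2, smul_eq_mul]
  ring

theorem D_V' (hD : Kill P D) (h : Eqs P A B2 u) :
    P.al * D (P.V' A B2 u) * P.z A B2 u = P.be * P.R' A B2 u * D (P.z A B2 u) := by
  have e := congrArg D h.V'_z
  have hz : P.z A B2 u = P.al * P.V' A B2 u + P.be * P.R' A B2 u := rfl
  simp only [Derivation.leibniz, Derivation.leibniz_pow, map_add, hD.al, D_two, smul_eq_mul,
    nsmul_eq_mul, Derivation.map_one_eq_zero] at e
  apply mul_left_cancel₀ h.two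
  push_cast at e
  linear_combination e + 2 * D (P.z A B2 u) * hz

theorem D_z (hD : Kill P D) (h : Eqs P A B2 u) :
    P.be * P.R A B2 * (u + P.p2 * P.p3) * D (P.z A B2 u) =
      P.al * P.p3 ^ 2 * P.z A B2 u * D (P.V A B2) := by
  have a := D_u hD h
  have b := D_V' hD h
  have hV := h.V'_sq
  have s := P.sum
  rw [D_V hD h, h.R_eq]
  generalize D (P.V' A B2 u) = dV at *
  generalize D (P.z A B2 u) = dz at *
  generalize P.V' A B2 u = V at *
  generalize P.R' A B2 u = R at *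
  generalize P.z A B2 u = z at *
  linear_combination -(u + P.p1 * P.p3) * (u + P.p2 * P.p3) * b - P.al * z * V * a -
    P.al * z * u * dV * hV + P.al * z * dV * u * P.p3 * s

theorem w_ne (h : Eqs P A B2 u) (hA : A ≠ 0) (hb : P.z A B2 u ^ 2 - P.b ≠ 0) : P.w A B2 u ≠ 0 :=
  div_ne_zero (mul_ne_zero (mul_ne_zero (mul_ne_zero hA h.z_ne) h.a1_ne) h.a2_ne) hb

theorem w_z (h : Eqs P A B2 u) (hb : P.z A B2 u ^ 2 - P.b ≠ 0) :
    P.w A B2 u * u * (P.p1 * P.d1) * P.al * P.be * (P.p3 * P.R' A B2 u - P.p2 * P.V' A B2 u) =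
      -(kap P * A * P.p2 ^ 2 * P.p3 ^ 2 * P.z A B2 u ^ 2) := by
  have a : P.w A B2 u * (P.z A B2 u ^ 2 - P.b) =
      A * P.z A B2 u * (P.z A B2 u ^ 2 - P.a1) * (P.z A B2 u ^ 2 - P.a2) := by
    rw [Par.w, div_mul_cancel₀ _ hb]
  have b := h.u_N
  rw [P.N_eq] at b
  have c := h.conic
  have hz : P.z A B2 u = P.al * P.V' A B2 u + P.be * P.R' A B2 u := rfl
  have d : P.b * (P.al * P.p3 - P.be * P.p2) = P.al * P.p3 + P.be * P.p2 := by
    rw [Par.b, div_mul_cancel₀ _ P.sub_ne2]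
  apply mul_left_cancel₀ (mul_ne_zero h.two h.z_ne)
  unfold kap
  generalize P.w A B2 u = w at *
  generalize P.V' A B2 u = V at *
  generalize P.R' A B2 u = R at *
  generalize P.z A B2 u = z at *
  have e : (z ^ 2 - P.b) * (P.al * P.p3 - P.be * P.p2) =
      2 * P.al * P.be * (P.p3 * R - P.p2 * V) * z := by
    linear_combination -d + (P.al * P.p3 + P.be * P.p2) * c + z * (P.al * P.p3 - P.be * P.p2) * hz
  linear_combination -(w * u * (P.p1 * P.d1)) * e +
    u * (P.p1 * P.d1) * (P.al * P.p3 - P.be * P.p2) * a + (P.al * P.p3 - P.be * P.p2) * A * z * b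

/-- `kap z dz / w` in terms of `dV` -/
theorem om1 (hD : Kill P D) (h : Eqs P A B2 u) (hA : A ≠ 0) (hb : P.z A B2 u ^ 2 - P.b ≠ 0) :
    kap P * A * P.R A B2 * (u + P.p2 * P.p3) * (P.z A B2 u * D (P.z A B2 u) / P.w A B2 u) =
      (P.p1 * P.d1) * (P.p2 * P.d2) * D (P.V A B2) * u *
        (P.p3 * P.R' A B2 u - P.p2 * P.V' A B2 u) := by
  have a := D_z hD h
  have b := w_z h hb
  have c := P.al_sq
  have hw := w_ne h hA hb
  rw [← mul_div_assoc, div_eq_iff hw]
  apply mul_left_cancel₀ (mul_ne_zero P.be_ne (pow_ne_zero 2 P.h2))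
  generalize D (P.V A B2) = W at *
  generalize D (P.z A B2 u) = dz at *
  generalize P.w A B2 u = w at *
  generalize P.V' A B2 u = V at *
  generalize P.R' A B2 u = R at *
  generalize P.z A B2 u = z at *
  linear_combination kap P * A * P.p2 ^ 2 * z * a + P.al * W * b -
    w * u * (P.p1 * P.d1) * P.be * (P.p3 * R - P.p2 * V) * W * c

/-- the transform by `r` -/
theorem tr_V {P : Par K} {A B u : K} (h : Eqs P A (B ^ 2) u) (hS : u + P.p2 * P.p3 ≠ 0)
    (n3 : nu P A B u + P.p1 * P.p2 ≠ 0) :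
    2 * (P.p1 * P.p2) * P.V' (-B) (A ^ 2) (nu P A B u) =
      u * (P.V' A (B ^ 2) u + P.p3 * P.d3 * P.R' A (B ^ 2) u * S' P A B u) := by
  have pV := (rl h hS).PV
  rw [← two_nu P h.two A B u] at pV
  have v : (nu P A B u + P.p1 * P.p2) * P.V' (-B) (A ^ 2) (nu P A B u) =
      (u + P.p1 * P.p2) * P.V' A (B ^ 2) u := by
    rw [← h.V_eq, Par.V', mul_div_cancel₀ _ n3, V_n, V_r]
  apply mul_left_cancel₀ (mul_ne_zero h.two n3)
  linear_combination 4 * (P.p1 * P.p2) * v - pV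

theorem tr_R {P : Par K} {A B u : K} (h : Eqs P A (B ^ 2) u) (hS : u + P.p2 * P.p3 ≠ 0)
    (n2 : nu P A B u + P.p1 * P.p3 ≠ 0) :
    2 * (P.p1 * P.p3) * P.R' (-B) (A ^ 2) (nu P A B u) =
      -(u * (P.R' A (B ^ 2) u - P.p2 * P.d2 * P.V' A (B ^ 2) u * S' P A B u)) := by
  have pR := (rl h hS).PR
  rw [← two_nu P h.two A B u] at pR
  have w : (nu P A B u + P.p1 * P.p3) * P.R' (-B) (A ^ 2) (nu P A B u) =
      -((u + P.p1 * P.p3) * P.R' A (B ^ 2) u) := by
    rw [← h.R_eq, Par.R', mul_div_cancel₀ _ n2, R_n, R_r]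
  apply mul_left_cancel₀ (mul_ne_zero h.two n2)
  linear_combination 4 * (P.p1 * P.p3) * w + pR

theorem tr_om (hD : Kill P D) {B : K} (h : Eqs P A (B ^ 2) u) (hS : u + P.p2 * P.p3 ≠ 0)
    (h' : Eqs P (-B) (A ^ 2) (nu P A B u)) (n1 : nu P A B u + P.p2 * P.p3 ≠ 0) (hB : B ≠ 0)
    (hb : P.z (-B) (A ^ 2) (nu P A B u) ^ 2 - P.b ≠ 0) :
    4 * P.p1 * kap P * B * P.R A (B ^ 2) * (u + P.p2 * P.p3) * S' P A B u *
      (P.z (-B) (A ^ 2) (nu P A B u) * D (P.z (-B) (A ^ 2) (nu P A B u)) /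
        P.w (-B) (A ^ 2) (nu P A B u)) =
    -((P.p1 * P.d1) * (P.p2 * P.d2) * D (P.V A (B ^ 2)) * u *
      (E1 P (P.V' A (B ^ 2) u) (P.R' A (B ^ 2) u) (S' P A B u) u +
        S' P A B u * E0 P (P.V' A (B ^ 2) u) (P.R' A (B ^ 2) u) u)) := by
  have a := om1 hD h' (neg_ne_zero.mpr hB) hb
  rw [V_n, V_r, R_n, R_r] at a
  have v := tr_V h hS h'.n3
  have w := tr_R h hS h'.n2
  have pS := (rl h hS).PS
  rw [← two_nu P h.two A B u] at pS
  unfold E1 E0
  generalize P.z (-B) (A ^ 2) (nu P A B u) * D (P.z (-B) (A ^ 2) (nu P A B u)) /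
    P.w (-B) (A ^ 2) (nu P A B u) = x at *
  generalize P.V' (-B) (A ^ 2) (nu P A B u) = V1 at *
  generalize P.R' (-B) (A ^ 2) (nu P A B u) = R1 at *
  generalize nu P A B u = y at *
  generalize P.V' A (B ^ 2) u = V at *
  generalize P.R' A (B ^ 2) u = R at *
  generalize S' P A B u = S at *
  generalize D (P.V A (B ^ 2)) = W at *
  generalize P.R A (B ^ 2) = Rf at *
  have e : 2 * P.p1 * (P.p3 * R1 - P.p2 * V1) =
      -(u * (R + V + S * (P.p3 * P.d3 * R - P.p2 * P.d2 * V))) := by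
    linear_combination w - v
  apply mul_left_cancel₀ (mul_ne_zero h.two n1)
  linear_combination 8 * P.p1 * (u + P.p2 * P.p3) * S * a +
    (P.p1 * P.d1) * (P.p2 * P.d2) * W * (4 * y * (u + P.p2 * P.p3) * S) * e -
    (P.p1 * P.d1) * (P.p2 * P.d2) * W * (u * (R + V + S * (P.p3 * P.d3 * R - P.p2 * P.d2 * V))) * pS

/-- all that is needed about one triple and its two transforms -/
structure Tri (P : Par K) (A B u : K) : Prop where
  h0 : Eqs P A (B ^ 2) u
  hp : Eqs P (-B) (A ^ 2) (nu P A B u)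
  hm : Eqs P B (A ^ 2) (nu P A (-B) u)
  s0 : u + P.p2 * P.p3 ≠ 0
  sp : nu P A B u + P.p2 * P.p3 ≠ 0
  sm : nu P A (-B) u + P.p2 * P.p3 ≠ 0
  hA : A ≠ 0
  hB : B ≠ 0
  hR : P.R A (B ^ 2) ≠ 0
  b0 : P.z A (B ^ 2) u ^ 2 - P.b ≠ 0
  bp : P.z (-B) (A ^ 2) (nu P A B u) ^ 2 - P.b ≠ 0
  bm : P.z B (A ^ 2) (nu P A (-B) u) ^ 2 - P.b ≠ 0

/-- `z dz / w` -/
def om (P : Par K) (D : Derivation R₀ K K) (A B2 u : K) : K :=
  P.z A B2 u * D (P.z A B2 u) / P.w A B2 u

theorem key (hD : Kill P D) {B : K} (h : Tri P A B u) :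
    (om P D (-B) (A ^ 2) (nu P A B u) + om P D B (A ^ 2) (nu P A (-B) u) =
      -((P.p2 * P.d2 * P.V' A (B ^ 2) u + P.p3 * P.d3 * P.R' A (B ^ 2) u) * om P D A (B ^ 2) u)) ∧
    P.p1 * P.p2 * (P.V' (-B) (A ^ 2) (nu P A B u) * om P D (-B) (A ^ 2) (nu P A B u) +
      P.V' B (A ^ 2) (nu P A (-B) u) * om P D B (A ^ 2) (nu P A (-B) u)) = om P D A (B ^ 2) u ∧
    P.p1 * P.p3 * (P.R' (-B) (A ^ 2) (nu P A B u) * om P D (-B) (A ^ 2) (nu P A B u) +
      P.R' B (A ^ 2) (nu P A (-B) u) * om P D B (A ^ 2) (nu P A (-B) u)) = -om P D A (B ^ 2) u := by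
  have h2 := h.h0.two
  have h0' : Eqs P A ((-B) ^ 2) u := by rw [neg_sq]; exact h.h0
  have hm' : Eqs P (- -B) (A ^ 2) (nu P A (-B) u) := by rw [neg_neg]; exact h.hm
  have a0 := om1 hD h.h0 h.hA h.b0
  have a1 := tr_om hD h.h0 h.s0 h.hp h.sp h.hB h.bp
  have a2 := tr_om hD h0' h.s0 hm' h.sm (neg_ne_zero.mpr h.hB) (by rw [neg_neg]; exact h.bm)
  have v1 := tr_V h.h0 h.s0 h.hp.n3
  have v2 := tr_V h0' h.s0 h.hm.n3
  have w1 := tr_R h.h0 h.s0 h.hp.n2
  have w2 := tr_R h0' h.s0 h.hm.n2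
  rw [neg_neg, neg_sq, S'_neg] at a2 v2 w2
  have r := rl h.h0 h.s0
  have j1 := r.J1 h.h0.u_ne
  have jV := r.JV h.h0.u_ne
  have jR := r.JR h.h0.u_ne
  have c := AB_eq P (A := A) (B := B) h.s0
  have l := A_LL h.h0
  have hS : S' P A B u ≠ 0 := fun h1 => by
    rw [h1, mul_zero] at c
    exact mul_ne_zero h.hA h.hB c
  have G : (2 : K) ^ 3 * P.p1 * kap P * B * P.R A (B ^ 2) * (u + P.p2 * P.p3) * S' P A B u * A ^ 2 ≠ 0 :=
    mul_ne_zero (mul_ne_zero (mul_ne_zero (mul_ne_zero (mul_ne_zero (mul_ne_zero (mul_ne_zero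
      (pow_ne_zero 3 h2) P.h1) (kap_ne P h2)) h.hB) h.hR) h.s0) hS) (pow_ne_zero 2 h.hA)
  have ee : E1 P (P.V' A (B ^ 2) u) (P.R' A (B ^ 2) u) (-S' P A B u) u =
      E1 P (P.V' A (B ^ 2) u) (P.R' A (B ^ 2) u) (S' P A B u) u := by unfold E1; ring
  rw [ee] at a2
  clear ee
  unfold om TT at *
  generalize P.z (-B) (A ^ 2) (nu P A B u) * D (P.z (-B) (A ^ 2) (nu P A B u)) /
    P.w (-B) (A ^ 2) (nu P A B u) = x1 at *
  generalize P.z B (A ^ 2) (nu P A (-B) u) * D (P.z B (A ^ 2) (nu P A (-B) u)) /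
    P.w B (A ^ 2) (nu P A (-B) u) = x2 at *
  generalize P.z A (B ^ 2) u * D (P.z A (B ^ 2) u) / P.w A (B ^ 2) u = x at *
  generalize E1 P (P.V' A (B ^ 2) u) (P.R' A (B ^ 2) u) (S' P A B u) u = e1 at *
  generalize E0 P (P.V' A (B ^ 2) u) (P.R' A (B ^ 2) u) u = e0 at *
  generalize LL P (P.V' A (B ^ 2) u) (P.R' A (B ^ 2) u) u = L at *
  generalize P.V' (-B) (A ^ 2) (nu P A B u) = V1 at *
  generalize P.R' (-B) (A ^ 2) (nu P A B u) = R1 at *
  generalize P.V' B (A ^ 2) (nu P A (-B) u) = V2 at *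
  generalize P.R' B (A ^ 2) (nu P A (-B) u) = R2 at *
  generalize P.V' A (B ^ 2) u = V at *
  generalize P.R' A (B ^ 2) u = R at *
  generalize S' P A B u = S at *
  generalize D (P.V A (B ^ 2)) = W at *
  generalize P.R A (B ^ 2) = Rf at *
  generalize (P.p1 * P.d1) * (P.p2 * P.d2) * W * u = Z at *
  generalize kap P = k at *
  have f0 : 4 * P.p1 * k * B * Rf * (u + P.p2 * P.p3) * S * A ^ 2 * x =
      4 * P.p1 * P.t * (P.d1 * (u + P.p2 * P.p3) * S ^ 2 * (P.p3 * R - P.p2 * V)) * Z := by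
    linear_combination 4 * P.p1 * S * (A * B) * a0 + 4 * P.p1 * S * Z * (P.p3 * R - P.p2 * V) * c
  have f1 : 4 * P.p1 * k * B * Rf * (u + P.p2 * P.p3) * S * A ^ 2 * x1 =
      -(Z * P.t * L * (e1 + S * e0)) := by
    linear_combination A ^ 2 * a1 - Z * (e1 + S * e0) * l
  have f2 : 4 * P.p1 * k * B * Rf * (u + P.p2 * P.p3) * S * A ^ 2 * x2 =
      -(Z * P.t * L * (e1 - S * e0)) := by
    linear_combination A ^ 2 * a2 - Z * (e1 - S * e0) * l
  refine ⟨mul_left_cancel₀ G ?_, mul_left_cancel₀ G ?_, mul_left_cancel₀ G ?_⟩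
  · linear_combination 2 * f1 + 2 * f2 + 2 * (P.p2 * P.d2 * V + P.p3 * P.d3 * R) * f0 -
      4 * Z * P.t * j1
  · linear_combination 2 * (P.p1 * P.p2) * V1 * f1 + 2 * (P.p1 * P.p2) * V2 * f2 - 2 * f0 -
      Z * P.t * L * (e1 + S * e0) * v1 - Z * P.t * L * (e1 - S * e0) * v2 - 2 * Z * P.t * jV
  · linear_combination 2 * (P.p1 * P.p3) * R1 * f1 + 2 * (P.p1 * P.p3) * R2 * f2 + 2 * f0 -
      Z * P.t * L * (e1 + S * e0) * w1 - Z * P.t * L * (e1 - S * e0) * w2 + 2 * Z * P.t * jR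

theorem om_zero (h : Eqs P A B2 u) : P.z A B2 u ^ 0 * D (P.z A B2 u) / P.w A B2 u =
    (P.al * P.V' A B2 u - P.be * P.R' A B2 u) * om P D A B2 u := by
  rw [← h.z_inv, om, ← mul_div_assoc, ← mul_assoc, inv_mul_cancel₀ h.z_ne, pow_zero]

theorem om_one : P.z A B2 u ^ 1 * D (P.z A B2 u) / P.w A B2 u = om P D A B2 u := by
  rw [pow_one, om]

theorem om_two : P.z A B2 u ^ 2 * D (P.z A B2 u) / P.w A B2 u =
    (P.al * P.V' A B2 u + P.be * P.R' A B2 u) * om P D A B2 u := by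
  rw [om, ← mul_div_assoc, ← mul_assoc, sq]; rfl

/-- the matrix of `j` -/
def Mx (P : Par K) : Matrix (Fin 3) (Fin 3) K :=
  !![0, P.al / (P.p1 * P.p2) + P.be / (P.p1 * P.p3), 0;
    P.al / (2 * P.p2 ^ 2) + P.be / (2 * P.p3 ^ 2), 0, P.al / (2 * P.p2 ^ 2) - P.be / (2 * P.p3 ^ 2);
    0, P.al / (P.p1 * P.p2) - P.be / (P.p1 * P.p3), 0]

/-- **MAT**, field level -/
theorem mat (hD : Kill P D) {B : K} (h : Tri P A B u) (k : Fin 3) :
    P.z (-B) (A ^ 2) (nu P A B u) ^ (k : ℕ) * D (P.z (-B) (A ^ 2) (nu P A B u)) /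
        P.w (-B) (A ^ 2) (nu P A B u) +
      P.z B (A ^ 2) (nu P A (-B) u) ^ (k : ℕ) * D (P.z B (A ^ 2) (nu P A (-B) u)) /
        P.w B (A ^ 2) (nu P A (-B) u) =
    ∑ m : Fin 3, Mx P k m *
      (P.z A (B ^ 2) u ^ (m : ℕ) * D (P.z A (B ^ 2) u) / P.w A (B ^ 2) u) := by
  obtain ⟨k1, k2, k3⟩ := key hD h
  have h2 := h.h0.two
  have := P.h1; have := P.h2; have := P.h3
  have ha := P.al_sq; have hb := P.be_sq
  rw [Fin.sum_univ_three]
  simp only [Fin.val_zero, Fin.val_one, Fin.val_two, om_zero h.h0, om_one, om_two]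
  fin_cases k
  · simp only [Fin.zero_eta, Fin.val_zero, om_zero h.hp, om_zero h.hm, Mx]
    simp
    field_simp
    linear_combination P.al * P.p3 * k2 - P.be * P.p2 * k3
  · simp only [Fin.mk_one, Fin.val_one, om_one, Mx]
    simp
    rw [k1]
    field_simp
    linear_combination -(2 * om P D A (B ^ 2) u * P.p3 ^ 2 * P.V' A (B ^ 2) u) * ha +
      2 * om P D A (B ^ 2) u * P.p2 ^ 2 * P.R' A (B ^ 2) u * hb
  · simp only [Fin.reduceFinMk, Fin.val_two, om_two, Mx]
    simp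
    field_simp
    linear_combination P.al * P.p3 * k2 + P.be * P.p2 * k3

end der

end Crest.Agent.T15.Om
end

-- ▼ part T15/Mat_16
section

/-!
# Row 15, block Ht (helper16): `Ht.MatStmt` from the field-level identity of `OmB_46`
-/

set_option autoImplicit false
set_option linter.all false

noncomputable section

namespace Crest.Agent.T15.Jm

open Crest.Agent.T15.Mo Crest.Agent.T15.Ht

theorem eqs_map {Y L : Type*} [Field Y] [Field L] (f : Y →+* L) {Q : Par Y} {A B2 u : Y}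
    (h : Eqs Q A B2 u) : Eqs (Q.map f) (f A) (f B2) (f u) := by
  refine ⟨?_, ?_, ?_, ?_, ?_⟩
  · simpa [map_ofNat] using (map_ne_zero f).2 h.two
  · simpa [map_ofNat] using congrArg f h.k0
  · simpa [map_ofNat, Par.Xc, Par.V] using congrArg f h.cub
  · simpa only [map_add, map_mul, Par.map_p1, Par.map_p2] using (map_ne_zero f).2 h.n3
  · simpa only [map_add, map_mul, Par.map_p1, Par.map_p3] using (map_ne_zero f).2 h.n2

variable {C : Type} [Field C] [IsAlgClosed C] [CharZero C] {P : Par C} (M : Mdl P)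

theorem up_YK : (P.map (algebraMap C M.Y)).map (algebraMap M.Y M.K) = P.map (algebraMap C M.K) := by
  simp only [Par.map, ← IsScalarTower.algebraMap_apply]

theorem up_aut (ψ : M.K ≃ₐ[C] M.K) :
    (P.map (algebraMap C M.K)).map (ψ : M.K →+* M.K) = P.map (algebraMap C M.K) := by
  simp only [Par.map, RingHom.coe_coe, ψ.commutes]

theorem alg_z : algebraMap M.Y M.K M.z = (P.map (algebraMap C M.K)).z (algebraMap M.Y M.K M.A)
    (M.B ^ 2) (algebraMap M.Y M.K M.u) := by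
  rw [Mdl.z, map_z, up_YK, M.hB]

theorem alg_w : algebraMap M.Y M.K M.w = (P.map (algebraMap C M.K)).w (algebraMap M.Y M.K M.A)
    (M.B ^ 2) (algebraMap M.Y M.K M.u) := by
  rw [Mdl.w, map_w, up_YK, M.hB]

theorem aut_z (ψ : M.K ≃ₐ[C] M.K) (a b v : M.K) : ψ ((P.map (algebraMap C M.K)).z a b v) =
    (P.map (algebraMap C M.K)).z (ψ a) (ψ b) (ψ v) := by
  have := map_z (ψ : M.K →+* M.K) (P.map (algebraMap C M.K)) a b v
  rwa [up_aut] at this

theorem aut_w (ψ : M.K ≃ₐ[C] M.K) (a b v : M.K) : ψ ((P.map (algebraMap C M.K)).w a b v) =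
    (P.map (algebraMap C M.K)).w (ψ a) (ψ b) (ψ v) := by
  have := map_w (ψ : M.K →+* M.K) (P.map (algebraMap C M.K)) a b v
  rwa [up_aut] at this

theorem rs_A : M.r.symm (algebraMap M.Y M.K M.A) = M.B := by
  rw [AlgEquiv.symm_apply_eq, M.rB]

theorem rs_B : M.r.symm M.B = -algebraMap M.Y M.K M.A := by
  rw [AlgEquiv.symm_apply_eq, map_neg, M.rA, neg_neg]

theorem rs_u : M.r.symm (algebraMap M.Y M.K M.u) = Om.nu (P.map (algebraMap C M.K))
    (algebraMap M.Y M.K M.A) (-M.B) (algebraMap M.Y M.K M.u) := by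
  rw [AlgEquiv.symm_apply_eq]
  exact (md M).rrru.symm.trans (congrArg M.r (md M).rru)

theorem r_u : M.r (algebraMap M.Y M.K M.u) = Om.nu (P.map (algebraMap C M.K))
    (algebraMap M.Y M.K M.A) M.B (algebraMap M.Y M.K M.u) := M.ru

theorem tri : Om.Tri (P.map (algebraMap C M.K)) (algebraMap M.Y M.K M.A) M.B
    (algebraMap M.Y M.K M.u) := by
  have h0 : Eqs (P.map (algebraMap C M.K)) (algebraMap M.Y M.K M.A) (M.B ^ 2)
      (algebraMap M.Y M.K M.u) := by
    have := eqs_map (algebraMap M.Y M.K) M.eqs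
    rwa [up_YK, ← M.hB] at this
  have h1 : ∀ ψ : M.K ≃ₐ[C] M.K, Eqs (P.map (algebraMap C M.K)) (ψ (algebraMap M.Y M.K M.A))
      (ψ M.B ^ 2) (ψ (algebraMap M.Y M.K M.u)) := fun ψ => by
    have := eqs_map (ψ : M.K →+* M.K) h0
    rwa [up_aut, map_pow] at this
  have s : ∀ ψ : M.K ≃ₐ[C] M.K, ψ (algebraMap M.Y M.K M.u) + (P.map (algebraMap C M.K)).p2 *
      (P.map (algebraMap C M.K)).p3 ≠ 0 := fun ψ => by
    have := (map_ne_zero ψ).2 ((md M).add_ne (P.p2 * P.p3))
    rwa [map_add, ψ.commutes, map_mul] at this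
  have b : ∀ ψ : M.K ≃ₐ[C] M.K, (P.map (algebraMap C M.K)).z (ψ (algebraMap M.Y M.K M.A))
      (ψ M.B ^ 2) (ψ (algebraMap M.Y M.K M.u)) ^ 2 - (P.map (algebraMap C M.K)).b ≠ 0 := fun ψ => by
    have := (map_ne_zero ψ).2 ((map_ne_zero (algebraMap M.Y M.K)).2 ((moY M).sq_sub_ne P.b))
    rw [map_sub, map_sub, map_pow, map_pow, ← IsScalarTower.algebraMap_apply, ψ.commutes] at this
    rw [← map_pow ψ M.B, ← aut_z, ← alg_z, Par.map_b]
    exact this
  have hp := h1 M.r
  have hm := h1 M.r.symm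
  have bp := b M.r
  have bm := b M.r.symm
  have sp := s M.r
  have sm := s M.r.symm
  rw [M.rA, M.rB, r_u] at hp bp
  rw [rs_A, rs_B, rs_u, neg_sq] at hm bm
  rw [r_u] at sp
  rw [rs_u] at sm
  refine ⟨h0, hp, hm, s 1, sp, sm, ?_, (md M).B_ne, fun h => ?_, b 1, bp, bm⟩
  · rw [← M.rB]; exact (map_ne_zero M.r).2 (md M).B_ne
  · have h2 := h0.R'_sq
    rw [Par.R', h, zero_div] at h2
    refine (md M).add_ne (-(2 * P.p2 ^ 2)) ?_
    rw [map_neg, map_mul, map_pow, map_ofNat]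
    rw [Par.map_p2] at h2
    linear_combination h2

end Crest.Agent.T15.Jm

namespace Crest.Agent.T15.Ht

open Crest.Agent.T15.Jm

/-- **leaf MAT** -/
theorem matStmt : MatStmt := by
  intro C _ _ _ P M D k
  have hD : Om.Kill (P.map (algebraMap C M.K)) D :=
    ⟨D.map_algebraMap _, D.map_algebraMap _, D.map_algebraMap _, D.map_algebraMap _⟩
  have h := Om.mat hD (tri M) k
  rw [alg_z, alg_w, aut_z, aut_w, aut_z, aut_w, map_pow, map_pow, M.rA, M.rB, r_u, rs_A, rs_B, rs_u,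
    neg_sq, h]
  refine Finset.sum_congr rfl fun m _ => ?_
  congr 1
  fin_cases k <;> fin_cases m <;> simp [Om.Mx, Mx, map_ofNat]

end Crest.Agent.T15.Ht
end
end

-- ▼ part T15/IrrA_66
section

/-!
# Row 15, block Ht (helper66): IRR, part A

`exists_SI` : semilinear isomorphisms of hyperelliptic function fields; `iota_pic` : the involution
is `-1` on the torsion; `chain` : three discs centred at `0`; `k4`, `irr_abs`.
-/

set_option autoImplicit false
set_option linter.all false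

namespace Crest.Agent.T15.Irr

open Polynomial Module
open scoped NNReal
open Crest.Agent.R013.RR7_948 Crest.Agent.R013.RR8_948 Crest.Agent.R013.RR9_948
open Crest.Agent.R013.RR11_948 Crest.Agent.R013.RR12_948 Crest.Agent.R013.PicD_398
open Crest.Agent.R013.RR20_948 Crest.Agent.R013.GR2_921 Crest.Agent.R013.GR3_921
open Crest.Agent.R013.GR4_921 Crest.Agent.R013.Frob1_914
open Crest.Agent.T15.Hy Crest.Agent.T15.Nf

section si

variable {k K k' K' : Type*} [Field k] [Field K] [Algebra k K] [Field k'] [Field K'] [Algebra k' K']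
  {F : k[X]} {x w : K} {F' : k'[X]} {x' w' : K'}

/-- the image of `f` under the semilinear map `x ↦ x'`, `w ↦ w'` -/
noncomputable def im (h : Hyp F x w) (s : k →+* k') (x' w' : K') (f : K) : K' :=
  el x' w' ((h.gen f).choose.map s) ((h.gen f).choose_spec.choose.map s) /
    aeval x' ((h.gen f).choose_spec.choose_spec.choose.map s)

theorem im_spec (h : Hyp F x w) (h' : Hyp F' x' w') (s : k →+* k') {f : K} {A B c : k[X]}
    (hf : f * aeval x c = el x w A B) :
    im h s x' w' f * aeval x' (c.map s) = el x' w' (A.map s) (B.map s) := by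
  obtain ⟨hc, hs⟩ := (h.gen f).choose_spec.choose_spec.choose_spec
  unfold im
  set A' := (h.gen f).choose
  set B' := (h.gen f).choose_spec.choose
  set c' := (h.gen f).choose_spec.choose_spec.choose
  have h1 : el x w (A * c') (B * c') = el x w (A' * c) (B' * c) := by
    rw [← el_mul_aeval, ← el_mul_aeval, ← hf, ← hs]; ring
  obtain ⟨h2, h3⟩ := h.el_inj h1
  have hc' : c'.map s ≠ 0 := by rwa [ne_eq, Polynomial.map_eq_zero]
  rw [div_mul_eq_mul_div, div_eq_iff (h'.aeval_ne hc'), el_mul_aeval, el_mul_aeval,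
    ← Polynomial.map_mul, ← Polynomial.map_mul, ← Polynomial.map_mul, ← Polynomial.map_mul, h2, h3]

theorem im_el (h : Hyp F x w) (h' : Hyp F' x' w') (s : k →+* k') (A B : k[X]) :
    im h s x' w' (el x w A B) = el x' w' (A.map s) (B.map s) := by
  have := im_spec h h' s (f := el x w A B) (c := 1) (A := A) (B := B) (by simp)
  simpa using this

/-- the semilinear homomorphism `x ↦ x'`, `w ↦ w'` -/
noncomputable def hom (h : Hyp F x w) (h' : Hyp F' x' w') (s : k →+* k') (hs : F.map s = F') :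
    K →+* K' where
  toFun := im h s x' w'
  map_one' := by simpa [el] using im_el h h' s 1 0
  map_zero' := by simpa [el] using im_el h h' s 0 0
  map_add' f g := by
    obtain ⟨A, B, c, hc, hf⟩ := h.gen f
    obtain ⟨A', B', c', hc', hg⟩ := h.gen g
    have h1 : (f + g) * aeval x (c * c') = el x w (A * c' + A' * c) (B * c' + B' * c) := by
      rw [← el_add, ← el_mul_aeval, ← el_mul_aeval, ← hf, ← hg, map_mul]; ring
    have h0 : (c * c').map s ≠ 0 := by
      rw [ne_eq, Polynomial.map_eq_zero]; exact mul_ne_zero hc hc'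
    apply mul_right_cancel₀ (h'.aeval_ne h0)
    rw [im_spec h h' s h1]
    simp only [Polynomial.map_add, Polynomial.map_mul]
    rw [← el_add, ← el_mul_aeval, ← el_mul_aeval, ← im_spec h h' s hf, ← im_spec h h' s hg, map_mul]
    ring
  map_mul' f g := by
    obtain ⟨A, B, c, hc, hf⟩ := h.gen f
    obtain ⟨A', B', c', hc', hg⟩ := h.gen g
    have h1 : (f * g) * aeval x (c * c') = el x w (A * A' + B * B' * F) (A * B' + B * A') := by
      rw [← el_mul h.sq, ← hf, ← hg, map_mul]; ring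
    have h0 : (c * c').map s ≠ 0 := by
      rw [ne_eq, Polynomial.map_eq_zero]; exact mul_ne_zero hc hc'
    apply mul_right_cancel₀ (h'.aeval_ne h0)
    rw [im_spec h h' s h1]
    simp only [Polynomial.map_add, Polynomial.map_mul, hs]
    rw [← el_mul h'.sq, ← im_spec h h' s hf, ← im_spec h h' s hg, map_mul]
    ring

theorem hom_el (h : Hyp F x w) (h' : Hyp F' x' w') (s : k →+* k') (hs : F.map s = F')
    (A B : k[X]) : hom h h' s hs (el x w A B) = el x' w' (A.map s) (B.map s) := im_el h h' s A B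

/-- **existence of semilinear isomorphisms** -/
theorem exists_SI (h : Hyp F x w) (h' : Hyp F' x' w') (s : k ≃+* k')
    (hs : F.map (s : k →+* k') = F') :
    ∃ e : SI k K k' K', e.s = s ∧ e.f x = x' ∧ e.f w = w' := by
  have hm : ∀ A : k'[X], (A.map (s.symm : k' →+* k)).map (s : k →+* k') = A := fun A => by
    rw [Polynomial.map_map]; simp
  have hsur : Function.Surjective (hom h h' (s : k →+* k') hs) := fun g => by
    obtain ⟨A, B, c, hc, hg⟩ := h'.gen g
    refine ⟨el x w (A.map (s.symm : k' →+* k)) (B.map (s.symm : k' →+* k)) /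
      el x w (c.map (s.symm : k' →+* k)) 0, ?_⟩
    rw [map_div₀, hom_el, hom_el, hm, hm, hm, Polynomial.map_zero, el_zero,
      div_eq_iff (h'.aeval_ne hc), hg]
  refine ⟨⟨s, RingEquiv.ofBijective _ ⟨(hom h h' (s : k →+* k') hs).injective, hsur⟩,
    fun c => ?_⟩, rfl, ?_, ?_⟩
  · show hom h h' (s : k →+* k') hs _ = _
    simpa [el] using hom_el h h' (s : k →+* k') hs (C c) 0
  · show hom h h' (s : k →+* k') hs _ = _
    simpa [el] using hom_el h h' (s : k →+* k') hs X 0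
  · show hom h h' (s : k →+* k') hs _ = _
    simpa [el] using hom_el h h' (s : k →+* k') hs 0 1

end si

section iota

variable {k K : Type*} [Field k] [IsAlgClosed k] [Field K] [Algebra k K]
  [Algebra (RatFunc k) K] [IsScalarTower k (RatFunc k) K] [FiniteDimensional (RatFunc k) K]
  [Algebra.IsSeparable (RatFunc k) K] {F : k[X]} {x w : K}

theorem iota_add (h : Hyp F x w) (ho : Odd F.natDegree) (y : Pic k K) :
    h.siota.pic y + y = degPic y • cls (Dinf k x) := by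
  obtain ⟨D, rfl⟩ := cls_surjective y
  induction D using Finsupp.induction_linear with
  | zero => simp
  | add D E h1 h2 =>
    rw [map_add, map_add, map_add, add_zsmul, ← h1, ← h2]; abel
  | single P n =>
    have h1 : h.siota.pic (cls (Finsupp.single P 1)) + cls (Finsupp.single P 1) =
        cls (Dinf k x) := by
      rw [SI.pic_cls, SI.D_single]
      rcases le_or_gt (P.v x) 1 with hP | hP
      · have hA := h.at_ev hP
        rw [← h.pt_eq (hA.iota h), add_comm]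
        nth_rewrite 1 [← h.pt_eq hA]
        exact h.cls_pt_add (hA.sq h.sq)
      · have h2 : 1 < (h.siota.pl P).v x := by rwa [h.siota_v, h.iota_x]
        rw [Aj.eq_inf h ho h2, Aj.eq_inf h ho hP, Aj.Dinf_eq h ho, ← map_add, ← Finsupp.single_add]
        rfl
    have h2 : Finsupp.single P n = n • Finsupp.single P (1 : ℤ) := by simp
    rw [degPic_cls, degD_single, degP_eq_one, h2, map_zsmul, map_zsmul, ← zsmul_add, h1]
    simp

/-- the hyperelliptic involution is `-1` on the torsion -/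
theorem iota_pic (h : Hyp F x w) (ho : Odd F.natDegree) {n : ℕ} (hn : n ≠ 0) {y : Pic k K}
    (hy : n • y = 0) : h.siota.pic y = -y := by
  have h1 : degPic y = 0 := by
    have := congrArg degPic hy
    rw [map_nsmul, map_zero, nsmul_eq_mul] at this
    exact (mul_eq_zero.1 this).resolve_left (by exact_mod_cast hn)
  have := iota_add h ho y
  rwa [h1, zero_zsmul, add_eq_zero_iff_eq_neg] at this

end iota

theorem nos : NOS := fun C K k _ _ _ _ _ _ _ _ _ _ _ vC ρC p hp hpv ι _ W hW κ _ _ ρ h g hg hs e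
    he n hn y hy => by
  haveI : Fact p.Prime := ⟨hp⟩
  exact Ct.nos h hW hg p hpv hs e (fun i f hf => he i f hf.le) hn hy

theorem isAlgClosed_res {C : Type*} [Field C] [IsAlgClosed C] (O : ValuationSubring C) :
    IsAlgClosed (IsLocalRing.ResidueField O) := by
  apply IsAlgClosed.of_exists_root
  intro p hp hirr
  have hl : p ∈ Polynomial.lifts (IsLocalRing.residue O) := by
    rw [Polynomial.lifts_iff_coeff_lifts]
    intro n
    exact IsLocalRing.residue_surjective _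
  obtain ⟨q, hq, -, hqm⟩ := Polynomial.lifts_and_degree_eq_and_monic hl hp
  have hdeg : (q.map (algebraMap O C)).degree ≠ 0 := by
    rw [hqm.degree_map]
    have h1 : p.degree = q.degree := by rw [← hq, hqm.degree_map]
    rw [← h1]
    exact (degree_pos_of_irreducible hirr).ne'
  obtain ⟨z, hz⟩ := IsAlgClosed.exists_root _ hdeg
  rw [IsRoot, eval_map] at hz
  have hzi : IsIntegral O z := ⟨q, hqm, hz⟩
  obtain ⟨z', rfl⟩ := IsIntegrallyClosed.isIntegral_iff.1 hzi
  refine ⟨IsLocalRing.residue O z', ?_⟩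
  have h2 : algebraMap O C (q.eval z') = 0 := by
    rw [← hz, eval₂_at_apply]
  have h3 : q.eval z' = 0 := by
    rwa [map_eq_zero_iff _ (IsFractionRing.injective O C)] at h2
  rw [← hq, eval_map, eval₂_at_apply, h3, map_zero]

section unit

variable {C : Type*} [Field C] {vC : Valuation C ℝ≥0} {s : C ≃+* C}

/-- `s u / u` modulo the maximal ideal depends only on the norm of `u` -/
theorem unit_congr (hs : ∀ c, vC c ≤ 1 → vC (s c - c) < 1) {u lam ε : C} (hl : lam ≠ 0)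
    (hε : ε ^ 2 = 1) (hlam : s lam = ε * lam) {m : ℤ} (hu : vC u = vC lam ^ m) :
    vC (ε ^ m * u / s u - 1) < 1 := by
  have hvl : vC lam ≠ 0 := by simpa using hl
  have hε0 : ε ≠ 0 := by rintro rfl; simp at hε
  have hu0 : u ≠ 0 := by
    rintro rfl
    rw [map_zero] at hu
    exact zpow_ne_zero m hvl hu.symm
  set a := u / lam ^ m with ha
  have h1 : vC a = 1 := by rw [ha, map_div₀, map_zpow₀, hu, div_self (zpow_ne_zero m hvl)]
  have h2 := hs a h1.le
  have h3 : vC (s a) = 1 := by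
    have : s a = a + (s a - a) := by ring
    rw [this, Valuation.map_add_eq_of_lt_left _ (by rwa [h1]), h1]
  have hsa : s a ≠ 0 := by rintro h0; rw [h0] at h3; simp at h3
  have h4 : s u = s a * (ε ^ m * lam ^ m) := by
    rw [← mul_zpow, ← hlam, ← map_zpow₀, ← map_mul, ha, div_mul_cancel₀ _ (zpow_ne_zero m hl)]
  have h5 : ε ^ m * u / s u - 1 = -(s a - a) / s a := by
    have := zpow_ne_zero m hl
    have := zpow_ne_zero m hε0
    have h6 : u = a * lam ^ m := by rw [ha, div_mul_cancel₀ _ (zpow_ne_zero m hl)]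
    rw [h4]
    nth_rewrite 1 [h6]
    generalize lam ^ m = L at *
    generalize ε ^ m = E at *
    field_simp
    ring
  rw [h5, map_div₀, Valuation.map_neg, h3, div_one]
  exact h2

theorem zpow_odd {ε : C} (hε : ε ^ 2 = 1) {m : ℤ} (hm : Odd m) : ε ^ m = ε := by
  have hε0 : ε ≠ 0 := by rintro rfl; simp at hε
  obtain ⟨j, rfl⟩ := hm
  rw [zpow_add₀ hε0, zpow_mul, zpow_one, zpow_ofNat, hε, one_zpow, one_mul]

theorem zpow_even {ε : C} (hε : ε ^ 2 = 1) (m : ℤ) : ε ^ (2 * m) = 1 := by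
  rw [zpow_mul, zpow_ofNat, hε, one_zpow]

theorem v_sqrt {u b lam : C} (h : u ^ 2 = b) {m : ℤ} (hb : vC b = vC lam ^ (2 * m)) :
    vC u = vC lam ^ m := by
  have : vC u ^ 2 = (vC lam ^ m) ^ 2 := by
    rw [← map_pow, h, hb, mul_comm, zpow_mul, zpow_ofNat]
  exact (pow_left_inj₀ zero_le zero_le two_ne_zero).1 this

end unit

section chain

variable {C k K : Type} [Field C] [Field k] [Field K] [Algebra C K]
  {vC : Valuation C ℝ≥0} {ρC : C → k}

theorem sepH (h2 : (2 : k) ≠ 0) : (X * (X ^ 2 - 1) : k[X]).Separable := by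
  refine Separable.mul separable_X ?_ ?_
  · simpa using separable_X_pow_sub_C (1 : k) (n := 2) (by exact_mod_cast h2) one_ne_zero
  · exact ⟨X, -1, by ring⟩

theorem degH : (X * (X ^ 2 - 1) : k[X]).natDegree = 3 := by
  have : (X * (X ^ 2 - 1) : k[X]) = X ^ 3 - X := by ring
  rw [this]
  compute_degree!

theorem rdQ (hr : IsRes vC ρC) : Rd vC ρC (X ^ 2 - 1) (X ^ 2 - 1) :=
  ((Rd.X hr).pow hr 2).sub hr (Rd.one hr)

theorem rdS (hr : IsRes vC ρC) {a : C} (ha : vC a < 1) :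
    Rd vC ρC (X ^ 2 - Polynomial.C a) (X ^ 2) :=
  (((Rd.X hr).pow hr 2).sub hr (Rd.cst_lt hr ha)).congr rfl (sub_zero _)

theorem rdB (hr : IsRes vC ρC) {a : C} (ha : vC a < 1) :
    Rd vC ρC (1 - Polynomial.C a * X ^ 2) 1 :=
  ((Rd.one hr).sub hr ((Rd.cst_lt hr ha).mul hr ((Rd.X hr).pow hr 2))).congr rfl (by simp)

theorem comp_Fm (c b1 b2 b3 π : C) :
    (Mo.Fm c b1 b2 b3).comp (Polynomial.C 0 + Polynomial.C π * X) =
      Polynomial.C c * (Polynomial.C π * X) * (Polynomial.C (π ^ 2) * X ^ 2 - Polynomial.C b1) *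
        (Polynomial.C (π ^ 2) * X ^ 2 - Polynomial.C b2) *
        (Polynomial.C (π ^ 2) * X ^ 2 - Polynomial.C b3) := by
  simp only [Mo.Fm, mul_comp, sub_comp, pow_comp, X_comp, C_comp, map_zero, zero_add, map_pow,
    mul_pow]

theorem facS {b a : C} (hb : b ≠ 0) : (Polynomial.C b * X ^ 2 - Polynomial.C a : C[X]) =
    Polynomial.C b * (X ^ 2 - Polynomial.C (a / b)) := by
  rw [mul_sub, ← map_mul, mul_div_cancel₀ _ hb]

theorem facB {b a : C} (ha : a ≠ 0) : (Polynomial.C b * X ^ 2 - Polynomial.C a : C[X]) =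
    -Polynomial.C a * (1 - Polynomial.C (b / a) * X ^ 2) := by
  have : (Polynomial.C b : C[X]) = Polynomial.C a * Polynomial.C (b / a) := by
    rw [← map_mul, mul_div_cancel₀ _ ha]
  rw [this]; ring

theorem facQ (b : C) : (Polynomial.C b * X ^ 2 - Polynomial.C b : C[X]) =
    Polynomial.C b * (X ^ 2 - 1) := by ring

theorem v_div_lt {a b : C} (h : vC a < vC b) : vC (a / b) < 1 := by
  rw [map_div₀]; exact (div_lt_one (zero_le.trans_lt h)).2 h

variable {c b1 b2 b3 : C}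

theorem ch1 (hr : IsRes vC ρC) (h2 : (2 : k) ≠ 0) (hc : c ≠ 0) (h1 : b1 ≠ 0)
    (h12 : vC b1 < vC b2) (h23 : vC b2 < vC b3) {π γ : C} (hπ : π ^ 2 = b1)
    (hγ : γ ^ 2 = c * π * b1 * b2 * b3) :
    Ch vC ρC (Mo.Fm c b1 b2 b3) 0 π γ 1 (X * (X ^ 2 - 1)) := by
  have n2 : b2 ≠ 0 := by rintro rfl; simp at h12
  have n3 : b3 ≠ 0 := by rintro rfl; simp at h23
  have p0 : π ≠ 0 := by rintro rfl; exact h1 (by rw [← hπ]; ring)
  have g0 : γ ≠ 0 := by
    rintro rfl
    exact mul_ne_zero (mul_ne_zero (mul_ne_zero (mul_ne_zero hc p0) h1) n2) n3 (by rw [← hγ]; ring)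
  refine Ch.mk' (F1 := X * (X ^ 2 - 1) * (1 - Polynomial.C (b1 / b2) * X ^ 2) *
    (1 - Polynomial.C (b1 / b3) * X ^ 2)) p0 g0 ?_ ?_ one_ne_zero (sepH h2) (by rw [degH]; norm_num)
  · rw [comp_Fm, hπ, hγ, facQ, facB n2, facB n3]
    simp only [map_mul]; ring
  · exact ((((Rd.X hr).mul hr (rdQ hr)).mul hr (rdB hr (v_div_lt h12))).mul hr
      (rdB hr (v_div_lt (h12.trans h23)))).congr rfl (by ring)

theorem ch2 (hr : IsRes vC ρC) (h2 : (2 : k) ≠ 0) (hc : c ≠ 0)
    (h12 : vC b1 < vC b2) (h23 : vC b2 < vC b3) {π γ : C} (hπ : π ^ 2 = b2)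
    (hγ : γ ^ 2 = -(c * π * b2 * b2 * b3)) :
    Ch vC ρC (Mo.Fm c b1 b2 b3) 0 π γ X (X * (X ^ 2 - 1)) := by
  have n2 : b2 ≠ 0 := by rintro rfl; simp at h12
  have n3 : b3 ≠ 0 := by rintro rfl; simp at h23
  have p0 : π ≠ 0 := by rintro rfl; exact n2 (by rw [← hπ]; ring)
  have g0 : γ ≠ 0 := by
    rintro rfl
    exact neg_ne_zero.2 (mul_ne_zero (mul_ne_zero (mul_ne_zero (mul_ne_zero hc p0) n2) n2) n3)
      (by rw [← hγ]; ring)
  refine Ch.mk' (F1 := X * (X ^ 2 - Polynomial.C (b1 / b2)) * (X ^ 2 - 1) *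
    (1 - Polynomial.C (b2 / b3) * X ^ 2)) p0 g0 ?_ ?_ X_ne_zero (sepH h2) (by rw [degH]; norm_num)
  · rw [comp_Fm, hπ, hγ, facQ, facS n2, facB n3]
    simp only [map_mul, map_neg]; ring
  · exact ((((Rd.X hr).mul hr (rdS hr (v_div_lt h12))).mul hr (rdQ hr)).mul hr
      (rdB hr (v_div_lt h23))).congr rfl (by ring)

theorem ch3 (hr : IsRes vC ρC) (h2 : (2 : k) ≠ 0) (hc : c ≠ 0)
    (h12 : vC b1 < vC b2) (h23 : vC b2 < vC b3) {π γ : C} (hπ : π ^ 2 = b3)
    (hγ : γ ^ 2 = c * π * b3 * b3 * b3) :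
    Ch vC ρC (Mo.Fm c b1 b2 b3) 0 π γ (X ^ 2) (X * (X ^ 2 - 1)) := by
  have n3 : b3 ≠ 0 := by rintro rfl; simp at h23
  have p0 : π ≠ 0 := by rintro rfl; exact n3 (by rw [← hπ]; ring)
  have g0 : γ ≠ 0 := by
    rintro rfl
    exact mul_ne_zero (mul_ne_zero (mul_ne_zero (mul_ne_zero hc p0) n3) n3) n3 (by rw [← hγ]; ring)
  refine Ch.mk' (F1 := X * (X ^ 2 - Polynomial.C (b1 / b3)) * (X ^ 2 - Polynomial.C (b2 / b3)) *
    (X ^ 2 - 1)) p0 g0 ?_ ?_ (pow_ne_zero 2 X_ne_zero) (sepH h2) (by rw [degH]; norm_num)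
  · rw [comp_Fm, hπ, hγ, facQ, facS n3, facS n3]
    simp only [map_mul]; ring
  · exact ((((Rd.X hr).mul hr (rdS hr (v_div_lt (h12.trans h23)))).mul hr
      (rdS hr (v_div_lt h23))).mul hr (rdQ hr)).congr rfl (by ring)

variable [IsAlgClosed C] [CharZero C] [Algebra (RatFunc C) K] [IsScalarTower C (RatFunc C) K]
  [FiniteDimensional (RatFunc C) K] [Algebra.IsSeparable (RatFunc C) K]

/-- **three discs centred at `0`** : `m i` are the exponents of the radii in terms of `lam`, `g i`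
those of `γ` -/
theorem chain [IsAlgClosed k] (hr : IsRes vC ρC) (h2 : (2 : k) ≠ 0) {p : ℕ} (hp : p.Prime)
    (hpv : vC p < 1) {x w : K} (hy : Hyp (Mo.Fm c b1 b2 b3) x w)
    (hd : (Mo.Fm c b1 b2 b3).natDegree = 7) (h12 : vC b1 < vC b2) (h23 : vC b2 < vC b3)
    {lam ε : C} (hl : lam ≠ 0) (hε : ε ^ 2 = 1) {n0 n1 n2 n3 : ℤ}
    (v0 : vC c = vC lam ^ (4 * n0)) (v1 : vC b1 = vC lam ^ (4 * n1))
    (v2 : vC b2 = vC lam ^ (4 * n2)) (v3 : vC b3 = vC lam ^ (4 * n3))
    (o1 : Odd n1) (o2 : Odd n2) (o3 : Odd n3)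
    (e : SI C K C K) (hs : ∀ c, vC c ≤ 1 → vC (e.s c - c) < 1) (hlam : e.s lam = ε * lam)
    (hx : e.f x = x) (hw : e.f w = algebraMap C K ε * w) {n : ℕ} (hn : vC n = 1) {y : Pic C K}
    (hy0 : n • y = 0) : e.pic y = y := by
  have hvl : vC lam ≠ 0 := by simpa using hl
  have hc : c ≠ 0 := by
    rintro rfl; rw [map_zero] at v0; exact zpow_ne_zero _ hvl v0.symm
  have h1 : b1 ≠ 0 := by
    rintro rfl; rw [map_zero] at v1; exact zpow_ne_zero _ hvl v1.symm
  have sq : ∀ a : C, ∃ z, z ^ 2 = a := fun a => IsAlgClosed.exists_pow_nat_eq a two_pos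
  obtain ⟨π1, p1⟩ := sq b1
  obtain ⟨π2, p2⟩ := sq b2
  obtain ⟨π3, p3⟩ := sq b3
  obtain ⟨γ1, g1⟩ := sq (c * π1 * b1 * b2 * b3)
  obtain ⟨γ2, g2⟩ := sq (-(c * π2 * b2 * b2 * b3))
  obtain ⟨γ3, g3⟩ := sq (c * π3 * b3 * b3 * b3)
  have w1 : vC π1 = vC lam ^ (2 * n1) := v_sqrt p1 (by rw [v1]; congr 1; ring)
  have w2 : vC π2 = vC lam ^ (2 * n2) := v_sqrt p2 (by rw [v2]; congr 1; ring)
  have w3 : vC π3 = vC lam ^ (2 * n3) := v_sqrt p3 (by rw [v3]; congr 1; ring)
  have u1 : vC γ1 = vC lam ^ (2 * (n0 + n1 + n2 + n3) + n1) := v_sqrt g1 (by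
    simp only [map_mul, v0, v1, v2, v3, w1, ← zpow_add₀ hvl]; congr 1; ring)
  have u2 : vC γ2 = vC lam ^ (2 * (n0 + n2 + n2 + n3) + n2) := v_sqrt g2 (by
    simp only [Valuation.map_neg, map_mul, v0, v2, v3, w2, ← zpow_add₀ hvl]; congr 1; ring)
  have u3 : vC γ3 = vC lam ^ (2 * (n0 + n3 + n3 + n3) + n3) := v_sqrt g3 (by
    simp only [map_mul, v0, v3, w3, ← zpow_add₀ hvl]; congr 1; ring)
  have lt : ∀ {a b a' b' : C}, a ^ 2 = a' → b ^ 2 = b' → vC a' < vC b' → vC a < vC b := by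
    intro a b a' b' ha hb h
    rw [← ha, ← hb, map_pow, map_pow] at h
    exact lt_of_pow_lt_pow_left₀ 2 zero_le h
  have l12 := lt p1 p2 h12
  have l23 := lt p2 p3 h23
  have l13 := l12.trans l23
  have kπ : ∀ {π : C} {m : ℤ}, vC π = vC lam ^ (2 * m) → vC (1 * π / e.s π - 1) < 1 := by
    intro π m h
    have := unit_congr hs hl hε hlam h
    rwa [zpow_even hε] at this
  have kγ : ∀ {γ : C} {m j : ℤ}, Odd j → vC γ = vC lam ^ (2 * m + j) →
      vC (ε * γ / e.s γ - 1) < 1 := by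
    intro γ m j hj h
    have := unit_congr hs hl hε hlam h
    rwa [zpow_odd hε ((even_two_mul m).add_odd hj)] at this
  refine nos_of_charts nos hr h2 hp hpv hy (ι := Fin 3) (a := fun _ => 0) (π := ![π1, π2, π3])
    (γ := ![γ1, γ2, γ3]) (G := ![1, X, X ^ 2]) (H := fun _ => X * (X ^ 2 - 1)) ?_ ?_ ?_ e hs
    (α := 1) (β := 0) (ε := ε) (by simpa using hx) hw ?_ ?_ ?_ hn hy0
  · intro i
    fin_cases i
    · exact ch1 hr h2 hc h1 h12 h23 p1 g1
    · exact ch2 hr h2 hc h12 h23 p2 g2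
    · exact ch3 hr h2 hc h12 h23 p3 g3
  · intro i j hij
    left
    fin_cases i <;> fin_cases j <;> first
      | exact absurd rfl hij | exact l12.ne | exact l12.ne' | exact l23.ne | exact l23.ne'
      | exact l13.ne | exact l13.ne'
  · simp [hd, degH]
  · intro i
    fin_cases i
    · exact kπ w1
    · exact kπ w2
    · exact kπ w3
  · intro i; simp
  · intro i
    fin_cases i
    · exact kγ o1 u1
    · exact kγ o2 u2
    · exact kγ o3 u3

end chain

section abs

variable {C K : Type*} [Field C] [IsAlgClosed C] [Field K] [Algebra C K]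
  [Algebra (RatFunc C) K] [IsScalarTower C (RatFunc C) K] [FiniteDimensional (RatFunc C) K]
  [Algebra.IsSeparable (RatFunc C) K]

/-- inertia acts on the `n`-torsion through `s lam / lam = ± 1` -/
def K4 (vC : Valuation C ℝ≥0) (x w : K) (lam : C) (n : ℕ) : Prop :=
  ∀ (e : SI C K C K) (ε : C), ε ^ 2 = 1 → (∀ c, vC c ≤ 1 → vC (e.s c - c) < 1) →
    e.s lam = ε * lam → e.f x = x → e.f w = algebraMap C K ε * w →
    ∀ y : Pic C K, n • y = 0 → e.pic y = y

variable {vC : Valuation C ℝ≥0} {F : C[X]} {x w : K} {lam : C} {n : ℕ}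

theorem K4.one (h : K4 vC x w lam n) (e : SI C K C K)
    (hs : ∀ c, vC c ≤ 1 → vC (e.s c - c) < 1) (hl : e.s lam = lam) (hx : e.f x = x)
    (hw : e.f w = w) {y : Pic C K} (hy : n • y = 0) : e.pic y = y :=
  h e 1 (one_pow 2) hs (by rw [hl, one_mul]) hx (by rw [hw, map_one, one_mul]) y hy

theorem K4.neg (h : K4 vC x w lam n) (hF : Hyp F x w) (ho : Odd F.natDegree) (hn : n ≠ 0)
    (e : SI C K C K) (hs : ∀ c, vC c ≤ 1 → vC (e.s c - c) < 1) (hl : e.s lam = -lam)
    (hx : e.f x = x) (hw : e.f w = w) {y : Pic C K} (hy : n • y = 0) : e.pic y = -y := by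
  have h1 := h (hF.siota.trans e) (-1) (by ring) hs (by rw [neg_one_mul]; exact hl)
    (by show e.f (hF.iota x) = x; rw [hF.iota_x, hx])
    (by show e.f (hF.iota w) = _; rw [hF.iota_w, map_neg, hw]; simp) y hy
  rw [SI.pic_trans, iota_pic hF ho hn hy, map_neg] at h1
  exact neg_eq_iff_eq_neg.1 h1

/-- **the quaternion relations** -/
theorem irr_abs (h : K4 vC x w lam n) (hF : Hyp F x w) (ho : Odd F.natDegree) (hn : n ≠ 0)
    (h2 : vC 2 = 1) (hl : lam ≠ 0) (e e' : SI C K C K)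
    (hs : ∀ c, vC c ≤ 1 → vC (e.s c - c) < 1) (hi : ∀ c, vC (e'.s c) = vC c) {i : C}
    (hii : i ^ 2 = -1) (h1 : e.s lam = i * lam) (h3 : e'.s i = -i) (h4 : e'.s (lam ^ 4) = lam ^ 4)
    (hx : e.f x = x) (hw : e.f w = w) (hx' : e'.f x = x) (hw' : e'.f w = w) {y : Pic C K}
    (hy : n • y = 0) : e.pic (e.pic y) = -y ∧ e'.pic (e.pic y) = -e.pic (e'.pic y) := by
  have vi : vC i = 1 := by
    have : vC i ^ 2 = 1 ^ 2 := by rw [← map_pow, hii, Valuation.map_neg, map_one, one_pow]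
    exact (pow_left_inj₀ zero_le zero_le two_ne_zero).1 this
  have si : e.s i = i := by
    have h5 : (e.s i - i) * (e.s i + i) = 0 := by
      have : e.s i ^ 2 = -1 := by rw [← map_pow, hii, map_neg, map_one]
      linear_combination this - hii
    rcases mul_eq_zero.1 h5 with h6 | h6
    · exact sub_eq_zero.1 h6
    · have h7 := hs i vi.le
      rw [eq_neg_of_add_eq_zero_left h6, show -i - i = -(2 * i) by ring, Valuation.map_neg, map_mul,
        h2, vi, one_mul] at h7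
      exact absurd h7 (lt_irrefl _)
  have le1 : ∀ c, vC c ≤ 1 → vC (e.s c) ≤ 1 := fun c hc => by
    have : e.s c = c + (e.s c - c) := by ring
    rw [this]; exact (vC.map_add _ _).trans (max_le hc (hs c hc).le)
  have add : ∀ {a b : C}, vC a < 1 → vC b < 1 → vC (a + b) < 1 := fun ha hb =>
    (vC.map_add _ _).trans_lt (max_lt ha hb)
  have hi' : ∀ c, vC (e'.s.symm c) = vC c := fun c => by rw [← hi, RingEquiv.apply_symm_apply]
  have A : ∀ {y : Pic C K}, n • y = 0 → e.pic (e.pic y) = -y := fun {y} hy => by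
    rw [← SI.pic_trans]
    refine h.neg hF ho hn _ (fun c hc => ?_) ?_ ?_ ?_ hy
    · show vC (e.s (e.s c) - c) < 1
      have := add (hs _ (le1 c hc)) (hs c hc)
      rwa [sub_add_sub_cancel] at this
    · show e.s (e.s lam) = -lam
      rw [h1, map_mul, si, h1, ← mul_assoc, ← sq, hii, neg_one_mul]
    · show e.f (e.f x) = x
      rw [hx, hx]
    · show e.f (e.f w) = w
      rw [hw, hw]
  -- `e'⁻¹ lam = ζ lam` with `ζ` fixed by `e`
  obtain ⟨ζ, hζ, sζ⟩ : ∃ ζ, e'.s.symm lam = ζ * lam ∧ e.s ζ = ζ := by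
    have h5 : e'.s.symm lam ^ 4 = lam ^ 4 := by rw [← map_pow, RingEquiv.symm_apply_eq, h4]
    have h6 : (e'.s.symm lam - lam) * (e'.s.symm lam + lam) * (e'.s.symm lam - i * lam) *
        (e'.s.symm lam + i * lam) = 0 := by
      linear_combination h5 - (e'.s.symm lam ^ 2 - lam ^ 2) * lam ^ 2 * hii
    rcases mul_eq_zero.1 h6 with h6 | h6
    · rcases mul_eq_zero.1 h6 with h6 | h6
      · rcases mul_eq_zero.1 h6 with h6 | h6
        · exact ⟨1, by linear_combination h6, map_one _⟩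
        · exact ⟨-1, by linear_combination h6, by rw [map_neg, map_one]⟩
      · exact ⟨i, by linear_combination h6, si⟩
    · exact ⟨-i, by linear_combination h6, by rw [map_neg, si]⟩
  have h3' : e'.s.symm i = -i := by rw [RingEquiv.symm_apply_eq, map_neg, h3, neg_neg]
  have B : ∀ {y : Pic C K}, n • y = 0 → e'.pic (e.pic (e'.symm.pic (e.pic y))) = y := fun {y} hy => by
    rw [← SI.pic_trans, ← SI.pic_trans, ← SI.pic_trans]
    refine h.one _ (fun c hc => ?_) ?_ ?_ ?_ hy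
    · show vC (e'.s (e.s (e'.s.symm (e.s c))) - c) < 1
      have h5 := hs (e'.s.symm (e.s c)) (by rw [hi']; exact le1 c hc)
      rw [← hi, map_sub, RingEquiv.apply_symm_apply] at h5
      have := add h5 (hs c hc)
      rwa [sub_add_sub_cancel] at this
    · show e'.s (e.s (e'.s.symm (e.s lam))) = lam
      rw [h1, map_mul e'.s.symm, h3', hζ, map_mul e.s, map_mul e.s, map_neg e.s, si, sζ, h1,
        show -i * (ζ * (i * lam)) = -(i ^ 2) * (ζ * lam) by ring, hii, neg_neg, one_mul, ← hζ,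
        RingEquiv.apply_symm_apply]
    · show e'.f (e.f (e'.f.symm (e.f x))) = x
      rw [hx, (e'.f.symm_apply_eq.2 hx'.symm : e'.f.symm x = x), hx, hx']
    · show e'.f (e.f (e'.f.symm (e.f w))) = w
      rw [hw, (e'.f.symm_apply_eq.2 hw'.symm : e'.f.symm w = w), hw, hw']
  refine ⟨A hy, ?_⟩
  have t1 : n • e'.pic y = 0 := by rw [← map_nsmul, hy, map_zero]
  have t2 : n • -e.pic (e'.pic y) = 0 := by rw [neg_nsmul, ← map_nsmul, t1, map_zero, neg_zero]
  have h5 := B t2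
  have h6 : e'.symm.pic (e'.pic y) = y := e'.pic.symm_apply_apply y
  rwa [map_neg e.pic, A t1, neg_neg, h6] at h5

end abs

end Crest.Agent.T15.Irr
end

-- ▼ part T15/IrrB_66
section

/-!
# Row 15, block Ht (helper66): IRR, part B

`k4` : the row `p₁` of the reduction table (odd valuation); `irr` : inertia and Frobenius at a prime
`l ≡ 3 mod 4` which divides `p₁` exactly.
-/

set_option autoImplicit false
set_option linter.all false

namespace Crest.Agent.T15.Irr

open Polynomial Module NumberField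
open scoped NNReal
open Crest.Agent.R013.PicD_398 Crest.Agent.R013.GR4_921 Crest.Agent.R013.Frob1_914
open Crest.Agent.T15.Hy Crest.Agent.T15.Mo Crest.Agent.R018.Placesx484
open Crest.Agent.T15.C (Om Gam)

section val

variable {C : Type*} [Field C] {vC : Valuation C ℝ≥0}

theorem v_add_small {a b : C} (ha : vC a = 1) (hb : vC b < 1) : vC (a + b) = 1 := by
  rw [Valuation.map_add_eq_of_lt_left _ (by rwa [ha]), ha]

theorem v_mul_small {a b : C} (ha : vC a < 1) (hb : vC b ≤ 1) : vC (a * b) < 1 := by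
  rw [map_mul]; exact mul_lt_one_of_lt_of_le ha hb

theorem v_add_le {a b : C} (ha : vC a ≤ 1) (hb : vC b ≤ 1) : vC (a + b) ≤ 1 :=
  (vC.map_add _ _).trans (max_le ha hb)

theorem v_mul_le {a b : C} (ha : vC a ≤ 1) (hb : vC b ≤ 1) : vC (a * b) ≤ 1 := by
  rw [map_mul]; exact mul_le_one' ha hb

theorem v_one_of_sq {a : C} (h : vC (a ^ 2) = 1) : vC a = 1 := by
  rw [map_pow, ← one_pow 2] at h
  exact (pow_left_inj₀ zero_le zero_le two_ne_zero).1 h

/-- an isometry fixes a unit whose square is fixed and congruent to the square of a fixed element -/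
theorem fix_sqrt {s : C ≃+* C} (hi : ∀ c, vC (s c) = vC c) (h2 : vC 2 = 1) {a r : C}
    (ha : vC a = 1) (hs : s (a ^ 2) = a ^ 2) (hr : s r = r) (h : vC (a ^ 2 - r ^ 2) < 1) :
    s a = a := by
  have key : ∀ r, s r = r → vC (a - r) < 1 → s a = -a → False := fun r hr h h' => by
    have h1 : vC (-a - r) < 1 := by rw [← h', ← hr, ← map_sub, hi]; exact h
    have h3 := (vC.map_sub _ _).trans_lt (max_lt h h1)
    rw [show a - r - (-a - r) = 2 * a by ring, map_mul, h2, ha, one_mul] at h3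
    exact lt_irrefl _ h3
  have h1 : (s a - a) * (s a + a) = 0 := by rw [map_pow] at hs; linear_combination hs
  rcases mul_eq_zero.1 h1 with h3 | h3
  · exact sub_eq_zero.1 h3
  · exfalso
    have h4 := eq_neg_of_add_eq_zero_left h3
    by_cases h5 : vC (a - r) < 1
    · exact key r hr h5 h4
    · refine key (-r) (by rw [map_neg, hr]) ?_ h4
      by_contra h6
      rw [show a ^ 2 - r ^ 2 = (a - r) * (a - -r) by ring, map_mul] at h
      exact absurd h (not_lt.2 (one_le_mul (not_lt.1 h5) (not_lt.1 h6)))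

/-- `p₁` is small, `2` and `p₂` are units -/
structure Sm (vC : Valuation C ℝ≥0) (P : Par C) : Prop where
  two : vC 2 = 1
  p1 : vC P.p1 < 1
  p2 : vC P.p2 = 1

namespace Sm

variable {P : Par C} (h : Sm vC P)
include h

theorem three : vC 3 ≤ 1 := by
  rw [show (3 : C) = 2 + 1 by norm_num]; exact v_add_le h.two.le (by simp)

theorem p3 : vC P.p3 = 1 := by
  rw [P.p3_eq, show -P.p1 - P.p2 = -(P.p2 + P.p1) by ring, Valuation.map_neg]
  exact v_add_small h.p2 h.p1

theorem d1 : vC P.d1 = 1 := by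
  rw [Par.d1, P.p3_eq, show P.p2 - (-P.p1 - P.p2) = 2 * P.p2 + P.p1 by ring]
  exact v_add_small (by rw [map_mul, h.two, h.p2, one_mul]) h.p1

theorem d2 : vC P.d2 = 1 := by
  rw [Par.d2, P.p3_eq, show -P.p1 - P.p2 - P.p1 = -(P.p2 + P.p1 * 2) by ring, Valuation.map_neg]
  exact v_add_small h.p2 (v_mul_small h.p1 h.two.le)

theorem d3 : vC P.d3 = 1 := by
  rw [Par.d3, show P.p1 - P.p2 = -(P.p2 + -P.p1) by ring, Valuation.map_neg]
  exact v_add_small h.p2 (by rw [Valuation.map_neg]; exact h.p1)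

theorem al : vC P.al = 1 := v_one_of_sq (by
  rw [P.al_sq, map_mul, Valuation.map_neg, map_pow, h.p2, h.d2]; simp)

theorem be : vC P.be = 1 := v_one_of_sq (by rw [P.be_sq, map_mul, map_pow, h.p3, h.d3]; simp)

theorem fix_al {s : C ≃+* C} (hi : ∀ c, vC (s c) = vC c) (h1 : s P.p1 = P.p1)
    (h2 : s P.p2 = P.p2) : s P.al = P.al := by
  refine fix_sqrt hi h.two h.al ?_ (r := P.p2 ^ 2) (by rw [map_pow, h2]) ?_
  · rw [P.al_sq, Par.d2, P.p3_eq]; simp [h1, h2]
  · rw [P.al_sq, Par.d2, P.p3_eq, show -P.p2 ^ 3 * (-P.p1 - P.p2 - P.p1) - (P.p2 ^ 2) ^ 2 =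
      P.p1 * (2 * P.p2 ^ 3) by ring]
    exact v_mul_small h.p1 (by rw [map_mul, map_pow, h.two, h.p2]; simp)

theorem fix_be {s : C ≃+* C} (hi : ∀ c, vC (s c) = vC c) (h1 : s P.p1 = P.p1)
    (h2 : s P.p2 = P.p2) : s P.be = P.be := by
  refine fix_sqrt hi h.two h.be ?_ (r := P.p2 ^ 2) (by rw [map_pow, h2]) ?_
  · rw [P.be_sq, Par.d3, P.p3_eq]; simp [h1, h2]
  · rw [P.be_sq, Par.d3, P.p3_eq, show (-P.p1 - P.p2) ^ 3 * (P.p1 - P.p2) - (P.p2 ^ 2) ^ 2 =
      P.p1 * (2 * P.p2 ^ 3 + P.p1 * P.p1 * -(P.p1 + 2 * P.p2)) by ring]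
    refine v_mul_small h.p1 (v_add_le (by rw [map_mul, map_pow, h.two, h.p2]; simp)
      (v_mul_le (v_mul_le h.p1.le h.p1.le) ?_))
    rw [Valuation.map_neg]
    exact v_add_le h.p1.le (v_mul_le h.two.le h.p2.le)

theorem a1 : vC P.a1 = vC P.p1 := by
  rw [Par.a1, map_div₀, Valuation.map_neg, h.d1, div_one]

theorem a2 : vC P.a2 = (vC P.p1)⁻¹ := by
  rw [Par.a2, map_div₀, Valuation.map_neg, h.d1, one_div]

theorem prod : vC (P.al + P.be) * vC (P.al - P.be) = vC P.p1 ^ 3 := by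
  rw [← map_mul, P.sq_sub, map_mul, map_pow, h.d1, mul_one]

theorem aux (ε : C) (hε : vC ε ≤ 1) :
    vC (P.p1 * (P.be * P.p2 + ε * P.al * (P.p1 * 2 + 3 * P.p2))) < 1 :=
  v_mul_small h.p1 (v_add_le (v_mul_le h.be.le h.p2.le) (v_mul_le (v_mul_le hε h.al.le)
    (v_add_le (v_mul_le h.p1.le h.two.le) (v_mul_le h.three h.p2.le))))

theorem c_eq : vC P.c = vC P.t * vC P.p1 * vC (P.be * P.d3 * P.p2 + P.al * P.d2 * P.p3) := by
  rw [P.c_eq, map_div₀, map_mul, map_mul, map_mul, map_mul, h.two, h.al, h.be]; simp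

/-- the two cases -/
theorem cases : (vC P.a3 = vC P.p1 ^ 3 ∧ vC P.c = vC P.t * vC P.p1) ∨
    (vC P.a3 = (vC P.p1 ^ 3)⁻¹ ∧ vC P.c = vC P.t * vC P.p1 ^ 2) := by
  have h2 : vC (2 * P.al) = 1 := by rw [map_mul, h.two, h.al, one_mul]
  have hp : vC (P.p2 ^ 2) = 1 := by rw [map_pow, h.p2, one_pow]
  by_cases h1 : vC (P.al + P.be) < 1
  · have h3 : vC (P.al - P.be) = 1 := by
      rw [show P.al - P.be = 2 * P.al + -(P.al + P.be) by ring]
      exact v_add_small h2 (by rwa [Valuation.map_neg])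
    have h4 := h.prod
    rw [h3, mul_one] at h4
    refine Or.inl ⟨by rw [P.a3_eq, map_div₀, h3, h4, div_one], ?_⟩
    rw [h.c_eq, show P.be * P.d3 * P.p2 + P.al * P.d2 * P.p3 = P.p2 ^ 2 * (P.al - P.be) +
      P.p1 * (P.be * P.p2 + 1 * P.al * (P.p1 * 2 + 3 * P.p2)) by
        rw [Par.d3, Par.d2, P.p3_eq]; ring,
      v_add_small (by rw [map_mul, hp, h3, one_mul]) (h.aux 1 (by simp)), mul_one]
  · have h3 : vC (P.al + P.be) = 1 := le_antisymm (v_add_le h.al.le h.be.le) (not_lt.1 h1)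
    have h4 := h.prod
    rw [h3, one_mul] at h4
    refine Or.inr ⟨by rw [P.a3_eq, map_div₀, h3, h4, one_div], ?_⟩
    have h5 : vC (P.be * P.d3 * P.p2 - P.al * P.d2 * P.p3) = 1 := by
      rw [show P.be * P.d3 * P.p2 - P.al * P.d2 * P.p3 = -(P.p2 ^ 2 * (P.al + P.be)) +
        P.p1 * (P.be * P.p2 + (-1) * P.al * (P.p1 * 2 + 3 * P.p2)) by
          rw [Par.d3, Par.d2, P.p3_eq]; ring]
      exact v_add_small (by rw [Valuation.map_neg, map_mul, hp, h3, one_mul])
        (h.aux (-1) (by simp))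
    have h6 := congrArg vC P.sq_sub3
    rw [map_mul, h5, Valuation.map_neg] at h6
    simp only [map_mul, map_pow, h.p2, h.p3, h.d1, one_pow, mul_one, one_mul] at h6
    rw [h.c_eq, h6]; ring

end Sm

end val

theorem Fm_perm {C : Type*} [Field C] (c a1 a2 a3 : C) : Fm c a1 a2 a3 = Fm c a3 a1 a2 := by
  unfold Fm; ring

theorem map_F_of {C : Type*} [Field C] (P : Par C) (s : C ≃+* C) (h1 : s P.p1 = P.p1)
    (h2 : s P.p2 = P.p2) (ht : s P.t = P.t) (ha : s P.al = P.al) (hb : s P.be = P.be) :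
    P.F.map (s : C →+* C) = P.F := by
  have h3 : s P.p3 = P.p3 := by rw [P.p3_eq]; simp [h1, h2]
  rw [← P.map_F]
  simp only [Par.F, Par.c, Par.a1, Par.a2, Par.a3, Par.d1, Par.d2, Par.d3, Par.map_p1, Par.map_p2,
    Par.map_p3, Par.map_t, Par.map_al, Par.map_be, RingHom.coe_coe, h1, h2, h3, ht, ha, hb]

section k4

variable {C K : Type} [Field C] [IsAlgClosed C] [CharZero C] [Field K] [Algebra C K]
  [Algebra (RatFunc C) K] [IsScalarTower C (RatFunc C) K] [FiniteDimensional (RatFunc C) K]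
  [Algebra.IsSeparable (RatFunc C) K] {vC : Valuation C ℝ≥0}

/-- **the row `p₁`, odd valuation** -/
theorem k4 {P : Par C} (h : Sm vC P) {p : ℕ} (hp : p.Prime) (hpv : vC p < 1) {x w : K}
    (hy : Hyp P.F x w) {lam : C} (hl : lam ≠ 0) {m j : ℤ} (hm : Odd m)
    (h1 : vC P.p1 = vC lam ^ (4 * m)) (ht : vC P.t = vC lam ^ (4 * j)) {n : ℕ} (hn : vC n = 1) :
    K4 vC x w lam n := by
  intro e ε hε hs hlam hx hw y hy0
  haveI := isAlgClosed_res vC.valuationSubring
  obtain ⟨ρ, hr, -⟩ := exists_isRes vC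
  have h2 : (2 : IsLocalRing.ResidueField vC.valuationSubring) ≠ 0 := by
    have := (hr.ne_zero_iff h.two.le).2 h.two
    rwa [← one_add_one_eq_two, hr.add _ _ (by simp) (by simp), hr.one, one_add_one_eq_two] at this
  have hvl : vC lam ≠ 0 := by simpa using hl
  have h0 : 0 < vC P.p1 := by simpa [pos_iff_ne_zero] using P.h1
  have hd := P.natDegree_F two_ne_zero
  have v1 : vC P.a1 = vC lam ^ (4 * m) := by rw [h.a1, h1]
  have v2 : vC P.a2 = vC lam ^ (4 * -m) := by rw [h.a2, h1, ← zpow_neg]; congr 1; ring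
  have l12 : vC P.a1 < vC P.a2 := by
    rw [h.a1, h.a2]; exact h.p1.trans ((one_lt_inv₀ h0).2 h.p1)
  have l3 : vC P.p1 ^ 3 < vC P.p1 := pow_lt_self_of_lt_one₀ h0 h.p1 (by norm_num)
  have v3 : vC P.p1 ^ 3 = vC lam ^ (4 * (3 * m)) := by
    rw [h1, ← zpow_natCast, ← zpow_mul]; congr 1; push_cast; ring
  have o3 : Odd (3 * m) := Odd.mul (by decide) hm
  rcases h.cases with ⟨a, b⟩ | ⟨a, b⟩
  · rw [Par.F, Fm_perm] at hy hd
    exact chain hr h2 hp hpv hy hd (by rw [a, h.a1]; exact l3) l12 hl hε (n0 := j + m)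
      (by rw [b, ht, h1, ← zpow_add₀ hvl]; congr 1; ring) (by rw [a, v3]) v1 v2 o3 hm hm.neg
      e hs hlam hx hw hn hy0
  · exact chain hr h2 hp hpv hy hd l12
      (by rw [a, h.a2]; exact (inv_lt_inv₀ h0 (pow_pos h0 3)).2 l3) hl hε (n0 := j + 2 * m)
      (by rw [b, ht, h1, ← zpow_natCast, ← zpow_mul, ← zpow_add₀ hvl]; congr 1; push_cast; ring)
      v1 v2 (by rw [a, v3, ← zpow_neg]; congr 1; ring) hm hm.neg o3.neg
      e hs hlam hx hw hn hy0

end k4

section cx

variable {Y : Type} [Field Y] [Algebra ℂ Y] [Algebra (RatFunc ℂ) Y]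
  [IsScalarTower ℂ (RatFunc ℂ) Y] [FiniteDimensional (RatFunc ℂ) Y]
  [Algebra.IsSeparable (RatFunc ℂ) Y]

theorem vC_int (ι : Om →+* ℂ) (Q : Place Om) {a : ℤ} (ha : ¬ (Q.rchar : ℤ) ∣ a) :
    Cg.vC ι Q (a : ℂ) = 1 := by
  have := Cg.vC_natCast_eq_one ι Q (n := a.natAbs) (by rwa [← Int.natCast_dvd])
  rcases Int.natAbs_eq a with h | h
  · rw [h]; simpa using this
  · rw [h]; simpa using this

/-- **IRR at one prime** -/
theorem irr (P : Par ℂ) {z w : Y} (hy : Hyp P.F z w) {l : ℕ} (hl : l.Prime) (h4 : l % 4 = 3)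
    {a p2 t : ℤ} (e1 : P.p1 = (l * a : ℤ)) (e2 : P.p2 = p2) (et : P.t = t) (ha : ¬ (l : ℤ) ∣ a)
    (h2 : ¬ (l : ℤ) ∣ p2) (ht : ¬ (l : ℤ) ∣ t) {n : ℕ} (hn : ¬ l ∣ n) :
    ∃ e e' : SI ℂ Y ℂ Y,
      (e.s P.p1 = P.p1 ∧ e.s P.p2 = P.p2 ∧ e.s P.t = P.t ∧ e.s P.al = P.al ∧ e.s P.be = P.be) ∧
      (e'.s P.p1 = P.p1 ∧ e'.s P.p2 = P.p2 ∧ e'.s P.t = P.t ∧ e'.s P.al = P.al ∧
        e'.s P.be = P.be) ∧
      e.f z = z ∧ e.f w = w ∧ e'.f z = z ∧ e'.f w = w ∧ ∀ x : Pic ℂ Y, n • x = 0 →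
        e.pic (e.pic x) = -x ∧ e'.pic (e.pic x) = -e.pic (e'.pic x) := by
  obtain ⟨Q, rfl⟩ := TwAsm.exists_place_rchar hl
  let ι : Om →+* ℂ := (IsAlgClosed.lift : Om →ₐ[ℚ] ℂ)
  set v := Cg.vC ι Q with hv
  have hl0 : (Q.rchar : Om) ≠ 0 := by exact_mod_cast hl.ne_zero
  have v2 : v 2 = 1 := by
    simpa using Cg.vC_natCast_eq_one ι Q (n := 2) fun h => by
      have := Nat.le_of_dvd two_pos h
      omega
  have vl : v Q.rchar < 1 := Cg.vC_rchar_lt_one ι Q
  have v1 : v P.p1 = v Q.rchar := by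
    rw [e1]; push_cast; rw [map_mul, vC_int ι Q ha, mul_one]
  have hS : Sm v P := ⟨v2, by rwa [v1], by rw [e2]; exact vC_int ι Q h2⟩
  obtain ⟨lam, hlam⟩ := IsAlgClosed.exists_pow_nat_eq (Q.rchar : Om) (n := 4) (by norm_num)
  have lam0 : lam ≠ 0 := by rintro rfl; exact hl0 (by rw [← hlam]; ring)
  obtain ⟨σ, hσ, hm⟩ := Rb.exists_move Q (x := lam ^ 2) (j := -1) (by decide) (by
    rw [← pow_mul, hlam, zpow_neg_one, mul_inv_cancel₀ hl0, map_one])
  obtain ⟨τ, hτ1, hτ⟩ := Place.exists_frob (F := ℚ) Q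
  rw [R018.FDEx389.qv_rat] at hτ
  have hσ1 : σ ∈ MulAction.stabilizer Gam Q :=
    Cg.frob_mem Q one_ne_zero fun x => by rw [pow_one]; exact hσ x
  set s := Cg.lft ι Q ⟨σ, hσ1⟩
  set s' := Cg.lft ι Q ⟨τ, hτ1⟩
  have fx : ∀ u : ℂ ≃+* ℂ, (∀ c, v (u c) = v c) → u P.p1 = P.p1 ∧ u P.p2 = P.p2 ∧ u P.t = P.t ∧
      u P.al = P.al ∧ u P.be = P.be := fun u hu => by
    have f1 : u P.p1 = P.p1 := by rw [e1, map_intCast]
    have f2 : u P.p2 = P.p2 := by rw [e2, map_intCast]
    exact ⟨f1, f2, by rw [et, map_intCast], hS.fix_al hu f1 f2, hS.fix_be hu f1 f2⟩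
  have f := fx s (Cg.vC_lft ι Q _)
  have f' := fx s' (Cg.vC_lft ι Q _)
  obtain ⟨e, es, ez, ew⟩ := exists_SI hy hy s (map_F_of P s f.1 f.2.1 f.2.2.1 f.2.2.2.1 f.2.2.2.2)
  obtain ⟨e', es', ez', ew'⟩ :=
    exists_SI hy hy s' (map_F_of P s' f'.1 f'.2.1 f'.2.2.1 f'.2.2.2.1 f'.2.2.2.2)
  have L0 : ι lam ≠ 0 := by simpa using lam0
  have L4 : ι lam ^ 4 = Q.rchar := by rw [← map_pow, hlam, map_natCast]
  have hK : K4 v z w (ι lam) n := k4 hS hl vl hy L0 (m := 1) (j := 0) odd_one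
    (by rw [v1, ← L4, map_pow]; norm_cast) (by rw [et, vC_int ι Q ht]; simp)
    (Cg.vC_natCast_eq_one ι Q hn)
  have hi0 : (σ lam / lam) ^ 2 = -1 := by
    have h5 : (σ lam ^ 2 - lam ^ 2) * (σ lam ^ 2 + lam ^ 2) = 0 := by
      have : σ lam ^ 4 = lam ^ 4 := by rw [← map_pow, hlam, map_natCast]
      linear_combination this
    have h6 := (mul_eq_zero.1 h5).resolve_left fun h => hm (by rw [map_pow]; exact sub_eq_zero.1 h)
    rw [div_pow, div_eq_iff (pow_ne_zero 2 lam0)]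
    linear_combination h6
  set i := ι (σ lam / lam) with hi
  have hii : i ^ 2 = -1 := by rw [hi, ← map_pow, hi0, map_neg, map_one]
  have vi : v i = 1 := v_one_of_sq (by rw [hii, Valuation.map_neg, map_one])
  have h3 : s' i = -i := by
    have h5 : (s' i - i) * (s' i + i) = 0 := by
      have : s' i ^ 2 = -1 := by rw [← map_pow, hii, map_neg, map_one]
      linear_combination this - hii
    rcases mul_eq_zero.1 h5 with h6 | h6
    · exfalso
      have h7 := Cg.vC_lft_sub_pow ι Q ⟨τ, hτ1⟩ Q.rchar hτ vi.le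
      have h8 : i ^ Q.rchar = -i := by
        rw [← Nat.div_add_mod Q.rchar 4, h4, pow_add, pow_mul,
          show i ^ 4 = (i ^ 2) ^ 2 by ring, show i ^ 3 = i ^ 2 * i by ring, hii]
        simp
      change v (s' i - _) < 1 at h7
      rw [sub_eq_zero.1 h6, h8, show i - -i = 2 * i by ring, map_mul, v2, vi, one_mul] at h7
      exact lt_irrefl _ h7
    · exact eq_neg_of_add_eq_zero_left h6
  refine ⟨e, e', es ▸ f, es' ▸ f', ez, ew, ez', ew', fun x hx => ?_⟩
  refine irr_abs hK hy (by rw [P.natDegree_F two_ne_zero]; decide) (by rintro rfl; simp at hn) v2 L0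
    e e' (fun c hc => ?_) (fun c => ?_) hii ?_ (es' ▸ h3) (by rw [L4, map_natCast]) ez ew ez' ew' hx
  · rw [es]; exact Cg.vC_lft_sub ι Q _ hσ hc
  · rw [es']; exact Cg.vC_lft ι Q _ c
  · rw [es, hi, ← map_mul, div_mul_cancel₀ _ lam0]
    exact Cg.lft_iota ι Q _ lam

/-- **IRR from the certificate** -/
theorem irr_cert {del : ℚ} {m p1 p2 p3 t D : ℤ} (hC : Ar.Cert del m p1 p2 p3 t D) (P : Par ℂ)
    (e1 : P.p1 = p1) (e2 : P.p2 = p2) (et : P.t = t) {z w : Y} (hy : Hyp P.F z w) {l : ℕ}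
    (hl : l.Prime) (n : ℕ) : ∃ e e' : SI ℂ Y ℂ Y,
      (e.s P.p1 = P.p1 ∧ e.s P.p2 = P.p2 ∧ e.s P.t = P.t ∧ e.s P.al = P.al ∧ e.s P.be = P.be) ∧
      (e'.s P.p1 = P.p1 ∧ e'.s P.p2 = P.p2 ∧ e'.s P.t = P.t ∧ e'.s P.al = P.al ∧
        e'.s P.be = P.be) ∧
      e.f z = z ∧ e.f w = w ∧ e'.f z = z ∧ e'.f w = w ∧ ∀ x : Pic ℂ Y, l ^ n • x = 0 →
        e.pic (e.pic x) = -x ∧ e'.pic (e.pic x) = -e.pic (e'.pic x) := by
  obtain ⟨q, hq, h4, hv, hne⟩ : ∃ q : ℕ, q.Prime ∧ q % 4 = 3 ∧ padicValInt q p1 = 1 ∧ q ≠ l := by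
    by_cases h : l = 7
    · exact ⟨19, by norm_num, rfl, hC.v19, by omega⟩
    · exact ⟨7, by norm_num, rfl, hC.v7, fun h' => h h'.symm⟩
  haveI : Fact q.Prime := ⟨hq⟩
  have hd : (q : ℤ) ∣ p1 := (Ar.dvd_iff_val hC.p1_ne).2 (by omega)
  obtain ⟨b2, b3, c1, c2, c3⟩ := hC.only_p1 hq (by omega) hd
  have hs := hC.val_sum q
  rw [hv, Ar.val_zero b2, Ar.val_zero b3, Ar.val_zero c1, Ar.val_zero c2, Ar.val_zero c3] at hs
  obtain ⟨a, rfl⟩ := hd
  refine irr P hy hq h4 e1 e2 et (fun h => ?_) b2 (fun h => ?_) fun h => ?_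
  · have h1 : (q : ℤ) ^ 2 ∣ q * a := by rw [sq]; exact mul_dvd_mul_left _ h
    rw [padicValInt_dvd_iff] at h1
    rcases h1 with h1 | h1
    · exact hC.p1_ne h1
    · omega
  · have := (Ar.dvd_iff_val hC.t_ne).1 h
    omega
  · exact hne ((Nat.prime_dvd_prime_iff_eq hq hl).1 (hq.dvd_of_dvd_pow h))

end cx

end Crest.Agent.T15.Irr
end

-- ▼ part T15/Irr_66
section

/-!
# Row 15, block Ht (helper66): the leaf IRR
-/

namespace Crest.Agent.T15.Ht

theorem irrStmt : IrrStmt := fun _ _ _ _ _ _ _ P _ _ _ _ _ _ _ _ _ hC hI hy _ n hl =>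
  Irr.irr_cert hC P hI.h1 hI.h2 hI.ht hy hl n

end Crest.Agent.T15.Ht
end

-- ▼ part T15/BrB_37
section

/-!
# Row 15, block Ht: the Taylor series of the Mumford coordinates is the formal solution

* `sol_map`, `sol_unique` : base change and uniqueness of `Hon.Sol`;
* `taylor_sol` : Taylor series at `q = 0` of the Mumford coordinates of `c + ex (Φ q)`;
* `alg_roots` : algebraicity of the points and of the second Mumford polynomial.
-/

set_option autoImplicit false

open Set Filter Topology Metric Polynomial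
open scoped PowerSeries
open Crest.Agent.T15.AlgM Crest.Agent.T15.Hon Crest.Agent.T15.Mum Crest.Agent.T15.Ax

noncomputable section

namespace Crest.Agent.T15.Br

section formal

variable {K K' : Type*} [Field K] [Field K'] {g : ℕ}

lemma map_derivative (σ : K →+* K') (f : K⟦X⟧) :
    PowerSeries.map σ (PowerSeries.derivative K f) =
      PowerSeries.derivative K' (PowerSeries.map σ f) := by
  ext n
  simp [PowerSeries.coeff_derivative]

lemma map_aeval (σ : K →+* K') (f : K⟦X⟧) (F : K[X]) :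
    PowerSeries.map σ (aeval f F) = aeval (PowerSeries.map σ f) (F.map σ) := by
  induction F using Polynomial.induction_on' with
  | add p q hp hq => simp only [Polynomial.map_add, map_add, hp, hq]
  | monomial n c => simp [← C_mul_X_pow_eq_monomial]

theorem sol_map (σ : K →+* K') {F : K[X]} {a b : Fin g → K} {Φ x w η : Fin g → K⟦X⟧}
    (h : Sol F a b Φ x w η) :
    Sol (F.map σ) (fun i => σ (a i)) (fun i => σ (b i)) (fun i => PowerSeries.map σ (Φ i))
      (fun i => PowerSeries.map σ (x i)) (fun i => PowerSeries.map σ (w i))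
      fun i => PowerSeries.map σ (η i) where
  sq i := by rw [← map_pow, h.sq, map_aeval]
  x0 i := by rw [← h.x0, ← PowerSeries.coeff_zero_eq_constantCoeff_apply, PowerSeries.coeff_map,
    PowerSeries.coeff_zero_eq_constantCoeff_apply]
  w0 i := by rw [← h.w0, ← PowerSeries.coeff_zero_eq_constantCoeff_apply, PowerSeries.coeff_map,
    PowerSeries.coeff_zero_eq_constantCoeff_apply]
  dx i := by rw [← map_derivative, h.dx, map_mul]
  sum m := by rw [← map_derivative, ← h.sum, map_sum]; simp only [map_mul, map_pow]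

/-- **uniqueness of the formal solution** -/
theorem sol_unique [CharZero K] {F : K[X]} {a b : Fin g → K} (ha : Function.Injective a)
    (hb : ∀ i, b i ≠ 0) {Φ Φ' x w η x' w' η' : Fin g → K⟦X⟧} (h : Sol F a b Φ x w η)
    (h' : Sol F a b Φ' x' w' η')
    (hΦ : ∀ m, PowerSeries.derivative K (Φ m) = PowerSeries.derivative K (Φ' m)) :
    x = x' ∧ w = w' ∧ η = η' := by
  have hu : ∀ i, IsUnit (w i + w' i) := fun i => by
    rw [PowerSeries.isUnit_iff_constantCoeff, map_add, h.w0, h'.w0, ← two_mul]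
    exact (mul_ne_zero two_ne_zero (hb i)).isUnit
  have hw : ∀ i, x i - x' i ∣ w i - w' i := fun i => by
    rw [← (hu i).dvd_mul_right]
    have : (w i - w' i) * (w i + w' i) = aeval (x i) F - aeval (x' i) F := by
      rw [← h.sq, ← h'.sq]
      ring
    rw [this, ← eval_map_algebraMap, ← eval_map_algebraMap]
    exact sub_dvd_eval_sub _ _ _
  have hwu : ∀ i, IsUnit (w i) := fun i => by
    rw [PowerSeries.isUnit_iff_constantCoeff, h.w0]
    exact (hb i).isUnit
  have key : ∀ n : ℕ, ∀ i, PowerSeries.X ^ (n + 1) ∣ x i - x' i := by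
    intro n
    induction n with
    | zero =>
      intro i
      rw [zero_add, pow_one, PowerSeries.X_dvd_iff, map_sub, h.x0, h'.x0, sub_self]
    | succ n ih =>
      choose ε hε using ih
      choose ω hω using fun i => (Dvd.intro _ (hε i).symm).trans (hw i)
      have h1 : ∀ i, ∃ κ, η i - η' i = PowerSeries.X ^ n * κ ∧
          PowerSeries.constantCoeff κ * b i = (n + 1) * PowerSeries.constantCoeff (ε i) := by
        intro i
        obtain ⟨u, hu⟩ := (hwu i).exists_right_inv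
        have d1 : PowerSeries.derivative K (x i - x' i) = PowerSeries.X ^ n *
            (((n : K⟦X⟧) + 1) * ε i + PowerSeries.X * PowerSeries.derivative K (ε i)) := by
          rw [hε, Derivation.leibniz, Derivation.leibniz_pow, PowerSeries.derivative_X]
          simp only [smul_eq_mul, nsmul_eq_mul, Nat.add_sub_cancel]
          push_cast
          ring
        rw [map_sub, h.dx, h'.dx] at d1
        refine ⟨(((n : K⟦X⟧) + 1) * ε i + PowerSeries.X * PowerSeries.derivative K (ε i) -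
          η' i * PowerSeries.X * ω i) * u, ?_, ?_⟩
        · have := hω i
          linear_combination u * d1 - η' i * u * this - (η i - η' i) * hu
        · have := congrArg PowerSeries.constantCoeff hu
          rw [map_mul, h.w0, map_one] at this
          simp only [map_mul, map_sub, map_add, PowerSeries.constantCoeff_X, map_natCast, map_one]
          linear_combination (n + 1) * PowerSeries.constantCoeff (ε i) * this
      choose κ hκ hκ0 using h1
      have h2 : (fun i => PowerSeries.constantCoeff (κ i)) = 0 := by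
        refine Matrix.eq_zero_of_forall_pow_sum_mul_pow_eq_zero ha fun m => ?_
        choose ρ hρ using fun i => (Dvd.intro _ (hε i).symm).trans
          (sub_dvd_pow_sub_pow (x i) (x' i) m)
        have h3 : PowerSeries.X ^ n * ∑ i, (x i ^ (m : ℕ) * κ i + PowerSeries.X * ρ i * η' i) = 0 := by
          have h4 := h.sum m
          rw [hΦ, ← h'.sum m, ← sub_eq_zero, ← Finset.sum_sub_distrib] at h4
          rw [Finset.mul_sum, ← h4]
          refine Finset.sum_congr rfl fun i _ => ?_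
          linear_combination (-x i ^ (m : ℕ)) * hκ i - η' i * hρ i
        have h5 := congrArg PowerSeries.constantCoeff
          ((mul_eq_zero.mp h3).resolve_left (pow_ne_zero n PowerSeries.X_ne_zero))
        simpa [h.x0, mul_comm] using h5
      intro i
      have h3 := hκ0 i
      rw [show PowerSeries.constantCoeff (κ i) = 0 from congrFun h2 i, zero_mul] at h3
      have h4 : PowerSeries.X ∣ ε i := PowerSeries.X_dvd_iff.mpr
        ((mul_eq_zero.mp h3.symm).resolve_left (by exact_mod_cast n.succ_ne_zero))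
      rw [hε, pow_succ]
      exact mul_dvd_mul_left _ h4
  have hx : x = x' := by
    funext i
    rw [← sub_eq_zero]
    ext n
    exact PowerSeries.X_pow_dvd_iff.mp (key n i) n n.lt_succ_self
  have hw' : w = w' := by
    funext i
    have := hw i
    rw [hx, sub_self, zero_dvd_iff, sub_eq_zero] at this
    exact this
  refine ⟨hx, hw', funext fun i => ?_⟩
  have := h.dx i
  rw [hx, h'.dx, ← hw'] at this
  exact ((hwu i).mul_left_inj.mp this).symm

end formal

/-- functions analytic at the origin -/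
def A0 : Subalgebra ℂ (ℂ → ℂ) where
  carrier := {U | AnalyticAt ℂ U 0}
  mul_mem' ha hb := ha.mul hb
  add_mem' ha hb := ha.add hb
  algebraMap_mem' _ := analyticAt_const

/-- Taylor series -/
def tay0 : A0 →ₐ[ℂ] ℂ⟦X⟧ where
  toFun U := tay U.1
  map_one' := tay_one
  map_mul' a b := tay_mul a.2 b.2
  map_zero' := tay_zero
  map_add' a b := tay_add a.2 b.2
  commutes' c := tay_const c

/-- evaluation -/
def ev0 (q : ℂ) : A0 →ₐ[ℂ] ℂ := (Pi.evalAlgHom ℂ (fun _ : ℂ => ℂ) q).comp A0.val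

lemma tay_deriv (f : ℂ → ℂ) : tay (deriv f) = PowerSeries.derivative ℂ (tay f) := by
  ext n
  rw [PowerSeries.coeff_derivative, coeff_tay, coeff_tay, iteratedDeriv_succ', Nat.factorial_succ]
  have h1 : ((n.factorial : ℕ) : ℂ) ≠ 0 := by exact_mod_cast n.factorial_ne_zero
  have h2 : (n : ℂ) + 1 ≠ 0 := by exact_mod_cast n.succ_ne_zero
  push_cast
  field_simp

lemma tay_eval {x : ℂ → ℂ} (hx : AnalyticAt ℂ x 0) (F : ℂ[X]) :
    tay (fun q => F.eval (x q)) = aeval (tay x) F := by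
  have h1 := aeval_algHom_apply tay0 (⟨x, hx⟩ : A0) F
  have h2 : (fun q => F.eval (x q)) = (aeval (⟨x, hx⟩ : A0) F).1 := by
    funext q
    have := aeval_algHom_apply (ev0 q) (⟨x, hx⟩ : A0) F
    rw [coe_aeval_eq_eval] at this
    exact this
  rw [h2]
  exact h1.symm

lemma tay_coeff_prod {ι : Type*} [Fintype ι] {x : ι → ℂ → ℂ} (hx : ∀ i, AnalyticAt ℂ (x i) 0)
    (n : ℕ) : tay (fun q => (∏ i, (X - C (x i q))).coeff n) =
      (∏ i, (X - C (tay (x i)))).coeff n := by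
  set P : A0[X] := ∏ i, (X - C (⟨x i, hx i⟩ : A0)) with hP
  have h1 : ∀ {B : Type} [CommRing B] (φ : A0 →+* B),
      φ (P.coeff n) = (∏ i, (X - C (φ ⟨x i, hx i⟩))).coeff n := by
    intro B _ φ
    rw [← coeff_map, hP, Polynomial.map_prod]
    simp
  have h2 : (fun q => (∏ i, (X - C (x i q))).coeff n) = (P.coeff n).1 :=
    funext fun q => (h1 (ev0 q).toRingHom).symm
  rw [h2]
  exact h1 tay0.toRingHom

variable {F : ℂ[X]} {g : ℕ} {A : Type*} [AddCommGroup A] {cl : ℂ × ℂ → A}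
  {ex : (Fin g → ℂ) →+ A}

lemma ch_eta (c : Ch F g) : AnalyticAt ℂ c.η 0 := by
  have h1 : AnalyticAt ℂ (fun τ => c.α * c.w τ + c.β * F.derivative.eval (c.x τ) / 2) 0 :=
    (analyticAt_const.mul c.anw).add ((analyticAt_const.mul
      ((an_eval _ _).comp c.anx)).div analyticAt_const two_ne_zero)
  have h0 := c.ev.self_of_nhds.2.2.2.2.1
  refine (h1.inv (right_ne_zero_of_mul_eq_one h0)).congr ?_
  filter_upwards [c.ev] with τ hτ
  exact (eq_inv_of_mul_eq_one_left hτ.2.2.2.2.1).symm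

/-- the local inverse of the Abel-Jacobi map at a base divisor with distinct `x` -/
theorem exists_locInv (hF : Squarefree F) (he : IsExp F g cl ex) {a b : Fin g → ℂ}
    (ha : Function.Injective a) (hb : ∀ i, b i ^ 2 = F.eval (a i)) :
    ∃ x w : Fin g → (Fin g → ℂ) → ℂ, LocInv F g cl ex x w ∧ (∀ i, x i 0 = a i) ∧
      (∀ i, w i 0 = b i) ∧ ∀ Φ : ℂ → Fin g → ℂ, AnalyticAt ℂ Φ 0 → Φ 0 = 0 →
        ∃ η, Sol F a b (fun m => tay fun q => Φ q m) (fun i => tay fun q => x i (Φ q))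
          (fun i => tay fun q => w i (Φ q)) η := by
  choose c hcx hcw using fun i => exists_ch hF g (P := (a i, b i)) (hb i)
  have hx : Function.Injective fun j => (c j).x 0 := by
    simpa only [hcx] using ha
  obtain ⟨ψ, aψ, ψ0, hψ, -⟩ := vinv c hx
  have aj : ∀ j, AnalyticAt ℂ (fun z => ψ z j) 0 := fun j => (an_apply j _).comp aψ
  have tψ : Tendsto ψ (𝓝 0) (𝓝 0) := by simpa [ψ0] using aψ.continuousAt.tendsto
  have tj : ∀ j, Tendsto (fun z => ψ z j) (𝓝 0) (𝓝 0) := fun j => by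
    simpa [ψ0] using (aj j).continuousAt.tendsto
  have cmp : ∀ {f : ℂ → ℂ}, AnalyticAt ℂ f 0 → ∀ j, AnalyticAt ℂ (fun z => f (ψ z j)) 0 :=
    fun hf j => AnalyticAt.comp_of_eq hf (aj j) (by simp [ψ0])
  refine ⟨fun j z => (c j).x (ψ z j), fun j z => (c j).w (ψ z j),
    ⟨fun j => cmp (c j).anx j, fun j => cmp (c j).anw j,
      fun j => ((tj j).eventually (c j).ev).mono fun z h => h.1, ?_⟩,
    fun i => by simp [ψ0, hcx], fun i => by simp [ψ0, hcw], ?_⟩
  · filter_upwards [tψ.eventually (he.sum c), hψ] with z h1 h2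
    rw [h2] at h1
    simpa [Ch.pt, ψ0] using h1
  · intro Φ aΦ Φ0
    have tΦ : Tendsto Φ (𝓝 0) (𝓝 0) := by simpa [Φ0] using aΦ.continuousAt.tendsto
    set s : Fin g → ℂ → ℂ := fun j q => ψ (Φ q) j with hs
    have as : ∀ j, AnalyticAt ℂ (s j) 0 := fun j => AnalyticAt.comp_of_eq (aj j) aΦ Φ0
    have s0 : ∀ j, s j 0 = 0 := fun j => by simp [hs, Φ0, ψ0]
    have ts : ∀ j, Tendsto (s j) (𝓝 0) (𝓝 0) := fun j => (tj j).comp tΦ
    have cs : ∀ {f : ℂ → ℂ}, AnalyticAt ℂ f 0 → ∀ j, AnalyticAt ℂ (fun q => f (s j q)) 0 :=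
      fun hf j => AnalyticAt.comp_of_eq hf (as j) (s0 j)
    have ax := fun j => cs (c j).anx j
    have aw := fun j => cs (c j).anw j
    have aη : ∀ j, AnalyticAt ℂ (fun q => (c j).η (s j q) * deriv (s j) q) 0 :=
      fun j => (cs (ch_eta (c j)) j).mul (as j).deriv
    have ev := fun j => (ts j).eventually (c j).ev
    have ds : ∀ j, ∀ᶠ q in 𝓝 (0 : ℂ), HasDerivAt (s j) (deriv (s j) q) q := fun j =>
      (as j).eventually_analyticAt.mono fun q h => h.differentiableAt.hasDerivAt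
    refine ⟨fun j => tay fun q => (c j).η (s j q) * deriv (s j) q, fun i => ?_, fun i => ?_,
      fun i => ?_, fun i => ?_, fun m => ?_⟩
    · rw [← tay_pow (aw i), ← tay_eval (ax i)]
      exact tay_congr ((ev i).mono fun q h => h.1)
    · rw [constantCoeff_tay]
      simp [Φ0, ψ0, hcx]
    · rw [constantCoeff_tay]
      simp [Φ0, ψ0, hcw]
    · rw [← tay_deriv, ← tay_mul (aη i) (aw i)]
      refine tay_congr ?_
      filter_upwards [ev i, ds i] with q h1 h2
      refine (h1.2.1.comp q h2).deriv.trans ?_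
      simp only [Pi.mul_apply]
      ring
    · rw [← tay_deriv]
      have e1 : ∀ i, tay (fun q => (c i).x (s i q)) ^ (m : ℕ) *
          tay (fun q => (c i).η (s i q) * deriv (s i) q) =
          tay ((fun q => (c i).x (s i q)) ^ (m : ℕ) * fun q => (c i).η (s i q) * deriv (s i) q) :=
        fun i => by rw [tay_mul ((ax i).pow m) (aη i), tay_pow (ax i)]
      refine (Finset.sum_congr rfl fun i _ => e1 i).trans ?_
      rw [← tay_sum _ fun i _ => ((ax i).pow m).mul (aη i)]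
      refine tay_congr ?_
      filter_upwards [eventually_all.mpr ev, eventually_all.mpr ds,
        (tΦ.eventually hψ).eventually_nhds] with q h1 h2 h3
      have h4 : HasDerivAt (fun q => ∑ i, (c i).ab (s i q) m)
          (∑ i, (c i).x (s i q) ^ (m : ℕ) * (c i).η (s i q) * deriv (s i) q) q :=
        HasDerivAt.fun_sum fun i _ => ((hasDerivAt_pi.mp (h1 i).2.2.2.1) m).comp q (h2 i)
      have h5 : (fun q => Φ q m) =ᶠ[𝓝 q] fun q => ∑ i, (c i).ab (s i q) m := by
        filter_upwards [h3] with q' h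
        rw [← h]
        simp [sab, hs]
      rw [h5.deriv_eq, h4.deriv]
      simp [mul_assoc]

variable (F cl ex) in
/-- coefficients of the first Mumford polynomial of `c + ex (Φ q)` -/
def cU (c : A) (Φ : ℂ → Fin g → ℂ) (n : ℕ) (q : ℂ) : ℂ := (mum F g cl (c + ex (Φ q))).1.coeff n

variable (F cl ex) in
/-- coefficients of the second Mumford polynomial of `c + ex (Φ q)` -/
def cV (c : A) (Φ : ℂ → Fin g → ℂ) (n : ℕ) (q : ℂ) : ℂ := (mum F g cl (c + ex (Φ q))).2.coeff n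

/-- **the Taylor series of the Mumford coordinates** -/
theorem taylor_sol (hc : Cls F g cl) (he : IsExp F g cl ex) {a b : Fin g → ℂ}
    (ha : Function.Injective a) (hb : ∀ i, b i ^ 2 = F.eval (a i)) {Φ : ℂ → Fin g → ℂ}
    (aΦ : AnalyticAt ℂ Φ 0) (Φ0 : Φ 0 = 0) :
    ∃ x w η : Fin g → ℂ⟦X⟧, Sol F a b (fun m => tay fun q => Φ q m) x w η ∧
      (∀ n, AnalyticAt ℂ (cU F cl ex (∑ i, cl (a i, b i)) Φ n) 0 ∧
        AnalyticAt ℂ (cV F cl ex (∑ i, cl (a i, b i)) Φ n) 0) ∧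
      (∀ n, tay (cU F cl ex (∑ i, cl (a i, b i)) Φ n) = (∏ i, (X - C (x i))).coeff n) ∧
      (∀ n, g ≤ n → tay (cV F cl ex (∑ i, cl (a i, b i)) Φ n) = 0) ∧
      ∀ i, ∑ k : Fin g, x i ^ (k : ℕ) * tay (cV F cl ex (∑ i, cl (a i, b i)) Φ k) = w i := by
  obtain ⟨x, w, L, x0, w0, hs⟩ := exists_locInv hc.sep.squarefree he ha hb
  obtain ⟨η, hη⟩ := hs Φ aΦ Φ0
  have hi : Function.Injective fun j => x j 0 := by simpa only [x0] using ha
  have tΦ : Tendsto Φ (𝓝 0) (𝓝 0) := by simpa [Φ0] using aΦ.continuousAt.tendsto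
  have near := tΦ.eventually (L.mum_near hc hi)
  obtain ⟨a1, a2⟩ := L.anP hc hi
  simp only [x0, w0] at near a1 a2
  have aU : ∀ n, AnalyticAt ℂ (cU F cl ex (∑ i, cl (a i, b i)) Φ n) 0 :=
    fun n => AnalyticAt.comp_of_eq (a1 n) aΦ Φ0
  have aV : ∀ n, AnalyticAt ℂ (cV F cl ex (∑ i, cl (a i, b i)) Φ n) 0 :=
    fun n => AnalyticAt.comp_of_eq (a2 n) aΦ Φ0
  have ax : ∀ i, AnalyticAt ℂ (fun q => x i (Φ q)) 0 :=
    fun i => AnalyticAt.comp_of_eq (L.anx i) aΦ Φ0
  have hdeg : ∀ᶠ q in 𝓝 (0 : ℂ), (mum F g cl (∑ i, cl (a i, b i) + ex (Φ q))).2.degree < g := by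
    filter_upwards [near] with q h
    rw [h.2]
    simpa only [Finset.card_univ, Fintype.card_fin] using
      Lagrange.degree_interpolate_lt (s := Finset.univ) (fun j => w j (Φ q)) h.1.injOn
  refine ⟨_, _, η, hη, fun n => ⟨aU n, aV n⟩, fun n => ?_, fun n hn => ?_, fun i => ?_⟩
  · rw [← tay_coeff_prod ax]
    exact tay_congr (near.mono fun q h => by simp only [cU, h.2])
  · rw [← tay_zero]
    exact tay_congr (hdeg.mono fun q h =>
      coeff_eq_zero_of_degree_lt (h.trans_le (by exact_mod_cast hn)))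
  · have e1 : ∀ k : Fin g, tay (fun q => x i (Φ q)) ^ (k : ℕ) *
        tay (cV F cl ex (∑ i, cl (a i, b i)) Φ k) =
        tay ((fun q => x i (Φ q)) ^ (k : ℕ) * cV F cl ex (∑ i, cl (a i, b i)) Φ k) :=
      fun k => by rw [tay_mul ((ax i).pow k) (aV k), tay_pow (ax i)]
    refine (Finset.sum_congr rfl fun k _ => e1 k).trans ?_
    rw [← tay_sum _ fun k _ => ((ax i).pow (k : Fin g)).mul (aV k)]
    refine tay_congr ?_
    filter_upwards [near, hdeg] with q h hd
    have h1 : (mum F g cl (∑ i, cl (a i, b i) + ex (Φ q))).2.eval (x i (Φ q)) = w i (Φ q) := by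
      rw [h.2]
      exact Lagrange.eval_interpolate_at_node _ h.1.injOn (Finset.mem_univ i)
    rw [← h1, Finset.sum_apply, eval_eq_sum_degreeLTEquiv (mem_degreeLT.mpr hd)]
    exact Finset.sum_congr rfl fun k _ => mul_comm _ _

/-- the Mumford coordinates are meromorphic on the disc -/
theorem cUV_mero (hc : Cls F g cl) (he : IsExp F g cl ex) {c : A} (hs : IsSum F cl c)
    {Φ : ℂ → Fin g → ℂ} {q : ℂ} (aΦ : AnalyticAt ℂ Φ q) (n : ℕ) :
    MeromorphicAt (cU F cl ex c Φ n) q ∧ MeromorphicAt (cV F cl ex c Φ n) q := by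
  obtain ⟨ch, hx, -⟩ := exists_charts hc.sep.squarefree g (Fin g) ∅
  obtain ⟨x, w, L, -⟩ := exists_locInv hc.sep.squarefree he hx fun i => (ch i).on0
  exact L.fam hc hs aΦ n

theorem isSum_ex (hc : Cls F g cl) (he : IsExp F g cl ex) (z : Fin g → ℂ) : IsSum F cl (ex z) := by
  obtain ⟨ch, hx, -⟩ := exists_charts hc.sep.squarefree g (Fin g) ∅
  obtain ⟨x, w, L, -⟩ := exists_locInv hc.sep.squarefree he hx fun i => (ch i).on0
  exact L.isSum hc z

/-- algebraicity of the points and of the second Mumford polynomial -/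
theorem alg_roots {t : ℂ⟦X⟧} (nc : NC t) {x w v : Fin g → ℂ⟦X⟧} (hx : Function.Injective x)
    (hU : ∀ n, AlgRel t ((∏ i, (X - C (x i))).coeff n)) (hw : ∀ i, w i ^ 2 = aeval (x i) F)
    (hv : ∀ i, ∑ k : Fin g, x i ^ (k : ℕ) * v k = w i) :
    (∀ i, AlgRel t (x i)) ∧ (∀ i, AlgRel t (w i)) ∧ ∀ k, AlgRel t (v k) := by
  simp only [algRel_iff nc] at hU ⊢
  set R := Algebra.adjoin ℂ {t}
  set B := Subalgebra.algebraicClosure R ℂ⟦X⟧
  have h1 : ∀ i, IsAlgebraic R (x i) := by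
    intro i
    have hm : (∏ i, (X - C (x i))).Monic := monic_prod_of_monic _ _ fun _ _ => monic_X_sub_C _
    have hl : (∏ i, (X - C (x i))) ∈ Polynomial.lifts (algebraMap B ℂ⟦X⟧) :=
      (lifts_iff_coeff_lifts _).mpr fun n => ⟨⟨_, hU n⟩, rfl⟩
    obtain ⟨p, hp, -, hpm⟩ := lifts_and_degree_eq_and_monic hl hm
    refine IsIntegral.trans_isAlgebraic (S := B) R ⟨p, hpm, ?_⟩
    rw [← eval_map, hp, eval_prod]
    exact Finset.prod_eq_zero (Finset.mem_univ i) (by simp)
  have h2 : ∀ i, IsAlgebraic R (w i) := by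
    intro i
    refine IsAlgebraic.of_pow two_pos ?_
    rw [hw]
    have : aeval (x i) F ∈ B.restrictScalars ℂ :=
      (Algebra.adjoin_le_iff.mpr (singleton_subset_iff.mpr (h1 i)))
        (Polynomial.aeval_mem_adjoin_singleton ℂ (x i))
    exact this
  refine ⟨h1, h2, fun k => ?_⟩
  let M : Matrix (Fin g) (Fin g) B := Matrix.vandermonde fun i => ⟨x i, h1 i⟩
  let r : Fin g → B := fun i => ⟨w i, h2 i⟩
  have hM : B.val.toRingHom.mapMatrix M = Matrix.vandermonde x := by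
    ext1 i j
    simp [M, Matrix.vandermonde_apply]
  have hd : (Matrix.vandermonde x).det ≠ 0 := Matrix.det_vandermonde_ne_zero_iff.mpr hx
  have hdet : ((M.det : B) : ℂ⟦X⟧) = (Matrix.vandermonde x).det := by
    rw [← hM]
    exact B.val.toRingHom.map_det M
  have h3 : (Matrix.vandermonde x).mulVec (fun k => ((M.cramer r k : B) : ℂ⟦X⟧)) =
      (Matrix.vandermonde x).mulVec ((Matrix.vandermonde x).det • v) := by
    funext i
    have e1 := congrArg B.val (congrFun (Matrix.mulVec_cramer M r) i)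
    rw [Matrix.mulVec_smul, Pi.smul_apply, smul_eq_mul]
    have e2 : (Matrix.vandermonde x).mulVec v i = w i := hv i
    rw [e2, ← hdet]
    simpa [Matrix.mulVec, dotProduct, M, r, Matrix.vandermonde_apply] using e1
  have h4 := congrFun (Matrix.mulVec_injective_of_det_ne_zero hd h3) k
  refine IsAlgebraic.of_mul (mem_nonZeroDivisors_of_ne_zero hd) (hdet ▸ M.det.2) ?_
  rw [Pi.smul_apply, smul_eq_mul] at h4
  exact h4 ▸ (M.cramer r k).2

end Crest.Agent.T15.Br
end
end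

-- ▼ part T15/BrC_37
section

/-!
# Row 15, block Ht: the Eichler integral of a cusp form as a function on the disc
-/

set_option autoImplicit false

open Set Filter Topology Metric UpperHalfPlane Function
open scoped MatrixGroups Manifold ModularForm
open Crest.Agent.T15.AlgM Crest.Agent.T15.Esc Crest.Agent.T15.Und

noncomputable section

namespace Crest.Agent.T15.Br

lemma qParam_one (z : ℂ) : Periodic.qParam 1 z = ee z := by
  simp [Periodic.qParam, ee]

lemma exists_ee {q : ℂ} (h0 : q ≠ 0) (h1 : ‖q‖ < 1) : ∃ τ : ℍ, ee τ = q :=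
  ⟨⟨_, Periodic.im_invQParam_pos_of_norm_lt_one one_pos h1 h0⟩, by
    rw [← qParam_one]
    exact Periodic.qParam_right_inv one_ne_zero h0⟩

lemma tay_eq_of_ee {U V : ℂ → ℂ} (hU : AnalyticAt ℂ U 0) (hV : AnalyticAt ℂ V 0)
    (h : ∀ τ : ℍ, U (ee τ) = V (ee τ)) : tay U = tay V := by
  refine tay_congr ((hU.frequently_eq_iff_eventually_eq hV).mp (Eventually.frequently ?_))
  filter_upwards [self_mem_nhdsWithin, mem_nhdsWithin_of_mem_nhds (ball_mem_nhds (0 : ℂ) one_pos)]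
    with q h0 h1
  obtain ⟨τ, rfl⟩ := exists_ee h0 (mem_ball_zero_iff.mp h1)
  exact h τ

lemma hasDerivAt_ee (z : ℂ) : HasDerivAt ee (2 * Real.pi * Complex.I * ee z) z := by
  have := ((hasDerivAt_id z).const_mul (2 * Real.pi * Complex.I)).cexp
  simp only [id, mul_one] at this
  rw [mul_comm (2 * Real.pi * Complex.I : ℂ) (ee z)]
  exact this

variable {Γ : Subgroup SL(2, ℤ)} {f : ℍ → ℂ} {c : ℕ → ℂ}

/-- **the Eichler integral on the disc** -/
theorem exists_Phi (hT : ModularGroup.T ∈ Γ) (hf : f ∈ CS Γ 2) (hc : QS c f) :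
    ∃ Φ : ℂ → ℂ, AnalyticOnNhd ℂ Φ (ball 0 1) ∧ Φ 0 = 0 ∧
      tay Φ = PowerSeries.mk (fun n => c n / n) ∧
      ∀ γ ∈ Γ, ∀ τ : ℍ,
        Φ (ee (γ • τ : ℍ)) = 2 * Real.pi * Complex.I * per f γ + Φ (ee τ) := by
  have hF := isPrim_prim hf.1
  have hp : Periodic (f ∘ ofComplex) (1 : ℝ) := periodic_of_vadd fun z => by
    have := slash_T_pow (k := 2) f 1 z
    rw [pow_one, hf.2.1 _ hT, Nat.cast_one] at this
    exact this.symm
  have hz : IsZeroAtImInfty f := by simpa using hf.2.2 1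
  obtain ⟨Ψ, dΨ, hΨ⟩ := hF.cusp one_pos hp hz.isBoundedAtImInfty
  simp only [hz.valueAtInfty_eq_zero, zero_mul, zero_add, qParam_one] at hΨ
  have aΨ : AnalyticOnNhd ℂ Ψ (ball 0 1) := dΨ.analyticOnNhd isOpen_ball
  set Φ : ℂ → ℂ := fun q => 2 * Real.pi * Complex.I * (Ψ q - Ψ 0) with hΦ
  have aΦ : AnalyticOnNhd ℂ Φ (ball 0 1) := fun q hq =>
    analyticAt_const.mul ((aΨ q hq).sub analyticAt_const)
  have a0 := aΦ 0 (mem_ball_self one_pos)
  have Φ0 : Φ 0 = 0 := by simp [hΦ]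
  refine ⟨Φ, aΦ, Φ0, ?_, fun γ hγ τ => ?_⟩
  · have ac := analyticAt_cuspFunction_zero one_pos hp hf.1 hz.isBoundedAtImInfty
    have h1 : tay (cuspFunction 1 f) = PowerSeries.mk c := by
      have h2 := (hasFPowerSeriesOnBall_cuspFunction (c := c) one_pos ac fun τ => by
        convert hc τ using 2 with n
        rw [qParam_one, ee_pow, ee, smul_eq_mul]
        congr 2
        ring).hasFPowerSeriesAt.eq_formalMultilinearSeries ac.hasFPowerSeriesAt
      ext n
      have h3 := congr_arg (FormalMultilinearSeries.coeff · n) h2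
      simp only [FormalMultilinearSeries.coeff_ofScalars] at h3
      rw [coeff_tay, PowerSeries.coeff_mk, h3, div_eq_inv_mul]
    have h2 : tay (id * deriv Φ) = tay (cuspFunction 1 f) := by
      refine tay_eq_of_ee (analyticAt_id.mul a0.deriv) ac fun τ => ?_
      have h3 : HasDerivAt (Ψ ∘ ee) (deriv Ψ (ee τ) * (2 * Real.pi * Complex.I * ee τ)) τ :=
        (aΨ _ (ee_mem τ)).differentiableAt.hasDerivAt.comp _ (hasDerivAt_ee τ)
      have h4 : prim f ∘ ofComplex =ᶠ[𝓝 (τ : ℂ)] Ψ ∘ ee := by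
        filter_upwards [isOpen_upperHalfPlaneSet.mem_nhds τ.im_pos] with z hz
        rw [comp_apply, hΨ, ofComplex_apply_of_im_pos hz]
        rfl
      have h5 := (hF τ).unique (h3.congr_of_eventuallyEq h4)
      have h6 : HasDerivAt Φ (2 * Real.pi * Complex.I * deriv Ψ (ee τ)) (ee τ) :=
        ((aΨ _ (ee_mem τ)).differentiableAt.hasDerivAt.sub_const _).const_mul _
      rw [Pi.mul_apply, h6.deriv, ← qParam_one τ, eq_cuspFunction τ one_ne_zero hp, h5, qParam_one,
        id]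
      ring
    rw [h1, tay_mul analyticAt_id a0.deriv, tay_id] at h2
    ext n
    rw [PowerSeries.coeff_mk]
    rcases n with _ | n
    · rw [PowerSeries.coeff_zero_eq_constantCoeff_apply, constantCoeff_tay, Φ0]
      simp
    · have h3 := congrArg (PowerSeries.coeff (n + 1)) h2
      rw [PowerSeries.coeff_succ_X_mul, PowerSeries.coeff_mk, coeff_tay] at h3
      rw [← h3, coeff_tay, iteratedDeriv_succ', Nat.factorial_succ]
      have h4 : ((n.factorial : ℕ) : ℂ) ≠ 0 := by exact_mod_cast n.factorial_ne_zero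
      have h5 : (n : ℂ) + 1 ≠ 0 := by exact_mod_cast n.succ_ne_zero
      push_cast
      field_simp
  · simp only [hΦ, ← hΨ, per_SL hF (hf.2.1 γ hγ)]
    ring

/-- a parabolic element at the cusp `0` -/
theorem exists_gN (Γ : Subgroup SL(2, ℤ)) [Γ.FiniteIndex] :
    ∃ N, 0 < N ∧ gN N ∈ Γ ∧ ∀ f ∈ CS Γ 2, per f (gN N) = 0 := by
  obtain ⟨N, hN⟩ := exists_wid Γ
  have h1 := hN.2 ModularGroup.S
  refine ⟨N, hN.1, gN_eq N ▸ Γ.inv_mem h1, fun f hf => ?_⟩
  have h2 := (mem_CS_iff hN (CS_le_MS hf)).mp hf ModularGroup.S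
  have h3 := per_SL (isPrim_prim hf.1) (hf.2.1 _ h1) (gN N • I)
  rw [h2, zero_add, ← mul_smul, gN_eq, mul_inv_cancel, one_smul, ← gN_eq] at h3
  rw [per, ← ModularGroup.sl_moeb, ← h3, sub_self]

end Crest.Agent.T15.Br
end
end

-- ▼ part T15/BrD_37
section

/-!
# Row 15, block Ht: integral formal solutions have torsion periods (over a number field)
-/

set_option autoImplicit false

open Set Filter Topology Metric Polynomial UpperHalfPlane
open scoped PowerSeries MatrixGroups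
open Crest.Agent.T15.AlgM Crest.Agent.T15.Hon Crest.Agent.T15.Mum Crest.Agent.T15.Ax
open Crest.Agent.T15.Esc Crest.Agent.T15.Und

noncomputable section

namespace Crest.Agent.T15.Br

/-- series `y` such that `d ^ k * y` has integral coefficients for some `k` -/
def IntS (K : Type*) [Field K] : Subring K⟦X⟧ where
  carrier := {y | ∃ d : ℕ, 0 < d ∧ ∀ n, IsIntegral ℤ ((d : K) * PowerSeries.coeff n y)}
  mul_mem' := by
    rintro y z ⟨d, hd, hy⟩ ⟨e, he, hz⟩
    refine ⟨d * e, Nat.mul_pos hd he, fun n => ?_⟩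
    rw [PowerSeries.coeff_mul, Finset.mul_sum]
    refine IsIntegral.sum _ fun p _ => ?_
    convert (hy p.1).mul (hz p.2) using 1
    push_cast
    ring
  one_mem' := ⟨1, one_pos, fun n => by
    rw [PowerSeries.coeff_one]
    split_ifs <;> simp [isIntegral_one, isIntegral_zero]⟩
  add_mem' := by
    rintro y z ⟨d, hd, hy⟩ ⟨e, he, hz⟩
    refine ⟨d * e, Nat.mul_pos hd he, fun n => ?_⟩
    have : ((d * e : ℕ) : K) * PowerSeries.coeff n (y + z) =
        e * (d * PowerSeries.coeff n y) + d * (e * PowerSeries.coeff n z) := by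
      push_cast
      rw [map_add]
      ring
    rw [this]
    exact ((isIntegral_natCast e).mul (hy n)).add ((isIntegral_natCast d).mul (hz n))
  zero_mem' := ⟨1, one_pos, fun n => by simp [isIntegral_zero]⟩
  neg_mem' := by
    rintro y ⟨d, hd, hy⟩
    exact ⟨d, hd, fun n => by simpa using (hy n).neg⟩

lemma coeff_prod_mem {R ι : Type*} [CommRing R] [Fintype ι] (S : Subring R) {x : ι → R}
    (hx : ∀ i, x i ∈ S) (n : ℕ) : (∏ i, (X - C (x i))).coeff n ∈ S := by
  have : ∏ i, (X - C (x i)) = (∏ i, (X - C (⟨x i, hx i⟩ : S))).map S.subtype := by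
    simp [Polynomial.map_prod]
  rw [this, coeff_map]
  exact Subtype.prop _

lemma constantCoeff_aeval {K : Type*} [Field K] (y : K⟦X⟧) (F : K[X]) :
    PowerSeries.constantCoeff (aeval y F) = F.eval (PowerSeries.constantCoeff y) := by
  induction F using Polynomial.induction_on' with
  | add p q hp hq => simp only [map_add, eval_add, hp, hq]
  | monomial n c => simp [← C_mul_X_pow_eq_monomial]

variable {g : ℕ}

/-- the analytic Jacobian exists -/
def HasJac (F : ℂ[X]) (g : ℕ) : Prop :=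
  ∃ (A : Type) (_ : AddCommGroup A) (cl : ℂ × ℂ → A) (ex : (Fin g → ℂ) →+ A),
    Cls F g cl ∧ IsExp F g cl ex

section one

variable {F : ℂ[X]} {A : Type*} [AddCommGroup A] {cl : ℂ × ℂ → A} {ex : (Fin g → ℂ) →+ A}
  {Γ : Subgroup SL(2, ℤ)}

/-- the Mumford coordinates along the Eichler integrals -/
theorem coords (hc : Cls F g cl) (he : IsExp F g cl ex) {a b : Fin g → ℂ}
    (ha : Function.Injective a) (hb : ∀ i, b i ≠ 0) {c : Fin g → ℕ → ℂ} {x w η : Fin g → ℂ⟦X⟧}
    (hs : Sol F a b (fun m => PowerSeries.mk fun n => c m n / n) x w η)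
    (hT : ModularGroup.T ∈ Γ) {f : Fin g → ℍ → ℂ} (hf : ∀ m, f m ∈ CS Γ 2)
    (hq : ∀ m, QS (c m) (f m)) :
    ∃ (Φ : ℍ → Fin g → ℂ) (U V : ℕ → ℂ → ℂ),
      (∀ γ ∈ Γ, ∀ τ, Φ (γ • τ) = (fun m => 2 * Real.pi * Complex.I * per (f m) γ) + Φ τ) ∧
      (∀ n, U n ∈ MD ∧ V n ∈ MD) ∧ (∀ n, tay (U n) = (∏ i, (X - C (x i))).coeff n) ∧
      (∀ i, ∑ k : Fin g, x i ^ (k : ℕ) * tay (V k) = w i) ∧
      (∀ τ τ' : ℍ, Φ τ = Φ τ' → ∀ n, U n (ee τ) = U n (ee τ')) ∧
      ∀ τ τ' : ℍ, (∀ n ≤ g, U n (ee τ) = U n (ee τ')) → (∀ n < g, V n (ee τ) = V n (ee τ')) →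
        ex (Φ τ) = ex (Φ τ') := by
  choose Φ aΦ Φ0 tΦ hΦ using fun m => exists_Phi hT (hf m) (hq m)
  have on : ∀ i, b i ^ 2 = F.eval (a i) := fun i => by
    have := congrArg PowerSeries.constantCoeff (hs.sq i)
    rwa [map_pow, hs.w0, constantCoeff_aeval, hs.x0] at this
  have an : ∀ q ∈ ball (0 : ℂ) 1, AnalyticAt ℂ (fun q m => Φ m q) q :=
    fun q hq => AnalyticAt.pi fun m => aΦ m q hq
  obtain ⟨x', w', η', hs', h1, h2, -, h4⟩ := taylor_sol hc he ha on (an 0 (mem_ball_self one_pos))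
    (funext Φ0)
  obtain ⟨rfl, rfl, -⟩ := sol_unique ha hb hs hs' fun m => by rw [← tΦ m]
  have hsum : IsSum F cl (∑ i, cl (a i, b i)) := IsSum.sum (P := fun i => (a i, b i)) on
  refine ⟨fun τ m => Φ m (ee τ), _, _, fun γ hγ τ => funext fun m => hΦ m γ hγ τ,
    fun n => ⟨⟨fun q hq => (cUV_mero hc he hsum (an q hq) n).1, (h1 n).1⟩,
      ⟨fun q hq => (cUV_mero hc he hsum (an q hq) n).2, (h1 n).2⟩⟩, h2, h4,
    fun τ τ' h n => ?_, fun τ τ' hU hV => ?_⟩
  · simp only [cU]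
    rw [show (fun m => Φ m (ee τ)) = fun m => Φ m (ee τ') from h]
  · have s1 := hsum.add (isSum_ex hc he fun m => Φ m (ee τ))
    have s2 := hsum.add (isSum_ex hc he fun m => Φ m (ee τ'))
    have r1 := (hc.mum_spec s1).1
    have r2 := (hc.mum_spec s2).1
    refine add_left_cancel (hc.mum_inj s1 s2 (Prod.ext ?_ ?_))
    · ext n
      rcases le_or_gt n g with hn | hn
      · exact hU n hn
      · rw [coeff_eq_zero_of_natDegree_lt (r1.deg.trans_lt hn),
          coeff_eq_zero_of_natDegree_lt (r2.deg.trans_lt hn)]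
    · ext n
      rcases lt_or_ge n g with hn | hn
      · exact hV n hn
      · rw [coeff_eq_zero_of_degree_lt (r1.lt.trans_le (degree_le_of_natDegree_le (r1.deg.trans hn))),
          coeff_eq_zero_of_degree_lt (r2.lt.trans_le (degree_le_of_natDegree_le (r2.deg.trans hn)))]

end one

/-- **torsion periods** -/
theorem periods {K : Type*} [Field K] [NumberField K] {F : K[X]} {a b : Fin g → K}
    (ha : Function.Injective a) (hb : ∀ i, b i ≠ 0) {c : Fin g → ℕ → K} {x w η : Fin g → K⟦X⟧}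
    (hs : Sol F a b (fun m => PowerSeries.mk fun n => c m n / n) x w η) (hx : ∀ i, x i ∈ IntS K)
    {Γ : Subgroup SL(2, ℤ)} [Γ.FiniteIndex] (hT : ModularGroup.T ∈ Γ)
    (jac : ∀ σ : K →+* ℂ, HasJac (F.map σ) g)
    (hf : ∀ (σ : K →+* ℂ) m, ∃ f ∈ CS Γ 2, QS (fun n => σ (c m n)) f) (σ₀ : K →+* ℂ)
    {A : Type*} [AddCommGroup A] {cl : ℂ × ℂ → A} {ex : (Fin g → ℂ) →+ A}
    (hc : Cls (F.map σ₀) g cl) (he : IsExp (F.map σ₀) g cl ex) {f : Fin g → ℍ → ℂ}
    (h1 : ∀ m, f m ∈ CS Γ 2) (h2 : ∀ m, QS (fun n => σ₀ (c m n)) (f m)) {δ : SL(2, ℤ)}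
    (hδ : δ ∈ Γ) : ∃ k : ℕ, 0 < k ∧ k • ex (fun m => 2 * Real.pi * Complex.I * per (f m) δ) = 0 := by
  obtain ⟨N, hN, hNΓ, hper⟩ := exists_gN Γ
  have hsσ : ∀ σ : K →+* ℂ, Sol (F.map σ) (fun i => σ (a i)) (fun i => σ (b i))
      (fun m => PowerSeries.mk fun n => σ (c m n) / n) (fun i => PowerSeries.map σ (x i))
      (fun i => PowerSeries.map σ (w i)) fun i => PowerSeries.map σ (η i) := fun σ => by
    convert sol_map σ hs using 2 with m
    ext n
    simp
  have haσ : ∀ σ : K →+* ℂ, Function.Injective fun i => σ (a i) := fun σ => σ.injective.comp ha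
  have hbσ : ∀ (σ : K →+* ℂ) i, σ (b i) ≠ 0 := fun σ i => (map_ne_zero σ).mpr (hb i)
  have hall : ∀ σ : K →+* ℂ, ∃ U : ℕ → ℂ → ℂ, ∀ n, U n ∈ MD ∧ InvBy (gN N) (U n) ∧
      tay (U n) = PowerSeries.map σ ((∏ i, (X - C (x i))).coeff n) := fun σ => by
    obtain ⟨A', _, cl', ex', hc', he'⟩ := jac σ
    choose f' hf1 hf2 using hf σ
    obtain ⟨Φ, U, V, k1, k2, k3, -, k5, -⟩ := coords hc' he' (haσ σ) (hbσ σ) (hsσ σ) hT hf1 hf2
    refine ⟨U, fun n => ⟨(k2 n).1, Eventually.of_forall fun τ => k5 _ _ ?_ n, ?_⟩⟩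
    · rw [k1 _ hNΓ]
      funext m
      simp [hper _ (hf1 m)]
    · rw [k3, ← coeff_map, Polynomial.map_prod]
      simp
  choose U' hU' using hall
  have alg : ∀ n, AlgRel (tay Xf) ((∏ i, (X - C (PowerSeries.map σ₀ (x i)))).coeff n) := fun n => by
    obtain ⟨d, hd, hy⟩ := coeff_prod_mem (IntS K) hx n
    have := algK hN Xf_mem (Xf_invBy _) tay_Xf Xf_nc hd hy (U := fun σ => U' σ n)
      (fun σ => (hU' σ n).1) (fun σ => (hU' σ n).2.1) (fun σ => (hU' σ n).2.2) σ₀
    rw [(hU' σ₀ n).2.2, ← coeff_map, Polynomial.map_prod] at this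
    simpa using this
  obtain ⟨Φ, U, V, k1, k2, k3, k4, -, k6⟩ := coords hc he (haσ σ₀) (hbσ σ₀) (hsσ σ₀) hT h1 h2
  have xinj : Function.Injective fun i => PowerSeries.map σ₀ (x i) := fun i j h =>
    haσ σ₀ (by
      have := congrArg PowerSeries.constantCoeff h
      rwa [(hsσ σ₀).x0, (hsσ σ₀).x0] at this)
  obtain ⟨-, -, algV⟩ := alg_roots Xf_nc xinj alg (hsσ σ₀).sq k4
  obtain ⟨k, hk, hk'⟩ := per_mul_mem ex.ker (k1 δ hδ)
    (U := Sum.elim (fun n : Fin (g + 1) => U n) fun n : Fin g => V n)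
    (fun i => by rcases i with i | i <;> simp [k2])
    (fun i => by
      rcases i with i | i
      · simpa [k3] using alg i
      · exact algV i)
    (p := fun _ => True) (Eventually.of_forall fun _ => trivial)
    fun τ τ' _ _ h => by
      rw [AddMonoidHom.mem_ker, map_sub, sub_eq_zero]
      exact k6 τ τ' (fun n hn => h (Sum.inl ⟨n, Nat.lt_succ_of_le hn⟩))
        fun n hn => h (Sum.inr ⟨n, hn⟩)
  exact ⟨k, hk, by rwa [AddMonoidHom.mem_ker, map_nsmul] at hk'⟩

end Crest.Agent.T15.Br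
end
end

-- ▼ part T15/BrE_85
section

/-!
# Row 15, block Ht (helper85): existence of the formal solution, descent to a number field

* `fix_ps` : fixed points of `X`-adic contractions;
* `exists_sol` : `Hon.Sol` has a solution over every field of characteristic zero;
* `descent` : an integral formal solution comes from a number field.
-/

set_option autoImplicit false

open Polynomial Matrix
open scoped PowerSeries
open Crest.Agent.T15.Hon

noncomputable section

namespace Crest.Agent.T15.Br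

section formal

variable {K : Type*} [Field K] {g : ℕ}

/-- fixed points of `X`-adic contractions -/
theorem fix_ps {R ι : Type*} [CommRing R] (T : (ι → R⟦X⟧) → ι → R⟦X⟧)
    (hT : ∀ (n : ℕ) (u v : ι → R⟦X⟧), (∀ i, PowerSeries.X ^ n ∣ u i - v i) →
      ∀ i, PowerSeries.X ^ (n + 1) ∣ T u i - T v i) : ∃ u, T u = u := by
  have h1 : ∀ n i, PowerSeries.X ^ n ∣ (T^[n + 1] 0) i - (T^[n] 0) i := by
    intro n
    induction n with
    | zero => intro i; simp
    | succ n ih =>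
      intro i
      have := hT n _ _ ih i
      rwa [← Function.iterate_succ_apply' T (n + 1), ← Function.iterate_succ_apply' T n] at this
  have h2 : ∀ n k i, PowerSeries.X ^ n ∣ (T^[n + k] 0) i - (T^[n] 0) i := by
    intro n k i
    induction k with
    | zero => simp
    | succ k ih =>
      have := ((pow_dvd_pow _ (Nat.le_add_right n k)).trans (h1 (n + k) i)).add ih
      rwa [sub_add_sub_cancel] at this
  set u : ι → R⟦X⟧ := fun i => PowerSeries.mk fun n => PowerSeries.coeff n ((T^[n + 1] 0) i)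
    with hu
  have h3 : ∀ n i, PowerSeries.X ^ n ∣ u i - (T^[n] 0) i := by
    intro n i
    rw [PowerSeries.X_pow_dvd_iff]
    intro m hm
    obtain ⟨k, rfl⟩ := Nat.exists_eq_add_of_le (Nat.succ_le_of_lt hm)
    have := PowerSeries.X_pow_dvd_iff.1 (h2 (m + 1) k i) m m.lt_succ_self
    rw [map_sub, sub_eq_zero] at this ⊢
    rw [hu]
    simp only [PowerSeries.coeff_mk]
    exact this.symm
  refine ⟨u, funext fun i => ?_⟩
  rw [← sub_eq_zero]
  ext n
  have a1 := hT n _ _ (h3 n) i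
  rw [← Function.iterate_succ_apply' T n] at a1
  have a2 := a1.sub (h3 (n + 1) i)
  rw [sub_sub_sub_cancel_right] at a2
  exact PowerSeries.X_pow_dvd_iff.1 a2 n n.lt_succ_self

/-- the primitive with constant term `a` -/
def intg (a : K) (p : K⟦X⟧) : K⟦X⟧ :=
  PowerSeries.mk fun n => Nat.casesOn n a fun m => PowerSeries.coeff m p / (m + 1)

lemma intg_zero (a : K) (p : K⟦X⟧) : PowerSeries.constantCoeff (intg a p) = a := by
  rw [← PowerSeries.coeff_zero_eq_constantCoeff_apply, intg, PowerSeries.coeff_mk]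
  rfl

lemma d_intg [CharZero K] (a : K) (p : K⟦X⟧) : PowerSeries.derivative K (intg a p) = p := by
  ext n
  rw [PowerSeries.coeff_derivative, intg, PowerSeries.coeff_mk]
  have : (n : K) + 1 ≠ 0 := by exact_mod_cast n.succ_ne_zero
  exact div_mul_cancel₀ _ this

lemma intg_dvd (a : K) {p q : K⟦X⟧} {n : ℕ} (h : PowerSeries.X ^ n ∣ p - q) :
    PowerSeries.X ^ (n + 1) ∣ intg a p - intg a q := by
  rw [PowerSeries.X_pow_dvd_iff] at h ⊢
  intro m hm
  rw [map_sub, intg, intg, PowerSeries.coeff_mk, PowerSeries.coeff_mk]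
  rcases m with _ | m
  · exact sub_self _
  · have := h m (by omega)
    rw [map_sub, sub_eq_zero] at this
    simp only [this, sub_self]

lemma cc_aeval (x : K⟦X⟧) (F : K[X]) :
    PowerSeries.constantCoeff (aeval x F) = F.eval (PowerSeries.constantCoeff x) := by
  induction F using Polynomial.induction_on' with
  | add p q hp hq => simp only [map_add, eval_add, hp, hq]
  | monomial n c => simp [← C_mul_X_pow_eq_monomial]

lemma vdm_unit {a : Fin g → K} (ha : Function.Injective a) {x : Fin g → K⟦X⟧}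
    (hx : ∀ i, PowerSeries.constantCoeff (x i) = a i) : IsUnit (vandermonde x)ᵀ.det := by
  rw [det_transpose, PowerSeries.isUnit_iff_constantCoeff, RingHom.map_det]
  have : (PowerSeries.constantCoeff (R := K)).mapMatrix (vandermonde x) = vandermonde a := by
    ext i j
    simp [vandermonde_apply, hx]
  rw [this]
  exact (det_vandermonde_ne_zero_iff.2 ha).isUnit

lemma vdm_mulVec {R : Type*} [CommRing R] (x η : Fin g → R) (m : Fin g) :
    ((vandermonde x)ᵀ *ᵥ η) m = ∑ i, x i ^ (m : ℕ) * η i := by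
  simp [mulVec, dotProduct, vandermonde_apply]

lemma vdm_dvd {R : Type*} [CommRing R] {x x' η η' : Fin g → R} (hu : IsUnit (vandermonde x)ᵀ.det)
    {d : R} (hx : ∀ i, d ∣ x i - x' i)
    (h : ∀ m : Fin g, ∑ i, x i ^ (m : ℕ) * η i = ∑ i, x' i ^ (m : ℕ) * η' i) (i : Fin g) :
    d ∣ η i - η' i := by
  have h1 : ∀ m, d ∣ ((vandermonde x)ᵀ *ᵥ (η - η')) m := fun m => by
    have : ((vandermonde x)ᵀ *ᵥ (η - η')) m = -∑ i, (x i ^ (m : ℕ) - x' i ^ (m : ℕ)) * η' i := by
      rw [mulVec_sub, Pi.sub_apply, vdm_mulVec, vdm_mulVec, h m, ← Finset.sum_sub_distrib,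
        ← Finset.sum_neg_distrib]
      exact Finset.sum_congr rfl fun i _ => by ring
    rw [this, dvd_neg]
    exact Finset.dvd_sum fun i _ => ((hx i).trans (sub_dvd_pow_sub_pow _ _ _)).mul_right _
  have h2 : η - η' = (vandermonde x)ᵀ⁻¹ *ᵥ ((vandermonde x)ᵀ *ᵥ (η - η')) := by
    rw [mulVec_mulVec, nonsing_inv_mul _ hu, one_mulVec]
  rw [← Pi.sub_apply, h2, mulVec, dotProduct]
  exact Finset.dvd_sum fun m _ => (h1 m).mul_left _

/-- **existence of the formal solution** -/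
theorem exists_sol [CharZero K] (F : K[X]) {a b : Fin g → K} (ha : Function.Injective a)
    (hb : ∀ i, b i ^ 2 = F.eval (a i)) (Φ : Fin g → K⟦X⟧) : ∃ x w η, Sol F a b Φ x w η := by
  set xx : (Fin g ⊕ Fin g → K⟦X⟧) → Fin g → K⟦X⟧ := fun u i => intg (a i) (u (.inl i))
  set ww : (Fin g ⊕ Fin g → K⟦X⟧) → Fin g → K⟦X⟧ := fun u i => intg (b i) (u (.inr i))
  have hu : ∀ u, IsUnit (vandermonde (xx u))ᵀ.det := fun u => vdm_unit ha fun i => intg_zero _ _
  set ee : (Fin g ⊕ Fin g → K⟦X⟧) → Fin g → K⟦X⟧ := fun u =>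
    (vandermonde (xx u))ᵀ⁻¹ *ᵥ fun m => PowerSeries.derivative K (Φ m) with hee
  have he : ∀ u (m : Fin g), ∑ i, xx u i ^ (m : ℕ) * ee u i = PowerSeries.derivative K (Φ m) :=
    fun u m => by
      rw [← vdm_mulVec, hee]
      simp only
      rw [mulVec_mulVec, mul_nonsing_inv _ (hu u), one_mulVec]
  obtain ⟨u, hfix⟩ := fix_ps (fun u => Sum.elim (fun i => ee u i * ww u i)
      fun i => ee u i * aeval (xx u i) (C (2 : K)⁻¹ * derivative F)) fun n u v h => by
    have hx : ∀ i, PowerSeries.X ^ (n + 1) ∣ xx u i - xx v i := fun i => intg_dvd _ (h _)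
    have hw : ∀ i, PowerSeries.X ^ (n + 1) ∣ ww u i - ww v i := fun i => intg_dvd _ (h _)
    have hη := vdm_dvd (hu u) hx fun m => (he u m).trans (he v m).symm
    rintro (i | i)
    · simp only [Sum.elim_inl]
      have := ((hη i).mul_right (ww u i)).add ((hw i).mul_left (ee v i))
      convert this using 1
      ring
    · simp only [Sum.elim_inr]
      have h1 : PowerSeries.X ^ (n + 1) ∣ aeval (xx u i) (C (2 : K)⁻¹ * derivative F) -
          aeval (xx v i) (C (2 : K)⁻¹ * derivative F) := by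
        rw [← eval_map_algebraMap, ← eval_map_algebraMap]
        exact (hx i).trans (sub_dvd_eval_sub _ _ _)
      have := ((hη i).mul_right (aeval (xx u i) (C (2 : K)⁻¹ * derivative F))).add
        (h1.mul_left (ee v i))
      convert this using 1
      ring
  have dx : ∀ i, PowerSeries.derivative K (xx u i) = ee u i * ww u i := fun i =>
    (d_intg _ _).trans (congrFun hfix (.inl i)).symm
  have dw : ∀ i, PowerSeries.derivative K (ww u i) =
      ee u i * aeval (xx u i) (C (2 : K)⁻¹ * derivative F) := fun i =>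
    (d_intg _ _).trans (congrFun hfix (.inr i)).symm
  refine ⟨xx u, ww u, ee u, fun i => ?_, fun i => intg_zero _ _, fun i => intg_zero _ _, dx, he u⟩
  refine PowerSeries.derivative.ext ?_ ?_
  · have h2 : (2 : K⟦X⟧) * algebraMap K K⟦X⟧ (2 : K)⁻¹ = 1 := by
      rw [← map_ofNat (algebraMap K K⟦X⟧) 2, ← map_mul, mul_inv_cancel₀ two_ne_zero, map_one]
    rw [Derivation.comp_aeval_eq, Derivation.leibniz_pow, dx, dw, map_mul, aeval_C]
    simp only [smul_eq_mul, nsmul_eq_mul, Nat.cast_ofNat, Nat.add_one_sub_one, pow_one]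
    linear_combination (ww u i * ee u i * aeval (xx u i) (derivative F)) * h2
  · rw [map_pow, cc_aeval, intg_zero, intg_zero, hb]

lemma sol_map' {K' : Type*} [Field K'] (σ : K →+* K') {F : K[X]} {a b : Fin g → K}
    {Φ x w η : Fin g → K⟦X⟧} (h : Sol F a b Φ x w η) :
    Sol (F.map σ) (fun i => σ (a i)) (fun i => σ (b i)) (fun i => PowerSeries.map σ (Φ i))
      (fun i => PowerSeries.map σ (x i)) (fun i => PowerSeries.map σ (w i))
      fun i => PowerSeries.map σ (η i) := by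
  have md : ∀ f : K⟦X⟧, PowerSeries.map σ (PowerSeries.derivative K f) =
      PowerSeries.derivative K' (PowerSeries.map σ f) := fun f => by
    ext n
    simp [PowerSeries.coeff_derivative]
  have ma : ∀ (f : K⟦X⟧) (F : K[X]),
      PowerSeries.map σ (aeval f F) = aeval (PowerSeries.map σ f) (F.map σ) := fun f F => by
    induction F using Polynomial.induction_on' with
    | add p q hp hq => simp only [Polynomial.map_add, map_add, hp, hq]
    | monomial n c => simp [← C_mul_X_pow_eq_monomial]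
  have mc : ∀ f : K⟦X⟧, PowerSeries.constantCoeff (PowerSeries.map σ f) =
      σ (PowerSeries.constantCoeff f) := fun f => by
    rw [← PowerSeries.coeff_zero_eq_constantCoeff_apply, PowerSeries.coeff_map,
      PowerSeries.coeff_zero_eq_constantCoeff_apply]
  exact ⟨fun i => by rw [← map_pow, h.sq, ma], fun i => by rw [mc, h.x0], fun i => by rw [mc, h.w0],
    fun i => by rw [← md, h.dx, map_mul],
    fun m => by rw [← md, ← h.sum, map_sum]; simp only [map_mul, map_pow]⟩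

end formal

/-- embeddings into `ℂ` extend to algebraic extensions -/
lemma exists_ext_C {Om : Type*} [Field Om] [CharZero Om] [Algebra.IsAlgebraic ℚ Om]
    (K : IntermediateField ℚ Om) (σ : K →+* ℂ) : ∃ σ' : Om →+* ℂ, ∀ z : K, σ' z = σ z := by
  let _ : Algebra K ℂ := σ.toAlgebra
  exact ⟨(IsAlgClosed.lift : Om →ₐ[K] ℂ).toRingHom, fun z =>
    (IsAlgClosed.lift : Om →ₐ[K] ℂ).commutes z⟩

/-- **descent to a number field** -/
theorem descent {Om : Type*} [Field Om] [CharZero Om] [Algebra.IsAlgebraic ℚ Om] {g : ℕ}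
    (K0 : IntermediateField ℚ Om) [FiniteDimensional ℚ K0] (F : Om[X]) {a b : Fin g → Om}
    {c : ℕ → Fin g → Om} (hc : ∀ n k, c n k ∈ K0) (ha : Function.Injective a)
    (hb : ∀ i, b i ^ 2 = F.eval (a i))
    (hI : ∀ x w η : Fin g → Om⟦X⟧, Sol F a b (fun k => PowerSeries.mk fun n => c n k / n) x w η →
      ∀ i n, 0 < n → IsIntegral ℤ (PowerSeries.coeff n (x i))) :
    ∃ (K : IntermediateField ℚ Om) (_ : NumberField K) (F0 : K[X]) (a0 b0 : Fin g → K)
      (c0 : ℕ → Fin g → K) (x w η : Fin g → K⟦X⟧) (d : ℕ), F0.map (algebraMap K Om) = F ∧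
      (∀ i, (a0 i : Om) = a i) ∧ (∀ i, (b0 i : Om) = b i) ∧ (∀ n k, (c0 n k : Om) = c n k) ∧
      Sol F0 a0 b0 (fun k => PowerSeries.mk fun n => c0 n k / n) x w η ∧ 0 < d ∧
      ∀ i n, IsIntegral ℤ ((d : K) * PowerSeries.coeff n (x i)) := by
  classical
  set S : Set Om := (F.coeffs : Set Om) ∪ (Set.range a ∪ Set.range b) with hS
  have hfin : Finite S :=
    ((F.coeffs.finite_toSet).union ((Set.finite_range a).union (Set.finite_range b))).to_subtype
  have hK1 : FiniteDimensional ℚ (IntermediateField.adjoin ℚ S) :=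
    IntermediateField.finiteDimensional_adjoin fun z _ => (Algebra.IsAlgebraic.isAlgebraic z).isIntegral
  set K : IntermediateField ℚ Om := K0 ⊔ IntermediateField.adjoin ℚ S with hK
  have hKf : FiniteDimensional ℚ K := IntermediateField.finiteDimensional_sup _ _
  have hNF : NumberField K := ⟨⟩
  have hS' : ∀ z ∈ S, z ∈ K := fun z hz =>
    (le_sup_right : _ ≤ K) (IntermediateField.subset_adjoin ℚ S hz)
  obtain ⟨F0, hF0⟩ : F ∈ Polynomial.lifts (algebraMap K Om) := by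
    rw [lifts_iff_coeff_lifts]
    intro n
    by_cases h : F.coeff n = 0
    · exact ⟨0, by rw [h, map_zero]⟩
    · exact ⟨⟨_, hS' _ (Or.inl (coeff_mem_coeffs h))⟩, rfl⟩
  replace hF0 : F0.map (algebraMap K Om) = F := hF0
  set a0 : Fin g → K := fun i => ⟨a i, hS' _ (Or.inr (Or.inl ⟨i, rfl⟩))⟩
  set b0 : Fin g → K := fun i => ⟨b i, hS' _ (Or.inr (Or.inr ⟨i, rfl⟩))⟩
  set c0 : ℕ → Fin g → K := fun n k => ⟨c n k, (le_sup_left : _ ≤ K) (hc n k)⟩
  have ha0 : Function.Injective a0 := fun i j h => ha (congrArg Subtype.val h)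
  have hb0 : ∀ i, b0 i ^ 2 = F0.eval (a0 i) := fun i => by
    apply (algebraMap K Om).injective
    rw [map_pow, ← eval₂_at_apply, ← eval_map, hF0]
    exact hb i
  obtain ⟨x, w, η, hs⟩ := exists_sol F0 ha0 hb0 fun k => PowerSeries.mk fun n => c0 n k / n
  have hs' := sol_map' (algebraMap K Om) hs
  have e1 : (fun k => PowerSeries.map (algebraMap K Om) (PowerSeries.mk fun n => c0 n k / n)) =
      fun k => PowerSeries.mk fun n => c n k / n := by
    funext k
    ext n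
    simp only [PowerSeries.coeff_map, PowerSeries.coeff_mk, map_div₀, map_natCast]
    rfl
  rw [hF0, e1] at hs'
  have h1 := hI _ _ _ hs'
  have h2 : ∀ i, ∃ d : ℕ, 0 < d ∧ IsIntegral ℤ ((d : K) * a0 i) := fun i => by
    obtain ⟨y, hy, h⟩ := ((IsFractionRing.isAlgebraic_iff ℤ ℚ K).2
      (Algebra.IsAlgebraic.isAlgebraic (a0 i))).exists_integral_multiple
    refine ⟨y.natAbs, Int.natAbs_pos.2 hy, ?_⟩
    rw [zsmul_eq_mul] at h
    rcases Int.natAbs_eq y with e | e
    · rw [e] at h; simpa using h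
    · rw [e] at h; simpa using h.neg
  choose d hd hd' using h2
  refine ⟨K, hNF, F0, a0, b0, c0, x, w, η, ∏ i, d i, hF0, fun _ => rfl, fun _ => rfl,
    fun _ _ => rfl, hs, Finset.prod_pos fun i _ => hd i, fun i n => ?_⟩
  have hn : ∀ m : ℕ, IsIntegral ℤ (m : K) := fun m => by
    simpa using isIntegral_algebraMap (R := ℤ) (A := K) (x := (m : ℤ))
  rcases n.eq_zero_or_pos with rfl | h0
  · rw [PowerSeries.coeff_zero_eq_constantCoeff_apply, hs.x0,
      ← Finset.prod_erase_mul _ _ (Finset.mem_univ i), Nat.cast_mul, mul_assoc]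
    exact (hn _).mul (hd' i)
  · refine (hn _).mul ?_
    have := h1 i n h0
    rw [PowerSeries.coeff_map] at this
    exact (isIntegral_algHom_iff (IsScalarTower.toAlgHom ℤ K Om) (algebraMap K Om).injective).1 this

end Crest.Agent.T15.Br
end
end

-- ▼ part T15/BrF_37
section

/-!
# Row 15, block Ht: integral formal solutions have torsion periods (over an algebraic field)
-/

set_option autoImplicit false

open Polynomial UpperHalfPlane
open scoped PowerSeries MatrixGroups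
open Crest.Agent.T15.Hon Crest.Agent.T15.Mum Crest.Agent.T15.Ax
open Crest.Agent.T15.Esc Crest.Agent.T15.Und

noncomputable section

namespace Crest.Agent.T15.Br

variable {g : ℕ}

theorem hasJac {F : ℂ[X]} (hs : F.Separable) (hg : F.natDegree = 2 * g + 1) : HasJac F g := by
  have : Hy.HF F := ⟨two_ne_zero, hs, by omega⟩
  obtain ⟨ex, he⟩ := (Aj.dat0 (Hy.Hf.hyp F) hg).exists_exp
  exact ⟨_, inferInstance, _, ex, Aj.mumCls (Hy.Hf.hyp F) hg, he⟩

/-- **torsion periods** -/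
theorem periods_alg {Om : Type*} [Field Om] [CharZero Om] [Algebra.IsAlgebraic ℚ Om]
    (ι : Om →+* ℂ) {F : Om[X]} {A : Type*} [AddCommGroup A] {cl : ℂ × ℂ → A}
    {ex : (Fin g → ℂ) →+ A} (hc : Cls (F.map ι) g cl) (he : IsExp (F.map ι) g cl ex)
    {c : ℕ → Fin g → Om} {a b : Fin g → Om} (K0 : IntermediateField ℚ Om)
    [FiniteDimensional ℚ K0] (hK : ∀ n k, c n k ∈ K0) (ha : Function.Injective a)
    (hb : ∀ i, b i ≠ 0) (on : ∀ i, b i ^ 2 = F.eval (a i))
    (hI : ∀ x w η : Fin g → Om⟦X⟧, Sol F a b (fun k => PowerSeries.mk fun n => c n k / n) x w η →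
      ∀ i n, 0 < n → IsIntegral ℤ (PowerSeries.coeff n (x i)))
    {Γ : Subgroup SL(2, ℤ)} [Γ.FiniteIndex] (hT : ModularGroup.T ∈ Γ)
    (hf : ∀ (σ : Om →+* ℂ) k, ∃ f ∈ CS Γ 2, QS (fun n => σ (c n k)) f) {f : Fin g → ℍ → ℂ}
    (h1 : ∀ k, f k ∈ CS Γ 2) (h2 : ∀ k, QS (fun n => ι (c n k)) (f k)) {δ : SL(2, ℤ)}
    (hδ : δ ∈ Γ) : ∃ k : ℕ, 0 < k ∧ k • ex (fun m => 2 * Real.pi * Complex.I * per (f m) δ) = 0 := by
  obtain ⟨K, _, F0, a0, b0, c0, x, w, η, d, rfl, ea, eb, ec, hs, hd, hx⟩ :=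
    descent K0 F hK ha on hI
  rw [Polynomial.map_map] at hc he
  have sep : F0.Separable := (separable_map _).mp hc.sep
  have deg : F0.natDegree = 2 * g + 1 := by rw [← hc.deg, natDegree_map]
  refine periods (c := fun m n => c0 n m) (fun i j h => ha (by rw [← ea, ← ea, h]))
    (fun i h => hb i (by rw [← eb, h]; rfl)) hs (fun i => ⟨d, hd, hx i⟩) hT
    (fun σ => hasJac sep.map (by rw [natDegree_map, deg])) (fun σ m => ?_) _ hc he h1
    (fun m => ?_) hδ
  · obtain ⟨σ', h⟩ := exists_ext_C K σ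
    simpa only [← ec, h] using hf σ' m
  · have := h2 m
    simp only [← ec] at this
    exact this

end Crest.Agent.T15.Br
end
end

-- ▼ part T15/BrG_37

/-!
# Row 15, block Ht: the leaf `BrStmt`
-/

set_option autoImplicit false

namespace Crest.Agent.T15.Br

open CongruenceSubgroup

/-- **leaf BR** -/
theorem brStmt : Ht.BrStmt := by
  intro ι F A _ cl ex L c a b K0 h lt hL hK hc base hI hσ hι γ hγ
  have : NeZero L := ⟨hL.ne'⟩
  have : Algebra.IsAlgebraic ℚ (AlgebraicClosure ℚ) := AlgebraicClosure.isAlgebraic ℚ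
  exact periods_alg ι lt.cls lt.exp K0 hc base.inj base.ne base.on
    (fun x w η hs i n hn => (hI x w η hs i n hn).1) (by rw [Gamma0_mem]; simp [ModularGroup.T])
    (fun σ k => (hσ σ).elim fun h' e => ⟨h' k, e k⟩) (fun k => (hι k).1) (fun k => (hι k).2) hγ

end Crest.Agent.T15.Br
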