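import Crest.Agent.T15.RTDef_3
import Crest.Agent.T15.CDef_7
import Crest.Agent.T15.FlR_23

/-!
# Row 15, block R (helper78): the Selmer bound `RT.Sel` from `C.TWStmt` and the local bound at `3`
-/

set_option autoImplicit false

noncomputable section

namespace Crest.Agent.T15.Sel

open Matrix Module IsLocalRing
open scoped NNReal
open Crest.Agent.T15.Ps Crest.Agent.T15.Blr Crest.Agent.T15.C Crest.Agent.T15.FlR
open Crest.Agent.R018.Placesx484

/-- the last clause of `C.TWStmt` -/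
def Bound {k : Type} [Field k] (ρ : Gam →* M2 k) (Q : Finset ℕ) (r : ℕ) : Prop :=
  ∀ (V : Type) [AddCommGroup V] [Module k V] (c : V →ₗ[k] (Gam → M2 k)) (P₃ : Place Om),
    P₃.rchar = 3 → (∀ v, Cls ρ (c v)) → (∀ v, Triv ρ (c v) ⊤ → v = 0) →
    (∀ v (P : Place Om), P.rchar ≠ 3 → P.rchar ∉ Q → Triv ρ (c v) (In P)) →
    (∀ v, Triv ρ (c v) (De P₃)) → Module.Finite k V ∧ finrank k V + 1 ≤ r

/-- **the local bound at `3`**: two classes cut out inside the field of a flat module killed by `3`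
are dependent on the decomposition group.  Flatness is that of `G₀` acting through `s`. -/
def L3 {Ω : Type} [Field Ω] (w : Valuation Ω ℝ≥0) (G₀ : Type) [Group G₀] [MulSemiringAction G₀ Ω]
    (s : G₀ → Gam) {k : Type} [Field k] (ρ : Gam →* M2 k) (P₃ : Place Om) : Prop :=
  ∀ (X : Type) [AddCommGroup X] [Finite X] (τ : Gam →* AddMonoid.End X), (∀ x : X, 3 • x = 0) →
    IsOpen (τ.ker : Set Gam) → Flat w G₀ (fun g x => τ (s g) x) → τ.ker ≤ ρ.ker →
    ∀ c c' : Gam → M2 k, Cls ρ c → Cls ρ c' → Triv ρ c τ.ker → Triv ρ c' τ.ker →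
      ∃ a b : k, (a ≠ 0 ∨ b ≠ 0) ∧ Triv ρ (a • c + b • c') (De P₃)

lemma conj_mem_In {P : Place Om} (g : Gam) {n : Gam} (hn : n ∈ In (g • P)) :
    g⁻¹ * n * g ∈ In P := fun x => by
  have h := (Place.mem_smul_ideal g P _).1 (hn (g • x))
  simpa [smul_sub, mul_smul] using h

lemma isOpen_ker {M : Type*} [Monoid M] {f : Gam →* M} (h : RT.Opn f) :
    IsOpen (f.ker : Set Gam) := by
  obtain ⟨L, hL, h⟩ := h
  exact Subgroup.isOpen_mono (H₁ := L.fixingSubgroup)
    (fun g hg => h g ((IntermediateField.mem_fixingSubgroup_iff _ _).1 hg))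
    L.fixingSubgroup_isOpen

lemma opn_of_isOpen {M : Type*} [Monoid M] {f : Gam →* M} (h : IsOpen (f.ker : Set Gam)) :
    RT.Opn f := by
  obtain ⟨L, hL, h⟩ := (krullTopology_mem_nhds_one_iff ℚ Om _).1 (h.mem_nhds f.ker.one_mem)
  exact ⟨L, hL, fun g hg => h ((IntermediateField.mem_fixingSubgroup_iff _ _).2 hg)⟩

lemma finrank_le_succ {k V : Type*} [Field k] [AddCommGroup V] [Module k V] (W : Submodule k V)
    [Module.Finite k W] (h : ∀ v v' : V, ∃ a b : k, (a ≠ 0 ∨ b ≠ 0) ∧ a • v + b • v' ∈ W) :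
    finrank k V ≤ finrank k W + 1 := by
  by_cases h0 : W = ⊤
  · subst h0; simp
  obtain ⟨v₀, hv₀⟩ : ∃ v₀, v₀ ∉ W := by
    by_contra hc; exact h0 (eq_top_iff.2 fun v _ => by_contra fun hv => hc ⟨v, hv⟩)
  have h1 : W ⊔ Submodule.span k {v₀} = ⊤ := eq_top_iff.2 fun v _ => by
    obtain ⟨a, b, hab, hW⟩ := h v v₀
    have ha : a ≠ 0 := fun ha => hv₀ (by
      rw [ha, zero_smul, zero_add] at hW
      exact (W.smul_mem_iff (hab.resolve_left (not_not.2 ha))).1 hW)
    rw [← Submodule.smul_mem_iff _ ha, ← add_sub_cancel_right (a • v) (b • v₀)]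
    exact sub_mem (Submodule.mem_sup_left hW)
      (Submodule.mem_sup_right (Submodule.smul_mem _ _ (Submodule.mem_span_singleton_self _)))
  have h2 := Submodule.finrank_add_le_finrank_add_finrank W (Submodule.span k {v₀})
  rw [h1, finrank_top, finrank_span_singleton (v := v₀) (fun h => hv₀ (h ▸ W.zero_mem))] at h2
  exact h2

/-- matrices acting on vectors, additively -/
def actE {R : Type*} [CommRing R] (σ : Gam →* M2 R) : Gam →* AddMonoid.End (Fin 2 → R) where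
  toFun g := (σ g).mulVecLin.toAddMonoidHom
  map_one' := AddMonoidHom.ext fun v => show σ 1 *ᵥ v = v by rw [map_one, one_mulVec]
  map_mul' g k := AddMonoidHom.ext fun v =>
    show σ (g * k) *ᵥ v = σ g *ᵥ σ k *ᵥ v by rw [map_mul, mulVec_mulVec]

lemma ker_actE {R : Type*} [CommRing R] (σ : Gam →* M2 R) : (actE σ).ker = σ.ker := by
  ext g
  refine ⟨fun h => Matrix.ext_of_mulVec_single fun i => ?_, fun h => AddMonoidHom.ext fun v => ?_⟩
  · rw [one_mulVec]; exact DFunLike.congr_fun h (Pi.single i 1)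
  · show σ g *ᵥ v = v
    rw [show σ g = 1 from h, one_mulVec]

lemma conj_eq_one {k : Type*} [CommRing k] {ρ : Gam →* M2 k} (P : GL (Fin 2) k) {g : Gam} :
    conj ρ P g = 1 ↔ ρ g = 1 := by
  have e : ρ g = P.val * conj ρ P g * (P⁻¹ : GL (Fin 2) k).val := by
    simp [conj_apply, mul_assoc]
  exact ⟨fun h => by rw [e, h]; simp, fun h => by simp [conj_apply, h]⟩

/-- the classes that vanish on a subgroup -/
def trivSub {k V : Type} [Field k] [AddCommGroup V] [Module k V] (ρ : Gam →* M2 k)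
    (c : V →ₗ[k] (Gam → M2 k)) (D : Subgroup Gam) : Submodule k V where
  carrier := {v | Triv ρ (c v) D}
  add_mem' := fun {a b} ha hb n hn h1 => by
    rw [map_add, Pi.add_apply, ha n hn h1, hb n hn h1, add_zero]
  zero_mem' := fun n _ _ => by simp
  smul_mem' := fun a D hD n hn h1 => by rw [map_smul, Pi.smul_apply, hD n hn h1, smul_zero]

lemma finrank_le_of_bound {k V : Type} [Field k] [AddCommGroup V] [Module k V] {ρ : Gam →* M2 k}
    {Q : Finset ℕ} {r : ℕ} (hB : Bound ρ Q r) {P₃ : Place Om} (h3 : P₃.rchar = 3)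
    (c : V →ₗ[k] (Gam → M2 k)) (hcls : ∀ v, Cls ρ (c v)) (hinj : ∀ v, Triv ρ (c v) ⊤ → v = 0)
    (W : Submodule k V)
    (hun : ∀ v ∈ W, ∀ P : Place Om, P.rchar ≠ 3 → P.rchar ∉ Q → Triv ρ (c v) (In P))
    (hdep : ∀ v v', ∃ a b : k, (a ≠ 0 ∨ b ≠ 0) ∧ Triv ρ (a • c v + b • c v') (De P₃)) :
    finrank k W ≤ r := by
  let W₀ : Submodule k W := trivSub ρ (c ∘ₗ W.subtype) (De P₃)
  obtain ⟨hfin, hr⟩ := hB W₀ ((c ∘ₗ W.subtype) ∘ₗ W₀.subtype) P₃ h3 (fun v => hcls _)
    (fun v hv => Subtype.ext (Subtype.ext (hinj v.1.1 hv))) (fun v => hun _ v.1.2) fun v => v.2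
  refine (finrank_le_succ W₀ fun v v' => ?_).trans hr
  obtain ⟨a, b, hab, h⟩ := hdep v v'
  refine ⟨a, b, hab, ?_⟩
  show Triv ρ (c (a • v.1 + b • v'.1)) (De P₃)
  rwa [map_add, map_smul, map_smul]

/-- **the Selmer bound** -/
theorem sel_of {O : Type} [CommRing O] [IsLocalRing O] [CharP (ResidueField O) 3]
    {ρ : Gam →* M2 O} {Λ : Type} {Pl : Λ → Place Om} {C : Type} [CommRing C] [Algebra O C]
    [Finite C] {H : Type} [AddCommGroup H] [Module O H] [Finite H] {ρH : Gam →* Module.End O H}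
    {Δ : Type} [CommGroup Δ] {δ : Gam →* Δ} {Q : Finset ℕ} {r : ℕ}
    (hidx : ¬ 3 ∣ (bar (ResidueField O) ρ).ker.index)
    (hB : Bound (bar (ResidueField O) ρ) Q r)
    {Ω : Type} [Field Ω] [IsAlgClosed Ω] [CharZero Ω] {w : Valuation Ω ℝ≥0} {G₀ : Type} [Group G₀]
    [MulSemiringAction G₀ Ω] {s : G₀ → Gam} {P₃ : Place Om} (h3 : P₃.rchar = 3)
    (hL : L3 w G₀ s (bar (ResidueField O) ρ) P₃) (hs : ∀ g, δ (s g) = 1)
    (hH : Flat w G₀ fun g (x : H) => ρH (s g) x)
    (hC : Flat w G₀ fun g (x : Fin 2 → C) => bar C ρ (s g) *ᵥ x)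
    (hunr : ∀ P : Place Om, P.rchar ≠ 3 → P.rchar ∉ Q → (∃ l, (Pl l).rchar = P.rchar) ∨
      ∀ g ∈ In P, δ g = 1 ∧ ρH g = 1 ∧ bar C ρ g = 1) :
    RT.Sel r ρ Pl C ρH δ := by
  intro R _ _ _ _ _ _ σ P j hbar hdet hgen hopn hj hinj W hW
  have h30 : ((3 : ℕ) : ResidueField O) = 0 := CharP.cast_eq_zero _ 3
  generalize bar (ResidueField O) ρ = ρ₀ at *
  have hker : ∀ g, bar (ResidueField O) σ g = 1 ↔ ρ₀ g = 1 := fun g => by rw [hbar, conj_eq_one]
  let cc : Derivation O R (ResidueField O) →ₗ[ResidueField O] (Gam → M2 (ResidueField O)) :=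
    { toFun := fun D g => P.val * phi σ D g * (P⁻¹ : GL (Fin 2) _).val
      map_add' := fun D D' => funext fun g => by
        rw [Pi.add_apply, ← add_mul, ← mul_add]; rfl
      map_smul' := fun a D => funext fun g => by
        rw [Pi.smul_apply, RingHom.id_apply, ← smul_mul_assoc, ← mul_smul_comm]; rfl }
  have hcc : ∀ D g, cc D g = P.val * phi σ D g * (P⁻¹ : GL (Fin 2) _).val := fun _ _ => rfl
  have hcc0 : ∀ D g, cc D g = 0 ↔ phi σ D g = 0 := fun D g => by
    rw [hcc, Units.mul_left_eq_zero, Units.mul_right_eq_zero]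
  have hcls : ∀ D, Cls ρ₀ (cc D) := fun D =>
    { add := fun n n' hn hn' => by
        rw [hcc, phi_mul_ker σ D ((hker _).2 hn) ((hker _).2 hn'), mul_add, add_mul]; rfl
      conj := fun g n hn => by
        rw [hcc, phi_conj σ D g ((hker _).2 hn), hbar, hbar, hcc]
        simp [conj_apply, mul_assoc]
      tr := fun n hn => by
        rw [hcc, trace_mul_comm, ← mul_assoc, Units.inv_mul, one_mul,
          trace_phi_ker_eq_zero σ D ((hker _).2 hn) (hdet n)]
      opn := ⟨σ.ker, isOpen_ker hopn, fun n hn _ => (hcc0 _ _).2 (phi_eq_zero_of σ D hn)⟩ }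
  have hσ1 : ∀ g, δ g = 1 → ρH g = 1 → bar C ρ g = 1 → σ g = 1 := fun g h1 h2 h4 =>
    Matrix.ext_of_mulVec_single fun i => sub_eq_zero.1 (hinj _ fun v => by
      rw [map_sub, hj v g _ h1, one_mulVec, prodAct_apply, act_apply, h2, h4, one_mulVec,
        Module.End.one_apply, sub_self])
  have hun : ∀ D ∈ W, ∀ P' : Place Om, P'.rchar ≠ 3 → P'.rchar ∉ Q → Triv ρ₀ (cc D) (In P') := by
    intro D hD P' h1 h2 n hn hn1
    rcases hunr P' h1 h2 with ⟨l, hl⟩ | h
    · obtain ⟨g, rfl⟩ := Cheb.exists_smul_eq hl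
      have e : ρ₀ (g⁻¹ * n * g) = 1 := by
        rw [map_mul, map_mul, hn1, mul_one, ← map_mul, inv_mul_cancel, map_one]
      have := (hcls D).conj g _ e
      rw [(hcc0 _ _).2 (hW D hD l _ (conj_mem_In g hn) e)] at this
      simpa [mul_assoc] using this
    · obtain ⟨a, b, c⟩ := h n hn
      exact (hcc0 _ _).2 (phi_eq_zero_of σ D (hσ1 n a b c))
  -- the flat module `(R/3)²`
  let I : Ideal R := Ideal.span {((3 : ℕ) : R)}
  have hI : ∀ g ∈ (actE (bar (R ⧸ I) σ)).ker, ∃ M : M2 R, σ g = 1 + 3 • M := fun g hg => by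
    rw [ker_actE] at hg
    have h1 : ∀ a b, ∃ m : R, m * (3 : ℕ) = σ g a b - (1 : M2 R) a b := fun a b => by
      rw [← Ideal.mem_span_singleton', ← Ideal.Quotient.eq]
      have := congrFun (congrFun (show bar (R ⧸ I) σ g = 1 from hg) a) b
      rw [bar_apply, map_apply] at this
      refine this.trans ?_
      rw [one_apply, one_apply]; split_ifs <;> simp
    choose M hM using h1
    refine ⟨Matrix.of M, Matrix.ext fun a b => ?_⟩
    rw [Matrix.add_apply, Matrix.smul_apply, of_apply, nsmul_eq_mul]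
    linear_combination -hM a b
  have hfl : Flat w G₀ fun g (x : Fin 2 → R ⧸ I) => actE (bar (R ⧸ I) σ) (s g) x := by
    have h1 : Flat w G₀ fun g (x : Fin 2 → R) => σ (s g) *ᵥ x :=
      flat_of_emb (W := fun _ : H × (Fin 2 → C) => H × (Fin 2 → C)) (fun _ => hH.prod hC)
        (fun v => (j v).toAddMonoidHom) hinj fun v g x => hj v _ x (hs g)
    refine h1.quot ((Ideal.Quotient.mk I).toAddMonoidHom.compLeft _)
      (Function.Surjective.piMap fun _ => Ideal.Quotient.mk_surjective) fun g x => ?_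
    ext i
    exact RingHom.map_mulVec (Ideal.Quotient.mk I) (σ (s g)) x i
  have : Finite (R ⧸ I) := Finite.of_surjective _ Ideal.Quotient.mk_surjective
  have hdep := fun D D' => hL (Fin 2 → R ⧸ I) (actE (bar (R ⧸ I) σ))
    (fun x => funext fun i => by
      rw [Pi.smul_apply, nsmul_eq_mul, ← map_natCast (Ideal.Quotient.mk I),
        Ideal.Quotient.eq_zero_iff_mem.2 (Ideal.mem_span_singleton_self _), zero_mul]; rfl)
    (by
      rw [ker_actE]
      exact Subgroup.isOpen_mono (H₁ := σ.ker) (fun g hg => by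
        show (algebraMap R (R ⧸ I)).mapMatrix (σ g) = 1
        rw [show σ g = 1 from hg, map_one]) (isOpen_ker hopn))
    hfl (fun g hg => by
      obtain ⟨M, hM⟩ := hI g hg
      exact (hker g).1 (bar_eq_one_of_cong σ h30 hM))
    (cc D) (cc D') (hcls D) (hcls D')
    (fun g hg _ => by
      obtain ⟨M, hM⟩ := hI g hg
      exact (hcc0 _ _).2 (phi_eq_zero_of_cong σ D h30 hM))
    (fun g hg _ => by
      obtain ⟨M, hM⟩ := hI g hg
      exact (hcc0 _ _).2 (phi_eq_zero_of_cong σ D' h30 hM))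
  exact finrank_le_of_bound hB h3 cc hcls (fun D hv => eq_zero_of_phi σ D hgen
      (fun g => ⟨ρ₀.ker.index, (CharP.isUnit_natCast_iff Nat.prime_three).2 hidx,
        (hker _).2 (ρ₀.ker.pow_index_mem g)⟩)
      fun n hn => (hcc0 _ _).1 (hv n trivial ((hker n).1 hn))) W hun hdep

/-- the bound given by `TWStmt` -/
theorem tw_bound (h : TWStmt) {k : Type} [Field k] [Finite k] [CharP k 3] {ρ : Gam →* M2 k}
    (hρ : Hyp ρ) : ∃ r : ℕ, ∀ n B : ℕ, ∃ Q : Finset ℕ, Q.card = r ∧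
      (∀ q ∈ Q, q.Prime ∧ B < q ∧ 3 ^ n ∣ q - 1 ∧ ∀ P : Place Om, P.rchar = q → In P ≤ ρ.ker ∧
        ∀ s, IsFr P q s → (ρ s).trace ^ 2 ≠ 4 * (ρ s).det) ∧ Bound ρ Q r := h k ρ hρ


end Crest.Agent.T15.Sel

end
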