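import Crest.Agent.T15.RTDef_3
import Crest.Agent.T15.Hk_62
import Crest.Agent.T15.Sel_78
import Crest.Agent.T15.TopH_88

-- ▼ part T15/RtE_78
section

/-!
# Row 15, block R (helper78): the abstract `R = T` theorem with levels of bounded rank
-/

set_option autoImplicit false

noncomputable section

namespace Crest.Agent.T15.RT

open Matrix IsLocalRing Function
open Crest.Agent.T15.Ps Crest.Agent.T15.Pat Crest.Agent.T15.Blr
open Crest.Agent.R018.Placesx484

lemma twg_mono {p n n' : ℕ} {ι Δ : Type*} [Fintype ι] [CommGroup Δ] {δ : ι → Δ} (h : TWg p n' δ)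
    (hn : n ≤ n') : TWg p n δ :=
  ⟨h.gen, fun k k' hk i => (h.rel k k' hk i).of_dvd (pow_dvd_pow p hn), h.ord⟩

section lev
variable {F E : Type} [Field F] [Field E] [Algebra F E] {O : Type} [CommRing O] [IsLocalRing O]
  {p n r e : ℕ} {ρ : (E ≃ₐ[F] E) →* M2 O} {Λ : Type} {Pl : Λ → Place E} {d : Type}
  {O' : Type} [CommRing O'] [Algebra O O'] {C : Type} [CommRing C] [Algebra O C]
  {C' : Type} [CommRing C'] {q' : O' →+* C'} {Δ : Type} [CommGroup Δ] {del : Fin r → Δ}
  {δ : (E ≃ₐ[F] E) →* Δ} {H : Type} [AddCommGroup H] [Module O H] [Module C H]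
  {ρH : (E ≃ₐ[F] E) →* Module.End O H} {A : Type} [CommRing A] [Algebra O A]
  {ac : A →ₐ[O] Module.End O H} {dia : Δ →* A} {t : (E ≃ₐ[F] E) → A} {θ : A →+* C'}

/-- lower the level and rename the basis -/
theorem Lev.mono (h : Lev p n r e ρ Pl d C q' del δ ρH ac dia t θ) {n' : ℕ} (hn : n' ≤ n)
    {d' : Type} (σ : d' ≃ d) : Lev p n' r e ρ Pl d' C q' del δ ρH ac dia t θ :=
  { h with
    ker := h.ker.trans (Ideal.pow_le_pow_right (by omega))
    twg := twg_mono h.twg hn
    free := by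
      obtain ⟨m, h1, h2⟩ := h.free
      refine ⟨m ∘ σ, h1.comp (Prod.map id σ) (Function.injective_id.prodMap σ.injective), ?_⟩
      rw [← h2]
      congr 1
      exact (Function.surjective_id.prodMap σ.surjective).range_comp
        fun q : Δ × d => ac (dia q.1) (m q.2) }

end lev

section rank
variable {C Δ H d Y : Type*} [CommRing C] [Fintype Δ] [AddCommGroup H] [Module C H]
  [AddCommGroup Y]

/-- the rank over the group ring is bounded through a map that detects the norm -/
theorem card_le_of_kap [Finite C] [Nontrivial C] [Nonempty Δ] [Finite d] [Finite Y] {a : Δ → H →+ H}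
    (ha : ∀ x (c : C) v, a x (c • v) = c • a x v) {m : d → H}
    (hm : LinearIndependent C fun q : Δ × d => a q.1 (m q.2)) (kap : H →+ Y)
    (hk : ∀ v, kap v = 0 → ∑ x, a x v = 0) {s : ℕ} (hs : Nat.card Y ≤ Nat.card C ^ s) :
    Nat.card d ≤ s := by
  classical
  have := Fintype.ofFinite d
  have hinj : Injective fun c : d → C => kap (∑ i, c i • m i) := fun c c' h => by
    have h1 := hk (∑ i, (c i - c' i) • m i) (by
      simp only [sub_smul, Finset.sum_sub_distrib, map_sub]; exact sub_eq_zero.2 h)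
    simp only [map_sum, ha] at h1
    have h2 := Fintype.linearIndependent_iff.1 hm (fun q => c q.2 - c' q.2)
      (by rw [Fintype.sum_prod_type]; exact h1)
    exact funext fun i => sub_eq_zero.1 (h2 (Classical.arbitrary Δ, i))
  have h3 := (Nat.card_le_card_of_injective _ hinj).trans hs
  rw [Nat.card_fun] at h3
  exact (Nat.pow_le_pow_iff_right Finite.one_lt_card).1 h3

omit [Fintype Δ] in
lemma nonempty_of_span {f : Δ × d → H} (h : Submodule.span C (Set.range f) = ⊤) {v : H}
    (hv : v ≠ 0) : Nonempty d := by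
  by_contra h0
  have : IsEmpty d := not_nonempty_iff.1 h0
  rw [Set.range_eq_empty, Submodule.span_empty] at h
  exact hv ((Submodule.mem_bot C).1 (h ▸ Submodule.mem_top))

end rank

/-- the data of one level, with the relation `P` -/
def LevE {F E : Type} [Field F] [Field E] [Algebra F E] {O : Type} [CommRing O] [IsLocalRing O]
    {O' : Type} [CommRing O'] [Algebra O O'] (J' : Ideal O') (p n r e s : ℕ)
    (ρ : (E ≃ₐ[F] E) →* M2 O) {Λ : Type} (Pl : Λ → Place E) (P : MvPolynomial (E ≃ₐ[F] E) O) :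
    Prop :=
  ∃ (d C C' Δ H A : Type) (_ : Finite d) (_ : Nonempty d) (_ : CommRing C) (_ : Algebra O C)
    (_ : CommRing C') (_ : CommGroup Δ) (_ : Fintype Δ) (_ : AddCommGroup H) (_ : Module O H)
    (_ : Module C H) (_ : IsScalarTower O C H) (_ : CommRing A) (_ : Algebra O A)
    (q' : O' →+* C') (del : Fin r → Δ) (δ : (E ≃ₐ[F] E) →* Δ)
    (ρH : (E ≃ₐ[F] E) →* Module.End O H) (ac : A →ₐ[O] Module.End O H) (dia : Δ →* A)
    (t : (E ≃ₐ[F] E) → A) (θ : A →+* C'),
    Nat.card d ≤ s ∧ Surjective q' ∧ RingHom.ker q' ≤ J' ^ n ∧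
      Lev p n r e ρ Pl d C q' del δ ρH ac dia t θ ∧
      ∑ x, ac (dia x * MvPolynomial.aeval t P) = 0

/-- **`R = T` from levels of bounded rank** -/
theorem rt_ex (h : RTStmt) {F E : Type} [Field F] [NumberField F] [Field E] [CharZero E]
    [IsAlgClosed E] [Algebra.IsAlgebraic ℚ E] [Algebra F E] [IsGalois F E]
    {O : Type} [CommRing O] [IsDomain O] [IsLocalRing O] [IsNoetherianRing O]
    {O' : Type} [CommRing O'] [IsDomain O'] [CharZero O'] [Algebra O O'] {J' : Ideal O'}
    {p r e s : ℕ} {ρ : (E ≃ₐ[F] E) →* M2 O} {Λ : Type} [Finite Λ] {Pl : Λ → Place E}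
    (hG : Glob p ρ Pl) (hJ : Cpt J') {P : MvPolynomial (E ≃ₐ[F] E) O}
    (hL : ∀ n, LevE J' p n r e s ρ Pl P) : MvPolynomial.aeval (fun g => (ρ g).trace) P = 0 := by
  choose d C C' Δ H A i1 i2 i3 i4 i5 i6 i7 i8 i9 i10 i11 i12 i13 q' del δ ρH ac dia t θ
    h1 h2 h3 h4 h5 using hL
  obtain ⟨k, hk⟩ := Finite.exists_infinite_fiber
    fun n => (⟨Nat.card (d n), Nat.lt_succ_of_le (h1 n)⟩ : Fin (s + 1))
  have hinf := Set.infinite_coe_iff.1 hk
  choose f hf hlt using fun n => hinf.exists_gt n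
  have hc : ∀ n, Nat.card (d (f n)) = k := fun n => congrArg Fin.val (hf n)
  have hne : Nonempty (Fin k) := Fin.pos_iff_nonempty.1 (hc 0 ▸ Nat.card_pos)
  exact h F E O O' J' p r e ρ Λ Pl (Fin k) (fun n => C (f n)) (fun n => C' (f n))
    (fun n => Δ (f n)) (fun n => H (f n)) (fun n => A (f n)) (fun n => q' (f n))
    (fun n => del (f n)) (fun n => δ (f n)) (fun n => ρH (f n)) (fun n => ac (f n))
    (fun n => dia (f n)) (fun n => t (f n)) (fun n => θ (f n)) hG
    ⟨hJ, fun n => h2 _, fun n => (h3 _).trans (Ideal.pow_le_pow_right (hlt n).le)⟩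
    (fun n => (h4 (f n)).mono (hlt n).le (Finite.equivFinOfCardEq (hc n)).symm) P fun n => h5 _

end Crest.Agent.T15.RT

end
end

-- ▼ part T15/Eig_78
section

/-!
# Row 15, block R (helper78): systems of eigenvalues and eigenvectors on `Hom(Γ, A)`

* `eig`: a character of a commutative algebra killing the annihilator of `V` has an eigenvector;
* `W A c p`: the operator on `Hom(Γ, A)` of a non-commutative integer polynomial `p`;
* `eig_HH`: a family `a` satisfying every integer relation of the `T (c i)` is a system of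
  eigenvalues on `Hom(Γ, K)`;
* `last_step`, `theta_point`: the two ends of the `R = T` argument.
-/

set_option autoImplicit false

noncomputable section

namespace Crest.Agent.T15.Eig

open Crest.Agent.T15.Hk

section abstract
variable {K A V : Type*} [Field K] [CommRing A] [Algebra K A] [AddCommGroup V] [Module K V]
  [Module A V] [IsScalarTower K A V]

omit [Module K V] [IsScalarTower K A V] in
lemma exists_socle (I : Ideal A) : ∀ (n : ℕ) (N : Submodule A V), N ≠ ⊥ → I ^ n • N = ⊥ →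
    ∃ v ∈ N, v ≠ 0 ∧ ∀ y ∈ I, y • v = 0
  | 0, N, hN, h => absurd (by simpa using h) hN
  | n + 1, N, hN, h => by
    by_cases h1 : I • N = ⊥
    · obtain ⟨v, hv, hv0⟩ := N.exists_mem_ne_zero_of_ne_bot hN
      exact ⟨v, hv, hv0, fun y hy => (Submodule.mem_bot A).1 (h1 ▸ Submodule.smul_mem_smul hy hv)⟩
    · obtain ⟨v, hv, h2⟩ := exists_socle I n (I • N) h1 (by rwa [← mul_smul, ← pow_succ])
      exact ⟨v, Submodule.smul_le_right hv, h2⟩

/-- a character in the support has an eigenvector -/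
theorem eig [FiniteDimensional K V] (x : A →ₐ[K] K) (h : ∀ s : A, (∀ v : V, s • v = 0) → x s = 0) :
    ∃ v : V, v ≠ 0 ∧ ∀ s : A, s • v = x s • v := by
  have := isArtinian_of_tower K (inferInstance : IsArtinian K V) (S := A)
  have := isNoetherian_of_tower K (inferInstance : IsNoetherian K V) (S := A)
  set I : Ideal A := RingHom.ker x.toRingHom with hI
  obtain ⟨n, hn⟩ := IsArtinian.monotone_stabilizes (R := A) (M := V)
    ⟨fun n => OrderDual.toDual (I ^ n • (⊤ : Submodule A V)), fun a b hab =>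
      Submodule.smul_mono_left (Ideal.pow_le_pow_right hab)⟩
  have h1 : I ^ n • (⊤ : Submodule A V) = I ^ (n + 1) • ⊤ := hn (n + 1) n.le_succ
  obtain ⟨r, hr, hr0⟩ := Submodule.exists_sub_one_mem_and_smul_eq_zero_of_fg_of_le_smul I
    (I ^ n • (⊤ : Submodule A V)) (IsNoetherian.noetherian _)
    (by rw [← mul_smul, ← pow_succ', ← h1])
  have hx : x r = 1 := by
    have : x (r - 1) = 0 := hr
    rwa [map_sub, map_one, sub_eq_zero] at this
  obtain ⟨v, -, hv0, hv⟩ := exists_socle I n (Ideal.span {r} • (⊤ : Submodule A V)) (fun h0 => by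
      have := h r fun v => (Submodule.mem_bot A).1
        (h0 ▸ Submodule.smul_mem_smul (Ideal.mem_span_singleton_self r) Submodule.mem_top)
      rw [hx] at this; exact one_ne_zero this) (by
      rw [← mul_smul, mul_comm, mul_smul, eq_bot_iff, Submodule.smul_le]
      intro a ha w hw
      obtain ⟨b, rfl⟩ := Ideal.mem_span_singleton'.1 ha
      rw [mul_smul, hr0 w hw, smul_zero]; exact Submodule.zero_mem _)
  refine ⟨v, hv0, fun s => ?_⟩
  have := hv (s - algebraMap K A (x s)) (by simp [hI, RingHom.mem_ker])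
  rwa [sub_smul, algebraMap_smul, sub_eq_zero] at this

end abstract

variable {G : Type*} [Group G] {Γ : Subgroup G} {ι : Type*}

/-- the operator of a non-commutative integer polynomial -/
def W (A : Type*) [AddCommGroup A] (c : ι → Corr ℤ Γ Γ) :
    FreeAlgebra ℤ ι →ₐ[ℤ] Module.End ℤ (HH Γ A) := FreeAlgebra.lift ℤ fun i => T A (c i)

variable (c : ι → Corr ℤ Γ Γ) {A B : Type*} [AddCommGroup A] [AddCommGroup B]

@[simp] lemma W_ι (i : ι) : W A c (FreeAlgebra.ι ℤ i) = T A (c i) := FreeAlgebra.lift_ι_apply _ _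

lemma T_nat (d : Corr ℤ Γ Γ) (f : A →+ B) (φ : HH Γ A) : T B d (f.comp φ) = f.comp (T A d φ) :=
  T_comp d f.toIntLinearMap φ

lemma W_nat (p : FreeAlgebra ℤ ι) (f : A →+ B) (φ : HH Γ A) :
    W B c p (f.comp φ) = f.comp (W A c p φ) := by
  induction p using FreeAlgebra.induction generalizing φ with
  | grade0 r => ext γ; simp
  | grade1 i => simp [T_nat]
  | mul p q hp hq => rw [map_mul, map_mul, Module.End.mul_apply, Module.End.mul_apply, hq, hp]
  | add p q hp hq =>
    rw [map_add, map_add, LinearMap.add_apply, LinearMap.add_apply, hp, hq, AddMonoidHom.comp_add]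

lemma kills_of_sep (hsep : ∀ a : A, (∀ f : A →+ B, f a = 0) → a = 0) {p : FreeAlgebra ℤ ι}
    (h : W B c p = 0) : W A c p = 0 := by
  ext φ γ
  refine hsep _ fun f => ?_
  have := W_nat c p f φ
  rw [h] at this
  exact (DFunLike.congr_fun this _).symm

lemma sep_rat [IsAddTorsionFree A] (a : A) (h : ∀ f : A →+ ℚ, f a = 0) : a = 0 := by
  by_contra ha
  obtain ⟨f, hf⟩ := (Module.Baer.of_divisible ℚ).extension_property_addMonoidHom
    (zmultiplesHom A a) (fun m n hmn => zsmul_left_injective' ha hmn) (Int.castAddHom ℚ)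
  have := DFunLike.congr_fun hf 1
  simp [h f] at this
where
  zsmul_left_injective' {a : A} (ha : a ≠ 0) {m n : ℤ} (h : m • a = n • a) : m = n :=
    smul_left_injective ℤ ha h

/-- relations on `Hom(Γ, ℚ)` hold for torsion-free coefficients -/
lemma kills_of_rat [IsAddTorsionFree A] {p : FreeAlgebra ℤ ι} (h : W ℚ c p = 0) : W A c p = 0 :=
  kills_of_sep c sep_rat h


/-- an eigenvector evaluates the polynomials -/
lemma W_eig {R : Type*} [CommRing R] [Module R A] {a : ι → R} {φ : HH Γ A}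
    (h : ∀ i, T A (c i) φ = a i • φ) (p : FreeAlgebra ℤ ι) :
    W A c p φ = FreeAlgebra.lift ℤ a p • φ := by
  induction p using FreeAlgebra.induction with
  | grade0 r => simp [Int.cast_smul_eq_zsmul]
  | grade1 i => simp [h]
  | mul p q hp hq =>
    rw [map_mul, map_mul, Module.End.mul_apply, hq, mul_comm, mul_smul, ← hp]
    exact W_nat c p (DistribSMul.toAddMonoidHom A (FreeAlgebra.lift ℤ a q)) φ
  | add p q hp hq => rw [map_add, map_add, LinearMap.add_apply, hp, hq, add_smul]

/-- `W` as an `R`-linear operator -/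
def WL (R : Type*) [CommRing R] (A : Type*) [AddCommGroup A] [Module R A] (c : ι → Corr ℤ Γ Γ)
    (p : FreeAlgebra ℤ ι) : Module.End R (HH Γ A) where
  toFun := W A c p
  map_add' := map_add _
  map_smul' r φ := W_nat c p (DistribSMul.toAddMonoidHom A r) φ

@[simp] lemma WL_apply (R : Type*) [CommRing R] [Module R A] (p : FreeAlgebra ℤ ι) (φ : HH Γ A) :
    WL R A c p φ = W A c p φ := rfl

lemma lift_map {R S F : Type*} [CommRing R] [CommRing S] [FunLike F R S] [RingHomClass F R S]
    (f : F) (a : ι → R) (p : FreeAlgebra ℤ ι) :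
    f (FreeAlgebra.lift ℤ a p) = FreeAlgebra.lift ℤ (fun i => f (a i)) p := by
  induction p using FreeAlgebra.induction with
  | grade0 r => simp
  | grade1 i => simp
  | mul p q hp hq => simp [hp, hq]
  | add p q hp hq => simp [hp, hq]


instance finite_HH (R : Type*) [CommRing R] [IsNoetherianRing R] [Module R A] [Module.Finite R A]
    [Group.FG Γ] : Module.Finite R (HH Γ A) := by
  obtain ⟨S, hS⟩ := Group.fg_def.1 (inferInstance : Group.FG Γ)
  let e : HH Γ A →ₗ[R] (S → A) :=
    { toFun := fun φ s => φ (Additive.ofMul s.1)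
      map_add' := fun _ _ => rfl
      map_smul' := fun _ _ => rfl }
  refine Module.Finite.of_injective e ((injective_iff_map_eq_zero e).2 fun φ hφ => ?_)
  have : AddMonoidHom.toMultiplicativeRight φ = 1 :=
    MonoidHom.eq_of_eqOn_dense hS fun s hs => congrFun hφ ⟨s, hs⟩
  ext γ
  exact DFunLike.congr_fun this γ

section field
variable {K : Type*} [Field K] [CharZero K]

lemma rel_field {a : ι → K} (h : ∀ p, W ℚ c p = 0 → FreeAlgebra.lift ℤ a p = 0) {κ : Type*}
    [Fintype κ] (k : κ → K) (p : κ → FreeAlgebra ℤ ι) (h0 : ∑ j, k j • WL K K c (p j) = 0) :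
    ∑ j, k j * FreeAlgebra.lift ℤ a (p j) = 0 := by
  classical
  have h1 : ∀ l : K →ₗ[ℚ] ℚ, ∑ j, (l (k j) : K) * FreeAlgebra.lift ℤ a (p j) = 0 := fun l => by
    obtain ⟨N, hN⟩ := IsLocalization.exist_integer_multiples_of_finite (nonZeroDivisors ℤ)
      fun j => l (k j)
    choose m hm using hN
    have hN0 : ((N : ℤ) : K) ≠ 0 := Int.cast_ne_zero.2 (nonZeroDivisors.ne_zero N.2)
    have h2 := h (∑ j, m j • p j) (by
      ext φ γ
      have h3 := congrArg l (DFunLike.congr_fun
        (LinearMap.congr_fun h0 ((Rat.castHom K).toAddMonoidHom.comp φ)) (Additive.ofMul γ))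
      simp only [LinearMap.sum_apply, LinearMap.smul_apply, WL_apply,
        W_nat, AddMonoidHom.finsetSum_apply, AddMonoidHom.smul_apply, AddMonoidHom.comp_apply,
        map_sum, LinearMap.zero_apply, AddMonoidHom.zero_apply, map_zero] at h3
      have h4 : ∀ j (q : ℚ), l (k j • (Rat.castHom K).toAddMonoidHom q) = l (k j) * q :=
        fun j q => by
          rw [mul_comm, ← smul_eq_mul q, ← l.map_smul, smul_eq_mul, Rat.smul_def, mul_comm]; rfl
      simp only [h4] at h3
      have h5 := congrArg ((N : ℤ) • ·) h3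
      simp only [Finset.smul_sum, ← smul_mul_assoc, ← hm, smul_zero] at h5
      simpa using h5)
    apply mul_left_cancel₀ hN0
    rw [mul_zero, ← h2, Finset.mul_sum, map_sum]
    refine Finset.sum_congr rfl fun j _ => ?_
    have h6 : ((m j : ℤ) : K) = ((N : ℤ) : K) * (l (k j) : K) := by
      have := congrArg (Rat.cast : ℚ → K) (hm j)
      simpa using this
    rw [map_zsmul, zsmul_eq_mul, h6, mul_assoc]
  let b := Module.Basis.ofVectorSpace ℚ K
  let s := Finset.univ.biUnion fun j => (b.repr (k j)).support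
  have h7 : ∀ j, k j = ∑ β ∈ s, b β * (b.coord β (k j) : K) := fun j => by
    conv_lhs => rw [← b.linearCombination_repr (k j), Finsupp.linearCombination_apply]
    rw [Finsupp.sum_of_support_subset _
      (Finset.subset_biUnion_of_mem (fun j => (b.repr (k j)).support) (Finset.mem_univ j)) _
      (by simp)]
    exact Finset.sum_congr rfl fun β _ => by simp [Rat.smul_def, mul_comm]
  rw [Finset.sum_congr rfl fun j _ => by rw [h7 j, Finset.sum_mul], Finset.sum_comm]
  refine Finset.sum_eq_zero fun β _ => ?_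
  simp only [mul_assoc, ← Finset.mul_sum, h1, mul_zero]

/-- **a family satisfying all integer relations is a system of eigenvalues** -/
theorem eig_HH [Group.FG Γ] (hc : ∀ i j, T ℚ (c i) * T ℚ (c j) = T ℚ (c j) * T ℚ (c i))
    {a : ι → K} (h : ∀ p, W ℚ c p = 0 → FreeAlgebra.lift ℤ a p = 0) :
    ∃ φ : HH Γ K, φ ≠ 0 ∧ ∀ i, T K (c i) φ = a i • φ := by
  let z : FreeAlgebra ℤ ι →* Module.End K (HH Γ K) × K :=
    { toFun := fun p => (WL K K c p, FreeAlgebra.lift ℤ a p)
      map_one' := Prod.ext (LinearMap.ext fun φ => by simp) (map_one _)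
      map_mul' := fun p q => Prod.ext (LinearMap.ext fun φ => by simp) (map_mul _ _ _) }
  let s : Set (Module.End K (HH Γ K) × K) := Set.range fun i => z (FreeAlgebra.ι ℤ i)
  have hs : ∀ x ∈ s, ∀ y ∈ s, x * y = y * x := by
    rintro _ ⟨i, rfl⟩ _ ⟨j, rfl⟩
    refine Prod.ext (LinearMap.ext fun φ => ?_) (mul_comm _ _)
    have := kills_of_rat c (A := K)
      (p := FreeAlgebra.ι ℤ i * FreeAlgebra.ι ℤ j - FreeAlgebra.ι ℤ j * FreeAlgebra.ι ℤ i)
      (by simp [hc i j])
    rw [map_sub, sub_eq_zero, map_mul, map_mul] at this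
    exact LinearMap.congr_fun this φ
  let _ : CommRing (Algebra.adjoin K s) :=
    { (inferInstance : Ring (Algebra.adjoin K s)) with
      mul_comm := fun x y => Subtype.ext (Algebra.commute_of_mem_adjoin_of_forall_mem_commute y.2
        fun b hb => (Algebra.commute_of_mem_adjoin_of_forall_mem_commute x.2
          fun a ha => hs b hb a ha).symm) }
  let π : Algebra.adjoin K s →ₐ[K] Module.End K (HH Γ K) := (AlgHom.fst K _ _).comp (Subalgebra.val _)
  let _ : Module (Algebra.adjoin K s) (HH Γ K) := Module.compHom _ π.toRingHom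
  have hsm : ∀ (x : Algebra.adjoin K s) (φ : HH Γ K), x • φ = x.1.1 φ := fun _ _ => rfl
  have : IsScalarTower K (Algebra.adjoin K s) (HH Γ K) := ⟨fun r x φ => rfl⟩
  obtain ⟨φ, h0, hφ⟩ := eig (V := HH Γ K) ((AlgHom.snd K _ _).comp (Algebra.adjoin K s).val)
    fun x hx => by
      have h1 : x.1 ∈ Submodule.span K (Set.range z) := by
        have h2 : x.1 ∈ (Algebra.adjoin K s).toSubmodule := x.2
        rw [Algebra.adjoin_eq_span] at h2
        refine Submodule.span_mono ?_ h2
        exact (Submonoid.closure_le (S := MonoidHom.mrange z)).2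
          (by rintro _ ⟨i, rfl⟩; exact ⟨_, rfl⟩)
      obtain ⟨n, k, p, hp⟩ := Submodule.mem_span_set'.1 h1
      choose q hq using fun j => (p j).2
      simp only [← hq] at hp
      have h3 := rel_field c h k q (by
        have := congrArg Prod.fst hp
        rw [Prod.fst_sum] at this
        exact this.trans (LinearMap.ext hx))
      have := congrArg Prod.snd hp
      rw [Prod.snd_sum] at this
      exact this.symm.trans h3
  refine ⟨φ, h0, fun i => ?_⟩
  simpa [hsm, z] using hφ ⟨_, Algebra.subset_adjoin ⟨i, rfl⟩⟩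

end field

/-- **last step**: relations on `Hom(Γ, A)` (`A` torsion free) are satisfied by `a = j ∘ a₀`; then
`a₀` is a system of eigenvalues on `Hom(Γ, K)` for every ring map to a field of characteristic 0 -/
theorem last_step [Group.FG Γ] [IsAddTorsionFree A]
    (hc : ∀ i j, T ℚ (c i) * T ℚ (c j) = T ℚ (c j) * T ℚ (c i)) {E O K : Type*} [CommRing E]
    [CommRing O] [Field K] [CharZero K] (j : E →+* O) (hj : Function.Injective j) (σ : E →+* K)
    (a₀ : ι → E) (h : ∀ p, W A c p = 0 → FreeAlgebra.lift ℤ (fun i => j (a₀ i)) p = 0) :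
    ∃ φ : HH Γ K, φ ≠ 0 ∧ ∀ i, T K (c i) φ = σ (a₀ i) • φ :=
  eig_HH c hc fun p hp => by
    have := h p (kills_of_rat c hp)
    rw [← lift_map, map_eq_zero_iff j hj] at this
    rw [← lift_map, this, map_zero]

/-- an eigenvector over one field gives the relations -/
lemma rel_of_eig {E K : Type*} [CommRing E] [Field K] [CharZero K] (σ : E →+* K)
    (hσ : Function.Injective σ) {b₀ : ι → E} {φ : HH Γ K} (h0 : φ ≠ 0)
    (h : ∀ i, T K (c i) φ = σ (b₀ i) • φ) (p : FreeAlgebra ℤ ι) (hp : W ℚ c p = 0) :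
    FreeAlgebra.lift ℤ b₀ p = 0 := by
  have := W_eig c h p
  rw [kills_of_rat c hp, ← lift_map, LinearMap.zero_apply, eq_comm, smul_eq_zero] at this
  exact (map_eq_zero_iff σ hσ).1 (this.resolve_right h0)

/-- a non-zero homomorphism to the fraction field of a valuation ring is a multiple of a primitive
integral one -/
lemma exists_primitive [Group.FG Γ] (O : Type*) {K : Type*} [CommRing O] [IsDomain O]
    [ValuationRing O] [Field K] [Algebra O K] [IsFractionRing O K] {φ : HH Γ K} (h0 : φ ≠ 0) :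
    ∃ (v : HH Γ O) (t : K) (γ : Additive Γ), v γ = 1 ∧
      (algebraMap O K).toAddMonoidHom.comp v = t • φ := by
  obtain ⟨S, hS⟩ := Group.fg_def.1 (inferInstance : Group.FG Γ)
  have hne : S.Nonempty ∧ ∃ s ∈ S, φ (Additive.ofMul s) ≠ 0 := by
    by_contra hcon
    have h1 : ∀ s ∈ S, φ (Additive.ofMul s) = 0 := fun s hs => by
      by_contra h2; exact hcon ⟨⟨s, hs⟩, s, hs, h2⟩
    have : AddMonoidHom.toMultiplicativeRight φ = 1 := MonoidHom.eq_of_eqOn_dense hS h1
    exact h0 (by ext γ; exact DFunLike.congr_fun this γ)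
  obtain ⟨s₀, -, hmax⟩ := S.exists_max_image
    (fun s => ValuationRing.valuation O K (φ (Additive.ofMul s))) hne.1
  obtain ⟨s₁, hs₁, h1⟩ := hne.2
  have h2 : φ (Additive.ofMul s₀) ≠ 0 := fun h => h1 (by
    have := hmax s₁ hs₁
    rwa [h, map_zero, le_zero_iff, map_eq_zero] at this)
  set t := (φ (Additive.ofMul s₀))⁻¹ with ht
  have h3 : ∀ γ : Γ, (t • φ) (Additive.ofMul γ) ∈ (algebraMap O K).range := fun γ => by
    have hγ : γ ∈ Subgroup.closure (S : Set Γ) := hS ▸ Subgroup.mem_top γ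
    induction hγ using Subgroup.closure_induction with
    | mem s hs =>
      rw [← ValuationRing.range_algebraMap_eq, Valuation.mem_integer_iff, AddMonoidHom.smul_apply,
        smul_eq_mul, map_mul, ht, map_inv₀, inv_mul_le_one₀ (by simpa [pos_iff_ne_zero] using h2)]
      exact hmax s hs
    | one => simp
    | mul x y _ _ hx hy => rw [ofMul_mul, map_add]; exact add_mem hx hy
    | inv x _ hx => rw [ofMul_inv, map_neg]; exact neg_mem hx
  choose f hf using h3
  have hinj := IsFractionRing.injective O K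
  refine ⟨AddMonoidHom.mk' (fun γ => f γ.toMul) fun x y => hinj ?_, t, Additive.ofMul s₀,
    hinj ?_, ?_⟩
  · rw [(algebraMap O K).map_add, hf, hf, hf]; exact map_add (t • φ) x y
  · rw [map_one]
    refine (hf s₀).trans ?_
    rw [AddMonoidHom.smul_apply, smul_eq_mul, ht, inv_mul_cancel₀ h2]
  · ext γ; exact hf γ

/-- **theta point**: an eigenvector over `K` with eigenvalues in `E` gives a primitive eigenvector
over every valuation ring `O` of characteristic 0 receiving `E` -/
theorem theta_point [Group.FG Γ] (hc : ∀ i j, T ℚ (c i) * T ℚ (c j) = T ℚ (c j) * T ℚ (c i))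
    {E K O : Type*} [CommRing E] [Field K] [CharZero K] [CommRing O] [IsDomain O] [ValuationRing O]
    [CharZero O] (σ : E →+* K) (hσ : Function.Injective σ) (j : E →+* O) {b₀ : ι → E}
    {φ : HH Γ K} (h0 : φ ≠ 0) (h : ∀ i, T K (c i) φ = σ (b₀ i) • φ) :
    ∃ (v : HH Γ O) (γ : Additive Γ), v γ = 1 ∧ ∀ i, T O (c i) v = j (b₀ i) • v := by
  have hinj := IsFractionRing.injective O (FractionRing O)
  have : CharZero (FractionRing O) := charZero_of_injective_algebraMap hinj
  obtain ⟨ψ, hψ0, hψ⟩ := eig_HH c hc (K := FractionRing O)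
    (a := fun i => ((algebraMap O _).comp j) (b₀ i)) fun p hp => by
      rw [← lift_map, rel_of_eig c σ hσ h0 h p hp, map_zero]
  obtain ⟨v, t, γ, h1, h2⟩ := exists_primitive O hψ0
  refine ⟨v, γ, h1, fun i => ?_⟩
  have h3 := T_nat (c i) (algebraMap O (FractionRing O)).toAddMonoidHom v
  have h4 : T (FractionRing O) (c i) (t • ψ) = t • T (FractionRing O) (c i) ψ :=
    T_nat (c i) (DistribSMul.toAddMonoidHom _ t) ψ
  rw [h2, h4, hψ, smul_comm, ← h2] at h3
  ext δ
  apply hinj
  simpa [Algebra.smul_def] using (DFunLike.congr_fun h3 (Additive.ofMul δ)).symm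

/-- reduction of an eigenvector -/
lemma eig_map {O C : Type*} [CommRing O] [CommRing C] (q : O →+* C) {d : Corr ℤ Γ Γ} {b : O}
    {v : HH Γ O} (h : T O d v = b • v) :
    T C d (q.toAddMonoidHom.comp v) = q b • q.toAddMonoidHom.comp v := by
  rw [T_nat, h]; ext γ; simp

/-- the eigenvalue character of a primitive common eigenvector -/
theorem exists_char {O C M : Type*} [CommRing O] [CommRing C] [Algebra O C] [AddCommGroup M]
    [Module C M] [Module O M] [IsScalarTower O C M] {R : Type*} [CommRing R] [Algebra O R]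
    [Module R M] [IsScalarTower O R M] [SMulCommClass R C M] {κ : Type*} {t : κ → R}
    (ht : Algebra.adjoin O (Set.range t) = ⊤) {v : M} (hv : ∀ z : C, z • v = 0 → z = 0)
    {b : κ → C} (h : ∀ i, t i • v = b i • v) :
    ∃ θ : R →ₐ[O] C, (∀ i, θ (t i) = b i) ∧ ∀ s, s • v = θ s • v := by
  have inj : ∀ {z z' : C}, z • v = z' • v → z = z' := fun h =>
    sub_eq_zero.1 (hv _ (by rw [sub_smul, h, sub_self]))
  have ex : ∀ s : R, ∃ z : C, s • v = z • v := fun s => by
    have hs : s ∈ Algebra.adjoin O (Set.range t) := ht ▸ trivial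
    induction hs using Algebra.adjoin_induction with
    | mem x hx => obtain ⟨i, rfl⟩ := hx; exact ⟨_, h i⟩
    | algebraMap r => exact ⟨algebraMap O C r, by simp⟩
    | add x y _ _ hx hy =>
      obtain ⟨a, ha⟩ := hx; obtain ⟨b, hb⟩ := hy
      exact ⟨a + b, by rw [add_smul, add_smul, ha, hb]⟩
    | mul x y _ _ hx hy =>
      obtain ⟨a, ha⟩ := hx; obtain ⟨b, hb⟩ := hy
      exact ⟨a * b, by rw [mul_smul, hb, smul_comm, ha, smul_smul, mul_comm]⟩
  choose f hf using ex
  refine ⟨{ toFun := f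
            map_one' := inj (by rw [← hf, one_smul, one_smul])
            map_mul' := fun x y => inj (by
              rw [← hf, mul_smul, hf y, smul_comm, hf x, smul_smul, mul_comm])
            map_zero' := inj (by rw [← hf, zero_smul, zero_smul])
            map_add' := fun x y => inj (by rw [← hf, add_smul, add_smul, hf, hf])
            commutes' := fun r => inj (by rw [← hf]; simp) }, fun i => inj ?_, hf⟩
  exact (hf _).symm.trans (h i)

end Crest.Agent.T15.Eig

end
end

-- ▼ part T15/RDef_20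

/-!
# Row 15, block R (helper20): the contracts of the modularity lifting step

* `TLev`, `TAt`, `TOut` : the Taylor-Wiles modules (block T), for an abstract system `Lv` of levels
  and Hecke correspondences;
* `EscOut` : eigenforms and eigenclasses;
* `L3Out` : the local bound at `3` (block Fl);
* `RStmt` : block R.
-/

set_option autoImplicit false

noncomputable section

namespace Crest.Agent.T15.R

open Matrix IsLocalRing Function NumberField
open Crest.Agent.T15.Ps Crest.Agent.T15.Pat Crest.Agent.T15.Hk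
open Crest.Agent.T15.C (Gam Om In De Hyp IsEig TWStmt)
open Crest.Agent.T15.Top (Lc Plc IsFr Coef Cn Mod Loc ThetaStmt ModStmt)

/-- the primes that do not divide `3 L` -/
def Gd (L p : ℕ) : Prop := p.Prime ∧ ¬ p ∣ 3 * L

variable {G : Type} [Group G]

/-- **contract T, one level.**  `H` is the localised cohomology with auxiliary primes `q i` and
coefficients `C = O / 3 ^ (n + 1)`; `Γ`, `c` are the group and the Hecke correspondences of level
`L`; `kap = tr ∘ cores`, `lam = res ∘ tr⁻¹ ∘ ε`. -/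
structure TLev (X : Lc) {O : Type} [CommRing O] [IsLocalRing O] {Γ : Subgroup G}
    (c : ℕ → Corr ℤ Γ Γ) (L : ℕ) (a : ℕ → O) (n : ℕ)
    {r : ℕ} (q : Fin r → ℕ) {Δ : Type} [CommGroup Δ] [Fintype Δ] (del : Fin r → Δ) (δ : Gam →* Δ)
    {H : Type} [AddCommGroup H] [Module O H] [Module (Cn O (n + 1)) H] (ρH : Gam →* Module.End O H)
    (Tp : ℕ → Module.End O H) (dia : Δ →* Module.End O H) (kap : H →+ HH Γ (Cn O (n + 1)))
    (lam : HH Γ (Cn O (n + 1)) →ₗ[Cn O (n + 1)] H) : Prop where
  twg : TWg 3 n del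
  free : ∃ (d : Type) (_ : Finite d) (m : d → H),
    LinearIndependent (Cn O (n + 1)) (fun x : Δ × d => dia x.1 (m x.2)) ∧
    Submodule.span (Cn O (n + 1)) (Set.range fun x : Δ × d => dia x.1 (m x.2)) = ⊤
  cgT : ∀ g p, Gd L p → (∀ i, p ≠ q i) → Commute (ρH g) (Tp p)
  cgD : ∀ g x, Commute (ρH g) (dia x)
  opnH : IsOpen (ρH.ker : Set Gam)
  opnδ : IsOpen (δ.ker : Set Gam)
  unrH : ∀ P : Plc, Gd L P.rchar → (∀ i, P.rchar ≠ q i) → In P ≤ ρH.ker
  unrδ : ∀ P : Plc, (∀ i, P.rchar ≠ q i) → In P ≤ δ.ker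
  /-- Eichler-Shimura -/
  es : ∀ (P : Plc) (s : Gam), Gd L P.rchar → (∀ i, P.rchar ≠ q i) → IsFr P s →
    ρH s + (P.rchar : O) • (dia (δ s) * ρH s⁻¹) = Tp P.rchar
  res : ∀ p, Gd L p → (∀ i, p ≠ q i) → IsNilpotent (Tp p - algebraMap O _ (a p))
  /-- inertia at the auxiliary primes -/
  tw : ∀ i, ∃ P : Plc, P.rchar = q i ∧ ∃ τ ∈ In P, δ τ = del i ∧
    (ρH τ - 1) * (ρH τ - dia (del i)) = 0
  flat : X.Fl fun g (v : H) => ρH g v
  kap0 : ∀ x, kap x = 0 → ∑ y, dia y x = 0
  kapT : ∀ p, Gd L p → (∀ i, p ≠ q i) → ∀ x, kap (Tp p x) = T (Cn O (n + 1)) (c p) (kap x)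
  lamD : ∀ x φ, dia x (lam φ) = lam φ
  lamT : ∀ p, Gd L p → (∀ i, p ≠ q i) → ∀ φ, Tp p (lam φ) = lam (T (Cn O (n + 1)) (c p) φ)
  /-- injective on the eigenvectors with eigenvalues congruent to `a` -/
  lam0 : ∀ (φ : HH Γ (Cn O (n + 1))) (b : ℕ → O),
    (∀ p, Gd L p → b p - a p ∈ maximalIdeal O ∧
      T (Cn O (n + 1)) (c p) φ = algebraMap O (Cn O (n + 1)) (b p) • φ) → lam φ = 0 → φ = 0

/-- a system of levels `Γ L` with Hecke correspondences `c L p` -/
structure Lv (G : Type) [Group G] where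
  /-- the group of level `L` (`Γ₀(L) ∩ Γ₁(4)`) -/
  Γ : ℕ → Subgroup G
  /-- the Hecke correspondences -/
  c : ∀ L, ℕ → Corr ℤ (Γ L) (Γ L)

/-- the system `a` is not Eisenstein -/
def NEis {O : Type} [CommRing O] (a : ℕ → O) : Prop :=
  ∀ M B : ℕ, M ≠ 0 → ∃ p : ℕ, p.Prime ∧ B < p ∧ p ≡ 1 [MOD M] ∧ IsUnit (a p - p - 1)

/-- a Taylor-Wiles prime of level `n` for the system `a` -/
def TWa {O : Type} [CommRing O] [IsLocalRing O] (L : ℕ) (a : ℕ → O) (n q : ℕ) : Prop :=
  Gd L q ∧ 3 ^ (n + 1) ∣ q - 1 ∧ IsUnit (a q ^ 2 - 4 * q) ∧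
    ∃ α : O, α ^ 2 - a q * α + q ∈ maximalIdeal O

/-- the group theoretic part of the contract T at the level `L` -/
structure TGrp (𝓛 : Lv G) (L : ℕ) : Prop where
  fg : Group.FG (𝓛.Γ L)
  free : IsFreeGroup (𝓛.Γ L)
  comm : ∀ p p', Gd L p → Gd L p' →
    T ℚ (𝓛.c L p) * T ℚ (𝓛.c L p') = T ℚ (𝓛.c L p') * T ℚ (𝓛.c L p)

/-- the Taylor-Wiles modules at the level `L` -/
def TAt (X : Lc) (𝓛 : Lv G) (L : ℕ) : Prop :=
  ∀ (O : Type) [CommRing O] [IsDomain O] [IsDiscreteValuationRing O] [Coef O] (a : ℕ → O),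
    NEis a → ∀ (n r : ℕ) (q : Fin r → ℕ), Injective q → (∀ i, TWa L a n (q i)) →
    ∃ (Δ : Type) (_ : CommGroup Δ) (_ : Fintype Δ) (del : Fin r → Δ) (δ : Gam →* Δ)
      (H : Type) (_ : AddCommGroup H) (_ : Module O H) (_ : Module (Cn O (n + 1)) H)
      (_ : IsScalarTower O (Cn O (n + 1)) H) (ρH : Gam →* Module.End O H)
      (Tp : ℕ → Module.End O H) (dia : Δ →* Module.End O H)
      (kap : H →+ HH (𝓛.Γ L) (Cn O (n + 1)))
      (lam : HH (𝓛.Γ L) (Cn O (n + 1)) →ₗ[Cn O (n + 1)] H),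
      TLev X (𝓛.c L) L a n q del δ ρH Tp dia kap lam

/-- **contract T** -/
def TOut (X : Lc) (𝓛 : Lv G) : Prop :=
  ∀ L : ℕ, 0 < L → 4 ∣ L → ¬ 3 ∣ L → TGrp 𝓛 L ∧ TAt X 𝓛 L

/-- an eigenclass -/
def ECl (𝓛 : Lv G) (L : ℕ) (b : ℕ → ℂ) : Prop :=
  ∃ φ : HH (𝓛.Γ L) ℂ, φ ≠ 0 ∧ ∀ p, Gd L p → T ℂ (𝓛.c L p) φ = b p • φ

/-- **contract ESC**: eigenforms give eigenclasses, and non-Eisenstein eigenclasses give
eigenforms -/
def EscOut (𝓛 : Lv G) : Prop :=
  ∀ (L : ℕ) (b : ℕ → ℂ), 0 < L → 4 ∣ L → (IsEig L b → ECl 𝓛 L b) ∧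
    (ECl 𝓛 L b → (∃ p, Gd L p ∧ p ≡ 1 [MOD L] ∧ b p ≠ p + 1) → Mod L b)

/-- **contract Fl** -/
def L3Out (X : Lc) : Prop :=
  ∀ (k : Type) [Field k] [Finite k] [CharP k 3] (ρ : Gam →* M2 k), Hyp ρ → Loc ρ X.P →
    Sel.L3 X.w X.G X.r ρ X.P

/-- **block R** -/
def RStmt : Prop :=
  ∀ (X : Lc) (G : Type) [Group G] (𝓛 : Lv G), RT.RTStmt → TWStmt → ThetaStmt → L3Out X →
    TOut X 𝓛 → EscOut 𝓛 → ModStmt X

end Crest.Agent.T15.R

end
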