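import Crest.Agent.T15.EscB_99
import Crest.Agent.T15.LvT_10
import Crest.Agent.T15.UndA_98
import Crest.Agent.T15.Par_12
import Crest.Agent.T15.RDef_20
import Crest.Agent.T15.TopC_88
import Crest.Agent.T15.HkF4_62
import Crest.Agent.T15.EscA_99
import Crest.Agent.T15.BetUni_91
import Crest.Agent.T15.MfB_79
import Crest.Agent.R013.GR2_921
import Crest.Agent.T15.MfC_79
import Crest.Agent.T15.IgT_61

-- ▼ part T15/EscQ_12
section

/-!
# Row 15, block T (helper12): Hecke operators on `q`-expansions, the group `Γ₀(L) ∩ Γ₁(4)`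

* `H4 L`, `CS_H4`, `MS_H4`;
* `hecke p L c`, `qs_Tp`: the Fourier coefficients of `hk 2 (Tp O L p) f`;
* `exists_qs`, `qs_inj`, `toCF`, `cf_mem`: `CS (Gamma0 L) 2` and `CuspForm (Gamma0 L) 2`;
* `cjf g = g ∣ J`: the form with the conjugate coefficients.
-/

set_option autoImplicit false
set_option linter.unusedSectionVars false

noncomputable section

namespace Crest.Agent.T15.EscO

open UpperHalfPlane hiding I
open Complex hiding Gamma
open ModularForm CongruenceSubgroup Finset Matrix.SpecialLinearGroup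
open scoped MatrixGroups Manifold Real ComplexConjugate
open Crest.Agent.T15.Hk Crest.Agent.T15.Lv Crest.Agent.T15.Esc
open Crest.Agent.T15.Mf (GQ rr rr_apply rr_det rr_pos slash_sq)
open Crest.Agent.T15.Und (QS sc coe_sc)

variable {L p : ℕ} {f g : ℍ → ℂ} {c c' : ℕ → ℂ}

/-- the units that are `1` modulo `4` -/
def H4 (L : ℕ) : Subgroup (ZMod L)ˣ where
  carrier := {u | ∀ h : 4 ∣ L, ZMod.unitsMap h u = 1}
  one_mem' h := map_one _
  mul_mem' ha hb h := by rw [map_mul, ha h, hb h, mul_one]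
  inv_mem' ha h := by rw [map_inv, ha h, inv_one]

theorem mem_H4 (h : 4 ∣ L) {u : (ZMod L)ˣ} : u ∈ H4 L ↔ ZMod.unitsMap h u = 1 :=
  ⟨fun hu => hu h, fun hu _ => hu⟩


theorem GH4_le (h : 4 ∣ L) : GH L (H4 L) ≤ Gamma1 4 := GH_le_G4 h fun _ hu => hu h

theorem mem_or_neg_H4 (u : (ZMod L)ˣ) : u ∈ H4 L ∨ -u ∈ H4 L := by
  by_cases h : 4 ∣ L
  · rw [mem_H4 h, mem_H4 h]
    have e : ZMod.unitsMap h (-u) = -ZMod.unitsMap h u := Units.ext (by
      simp only [ZMod.unitsMap_val, Units.val_neg]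
      exact map_neg (ZMod.castHom h (ZMod 4)) _)
    rw [e]
    generalize ZMod.unitsMap h u = v
    revert v
    decide
  · exact Or.inl fun h' => (h h').elim

theorem mem_or_neg {γ : SL(2, ℤ)} (hγ : γ ∈ Gamma0 L) : γ ∈ GH L (H4 L) ∨ -γ ∈ GH L (H4 L) := by
  rw [← GH_top] at hγ
  obtain ⟨h1, u, -, hu⟩ := hγ
  refine (mem_or_neg_H4 u).imp (fun h => ⟨h1, u, h, hu⟩) fun h => ⟨?_, -u, h, ?_⟩
  · simpa using h1
  · simpa using hu

theorem slash_neg (f : ℍ → ℂ) (γ : SL(2, ℤ)) : f ∣[(2 : ℤ)] (-γ) = f ∣[(2 : ℤ)] γ := by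
  funext z
  rw [SL_slash_apply, SL_slash_apply, ModularGroup.SL_neg_smul]
  congr 1
  have : denom (-γ : SL(2, ℤ)) z = -denom γ z := by simp [denom]; ring
  rw [this]
  exact Even.neg_zpow (by decide) _

theorem inv_H4 (h : ∀ γ ∈ GH L (H4 L), f ∣[(2 : ℤ)] γ = f) : ∀ γ ∈ Gamma0 L, f ∣[(2 : ℤ)] γ = f :=
  fun γ hγ => (mem_or_neg hγ).elim (h γ) fun h' => by rw [← slash_neg, h _ h']

theorem GH_le_G0 (H : Subgroup (ZMod L)ˣ) : GH L H ≤ Gamma0 L := GH_top (L := L) ▸ GH_mono le_top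

theorem CS_H4 : CS (GH L (H4 L)) 2 = CS (Gamma0 L) 2 :=
  le_antisymm (fun _ h => ⟨h.1, inv_H4 h.2.1, h.2.2⟩) (CS_anti (GH_le_G0 _))


/-! ### `q`-expansions -/

theorem q_pow' (n : ℕ) (z : ℍ) :
    Function.Periodic.qParam 1 (z : ℂ) ^ n = Complex.exp (2 * Real.pi * Complex.I * n * z) := by
  rw [Function.Periodic.qParam, ← Complex.exp_nat_mul]
  congr 1; push_cast; ring

theorem hs_congr {u v : ℕ → ℂ} {a : ℂ} (h : HasSum u a) (e : ∀ n, v n = u n) : HasSum v a :=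
  (funext e : v = u) ▸ h

theorem qs_add (h : QS c f) (h' : QS c' g) : QS (c + c') (f + g) := fun z => by
  simpa only [Pi.add_apply, add_mul] using (h z).add (h' z)

theorem qs_smul (a : ℂ) (h : QS c f) : QS (a • c) (a • f) := fun z => by
  simpa only [Pi.smul_apply, smul_eq_mul, mul_assoc] using (h z).mul_left a

theorem qs_sub (h : QS c f) (h' : QS c' g) : QS (c - c') (f - g) := fun z => by
  simpa only [Pi.sub_apply, sub_mul] using (h z).sub (h' z)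

theorem qs_zero : QS 0 0 := fun z => by simp

theorem qs_eq_zero (h : QS c 0) : c = 0 := by
  funext n
  have := ModularFormClass.qExpansion_coeff_unique (h := 1) one_pos (by simp) (c := c)
    (f := (0 : CuspForm (Gamma0 1) 2)) (fun z => by simpa [q_pow'] using h z) n
  simpa [qExpansion_zero] using this

theorem qs_inj (h : QS c f) (h' : QS c' f) : c = c' :=
  sub_eq_zero.1 (qs_eq_zero (sub_self f ▸ qs_sub h h'))

theorem exists_qs {Γ : Subgroup SL(2, ℤ)} {k : ℤ} (hT : ModularGroup.T ∈ Γ) (hf : f ∈ MS Γ k) :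
    QS (fun n => (qExpansion 1 f).coeff n) f := fun z => by
  have hp : Function.Periodic (f ∘ ofComplex) (1 : ℝ) := periodic_of_vadd fun z => by
    have := slash_T_pow (k := k) f 1 z
    rw [pow_one, hf.2.1 _ hT, Nat.cast_one] at this
    exact this.symm
  have hb := hf.2.2 1
  rw [SlashAction.slash_one] at hb
  simpa [q_pow'] using hasSum_qExpansion one_pos hp hf.1 hb z

theorem T_mem_G0 : ModularGroup.T ∈ Gamma0 L := GH_le_G0 ⊤ T_mem

/-- a cusp form from an element of `CS` -/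
def toCF {Γ : Subgroup SL(2, ℤ)} [Γ.FiniteIndex] {k : ℤ} (hf : f ∈ CS Γ k) :
    CuspForm (Γ : Subgroup (GL (Fin 2) ℝ)) k where
  toFun := f
  slash_action_eq' := by
    rintro _ ⟨g, hg, rfl⟩
    exact hf.2.1 g hg
  holo' := hf.1
  zero_at_cusps' hc := by
    rw [Subgroup.IsArithmetic.isCusp_iff_isCusp_SL2Z] at hc
    rw [OnePoint.isZeroAt_iff_forall_SL2Z hc]
    exact fun γ _ => hf.2.2 γ

theorem cf_mem {Γ : Subgroup SL(2, ℤ)} [Γ.FiniteIndex] {k : ℤ}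
    (F : CuspForm (Γ : Subgroup (GL (Fin 2) ℝ)) k) : (F : ℍ → ℂ) ∈ CS Γ k :=
  ⟨F.holo', fun γ hγ => F.slash_action_eq' _ ⟨γ, hγ, rfl⟩,
    fun s => CuspFormClass.zero_at_infty_slash F s⟩

/-! ### the Hecke operators -/

theorem rr_gm {a b c d : ℤ} (h : 0 < a * d - b * c) (i j : Fin 2) :
    rr (gm a b c d) i j = !![(a : ℝ), b; c, d] i j := by
  rw [rr_apply, gm_val h]
  fin_cases i <;> fin_cases j <;> simp

theorem slash_gm {a b d : ℤ} (ha : 0 < a) (hd : 0 < d) (f : ℍ → ℂ) (z : ℍ) :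
    ∃ w : ℍ, (w : ℂ) = (a * z + b) / d ∧ (f ∣[(2 : ℤ)] rr (gm a b 0 d)) z = a / d * f w := by
  have h : 0 < a * d - b * 0 := by simpa using mul_pos ha hd
  have hd' : (d : ℂ) ≠ 0 := by exact_mod_cast hd.ne'
  have h1 : denom (rr (gm a b 0 d)) z = d := by simp [denom, rr_gm h]
  have h2 : (rr (gm a b 0 d)).det.val = a * d := by
    simp [Matrix.det_fin_two, rr_gm h]
  refine ⟨rr (gm a b 0 d) • z, ?_, ?_⟩
  · rw [coe_smul_of_det_pos (rr_pos _), h1]
    simp [num, rr_gm h]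
  · rw [Mf.slash_eq, Pi.mul_apply, Mf.jf, h1, h2, abs_of_pos (by exact_mod_cast mul_pos ha hd)]
    push_cast
    field_simp

theorem sum_root (hp : 0 < p) (n : ℕ) :
    ∑ i ∈ range p, cexp (2 * π * I * n / p) ^ i = if p ∣ n then (p : ℂ) else 0 := by
  have hζ := Complex.isPrimitiveRoot_exp p hp.ne'
  have e : cexp (2 * π * I * n / p) = cexp (2 * π * I / p) ^ n := by
    rw [← Complex.exp_nat_mul]; congr 1; ring
  rw [e]
  split_ifs with h
  · rw [(hζ.pow_eq_one_iff_dvd n).2 h]; simp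
  · rw [geom_sum_eq (mt (hζ.pow_eq_one_iff_dvd n).1 h), ← pow_mul, mul_comm n p, pow_mul,
      hζ.pow_eq_one]
    simp

variable {O : Type*} [CommRing O] [Algebra O ℂ]

theorem qs_U (hp : 0 < p) (h : QS c f) : QS (fun n => c (p * n)) (hk 2 (U O p) f) := fun z => by
  have hp' : (p : ℂ) ≠ 0 := by exact_mod_cast hp.ne'
  have h1 : ∀ i : ℕ, HasSum (fun n : ℕ => (1 / p) * (c n * cexp (2 * π * I * n * z / p)) *
      cexp (2 * π * I * n / p) ^ i) ((f ∣[(2 : ℤ)] rr (up p i)) z) := fun i => by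
    obtain ⟨w, hw, e⟩ := slash_gm (a := 1) (b := i) (d := p) one_pos (by exact_mod_cast hp) f z
    rw [up, e]
    refine hs_congr ((h w).mul_left (((1 : ℤ) : ℂ) / (p : ℤ))) fun n => ?_
    rw [hw, ← Complex.exp_nat_mul, mul_assoc (1 / (p : ℂ)), mul_assoc (c n), ← Complex.exp_add]
    push_cast
    congr 3
    ring
  have h2 := hasSum_sum (s := range p) fun i _ => h1 i
  simp only [← mul_sum, sum_root hp] at h2
  rw [U, hk_sum, Finset.sum_apply]
  refine hs_congr ((Function.Injective.hasSum_iff (g := fun n => p * n)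
    (fun a b e => Nat.eq_of_mul_eq_mul_left hp e) fun m hm => ?_).2 h2) fun n => ?_
  · rw [if_neg, mul_zero]
    rintro ⟨k, rfl⟩
    exact hm ⟨k, rfl⟩
  · simp only [Function.comp, dvd_mul_right, if_true]
    rw [show 2 * π * I * ((p * n : ℕ) : ℂ) * z / p = 2 * π * I * n * z by push_cast; field_simp]
    field_simp

theorem qs_dg (hp : 0 < p) (h : QS c f) :
    QS (fun n => if p ∣ n then (p : ℂ) * c (n / p) else 0) (f ∣[(2 : ℤ)] rr (dg p)) := fun z => by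
  obtain ⟨w, hw, e⟩ := slash_gm (a := p) (b := 0) (d := 1) (by exact_mod_cast hp) one_pos f z
  have hw' : w = sc p z := UpperHalfPlane.ext (by rw [hw, coe_sc hp]; simp)
  rw [dg, e, hw']
  refine hs_congr ((h.sc hp z).mul_left (((p : ℤ) : ℂ) / (1 : ℤ))) fun n => ?_
  beta_reduce
  split_ifs <;> simp [mul_assoc]

/-- the Hecke operator `T_p` on coefficients, `p` prime to the level -/
def hecke (p : ℕ) (c : ℕ → ℂ) (n : ℕ) : ℂ := c (p * n) + if p ∣ n then (p : ℂ) * c (n / p) else 0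

theorem qs_Tp (hp : 0 < p) (hL : ¬ p ∣ L) (hf : ∀ γ ∈ Gamma0 L, f ∣[(2 : ℤ)] γ = f) (h : QS c f) :
    QS (hecke p c) (hk 2 (Tp O L p) f) := by
  rw [Tp, if_neg hL, hk_add_left, hk_e, map_mul, SlashAction.slash_mul, sg, slash_sq,
    hf _ (GH_top (L := L) ▸ sgZ_mem L p)]
  exact qs_add (qs_U hp h) (qs_dg hp h)


/-- eigenfunctions of `Tp` and the Hecke recursion -/
theorem Tp_eig_iff (hp : 0 < p) (hL : ¬ p ∣ L) (hf : ∀ γ ∈ Gamma0 L, f ∣[(2 : ℤ)] γ = f)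
    (h : QS c f) {b : ℂ} : hk 2 (Tp O L p) f = b • f ↔ ∀ n, hecke p c n = b * c n :=
  ⟨fun e => congrFun (qs_inj (qs_Tp hp hL hf h) (e ▸ qs_smul b h)),
    fun e => (qs_Tp hp hL hf h).unique ((funext e : hecke p c = b • c) ▸ qs_smul b h)⟩

/-! ### complex conjugation -/

/-- `z ↦ conj (g (-conj z))` -/
def cjf (g : ℍ → ℂ) : ℍ → ℂ := g ∣[(2 : ℤ)] J

theorem cjf_apply (g : ℍ → ℂ) (z : ℍ) : cjf g z = conj (g (J • z)) := by
  simp [cjf, slash_apply]

/-- conjugation by `J` -/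
def jc (γ : SL(2, ℤ)) : SL(2, ℤ) :=
  ⟨!![γ 0 0, -γ 0 1; -γ 1 0, γ 1 1], by rw [Matrix.det_fin_two_of]; linarith [det_eq γ]⟩

theorem J_mul (γ : SL(2, ℤ)) : J * (γ : GL (Fin 2) ℝ) = (jc γ : GL (Fin 2) ℝ) * J := by
  ext i j
  fin_cases i <;> fin_cases j <;> simp [jc, Matrix.mul_apply, Fin.sum_univ_two]

theorem cjf_slash (g : ℍ → ℂ) (γ : SL(2, ℤ)) :
    (cjf g) ∣[(2 : ℤ)] γ = cjf (g ∣[(2 : ℤ)] jc γ) := by
  rw [cjf, cjf, SL_slash, SL_slash, ← SlashAction.slash_mul, ← SlashAction.slash_mul, J_mul]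

theorem jc_mem {γ : SL(2, ℤ)} (h : γ ∈ Gamma0 L) : jc γ ∈ Gamma0 L := by
  rw [Gamma0_mem] at h ⊢
  simpa [jc] using h

theorem cjf_mem (hg : g ∈ CS (Gamma0 L) 2) : cjf g ∈ CS (Gamma0 L) 2 :=
  ⟨hg.1.slash _ _, fun γ hγ => by rw [cjf_slash, hg.2.1 _ (jc_mem hγ)],
    fun s => by rw [cjf_slash]; exact (hg.2.2 _).slash _ (by simp)⟩

theorem qs_cjf (h : QS c g) : QS (fun n => conj (c n)) (cjf g) := fun z => by
  rw [cjf_apply]
  refine hs_congr ((Complex.hasSum_conj').2 (h (J • z))) fun n => ?_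
  rw [map_mul, ← Complex.exp_conj, coe_J_smul]
  simp [map_ofNat]

end Crest.Agent.T15.EscO
end
end

-- ▼ part T15/EscP_12
section

/-!
# Row 15, block T (helper12): eigenforms and eigenclasses

* `EsSurj`: surjectivity of the Eichler-Shimura map (hypothesis, proved in block T by helper99);
* `cls_of_form`: an eigenform gives an eigenclass;
* `form_of_cls`: a non-Eisenstein eigenclass gives a cuspidal eigenform.
-/

set_option autoImplicit false
set_option linter.unusedSectionVars false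

noncomputable section

namespace Crest.Agent.T15.EscO

open UpperHalfPlane hiding I
open Complex hiding Gamma
open ModularForm CongruenceSubgroup Finset Matrix.SpecialLinearGroup
open scoped MatrixGroups Manifold Real ComplexConjugate
open Crest.Agent.T15.Hk Crest.Agent.T15.Lv Crest.Agent.T15.Esc
open Crest.Agent.T15.Mf (GQ rr rr_sq)
open Crest.Agent.T15.Und (QS)

/-- surjectivity of the Eichler-Shimura map for the group `Γ` -/
def Surj (Γ : Subgroup SL(2, ℤ)) : Prop :=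
  ∀ φ : HH (Γ.map Mf.sq) ℂ, ∃ f ∈ MS Γ 2, ∃ g ∈ CS Γ 2,
    ∀ γ ∈ Γ, val φ (Mf.sq γ) = per f γ + conj (per g γ)

/-- surjectivity of the Eichler-Shimura map -/
def EsSurj : Prop :=
  ∀ (M : ℕ) (Γ : Subgroup SL(2, ℤ)), 0 < M → Gamma M ≤ Γ → Γ ≤ Gamma1 4 → Surj Γ

variable {Γ : Subgroup SL(2, ℤ)} {f g : ℍ → ℂ}

theorem val_P_sq (hf : f ∈ Esc.Inv (Γ.map Mf.sq)) {γ : SL(2, ℤ)} (hγ : γ ∈ Γ) :
    val (P (Γ.map Mf.sq) ⟨f, hf⟩) (Mf.sq γ) = per f γ := by
  rw [val_P _ (Subgroup.mem_map_of_mem _ hγ), rr_sq]; rfl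

/-- the action of a correspondence on the class of `(f, g)` -/
theorem val_T_pair (c : Corr ℤ (Γ.map Mf.sq) (Γ.map Mf.sq)) {φ : HH (Γ.map Mf.sq) ℂ}
    (hf : f ∈ Esc.Inv (Γ.map Mf.sq)) (hg : g ∈ Esc.Inv (Γ.map Mf.sq))
    (h : ∀ γ ∈ Γ, val φ (Mf.sq γ) = per f γ + conj (per g γ)) {γ : SL(2, ℤ)} (hγ : γ ∈ Γ) :
    val (T ℂ c φ) (Mf.sq γ) = per (hk 2 c.1 f) γ + conj (per (hk 2 c.1 g) γ) := by
  let cj : ℂ →ₗ[ℤ] ℂ := (starRingEnd ℂ).toAddMonoidHom.toIntLinearMap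
  have e : φ = P _ ⟨f, hf⟩ + cj.toAddMonoidHom.comp (P _ ⟨g, hg⟩) := HH.ext (by
    rintro _ ⟨δ, hδ, rfl⟩
    rw [val_add, val_comp, val_P_sq hf hδ, val_P_sq hg hδ, h δ hδ]
    rfl)
  rw [e, map_add, T_comp, T_P, T_P, val_add, val_comp, val_P_sq _ hγ, val_P_sq _ hγ]
  rfl

theorem eig_pair [Γ.FiniteIndex] (c : Corr ℤ (Γ.map Mf.sq) (Γ.map Mf.sq)) {φ : HH (Γ.map Mf.sq) ℂ}
    (hf : f ∈ MS Γ 2) (hg : g ∈ CS Γ 2)
    (h : ∀ γ ∈ Γ, val φ (Mf.sq γ) = per f γ + conj (per g γ)) {b : ℂ} (hb : T ℂ c φ = b • φ) :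
    hk 2 c.1 f = b • f ∧ hk 2 c.1 g = conj b • g := by
  have := es_inj ((MS Γ 2).sub_mem (hk_MS c.2 hf) ((MS Γ 2).smul_mem b hf))
    ((CS Γ 2).sub_mem (hk_CS c.2 hg) ((CS Γ 2).smul_mem (conj b) hg)) fun γ hγ => by
      have h1 := val_T_pair c (MS_le_Inv hf) (CS_le_Inv hg) h hγ
      rw [hb, val_smul, h γ hγ, smul_eq_mul] at h1
      rw [per_sub (hk_mdiff _ hf.1) (hf.1.const_smul b), per_sub (hk_mdiff _ hg.1)
        (hg.1.const_smul _), per_smul _ hf.1, per_smul _ hg.1, map_sub, map_mul, conj_conj]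
      linear_combination -h1
  exact ⟨sub_eq_zero.1 this.1, sub_eq_zero.1 this.2⟩

theorem P_ne_zero [Γ.FiniteIndex] (hf : f ∈ MS Γ 2) (h0 : f ≠ 0) :
    P (Γ.map Mf.sq) ⟨f, MS_le_Inv hf⟩ ≠ 0 := fun e => h0 (es_inj hf (CS Γ 2).zero_mem fun γ hγ => by
  rw [← val_P_sq (MS_le_Inv hf) hγ, e, val_zero, per_zero, map_zero, add_zero]).1

variable {L : ℕ}

/-- an eigenform gives an eigenclass (any level group `Γ_H(L)`, any set of primes) -/
theorem cls_of_form [NeZero L] (H : Subgroup (ZMod L)ˣ) {a : ℕ → ℂ} (hf : f ∈ CS (Gamma0 L) 2)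
    (ha : QS a f) (h0 : a ≠ 0) :
    ∃ φ : HH (Gq L H) ℂ, φ ≠ 0 ∧ ∀ (p : ℕ) (b : ℂ) (c : Corr ℤ (Gq L H) (Gq L H)), 0 < p →
      ¬ p ∣ L → c.1 = Tp ℤ L p → (∀ n, hecke p a n = b * a n) → T ℂ c φ = b • φ := by
  have hf' : f ∈ MS (GH L H) 2 := MS_anti (GH_le_G0 H) (CS_le_MS hf)
  refine ⟨P _ ⟨f, MS_le_Inv hf'⟩, P_ne_zero hf' fun e => h0 (qs_eq_zero (e ▸ ha)),
    fun p b c hp hL hc hb => ?_⟩
  refine (T_P (Λ := (GH L H).map Mf.sq) c _).trans ?_
  rw [← map_smul]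
  congr 1
  refine Subtype.ext ?_
  show hk 2 c.1 f = b • f
  rw [hc]
  exact (Tp_eig_iff hp hL hf.2.1 ha).2 hb

/-- a non-Eisenstein eigenclass gives a cuspidal eigenform -/
theorem form_of_cls [NeZero L] (hS : Surj (GH L (H4 L))) {φ : HH (Gq L (H4 L)) ℂ} (h0 : φ ≠ 0)
    {G : ℕ → Prop} (hG : ∀ p, G p → p.Prime ∧ ¬ p ∣ L)
    {c : ℕ → Corr ℤ (Gq L (H4 L)) (Gq L (H4 L))} (hc : ∀ p, G p → (c p).1 = Tp ℤ L p)
    {b : ℕ → ℂ} (hb : ∀ p, G p → T ℂ (c p) φ = b p • φ)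
    {p₀ : ℕ} (h₀ : G p₀) (h₁ : p₀ ≡ 1 [MOD L]) (h₂ : b p₀ ≠ p₀ + 1) :
    ∃ (f : ℍ → ℂ) (a : ℕ → ℂ), f ∈ CS (Gamma0 L) 2 ∧ QS a f ∧ a ≠ 0 ∧
      ∀ p, G p → ∀ n, hecke p a n = b p * a n := by
  obtain ⟨f, hf, g, hg, h'⟩ := hS φ
  have h : ∀ γ ∈ GH L (H4 L), val (Γ := Gq L (H4 L)) φ (Mf.sq γ) = per f γ + conj (per g γ) := h'
  obtain ⟨M, hM⟩ := exists_wid (GH L (H4 L))
  have hf' : f ∈ CS (GH L (H4 L)) 2 := (mem_CS_iff hM hf).2 fun s => by
    have h1 := Par.par_Tp_conj (hG _ h₀).1 (by simpa using h₁.symm.dvd) (c p₀)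
      (by rw [hc _ h₀, sub_self]; exact Submodule.zero_mem _) φ (Or.inl rfl) s M
      (by simpa using hM.2 s)
    rw [hb _ h₀, val_smul, one_mul, zpow_natCast, h _ (hM.2 s),
      (mem_CS_iff hM (CS_le_MS hg)).1 hg s, map_zero, add_zero, smul_eq_mul, nsmul_eq_mul,
      ← sub_eq_zero, ← sub_mul, mul_eq_zero] at h1
    exact h1.resolve_left (sub_ne_zero.2 (by exact_mod_cast h₂))
  have he := fun p hp => eig_pair (Γ := GH L (H4 L)) (c p) hf hg h' (hb p hp)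
  rw [CS_H4] at hf' hg
  by_cases hf0 : f = 0
  · have hq := exists_qs T_mem_G0 (CS_le_MS hg)
    refine ⟨cjf g, _, cjf_mem hg, qs_cjf hq, fun e => h0 (HH.ext ?_), fun p hp n => ?_⟩
    · rintro _ ⟨γ, hγ, rfl⟩
      have e' : (fun n => (qExpansion 1 g).coeff n) = 0 := funext fun n => by
        simpa using congrFun e n
      have : g = 0 := hq.unique (e' ▸ qs_zero)
      rw [h γ hγ, hf0, this, per_zero, map_zero, add_zero, val_zero]
    · have h1 := (Tp_eig_iff (O := ℤ) (hG p hp).1.pos (hG p hp).2 hg.2.1 hq).1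
        (hc p hp ▸ (he p hp).2) n
      have h2 := congrArg conj h1
      rw [map_mul, conj_conj] at h2
      rw [← h2, hecke, hecke, map_add]
      split_ifs <;> simp
  · have hq := exists_qs T_mem_G0 (CS_le_MS hf')
    exact ⟨f, _, hf', hq, fun e => hf0 (hq.unique (e ▸ qs_zero)), fun p hp =>
      (Tp_eig_iff (O := ℤ) (hG p hp).1.pos (hG p hp).2 hf'.2.1 hq).1 (hc p hp ▸ (he p hp).1)⟩

theorem EsSurj.H4 (hS : EsSurj) (h0 : 0 < L) (h4 : 4 ∣ L) : Surj (GH L (H4 L)) :=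
  hS L _ h0 Gamma_le_GH (GH4_le h4)

end Crest.Agent.T15.EscO
end
end

-- ▼ part T15/EscO_12
section

/-!
# Row 15, block T (helper12): the contract `R.EscOut` from the surjectivity `EsSurj`
-/

set_option autoImplicit false

noncomputable section

namespace Crest.Agent.T15.EscO

open CongruenceSubgroup
open Crest.Agent.T15.Hk Crest.Agent.T15.Lv
open Crest.Agent.T15.Mf (GQ)

theorem mod_of_cls (hS : EsSurj) {L : ℕ} (h0 : 0 < L) (h4 : 4 ∣ L) {b : ℕ → ℂ}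
    {H' : Subgroup (ZMod L)ˣ} (e : H' = H4 L) (φ : HH (Gq L H') ℂ) (hφ : φ ≠ 0)
    (c : ℕ → Corr ℤ (Gq L H') (Gq L H')) (hc : ∀ p, R.Gd L p → (c p).1 = Tp ℤ L p)
    (hb : ∀ p, R.Gd L p → T ℂ (c p) φ = b p • φ) {p₀ : ℕ} (g₀ : R.Gd L p₀) (g₁ : p₀ ≡ 1 [MOD L])
    (g₂ : b p₀ ≠ p₀ + 1) : Top.Mod L b := by
  subst e
  have : NeZero L := ⟨h0.ne'⟩
  have hG : ∀ p, R.Gd L p → p.Prime ∧ ¬ p ∣ L := fun p hp => ⟨hp.1, fun h => hp.2 (h.mul_left 3)⟩
  obtain ⟨f, a, hf, ha, h1, h2⟩ := form_of_cls (hS.H4 h0 h4) hφ hG hc hb g₀ g₁ g₂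
  exact (Top.mod_iff h0).2 ⟨a, ⟨toCF hf, ha⟩, h1, fun l hl hl' => h2 l ⟨hl, hl'⟩⟩

/-- **`R.EscOut`** for every system of levels `Gq L (H L)`, `H L = ker ((ℤ/L)ˣ → (ℤ/4)ˣ)`, whose
correspondences at the good primes are the `Tp` -/
theorem escOut_of (hS : EsSurj) (H : ∀ L : ℕ, Subgroup (ZMod L)ˣ)
    (hH : ∀ (L : ℕ) (h : 4 ∣ L) (u : (ZMod L)ˣ), u ∈ H L ↔ ZMod.unitsMap h u = 1)
    (c : ∀ L, ℕ → Corr ℤ (Gq L (H L)) (Gq L (H L)))
    (hc : ∀ L p, p.Prime → (c L p).1 = Tp ℤ L p) :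
    R.EscOut ⟨fun L => Gq L (H L), c⟩ := by
  intro L b h0 h4
  have : NeZero L := ⟨h0.ne'⟩
  have hG : ∀ p, R.Gd L p → p.Prime ∧ ¬ p ∣ L := fun p hp => ⟨hp.1, fun h => hp.2 (h.mul_left 3)⟩
  refine ⟨fun ⟨⟨F, hF⟩, _, h1, h2⟩ => ?_, fun ⟨φ, hφ, hb⟩ ⟨p₀, g₀, g₁, g₂⟩ => ?_⟩
  · obtain ⟨φ, hφ, h⟩ := cls_of_form (H L) (a := b) (cf_mem F) hF fun e => by simp [e] at h1
    exact ⟨φ, hφ, fun p hp => h p _ _ hp.1.pos (hG p hp).2 (hc L p hp.1) (h2 p hp.1 (hG p hp).2)⟩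
  · exact mod_of_cls hS h0 h4 (Subgroup.ext fun u => (hH L h4 u).trans (mem_H4 h4).symm) φ hφ
      (c L) (fun p hp => hc L p hp.1) hb g₀ g₁ g₂



end Crest.Agent.T15.EscO
end
end

-- ▼ part T15/EscD_44
section

/-!
# Row 15, block T (helper44): surjectivity of the Eichler-Shimura map from the dimension count
-/

set_option autoImplicit false

noncomputable section

namespace Crest.Agent.T15.Esc

open UpperHalfPlane ModularForm Complex CongruenceSubgroup Module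
open scoped MatrixGroups Manifold ComplexConjugate
open Crest.Agent.T15.Hk Crest.Agent.T15.Mf

/-- complex conjugation on `Hom(Λ, ℂ)` -/
def cjH {G : Type*} [Group G] (Λ : Subgroup G) : HH Λ ℂ →ₗ[ℝ] HH Λ ℂ where
  toFun φ := (conjAe.toAddEquiv.toAddMonoidHom).comp φ
  map_add' _ _ := AddMonoidHom.ext fun _ => map_add conj _ _
  map_smul' c φ := AddMonoidHom.ext fun x => conjAe.toLinearMap.map_smul c (φ x)

lemma val_cjH {G : Type*} [Group G] {Λ : Subgroup G} (φ : HH Λ ℂ) {g : G} (hg : g ∈ Λ) :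
    val (cjH Λ φ) g = conj (val φ g) := by
  rw [val_eq _ hg, val_eq _ hg]; rfl

variable (Γ : Subgroup SL(2, ℤ))

/-- the Eichler-Shimura map -/
def esM : (MS Γ 2 × CS Γ 2) →ₗ[ℝ] HH (Γ.map Mf.sq) ℂ :=
  (((P (Γ.map Mf.sq)).comp (Submodule.inclusion MS_le_Inv)).restrictScalars ℝ).coprod
    ((cjH (Γ.map Mf.sq)).comp (((P (Γ.map Mf.sq)).comp (Submodule.inclusion CS_le_Inv)).restrictScalars ℝ))

variable {Γ}

lemma val_esM (x : MS Γ 2 × CS Γ 2) {γ : SL(2, ℤ)} (hγ : γ ∈ Γ) :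
    val (esM Γ x) (Mf.sq γ) = per x.1 γ + conj (per x.2 γ) := by
  have h : Mf.sq γ ∈ Γ.map Mf.sq := ⟨γ, hγ, rfl⟩
  have e : (γ : GL (Fin 2) ℝ) = rr (Mf.sq γ) := (rr_sq γ).symm
  rw [e, ← val_P ⟨_, MS_le_Inv x.1.2⟩ h, ← val_P ⟨_, CS_le_Inv x.2.2⟩ h, ← val_cjH _ h,
    ← val_add]
  rfl

lemma esM_inj [Γ.FiniteIndex] : Function.Injective (esM Γ) :=
  (injective_iff_map_eq_zero _).2 fun x hx => by
    have := es_inj x.1.2 x.2.2 fun γ hγ => by rw [← val_esM x hγ, hx, val_zero]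
    exact Prod.ext (Subtype.ext this.1) (Subtype.ext this.2)

lemma HH_le (h4 : Γ ≤ Gamma1 4) [Γ.FiniteIndex] : Module.Finite ℂ (HH (Γ.map Mf.sq) ℂ) ∧
    finrank ℂ (HH (Γ.map Mf.sq) ℂ) ≤ Γ.relIndex (Gamma1 4) + 1 := by
  have e := Subgroup.relIndex_map_map_of_injective Γ (Gamma1 4) sq_injective
  rw [← e]
  refine finrank_HH_le (a := Mf.sq ModularGroup.T) (b := Mf.sq U4) ?_ (Subgroup.map_mono h4) ?_
  · rw [← closure_G4, MonoidHom.map_closure, Set.image_pair]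
  · rw [e]; exact Subgroup.FiniteIndex.index_ne_zero

lemma finite_MS_CS (h4 : Γ ≤ Gamma1 4) [Γ.FiniteIndex] :
    Module.Finite ℂ (MS Γ 2) ∧ Module.Finite ℂ (CS Γ 2) := by
  have := (HH_le h4).1
  have : Module.Finite ℝ (MS Γ 2 × CS Γ 2) := Module.Finite.of_injective _ esM_inj
  have : Module.Finite ℂ (MS Γ 2 × CS Γ 2) := Module.Finite.of_restrictScalars_finite ℝ _ _
  exact ⟨Module.Finite.of_surjective (LinearMap.fst ℂ _ (CS Γ 2)) Prod.fst_surjective,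
    Module.Finite.of_surjective (LinearMap.snd ℂ (MS Γ 2) _) Prod.snd_surjective⟩

/-- **Eichler-Shimura**, surjectivity from the dimension count -/
theorem es_surj_of (h4 : Γ ≤ Gamma1 4) [Γ.FiniteIndex]
    (hdim : Γ.relIndex (Gamma1 4) + 1 ≤ finrank ℂ (MS Γ 2) + finrank ℂ (CS Γ 2))
    (φ : HH (Γ.map Mf.sq) ℂ) : ∃ f ∈ MS Γ 2, ∃ g ∈ CS Γ 2, ∀ γ ∈ Γ,
      val φ (Mf.sq γ) = per f γ + conj (per g γ) := by
  obtain ⟨_, h1⟩ := HH_le h4
  obtain ⟨_, _⟩ := finite_MS_CS h4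
  have h2 := LinearMap.finrank_le_finrank_of_injective (esM_inj (Γ := Γ))
  have h3 : finrank ℝ (MS Γ 2 × CS Γ 2) = finrank ℝ (HH (Γ.map Mf.sq) ℂ) := by
    refine h2.antisymm ?_
    rw [finrank_real_of_complex, finrank_real_of_complex, finrank_prod]
    omega
  obtain ⟨x, rfl⟩ := (LinearMap.injective_iff_surjective_of_finrank_eq_finrank h3).1 esM_inj φ
  exact ⟨_, x.1.2, _, x.2.2, fun γ hγ => val_esM x hγ⟩

end Crest.Agent.T15.Esc
end
end

-- ▼ part T15/EscZ_12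
section

set_option autoImplicit false

noncomputable section

namespace Crest.Agent.T15.EscO

open CongruenceSubgroup Module
open scoped MatrixGroups
open Crest.Agent.T15.Esc Crest.Agent.T15.Mf

theorem esSurj_of (hd : ∀ (Γ : Subgroup SL(2, ℤ)) (_ : Γ ≤ Gamma1 4) (_ : IsCongruenceSubgroup Γ)
    [Γ.FiniteIndex] [Module.Finite ℂ (MS Γ 2)] [Module.Finite ℂ (CS Γ 2)],
    Γ.relIndex (Gamma1 4) + 1 ≤ finrank ℂ (MS Γ 2) + finrank ℂ (CS Γ 2)) : EsSurj := by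
  intro M Γ hM hΓ h4 φ
  have hc : IsCongruenceSubgroup Γ := ⟨M, hM.ne', hΓ⟩
  have : NeZero M := ⟨hM.ne'⟩
  have : Γ.FiniteIndex := Subgroup.finiteIndex_of_le hΓ
  obtain ⟨_, _⟩ := finite_MS_CS h4
  exact es_surj_of h4 (hd Γ h4 hc) φ

end Crest.Agent.T15.EscO
end
end

-- ▼ part T15/EscC_99
section

/-!
# Row 15, block T (helper99): `dim M₂ + dim S₂ ≥ d + 1` from Riemann-Roch

`K` is a function field of `Γ`-invariant modular functions, `X ↦ b / a` (`a`, `b` of weight two, `a`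
without zeros).  `L(poles X) → M₂`, `h ↦ a h`; `L(dX) → S₂`, `u ↦ u dX`.
-/

set_option autoImplicit false

noncomputable section

namespace Crest.Agent.T15.Esc

open UpperHalfPlane hiding I
open Filter Topology WithZero ModularForm CongruenceSubgroup Derivative Asymptotics Function
open scoped MatrixGroups Manifold Real
open Crest.Agent.T15.Mf Crest.Agent.T15.Bet Crest.Agent.T15.Hs Crest.Agent.R007 Crest.Agent.R007.Rat

/-! ### the order at `i∞` -/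

section cusp

variable {M : ℕ} {k l : ℤ} {F G : ℍ → ℂ}

/-- the local parameter -/
def qq (M : ℕ) : ℍ → ℂ := fun τ => Periodic.qParam (M : ℝ) τ

lemma qq_ne (M : ℕ) (τ : ℍ) : qq M τ ≠ 0 := Periodic.qParam_ne_zero _

lemma hasDerivAt_qq (τ : ℍ) :
    HasDerivAt (qq M ∘ ofComplex) (2 * π * Complex.I / M * qq M τ) τ := by
  have h1 : HasDerivAt (fun z : ℂ => Periodic.qParam (M : ℝ) z)
      (2 * π * Complex.I / M * qq M τ) τ := by
    have h2 : HasDerivAt (fun z : ℂ => 2 * π * Complex.I * z / ((M : ℝ) : ℂ))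
        (2 * π * Complex.I * 1 / ((M : ℝ) : ℂ)) τ :=
      ((hasDerivAt_id (τ : ℂ)).const_mul _).div_const _
    refine h2.cexp.congr_deriv ?_
    simp only [qq, Periodic.qParam, Complex.ofReal_natCast]
    ring
  refine h1.congr_of_eventuallyEq ?_
  filter_upwards [isOpen_upperHalfPlaneSet.mem_nhds τ.im_pos] with z hz
  simp [qq, ofComplex_apply_of_im_pos hz]

lemma mdiff_qq : MDiff (qq M) := fun τ => mdifferentiableAt_iff.2 (hasDerivAt_qq τ).differentiableAt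

lemma D_qq : D (qq M) = (M : ℂ)⁻¹ • qq M := by
  funext τ
  rw [normalizedDerivOfComplex, (hasDerivAt_qq τ).deriv]
  have : (2 * π * Complex.I : ℂ) ≠ 0 := Complex.two_pi_I_ne_zero
  simp only [Pi.smul_apply, smul_eq_mul]
  field_simp

lemma tendsto_qq (hM : M ≠ 0) : Tendsto (qq M) atImInfty (𝓝 0) :=
  qParam_tendsto_atImInfty (Nat.cast_pos.2 (Nat.pos_of_ne_zero hM))

/-- shape of a nonzero form at `i∞` -/
theorem exists_shape (hM : M ≠ 0) (hF : IsF M k F) (h0 : F ≠ 0) :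
    ∃ n : ℕ, (qf F).orderTop = (((n : ℚ) / M : ℚ) : WithTop ℚ) ∧ F =Θ[atImInfty] (qq M ^ n) ∧
      D F =O[atImInfty] (qq M ^ n) := by
  have : NeZero M := ⟨hM⟩
  have hp : qe M F ≠ 0 := fun h => h0 ((qe_eq_zero_iff hF).1 h)
  obtain ⟨n, hn⟩ : ∃ n : ℕ, (qe M F).order = n :=
    ⟨_, (ENat.natCast_toNat (PowerSeries.order_finite_iff_ne_zero.2 hp).ne).symm⟩
  obtain ⟨h1, h2⟩ := PowerSeries.order_eq_nat.1 hn
  have hM' : (0 : ℚ) < M := Nat.cast_pos.2 (Nat.pos_of_ne_zero hM)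
  have hord : analyticOrderAt (cuspFunction (M : ℝ) F) 0 = n := by
    rw [analyticOrderAt_eq_nat_iff_iteratedDeriv_eq_zero hF.analytic]
    refine ⟨fun i hi => ?_, fun h => h1 ?_⟩
    · have := h2 i hi
      rw [qe, qExpansion_coeff] at this
      exact (mul_eq_zero.1 this).resolve_left (inv_ne_zero (by exact_mod_cast i.factorial_ne_zero))
    · rw [qe, qExpansion_coeff, h, mul_zero]
  obtain ⟨Ψ, hΨ, hΨ0, hΨe⟩ := hF.analytic.analyticOrderAt_eq_natCast.1 hord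
  have hn0 : ∀ τ, (qq M ^ n) τ ≠ 0 := fun τ => pow_ne_zero _ (qq_ne M τ)
  have hA : Tendsto (F / qq M ^ n) atImInfty (𝓝 (Ψ 0)) := by
    refine (hΨ.continuousAt.tendsto.comp (tendsto_qq hM)).congr' ?_
    filter_upwards [(tendsto_qq hM).eventually hΨe] with τ hτ
    have h3 := eq_cuspFunction τ (Mpos (M := M)).ne' hF.periodic
    rw [sub_zero, smul_eq_mul] at hτ
    rw [comp_apply, Pi.div_apply, eq_div_iff (hn0 τ), ← h3, mul_comm]
    exact hτ.symm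
  have hq : MDiff (qq M ^ n) := Hol.pow_mem mdiff_qq n
  have hAd : MDiff (F / qq M ^ n) := mdiff_div hF.holo hq hn0
  have hFe : F = qq M ^ n * (F / qq M ^ n) := by
    funext τ; rw [Pi.mul_apply, Pi.div_apply, mul_div_cancel₀ _ (hn0 τ)]
  refine ⟨n, ?_, ?_, ?_⟩
  · refine HahnSeries.orderTop_eq_of_le ?_ fun r hr => ?_
    · rw [HahnSeries.mem_support, coeff_qf hM hF]; exact h1
    · obtain ⟨m, rfl⟩ := lev_qf hM hF r hr
      rw [HahnSeries.mem_support, coeff_qf hM hF] at hr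
      have : n ≤ m := not_lt.1 fun h => hr (h2 m h)
      gcongr
  · exact (isTheta_of_div_tendsto_nhds_ne_zero hA hΨ0).symm
  · have hb := bdd_of_tendsto hA
    have hb' := bdd_D hAd hb
    have hD : D F = qq M ^ n * (((n : ℂ) / M) • (F / qq M ^ n) + D (F / qq M ^ n)) := by
      conv_lhs => rw [hFe]
      rw [normalizedDerivOfComplex_mul _ _ hq hAd, normalizedDerivOfComplex_pow _ _ mdiff_qq, D_qq]
      funext τ
      rcases n with _ | n
      · simp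
      · simp only [Pi.add_apply, Pi.mul_apply, Pi.pow_apply, Pi.smul_apply, smul_eq_mul,
          Pi.natCast_apply, Nat.add_sub_cancel]
        ring
    rw [hD]
    have h5 : (((n : ℂ) / M) • (F / qq M ^ n) + D (F / qq M ^ n)) =O[atImInfty] fun _ => (1 : ℂ) :=
      IsBigO.trans ((hb.smul ((n : ℂ) / M)).add hb') (isBigO_const_const (1 : ℝ) one_ne_zero _)
    exact ((isBigO_refl (qq M ^ n) atImInfty).mul h5).congr_right fun τ => mul_one _

lemma ev_ne (hM : M ≠ 0) (hF : IsF M k F) (h0 : F ≠ 0) : ∀ᶠ τ in atImInfty, F τ ≠ 0 := by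
  obtain ⟨n, -, h, -⟩ := exists_shape hM hF h0
  filter_upwards [h.symm.isBigO.eq_zero_imp] with τ hτ h1
  exact pow_ne_zero n (qq_ne M τ) (hτ h1)

lemma D_isBigO (hM : M ≠ 0) (hF : IsF M k F) (h0 : F ≠ 0) : D F =O[atImInfty] F := by
  obtain ⟨n, -, h, h'⟩ := exists_shape hM hF h0
  exact h'.trans h.symm.isBigO

lemma rc_isBigO (hM : M ≠ 0) (hF : IsF M k F) (h0 : F ≠ 0) (hG : IsF M l G) (h0' : G ≠ 0) :
    rc F G =O[atImInfty] (F * G) := by
  have h1 := (isBigO_refl F atImInfty).mul (D_isBigO hM hG h0')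
  have h2 := (isBigO_refl G atImInfty).mul (D_isBigO hM hF h0)
  refine h1.sub (h2.congr_right fun τ => mul_comm _ _)

lemma pow_isLittleO (hM : M ≠ 0) {m n : ℕ} (h : m < n) : (qq M ^ n) =o[atImInfty] (qq M ^ m) :=
  (isLittleO_pow_pow h).comp_tendsto (tendsto_qq hM)

/-- the valuation at `i∞` -/
def vI : Valuation FF (Multiplicative (WithTop ℚ)ᵒᵈ) :=
  (AddValuation.toValuation (HahnSeries.addVal ℚ ℂ)).comap qx


lemma vI_le_one {x : FF} : vI x ≤ 1 ↔ 0 ≤ (qx x).orderTop := Iff.rfl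

lemma vI_lt_one {x : FF} : vI x < 1 ↔ 0 < (qx x).orderTop := Iff.rfl

lemma vI_eq_one {x : FF} : vI x = 1 ↔ (qx x).orderTop = 0 := Iff.rfl

lemma vI_const {c : ℂ} (hc : c ≠ 0) : vI (algebraMap ℂ FF c) = 1 := by
  rw [vI_eq_one, qx_algebraMap]
  exact HahnSeries.orderTop_single hc

lemma orderTop_quo (hM : M ≠ 0) (hF : IsF M k F) (hG : IsF M k G) (h0 : G ≠ 0) :
    (qf F).orderTop = (qx (quo F G)).orderTop + (qf G).orderTop := by
  rw [qx_quo hM hF hG, ← HahnSeries.addVal_apply, ← HahnSeries.addVal_apply,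
    ← HahnSeries.addVal_apply, ← AddValuation.map_mul, div_mul_cancel₀ _ (qf_ne_zero hM hG h0)]

theorem isBigO_of_vI (hM : M ≠ 0) (hF : IsF M k F) (hG : IsF M k G) (h0 : G ≠ 0)
    (h : vI (quo F G) ≤ 1) : F =O[atImInfty] G := by
  by_cases hF0 : F = 0
  · rw [hF0]; exact isBigO_zero _ _
  obtain ⟨n, hn, h1, -⟩ := exists_shape hM hF hF0
  obtain ⟨m, hm, h2, -⟩ := exists_shape hM hG h0
  have h3 : (qf G).orderTop ≤ (qf F).orderTop := by
    rw [orderTop_quo hM hF hG h0]; exact le_add_of_nonneg_left (vI_le_one.1 h)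
  have hM' : (0 : ℚ) < M := Nat.cast_pos.2 (Nat.pos_of_ne_zero hM)
  rw [hn, hm, WithTop.coe_le_coe, div_le_div_iff_of_pos_right hM', Nat.cast_le] at h3
  refine h1.isBigO.trans (IsBigO.trans ?_ h2.symm.isBigO)
  exact h3.eq_or_lt.elim (fun h4 => h4 ▸ isBigO_refl _ _) fun h4 => (pow_isLittleO hM h4).isBigO

theorem isLittleO_of_vI (hM : M ≠ 0) (hF : IsF M k F) (hG : IsF M k G) (h0 : G ≠ 0)
    (h : vI (quo F G) < 1) : F =o[atImInfty] G := by
  by_cases hF0 : F = 0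
  · rw [hF0]; exact isLittleO_zero _ _
  obtain ⟨n, hn, h1, -⟩ := exists_shape hM hF hF0
  obtain ⟨m, hm, h2, -⟩ := exists_shape hM hG h0
  have h3 : (qf G).orderTop < (qf F).orderTop := by
    rw [orderTop_quo hM hF hG h0, hm]
    conv_lhs => rw [← zero_add ((((m : ℚ) / M : ℚ) : WithTop ℚ))]
    exact WithTop.add_lt_add_right WithTop.coe_ne_top (vI_lt_one.1 h)
  have hM' : (0 : ℚ) < M := Nat.cast_pos.2 (Nat.pos_of_ne_zero hM)
  rw [hn, hm, WithTop.coe_lt_coe, div_lt_div_iff_of_pos_right hM', Nat.cast_lt] at h3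
  exact (h1.isBigO.trans_isLittleO (pow_isLittleO hM h3)).trans_isBigO h2.symm.isBigO

lemma exists_vI_ne (x : FF) : ∃ c : ℂ, vI (x - algebraMap ℂ FF c) ≠ 1 := by
  refine ⟨(qx x).coeff 0, fun h => ?_⟩
  rw [vI_eq_one, map_sub, qx_algebraMap] at h
  have := HahnSeries.coeff_orderTop_ne (g := 0) h
  simp at this

lemma bdd_of_mul {g W A : ℍ → ℂ} (h : g * W = A) (hA : A =O[atImInfty] W)
    (hW : ∀ᶠ τ in atImInfty, W τ ≠ 0) : IsBoundedAtImInfty g := by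
  have h1 := hA.mul (isBigO_refl (fun τ => (W τ)⁻¹) atImInfty)
  refine h1.congr' ?_ ?_ |>.trans (isBigO_const_const (1 : ℂ) (one_ne_zero (α := ℝ)) _)
  · filter_upwards [hW] with τ hτ
    rw [← h, Pi.mul_apply, mul_inv_cancel_right₀ hτ]
  · filter_upwards [hW] with τ hτ
    exact mul_inv_cancel₀ hτ

lemma zero_of_mul {g W A : ℍ → ℂ} (h : g * W = A) (hA : A =o[atImInfty] W)
    (hW : ∀ᶠ τ in atImInfty, W τ ≠ 0) : IsZeroAtImInfty g := by
  have h1 := hA.mul_isBigO (isBigO_refl (fun τ => (W τ)⁻¹) atImInfty)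
  refine (isLittleO_one_iff ℂ).1 (h1.congr' ?_ ?_)
  · filter_upwards [hW] with τ hτ
    rw [← h, Pi.mul_apply, mul_inv_cancel_right₀ hτ]
  · filter_upwards [hW] with τ hτ
    exact mul_inv_cancel₀ hτ

end cusp

/-! ### Riemann-Roch spaces and arbitrary valuations -/

section val

open Crest.Agent.R013.RR7_948 Crest.Agent.R013.RR8_948 Crest.Agent.R013.RR9_948
open Crest.Agent.R013.RR11_948 Crest.Agent.R013.RR13_948 Crest.Agent.R013.RR15_948
open Crest.Agent.R013.RR17_948 Crest.Agent.R013.RR20_948 Crest.Agent.R013.GR2_921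

variable {K : Type*} [Field K] [Algebra ℂ K] [Algebra (RatFunc ℂ) K]
  [IsScalarTower ℂ (RatFunc ℂ) K] [FiniteDimensional (RatFunc ℂ) K]
  {Γ₀ : Type*} [LinearOrderedCommGroupWithZero Γ₀]

omit [FiniteDimensional (RatFunc ℂ) K] in
lemma xK_sub_ne (c : ℂ) : xK ℂ K - algebraMap ℂ K c ≠ 0 := fun h =>
  transcendental_xK (k := ℂ) (K := K) (sub_eq_zero.1 h ▸ isAlgebraic_algebraMap c)

theorem le_of_mem_poles (v : Valuation K Γ₀) (hk : ∀ c : ℂ, c ≠ 0 → v (algebraMap ℂ K c) = 1)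
    (hnt : ∃ c : ℂ, v (xK ℂ K - algebraMap ℂ K c) ≠ 1) {h : K}
    (hh : h ∈ LD (poles (k := ℂ) (xK ℂ K))) : v h ≤ 1 ∨ v (h / xK ℂ K) ≤ 1 := by
  obtain ⟨c, hc⟩ := hnt
  obtain ⟨P, hP⟩ := exists_place v hk ⟨_, (Valuation.ne_zero_iff v).2 (xK_sub_ne c), hc⟩
  have hx : xK ℂ K ≠ 0 := by simpa using xK_sub_ne (K := K) 0
  have h1 := mem_LD.1 hh P
  rw [poles_apply] at h1
  rw [← hP.le_one_iff_le_one, ← hP.le_one_iff_le_one, map_div₀, v_eq hx P,
    div_le_one₀ exp_pos]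
  rcases le_total (-divf (k := ℂ) (xK ℂ K) P) 0 with h2 | h2
  · rw [max_eq_right h2, exp_zero] at h1; exact Or.inl h1
  · rw [max_eq_left h2] at h1; exact Or.inr h1

theorem lt_of_mem_can (v : Valuation K Γ₀) (hk : ∀ c : ℂ, c ≠ 0 → v (algebraMap ℂ K c) = 1)
    (hnt : ∃ c : ℂ, v (xK ℂ K - algebraMap ℂ K c) ≠ 1) {u : K}
    (hu : u ∈ LD (canD ℂ K)) : ∃ c : ℂ, v (u * (xK ℂ K - algebraMap ℂ K c)) < 1 := by
  obtain ⟨c, hc⟩ := hnt
  obtain ⟨P, hP⟩ := exists_place v hk ⟨_, (Valuation.ne_zero_iff v).2 (xK_sub_ne c), hc⟩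
  obtain ⟨t, ht⟩ := P.surj (exp (-1))
  have h1 := mem_LD.1 hu P
  rw [← v_del_eq P ht] at h1
  suffices H : ∃ c : ℂ, P.v u * P.v (xK ℂ K - algebraMap ℂ K c) < 1 by
    obtain ⟨c, hc⟩ := H
    exact ⟨c, hP.lt_one_iff_lt_one.1 (by rwa [map_mul])⟩
  rcases le_or_gt (P.v (xK ℂ K)) 1 with h2 | h2
  · obtain ⟨c', hc'⟩ := exists_const P h2
    refine ⟨c', ?_⟩
    have h3 := v_eq (k := ℂ) (xK_sub_ne (K := K) c') P
    have h4 : 0 < divf (k := ℂ) (xK ℂ K - algebraMap ℂ K c') P := by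
      rw [h3, ← exp_zero, exp_lt_exp] at hc'; omega
    rw [v_del_finite P ht (p := Polynomial.X - Polynomial.C c') (by simpa using h3) h4
      (by simp)] at h1
    refine (mul_le_mul_left h1 _).trans_lt ?_
    rw [h3, ← exp_add, ← exp_zero, exp_lt_exp]; omega
  · refine ⟨0, ?_⟩
    have h3 := v_eq (k := ℂ) (xK_sub_ne (K := K) 0) P
    rw [map_zero, sub_zero] at h3 ⊢
    have h4 : 0 < -divf (k := ℂ) (xK ℂ K) P := by
      rw [h3, ← exp_zero, exp_lt_exp] at h2; exact h2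
    rw [v_del_infinite P ht h3 h4] at h1
    refine (mul_le_mul_left h1 _).trans_lt ?_
    rw [h3, ← exp_add, ← exp_zero, exp_lt_exp]; omega

theorem rr_bound : Module.finrank (RatFunc ℂ) K + 1 ≤
    Module.finrank ℂ (LD (poles (k := ℂ) (xK ℂ K))) + Module.finrank ℂ (LD (canD ℂ K)) := by
  have hc : algebraicClosure ℂ K = ⊥ := IntermediateField.eq_bot_of_isAlgClosed_of_isAlgebraic _
  have h := ell_ge hc (poles (k := ℂ) (xK ℂ K))
  rw [degD_poles_xK] at h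
  unfold gen ell at h
  omega

end val

/-! ### from functions to forms -/

section forms

variable {M : ℕ} {k : ℤ} {F G a b f g : ℍ → ℂ}

lemma bdd_of_vI (hM : M ≠ 0) (hF : IsF M k F) (hG : IsF M k G) (hG0 : G ≠ 0) (ha : IsF M 2 a)
    (hb : IsF M 2 b) (hb0 : b ≠ 0) (h : f * G = a * F)
    (hv : vI (quo F G) ≤ 1 ∨ vI (quo F G / quo b a) ≤ 1) : IsBoundedAtImInfty f := by
  have one {c : ℍ → ℂ} (hc : IsF M 2 c) : c =O[atImInfty] fun _ => (1 : ℂ) :=
    IsBigO.trans hc.bdd_infty (isBigO_const_const (1 : ℝ) one_ne_zero _)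
  refine bdd_of_mul h ?_ (ev_ne hM hG hG0)
  rcases hv with hv | hv
  · exact ((one ha).mul (isBigO_of_vI hM hF hG hG0 hv)).congr_right fun τ => one_mul _
  · rw [div_eq_mul_inv, quo_inv hM hb ha, ← quo_mul hM hF hG ha hb] at hv
    have h1 := isBigO_of_vI hM (hF.mul ha) (hG.mul hb)
      (fun h2 => mul_ne_zero (mer_ne_zero hG.holo hG0) (mer_ne_zero hb.holo hb0)
        (by rw [← mer_mul hG.holo hb.holo, h2, mer_zero])) hv
    rw [mul_comm a F]
    exact h1.trans (((isBigO_refl G atImInfty).mul (one hb)).congr_right fun τ => mul_one _)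

lemma zero_of_vI (hM : M ≠ 0) (hF : IsF M k F) (hG : IsF M k G) (hG0 : G ≠ 0) (ha : IsF M 2 a)
    (ha0 : a ≠ 0) (hb : IsF M 2 b) (hb0 : b ≠ 0) (h : g * (a * a) * G = rc a b * F)
    (hv : vI (quo F G * quo b a) < 1) : IsZeroAtImInfty g := by
  rw [← quo_mul hM hF hG hb ha] at hv
  have h1 := isLittleO_of_vI hM (hF.mul hb) (hG.mul ha)
    (fun h2 => mul_ne_zero (mer_ne_zero hG.holo hG0) (mer_ne_zero ha.holo ha0)
      (by rw [← mer_mul hG.holo ha.holo, h2, mer_zero])) hv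
  refine zero_of_mul (W := G * a * (a * b)) (A := F * b * rc a b) (by linear_combination b * h)
    (h1.mul_isBigO (rc_isBigO hM ha ha0 hb hb0)) ?_
  filter_upwards [ev_ne hM hG hG0, ev_ne hM ha ha0, ev_ne hM hb hb0] with τ h2 h3 h4
  exact mul_ne_zero (mul_ne_zero h2 h3) (mul_ne_zero h3 h4)

lemma vM_D (z : ℍ) (hf : MDiff f) (h0 : f ≠ 0) : vM z (mer (D f)) ≤ exp 1 * vM z (mer f) := by
  have hD := normalizedDerivOfComplex_mdifferentiable hf
  by_cases h1 : D f = 0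
  · rw [h1, mer_zero, map_zero]; exact zero_le
  rw [vM_mer z hD h1, vM_mer z hf h0, ← exp_add, exp_le_exp]
  unfold ordZ
  by_cases hz : f z = 0
  · have h2 := ordH_D hf hz
    have h3 := ordH_ne_top hD h1 z
    lift ordH (D f) z to ℕ using h3 with n
    rw [← h2, ← Nat.cast_succ, ENat.toNat_natCast, ENat.toNat_natCast]
    push_cast; omega
  · rw [(ordH_eq_zero hf).2 hz]
    simp only [ENat.toNat_zero]
    omega

lemma vM_rc (z : ℍ) (ha : MDiff a) (ha0 : a ≠ 0) (hb : MDiff b) (hb0 : b ≠ 0) :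
    vM z (mer (rc a b)) ≤ exp 1 * vM z (mer a * mer b) := by
  have hDa := normalizedDerivOfComplex_mdifferentiable ha
  have hDb := normalizedDerivOfComplex_mdifferentiable hb
  rw [rc, mer_sub (ha.mul hDb) (hb.mul hDa), mer_mul ha hDb, mer_mul hb hDa]
  refine (vM z).map_sub_le ?_ ?_
  · rw [map_mul, map_mul, mul_left_comm]; exact mul_le_mul_right (vM_D z hb hb0) _
  · rw [map_mul, map_mul, mul_comm (vM z (mer a)), mul_left_comm]
    exact mul_le_mul_right (vM_D z ha ha0) _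

lemma rc_sub (ha : MDiff a) (hb : MDiff b) (c : ℂ) : rc a (b - c • a) = rc a b := by
  rw [rc, rc, normalizedDerivOfComplex_sub _ _ hb (ha.const_smul c),
    normalizedDerivOfComplex_smul c a ha]
  funext τ
  simp only [Pi.sub_apply, Pi.mul_apply, Pi.smul_apply, smul_eq_mul]
  ring

lemma slash_of_mer {x : FF} {γ : SL(2, ℤ)} (hx : γ⁻¹ • x = x) {R W : ℍ → ℂ} (hR : MDiff R)
    (hW : MDiff W) (hRγ : R ∣[k] γ = R) (h : mer W = mer R * x) : W ∣[k] γ = W := by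
  apply mer_inj (mdiff_slash hW γ) hW
  let φ := MulSemiringAction.toRingHom GQ Mer (sq γ)⁻¹
  have h1 : φ x = x := by
    rw [sl_smul, map_inv] at hx
    exact congrArg Subtype.val hx
  have h2 : mer (R ∣[k] rr (sq γ)) = φ (mer R) * _ := mer_slash hR k (sq γ)
  have h3 : mer (W ∣[k] rr (sq γ)) = φ (mer W) * _ := mer_slash hW k (sq γ)
  rw [slash_sq, hRγ] at h2
  rw [← slash_sq, h3, h, map_mul, h1, mul_right_comm, ← h2]

lemma mul_eq_of_mer (hM : M ≠ 0) (hF : IsF M k F) (hG : IsF M k G) (hG0 : G ≠ 0) {R W : ℍ → ℂ}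
    (hR : MDiff R) (hW : MDiff W) (h : mer W = mer R * quo F G) : W * G = R * F := by
  apply mer_inj (hW.mul hG.holo) (hR.mul hF.holo)
  rw [mer_mul hW hG.holo, mer_mul hR hF.holo, h, coe_quo hM hF hG, mul_assoc,
    div_mul_cancel₀ _ (mer_ne_zero hG.holo hG0)]

lemma exists_quo_lev (x : FF) {N : ℕ} (hN : N ≠ 0) : ∃ (M : ℕ) (k : ℤ) (F G : ℍ → ℂ),
    M ≠ 0 ∧ N ∣ M ∧ IsF M k F ∧ IsF M k G ∧ G ≠ 0 ∧ x = quo F G := by
  obtain ⟨M, k, F, G, hM, hF, hG, hG0, h⟩ := exists_quo x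
  exact ⟨M * N, k, F, G, mul_ne_zero hM hN, dvd_mul_left _ _, level_mul_left hF, level_mul_left hG,
    hG0, h⟩

lemma quo_sub_const (hM : M ≠ 0) (ha : IsF M k a) (ha0 : a ≠ 0) (hb : IsF M k b) (c : ℂ) :
    quo b a - algebraMap ℂ FF c = quo (b - c • a) a := by
  rw [quo_sub hM hb (ha.smul c) ha, quo_smul hM ha ha, quo_self hM ha ha0, mul_one]

end forms

section main

open Crest.Agent.R013.RR7_948 Crest.Agent.R013.RR8_948 Crest.Agent.R013.RR9_948
open Crest.Agent.R013.RR11_948 Crest.Agent.R013.RR20_948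

variable {K : Type*} [Field K] [Algebra ℂ K]

/-- the order at a point of `ℍ` -/
def vz (ι : K →ₐ[ℂ] FF) (z : ℍ) : Valuation K ℤᵐ⁰ :=
  (vM z).comap ((FF.val.comp ι : K →ₐ[ℂ] Mer) : K →+* Mer)

lemma vz_apply (ι : K →ₐ[ℂ] FF) (z : ℍ) (x : K) : vz ι z x = vM z (ι x : Mer) := rfl

lemma vz_const (ι : K →ₐ[ℂ] FF) (z : ℍ) (c : ℂ) (hc : c ≠ 0) : vz ι z (algebraMap ℂ K c) = 1 := by
  rw [vz_apply, AlgHom.commutes]; exact vM_const z hc

/-- the order at a cusp -/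
def vs (ι : K →ₐ[ℂ] FF) (s : SL(2, ℤ)) : Valuation K (Multiplicative (WithTop ℚ)ᵒᵈ) :=
  vI.comap ((MulSemiringAction.toRingHom SL(2, ℤ) FF s⁻¹).comp (ι : K →+* FF))

lemma vs_apply (ι : K →ₐ[ℂ] FF) (s : SL(2, ℤ)) (x : K) : vs ι s x = vI (s⁻¹ • ι x) := rfl

lemma sl_const (s : SL(2, ℤ)) (c : ℂ) : s • algebraMap ℂ FF c = algebraMap ℂ FF c :=
  smul_algebraMap_FF _ c

lemma vs_const (ι : K →ₐ[ℂ] FF) (s : SL(2, ℤ)) (c : ℂ) (hc : c ≠ 0) :
    vs ι s (algebraMap ℂ K c) = 1 := by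
  rw [vs_apply, AlgHom.commutes, sl_const]; exact vI_const hc

lemma vs_nt (ι : K →ₐ[ℂ] FF) (s : SL(2, ℤ)) (x : K) : ∃ c : ℂ, vs ι s (x - algebraMap ℂ K c) ≠ 1 := by
  obtain ⟨c, hc⟩ := exists_vI_ne (s⁻¹ • ι x)
  exact ⟨c, by rwa [vs_apply, map_sub, AlgHom.commutes, smul_sub, sl_const]⟩

lemma finrank_le_of_mer (ι : K →ₐ[ℂ] FF) {S : Submodule ℂ (ℍ → ℂ)} [Module.Finite ℂ S]
    (hS : ∀ f ∈ S, MDiff f) {w : Mer} (hw : w ≠ 0) {V : Submodule ℂ K}
    (h : ∀ x ∈ V, ∃ f ∈ S, mer f = w * ι x) : Module.finrank ℂ V ≤ Module.finrank ℂ S := by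
  choose f hf hf' using h
  let φ : V →ₗ[ℂ] S :=
    { toFun := fun x => ⟨f x x.2, hf _ _⟩
      map_add' := fun x y => Subtype.ext <| mer_inj (hS _ (hf _ _))
        ((hS _ (hf _ _)).add (hS _ (hf _ _))) <| by
          change mer (f _ _) = mer (f _ _ + f _ _)
          rw [mer_add (hS _ (hf _ _)) (hS _ (hf _ _)), hf', hf', hf', Submodule.coe_add, map_add]
          push_cast; ring
      map_smul' := fun c x => Subtype.ext <| mer_inj (hS _ (hf _ _))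
        ((hS _ (hf _ _)).const_smul c) <| by
          change mer (f _ _) = mer (c • f _ _)
          rw [mer_smul (hS _ (hf _ _)), hf', hf', Submodule.coe_smul, map_smul,
            IntermediateField.coe_smul, Algebra.smul_def, mul_left_comm] }
  refine LinearMap.finrank_le_finrank_of_injective (f := φ) fun x y hxy => ?_
  have h1 : f x x.2 = f y y.2 := congrArg Subtype.val hxy
  have h2 := hf' x x.2
  rw [h1, hf'] at h2
  exact Subtype.ext (ι.injective (Subtype.ext (mul_left_cancel₀ hw h2).symm))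

variable [Algebra (RatFunc ℂ) K] [IsScalarTower ℂ (RatFunc ℂ) K] [FiniteDimensional (RatFunc ℂ) K]

/-- the data of the dimension bound -/
structure Dat (Γ : Subgroup SL(2, ℤ)) (ι : K →ₐ[ℂ] FF) (N : ℕ) (a b : ℍ → ℂ) : Prop where
  fix : ∀ x, ∀ γ ∈ Γ, γ • ι x = ι x
  hN : N ≠ 0
  ha : IsF N 2 a
  hb : IsF N 2 b
  ne : ∀ z, a z ≠ 0
  ia : ∀ γ ∈ Γ, a ∣[(2 : ℤ)] γ = a
  ib : ∀ γ ∈ Γ, b ∣[(2 : ℤ)] γ = b
  hx : ι (xK ℂ K) = quo b a

variable {Γ : Subgroup SL(2, ℤ)} {ι : K →ₐ[ℂ] FF} {N : ℕ} {a b : ℍ → ℂ}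

namespace Dat

variable (H : Dat Γ ι N a b)
include H

omit [IsScalarTower ℂ (RatFunc ℂ) K] [FiniteDimensional (RatFunc ℂ) K] in
lemma a0 : a ≠ 0 := fun h => H.ne UpperHalfPlane.I (congrFun h _)

omit [IsScalarTower ℂ (RatFunc ℂ) K] [FiniteDimensional (RatFunc ℂ) K] in
lemma sub (c : ℂ) : ι (xK ℂ K - algebraMap ℂ K c) = quo (b - c • a) a := by
  rw [map_sub, AlgHom.commutes, H.hx, quo_sub_const H.hN H.ha H.a0 H.hb]

omit [FiniteDimensional (RatFunc ℂ) K] in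
lemma b0 (c : ℂ) : b - c • a ≠ 0 := fun h => by
  have h1 := H.sub c
  rw [(quo_eq_zero H.hN (H.hb.sub (H.ha.smul c)) H.ha H.a0).2 h, map_eq_zero] at h1
  exact xK_sub_ne c h1

omit [IsScalarTower ℂ (RatFunc ℂ) K] [FiniteDimensional (RatFunc ℂ) K] in
lemma vz_nt (z : ℍ) : ∃ c : ℂ, vz ι z (xK ℂ K - algebraMap ℂ K c) ≠ 1 := by
  refine ⟨b z / a z, ne_of_lt ?_⟩
  have hb' := H.hb.sub (H.ha.smul (b z / a z))
  rw [vz_apply, H.sub, coe_quo H.hN hb' H.ha, map_div₀, (vM_mer_eq_one H.ha.holo).2 (H.ne z), div_one,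
    vM_mer_lt_one hb'.holo]
  simp [div_mul_cancel₀ _ (H.ne z)]

theorem exists_MS {h : K} (hh : h ∈ LD (poles (k := ℂ) (xK ℂ K))) :
    ∃ f ∈ MS Γ 2, mer f = mer a * ι h := by
  have hb0 : b ≠ 0 := by simpa using H.b0 0
  obtain ⟨f, hf⟩ := exists_hol (x := mer a * ι h) fun z => by
    rcases le_of_mem_poles (vz ι z) (vz_const ι z) (H.vz_nt z) hh with h1 | h1
    · rw [map_mul]; exact mul_le_one' (vM_mer_le z H.ha.holo) h1
    · have h2 : mer a * ι h = mer b * ι (h / xK ℂ K) := by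
        rw [map_div₀, H.hx, IntermediateField.coe_div, coe_quo H.hN H.hb H.ha]
        have := mer_ne_zero H.hb.holo hb0
        have := mer_ne_zero H.ha.holo H.a0
        field_simp
      rw [h2, map_mul]; exact mul_le_one' (vM_mer_le z H.hb.holo) h1
  have hf' : mer f = mer a * ι h := (mer_coe f).trans hf.symm
  refine ⟨f, ⟨f.2, fun γ hγ => slash_of_mer (H.fix h _ (inv_mem hγ)) H.ha.holo f.2 (H.ia γ hγ) hf',
    fun s => ?_⟩, hf'⟩
  obtain ⟨M, k, F, G, hM, hNM, hF, hG, hG0, e⟩ := exists_quo_lev (ι h) H.hN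
  have ha := H.ha.mono hNM
  have hb := H.hb.mono hNM
  have h1 := congrArg (· ∣[2 + k] s) (mul_eq_of_mer hM hF hG hG0 ha.holo f.2 (e ▸ hf'))
  simp only [mul_slash_SL2] at h1
  refine bdd_of_vI hM (hF.slash_SL s) (hG.slash_SL s) (slash_ne_zero hG0 _ _) (ha.slash_SL s)
    (hb.slash_SL s) (slash_ne_zero hb0 _ _) h1 ?_
  have h2 := le_of_mem_poles (vs ι s) (vs_const ι s) (vs_nt ι s _) hh
  rwa [vs_apply, vs_apply, map_div₀, smul_div₀', H.hx, e, inv_sl_smul_quo hM hF hG,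
    inv_sl_smul_quo hM hb ha] at h2

theorem exists_CS {u : K} (hu : u ∈ LD (canD ℂ K)) :
    ∃ g ∈ CS Γ 2, mer g = mer (rc a b) / (mer a * mer a) * ι u := by
  have hma := mer_ne_zero H.ha.holo H.a0
  have hrc := mdiff_rc H.ha.holo H.hb.holo
  obtain ⟨g, hg⟩ := exists_hol (x := mer (rc a b) / (mer a * mer a) * ι u) fun z => by
    obtain ⟨c, hc⟩ := lt_of_mem_can (vz ι z) (vz_const ι z) (H.vz_nt z) hu
    have hb' := H.hb.sub (H.ha.smul c)
    have hmb := mer_ne_zero hb'.holo (H.b0 c)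
    have h2 : mer (rc a b) / (mer a * mer a) * ι u = mer (rc a (b - c • a)) /
        (mer a * mer (b - c • a)) * ι (u * (xK ℂ K - algebraMap ℂ K c)) := by
      rw [map_mul, H.sub, IntermediateField.coe_mul, coe_quo H.hN hb' H.ha, rc_sub H.ha.holo H.hb.holo]
      field_simp
    have h3 : vM z (mer (rc a (b - c • a)) / (mer a * mer (b - c • a))) ≤ exp 1 := by
      rw [map_div₀, div_le_iff₀ ((vM z).pos_iff.2 (mul_ne_zero hma hmb))]
      exact vM_rc z H.ha.holo H.a0 hb'.holo (H.b0 c)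
    rw [h2, map_mul]
    refine (mul_le_mul' h3 (show _ ≤ exp (-1) from ?_)).trans_eq (by rw [← exp_add]; rfl)
    rw [← lt_mul_exp_iff_le exp_ne_zero, ← exp_add]
    exact hc
  have hg' : mer g = mer (rc a b) / (mer a * mer a) * ι u := (mer_coe g).trans hg.symm
  have haa : MDiff ((g : ℍ → ℂ) * (a * a)) := g.2.mul (H.ha.holo.mul H.ha.holo)
  have hg2 : mer ((g : ℍ → ℂ) * (a * a)) = mer (rc a b) * ι u := by
    rw [mer_mul g.2 (H.ha.holo.mul H.ha.holo), mer_mul H.ha.holo H.ha.holo, hg']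
    field_simp
  refine ⟨g, ⟨g.2, fun γ hγ => ?_, fun s => ?_⟩, hg'⟩
  · have h1 := slash_of_mer (k := 2 + (2 + 2)) (H.fix u _ (inv_mem hγ)) hrc haa
      (by rw [rc_slash H.ha.holo H.hb.holo, H.ia γ hγ, H.ib γ hγ]) hg2
    rw [mul_slash_SL2, mul_slash_SL2, H.ia γ hγ] at h1
    funext z
    exact mul_right_cancel₀ (mul_ne_zero (H.ne z) (H.ne z)) (congrFun h1 z)
  · obtain ⟨M, k, F, G, hM, hNM, hF, hG, hG0, e⟩ := exists_quo_lev (ι u) H.hN
    obtain ⟨c, hc⟩ := lt_of_mem_can (vs ι s) (vs_const ι s) (vs_nt ι s _) hu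
    have ha := H.ha.mono hNM
    have hb := (H.hb.sub (H.ha.smul c)).mono hNM
    have h1 := congrArg (· ∣[2 + (2 + 2) + k] s) (mul_eq_of_mer hM hF hG hG0 hrc haa (e ▸ hg2))
    simp only [← rc_sub H.ha.holo H.hb.holo c, mul_slash_SL2, rc_slash ha.holo hb.holo] at h1
    refine zero_of_vI hM (hF.slash_SL s) (hG.slash_SL s) (slash_ne_zero hG0 _ _) (ha.slash_SL s)
      (slash_ne_zero H.a0 _ _) (hb.slash_SL s) (slash_ne_zero (H.b0 c) _ _) h1 ?_
    rwa [vs_apply, map_mul, smul_mul', H.sub, e, inv_sl_smul_quo hM hF hG,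
      inv_sl_smul_quo hM hb ha] at hc

omit [FiniteDimensional (RatFunc ℂ) K] in
lemma rc_ne : rc a b ≠ 0 := fun h => by
  have hu := mdiff_div H.hb.holo H.ha.holo H.ne
  have h1 := rc_mul hu H.ha.holo
  have h2 : b / a * a = b := funext fun z => div_mul_cancel₀ _ (H.ne z)
  have h3 : rc b a = -rc a b := (neg_sub _ _).symm
  rw [h2, h3, h, neg_inj] at h1
  have h4 : IsPrim (b / a) 0 := fun z => by
    have h5 := (mul_eq_zero.1 (congrFun h1 z).symm).resolve_left (pow_ne_zero 2 (H.ne z))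
    have h6 := (mul_eq_zero.1 h5).resolve_left (inv_ne_zero Complex.two_pi_I_ne_zero)
    exact (isPrim_deriv hu z).congr_deriv h6
  refine H.b0 ((b / a) UpperHalfPlane.I) (funext fun z => ?_)
  rw [← h4.const_of_zero z]
  simp [div_mul_cancel₀ _ (H.ne z)]

/-- **the dimension bound** -/
theorem dim_lower [Module.Finite ℂ (MS Γ 2)] [Module.Finite ℂ (CS Γ 2)] :
    Module.finrank (RatFunc ℂ) K + 1 ≤ Module.finrank ℂ (MS Γ 2) + Module.finrank ℂ (CS Γ 2) := by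
  have hma := mer_ne_zero H.ha.holo H.a0
  exact rr_bound.trans (add_le_add
    (finrank_le_of_mer ι (S := MS Γ 2) (fun _ h => h.1) hma fun _ h => H.exists_MS h)
    (finrank_le_of_mer ι (S := CS Γ 2) (fun _ h => h.1) (div_ne_zero (mer_ne_zero (mdiff_rc H.ha.holo H.hb.holo)
      H.rc_ne) (mul_ne_zero hma hma)) fun _ h => H.exists_CS h))

end Dat

end main

end Crest.Agent.T15.Esc
end
end

-- ▼ part T15/EscY_12

/-!
# Row 15, block T (helper12): the dimension count and the Eichler-Shimura surjectivity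
-/

set_option autoImplicit false

noncomputable section

namespace Crest.Agent.T15.EscO

open CongruenceSubgroup Module Polynomial
open scoped MatrixGroups nonZeroDivisors
open Crest.Agent.T15.Esc Crest.Agent.T15.Mf Crest.Agent.T15.Bet Crest.Agent.T15.Ig
open Crest.Agent.R013.RR8_948 Crest.Agent.R013.RR20_948

theorem card_le_finrank12 {K L I : Type} [Field K] [Field L] [Algebra ℂ K] [Algebra ℂ L]
    [Algebra (RatFunc ℂ) K] [IsScalarTower ℂ (RatFunc ℂ) K] [FiniteDimensional (RatFunc ℂ) K]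
    (φ₀ : K →ₐ[ℂ] L) (φ : I → (K →ₐ[ℂ] L)) (hi : Function.Injective φ)
    (h : ∀ i, φ i (xK ℂ K) = φ₀ (xK ℂ K)) : Nat.card I ≤ finrank (RatFunc ℂ) K := by
  let _ : Algebra (RatFunc ℂ) L := (φ₀.toRingHom.comp (algebraMap (RatFunc ℂ) K)).toAlgebra
  have key : ∀ i, (φ i).toRingHom.comp (algebraMap (RatFunc ℂ) K) =
      φ₀.toRingHom.comp (algebraMap (RatFunc ℂ) K) := fun i => by
    apply IsLocalization.ringHom_ext ℂ[X]⁰
    apply Polynomial.ringHom_ext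
    · intro c
      simp only [RingHom.comp_apply]
      rw [RatFunc.algebraMap_C, ← RatFunc.algebraMap_eq_C, ← IsScalarTower.algebraMap_apply]
      exact ((φ i).commutes c).trans (φ₀.commutes c).symm
    · simp only [RingHom.comp_apply]
      rw [RatFunc.algebraMap_X]
      exact h i
  let ψ : I → (K →ₐ[RatFunc ℂ] L) := fun i =>
    { (φ i).toRingHom with commutes' := fun r => RingHom.congr_fun (key i) r }
  refine (Nat.card_le_card_of_injective ψ fun i j e => hi ?_).trans (card_algHom_le_finrank _ _ _)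
  exact AlgHom.ext fun x => AlgHom.congr_fun e x

theorem x0_notMem : quo eh h4 ∉ Set.range (algebraMap ℂ FF) := by
  rintro ⟨c, hc⟩
  have h := tt_rel
  have hs : tt = algebraMap ℂ FF ((3 * c + 2) / 4) := by
    rw [tt, ← hc, map_div₀, map_add, map_mul, map_ofNat, map_ofNat, map_ofNat]
  generalize (3 * c + 2) / 4 = s at hs
  rw [hs] at h
  have h1 : jj * algebraMap ℂ FF (s * (s - 1)) =
      algebraMap ℂ FF (16 * (16 * (s * (s - 1)) + 1) ^ 3) := by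
    simp only [map_mul, map_sub, map_add, map_pow, map_one, map_ofNat]
    rw [jj, h]; ring
  generalize s * (s - 1) = u at h1
  by_cases hu : u = 0
  · subst hu
    rw [map_zero, mul_zero, eq_comm, map_eq_zero] at h1
    norm_num at h1
  · refine jj_notMem ⟨16 * (16 * u + 1) ^ 3 / u, ?_⟩
    rw [map_div₀, ← h1, mul_div_cancel_right₀ _ ((_root_.map_ne_zero _).2 hu)]

/-- `F Γ` without its `ℂ(j)`-structure -/
def KK (Γ : Subgroup SL(2, ℤ)) : Type := F Γ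

instance (Γ : Subgroup SL(2, ℤ)) : Field (KK Γ) := inferInstanceAs (Field (F Γ))
instance (Γ : Subgroup SL(2, ℤ)) : Algebra ℂ (KK Γ) := inferInstanceAs (Algebra ℂ (F Γ))

/-- the embedding attached to `γ` -/
def emb (Γ : Subgroup SL(2, ℤ)) (γ : SL(2, ℤ)) : KK Γ →ₐ[ℂ] FF where
  toFun x := γ • (x : F Γ).1
  map_one' := smul_one γ
  map_mul' x y := smul_mul' γ (x : F Γ).1 (y : F Γ).1
  map_zero' := smul_zero γ
  map_add' x y := smul_add γ (x : F Γ).1 (y : F Γ).1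
  commutes' c := sl_smul_algebraMap_C γ c

theorem x0_inv {γ : SL(2, ℤ)} (hγ : γ ∈ Gamma1 4) : γ • quo eh h4 = quo eh h4 := by
  rw [← inv_inv γ, inv_sl_smul_quo (by norm_num) isF_eh isF_h4, eh_slash (inv_mem hγ),
    h4_slash (inv_mem hγ)]

theorem hdim12 (Γ : Subgroup SL(2, ℤ)) (hΓ : Γ ≤ Gamma1 4) (hc : IsCongruenceSubgroup Γ)
    [Γ.FiniteIndex] [Module.Finite ℂ (MS Γ 2)] [Module.Finite ℂ (CS Γ 2)] :
    Γ.relIndex (Gamma1 4) + 1 ≤ finrank ℂ (MS Γ 2) + finrank ℂ (CS Γ 2) := by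
  let x : KK Γ := (⟨quo eh h4, fun γ hγ => x0_inv (hΓ hγ)⟩ : F Γ)
  have hx : Transcendental ℂ x := fun h => by
    have h1 : x ∈ algebraicClosure ℂ (KK Γ) := mem_algebraicClosure_iff.mpr h
    rw [IntermediateField.eq_bot_of_isAlgClosed_of_isAlgebraic (algebraicClosure ℂ (KK Γ)),
      IntermediateField.mem_bot] at h1
    obtain ⟨c, hc⟩ := h1
    exact x0_notMem ⟨c, congrArg Subtype.val hc⟩
  have hfin := @ratAlg_finite ℂ _ (KK Γ) _ _ (inferInstanceAs (Algebra (RatFunc ℂ) (F Γ)))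
    (inferInstanceAs (IsScalarTower ℂ (RatFunc ℂ) (F Γ)))
    (inferInstanceAs (FiniteDimensional (RatFunc ℂ) (F Γ))) x hx
  let _ := ratAlg x hx
  have := ratAlg_tower x hx
  have hX : xK ℂ (KK Γ) = x := ratAlg_xK x hx
  have hD : Dat Γ (emb Γ 1) 4 h4 eh :=
    ⟨fun y γ hγ => by
        change γ • (1 : SL(2, ℤ)) • (y : F Γ).1 = (1 : SL(2, ℤ)) • (y : F Γ).1
        rw [one_smul]; exact (y : F Γ).2 γ hγ,
      by norm_num, isF_h4, isF_eh, h4_ne, fun γ hγ => h4_slash (hΓ hγ),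
      fun γ hγ => eh_slash (hΓ hγ), by rw [hX]; exact one_smul _ _⟩
  refine le_trans (Nat.succ_le_succ ?_) hD.dim_lower
  refine card_le_finrank12 (emb Γ 1)
    (fun q : Gamma1 4 ⧸ Γ.subgroupOf (Gamma1 4) => emb Γ (q.out : Gamma1 4)) (fun q r e => ?_)
    fun q => ?_
  · have h1 : ((q.out : Gamma1 4) : SL(2, ℤ))⁻¹ * (r.out : Gamma1 4) ∈ pm Γ :=
      (fix_iff hc _).1 fun y hy => by
        have h2 : ((q.out : Gamma1 4) : SL(2, ℤ)) • y = ((r.out : Gamma1 4) : SL(2, ℤ)) • y :=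
          AlgHom.congr_fun e (⟨y, hy⟩ : F Γ)
        rw [mul_smul, ← h2, inv_smul_smul]
    rw [← q.out_eq, ← r.out_eq]
    refine QuotientGroup.eq.2 (Subgroup.mem_subgroupOf.2 ?_)
    rcases h1 with h1 | h1
    · exact h1
    · exfalso
      have h2 := (Gamma1_mem _ _).1 (hΓ h1)
      have h3 := (Gamma1_mem _ _).1 ((q.out)⁻¹ * r.out).2
      have h4 := h2.1
      rw [show ∀ g : SL(2, ℤ), (-g) 0 0 = -(g 0 0) from fun _ => rfl, Int.cast_neg] at h4
      have h5 := h3.1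
      rw [Subgroup.coe_mul, Subgroup.coe_inv] at h5
      rw [h5] at h4
      exact absurd h4 (by decide)
  · rw [hX]
    exact (x0_inv (q.out : Gamma1 4).2).trans (one_smul _ _).symm

/-- **Eichler-Shimura**, surjectivity -/
theorem esSurj : EsSurj := esSurj_of fun Γ h4 hc => hdim12 Γ h4 hc

end Crest.Agent.T15.EscO
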