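import Mathlib
import Crest.Agent.T15.Rk2_31
import Crest.Agent.T15.HtDef_95
import Crest.Agent.T15.MoB_29

-- ▼ part T15/Fn0_39
section

/-!
# Row 15 (helper39): constant field extension, functoriality

`hι : IsCE Ω ι` (`ι : K →ₐ[F] L`, `L` the constant field extension of `K / F` to `Ω`).
* `hom_ext`, `exists_hom`, `exists_SI`, `extSI` : maps of constant field extensions;
* `baseP_SI`, `baseP_pushP`, `baseP_conP` : compatibility with semilinear isomorphisms, norm, conorm.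
-/

set_option autoImplicit false
set_option linter.all false

namespace Crest.Agent.T15.Fn

open WithZero Module TensorProduct
open Crest.Agent.R013.RR7_948 Crest.Agent.R013.RR8_948 Crest.Agent.R013.RR9_948
open Crest.Agent.R013.RR11_948 Crest.Agent.R013.RR12_948 Crest.Agent.R013.RR13_948
open Crest.Agent.R013.RR18_948 Crest.Agent.R013.RR19_948
open Crest.Agent.R013.PicD_398 Crest.Agent.R013.Frob1_914 Crest.Agent.R013.TP_928
open Crest.Agent.R013.CE3_280 (IsCE mu mu_tmul Over plQ plQ_At conP_Over)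
open Crest.Agent.R013.CE5_280 (base base_conP base_plQ base_single degD_base)
open Crest.Agent.R013.CE9_280 (KO iota isCE xK_eq)
open Crest.Agent.R013
open Crest.Agent.T15.Wp
open Crest.Agent.T15.Rk (baseP baseP_cls baseP_SI exists_baseP degPic_baseP)

section Hom

variable {F K Ω L : Type*} [Field F] [Field K] [Algebra F K] [Field Ω] [Algebra F Ω]
  [Field L] [Algebra Ω L] [Algebra F L] [IsScalarTower F Ω L] {ι : K →ₐ[F] L}
  {F₂ K₂ Ω₂ L₂ : Type*} [Field F₂] [Field K₂] [Algebra F₂ K₂] [Field Ω₂] [Algebra F₂ Ω₂]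
  [Field L₂] [Algebra Ω₂ L₂] [Algebra F₂ L₂] [IsScalarTower F₂ Ω₂ L₂] {ι₂ : K₂ →ₐ[F₂] L₂}

/-- a subfield containing `Ω` and `ι K` is everything -/
theorem mem_of (hι : IsCE Ω ι) (S : Subfield L) (h1 : ∀ c, algebraMap Ω L c ∈ S)
    (h2 : ∀ f, ι f ∈ S) (x : L) : x ∈ S := by
  have hmu : ∀ t : Ω ⊗[F] K, mu ι t ∈ S := by
    intro t
    induction t with
    | zero => rw [map_zero]; exact zero_mem _
    | add t t' h h' => rw [map_add]; exact add_mem h h'
    | tmul c g => rw [mu_tmul]; exact mul_mem (h1 c) (h2 g)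
  obtain ⟨a, c, hc, hac⟩ := hι.frac x
  rw [(eq_div_iff (hι.ne_zero hc)).mpr hac]
  exact div_mem (hmu a) (hmu c)


theorem exists_hom (hι : IsCE Ω ι) (hι₂ : IsCE Ω₂ ι₂) (s : F →+* F₂) (hs : Function.Surjective s)
    (g : Ω →+* Ω₂) (φ : K →+* K₂) (hg : ∀ c, g (algebraMap F Ω c) = algebraMap F₂ Ω₂ (s c))
    (hφ : ∀ c, φ (algebraMap F K c) = algebraMap F₂ K₂ (s c)) :
    ∃ E : L →+* L₂, (∀ c, E (algebraMap Ω L c) = algebraMap Ω₂ L₂ (g c)) ∧
      ∀ f, E (ι f) = ι₂ (φ f) := by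
  classical
  letI : Algebra F L₂ := ((algebraMap F₂ L₂).comp s).toAlgebra
  let g' : Ω →ₐ[F] L₂ :=
    { toRingHom := (algebraMap Ω₂ L₂).comp g
      commutes' := fun c => by
        show algebraMap Ω₂ L₂ (g (algebraMap F Ω c)) = algebraMap F₂ L₂ (s c)
        rw [hg, ← IsScalarTower.algebraMap_apply] }
  let ψ : K →ₐ[F] L₂ :=
    { toRingHom := (ι₂ : K₂ →+* L₂).comp φ
      commutes' := fun c => by
        show ι₂ (φ (algebraMap F K c)) = algebraMap F₂ L₂ (s c)
        rw [hφ, AlgHom.commutes] }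
  let T : Ω ⊗[F] K →ₐ[F] L₂ := Algebra.TensorProduct.lift g' ψ (fun _ _ => Commute.all _ _)
  have hT : ∀ c f, T (c ⊗ₜ f) = algebraMap Ω₂ L₂ (g c) * ι₂ (φ f) := fun c f =>
    Algebra.TensorProduct.lift_tmul _ _ _ _ _
  have hinj : Function.Injective (T : Ω ⊗[F] K →+* L₂) := by
    rw [injective_iff_map_eq_zero]
    intro t ht
    let b := Basis.ofVectorSpace F K
    obtain ⟨c, rfl⟩ := TensorProduct.eq_repr_basis_right b t
    have hb := (b.linearIndependent.map_of_surjective_injective s φ.toAddMonoidHom hs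
      (fun m hm => by simpa using hm) (fun r m => by
        show φ (r • m) = s r • φ m
        rw [Algebra.smul_def, Algebra.smul_def, map_mul, hφ])).comp
      (fun i : c.support => (i : Basis.ofVectorSpaceIndex F K)) Subtype.val_injective
    have h3 := CE8_280.coeff_eq_zero (N := Ω₂) hb (fun i => g (c i)) (by
      apply hι₂.inj
      rw [map_zero, ← ht, map_sum, Finsupp.sum, map_sum, ← Finset.sum_coe_sort c.support]
      refine Finset.sum_congr rfl fun i _ => ?_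
      rw [mu_tmul]
      exact (hT _ _).symm)
    have h4 : c = 0 := by
      ext i
      by_contra hi
      have := congrFun h3 ⟨i, Finsupp.mem_support_iff.mpr hi⟩
      exact hi (by simpa using this)
    rw [h4, Finsupp.sum_zero_index]
  letI : Algebra (Ω ⊗[F] K) L := (mu (Ω := Ω) ι : Ω ⊗[F] K →+* L).toAlgebra
  haveI : FaithfulSMul (Ω ⊗[F] K) L := (faithfulSMul_iff_algebraMap_injective _ _).mpr hι.inj
  haveI : IsFractionRing (Ω ⊗[F] K) L := IsFractionRing.of_field _ _ fun z => by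
    obtain ⟨a, c, hc, hac⟩ := hι.frac z
    exact ⟨a, c, (eq_div_iff (hι.ne_zero hc)).mpr hac⟩
  have hl : ∀ t, IsFractionRing.lift (K := L) hinj (mu ι t) = T t := fun t =>
    IsFractionRing.lift_algebraMap hinj t
  refine ⟨IsFractionRing.lift hinj, fun c => ?_, fun f => ?_⟩
  · have := hl (c ⊗ₜ 1)
    rw [hT, mu_tmul] at this
    simpa using this
  · have := hl (1 ⊗ₜ f)
    rw [hT, mu_tmul] at this
    simpa using this

theorem exists_SI (hι : IsCE Ω ι) (hι₂ : IsCE Ω₂ ι₂) (e : SI F K F₂ K₂) (g : Ω ≃+* Ω₂)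
    (hg : ∀ c, g (algebraMap F Ω c) = algebraMap F₂ Ω₂ (e.s c)) :
    ∃ E : SI Ω L Ω₂ L₂, E.s = g ∧ ∀ f, E.f (ι f) = ι₂ (e.f f) := by
  obtain ⟨E, h1, h2⟩ := exists_hom hι hι₂ (e.s : F →+* F₂) e.s.surjective (g : Ω →+* Ω₂)
    (e.f : K →+* K₂) hg e.comm
  have hs : Function.Surjective E := fun y => by
    refine mem_of hι₂ E.fieldRange (fun c => ⟨algebraMap Ω L (g.symm c), ?_⟩)
      (fun f => ⟨ι (e.f.symm f), ?_⟩) y
    · show E _ = _
      rw [h1]; simp
    · show E _ = _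
      rw [h2]; simp
  exact ⟨⟨g, RingEquiv.ofBijective E ⟨E.injective, hs⟩, h1⟩, rfl, h2⟩

/-- the extension of `e` which is `g` on the constants -/
noncomputable def extSI (hι : IsCE Ω ι) (hι₂ : IsCE Ω₂ ι₂) (e : SI F K F₂ K₂) (g : Ω ≃+* Ω₂)
    (hg : ∀ c, g (algebraMap F Ω c) = algebraMap F₂ Ω₂ (e.s c)) : SI Ω L Ω₂ L₂ :=
  (exists_SI hι hι₂ e g hg).choose

theorem extSI_s (hι : IsCE Ω ι) (hι₂ : IsCE Ω₂ ι₂) (e : SI F K F₂ K₂) (g : Ω ≃+* Ω₂)
    (hg : ∀ c, g (algebraMap F Ω c) = algebraMap F₂ Ω₂ (e.s c)) :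
    (extSI hι hι₂ e g hg).s = g := (exists_SI hι hι₂ e g hg).choose_spec.1

theorem extSI_iota (hι : IsCE Ω ι) (hι₂ : IsCE Ω₂ ι₂) (e : SI F K F₂ K₂) (g : Ω ≃+* Ω₂)
    (hg : ∀ c, g (algebraMap F Ω c) = algebraMap F₂ Ω₂ (e.s c)) (f : K) :
    (extSI hι hι₂ e g hg).f (ι f) = ι₂ (e.f f) := (exists_SI hι hι₂ e g hg).choose_spec.2 f

theorem extSI_alg (hι : IsCE Ω ι) (hι₂ : IsCE Ω₂ ι₂) (e : SI F K F₂ K₂) (g : Ω ≃+* Ω₂)
    (hg : ∀ c, g (algebraMap F Ω c) = algebraMap F₂ Ω₂ (e.s c)) (c : Ω) :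
    (extSI hι hι₂ e g hg).f (algebraMap Ω L c) = algebraMap Ω₂ L₂ (g c) := by
  rw [SI.comm, extSI_s]


end Hom

section Pic

variable {F K Ω L : Type*} [Field F] [IsAlgClosed F] [Field K] [Algebra F K]
  [Algebra (RatFunc F) K] [IsScalarTower F (RatFunc F) K] [FiniteDimensional (RatFunc F) K]
  [Algebra.IsSeparable (RatFunc F) K]
  [Field Ω] [Algebra F Ω] [IsAlgClosed Ω]
  [Field L] [Algebra Ω L] [Algebra F L] [IsScalarTower F Ω L]
  [Algebra (RatFunc Ω) L] [IsScalarTower Ω (RatFunc Ω) L]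
  [FiniteDimensional (RatFunc Ω) L] [Algebra.IsSeparable (RatFunc Ω) L]
  {ι : K →ₐ[F] L}

section SI

variable {F₂ K₂ Ω₂ L₂ : Type*} [Field F₂] [IsAlgClosed F₂] [Field K₂] [Algebra F₂ K₂]
  [Algebra (RatFunc F₂) K₂] [IsScalarTower F₂ (RatFunc F₂) K₂]
  [FiniteDimensional (RatFunc F₂) K₂] [Algebra.IsSeparable (RatFunc F₂) K₂]
  [Field Ω₂] [Algebra F₂ Ω₂] [IsAlgClosed Ω₂]
  [Field L₂] [Algebra Ω₂ L₂] [Algebra F₂ L₂] [IsScalarTower F₂ Ω₂ L₂]
  [Algebra (RatFunc Ω₂) L₂] [IsScalarTower Ω₂ (RatFunc Ω₂) L₂]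
  [FiniteDimensional (RatFunc Ω₂) L₂] [Algebra.IsSeparable (RatFunc Ω₂) L₂]
  {ι₂ : K₂ →ₐ[F₂] L₂} {e : SI F K F₂ K₂} {E : SI Ω L Ω₂ L₂}


end SI

variable [CharZero F]

instance sepKO : Algebra.IsSeparable (RatFunc Ω) (KO F K Ω) := by
  haveI : CharZero Ω := charZero_of_injective_algebraMap (algebraMap F Ω).injective
  haveI : CharZero (RatFunc Ω) :=
    charZero_of_injective_algebraMap (algebraMap Ω (RatFunc Ω)).injective
  infer_instance


end Pic

section Tower

variable {F Y K Ω Y' K' : Type*} [Field F] [IsAlgClosed F] [Field Ω] [Algebra F Ω] [IsAlgClosed Ω]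
  [Field Y] [Algebra F Y]
  [Algebra (RatFunc F) Y] [IsScalarTower F (RatFunc F) Y] [FiniteDimensional (RatFunc F) Y]
  [Algebra.IsSeparable (RatFunc F) Y]
  [Field K] [Algebra F K]
  [Algebra (RatFunc F) K] [IsScalarTower F (RatFunc F) K] [FiniteDimensional (RatFunc F) K]
  [Algebra.IsSeparable (RatFunc F) K]
  [Algebra Y K] [IsScalarTower F Y K] [FiniteDimensional Y K] [Algebra.IsSeparable Y K]
  [Field Y'] [Algebra Ω Y'] [Algebra F Y'] [IsScalarTower F Ω Y']
  [Algebra (RatFunc Ω) Y'] [IsScalarTower Ω (RatFunc Ω) Y']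
  [FiniteDimensional (RatFunc Ω) Y'] [Algebra.IsSeparable (RatFunc Ω) Y']
  [Field K'] [Algebra Ω K'] [Algebra F K'] [IsScalarTower F Ω K']
  [Algebra (RatFunc Ω) K'] [IsScalarTower Ω (RatFunc Ω) K']
  [FiniteDimensional (RatFunc Ω) K'] [Algebra.IsSeparable (RatFunc Ω) K']
  [Algebra Y' K'] [IsScalarTower Ω Y' K'] [FiniteDimensional Y' K'] [Algebra.IsSeparable Y' K']
  {iY : Y →ₐ[F] Y'} {iK : K →ₐ[F] K'}

theorem under_conP (hY : IsCE Ω iY) (hK : IsCE Ω iK)
    (h : ∀ f, iK (algebraMap Y K f) = algebraMap Y' K' (iY f)) (Q : Pl F K) :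
    under Y' (CE3_280.conP hK Q) = CE3_280.conP hY (under Y Q) := by
  refine CE3_280.Over.unique hY ⟨fun f hf => ?_, fun f hf => ?_⟩ (conP_Over hY _)
  · rw [under_le_one_iff] at hf ⊢
    rwa [← h, (conP_Over hK Q).v_iota hK]
  · rw [under_lt_one_iff] at hf ⊢
    rwa [← h, (conP_Over hK Q).v_iota hK]

theorem eR_conP (hY : IsCE Ω iY) (hK : IsCE Ω iK)
    (h : ∀ f, iK (algebraMap Y K f) = algebraMap Y' K' (iY f)) (Q : Pl F K) :
    eR Y' (CE3_280.conP hK Q) = eR Y Q := by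
  obtain ⟨t, -, ht⟩ := exists_v_eq (under Y Q) 1
  have h1 := v_algebraMap_exp Q ht
  have h2 := v_algebraMap_exp (K := Y') (CE3_280.conP hK Q) (f := iY t) (n := 1) (by
    rw [under_conP hY hK h, (conP_Over hY _).v_iota hY, ht])
  rw [← h, (conP_Over hK Q).v_iota hK, h1, exp_inj] at h2
  omega

theorem under_plQ (hY : IsCE Ω iY) (hK : IsCE Ω iK)
    (h : ∀ f, iK (algebraMap Y K f) = algebraMap Y' K' (iY f)) (Q : K →ₐ[F] Ω) :
    under Y' (plQ hK Q) = plQ hY (Q.comp (IsScalarTower.toAlgHom F Y K)) := by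
  refine CE3_280.At.unique hY (fun f => ?_) (plQ_At hY _)
  rw [under_lt_one_iff, map_sub, ← h, ← IsScalarTower.algebraMap_apply]
  exact plQ_At hK Q _

theorem push_base (hY : IsCE Ω iY) (hK : IsCE Ω iK)
    (h : ∀ f, iK (algebraMap Y K f) = algebraMap Y' K' (iY f)) (D : Pl F K →₀ ℤ) :
    push Y' (base hK D) = base hY (push Y D) := by
  induction D using Finsupp.induction_linear with
  | zero => simp
  | add D E h1 h2 => simp only [map_add, h1, h2]
  | single P n => rw [base_single, push_single, push_single, base_single, under_conP hY hK h]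

theorem con_base (hY : IsCE Ω iY) (hK : IsCE Ω iK)
    (h : ∀ f, iK (algebraMap Y K f) = algebraMap Y' K' (iY f)) (D : Pl F Y →₀ ℤ) :
    con K' (base hY D) = base hK (con K D) := by
  ext w
  rcases CE3_280.cases hK w with ⟨P, rfl⟩ | ⟨Q, rfl⟩
  · rw [con_apply, base_conP, con_apply, eR_conP hY hK h, under_conP hY hK h, base_conP]
  · rw [con_apply, base_plQ, under_plQ hY hK h, base_plQ, mul_zero]

theorem baseP_pushP (hY : IsCE Ω iY) (hK : IsCE Ω iK)
    (h : ∀ f, iK (algebraMap Y K f) = algebraMap Y' K' (iY f)) (y : Pic F K) :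
    pushP Y' (baseP hK y) = baseP hY (pushP Y y) := by
  obtain ⟨D, rfl⟩ := cls_surjective y
  rw [baseP_cls, pushP_cls, pushP_cls, baseP_cls, push_base hY hK h]

theorem baseP_conP (hY : IsCE Ω iY) (hK : IsCE Ω iK)
    (h : ∀ f, iK (algebraMap Y K f) = algebraMap Y' K' (iY f)) (x : Pic F Y) :
    conP K' (baseP hY x) = baseP hK (conP K x) := by
  obtain ⟨D, rfl⟩ := cls_surjective x
  rw [baseP_cls, conP_cls, conP_cls, baseP_cls, con_base hY hK h]

/-- the correspondence `push ∘ r ∘ con` commutes with base change -/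
theorem baseP_corr (hY : IsCE Ω iY) (hK : IsCE Ω iK)
    (h : ∀ f, iK (algebraMap Y K f) = algebraMap Y' K' (iY f)) {r : SI F K F K}
    {r' : SI Ω K' Ω K'} (hr : ∀ f, r'.f (iK f) = iK (r.f f)) (x : Pic F Y) :
    pushP Y' (r'.pic (conP K' (baseP hY x))) = baseP hY (pushP Y (r.pic (conP K x))) := by
  rw [baseP_conP hY hK h, baseP_SI hK hK hr, baseP_pushP hY hK h]

end Tower

end Crest.Agent.T15.Fn
end

-- ▼ part T15/Fn1_39
section

/-!
# Row 15 (helper39): constant field extension, towers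

* `exists_alg`, `finite_of`, `finrank_eq`, `adjoin_top`, `adjoin_top'`, `transcendental_iota`;
* `extAut`, `pl_plQ`, `extSI_trans`;
* `algKO` : the tower `KO F Y Ω ⊆ KO F K Ω`.
-/

set_option autoImplicit false
set_option linter.all false

namespace Crest.Agent.T15.Fn

open WithZero Module TensorProduct
open Crest.Agent.R013.RR7_948 Crest.Agent.R013.RR8_948 Crest.Agent.R013.RR9_948
open Crest.Agent.R013.RR11_948 Crest.Agent.R013.RR12_948 Crest.Agent.R013.RR13_948
open Crest.Agent.R013.RR18_948 Crest.Agent.R013.RR19_948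
open Crest.Agent.R013.PicD_398 Crest.Agent.R013.Frob1_914 Crest.Agent.R013.TP_928
open Crest.Agent.R013.CE3_280 (IsCE mu mu_tmul Over plQ plQ_At conP_Over)
open Crest.Agent.R013.CE5_280 (base base_conP base_plQ base_single degD_base)
open Crest.Agent.R013.CE9_280 (KO iota isCE xK_eq)
open Crest.Agent.R013
open Crest.Agent.T15.Wp
open Crest.Agent.T15.Rk (baseP baseP_cls baseP_SI exists_baseP degPic_baseP)


section Hom

variable {F K Ω L : Type*} [Field F] [Field K] [Algebra F K] [Field Ω] [Algebra F Ω]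
  [Field L] [Algebra Ω L] [Algebra F L] [IsScalarTower F Ω L] {ι : K →ₐ[F] L}

theorem iota_notMem (hι : IsCE Ω ι) {u : K} (hu : u ∉ Set.range (algebraMap F K)) :
    ι u ∉ Set.range (algebraMap Ω L) := by
  rintro ⟨c, hc⟩
  have h2 : (1 ⊗ₜ u : Ω ⊗[F] K) = c ⊗ₜ 1 := hι.inj (by simp [hc])
  obtain ⟨φ, hφ⟩ := Projective.exists_dual_eq_one F (one_ne_zero : (1 : Ω) ≠ 0)
  have h3 := congrArg (fun t => TensorProduct.lid F K (φ.rTensor K t)) h2
  simp only [LinearMap.rTensor_tmul, TensorProduct.lid_tmul, hφ, one_smul] at h3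
  exact hu ⟨φ c, by rw [h3, Algebra.algebraMap_eq_smul_one]⟩

theorem transcendental_iota [IsAlgClosed Ω] (hι : IsCE Ω ι) {u : K} (hu : Transcendental F u) :
    Transcendental Ω (ι u) :=
  CE2_280.transcendental_of_notMem (iota_notMem hι (by
    rintro ⟨c, rfl⟩
    exact hu (isAlgebraic_algebraMap c)))

theorem adjoin_top (hι : IsCE Ω ι) {S : Set K} (h : IntermediateField.adjoin F S = ⊤) :
    IntermediateField.adjoin Ω (ι '' S) = ⊤ := by
  rw [eq_top_iff]
  intro x _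
  refine mem_of hι (IntermediateField.adjoin Ω (ι '' S)).toSubfield
    (fun c => IntermediateField.algebraMap_mem _ c) (fun f => ?_) x
  have hf : f ∈ IntermediateField.adjoin F S := by rw [h]; trivial
  have h1 : (IntermediateField.adjoin F S).map ι ≤
      (IntermediateField.adjoin Ω (ι '' S)).restrictScalars F := by
    rw [IntermediateField.adjoin_map, IntermediateField.adjoin_le_iff]
    exact IntermediateField.subset_adjoin Ω _
  exact h1 ⟨f, hf, rfl⟩

/-- the `Ω`-linear extension of an automorphism -/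
noncomputable def extAut (hι : IsCE Ω ι) (r : K ≃ₐ[F] K) : L ≃ₐ[Ω] L :=
  { (extSI hι hι ⟨RingEquiv.refl F, r.toRingEquiv, fun c => r.commutes c⟩ (RingEquiv.refl Ω)
      (fun _ => rfl)).f with
    commutes' := fun c => extSI_alg _ _ _ _ _ c }

theorem extAut_iota (hι : IsCE Ω ι) (r : K ≃ₐ[F] K) (f : K) : extAut hι r (ι f) = ι (r f) :=
  extSI_iota hι hι ⟨RingEquiv.refl F, r.toRingEquiv, fun c => r.commutes c⟩ (RingEquiv.refl Ω)
    (fun _ => rfl) f

variable {F₂ K₂ Ω₂ L₂ : Type*} [Field F₂] [Field K₂] [Algebra F₂ K₂] [Field Ω₂] [Algebra F₂ Ω₂]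
  [Field L₂] [Algebra Ω₂ L₂] [Algebra F₂ L₂] [IsScalarTower F₂ Ω₂ L₂] {ι₂ : K₂ →ₐ[F₂] L₂}



end Hom

section Pts

variable {F K Ω L : Type*} [Field F] [IsAlgClosed F] [Field K] [Algebra F K]
  [Algebra (RatFunc F) K] [IsScalarTower F (RatFunc F) K] [FiniteDimensional (RatFunc F) K]
  [Algebra.IsSeparable (RatFunc F) K]
  [Field Ω] [Algebra F Ω] [IsAlgClosed Ω]
  [Field L] [Algebra Ω L] [Algebra F L] [IsScalarTower F Ω L]
  [Algebra (RatFunc Ω) L] [IsScalarTower Ω (RatFunc Ω) L]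
  [FiniteDimensional (RatFunc Ω) L] [Algebra.IsSeparable (RatFunc Ω) L]
  {ι : K →ₐ[F] L}
  {F₂ K₂ Ω₂ L₂ : Type*} [Field F₂] [IsAlgClosed F₂] [Field K₂] [Algebra F₂ K₂]
  [Algebra (RatFunc F₂) K₂] [IsScalarTower F₂ (RatFunc F₂) K₂]
  [FiniteDimensional (RatFunc F₂) K₂] [Algebra.IsSeparable (RatFunc F₂) K₂]
  [Field Ω₂] [Algebra F₂ Ω₂] [IsAlgClosed Ω₂]
  [Field L₂] [Algebra Ω₂ L₂] [Algebra F₂ L₂] [IsScalarTower F₂ Ω₂ L₂]
  [Algebra (RatFunc Ω₂) L₂] [IsScalarTower Ω₂ (RatFunc Ω₂) L₂]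
  [FiniteDimensional (RatFunc Ω₂) L₂] [Algebra.IsSeparable (RatFunc Ω₂) L₂]
  {ι₂ : K₂ →ₐ[F₂] L₂} {e : SI F K F₂ K₂} {E : SI Ω L Ω₂ L₂}


end Pts

section Tower

variable {F Y K Ω Y' K' : Type*} [Field F] [Field Ω] [Algebra F Ω]
  [Field Y] [Algebra F Y] [Field K] [Algebra F K] [Algebra Y K] [IsScalarTower F Y K]
  [Field Y'] [Algebra Ω Y'] [Algebra F Y'] [IsScalarTower F Ω Y']
  [Field K'] [Algebra Ω K'] [Algebra F K'] [IsScalarTower F Ω K']
  {iY : Y →ₐ[F] Y'} {iK : K →ₐ[F] K'}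

theorem exists_alg (hY : IsCE Ω iY) (hK : IsCE Ω iK) :
    ∃ β : Y' →ₐ[Ω] K', ∀ f, iK (algebraMap Y K f) = β (iY f) := by
  obtain ⟨E, h1, h2⟩ := exists_hom hY hK (RingHom.id F) Function.surjective_id (RingHom.id Ω)
    (algebraMap Y K) (fun _ => rfl) (fun c => (IsScalarTower.algebraMap_apply F Y K c).symm)
  exact ⟨⟨E, h1⟩, fun f => (h2 f).symm⟩

variable [Algebra Y' K'] [IsScalarTower Ω Y' K']

theorem adjoin_top' (hK : IsCE Ω iK) (h : ∀ f, iK (algebraMap Y K f) = algebraMap Y' K' (iY f))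
    {S : Set K} (hS : IntermediateField.adjoin Y S = ⊤) :
    IntermediateField.adjoin Y' (iK '' S) = ⊤ := by
  rw [eq_top_iff]
  intro x _
  refine mem_of hK (IntermediateField.adjoin Y' (iK '' S)).toSubfield (fun c => ?_) (fun f => ?_) x
  · rw [IsScalarTower.algebraMap_apply Ω Y' K']
    exact IntermediateField.algebraMap_mem _ _
  · have hf : f ∈ IntermediateField.adjoin Y S := by rw [hS]; trivial
    have h1 : (IntermediateField.adjoin Y S).toSubfield ≤
        (IntermediateField.adjoin Y' (iK '' S)).toSubfield.comap (iK : K →+* K') := by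
      rw [IntermediateField.adjoin_toSubfield, Subfield.closure_le]
      rintro y (⟨c, rfl⟩ | hy)
      · show iK (algebraMap Y K c) ∈ IntermediateField.adjoin Y' (iK '' S)
        rw [h]
        exact IntermediateField.algebraMap_mem _ _
      · exact IntermediateField.subset_adjoin Y' _ ⟨y, hy, rfl⟩
    exact h1 hf

theorem finite_of [FiniteDimensional Y K] (hK : IsCE Ω iK)
    (h : ∀ f, iK (algebraMap Y K f) = algebraMap Y' K' (iY f)) : FiniteDimensional Y' K' := by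
  let b := Module.finBasis Y K
  have h1 : IntermediateField.adjoin Y (Set.range b) = ⊤ := by
    rw [eq_top_iff]
    intro f _
    rw [← b.sum_repr f]
    exact sum_mem fun i _ => IntermediateField.smul_mem _
      (IntermediateField.subset_adjoin _ _ (Set.mem_range_self i))
  haveI := ((Set.finite_range b).image iK).to_subtype
  have h2 : FiniteDimensional Y' (IntermediateField.adjoin Y' (iK '' Set.range b)) :=
    IntermediateField.finiteDimensional_adjoin (by
      rintro _ ⟨f, -, rfl⟩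
      exact (Algebra.IsIntegral.isIntegral (R := Y) f).map_of_comp_eq (iY : Y →+* Y')
        (iK : K →+* K') (RingHom.ext fun c => (h c).symm))
  rw [adjoin_top' hK h h1] at h2
  exact (IntermediateField.topEquiv (F := Y') (E := K')).toLinearEquiv.finiteDimensional

theorem finrank_eq [IsAlgClosed F] [IsAlgClosed Ω]
    [Algebra (RatFunc F) Y] [IsScalarTower F (RatFunc F) Y] [FiniteDimensional (RatFunc F) Y]
    [Algebra.IsSeparable (RatFunc F) Y]
    [Algebra (RatFunc F) K] [IsScalarTower F (RatFunc F) K] [FiniteDimensional (RatFunc F) K]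
    [Algebra.IsSeparable (RatFunc F) K] [FiniteDimensional Y K] [Algebra.IsSeparable Y K]
    [Algebra (RatFunc Ω) Y'] [IsScalarTower Ω (RatFunc Ω) Y']
    [FiniteDimensional (RatFunc Ω) Y'] [Algebra.IsSeparable (RatFunc Ω) Y']
    [Algebra (RatFunc Ω) K'] [IsScalarTower Ω (RatFunc Ω) K']
    [FiniteDimensional (RatFunc Ω) K'] [Algebra.IsSeparable (RatFunc Ω) K']
    [FiniteDimensional Y' K'] [Algebra.IsSeparable Y' K'] (hY : IsCE Ω iY) (hK : IsCE Ω iK)
    (h : ∀ f, iK (algebraMap Y K f) = algebraMap Y' K' (iY f)) : finrank Y' K' = finrank Y K := by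
  obtain ⟨P, -⟩ := RR12_948.exists_notMem (∅ : Finset (Pl F Y))
  have h1 := congrArg degPic (baseP_conP hY hK h (cls (Finsupp.single P 1)))
  rw [Rk.degPic_conP, degPic_baseP, degPic_baseP, Rk.degPic_conP, degPic_cls, degD_single,
    CE5_280.degP_eq_one] at h1
  simpa using h1

end Tower

section KOT

variable (F Y K Ω : Type*) [Field F] [IsAlgClosed F] [Field Ω] [Algebra F Ω]
  [Field Y] [Algebra F Y] [Field K] [Algebra F K] [Algebra Y K] [IsScalarTower F Y K]

/-- the tower `Y_Ω ⊆ K_Ω` -/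
@[reducible] noncomputable def algKO : Algebra (KO F Y Ω) (KO F K Ω) :=
  ((exists_alg (isCE F Y Ω) (isCE F K Ω)).choose : KO F Y Ω →+* KO F K Ω).toAlgebra

theorem towerKO : letI := algKO F Y K Ω; IsScalarTower Ω (KO F Y Ω) (KO F K Ω) :=
  letI := algKO F Y K Ω
  IsScalarTower.of_algebraMap_eq fun c =>
    ((exists_alg (isCE F Y Ω) (isCE F K Ω)).choose.commutes c).symm

theorem iota_alg (f : Y) : letI := algKO F Y K Ω
    iota F K Ω (algebraMap Y K f) = algebraMap (KO F Y Ω) (KO F K Ω) (iota F Y Ω f) :=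
  (exists_alg (isCE F Y Ω) (isCE F K Ω)).choose_spec f

theorem finiteKO [FiniteDimensional Y K] :
    letI := algKO F Y K Ω; FiniteDimensional (KO F Y Ω) (KO F K Ω) :=
  letI := algKO F Y K Ω
  haveI := towerKO F Y K Ω
  finite_of (isCE F K Ω) (iota_alg F Y K Ω)

end KOT

end Crest.Agent.T15.Fn
end

-- ▼ part T15/Fn2_39

/-!
# Row 15 (helper39): base change of the model `Ht.Mdl`

`M.bc Ω`, `M.iY Ω`, `M.iK Ω`, `M.bp Ω : Pic C M.Y →+ Pic Ω (M.bc Ω).Y`, `bc_j`, `M.ext`.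
-/

set_option autoImplicit false
set_option linter.all false

noncomputable section

namespace Crest.Agent.T15.Ht

open Module
open Crest.Agent.R013.PicD_398 Crest.Agent.R013.Frob1_914
open Crest.Agent.R013.CE3_280 (IsCE)
open Crest.Agent.R013.CE9_280 (KO iota isCE xK_eq)
open Crest.Agent.T15.Mo (Par Eqs)
open Crest.Agent.T15.Fn
open Crest.Agent.T15.Rk (baseP baseP_SI exists_baseP baseP_injective)

section alg

variable {R S : Type*} [Field R] [Field S]

theorem par_map_map {T : Type*} [Field T] (P : Par R) (f : R →+* S) (g : S →+* T) :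
    (P.map f).map g = P.map (g.comp f) := rfl

theorem eqs_map {P : Par R} {A B2 u : R} (h : Eqs P A B2 u) (f : R →+* S) :
    Eqs (P.map f) (f A) (f B2) (f u) where
  two := by rw [← map_ofNat f 2]; exact (map_ne_zero f).mpr h.two
  k0 := by simpa [map_ofNat] using congrArg f h.k0
  cub := by simpa [map_ofNat, Par.Xc, Mo.map_V] using congrArg f h.cub
  n3 := by simpa using (map_ne_zero f).mpr h.n3
  n2 := by simpa using (map_ne_zero f).mpr h.n2

theorem map_xu (P : Par R) (A B u : R) (f : R →+* S) :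
    f (xu P A B u) = xu (P.map f) (f A) (f B) (f u) := by
  simp [xu, Mo.map_V', Mo.map_R', map_ofNat]

end alg

namespace Mdl

variable {C : Type} [Field C] [IsAlgClosed C] [CharZero C] {P : Par C} (M : Mdl P)
  (Ω : Type) [Field Ω] [IsAlgClosed Ω] [Algebra C Ω]

theorem par_iota (Y : Type) [Field Y] [Algebra C Y] :
    (P.map (algebraMap C Ω)).map (algebraMap Ω (KO C Y Ω)) =
      (P.map (algebraMap C Y)).map (iota C Y Ω : Y →+* KO C Y Ω) := by
  rw [par_map_map, par_map_map]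
  congr 1
  ext c
  exact ((iota C Y Ω).commutes c).symm

/-- base change of a model -/
def bc : Mdl (P.map (algebraMap C Ω)) :=
  letI := algKO C M.Y M.K Ω
  haveI := towerKO C M.Y M.K Ω
  haveI := finiteKO C M.Y M.K Ω
  have h := iota_alg C M.Y M.K Ω
  { Y := KO C M.Y Ω
    K := KO C M.K Ω
    A := iota C M.Y Ω M.A
    B2 := iota C M.Y Ω M.B2
    u := iota C M.Y Ω M.u
    B := iota C M.K Ω M.B
    eqs := by rw [par_iota]; exact eqs_map M.eqs _
    tr := Fn.transcendental_iota (isCE C M.Y Ω) M.tr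
    gen := by
      have := adjoin_top (isCE C M.Y Ω) M.gen
      rwa [Set.image_insert_eq, Set.image_insert_eq, Set.image_singleton] at this
    hB := by rw [← map_pow, M.hB, h]
    genK := by
      have := adjoin_top' (isCE C M.K Ω) h M.genK
      rwa [Set.image_singleton] at this
    nB := by
      intro hB
      have h1 := adjoin_top' (isCE C M.K Ω) h M.genK
      rw [Set.image_singleton, IntermediateField.adjoin_simple_eq_bot_iff.mpr hB,
        IntermediateField.bot_eq_top_iff_finrank_eq_one,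
        finrank_eq (isCE C M.Y Ω) (isCE C M.K Ω) h,
        ← IntermediateField.bot_eq_top_iff_finrank_eq_one] at h1
      have h2 : M.B ∈ (⊥ : IntermediateField M.Y M.K) := by rw [h1]; trivial
      exact M.nB h2
    r := extAut (isCE C M.K Ω) M.r
    rA := by rw [← h, extAut_iota, M.rA, map_neg]
    rB := by rw [extAut_iota, M.rB, h]
    ru := by
      rw [← h, ← h, extAut_iota, M.ru, par_iota]
      exact map_xu _ _ _ _ (iota C M.K Ω : M.K →+* KO C M.K Ω) }

instance : Algebra C (M.bc Ω).Y := inferInstanceAs (Algebra C (KO C M.Y Ω))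
instance : Algebra C (M.bc Ω).K := inferInstanceAs (Algebra C (KO C M.K Ω))
instance : IsScalarTower C Ω (M.bc Ω).Y := inferInstanceAs (IsScalarTower C Ω (KO C M.Y Ω))
instance : IsScalarTower C Ω (M.bc Ω).K := inferInstanceAs (IsScalarTower C Ω (KO C M.K Ω))

/-- the embedding of `Y` -/
def iY : M.Y →ₐ[C] (M.bc Ω).Y := iota C M.Y Ω
/-- the embedding of `K` -/
def iK : M.K →ₐ[C] (M.bc Ω).K := iota C M.K Ω

theorem ceY : IsCE Ω (M.iY Ω) := isCE C M.Y Ω
theorem ceK : IsCE Ω (M.iK Ω) := isCE C M.K Ω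
theorem xY : R013.RR8_948.xK Ω (M.bc Ω).Y = M.iY Ω (R013.RR8_948.xK C M.Y) := xK_eq C M.Y Ω

theorem iK_alg (f : M.Y) :
    M.iK Ω (algebraMap M.Y M.K f) = algebraMap (M.bc Ω).Y (M.bc Ω).K (M.iY Ω f) :=
  iota_alg C M.Y M.K Ω f

theorem bc_A : (M.bc Ω).A = M.iY Ω M.A := rfl
theorem bc_B2 : (M.bc Ω).B2 = M.iY Ω M.B2 := rfl
theorem bc_u : (M.bc Ω).u = M.iY Ω M.u := rfl
theorem bc_r (f : M.K) : (M.bc Ω).r (M.iK Ω f) = M.iK Ω (M.r f) :=
  extAut_iota (isCE C M.K Ω) M.r f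

theorem bc_z : (M.bc Ω).z = M.iY Ω M.z := by
  have := Mo.map_z (iota C M.Y Ω : M.Y →+* KO C M.Y Ω) (P.map (algebraMap C M.Y)) M.A M.B2 M.u
  rw [← par_iota] at this
  exact this.symm

theorem bc_w : (M.bc Ω).w = M.iY Ω M.w := by
  have := Mo.map_w (iota C M.Y Ω : M.Y →+* KO C M.Y Ω) (P.map (algebraMap C M.Y)) M.A M.B2 M.u
  rw [← par_iota] at this
  exact this.symm

/-- base change of classes -/
def bp : Pic C M.Y →+ Pic Ω (M.bc Ω).Y := baseP (M.ceY Ω)


theorem exists_bp {n : ℕ} (hn : n ≠ 0) {y : Pic Ω (M.bc Ω).Y} (hy : n • y = 0) :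
    ∃ x : Pic C M.Y, n • x = 0 ∧ M.bp Ω x = y := exists_baseP _ hn hy

/-- `j` commutes with base change -/
theorem bc_j (x : Pic C M.Y) : (M.bc Ω).j (M.bp Ω x) = M.bp Ω (M.j x) :=
  baseP_corr (M.ceY Ω) (M.ceK Ω) (M.iK_alg Ω) (r := M.rS) (r' := (M.bc Ω).rS) (M.bc_r Ω) x


variable {Ω}

/-- the extension of `e` which is `g` on the constants -/
def ext (e : SI C M.Y C M.Y) (g : Ω ≃+* Ω)
    (hg : ∀ c, g (algebraMap C Ω c) = algebraMap C Ω (e.s c)) : SI Ω (M.bc Ω).Y Ω (M.bc Ω).Y :=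
  extSI (M.ceY Ω) (M.ceY Ω) e g hg

variable {M} {e : SI C M.Y C M.Y} {g : Ω ≃+* Ω}
  (hg : ∀ c, g (algebraMap C Ω c) = algebraMap C Ω (e.s c))

theorem ext_s : (M.ext e g hg).s = g := extSI_s _ _ _ _ _

theorem ext_iY (f : M.Y) : (M.ext e g hg).f (M.iY Ω f) = M.iY Ω (e.f f) := extSI_iota _ _ _ _ _ f

theorem ext_pic (x : Pic C M.Y) : (M.ext e g hg).pic (M.bp Ω x) = M.bp Ω (e.pic x) :=
  baseP_SI _ _ (ext_iY hg) x

theorem Fx.ext (h : M.Fx e) : (M.bc Ω).Fx (M.ext e g hg) :=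
  ⟨by rw [bc_A, ext_iY, h.1], by rw [bc_B2, ext_iY, h.2.1], by rw [bc_u, ext_iY, h.2.2.1],
    by rw [ext_s, Par.map_p1, hg, h.2.2.2.1], by rw [ext_s, Par.map_p2, hg, h.2.2.2.2.1],
    by rw [ext_s, Par.map_t, hg, h.2.2.2.2.2]⟩


omit hg

variable {E : SI Ω (M.bc Ω).Y Ω (M.bc Ω).Y}



end Mdl

end Crest.Agent.T15.Ht
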