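import Crest.Agent.T15.HonA_54

/-!
# Row 15, block Ht (helper74): arcs, logarithms, the functional equation lemma for `Sol`
-/

set_option autoImplicit false
set_option linter.all false

noncomputable section

namespace Crest.Agent.T15.Hon

open scoped NNReal PowerSeries
open PowerSeries

variable {K0 : Type*} [Field K0] {v0 : Valuation K0 ℝ≥0}

/-! ## integral series -/

theorem PI.aeval {f : K0⟦X⟧} (h : PI v0 1 f) {F : Polynomial K0} (hF : ∀ n, v0 (F.coeff n) ≤ 1) :
    PI v0 1 (Polynomial.aeval f F) := by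
  rw [Polynomial.aeval_eq_sum_range]
  refine PI.sum _ fun i _ => ?_
  rw [smul_eq_C_mul]
  exact (PI.const_le (hF i)).mul_right (h.pow i)

theorem PI.trunc {c : ℝ≥0} {f : K0⟦X⟧} {N : ℕ} (h : ∀ n < N, v0 (coeff n f) ≤ c) :
    PI v0 c (trunc N f : K0⟦X⟧) := fun n => by
  rw [Polynomial.coeff_coe, coeff_trunc]
  split_ifs with hn
  · exact h n hn
  · simp

theorem coeff_X_pow_mul_self (r : K0⟦X⟧) (N : ℕ) : coeff N (X ^ N * r) = constantCoeff r := by
  rw [coeff_X_pow_mul', if_pos le_rfl, Nat.sub_self, coeff_zero_eq_constantCoeff_apply]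

theorem sub_trunc (f : K0⟦X⟧) (N : ℕ) :
    ∃ r : K0⟦X⟧, f - (trunc N f : K0⟦X⟧) = X ^ N * r ∧ constantCoeff r = coeff N f := by
  have : (X : K0⟦X⟧) ^ N ∣ f - (trunc N f : K0⟦X⟧) := X_pow_dvd_iff.2 fun m hm => by
    simp [Polynomial.coeff_coe, coeff_trunc, hm]
  obtain ⟨r, hr⟩ := this
  refine ⟨r, hr, ?_⟩
  have e := congrArg (coeff N) hr
  rw [coeff_X_pow_mul_self] at e
  rw [← e]
  simp [Polynomial.coeff_coe, coeff_trunc]

/-- division by a unit of the integral series -/
theorem PI.of_mul {c : ℝ≥0} {f w : K0⟦X⟧} (h : PI v0 c (f * w)) (hw : PI v0 1 w)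
    (h0 : v0 (constantCoeff w) = 1) : PI v0 c f := by
  intro n
  induction n using Nat.strong_induction_on with
  | _ n ih =>
    obtain ⟨r, hr, hc⟩ := sub_trunc f n
    have h1 := (h.sub ((PI.trunc ih).mul_right hw)) n
    rw [← sub_mul, hr, mul_assoc, coeff_X_pow_mul_self, map_mul, map_mul, h0, mul_one, hc] at h1
    exact h1

theorem PI.inv {w : K0⟦X⟧} (hw : PI v0 1 w) (h0 : v0 (constantCoeff w) = 1) : PI v0 1 w⁻¹ := by
  have : constantCoeff w ≠ 0 := fun h => by simp [h] at h0
  exact PI.of_mul (by rw [PowerSeries.inv_mul_cancel w this]; exact PI.one) hw h0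

/-- square roots -/
theorem PI.of_sq {w : K0⟦X⟧} (h : PI v0 1 (w ^ 2)) (h2 : v0 2 = 1)
    (h0 : v0 (constantCoeff w) = 1) : PI v0 1 w := by
  intro n
  induction n using Nat.strong_induction_on with
  | _ n ih =>
    rcases Nat.eq_zero_or_pos n with rfl | hn
    · simpa using h0.le
    obtain ⟨r, hr, hc⟩ := sub_trunc w n
    have h1 := (h.sub ((PI.trunc ih).pow 2)) n
    have e : constantCoeff (PowerSeries.trunc n w : K0⟦X⟧) = constantCoeff w := by
      rw [← coeff_zero_eq_constantCoeff_apply, Polynomial.coeff_coe, coeff_trunc, if_pos hn,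
        coeff_zero_eq_constantCoeff_apply]
    rw [sq_sub_sq, hr, mul_left_comm, coeff_X_pow_mul_self, map_mul, map_add, e, ← two_mul, map_mul,
      map_mul, h2, h0, one_mul, one_mul, hc] at h1
    exact h1

theorem PI.derivative {c : ℝ≥0} {f : K0⟦X⟧} (h : PI v0 c f) : PI v0 c (derivative K0 f) :=
  fun n => by
    rw [coeff_derivative, map_mul]
    have := v_natCast_le v0 (n + 1)
    push_cast at this
    simpa using mul_le_mul' (h (n + 1)) this

theorem LI.of_derivative {f : K0⟦X⟧} (h : PI v0 1 (derivative K0 f)) : LI v0 f := fun n => by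
  cases n with
  | zero => simp
  | succ n =>
    have := h n
    rw [coeff_derivative, mul_comm] at this
    push_cast
    exact this

/-! ## algebraic series -/

theorem algebraMap_poly (f : Polynomial K0) : algebraMap (Polynomial K0) K0⟦X⟧ f = f := by
  change Polynomial.coeToPowerSeries.algHom K0 f = f
  simp

theorem isAlgebraic_coe (f : Polynomial K0) : IsAlgebraic (Polynomial K0) (f : K0⟦X⟧) := by
  rw [← algebraMap_poly]; exact isAlgebraic_algebraMap f

namespace AI

variable {f g : K0⟦X⟧}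

theorem add (h : AI v0 f) (h' : AI v0 g) : AI v0 (f + g) := ⟨h.1.add h'.1, h.2.add h'.2⟩
theorem mul (h : AI v0 f) (h' : AI v0 g) : AI v0 (f * g) := ⟨h.1.mul_left h'.1, h.2.mul h'.2⟩
theorem neg (h : AI v0 f) : AI v0 (-f) := ⟨h.1.neg, h.2.neg⟩
theorem sub (h : AI v0 f) (h' : AI v0 g) : AI v0 (f - g) := ⟨h.1.sub h'.1, h.2.sub h'.2⟩
theorem const {a : K0} (h : v0 a ≤ 1) : AI v0 (C a) :=
  ⟨PI.const_le h, by simpa using isAlgebraic_coe (Polynomial.C a)⟩
theorem zero : AI v0 (0 : K0⟦X⟧) := ⟨PI.zero 1, isAlgebraic_zero⟩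
theorem one : AI v0 (1 : K0⟦X⟧) := ⟨PI.one, isAlgebraic_one⟩
theorem X' : AI v0 (X : K0⟦X⟧) := ⟨PI.X', by simpa using isAlgebraic_coe (K0 := K0) Polynomial.X⟩
theorem pow (h : AI v0 f) (n : ℕ) : AI v0 (f ^ n) := ⟨h.1.pow n, h.2.pow n⟩

theorem sum {ι : Type*} (s : Finset ι) {f : ι → K0⟦X⟧} (h : ∀ i ∈ s, AI v0 (f i)) :
    AI v0 (∑ i ∈ s, f i) :=
  Finset.sum_induction f (AI v0) (fun _ _ => add) zero h

theorem inv (h : AI v0 f) (h0 : v0 (constantCoeff f) = 1) : AI v0 f⁻¹ := by
  have h1 : constantCoeff f ≠ 0 := fun h => by simp [h] at h0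
  letI : Invertible f := ⟨f⁻¹, PowerSeries.inv_mul_cancel f h1, PowerSeries.mul_inv_cancel f h1⟩
  exact ⟨h.1.inv h0, h.2.invOf⟩

end AI

/-! ## substitution as an algebra map -/

/-- substitution of a series without constant term -/
def sb (u : K0⟦X⟧) (hu : constantCoeff u = 0) : K0⟦X⟧ →ₐ[K0] K0⟦X⟧ :=
  substAlgHom (HasSubst.of_constantCoeff_zero' hu)

theorem sb_apply {u : K0⟦X⟧} (hu : constantCoeff u = 0) (f : K0⟦X⟧) : sb u hu f = f.subst u := by
  rw [sb, coe_substAlgHom]

theorem sb_X {u : K0⟦X⟧} (hu : constantCoeff u = 0) : sb u hu X = u := substAlgHom_X _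

theorem sb_C {u : K0⟦X⟧} (hu : constantCoeff u = 0) (a : K0) : sb u hu (C a) = C a :=
  (sb u hu).commutes a

theorem constantCoeff_sb {u : K0⟦X⟧} (hu : constantCoeff u = 0) (f : K0⟦X⟧) :
    constantCoeff (sb u hu f) = constantCoeff f := by
  conv_lhs => rw [eq_X_mul_shift_add_const f]
  rw [map_add, map_mul, sb_X, sb_C]
  simp [hu]

theorem derivative_sb {u : K0⟦X⟧} (hu : constantCoeff u = 0) (f : K0⟦X⟧) :
    derivative K0 (sb u hu f) = sb u hu (derivative K0 f) * derivative K0 u := by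
  rw [sb_apply, sb_apply]
  exact derivative_subst (HasSubst.of_constantCoeff_zero' hu)

theorem constantCoeff_aeval (f : K0⟦X⟧) (F : Polynomial K0) :
    constantCoeff (Polynomial.aeval f F) = F.eval (constantCoeff f) := by
  induction F using Polynomial.induction_on' with
  | add p q hp hq => simp [hp, hq]
  | monomial n a => simp [Polynomial.aeval_monomial, ← C_eq_algebraMap]

theorem eq_of_sq_eq {w w' : K0⟦X⟧} (h2 : (2 : K0) ≠ 0) (h : w ^ 2 = w' ^ 2)
    (h0 : constantCoeff w = constantCoeff w') (hb : constantCoeff w ≠ 0) : w = w' := by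
  rcases sq_eq_sq_iff_eq_or_eq_neg.1 h with h | h
  · exact h
  · exfalso
    have := congrArg constantCoeff h
    rw [map_neg, ← h0, eq_neg_iff_add_eq_zero, ← two_mul] at this
    exact mul_ne_zero h2 hb this

/-! ## the arc through a point and its logarithms -/

theorem exists_sqrt (h2 : (2 : K0) ≠ 0) {f : K0⟦X⟧} {b : K0} (hb : b ≠ 0)
    (h : b ^ 2 = constantCoeff f) : ∃ w : K0⟦X⟧, w ^ 2 = f ∧ constantCoeff w = b := by
  have hm : (Polynomial.X ^ 2 - Polynomial.C f).Monic := Polynomial.monic_X_pow_sub_C f two_ne_zero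
  obtain ⟨w, h1, h0⟩ := HenselianRing.is_henselian (I := Ideal.span {(X : K0⟦X⟧)}) _ hm (C b)
    (by rw [Ideal.mem_span_singleton, X_dvd_iff]; simp [h])
    (IsUnit.map _ (by
      rw [isUnit_iff_constantCoeff]
      have : (1 : K0) + 1 ≠ 0 := by rwa [one_add_one_eq_two]
      simpa using ⟨this, hb⟩))
  rw [Ideal.mem_span_singleton, X_dvd_iff] at h0
  exact ⟨w, sub_eq_zero.1 (by simpa using h1), by simpa [sub_eq_zero] using h0⟩

open Classical in
/-- the branch `w(a + t)` through `(a, b)` -/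
def wt (F : Polynomial K0) (a b : K0) : K0⟦X⟧ :=
  if h : ∃ w : K0⟦X⟧, w ^ 2 = Polynomial.aeval (C a + X : K0⟦X⟧) F ∧ constantCoeff w = b then
    h.choose else 0

/-- the primitive without constant term -/
def prim (f : K0⟦X⟧) : K0⟦X⟧ := mk fun n => coeff (n - 1) f / n

/-- `∫ z ^ m dz / w` along the branch through `(a, b)` -/
def lg (F : Polynomial K0) (a b : K0) (m : ℕ) : K0⟦X⟧ := prim ((C a + X) ^ m * (wt F a b)⁻¹)

/-- the logarithms in the basis given by `N` -/
def lgN {g : ℕ} (N : Fin g → Fin g → K0) (F : Polynomial K0) (a b : K0) (m : Fin g) : K0⟦X⟧ :=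
  ∑ k, C (N m k) * lg F a b k

theorem constantCoeff_prim (f : K0⟦X⟧) : constantCoeff (prim f) = 0 := by
  rw [← coeff_zero_eq_constantCoeff_apply]; simp [prim]

theorem derivative_prim [CharZero K0] (f : K0⟦X⟧) : derivative K0 (prim f) = f := by
  ext n
  have : (n : K0) + 1 ≠ 0 := by exact_mod_cast n.succ_ne_zero
  simp [coeff_derivative, prim, this]

section arc

variable {F : Polynomial K0} {a b : K0}

theorem wt_spec (h2 : (2 : K0) ≠ 0) (hb : b ≠ 0) (h : b ^ 2 = F.eval a) :
    wt F a b ^ 2 = Polynomial.aeval (C a + X : K0⟦X⟧) F ∧ constantCoeff (wt F a b) = b := by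
  have : ∃ w : K0⟦X⟧, w ^ 2 = Polynomial.aeval (C a + X : K0⟦X⟧) F ∧ constantCoeff w = b :=
    exists_sqrt h2 hb (by simp [constantCoeff_aeval, h])
  rw [wt, dif_pos this]
  exact this.choose_spec


theorem constantCoeff_lg (m : ℕ) : constantCoeff (lg F a b m) = 0 := constantCoeff_prim _

theorem derivative_lg [CharZero K0] (m : ℕ) :
    derivative K0 (lg F a b m) = (C a + X) ^ m * (wt F a b)⁻¹ := derivative_prim _

theorem derivative_lg_mul [CharZero K0] (hb : b ≠ 0) (h : b ^ 2 = F.eval a) (m : ℕ) :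
    derivative K0 (lg F a b m) * wt F a b = (C a + X) ^ m := by
  rw [derivative_lg, mul_assoc, PowerSeries.inv_mul_cancel, mul_one]
  rw [(wt_spec two_ne_zero hb h).2]; exact hb

theorem coeff_one_lg [CharZero K0] (hb : b ≠ 0) (h : b ^ 2 = F.eval a) (m : ℕ) :
    coeff 1 (lg F a b m) = a ^ m / b := by
  simp [lg, prim, constantCoeff_inv, (wt_spec two_ne_zero hb h).2, div_eq_mul_inv]

theorem constantCoeff_lgN {g : ℕ} (N : Fin g → Fin g → K0) (m : Fin g) :
    constantCoeff (lgN N F a b m) = 0 := by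
  simp [lgN, constantCoeff_lg]

theorem derivative_lgN [CharZero K0] {g : ℕ} (N : Fin g → Fin g → K0) (m : Fin g) :
    derivative K0 (lgN N F a b m) = (∑ k, C (N m k) * (C a + X) ^ (k : ℕ)) * (wt F a b)⁻¹ := by
  simp only [lgN, map_sum, ← smul_eq_C_mul, Derivation.map_smul, derivative_lg, Finset.sum_mul,
    smul_mul_assoc]

/-- an integral point with `2 b` a unit on an integral model -/
structure GdP (v0 : Valuation K0 ℝ≥0) (F : Polynomial K0) (a b : K0) : Prop where
  two : v0 2 = 1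
  cF : ∀ n, v0 (F.coeff n) ≤ 1
  va : v0 a ≤ 1
  vb : v0 b = 1
  on : b ^ 2 = F.eval a

namespace GdP

theorem two_ne (h : GdP v0 F a b) : (2 : K0) ≠ 0 := fun e => by have := h.two; simp [e] at this

theorem b_ne (h : GdP v0 F a b) : b ≠ 0 := fun e => by have := h.vb; simp [e] at this

theorem ai_x (h : GdP v0 F a b) : AI v0 (C a + X) := (AI.const h.va).add AI.X'

theorem v_wt (h : GdP v0 F a b) : v0 (constantCoeff (wt F a b)) = 1 := by
  rw [(wt_spec h.two_ne h.b_ne h.on).2, h.vb]

theorem ai_wt (h : GdP v0 F a b) : AI v0 (wt F a b) := by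
  have h1 := (wt_spec h.two_ne h.b_ne h.on).1
  refine ⟨PI.of_sq (by rw [h1]; exact h.ai_x.1.aeval h.cF) h.two h.v_wt, ?_⟩
  refine IsAlgebraic.of_pow two_pos ?_
  rw [h1, Polynomial.aeval_eq_sum_range]
  refine Finset.sum_induction _ (IsAlgebraic (Polynomial K0)) (fun _ _ => IsAlgebraic.add)
    isAlgebraic_zero fun i _ => ?_
  rw [smul_eq_C_mul]
  exact (AI.const (h.cF i)).2.mul (h.ai_x.2.pow i)

theorem ai_wt_inv (h : GdP v0 F a b) : AI v0 (wt F a b)⁻¹ := h.ai_wt.inv h.v_wt

theorem ai_derivative_lgN [CharZero K0] (h : GdP v0 F a b) {g : ℕ} {N : Fin g → Fin g → K0}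
    (hN : ∀ m k, v0 (N m k) ≤ 1) (m : Fin g) : AI v0 (derivative K0 (lgN N F a b m)) := by
  rw [derivative_lgN]
  exact (AI.sum _ fun k _ => (AI.const (hN m k)).mul (h.ai_x.pow k)).mul h.ai_wt_inv

theorem ai_th_lgN [CharZero K0] (h : GdP v0 F a b) {g : ℕ} {N : Fin g → Fin g → K0}
    (hN : ∀ m k, v0 (N m k) ≤ 1) (m : Fin g) : AI v0 (th (lgN N F a b m)) :=
  AI.X'.mul (h.ai_derivative_lgN hN m)

theorem li_lgN [CharZero K0] (h : GdP v0 F a b) {g : ℕ} {N : Fin g → Fin g → K0}
    (hN : ∀ m k, v0 (N m k) ≤ 1) (m : Fin g) : LI v0 (lgN N F a b m) :=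
  LI.of_derivative (h.ai_derivative_lgN hN m).1

end GdP

end arc

/-! ## formal solutions -/

section sol

variable {g : ℕ} {F : Polynomial K0} {a b : Fin g → K0} {Φ x w η : Fin g → K0⟦X⟧}

theorem Sol.on (h : Sol F a b Φ x w η) (i : Fin g) : b i ^ 2 = F.eval (a i) := by
  have := congrArg constantCoeff (h.sq i)
  simpa [constantCoeff_aeval, h.x0, h.w0] using this

theorem Sol.tau0 (h : Sol F a b Φ x w η) (i : Fin g) : constantCoeff (x i - C (a i)) = 0 := by
  simp [h.x0]

theorem Sol.sb_x (h : Sol F a b Φ x w η) (i : Fin g) : sb _ (h.tau0 i) (C (a i) + X) = x i := by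
  rw [map_add, sb_C, sb_X]; ring

variable [CharZero K0]

theorem Sol.w_eq (h : Sol F a b Φ x w η) (hb : ∀ i, b i ≠ 0) (i : Fin g) :
    w i = sb _ (h.tau0 i) (wt F (a i) (b i)) := by
  obtain ⟨h1, h0⟩ := wt_spec two_ne_zero (hb i) (h.on i)
  refine eq_of_sq_eq two_ne_zero ?_ (by rw [constantCoeff_sb, h0, h.w0]) (by rw [h.w0]; exact hb i)
  rw [← map_pow, h1, ← Polynomial.aeval_algHom_apply, h.sb_x, h.sq]

theorem Sol.w_ne (h : Sol F a b Φ x w η) (hb : ∀ i, b i ≠ 0) (i : Fin g) : w i ≠ 0 := fun e =>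
  hb i (by rw [← h.w0, e, map_zero])

theorem Sol.sum_lg (h : Sol F a b Φ x w η) (hb : ∀ i, b i ≠ 0) (m : Fin g) :
    ∑ i, sb _ (h.tau0 i) (lg F (a i) (b i) m) = Φ m - C (constantCoeff (Φ m)) := by
  refine derivative.ext ?_ (by simp [constantCoeff_sb, constantCoeff_lg])
  rw [map_sub, derivative_C, sub_zero, ← h.sum m, map_sum]
  refine Finset.sum_congr rfl fun i _ => mul_right_cancel₀ (h.w_ne hb i) ?_
  have e := congrArg (sb _ (h.tau0 i)) (derivative_lg_mul (hb i) (h.on i) (m : ℕ))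
  rw [map_mul, ← h.w_eq hb, map_pow, h.sb_x] at e
  rw [derivative_sb, map_sub, derivative_C, sub_zero, h.dx, ← e]
  ring

/-- uniqueness of the formal solution -/
theorem Sol.unique {x' w' η' : Fin g → K0⟦X⟧} (h : Sol F a b Φ x w η) (h' : Sol F a b Φ x' w' η')
    (ha : Function.Injective a) (hb : ∀ i, b i ≠ 0) : x = x' ∧ w = w' ∧ η = η' := by
  have key : ∀ N : ℕ, ∀ i, (X : K0⟦X⟧) ^ N ∣ (x i - C (a i)) - (x' i - C (a i)) := by
    intro N
    induction N with
    | zero => simp
    | succ N ih =>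
      have e : (fun i => coeff N ((x i - C (a i)) - (x' i - C (a i))) / b i) = 0 := by
        refine Matrix.eq_zero_of_forall_pow_sum_mul_pow_eq_zero ha fun m => ?_
        have e1 := congrArg (coeff N) (sub_eq_zero.2 ((h.sum_lg hb m).trans (h'.sum_lg hb m).symm))
        rw [← Finset.sum_sub_distrib, map_sum, map_zero] at e1
        rw [← e1]
        refine Finset.sum_congr rfl fun i _ => ?_
        rw [sb_apply, sb_apply, coeff_subst_sub_of_dvd (h.tau0 i) (h'.tau0 i) (ih i) _ le_rfl,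
          coeff_one_lg (hb i) (h.on i)]
        ring
      intro i
      refine X_pow_dvd_iff.2 fun m hm => ?_
      rcases Nat.lt_succ_iff_lt_or_eq.1 hm with hm | rfl
      · exact X_pow_dvd_iff.1 (ih i) m hm
      · simpa [hb i] using congrFun e i
  have hx : x = x' := funext fun i => by
    ext n
    have := X_pow_dvd_iff.1 (key (n + 1) i) n n.lt_succ_self
    simpa [sub_eq_zero] using this
  subst hx
  have hw : w = w' := funext fun i => (h.w_eq hb i).trans (h'.w_eq hb i).symm
  subst hw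
  exact ⟨rfl, rfl, funext fun i => mul_right_cancel₀ (h.w_ne hb i) ((h.dx i).symm.trans (h'.dx i))⟩

omit [CharZero K0] in
theorem map_derivative {K1 : Type*} [Field K1] (s : K0 →+* K1) (f : K0⟦X⟧) :
    PowerSeries.map s (derivative K0 f) = derivative K1 (PowerSeries.map s f) := by
  ext n; simp [coeff_derivative]

omit [CharZero K0] in
theorem map_aeval {K1 : Type*} [Field K1] (s : K0 →+* K1) (f : K0⟦X⟧) (F : Polynomial K0) :
    PowerSeries.map s (Polynomial.aeval f F) = Polynomial.aeval (PowerSeries.map s f) (F.map s) := by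
  induction F using Polynomial.induction_on' with
  | add p q hp hq => simp [hp, hq, Polynomial.map_add]
  | monomial n a => simp [Polynomial.aeval_monomial, ← C_eq_algebraMap]

omit [CharZero K0] in
theorem constantCoeff_map' {K1 : Type*} [Field K1] (s : K0 →+* K1) (f : K0⟦X⟧) :
    constantCoeff (PowerSeries.map s f) = s (constantCoeff f) := by
  rw [← coeff_zero_eq_constantCoeff_apply, coeff_map, coeff_zero_eq_constantCoeff_apply]

omit [CharZero K0] in
theorem sol_map_iff {K1 : Type*} [Field K1] (s : K0 →+* K1) :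
    Sol (F.map s) (fun i => s (a i)) (fun i => s (b i)) (fun m => PowerSeries.map s (Φ m))
      (fun i => PowerSeries.map s (x i)) (fun i => PowerSeries.map s (w i))
      (fun i => PowerSeries.map s (η i)) ↔ Sol F a b Φ x w η := by
  have hi : Function.Injective (PowerSeries.map s) := PowerSeries.map_injective s s.injective
  constructor
  · intro h
    refine ⟨fun i => hi ?_, fun i => s.injective ?_, fun i => s.injective ?_, fun i => hi ?_,
      fun m => hi ?_⟩
    · rw [map_pow, map_aeval]; exact h.sq i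
    · rw [← constantCoeff_map']; exact h.x0 i
    · rw [← constantCoeff_map']; exact h.w0 i
    · rw [map_derivative, map_mul]; exact h.dx i
    · rw [map_derivative, ← h.sum m]; simp
  · intro h
    refine ⟨fun i => ?_, fun i => ?_, fun i => ?_, fun i => ?_, fun m => ?_⟩
    · rw [← map_pow, h.sq, map_aeval]
    · rw [constantCoeff_map', h.x0]
    · rw [constantCoeff_map', h.w0]
    · rw [← map_derivative, h.dx, map_mul]
    · rw [← map_derivative, ← h.sum m]; simp

omit [CharZero K0] in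
/-- the Vandermonde matrix is invertible over the integers -/
theorem v_le_of_vand (ha : ∀ i, v0 (a i) ≤ 1) (hs : ∀ i j, i ≠ j → v0 (a i - a j) = 1)
    {y : Fin g → K0} (h : ∀ m : Fin g, v0 (∑ i, a i ^ (m : ℕ) * y i) ≤ 1) (i : Fin g) :
    v0 (y i) ≤ 1 := by
  set L : Polynomial K0 := ∏ j ∈ Finset.univ.erase i, (Polynomial.X - Polynomial.C (a j)) with hL
  have hd : L.natDegree < g := by
    rw [hL, Polynomial.natDegree_prod_of_monic _ _ fun j _ => Polynomial.monic_X_sub_C _]
    have := i.pos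
    simp [Finset.card_erase_of_mem]; omega
  have hc : PI v0 1 (L : K0⟦X⟧) := by
    have : (L : K0⟦X⟧) = ∏ j ∈ Finset.univ.erase i, (X - C (a j)) := by
      rw [hL, ← Polynomial.coeToPowerSeries.ringHom_apply, map_prod]
      simp
    rw [this]
    exact (PIr v0).prod_mem fun j _ => PI.X'.sub (PI.const_le (ha j))
  have e : ∑ j, L.eval (a j) * y j = ∑ m : Fin g, L.coeff m * ∑ j, a j ^ (m : ℕ) * y j := by
    simp only [Finset.mul_sum]
    rw [Finset.sum_comm]
    refine Finset.sum_congr rfl fun j _ => ?_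
    rw [Polynomial.eval_eq_sum_range' hd, Finset.sum_range, Finset.sum_mul]
    exact Finset.sum_congr rfl fun m _ => by ring
  rw [Finset.sum_eq_single i] at e
  · have h1 : v0 (L.eval (a i)) = 1 := by
      rw [hL, Polynomial.eval_prod, map_prod]
      refine Finset.prod_eq_one fun j hj => ?_
      simpa using hs i j (Finset.ne_of_mem_erase hj).symm
    have h2 : v0 (L.eval (a i) * y i) ≤ 1 := by
      rw [e]
      refine v0.map_sum_le fun m _ => ?_
      rw [map_mul]
      exact mul_le_one' (by simpa using hc m) (h m)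
    rwa [map_mul, h1, one_mul] at h2
  · intro j _ hj
    rw [hL, Polynomial.eval_prod, Finset.prod_eq_zero (i := j) (by simp [hj]) (by simp), zero_mul]
  · simp

variable {p : ℕ} {σ : K0 →+* K0}

/-- **functional equation lemma** for the formal solution, in any integral basis `N` -/
theorem Un.fe_sol (U : Un v0 p σ) (hp : p ≠ 0) {r : ℕ} {B N : _} (hB : ∀ k m m', v0 (B k m m') ≤ 1)
    (hP : ∀ i, GdP v0 F (a i) (b i)) (hs : ∀ i j, i ≠ j → v0 (a i - a j) = 1)
    (hN : ∀ m k : Fin g, v0 (N m k) ≤ 1)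
    (hN' : ∀ y : Fin g → K0, (∀ m, v0 (∑ k, N m k * y k) ≤ 1) → ∀ k, v0 (y k) ≤ 1)
    (hu : ∀ i m, PI v0 (v0 p) (uop σ p hp r B (lgN N F (a i) (b i)) m))
    {Ψ : Fin g → K0⟦X⟧} (hΨ : ∀ m, ∑ k, C (N m k) * Φ k = Ψ m)
    (h0 : ∀ m, constantCoeff (Ψ m) = 0) (hΦ : ∀ m, PI v0 (v0 p) (uop σ p hp r B Ψ m))
    (h : Sol F a b Φ x w η) (i : Fin g) : PI v0 1 (x i) ∧ PI v0 1 (w i) := by
  have hb : ∀ i, b i ≠ 0 := fun i => (hP i).b_ne
  have h1 : PI v0 1 (x i - C (a i)) := by
    refine U.fe hp hB (l := fun i => lgN N F (a i) (b i)) (fun i m => (hP i).li_lgN hN m) hu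
      (fun y hy j => ?_) hΦ h.tau0 (fun m => ?_) i
    · have := v_le_of_vand (fun i => (hP i).va) hs (y := fun i => y i / b i)
        (hN' _ fun m => ?_) j
      · rwa [map_div₀, (hP j).vb, div_one] at this
      · convert hy m using 2
        simp only [lgN, map_sum, coeff_C_mul, coeff_one_lg (hb _) (h.on _), Finset.mul_sum,
          Finset.sum_mul]
        rw [Finset.sum_comm]
        exact Finset.sum_congr rfl fun _ _ => Finset.sum_congr rfl fun _ _ => by ring
    · have e : ∀ i, (lgN N F (a i) (b i) m).subst (x i - C (a i)) =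
          ∑ k, C (N m k) * sb _ (h.tau0 i) (lg F (a i) (b i) k) := fun i => by
        rw [← sb_apply (h.tau0 i), lgN, map_sum]
        simp only [map_mul, sb_C]
      simp only [e]
      rw [Finset.sum_comm]
      simp only [← Finset.mul_sum, h.sum_lg hb, mul_sub, Finset.sum_sub_distrib, hΨ]
      have := h0 m
      rw [← hΨ] at this
      simp only [map_sum, map_mul, constantCoeff_C] at this
      simp only [← map_mul, ← map_sum, this, map_zero, sub_zero]
  have h2 : PI v0 1 (x i) := h1.of_sub (PI.const_le (hP i).va)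
  refine ⟨h2, PI.of_sq ?_ (hP i).two (by rw [h.w0, (hP i).vb])⟩
  rw [h.sq]
  exact h2.aeval (hP i).cF

/-- the Hecke recursion at `p` -/
def Rec {g : ℕ} (p : ℕ) (B : ℕ → Fin g → Fin g → K0) (V : ℕ → Fin g → ℤ) : Prop :=
  ∀ n m, (V (p * n) m : K0) + ∑ m', B 0 m m' * V n m' +
    (if p ∣ n then p * ∑ m', B 1 m m' * V (n / p) m' else 0) = 0

/-- `M ∑ V n q ^ n / n` -/
def eich (K0 : Type*) [Field K0] {g : ℕ} (M : ℕ) (V : ℕ → Fin g → ℤ) (m : Fin g) : K0⟦X⟧ :=
  mk fun n => (M : K0) * V n m / n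

omit [CharZero K0] in
theorem constantCoeff_eich (M : ℕ) (V : ℕ → Fin g → ℤ) (m : Fin g) :
    constantCoeff (eich K0 M V m) = 0 := by
  rw [← coeff_zero_eq_constantCoeff_apply]; simp [eich]

theorem Un.hecke (U : Un v0 p σ) (hp : p ≠ 0) {B : ℕ → Fin g → Fin g → K0} {V : ℕ → Fin g → ℤ}
    (hV : Rec p B V) (M : ℕ) (m : Fin g) : PI v0 (v0 p) (uop σ p hp 2 B (eich K0 M V) m) := by
  intro n
  have hp' : (p : K0) ≠ 0 := Nat.cast_ne_zero.2 hp
  simp only [uop, Finset.sum_range_succ, Finset.sum_range_zero, zero_add, map_add, map_sum,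
    coeff_C_mul, fr_pow, coeff_fr, eich, coeff_mk]
  simp only [map_div₀, map_mul, map_natCast, map_intCast, pow_one]
  by_cases h : p ∣ n
  · obtain ⟨n, rfl⟩ := h
    have h0 : 0 < p := Nat.pos_of_ne_zero hp
    have e := hV n m
    rcases Nat.eq_zero_or_pos n with rfl | hn
    · simp
    have hn' : (n : K0) ≠ 0 := Nat.cast_ne_zero.2 hn.ne'
    simp only [dvd_mul_right, if_true, Nat.mul_div_cancel_left n h0, pow_succ, pow_zero, one_mul,
      Nat.mul_dvd_mul_iff_left h0, Nat.mul_div_mul_left _ _ h0]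
    refine le_of_eq_of_le (b := v0 0) (congrArg v0 ?_) (by simp)
    by_cases h1 : p ∣ n
    · obtain ⟨n, rfl⟩ := h1
      have hn'' : (n : K0) ≠ 0 := fun h => hn' (by simp [h])
      simp only [dvd_mul_right, if_true, Nat.mul_div_cancel_left n h0] at e ⊢
      have e1 : ∀ (c : K0) (u : Fin g → K0) (j : ℕ), ∑ m', u m' * (M * V j m' / c) =
          M / c * ∑ m', u m' * V j m' := fun c u j => by
        rw [Finset.mul_sum]; exact Finset.sum_congr rfl fun _ _ => by ring
      rw [e1, e1]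
      push_cast
      field_simp
      linear_combination M * e
    · simp only [h1, if_false, mul_zero, Finset.sum_const_zero, add_zero] at e ⊢
      have e1 : ∀ (c : K0) (u : Fin g → K0) (j : ℕ), ∑ m', u m' * (M * V j m' / c) =
          M / c * ∑ m', u m' * V j m' := fun c u j => by
        rw [Finset.mul_sum]; exact Finset.sum_congr rfl fun _ _ => by ring
      rw [e1]
      push_cast
      field_simp
      linear_combination M * e
  · have h2 : ¬ p ^ (1 + 1) ∣ n := fun h' => h ((dvd_pow_self p (by omega)).trans h')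
    simp only [h, h2, if_false, mul_zero, Finset.sum_const_zero, add_zero, map_mul, map_div₀,
      v_natCast_eq U.prime U.lt h, div_one]
    exact mul_le_of_le_one_right' (mul_le_one' (v_natCast_le v0 M) (v_intCast_le v0 _))

end sol

end Crest.Agent.T15.Hon
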