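import Mathlib
import Crest.Agent.T15.HopfB_71
import Crest.Agent.R013.CE8_280
import Crest.Agent.R013.CE5_280
import Crest.Agent.R013.Clause1_97
import Crest.Agent.R013.Hens3_899
import Crest.Agent.R013.Unr9_957
import Crest.Agent.R013.Div3_280
import Crest.Agent.T15.FaDef_51
import Crest.Agent.R013.Tors15_235

-- ▼ part T15/IdWA_11
section

/-!
# Row 15 (helper11): base change of a norm with orthonormal bases to a constant field extension

`BC vC ρC W ρ vE ρE ι' ι` : `W` a norm of `M / C` with residue field `K / k`, `E ⊇ C` valued with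
residue field `Ω ⊇ k`, `N = M_E`, `L = K_Ω`.  Then `N` carries a norm `h.W'` with residue field `L`
(`BC.red`, `BC.orth'`), extending `W` and `ρ`.
-/

set_option autoImplicit false
set_option linter.all false

namespace Crest.Agent.T15.Id

open Module
open scoped NNReal TensorProduct
open Crest.Agent.R013.GR4_921 Crest.Agent.R013.GR6_921
open Crest.Agent.R013.CE3_280

section ce

variable {F K Ω L : Type*} [Field F] [Field K] [Algebra F K] [Field Ω] [Algebra F Ω]
  [Field L] [Algebra Ω L] [Algebra F L] [IsScalarTower F Ω L] {ι : K →ₐ[F] L}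

theorem ce_indep (h : IsCE Ω ι) {κ : Type*} [Fintype κ] {b : κ → K} (hb : LinearIndependent F b)
    (a : κ → Ω) (h0 : ∑ j, algebraMap Ω L (a j) * ι (b j) = 0) : a = 0 := by
  refine Crest.Agent.R013.CE8_280.coeff_eq_zero hb a (h.inj ?_)
  rw [map_sum, map_zero, ← h0]
  exact Finset.sum_congr rfl fun j _ => mu_tmul ι _ _

/-- every tensor is a combination of any family spanning a fixed finite dimensional space -/
theorem mu_rep (ι : K →ₐ[F] L) (t : Ω ⊗[F] K) : ∃ V : Submodule F K, FiniteDimensional F V ∧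
    ∀ (m : ℕ) (b : Fin m → K), V ≤ Submodule.span F (Set.range b) →
      ∃ a : Fin m → Ω, mu ι t = ∑ j, algebraMap Ω L (a j) * ι (b j) := by
  induction t with
  | zero => exact ⟨⊥, inferInstance, fun m b _ => ⟨0, by simp⟩⟩
  | add s t hs ht =>
    obtain ⟨V, hV, h1⟩ := hs
    obtain ⟨V', hV', h2⟩ := ht
    refine ⟨V ⊔ V', inferInstance, fun m b hb => ?_⟩
    obtain ⟨a, ha⟩ := h1 m b (le_sup_left.trans hb)
    obtain ⟨a', ha'⟩ := h2 m b (le_sup_right.trans hb)
    refine ⟨a + a', ?_⟩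
    rw [map_add, ha, ha', ← Finset.sum_add_distrib]
    exact Finset.sum_congr rfl fun j _ => by rw [Pi.add_apply, map_add, add_mul]
  | tmul c f =>
    refine ⟨Submodule.span F {f}, inferInstance, fun m b hb => ?_⟩
    have h1 := hb (Submodule.mem_span_singleton_self f)
    rw [← Fintype.range_linearCombination, LinearMap.mem_range] at h1
    obtain ⟨d, hd⟩ := h1
    rw [Fintype.linearCombination_apply] at hd
    refine ⟨fun j => c * algebraMap F Ω (d j), ?_⟩
    rw [mu_tmul, ← hd, map_sum, Finset.mul_sum]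
    refine Finset.sum_congr rfl fun j _ => ?_
    rw [map_smul, Algebra.smul_def, map_mul, ← IsScalarTower.algebraMap_apply, mul_assoc]

end ce

section on

variable {C M k K : Type*} [Field C] [Field M] [Algebra C M] [Field k] [Field K] [Algebra k K]
  {vC : Valuation C ℝ≥0} {ρC : C → k} {W : Valuation M ℝ≥0} {ρ : M → K}

/-- orthonormal family -/
def ON (vC : Valuation C ℝ≥0) (W : Valuation M ℝ≥0) {m : ℕ} (b : Fin m → M) : Prop :=
  (∀ i, W (b i) ≤ 1) ∧ ∀ (c : Fin m → C) i, vC (c i) ≤ W (∑ j, c j • b j)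

theorem exists_ON (hO : Orth vC W) (V : Submodule C M) (hV : FiniteDimensional C V) :
    ∃ (m : ℕ) (b : Fin m → M), ON vC W b ∧ V ≤ Submodule.span C (Set.range b) := by
  obtain ⟨m, b, -, h2, h3, h4⟩ := hO V hV
  exact ⟨m, b, ⟨h3, h4⟩, h2⟩

theorem ON.li {m : ℕ} {b : Fin m → M} (hb : ON vC W b) : LinearIndependent C b := by
  rw [Fintype.linearIndependent_iff]
  intro c hc i
  have h1 := hb.2 c i
  rw [hc, map_zero] at h1
  exact (Valuation.zero_iff vC).mp (le_antisymm h1 zero_le)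

theorem res_comb (h : Red vC ρC W ρ) {m : ℕ} {b : Fin m → M} (hb : ∀ i, W (b i) ≤ 1)
    {c : Fin m → C} (hc : ∀ i, vC (c i) ≤ 1) :
    W (∑ j, c j • b j) ≤ 1 ∧ ρ (∑ j, c j • b j) = ∑ j, ρC (c j) • ρ (b j) := by
  have hw1 : ∀ j, W (c j • b j) ≤ 1 := fun j => by
    rw [Algebra.smul_def, map_mul, h.norm]; exact mul_le_one' (hc j) (hb j)
  refine ⟨Valuation.map_sum_le _ fun j _ => hw1 j, ?_⟩
  rw [h.res.sum _ _ fun j _ => hw1 j]
  refine Finset.sum_congr rfl fun j _ => ?_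
  rw [Algebra.smul_def, h.res.mul _ _ (by rw [h.norm]; exact hc j) (hb j), h.comp _ (hc j),
    ← Algebra.smul_def]

theorem ON.li_res (h : Red vC ρC W ρ) {m : ℕ} {b : Fin m → M} (hb : ON vC W b) :
    LinearIndependent k fun i => ρ (b i) := by
  rw [Fintype.linearIndependent_iff]
  intro r hr i
  choose c hc1 hc2 using fun i => h.resC.surj (r i)
  obtain ⟨h1, h2⟩ := res_comb h hb.1 hc1
  simp only [hc2] at h2
  rw [hr, h.res.zero_iff _ h1] at h2
  rw [← hc2 i, h.resC.zero_iff _ (hc1 i)]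
  exact lt_of_le_of_lt (hb.2 c i) h2

end on

section bc

variable {C E M N k Ω K L : Type*} [Field C] [Field E] [Algebra C E] [Field M] [Algebra C M]
  [Field N] [Algebra E N] [Algebra C N] [IsScalarTower C E N]
  [Field k] [Field Ω] [Algebra k Ω] [Field K] [Algebra k K] [Field L] [Algebra Ω L] [Algebra k L]
  [IsScalarTower k Ω L]

/-- the data of a base change -/
structure BC (vC : Valuation C ℝ≥0) (ρC : C → k) (W : Valuation M ℝ≥0) (ρ : M → K)
    (vE : Valuation E ℝ≥0) (ρE : E → Ω) (ι' : M →ₐ[C] N) (ι : K →ₐ[k] L) : Prop where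
  rd : Red vC ρC W ρ
  orth : Orth vC W
  resE : IsRes vE ρE
  vE_c : ∀ c, vE (algebraMap C E c) = vC c
  ρE_c : ∀ c, vC c ≤ 1 → ρE (algebraMap C E c) = algebraMap k Ω (ρC c)
  ce' : IsCE E ι'
  ce : IsCE Ω ι

/-- the graph of the reduction map on `O_E ⊗ O_M` -/
inductive Rs (W : Valuation M ℝ≥0) (ρ : M → K) (vE : Valuation E ℝ≥0) (ρE : E → Ω)
    (ι' : M →ₐ[C] N) (ι : K →ₐ[k] L) : N → L → Prop
  | zero : Rs W ρ vE ρE ι' ι 0 0
  | step (a : E) (f : M) (x : N) (y : L) : vE a ≤ 1 → W f ≤ 1 → Rs W ρ vE ρE ι' ι x y →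
      Rs W ρ vE ρE ι' ι (algebraMap E N a * ι' f + x) (algebraMap Ω L (ρE a) * ι (ρ f) + y)

variable {vC : Valuation C ℝ≥0} {ρC : C → k} {W : Valuation M ℝ≥0} {ρ : M → K}
  {vE : Valuation E ℝ≥0} {ρE : E → Ω} {ι' : M →ₐ[C] N} {ι : K →ₐ[k] L}

local notation "R" => Rs W ρ vE ρE ι' ι

theorem Rs.cast {x x' : N} {y y' : L} (h : R x y) (hx : x = x') (hy : y = y') : R x' y' :=
  hx ▸ hy ▸ h

theorem Rs.add {x x' : N} {y y' : L} (h : R x y) (h' : R x' y') : R (x + x') (y + y') := by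
  induction h with
  | zero => exact h'.cast (zero_add _).symm (zero_add _).symm
  | step a f x y ha hf _ ih =>
    exact (Rs.step a f _ _ ha hf ih).cast (add_assoc _ _ _).symm (add_assoc _ _ _).symm

theorem Rs.gen {a : E} {f : M} (ha : vE a ≤ 1) (hf : W f ≤ 1) :
    R (algebraMap E N a * ι' f) (algebraMap Ω L (ρE a) * ι (ρ f)) :=
  (Rs.step a f 0 0 ha hf Rs.zero).cast (add_zero _) (add_zero _)

theorem Rs.sum {κ : Type*} (s : Finset κ) (x : κ → N) (y : κ → L) (h : ∀ i ∈ s, R (x i) (y i)) :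
    R (∑ i ∈ s, x i) (∑ i ∈ s, y i) := by
  classical
  induction s using Finset.induction_on with
  | empty => simpa using Rs.zero
  | insert i s hi ih =>
    rw [Finset.sum_insert hi, Finset.sum_insert hi]
    exact (h i (Finset.mem_insert_self _ _)).add
      (ih fun j hj => h j (Finset.mem_insert_of_mem hj))

namespace BC

variable (h : BC vC ρC W ρ vE ρE ι' ι)

include h

theorem gen_mul {a : E} {f : M} (ha : vE a ≤ 1) (hf : W f ≤ 1) {x : N} {y : L} (hx : R x y) :
    R (algebraMap E N a * ι' f * x) (algebraMap Ω L (ρE a) * ι (ρ f) * y) := by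
  induction hx with
  | zero => exact Rs.zero.cast (mul_zero _).symm (mul_zero _).symm
  | step a' f' x y ha' hf' _ ih =>
    refine (Rs.step (a * a') (f * f') _ _ (by rw [map_mul]; exact mul_le_one' ha ha')
      (by rw [map_mul]; exact mul_le_one' hf hf') ih).cast ?_ ?_
    · rw [map_mul, map_mul]; ring
    · rw [h.resE.mul _ _ ha ha', h.rd.res.mul _ _ hf hf', map_mul, map_mul]; ring

theorem mul {x x' : N} {y y' : L} (hx : R x y) (hx' : R x' y') : R (x * x') (y * y') := by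
  induction hx with
  | zero => exact Rs.zero.cast (zero_mul _).symm (zero_mul _).symm
  | step a f x y ha hf _ ih =>
    exact ((h.gen_mul ha hf hx').add ih).cast (add_mul _ _ _).symm (add_mul _ _ _).symm

theorem const {a : E} (ha : vE a ≤ 1) : R (algebraMap E N a) (algebraMap Ω L (ρE a)) :=
  (Rs.gen (f := 1) ha (by simp)).cast (by simp) (by simp [h.rd.res.one])

theorem iota {f : M} (hf : W f ≤ 1) : R (ι' f) (ι (ρ f)) :=
  (Rs.gen (a := 1) (by simp) hf).cast (by simp) (by simp [h.resE.one])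

theorem one : R 1 1 := (h.const (a := 1) (by simp)).cast (by simp) (by simp [h.resE.one])

theorem neg {x : N} {y : L} (hx : R x y) : R (-x) (-y) := by
  refine (h.mul (h.const (a := -1) (by simp)) hx).cast (by simp) ?_
  rw [h.resE.neg (by simp), h.resE.one]
  simp

theorem nf {x : N} {y : L} (hx : R x y) : ∃ V : Submodule C M, FiniteDimensional C V ∧
    ∀ (m : ℕ) (b : Fin m → M), ON vC W b → V ≤ Submodule.span C (Set.range b) →
      ∃ a : Fin m → E, (∀ i, vE (a i) ≤ 1) ∧ x = ∑ j, algebraMap E N (a j) * ι' (b j) ∧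
        y = ∑ j, algebraMap Ω L (ρE (a j)) * ι (ρ (b j)) := by
  induction hx with
  | zero => exact ⟨⊥, inferInstance, fun m b _ _ => ⟨0, by simp, by simp, by simp [h.resE.zero]⟩⟩
  | step a f x y ha hf _ ih =>
    obtain ⟨V, hV, h1⟩ := ih
    refine ⟨V ⊔ Submodule.span C {f}, inferInstance, fun m b hb hle => ?_⟩
    obtain ⟨a', ha1, ha2, ha3⟩ := h1 m b hb (le_sup_left.trans hle)
    have h2 := (le_sup_right.trans hle) (Submodule.mem_span_singleton_self f)
    rw [← Fintype.range_linearCombination, LinearMap.mem_range] at h2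
    obtain ⟨d, hd⟩ := h2
    rw [Fintype.linearCombination_apply] at hd
    have hd1 : ∀ j, vC (d j) ≤ 1 := fun j => (hb.2 d j).trans (by rw [hd]; exact hf)
    have hd2 : ∀ j, vE (algebraMap C E (d j)) ≤ 1 := fun j => by rw [h.vE_c]; exact hd1 j
    have hd3 : ∀ j, vE (a * algebraMap C E (d j)) ≤ 1 := fun j => by
      rw [map_mul]; exact mul_le_one' ha (hd2 j)
    refine ⟨fun j => a * algebraMap C E (d j) + a' j, fun j =>
      (Valuation.map_add _ _ _).trans (max_le (hd3 j) (ha1 j)), ?_, ?_⟩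
    · rw [ha2, ← hd, map_sum, Finset.mul_sum, ← Finset.sum_add_distrib]
      refine Finset.sum_congr rfl fun j _ => ?_
      rw [map_smul, Algebra.smul_def, map_add, map_mul, ← IsScalarTower.algebraMap_apply]
      ring
    · rw [ha3, ← hd, (res_comb h.rd hb.1 hd1).2, map_sum, Finset.mul_sum, ← Finset.sum_add_distrib]
      refine Finset.sum_congr rfl fun j _ => ?_
      rw [map_smul, Algebra.smul_def, h.resE.add _ _ (hd3 j) (ha1 j), h.resE.mul _ _ ha (hd2 j),
        h.ρE_c _ (hd1 j), map_add, map_mul, ← IsScalarTower.algebraMap_apply]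
      ring

theorem eq_zero {y : L} (hy : R 0 y) : y = 0 := by
  obtain ⟨V, hV, h1⟩ := h.nf hy
  obtain ⟨m, b, hb, hle⟩ := exists_ON h.orth V hV
  obtain ⟨a, -, ha2, ha3⟩ := h1 m b hb hle
  have h2 := ce_indep h.ce' hb.li a ha2.symm
  rw [ha3, h2]
  simp [h.resE.zero]

theorem unique {x : N} {y y' : L} (hy : R x y) (hy' : R x y') : y = y' :=
  sub_eq_zero.mp (h.eq_zero ((hy.add (h.neg hy')).cast (add_neg_cancel x) (sub_eq_add_neg _ _).symm))

theorem ne_zero {x : N} {y : L} (hx : R x y) (hy : y ≠ 0) : x ≠ 0 := by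
  rintro rfl
  exact hy (h.eq_zero hx)

/-- a combination of an orthonormal family is its largest coefficient times a unit -/
theorem comb {m : ℕ} {b : Fin m → M} (hb : ON vC W b) (a : Fin m → E) {i : Fin m}
    (hi : ∀ j, vE (a j) ≤ vE (a i)) (h0 : a i ≠ 0) :
    ∃ x y, R x y ∧ y ≠ 0 ∧ ∑ j, algebraMap E N (a j) * ι' (b j) = algebraMap E N (a i) * x := by
  have hpos : 0 < vE (a i) := by rwa [Valuation.pos_iff]
  have h1 : ∀ j, vE (a j / a i) ≤ 1 := fun j => by
    rw [map_div₀]; exact div_le_one_of_le₀ (hi j) zero_le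
  refine ⟨_, _, Rs.sum Finset.univ _ _ fun j _ => Rs.gen (h1 j) (hb.1 j), ?_, ?_⟩
  · intro h2
    have h3 := congrFun (ce_indep h.ce (hb.li_res h.rd) _ h2) i
    rw [div_self h0, h.resE.one] at h3
    exact one_ne_zero h3
  · rw [Finset.mul_sum]
    refine Finset.sum_congr rfl fun j _ => ?_
    rw [← mul_assoc, ← map_mul, mul_div_cancel₀ _ h0]

theorem exists_unit {t : E ⊗[C] M} (ht : t ≠ 0) :
    ∃ (a : E) (x : N) (y : L), a ≠ 0 ∧ R x y ∧ y ≠ 0 ∧ mu ι' t = algebraMap E N a * x := by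
  obtain ⟨V, hV, h1⟩ := mu_rep ι' t
  obtain ⟨m, b, hb, hle⟩ := exists_ON h.orth V hV
  obtain ⟨a, ha⟩ := h1 m b hle
  have h2 : ∃ j, a j ≠ 0 := by
    by_contra hcon
    push Not at hcon
    apply h.ce'.ne_zero ht
    rw [ha]
    simp [hcon]
  obtain ⟨j, hj⟩ := h2
  obtain ⟨i, -, hi⟩ := Finset.exists_max_image Finset.univ (fun j => vE (a j))
    ⟨j, Finset.mem_univ _⟩
  have h0 : a i ≠ 0 := by
    intro h3
    have h4 := hi j (Finset.mem_univ _)
    rw [h3, map_zero] at h4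
    exact hj ((Valuation.zero_iff vE).mp (le_antisymm h4 zero_le))
  obtain ⟨x, y, h5, h6, h7⟩ := h.comb hb a (fun j => hi j (Finset.mem_univ _)) h0
  exact ⟨a i, x, y, h0, h5, h6, ha.trans h7⟩

end BC

/-- normal form: a constant times a quotient of units -/
def Nf (W : Valuation M ℝ≥0) (ρ : M → K) (vE : Valuation E ℝ≥0) (ρE : E → Ω)
    (ι' : M →ₐ[C] N) (ι : K →ₐ[k] L) (f : N) (a : E) (y : L) : Prop :=
  ∃ x₁ y₁ x₂ y₂, Rs W ρ vE ρE ι' ι x₁ y₁ ∧ Rs W ρ vE ρE ι' ι x₂ y₂ ∧ y₁ ≠ 0 ∧ y₂ ≠ 0 ∧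
    f * x₂ = algebraMap E N a * x₁ ∧ y = y₁ / y₂

local notation "NF" => Nf W ρ vE ρE ι' ι

namespace BC

variable (h : BC vC ρC W ρ vE ρE ι' ι)

include h

theorem exists_nf (f : N) : ∃ p : E × L, NF f p.1 p.2 := by
  by_cases hf : f = 0
  · exact ⟨(0, 1 / 1), 1, 1, 1, 1, h.one, h.one, one_ne_zero, one_ne_zero, by simp [hf], rfl⟩
  obtain ⟨s, t, ht, hst⟩ := h.ce'.frac f
  have hs : s ≠ 0 := by
    rintro rfl
    rw [map_zero] at hst
    exact mul_ne_zero hf (h.ce'.ne_zero ht) hst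
  obtain ⟨a₁, x₁, y₁, ha₁, h1, hy₁, e₁⟩ := h.exists_unit hs
  obtain ⟨a₂, x₂, y₂, ha₂, h2, hy₂, e₂⟩ := h.exists_unit ht
  refine ⟨(a₁ / a₂, y₁ / y₂), x₁, y₁, x₂, y₂, h1, h2, hy₁, hy₂, ?_, rfl⟩
  have h3 : algebraMap E N a₂ ≠ 0 := by simpa using ha₂
  rw [e₁, e₂] at hst
  show f * x₂ = algebraMap E N (a₁ / a₂) * x₁
  rw [map_div₀, div_mul_eq_mul_div, eq_div_iff h3, ← hst]
  ring

theorem le_of_nf {f : N} {a₀ a : E} {y₀ yz y₂ : L} {z x₂ : N} (h0 : NF f a₀ y₀) (hz : R z yz)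
    (h2 : R x₂ y₂) (hy : y₂ ≠ 0) (e : f * x₂ = algebraMap E N a * z) :
    vE a₀ ≤ vE a ∧
      (vE a ≤ 1 → algebraMap Ω L (ρE a₀) * y₀ = algebraMap Ω L (ρE a) * yz / y₂) := by
  obtain ⟨u₁, v₁, u₂, v₂, hu₁, hu₂, hv₁, hv₂, e₀, rfl⟩ := h0
  have key : algebraMap E N a₀ * (u₁ * x₂) = algebraMap E N a * (z * u₂) := by
    rw [← mul_assoc, ← e₀, ← mul_assoc, ← e]; ring
  have hle : vE a₀ ≤ vE a := by
    by_contra hlt
    push Not at hlt
    have ha₀ : a₀ ≠ 0 := by
      rintro rfl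
      rw [map_zero] at hlt
      exact not_lt_zero hlt
    have hpos : 0 < vE a₀ := by rwa [Valuation.pos_iff]
    have h3 : vE (a / a₀) < 1 := by rw [map_div₀]; exact (div_lt_one₀ hpos).mpr hlt
    have h4 := h.mul (h.const h3.le) (h.mul hz hu₂)
    have h5 : algebraMap E N (a / a₀) * (z * u₂) = u₁ * x₂ := by
      have h6 : algebraMap E N a₀ ≠ 0 := by simpa using ha₀
      rw [map_div₀, div_mul_eq_mul_div, div_eq_iff h6, ← key, mul_comm]
    rw [h5, (h.resE.zero_iff _ h3.le).mpr h3, map_zero, zero_mul] at h4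
    exact mul_ne_zero hv₁ hy (h.unique (h.mul hu₁ h2) h4)
  refine ⟨hle, fun ha => ?_⟩
  have h3 := h.mul (h.const (hle.trans ha)) (h.mul hu₁ h2)
  rw [key] at h3
  have h4 := h.unique h3 (h.mul (h.const ha) (h.mul hz hu₂))
  rw [eq_div_iff hy, ← mul_div_assoc, div_mul_eq_mul_div, div_eq_iff hv₂, mul_assoc, h4, mul_assoc]

/-- the constant of the chosen normal form -/
noncomputable def cf (f : N) : E := (h.exists_nf f).choose.1

/-- the residue map of the base change -/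
noncomputable def ρ' (f : N) : L := algebraMap Ω L (ρE (h.cf f)) * (h.exists_nf f).choose.2

theorem nf_cf (f : N) : NF f (h.cf f) (h.exists_nf f).choose.2 := (h.exists_nf f).choose_spec

theorem cf_le {f : N} {a : E} {yz y₂ : L} {z x₂ : N} (hz : R z yz)
    (h2 : R x₂ y₂) (hy : y₂ ≠ 0) (e : f * x₂ = algebraMap E N a * z) :
    vE (h.cf f) ≤ vE a ∧ (vE a ≤ 1 → h.ρ' f = algebraMap Ω L (ρE a) * yz / y₂) :=
  h.le_of_nf (h.nf_cf f) hz h2 hy e

theorem cf_eq {f : N} {a : E} {y : L} (h0 : NF f a y) : vE (h.cf f) = vE a := by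
  apply le_antisymm
  · obtain ⟨u₁, v₁, u₂, v₂, hu₁, hu₂, hv₁, hv₂, e₀, rfl⟩ := h0
    exact (h.cf_le hu₁ hu₂ hv₂ e₀).1
  · obtain ⟨u₁, v₁, u₂, v₂, hu₁, hu₂, hv₁, hv₂, e₀, -⟩ := h.nf_cf f
    exact (h.le_of_nf h0 hu₁ hu₂ hv₂ e₀).1

theorem nf_const (a : E) : NF (algebraMap E N a) a (1 / 1) :=
  ⟨1, 1, 1, 1, h.one, h.one, one_ne_zero, one_ne_zero, rfl, rfl⟩

theorem nf_mul {f f' : N} {a a' : E} {y y' : L} (h0 : NF f a y) (h1 : NF f' a' y') :
    NF (f * f') (a * a') (y * y') := by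
  obtain ⟨u₁, v₁, u₂, v₂, hu₁, hu₂, hv₁, hv₂, e₀, rfl⟩ := h0
  obtain ⟨u₁', v₁', u₂', v₂', hu₁', hu₂', hv₁', hv₂', e₀', rfl⟩ := h1
  refine ⟨_, _, _, _, h.mul hu₁ hu₁', h.mul hu₂ hu₂', mul_ne_zero hv₁ hv₁', mul_ne_zero hv₂ hv₂',
    ?_, div_mul_div_comm _ _ _ _⟩
  rw [map_mul, mul_mul_mul_comm, e₀, e₀']
  ring

theorem cf_add_le {f f' : N} (hle : vE (h.cf f') ≤ vE (h.cf f)) :
    vE (h.cf (f + f')) ≤ vE (h.cf f) := by
  obtain ⟨u₁, v₁, u₂, v₂, hu₁, hu₂, hv₁, hv₂, e₀, -⟩ := h.nf_cf f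
  obtain ⟨u₁', v₁', u₂', v₂', hu₁', hu₂', hv₁', hv₂', e₀', -⟩ := h.nf_cf f'
  have h1 : vE (h.cf f' / h.cf f) ≤ 1 := by
    rw [map_div₀]; exact div_le_one_of_le₀ hle zero_le
  have h2 : h.cf f' = h.cf f * (h.cf f' / h.cf f) := by
    by_cases h0 : h.cf f = 0
    · rw [h0, map_zero] at hle
      rw [h0, zero_mul]
      exact (Valuation.zero_iff vE).mp (le_antisymm hle zero_le)
    · rw [mul_div_cancel₀ _ h0]
  refine (h.cf_le ((h.mul hu₁ hu₂').add (h.mul (h.const h1) (h.mul hu₁' hu₂))) (h.mul hu₂ hu₂')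
    (mul_ne_zero hv₂ hv₂') ?_).1
  rw [mul_add, ← mul_assoc (algebraMap E N (h.cf f)) (algebraMap E N _), ← map_mul, ← h2,
    ← mul_assoc (algebraMap E N (h.cf f')), ← e₀', ← mul_assoc (algebraMap E N (h.cf f)), ← e₀]
  ring

/-- the norm of the base change -/
noncomputable def W' : Valuation N ℝ≥0 where
  toFun f := vE (h.cf f)
  map_zero' := by
    have h1 := h.cf_eq (h.nf_const 0)
    rwa [map_zero, map_zero] at h1
  map_one' := by
    have h1 := h.cf_eq (h.nf_const 1)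
    rwa [map_one, map_one] at h1
  map_mul' f f' := by
    rw [h.cf_eq (h.nf_mul (h.nf_cf f) (h.nf_cf f')), map_mul]
  map_add_le_max' f f' := by
    rcases le_total (vE (h.cf f')) (vE (h.cf f)) with h1 | h1
    · exact (h.cf_add_le h1).trans (le_max_left _ _)
    · rw [add_comm]
      exact (h.cf_add_le h1).trans (le_max_right _ _)

theorem W'_apply (f : N) : h.W' f = vE (h.cf f) := rfl

theorem of_Rs {x : N} {y : L} (hx : R x y) : h.W' x ≤ 1 ∧ h.ρ' x = y := by
  obtain ⟨h1, h2⟩ := h.cf_le (f := x) (a := 1) hx h.one one_ne_zero (by simp)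
  rw [map_one] at h1 h2
  refine ⟨h1, ?_⟩
  rw [h2 le_rfl, h.resE.one]
  simp

theorem isRes : IsRes h.W' h.ρ' := by
  refine ⟨fun f f' hf hf' => ?_, fun f f' hf hf' => ?_, (h.of_Rs h.one).2, fun f hf => ?_,
    fun y => ?_⟩
  · obtain ⟨u₁, v₁, u₂, v₂, hu₁, hu₂, hv₁, hv₂, e₀, -⟩ := h.nf_cf f
    obtain ⟨u₁', v₁', u₂', v₂', hu₁', hu₂', hv₁', hv₂', e₀', -⟩ := h.nf_cf f'
    have h1 := (h.cf_le (f := f + f') (a := 1) ((h.mul (h.const hf) (h.mul hu₁ hu₂')).add
      (h.mul (h.const hf') (h.mul hu₁' hu₂))) (h.mul hu₂ hu₂') (mul_ne_zero hv₂ hv₂') (by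
        rw [← mul_assoc (algebraMap E N (h.cf f')), ← e₀', ← mul_assoc (algebraMap E N (h.cf f)),
          ← e₀, map_one]
        ring)).2 (by simp)
    rw [h1, (h.cf_le hu₁ hu₂ hv₂ e₀).2 hf, (h.cf_le hu₁' hu₂' hv₂' e₀').2 hf', h.resE.one]
    field_simp
    simp only [map_one]
    ring
  · obtain ⟨u₁, v₁, u₂, v₂, hu₁, hu₂, hv₁, hv₂, e₀, -⟩ := h.nf_cf f
    obtain ⟨u₁', v₁', u₂', v₂', hu₁', hu₂', hv₁', hv₂', e₀', -⟩ := h.nf_cf f'
    have h1 := (h.cf_le (f := f * f') (a := h.cf f * h.cf f') (h.mul hu₁ hu₁')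
      (h.mul hu₂ hu₂') (mul_ne_zero hv₂ hv₂') (by
        rw [map_mul, mul_mul_mul_comm, e₀, e₀']
        ring)).2 (by rw [map_mul]; exact mul_le_one' hf hf')
    rw [h1, (h.cf_le hu₁ hu₂ hv₂ e₀).2 hf, (h.cf_le hu₁' hu₂' hv₂' e₀').2 hf',
      h.resE.mul _ _ hf hf', map_mul]
    field_simp
  · obtain ⟨u₁, v₁, u₂, v₂, hu₁, hu₂, hv₁, hv₂, e₀, -⟩ := h.nf_cf f
    rw [(h.cf_le hu₁ hu₂ hv₂ e₀).2 hf, h.W'_apply, ← h.resE.zero_iff _ hf]
    simp [hv₁, hv₂]
  · have key : ∀ t : Ω ⊗[k] K, ∃ x, R x (mu ι t) := by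
      intro t
      induction t with
      | zero => exact ⟨0, Rs.zero.cast rfl (map_zero _).symm⟩
      | add s t hs ht =>
        obtain ⟨x, hx⟩ := hs
        obtain ⟨x', hx'⟩ := ht
        exact ⟨x + x', (hx.add hx').cast rfl (map_add _ _ _).symm⟩
      | tmul c g =>
        obtain ⟨a, ha, rfl⟩ := h.resE.surj c
        obtain ⟨f, hf, rfl⟩ := h.rd.res.surj g
        exact ⟨_, (Rs.gen ha hf).cast rfl (mu_tmul _ _ _).symm⟩
    obtain ⟨s, t, ht, hst⟩ := h.ce.frac y
    obtain ⟨x₁, h1⟩ := key s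
    obtain ⟨x₂, h2⟩ := key t
    have h3 := h.ce.ne_zero ht
    have h4 := h.ne_zero h2 h3
    obtain ⟨h5, h6⟩ := h.cf_le (f := x₁ / x₂) (a := 1) h1 h2 h3 (by
      rw [div_mul_cancel₀ _ h4, map_one, one_mul])
    rw [map_one] at h5 h6
    refine ⟨x₁ / x₂, h5, ?_⟩
    rw [h6 le_rfl, h.resE.one, map_one, one_mul, div_eq_iff h3, hst]

theorem red : Red vE ρE h.W' h.ρ' :=
  ⟨h.resE, h.isRes, fun c => h.cf_eq (h.nf_const c), fun c hc => (h.of_Rs (h.const hc)).2,
    fun f _ => ⟨h.cf f, rfl⟩⟩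

theorem ρ'_iota {f : M} (hf : W f ≤ 1) : h.ρ' (ι' f) = ι (ρ f) := (h.of_Rs (h.iota hf)).2

theorem W'_of_Rs {x : N} {y : L} (hx : R x y) (hy : y ≠ 0) : h.W' x = 1 := by
  obtain ⟨h1, h2⟩ := h.of_Rs hx
  exact (h.isRes.ne_zero_iff h1).mp (by rwa [h2])

theorem W'_iota (f : M) : h.W' (ι' f) = W f := by
  by_cases hf : f = 0
  · simp [hf]
  obtain ⟨c, hc, h1, h2⟩ := h.rd.normalise hf
  have h3 := h.W'_of_Rs (h.iota h2.le) (by
    rw [map_ne_zero]; exact (h.rd.res.ne_zero_iff h2.le).mpr h2)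
  rw [map_mul, AlgHom.commutes, IsScalarTower.algebraMap_apply C E N, map_mul, h.red.norm, h.vE_c,
    map_inv₀, mul_inv_eq_one₀ (by simpa using hc)] at h3
  rw [h3, h1]





end BC

end bc

end Crest.Agent.T15.Id
end

-- ▼ part T15/IdWB_11
section

/-!
# Row 15 (helper11): lifting automorphisms of residue fields

* `lift_res` : `E / F` Galois; an automorphism of the residue field of `E` which fixes the residues
  of `F` lifts to an isometric element of `Gal(E / F)`;
* `ext_res` : extension of isometric embeddings with prescribed residue action;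
* Gauss points `GP` : `GP.exists_aut` (in particular lifts of Frobenius `z ↦ z ^ p`),
  `GP.exists_fin`, `GP.alg`.
-/

set_option autoImplicit false
set_option linter.all false

namespace Crest.Agent.T15.Id

open Module Polynomial
open scoped NNReal
open Crest.Agent.R013.GR4_921
open Crest.Agent.R013.Clause1_97 (BB AA QQ mem_QQ mem_BB)
open Crest.Agent.R013.Hens_899 (hens inv_hens residue_hens Inv)
open Crest.Agent.T15.Disc (exists_resEquiv)

section lift

variable {F E Ω : Type*} [Field F] [Field E] [Algebra F E] [Field Ω]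
  {v : Valuation E ℝ≥0} {ρ : E → Ω}

theorem lift_res_inv [IsGalois F E] (h : IsRes v ρ) (hI : Inv F v) (γ : Ω ≃+* Ω)
    (hγ : ∀ a : F, v (algebraMap F E a) ≤ 1 → γ (ρ (algebraMap F E a)) = ρ (algebraMap F E a)) :
    ∃ g : E ≃ₐ[F] E, ∀ x, v x ≤ 1 → ρ (g x) = γ (ρ x) := by
  have hB : ∀ b : BB F v, v (b : E) ≤ 1 := fun b => by simpa using b.2 1
  have hB' : ∀ x : E, v x ≤ 1 → x ∈ BB F v := fun x hx g => by rw [hI g x]; exact hx
  let ψ : BB F v →+* Ω :=
    { toFun := fun b => ρ b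
      map_one' := h.one
      map_mul' := fun a b => h.mul _ _ (hB a) (hB b)
      map_zero' := h.zero
      map_add' := fun a b => h.add _ _ (hB a) (hB b) }
  have hker : ∀ b, b ∈ QQ F v ↔ ψ b = 0 := fun b => by
    rw [mem_QQ]; exact (h.zero_iff _ (hB b)).symm
  let ψ' : (BB F v ⧸ QQ F v) →+* Ω := Ideal.Quotient.lift _ ψ fun b hb => (hker b).mp hb
  have hψ' : ∀ b, ψ' (Ideal.Quotient.mk _ b) = ρ b := fun b => rfl
  have hbij : Function.Bijective ψ' := by
    constructor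
    · rw [injective_iff_map_eq_zero]
      intro y hy
      obtain ⟨b, rfl⟩ := Ideal.Quotient.mk_surjective y
      exact Ideal.Quotient.eq_zero_iff_mem.mpr ((hker b).mpr hy)
    · intro y
      obtain ⟨x, hx, rfl⟩ := h.surj y
      exact ⟨Ideal.Quotient.mk _ ⟨x, hB' x hx⟩, rfl⟩
  let e : (BB F v ⧸ QQ F v) ≃+* Ω := RingEquiv.ofBijective ψ' hbij
  have he : ∀ b, e (Ideal.Quotient.mk _ b) = ρ b := fun b => rfl
  let f : (BB F v ⧸ QQ F v) ≃+* (BB F v ⧸ QQ F v) := (e.trans γ).trans e.symm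
  have hf : ∀ y, e (f y) = γ (e y) := fun y => by
    change e (e.symm (γ (e y))) = _
    rw [RingEquiv.apply_symm_apply]
  let P : Ideal (AA F v) := (QQ F v).under (AA F v)
  have hcomm : ∀ r : AA F v ⧸ P, f (algebraMap (AA F v ⧸ P) (BB F v ⧸ QQ F v) r)
      = algebraMap (AA F v ⧸ P) (BB F v ⧸ QQ F v) r := by
    intro r
    obtain ⟨a, rfl⟩ := Ideal.Quotient.mk_surjective r
    have h1 : algebraMap (AA F v ⧸ P) (BB F v ⧸ QQ F v) (Ideal.Quotient.mk P a)
        = Ideal.Quotient.mk (QQ F v) (algebraMap (AA F v) (BB F v) a) := rfl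
    apply e.injective
    rw [hf, h1, he]
    exact hγ a a.2
  let σ : (BB F v ⧸ QQ F v) ≃ₐ[AA F v ⧸ P] (BB F v ⧸ QQ F v) := AlgEquiv.ofRingEquiv (f := f) hcomm
  obtain ⟨⟨g, hg⟩, hgσ⟩ := Ideal.Quotient.stabilizerHom_surjective_of_profinite
    (G := E ≃ₐ[F] E) P (QQ F v) σ
  refine ⟨g, fun x hx => ?_⟩
  have h1 : Ideal.Quotient.stabilizerHom (QQ F v) P (E ≃ₐ[F] E) ⟨g, hg⟩
      (Ideal.Quotient.mk (QQ F v) ⟨x, hB' x hx⟩) = f (Ideal.Quotient.mk (QQ F v) ⟨x, hB' x hx⟩) := by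
    rw [hgσ]; rfl
  have h2 : Ideal.Quotient.mk (QQ F v) (g • (⟨x, hB' x hx⟩ : BB F v))
      = f (Ideal.Quotient.mk (QQ F v) ⟨x, hB' x hx⟩) := h1
  have h3 := congrArg e h2
  rw [hf, he, he] at h3
  exact h3

/-- **LIFT** -/
theorem lift_res [IsGalois F E] (h : IsRes v ρ) (γ : Ω ≃+* Ω)
    (hγ : ∀ a : F, v (algebraMap F E a) ≤ 1 → γ (ρ (algebraMap F E a)) = ρ (algebraMap F E a)) :
    ∃ g : E ≃ₐ[F] E, (∀ x, v (g x) = v x) ∧ ∀ x, v x ≤ 1 → ρ (g x) = γ (ρ x) := by
  obtain ⟨g, hg⟩ := lift_res_inv (F := hens F v) h (inv_hens v) γ (by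
    intro a ha
    obtain ⟨b, hb⟩ := residue_hens a.2 ha
    have hb1 : v (algebraMap F E b) ≤ 1 := by
      have h1 : algebraMap F E b = (a : E) - ((a : E) - algebraMap F E b) := by ring
      rw [h1]
      exact (Valuation.map_sub _ _ _).trans (max_le ha hb.le)
    have h2 : ρ (algebraMap (hens F v) E a) = ρ (algebraMap F E b) := (h.eq_iff ha hb1).mpr hb
    rw [h2]
    exact hγ b hb1)
  exact ⟨g.restrictScalars F, fun x => inv_hens v g x, hg⟩

theorem isAlg_of_range {A : Type*} [CommRing A] [Algebra A E]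
    (hinj : Function.Injective (algebraMap A E)) (h : ∀ a : A, ∃ b, algebraMap F E b = algebraMap A E a)
    [Algebra.IsAlgebraic A E] : Algebra.IsAlgebraic F E := by
  choose f hf using h
  have hi := (algebraMap F E).injective
  let φ : A →+* F :=
    { toFun := f
      map_one' := hi (by rw [hf, map_one, map_one])
      map_mul' := fun a b => hi (by rw [map_mul, hf, hf, hf, map_mul])
      map_zero' := hi (by rw [hf, map_zero, map_zero])
      map_add' := fun a b => hi (by rw [map_add, hf, hf, hf, map_add]) }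
  exact ⟨fun x => Crest.Agent.R013.Div3_280.isAlgebraic_of_ringHom φ hf hinj
    (Algebra.IsAlgebraic.isAlgebraic x)⟩


/-- independent residues have independent lifts -/
theorem indep_lift (h : IsRes v ρ) {K : Type*} [Field K] [Algebra K Ω]
    (hK : ∀ c : F, v (algebraMap F E c) ≤ 1 → ρ (algebraMap F E c) ∈ Set.range (algebraMap K Ω))
    {ι : Type*} [Fintype ι] {a : ι → E} (ha : ∀ i, v (a i) ≤ 1)
    (hli : LinearIndependent K fun i => ρ (a i)) : LinearIndependent F a := by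
  rw [Fintype.linearIndependent_iff] at hli ⊢
  intro c hc j
  by_contra hj
  obtain ⟨i, -, hi⟩ := Finset.exists_max_image Finset.univ (fun j => v (algebraMap F E (c j)))
    ⟨j, Finset.mem_univ _⟩
  have h0 : c i ≠ 0 := by
    intro h3
    have h4 := hi j (Finset.mem_univ _)
    rw [h3, map_zero, map_zero] at h4
    exact hj (by simpa using (Valuation.zero_iff v).mp (le_antisymm h4 zero_le))
  have h1 : ∀ l, v (algebraMap F E (c l / c i)) ≤ 1 := fun l => by
    rw [map_div₀, map_div₀]; exact div_le_one_of_le₀ (hi l (Finset.mem_univ _)) zero_le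
  choose r hr using fun l => hK _ (h1 l)
  have h2 : ∑ l, algebraMap F E (c l / c i) * a l = 0 := by
    have h3 : ∑ l, algebraMap F E (c l / c i) * a l = (c i)⁻¹ • ∑ l, c l • a l := by
      rw [Finset.smul_sum]
      refine Finset.sum_congr rfl fun l _ => ?_
      rw [smul_smul, Algebra.smul_def, div_eq_inv_mul]
    rw [h3, hc, smul_zero]
  have h3 := h.sum Finset.univ (fun l => algebraMap F E (c l / c i) * a l) fun l _ => by
    rw [map_mul]; exact mul_le_one' (h1 l) (ha l)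
  rw [h2, h.zero] at h3
  have h4 := hli r (by
    rw [h3]
    refine Finset.sum_congr rfl fun l _ => ?_
    rw [h.mul _ _ (h1 l) (ha l), ← hr, Algebra.smul_def]) i
  have h5 := hr i
  rw [h4, map_zero, div_self h0, map_one, h.one] at h5
  exact zero_ne_one h5

theorem res_eval₂ (h : IsRes v ρ) {C : Type*} [Field C] (j : C →+* E) {z : E} (hz : v z ≤ 1)
    {p : C[X]} (hp : ∀ i, v (j (p.coeff i)) ≤ 1) :
    v (eval₂ j z p) ≤ 1 ∧
      ρ (eval₂ j z p) = ∑ i ∈ Finset.range (p.natDegree + 1), ρ (j (p.coeff i)) * ρ z ^ i := by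
  have h1 : ∀ i, v (z ^ i) ≤ 1 := fun i => by rw [map_pow]; exact pow_le_one' hz i
  have h2 : ∀ i, v (j (p.coeff i) * z ^ i) ≤ 1 := fun i => by
    rw [map_mul]; exact mul_le_one' (hp i) (h1 i)
  rw [eval₂_eq_sum_range]
  refine ⟨Valuation.map_sum_le _ fun i _ => h2 i, ?_⟩
  rw [h.sum _ _ fun i _ => h2 i]
  exact Finset.sum_congr rfl fun i _ => by rw [h.mul _ _ (hp i) (h1 i), h.pow hz]

theorem exists_prim {C : Type*} [Field C] (vC : Valuation C ℝ≥0) {p : C[X]} (hp : p ≠ 0) :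
    ∃ (c : C) (q : C[X]), c ≠ 0 ∧ p = Polynomial.C c * q ∧ (∀ i, vC (q.coeff i) ≤ 1) ∧
      ∃ i, q.coeff i = 1 := by
  obtain ⟨i, -, hi⟩ := Finset.exists_max_image (Finset.range (p.natDegree + 1))
    (fun j => vC (p.coeff j)) ⟨0, by simp⟩
  have h0 : p.coeff i ≠ 0 := by
    intro h3
    have h4 := hi p.natDegree (by simp)
    rw [h3, map_zero] at h4
    exact hp (leadingCoeff_eq_zero.mp ((Valuation.zero_iff vC).mp (le_antisymm h4 zero_le)))
  refine ⟨p.coeff i, Polynomial.C (p.coeff i)⁻¹ * p, h0, ?_, fun j => ?_, i, ?_⟩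
  · rw [← mul_assoc, ← map_mul, mul_inv_cancel₀ h0, map_one, one_mul]
  · rw [coeff_C_mul, map_mul, map_inv₀, inv_mul_le_iff₀ (by rwa [Valuation.pos_iff]), mul_one]
    by_cases hj : j ≤ p.natDegree
    · exact hi j (by simp; omega)
    · rw [coeff_eq_zero_of_natDegree_lt (by omega), map_zero]; exact zero_le
  · rw [coeff_C_mul, inv_mul_cancel₀ h0]

end lift

section gp

variable {C E k Ω : Type*} [Field C] [Field E] [Algebra C E] [Field k] [Field Ω] [Algebra k Ω]

/-- `z` is a Gauss point: its residue is transcendental; `E` is algebraic over `C(z)` -/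
structure GP (vC : Valuation C ℝ≥0) (ρC : C → k) (v : Valuation E ℝ≥0) (ρ : E → Ω) (z : E) :
    Prop where
  resC : IsRes vC ρC
  res : IsRes v ρ
  v_c : ∀ c, v (algebraMap C E c) = vC c
  ρ_c : ∀ c, vC c ≤ 1 → ρ (algebraMap C E c) = algebraMap k Ω (ρC c)
  le : v z ≤ 1
  tr : Transcendental k (ρ z)
  alg : Algebra.IsAlgebraic (Algebra.adjoin C {z}) E

namespace GP

variable {vC : Valuation C ℝ≥0} {ρC : C → k} {v : Valuation E ℝ≥0} {ρ : E → Ω} {z : E}
  (h : GP vC ρC v ρ z)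

include h

theorem res_prim {q : C[X]} (hq : ∀ i, vC (q.coeff i) ≤ 1) :
    v (aeval z q) ≤ 1 ∧ ρ (aeval z q) ∈ Algebra.adjoin k {ρ z} ∧
      ((∃ i, q.coeff i = 1) → v (aeval z q) = 1) := by
  obtain ⟨h1, h2⟩ := res_eval₂ h.res (algebraMap C E) h.le (p := q) fun i => by
    rw [h.v_c]; exact hq i
  rw [← aeval_def] at h1 h2
  have h3 : ρ (aeval z q) =
      aeval (ρ z) (∑ i ∈ Finset.range (q.natDegree + 1), monomial i (ρC (q.coeff i))) := by
    rw [h2, map_sum]
    exact Finset.sum_congr rfl fun i _ => by rw [aeval_monomial, h.ρ_c _ (hq i)]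
  refine ⟨h1, by rw [h3]; exact aeval_mem_adjoin_singleton _ _, ?_⟩
  rintro ⟨i, hi⟩
  rw [← h.res.ne_zero_iff h1, h3]
  intro h4
  have h5 := congrArg (fun p => coeff p i) (transcendental_iff.mp h.tr _ h4)
  have h6 : i ≤ q.natDegree := le_natDegree_of_ne_zero (by rw [hi]; exact one_ne_zero)
  simp only [finset_sum_coeff, coeff_monomial, Finset.sum_ite_eq', Finset.mem_range, coeff_zero]
    at h5
  rw [if_pos (by omega), hi, h.resC.one] at h5
  exact one_ne_zero h5


/-- the residues of `C(z)` lie in `k(ρ z)` -/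
theorem res_mem {a : E} (ha : a ∈ IntermediateField.adjoin C {z}) (h1 : v a ≤ 1) :
    ρ a ∈ IntermediateField.adjoin k {ρ z} := by
  obtain ⟨r, s, rfl⟩ := (IntermediateField.mem_adjoin_simple_iff C a).mp ha
  by_cases hr : r = 0
  · rw [hr, map_zero, zero_div, h.res.zero]; exact zero_mem _
  by_cases hs : s = 0
  · rw [hs, map_zero, div_zero, h.res.zero]; exact zero_mem _
  obtain ⟨c, q, hc, rfl, h2, h3⟩ := exists_prim vC hr
  obtain ⟨c', q', hc', rfl, h2', h3'⟩ := exists_prim vC hs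
  obtain ⟨h4, h5, h6⟩ := h.res_prim h2
  obtain ⟨h4', h5', h6'⟩ := h.res_prim h2'
  have e : aeval z (Polynomial.C c * q) / aeval z (Polynomial.C c' * q')
      = algebraMap C E (c / c') * aeval z q / aeval z q' := by
    rw [map_mul, map_mul, aeval_C, aeval_C, map_div₀, mul_div_mul_comm, mul_div_assoc]
  rw [e] at h1 ⊢
  have h7 : vC (c / c') ≤ 1 := by
    rwa [map_div₀, map_mul, h6 h3, h6' h3', mul_one, div_one, h.v_c] at h1
  have h8 : v (algebraMap C E (c / c')) ≤ 1 := by rw [h.v_c]; exact h7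
  rw [h.res.div (by rw [map_mul]; exact mul_le_one' h8 h4) (h6' h3'), h.res.mul _ _ h8 h4,
    h.ρ_c _ h7]
  exact div_mem (mul_mem (IntermediateField.algebraMap_mem _ _)
    (IntermediateField.algebra_adjoin_le_adjoin _ _ h5))
    (IntermediateField.algebra_adjoin_le_adjoin _ _ h5')

theorem alg' : Algebra.IsAlgebraic (IntermediateField.adjoin C {z}) E := by
  haveI := h.alg
  exact isAlg_of_range (A := Algebra.adjoin C {z}) Subtype.val_injective fun a =>
    ⟨⟨a, IntermediateField.algebra_adjoin_le_adjoin _ _ a.2⟩, rfl⟩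

theorem indep {ι : Type*} [Fintype ι] {a : ι → E} (ha : ∀ i, v (a i) ≤ 1)
    (hli : LinearIndependent (IntermediateField.adjoin k {ρ z}) fun i => ρ (a i)) :
    LinearIndependent (IntermediateField.adjoin C {z}) a :=
  indep_lift h.res (fun c hc => ⟨⟨_, h.res_mem c.2 hc⟩, rfl⟩) ha hli

/-- **ALG**: the residue field is algebraic over `k(ρ z)` -/
theorem alg_res : Algebra.IsAlgebraic (IntermediateField.adjoin k {ρ z}) Ω := by
  haveI := h.alg'
  refine ⟨fun y => ?_⟩
  obtain ⟨x, hx, rfl⟩ := h.res.surj y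
  by_contra hcon
  obtain ⟨p, hp0, hp⟩ := Algebra.IsAlgebraic.isAlgebraic (R := IntermediateField.adjoin C {z}) x
  have h1 : LinearIndependent (IntermediateField.adjoin C {z})
      fun i : Fin (p.natDegree + 1) => x ^ (i : ℕ) := by
    refine h.indep (fun i => by rw [map_pow]; exact pow_le_one' hx _) ?_
    rw [Fintype.linearIndependent_iff]
    intro c hc i
    have h2 : aeval (ρ x) (∑ j : Fin (p.natDegree + 1), monomial (j : ℕ) (c j)) = 0 := by
      rw [map_sum, ← hc]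
      exact Finset.sum_congr rfl fun j _ => by rw [aeval_monomial, h.res.pow hx, Algebra.smul_def]
    have h3 := congrArg (fun p => coeff p i) (transcendental_iff.mp hcon _ h2)
    simp only [finset_sum_coeff, coeff_monomial, Fin.val_inj, Finset.sum_ite_eq', Finset.mem_univ,
      if_true, coeff_zero] at h3
    exact h3
  rw [Fintype.linearIndependent_iff] at h1
  have h2 := h1 (fun i => p.coeff i) (by
    rw [← hp, aeval_eq_sum_range, Finset.sum_range]) (Fin.last _)
  exact hp0 (leadingCoeff_eq_zero.mp h2)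


variable [IsAlgClosed E] [CharZero E]

/-- **FIN + LIFT**: automorphisms of `Ω` over a finitely generated field lift over `C(z, T)` -/
theorem exists_fin (T : Finset E) : ∃ S : Finset Ω, ρ z ∈ S ∧ ∀ γ : Ω ≃+* Ω,
    (∀ c, γ (algebraMap k Ω c) = algebraMap k Ω c) → (∀ s ∈ S, γ s = s) →
    ∃ g : E ≃+* E, (∀ c, g (algebraMap C E c) = algebraMap C E c) ∧ g z = z ∧ (∀ t ∈ T, g t = t) ∧
      (∀ x, v (g x) = v x) ∧ ∀ x, v x ≤ 1 → ρ (g x) = γ (ρ x) := by
  classical
  haveI := h.alg'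
  set F1 := IntermediateField.adjoin C {z} with hF1
  set K1 := IntermediateField.adjoin k {ρ z} with hK1
  let F0 : IntermediateField F1 E := IntermediateField.adjoin F1 (T : Set E)
  haveI : FiniteDimensional F1 F0 := IntermediateField.finiteDimensional_adjoin fun x _ =>
    (Algebra.IsAlgebraic.isAlgebraic (R := F1) x).isIntegral
  let A : Set Ω := {y | ∃ a : F0, v (a : E) ≤ 1 ∧ ρ a = y}
  obtain ⟨B, hBA, hspan, hli⟩ := exists_linearIndependent K1 A
  have hfin : B.Finite := by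
    by_contra hinf
    obtain ⟨B', hB', hcard⟩ := Set.Infinite.exists_subset_card_eq hinf (finrank F1 F0 + 1)
    choose a ha1 ha2 using fun b : B' => hBA (hB' b.2)
    have h1 : LinearIndependent K1 fun b : B' => ρ (a b) := by
      simp only [ha2]
      exact hli.comp (fun b : B' => (⟨b, hB' b.2⟩ : B)) fun b b' hb =>
        Subtype.ext (congrArg (fun x : B => (x : Ω)) hb)
    have h2 := h.indep ha1 h1
    have h3 : LinearIndependent F1 a := LinearIndependent.of_comp F0.val.toLinearMap h2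
    have h4 := h3.fintype_card_le_finrank
    rw [Fintype.card_coe, hcard] at h4
    omega
  refine ⟨insert (ρ z) hfin.toFinset, Finset.mem_insert_self _ _, fun γ hk hS => ?_⟩
  have hK : ∀ y ∈ K1, γ y = y := by
    intro y hy
    induction hy using IntermediateField.adjoin_induction with
    | mem x hx => rw [Set.mem_singleton_iff.mp hx]; exact hS _ (Finset.mem_insert_self _ _)
    | algebraMap c => exact hk c
    | add x y _ _ h1 h2 => rw [map_add, h1, h2]
    | inv x _ h1 => rw [map_inv₀, h1]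
    | mul x y _ _ h1 h2 => rw [map_mul, h1, h2]
  have hA : ∀ y ∈ Submodule.span K1 B, γ y = y := by
    intro y hy
    induction hy using Submodule.span_induction with
    | mem x hx => exact hS _ (Finset.mem_insert_of_mem (hfin.mem_toFinset.mpr hx))
    | zero => exact map_zero _
    | add x y _ _ h1 h2 => rw [map_add, h1, h2]
    | smul c x _ h1 =>
      rw [Algebra.smul_def, map_mul, h1]
      exact congrArg (· * x) (hK _ c.2)
  haveI : Algebra.IsAlgebraic F0 E := Algebra.IsAlgebraic.tower_top (K := F1) F0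
  haveI : CharZero F0 := (algebraMap F0 E).charZero
  haveI : IsAlgClosure F0 E := ⟨inferInstance, inferInstance⟩
  haveI : IsGalois F0 E := inferInstance
  obtain ⟨g, hg1, hg2⟩ := lift_res (F := F0) h.res γ fun a ha =>
    hA _ (by rw [hspan]; exact Submodule.subset_span ⟨a, ha, rfl⟩)
  have hg : ∀ x ∈ F0, g x = x := fun x hx => g.commutes ⟨x, hx⟩
  have hg' : ∀ x ∈ F1, g x = x := fun x hx => hg x (F0.algebraMap_mem ⟨x, hx⟩)
  exact ⟨g.toRingEquiv, fun c => hg' _ (F1.algebraMap_mem c),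
    hg' _ (IntermediateField.mem_adjoin_simple_self C z),
    fun t ht => hg t (IntermediateField.subset_adjoin _ _ ht), hg1, hg2⟩



end GP

end gp

end Crest.Agent.T15.Id
end

-- ▼ part T15/IdWC_11

/-!
# Row 15 (helper11): the characteristic zero wrapper for FAITH

* `BC.exists_good` : good reduction after base change; `BC.W'_SI`, `BC.sp_conP`, `BC.spPic_base`;
* `exists_SI` : semilinear automorphisms of a constant field extension;
* `BC.wr` : `Ψ = ∑ b i ∘ S i` kills the `n`-torsion ⇒ `sp (Ψ x) = n • c` with `c` invariant.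
-/

set_option autoImplicit false
set_option linter.all false

namespace Crest.Agent.T15.Id

open Module WithZero
open scoped NNReal TensorProduct
open Crest.Agent.R013.RR7_948 Crest.Agent.R013.RR8_948 Crest.Agent.R013.RR9_948
open Crest.Agent.R013.RR11_948 Crest.Agent.R013.RR12_948 Crest.Agent.R013.RR13_948
open Crest.Agent.R013.GR4_921 Crest.Agent.R013.GR5_921 Crest.Agent.R013.GR6_921
open Crest.Agent.R013.CE3_280 Crest.Agent.R013.CE5_280
open Crest.Agent.R013.PicD_398 Crest.Agent.R013.Frob1_914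
open Crest.Agent.T15.Disc (Good exists_good)

section ce

variable {F K Ω L : Type*} [Field F] [Field K] [Algebra F K] [Field Ω] [Algebra F Ω]
  [Field L] [Algebra Ω L] [Algebra F L] [IsScalarTower F Ω L] {ι : K →ₐ[F] L}




end ce

section pic

variable {k K k' K' : Type*} [Field k] [Field K] [Algebra k K] [Field k'] [Field K'] [Algebra k' K']
  [Algebra (RatFunc k) K] [IsScalarTower k (RatFunc k) K] [FiniteDimensional (RatFunc k) K]
  [Algebra.IsSeparable (RatFunc k) K]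
  [Algebra (RatFunc k') K'] [IsScalarTower k' (RatFunc k') K'] [FiniteDimensional (RatFunc k') K']
  [Algebra.IsSeparable (RatFunc k') K']

omit [Algebra (RatFunc k) K] [IsScalarTower k (RatFunc k) K] [FiniteDimensional (RatFunc k) K]
  [Algebra.IsSeparable (RatFunc k) K]
  [Algebra (RatFunc k') K'] [IsScalarTower k' (RatFunc k') K'] [FiniteDimensional (RatFunc k') K']
  [Algebra.IsSeparable (RatFunc k') K'] in
theorem pl_congr {e e' : SI k K k' K'} (h : ∀ f, e.f f = e'.f f) (P : Pl k K) :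
    e.pl P = e'.pl P := by
  have h1 : e.f = e'.f := RingEquiv.ext h
  apply Pl.ext
  ext x
  rw [SI.pl_v, SI.pl_v, h1]

theorem pic_congr {e e' : SI k K k' K'} (h : ∀ f, e.f f = e'.f f) (x : Pic k K) :
    e.pic x = e'.pic x := by
  obtain ⟨D, rfl⟩ := cls_surjective x
  rw [SI.pic_cls, SI.pic_cls]
  congr 1
  induction D using Finsupp.induction_linear with
  | zero => simp
  | add D E h1 h2 => simp only [map_add, h1, h2]
  | single P n => rw [SI.D_single, SI.D_single, pl_congr h]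

theorem refl_pic (x : Pic k K) : (SI.refl k K).pic x = x := by
  obtain ⟨D, rfl⟩ := cls_surjective x
  rw [SI.pic_cls]
  congr 1
  ext P
  rw [SI.D_apply]
  rfl

theorem symm_pic_pic (e : SI k K k' K') (x : Pic k K) : e.symm.pic (e.pic x) = x := by
  obtain ⟨D, rfl⟩ := cls_surjective x
  rw [SI.pic_cls, SI.pic_cls, SI.symm_D_D]

theorem exists_div_pic [IsAlgClosed k] [CharZero k] {n : ℕ} (hn : 0 < n) {x : Pic k K}
    (hx : degPic x = 0) : ∃ y : Pic k K, degPic y = 0 ∧ n • y = x := by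
  obtain ⟨D, rfl⟩ := cls_surjective x
  obtain ⟨E, f, hf, hE, rfl⟩ := Crest.Agent.R013.Div6_280.exists_div hn hx
  exact ⟨cls E, hE, by rw [map_add, cls_divf hf, add_zero, map_nsmul]⟩

end pic

section base

variable {F K Ω L : Type*} [Field F] [IsAlgClosed F] [Field K] [Algebra F K]
  [Algebra (RatFunc F) K] [IsScalarTower F (RatFunc F) K] [FiniteDimensional (RatFunc F) K]
  [Algebra.IsSeparable (RatFunc F) K]
  [Field Ω] [Algebra F Ω] [IsAlgClosed Ω]
  [Field L] [Algebra Ω L] [Algebra F L] [IsScalarTower F Ω L]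
  [Algebra (RatFunc Ω) L] [IsScalarTower Ω (RatFunc Ω) L]
  [FiniteDimensional (RatFunc Ω) L] [Algebra.IsSeparable (RatFunc Ω) L] {ι : K →ₐ[F] L}












end base

section bc0

variable {C E M N k Ω K L : Type*} [Field C] [Field E] [Algebra C E] [Field M] [Algebra C M]
  [Field N] [Algebra E N] [Algebra C N] [IsScalarTower C E N]
  [Field k] [Field Ω] [Algebra k Ω] [Field K] [Algebra k K] [Field L] [Algebra Ω L] [Algebra k L]
  [IsScalarTower k Ω L]
  {vC : Valuation C ℝ≥0} {ρC : C → k} {W : Valuation M ℝ≥0} {ρ : M → K}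
  {vE : Valuation E ℝ≥0} {ρE : E → Ω} {ι' : M →ₐ[C] N} {ι : K →ₐ[k] L}


/-- admissible automorphisms: isometric, preserving `M`, residue action a power map -/
structure Adm (W : Valuation M ℝ≥0) (vE : Valuation E ℝ≥0) (ρE : E → Ω) (ι' : M →ₐ[C] N)
    (e : SI E N E N) : Prop where
  iso : ∀ a, vE (e.s a) = vE a
  pres : ∃ e0 : M ≃+* M, (∀ f, W (e0 f) = W f) ∧ ∀ f, e.f (ι' f) = ι' (e0 f)
  frob : ∃ q : ℕ, ∀ a, vE a ≤ 1 → ρE (e.s a) = ρE a ^ q

theorem Adm.refl : Adm W vE ρE ι' (SI.refl E N) :=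
  ⟨fun _ => rfl, ⟨RingEquiv.refl M, fun _ => rfl, fun _ => rfl⟩, 1, fun _ _ => (pow_one _).symm⟩

theorem Adm.trans {e e' : SI E N E N} (h : Adm W vE ρE ι' e) (h' : Adm W vE ρE ι' e') :
    Adm W vE ρE ι' (e.trans e') := by
  obtain ⟨e0, h1, h2⟩ := h.pres
  obtain ⟨e0', h1', h2'⟩ := h'.pres
  obtain ⟨q, hq⟩ := h.frob
  obtain ⟨q', hq'⟩ := h'.frob
  refine ⟨fun a => (h'.iso _).trans (h.iso a), ⟨e0.trans e0', fun f => (h1' _).trans (h1 f),
    fun f => ?_⟩, q * q', fun a ha => ?_⟩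
  · change e'.f (e.f _) = _
    rw [h2, h2']; rfl
  · change ρE (e'.s (e.s a)) = _
    rw [hq' _ (by rw [h.iso]; exact ha), hq a ha, pow_mul]

end bc0

section bc

variable {C E M N k Ω K L : Type*} [Field C] [IsAlgClosed C] [CharZero C]
  [Field E] [IsAlgClosed E] [CharZero E] [Algebra C E] [Field M] [Algebra C M]
  [Algebra (RatFunc C) M] [IsScalarTower C (RatFunc C) M] [FiniteDimensional (RatFunc C) M]
  [Field N] [Algebra E N] [Algebra C N] [IsScalarTower C E N]
  [Algebra (RatFunc E) N] [IsScalarTower E (RatFunc E) N] [FiniteDimensional (RatFunc E) N]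
  [Field k] [IsAlgClosed k] [Field Ω] [IsAlgClosed Ω] [Algebra k Ω] [Field K] [Algebra k K]
  [Algebra (RatFunc k) K] [IsScalarTower k (RatFunc k) K] [FiniteDimensional (RatFunc k) K]
  [Algebra.IsSeparable (RatFunc k) K]
  [Field L] [Algebra Ω L] [Algebra k L] [IsScalarTower k Ω L]
  [Algebra (RatFunc Ω) L] [IsScalarTower Ω (RatFunc Ω) L] [FiniteDimensional (RatFunc Ω) L]
  [Algebra.IsSeparable (RatFunc Ω) L]
  {vC : Valuation C ℝ≥0} {ρC : C → k} {W : Valuation M ℝ≥0} {ρ : M → K}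
  {vE : Valuation E ℝ≥0} {ρE : E → Ω} {ι' : M →ₐ[C] N} {ι : K →ₐ[k] L}

namespace BC

variable (h : BC vC ρC W ρ vE ρE ι' ι)

include h


variable {sp' : Pl E N → Pl Ω L} (hG' : Good vE ρE h.W' h.ρ' sp')

include hG'








end BC

end bc

end Crest.Agent.T15.Id
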