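import Mathlib
import Crest.Agent.T15.Inj_71
import Crest.Agent.T15.Sp_90

-- ▼ part T15/IdG_11
section

/-!
# Row 15, block Ht (helper11): good reduction in every characteristic

Copy of the parts of R013/GR5-GR7 (921) and T15/Disc, Inj (71) which assumed `CharZero C`,
with `Algebra.IsSeparable (RatFunc C) L` instead.
-/

set_option autoImplicit false
set_option linter.all false

namespace Crest.Agent.T15.Id

open Polynomial WithZero Module
open scoped NNReal
open Crest.Agent.R013.RR7_948 Crest.Agent.R013.RR8_948 Crest.Agent.R013.RR9_948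
open Crest.Agent.R013.RR11_948 Crest.Agent.R013.RR12_948
open Crest.Agent.R013.RR18_948 Crest.Agent.R013.RR19_948 Crest.Agent.R013.RR20_948
open Crest.Agent.R013.RR21_948
open Crest.Agent.R013.GR2_921
open Crest.Agent.R013.GR4_921 hiding residue_const exists_good_lift
open Crest.Agent.R013.GR5_921 hiding SpP sp_eq_of_pole exists_fun sp_equivariant mapDomain_mapD
open Crest.Agent.R013.GR6_921 hiding lift_indep degD_poles_le
open Crest.Agent.R013.GR7_921 hiding finrank_red_LD one_mem_red exists_bar ell_le gen_le bar_eq add_le_bar exists_sp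
open Crest.Agent.T15.Disc hiding Good exists_good Reg

section card

variable {C : Type*} [Field C] [IsAlgClosed C] {L : Type*} [Field L] [Algebra C L]
  [Algebra (RatFunc C) L] [IsScalarTower C (RatFunc C) L] [FiniteDimensional (RatFunc C) L]
  [Algebra.IsSeparable (RatFunc C) L]

theorem poles_nonneg (f : L) : 0 ≤ poles (k := C) f := fun P => by
  rw [poles_apply]; exact le_max_right _ _

theorem mem_LD_poles' (f : L) : f ∈ LD (poles (k := C) f) := by
  by_cases hf : f = 0
  · rw [hf]; exact zero_mem _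
  · exact mem_LD_poles hf

theorem mul_mem_LD {D E : Pl C L →₀ ℤ} {f g : L} (hf : f ∈ LD D) (hg : g ∈ LD E) :
    f * g ∈ LD (D + E) := by
  rw [mem_LD] at hf hg ⊢
  intro P
  rw [map_mul, Finsupp.add_apply, exp_add]
  exact mul_le_mul' (hf P) (hg P)

theorem pow_mem_LD {D : Pl C L →₀ ℤ} {f : L} (hf : f ∈ LD D) (n : ℕ) : f ^ n ∈ LD (n • D) := by
  induction n with
  | zero => rw [pow_zero, zero_nsmul, mem_LD]; intro P; simp
  | succ n ih => rw [pow_succ, succ_nsmul]; exact mul_mem_LD ih hf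

theorem degD_nsmul' (n : ℕ) (E : Pl C L →₀ ℤ) : degD (n • E) = n * degD E := by
  induction n with
  | zero => simp [degD_zero]
  | succ n ih => rw [succ_nsmul, degD_add, ih]; push_cast; ring

theorem degD_nonneg' {D : Pl C L →₀ ℤ} (hD : 0 ≤ D) : 0 ≤ degD D := by
  have := degD_mono hD
  rwa [degD_zero] at this

/-- `[L : C(t)] ≤ deg (poles t)`, no separability -/
theorem card_le_poles (t : L) {ι : Type} [Fintype ι] (g : ι → L)
    (hind : ∀ Φ : ι → C[X], ∑ i, aeval t (Φ i) * g i = 0 → ∀ i, Φ i = 0) :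
    (Fintype.card ι : ℤ) ≤ degD (poles (k := C) t) := by
  classical
  obtain ⟨P0, _⟩ := exists_notMem (k := C) (K := L) ∅
  set B := poles (k := C) t with hB
  set D0 : Pl C L →₀ ℤ := ∑ i, poles (k := C) (g i) + Finsupp.single P0 (2 * gen C L : ℤ) with hD0
  have hs0 : (0 : Pl C L →₀ ℤ) ≤ Finsupp.single P0 (2 * gen C L : ℤ) := by
    intro P; rw [Finsupp.single_apply]; split_ifs <;> simp
  have hsum : (0 : Pl C L →₀ ℤ) ≤ ∑ i, poles (k := C) (g i) :=
    Finset.sum_nonneg fun i _ => poles_nonneg _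
  have hg : ∀ i, g i ∈ LD D0 := by
    intro i
    refine LD_mono ?_ (mem_LD_poles' (g i))
    have h1 : poles (k := C) (g i) ≤ ∑ i, poles (k := C) (g i) :=
      Finset.single_le_sum (f := fun i => poles (k := C) (g i)) (fun i _ => poles_nonneg _)
        (Finset.mem_univ i)
    exact h1.trans (le_add_of_nonneg_right hs0)
  have hd0 : (2 * gen C L : ℤ) ≤ degD D0 := by
    rw [hD0, degD_add, degD_single, degP_eq_one]
    have := degD_nonneg' hsum
    push_cast; omega
  have hb0 : 0 ≤ degD B := degD_nonneg' (poles_nonneg t)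
  have key : ∀ r : ℕ, (Fintype.card ι : ℤ) * r ≤ r * degD B + degD D0 + 1 := by
    intro r
    have hmem : ∀ x : ι × Fin r, t ^ (x.2 : ℕ) * g x.1 ∈ LD (r • B + D0) := by
      intro x
      refine LD_mono ?_ (mul_mem_LD (pow_mem_LD (mem_LD_poles' t) x.2) (hg x.1))
      exact add_le_add_left (nsmul_le_nsmul_left (poles_nonneg t) x.2.2.le) _
    let b : ι × Fin r → LD (r • B + D0) := fun x => ⟨_, hmem x⟩
    have hli : LinearIndependent C b := by
      rw [Fintype.linearIndependent_iff]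
      intro c hc
      have h1 := congrArg (Subtype.val) hc
      rw [Submodule.coe_sum] at h1
      have h2 := hind (fun i => ∑ j : Fin r, monomial (j : ℕ) (c (i, j))) (by
        rw [Fintype.sum_prod_type] at h1
        refine Eq.trans ?_ h1
        refine Finset.sum_congr rfl fun i _ => ?_
        rw [map_sum, Finset.sum_mul]
        refine Finset.sum_congr rfl fun j _ => ?_
        rw [aeval_monomial]
        show _ = c (i, j) • (t ^ (j : ℕ) * g i)
        rw [Algebra.smul_def, mul_assoc])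
      rintro ⟨i, j⟩
      have h3 := congrArg (fun q => Polynomial.coeff q (j : ℕ)) (h2 i)
      simp only [finsetSum_coeff, coeff_monomial, coeff_zero] at h3
      rw [Finset.sum_eq_single j (fun j' _ hj' => if_neg fun h => hj' (Fin.ext h))
        (fun h => absurd (Finset.mem_univ _) h), if_pos rfl] at h3
      exact h3
    haveI := LD_finite (r • B + D0)
    have h4 := hli.fintype_card_le_finrank
    rw [Fintype.card_prod, Fintype.card_fin] at h4
    have h5 : degD (r • B + D0) = r * degD B + degD D0 := by rw [degD_add, degD_nsmul']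
    have h6 := ell_eq_of_lt (k := C) (K := L) hc_of_isAlgClosed (D := r • B + D0) (by
      rw [h5]; have : (0 : ℤ) ≤ r * degD B := by positivity
      omega)
    have h7 : ((Fintype.card ι * r : ℕ) : ℤ) ≤ ell (r • B + D0) := by exact_mod_cast h4
    push_cast at h7
    omega
  by_contra hcon
  push Not at hcon
  have h1 := key (degD D0 + 2).toNat
  have h2 : (((degD D0 + 2).toNat : ℕ) : ℤ) = degD D0 + 2 := Int.toNat_of_nonneg (by omega)
  rw [h2] at h1
  have h3 : (degD B + 1) * (degD D0 + 2) ≤ (Fintype.card ι : ℤ) * (degD D0 + 2) :=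
    mul_le_mul_of_nonneg_right hcon (by omega)
  nlinarith

end card

section lemmaT

variable {C : Type*} [Field C] [IsAlgClosed C] {L : Type*} [Field L] [Algebra C L]
  [Algebra (RatFunc C) L] [IsScalarTower C (RatFunc C) L] [FiniteDimensional (RatFunc C) L]
  [Algebra.IsSeparable (RatFunc C) L]
  {k κ : Type*} [Field k] [IsAlgClosed k] [Field κ] [Algebra k κ]
  {vC : Valuation C ℝ≥0} {ρC : C → k} {w : Valuation L ℝ≥0} {ρ : L → κ}



end lemmaT

section sp

variable {C : Type*} [Field C] [IsAlgClosed C] {L : Type*} [Field L] [Algebra C L]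
  [Algebra (RatFunc C) L] [IsScalarTower C (RatFunc C) L] [FiniteDimensional (RatFunc C) L]
  [Algebra.IsSeparable (RatFunc C) L]
  {k κ : Type*} [Field k] [IsAlgClosed k] [Field κ] [Algebra k κ]
  [Algebra (RatFunc k) κ] [IsScalarTower k (RatFunc k) κ] [FiniteDimensional (RatFunc k) κ]
  [Algebra.IsSeparable (RatFunc k) κ]
  {vC : Valuation C ℝ≥0} {ρC : C → k} {w : Valuation L ℝ≥0} {ρ : L → κ}

/-- the specialisation property: divisors of functions of norm one reduce to the divisors of their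
reductions -/
def SpP (w : Valuation L ℝ≥0) (ρ : L → κ) (sp : Pl C L → Pl k κ) : Prop :=
  ∀ u, w u = 1 → divf (k := k) (ρ u) = (divf (k := C) u).mapDomain sp





end sp

section deg

variable {C : Type*} [Field C] [IsAlgClosed C] {L : Type*} [Field L] [Algebra C L]
  [Algebra (RatFunc C) L] [IsScalarTower C (RatFunc C) L] [FiniteDimensional (RatFunc C) L]
  [Algebra.IsSeparable (RatFunc C) L]
  {k κ : Type*} [Field k] [IsAlgClosed k] [Field κ] [Algebra k κ]
  [Algebra (RatFunc k) κ] [IsScalarTower k (RatFunc k) κ] [FiniteDimensional (RatFunc k) κ]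
  [Algebra.IsSeparable (RatFunc k) κ]
  {vC : Valuation C ℝ≥0} {ρC : C → k} {w : Valuation L ℝ≥0} {ρ : L → κ}

/-- lifts of `k(y)`-independent elements are `C(t)`-independent -/
theorem lift_indep (h : Red vC ρC w ρ) {t : L} (ht : w t ≤ 1) {ι : Type} [Fintype ι] {η : ι → κ}
    (hη : ∀ φ : ι → k[X], ∑ i, aeval (ρ t) (φ i) * η i = 0 → ∀ i, φ i = 0) {g : ι → L}
    (hg : ∀ i, w (g i) ≤ 1) (hgη : ∀ i, ρ (g i) = η i) (Φ : ι → C[X])
    (hΦ : ∑ i, aeval t (Φ i) * g i = 0) : ∀ i, Φ i = 0 := by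
  classical
  by_contra hcon
  push Not at hcon
  obtain ⟨i1, hi1⟩ := hcon
  -- maximal coefficient
  let N := Finset.univ.sup fun i => (Φ i).natDegree
  have hN : ∀ i, (Φ i).natDegree ≤ N := fun i =>
    Finset.le_sup (f := fun i => (Φ i).natDegree) (Finset.mem_univ i)
  obtain ⟨⟨i0, n0⟩, _, hmax⟩ := Finset.exists_max_image
    (Finset.univ ×ˢ Finset.range (N + 1) : Finset (ι × ℕ)) (fun x => vC ((Φ x.1).coeff x.2))
    ⟨(i1, 0), by simp⟩
  have hmax' : ∀ i n, vC ((Φ i).coeff n) ≤ vC ((Φ i0).coeff n0) := by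
    intro i n
    by_cases hn : n < N + 1
    · exact hmax (i, n) (by simp; omega)
    · rw [coeff_eq_zero_of_natDegree_lt (by have := hN i; omega), map_zero]
      exact zero_le
  set c := (Φ i0).coeff n0 with hc
  have hc0 : c ≠ 0 := by
    intro h0
    have h1 := hmax' i1 (Φ i1).natDegree
    rw [h0, map_zero] at h1
    have h2 := (Valuation.zero_iff vC).mp (le_antisymm h1 zero_le)
    exact hi1 (leadingCoeff_eq_zero.mp h2)
  have hvc : 0 < vC c := by rw [Valuation.pos_iff]; exact hc0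
  let Ψ : ι → C[X] := fun i => Polynomial.C c⁻¹ * Φ i
  have hΨ : ∀ i n, vC ((Ψ i).coeff n) ≤ 1 := by
    intro i n
    show vC ((Polynomial.C c⁻¹ * Φ i).coeff n) ≤ 1
    rw [coeff_C_mul, map_mul, map_inv₀, inv_mul_le_iff₀ hvc, mul_one]
    exact hmax' i n
  have hsum : ∑ i, aeval t (Ψ i) * g i = 0 := by
    have h1 : ∑ i, aeval t (Ψ i) * g i = algebraMap C L c⁻¹ * ∑ i, aeval t (Φ i) * g i := by
      rw [Finset.mul_sum]
      refine Finset.sum_congr rfl fun i _ => ?_
      show aeval t (Polynomial.C c⁻¹ * Φ i) * g i = _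
      rw [map_mul, aeval_C]; ring
    rw [h1, hΦ, mul_zero]
  have hred := hη (fun i => redP ρC (Ψ i)) (by
    have h1 := congrArg ρ hsum
    rw [h.res.zero, h.res.sum _ _ fun i _ => by
      rw [map_mul]; exact mul_le_one' (w_aeval_le h (hΨ i) ht) (hg i)] at h1
    rw [← h1]
    refine Finset.sum_congr rfl fun i _ => ?_
    rw [h.res.mul _ _ (w_aeval_le h (hΨ i) ht) (hg i), res_aeval h (hΨ i) ht, hgη]) i0
  have h1 := congrArg (fun q => Polynomial.coeff q n0) hred
  simp only [coeff_redP h, coeff_zero] at h1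
  have h2 : (Ψ i0).coeff n0 = 1 := by
    show (Polynomial.C c⁻¹ * Φ i0).coeff n0 = 1
    rw [coeff_C_mul, ← hc, inv_mul_cancel₀ hc0]
  rw [h2, h.resC.one] at h1
  exact one_ne_zero h1

/-- **(DEG)** -/
theorem degD_poles_le (h : Red vC ρC w ρ) {u : L} (hu : w u = 1)
    (hns : ρ u ∉ Set.range (algebraMap k κ)) :
    degD (poles (k := k) (ρ u)) ≤ degD (poles (k := C) u) := by
  classical
  have hu0 : u ≠ 0 := by rintro rfl; simp at hu
  have hρu0 : ρ u ≠ 0 := by rw [h.res.ne_zero_iff hu.le]; exact hu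
  set t := u⁻¹ with ht
  have ht0 : t ≠ 0 := inv_ne_zero hu0
  have hwt : w t = 1 := by rw [ht, map_inv₀, hu, inv_one]
  have hρt : ρ t = (ρ u)⁻¹ := h.res.inv hu
  have hρt0 : ρ t ≠ 0 := by rw [hρt]; exact inv_ne_zero hρu0
  -- `t` is transcendental
  have htr : Transcendental C t := by
    intro halg
    have h1 : t ∈ algebraicClosure C L := mem_algebraicClosure_iff.mpr halg
    rw [hc_of_isAlgClosed (k := C) (K := L), IntermediateField.mem_bot] at h1
    obtain ⟨c, hc⟩ := h1
    have hc1 : vC c = 1 := by rw [← h.norm, hc, hwt]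
    have h2 : ρ t = algebraMap k κ (ρC c) := by rw [← hc, h.comp c hc1.le]
    apply hns
    refine ⟨(ρC c)⁻¹, ?_⟩
    rw [map_inv₀, ← h2, hρt, inv_inv]
  obtain ⟨ι, _, η, hcard, hη⟩ := exists_indep (k := k) hρt0
  choose g hg hgη using fun i => h.res.surj (η i)
  have hind := lift_indep h hwt.le hη hg hgη
  have hle := card_le_poles t g hind
  have h1 : poles (k := k) (ρ u) = zeros (ρ t) := by
    rw [← poles_inv hρt0, hρt, inv_inv]
  have h2 : degD (poles (k := C) u) = degD (poles (k := C) t) := by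
    rw [ht, poles_inv hu0]; exact (degD_zeros_eq_poles hu0).symm
  rw [h1, ← hcard, h2]
  exact_mod_cast hle

end deg

section main

variable {C : Type*} [Field C] [IsAlgClosed C] {L : Type*} [Field L] [Algebra C L]
  [Algebra (RatFunc C) L] [IsScalarTower C (RatFunc C) L] [FiniteDimensional (RatFunc C) L]
  [Algebra.IsSeparable (RatFunc C) L]
  {k κ : Type*} [Field k] [IsAlgClosed k] [Field κ] [Algebra k κ]
  [Algebra (RatFunc k) κ] [IsScalarTower k (RatFunc k) κ] [FiniteDimensional (RatFunc k) κ]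
  [Algebra.IsSeparable (RatFunc k) κ]
  {vC : Valuation C ℝ≥0} {ρC : C → k} {w : Valuation L ℝ≥0} {ρ : L → κ}

theorem finrank_red_LD (h : Red vC ρC w ρ) (hO : Orth vC w) (D : Pl C L →₀ ℤ) :
    FiniteDimensional k (red h (LD D)) ∧ finrank k (red h (LD D)) = ell D := by
  have hfin := LD_finite D
  exact finrank_red h (hO (LD D) hfin)

theorem one_mem_red (h : Red vC ρC w ρ) {D : Pl C L →₀ ℤ} (hD : 0 ≤ D) :
    (1 : κ) ∈ red h (LD D) := by
  have h1 : (1 : L) ∈ LD D := by
    rw [mem_LD]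
    intro P
    rw [map_one, ← exp_zero, exp_le_exp]
    exact hD P
  have h2 := mem_red_of (h := h) h1 (by rw [map_one])
  rwa [h.res.one] at h2

/-- Lemma A: the supremum `D̄` of the reduction of `L(D)`, `D` effective -/
theorem exists_bar (h : Red vC ρC w ρ) (hO : Orth vC w) {D : Pl C L →₀ ℤ} (hD : 0 ≤ D) :
    ∃ E : Pl k κ →₀ ℤ, IsSup (red h (LD D)) E ∧ 0 ≤ E ∧ degD E ≤ degD D := by
  have hfin := (finrank_red_LD h hO D).1
  have h1 := one_mem_red h hD
  have hne : red h (LD D) ≠ ⊥ := by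
    intro h0
    rw [h0, Submodule.mem_bot] at h1
    exact one_ne_zero h1
  obtain ⟨E, hE⟩ := exists_isSup hfin hne
  have hE0 : 0 ≤ E := by
    intro b
    have h2 := hE.1 h1
    rw [mem_LD] at h2
    have h3 := h2 b
    rw [map_one, ← exp_zero, exp_le_exp] at h3
    exact h3
  refine ⟨E, hE, hE0, ?_⟩
  obtain ⟨z, ⟨u, hu, hu1, rfl⟩, hz0, hz⟩ := hE.exists_generic hE0
  have hD' : 0 ≤ degD D := by
    have := degD_mono (k := C) (κ := L) hD
    rwa [degD_zero] at this
  by_cases hc : ρ u ∈ Set.range (algebraMap k κ)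
  · obtain ⟨c, hc⟩ := hc
    have hc0 : c ≠ 0 := by
      rintro rfl
      rw [map_zero] at hc
      exact hz0 hc.symm
    have h2 : poles (k := k) (ρ u) = 0 := by
      ext b
      rw [poles_apply, Finsupp.zero_apply]
      have h3 := b.const c hc0
      rw [hc, v_eq hz0, ← exp_zero, exp_inj] at h3
      rw [h3]; simp
    rw [← hz, h2, degD_zero]
    exact hD'
  · have hwu : w u = 1 := (h.res.ne_zero_iff hu1).mp hz0
    have h2 := degD_poles_le h hwu hc
    rw [hz] at h2
    refine h2.trans (degD_mono (k := C) (κ := L) ?_)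
    have hu0 : u ≠ 0 := by rintro rfl; simp at hwu
    rw [mem_LD_iff hu0] at hu
    intro P
    rw [poles_apply]
    have h3 : 0 ≤ D P + divf (k := C) u P := hu P
    have h4 : 0 ≤ D P := hD P
    exact max_le (by linarith) h4

/-- the dimension estimate -/
theorem ell_le (h : Red vC ρC w ρ) (hO : Orth vC w) {D : Pl C L →₀ ℤ} {E : Pl k κ →₀ ℤ}
    (hE : IsSup (red h (LD D)) E) : ell D ≤ ell E := by
  have h1 := finrank_red_LD h hO D
  haveI := h1.1
  haveI := LD_finite E
  rw [← h1.2]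
  exact Submodule.finrank_mono hE.1

/-- **genus inequality** -/
theorem gen_le (h : Red vC ρC w ρ) (hO : Orth vC w) : gen k κ ≤ gen C L := by
  obtain ⟨P0, _⟩ := exists_notMem (k := C) (K := L) ∅
  obtain ⟨b0, _⟩ := exists_notMem (k := k) (K := κ) ∅
  let d : ℤ := 2 * gen C L + 2 * gen k κ
  let D : Pl C L →₀ ℤ := Finsupp.single P0 d
  have hd : degD D = d := by
    show degD (Finsupp.single P0 d) = d
    rw [degD_single, degP_eq_one]; simp
  have hd0 : 0 ≤ d := by positivity
  have hD : 0 ≤ D := by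
    classical
    intro P
    show (0 : ℤ) ≤ Finsupp.single P0 d P
    rw [Finsupp.single_apply]
    split_ifs
    · exact hd0
    · exact le_refl _
  obtain ⟨E, hE1, hE2, hE3⟩ := exists_bar h hO hD
  have h1 := ell_le h hO hE1
  rw [hd] at hE3
  obtain ⟨h2, h3⟩ := exists_ge_degD E hE3 b0
  have h4 := h1.trans (ell_mono h2)
  have h5 := ell_eq_of_lt (k := k) (K := κ) hc_of_isAlgClosed
    (D := E + Finsupp.single b0 (d - degD E)) (by rw [h3]; show _ < 2 * (gen C L : ℤ) + 2 * gen k κ; linarith)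
  have h6 := ell_ge (k := C) (K := L) hc_of_isAlgClosed D
  have h7 : (ell D : ℤ) ≤ ell (E + Finsupp.single b0 (d - degD E)) := by exact_mod_cast h4
  rw [h5, h3] at h7
  rw [hd] at h6
  have h8 : (gen k κ : ℤ) ≤ gen C L := by linarith
  exact_mod_cast h8




end main

section good

variable {C : Type*} [Field C] [IsAlgClosed C] {L : Type*} [Field L] [Algebra C L]
  [Algebra (RatFunc C) L] [IsScalarTower C (RatFunc C) L] [FiniteDimensional (RatFunc C) L]
  [Algebra.IsSeparable (RatFunc C) L]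
  {k κ : Type*} [Field k] [IsAlgClosed k] [Field κ] [Algebra k κ]
  [Algebra (RatFunc k) κ] [IsScalarTower k (RatFunc k) κ] [FiniteDimensional (RatFunc k) κ]
  [Algebra.IsSeparable (RatFunc k) κ]

/-- good reduction -/
structure Good (vC : Valuation C ℝ≥0) (ρC : C → k) (w : Valuation L ℝ≥0) (ρ : L → κ)
    (sp : Pl C L → Pl k κ) : Prop where
  rd : Red vC ρC w ρ
  orth : Orth vC w
  gen_eq : gen k κ = gen C L
  spp : SpP w ρ sp


/-- no pole in the residue disc of `b` -/
def Reg (sp : Pl C L → Pl k κ) (b : Pl k κ) (u : L) : Prop := ∀ P, sp P = b → P.v u ≤ 1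

namespace Reg

variable {sp : Pl C L → Pl k κ} {b : Pl k κ}

theorem const (c : C) : Reg sp b (algebraMap C L c) := fun P _ => v_const_le P c

theorem add {u u' : L} (h : Reg sp b u) (h' : Reg sp b u') : Reg sp b (u + u') :=
  fun P hP => (Valuation.map_add _ _ _).trans (max_le (h P hP) (h' P hP))

theorem sub {u u' : L} (h : Reg sp b u) (h' : Reg sp b u') : Reg sp b (u - u') :=
  fun P hP => (Valuation.map_sub _ _ _).trans (max_le (h P hP) (h' P hP))

theorem mul {u u' : L} (h : Reg sp b u) (h' : Reg sp b u') : Reg sp b (u * u') :=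
  fun P hP => by rw [map_mul]; exact mul_le_one' (h P hP) (h' P hP)

theorem smul (c : C) {u : L} (h : Reg sp b u) : Reg sp b (c • u) := by
  rw [Algebra.smul_def]; exact (const c).mul h

theorem pow {u : L} (h : Reg sp b u) (n : ℕ) : Reg sp b (u ^ n) :=
  fun P hP => by rw [map_pow]; exact pow_le_one' (h P hP) n

theorem sum {ι : Type*} (s : Finset ι) (f : ι → L) (h : ∀ i ∈ s, Reg sp b (f i)) :
    Reg sp b (∑ i ∈ s, f i) :=
  fun P hP => Valuation.map_sum_le _ fun i hi => h i hi P hP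

end Reg

namespace Good

variable {vC : Valuation C ℝ≥0} {ρC : C → k} {w : Valuation L ℝ≥0} {ρ : L → κ}
  {sp : Pl C L → Pl k κ} (h : Good vC ρC w ρ sp)

include h

theorem res_ne {u : L} (hu : w u = 1) : ρ u ≠ 0 := (h.rd.res.ne_zero_iff hu.le).mpr hu







theorem degD_map (D : Pl C L →₀ ℤ) : degD (D.mapDomain sp) = degD D := by
  rw [degD_eq_sum, degD_eq_sum, sum_mapDomain]

theorem res_mem_LD {D : Pl C L →₀ ℤ} {u : L} (hu : u ∈ LD D) (hw : w u ≤ 1) :
    ρ u ∈ LD (D.mapDomain sp) := by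
  by_cases h1 : w u = 1
  · have hu0 : u ≠ 0 := by rintro rfl; simp at h1
    rw [mem_LD_iff hu0] at hu
    rw [mem_LD_iff (h.res_ne h1), h.spp u h1, ← Finsupp.mapDomain_add]
    exact mapDomain_nonneg hu sp
  · rw [(h.rd.res.zero_iff u hw).mpr (lt_of_le_of_ne hw h1)]; exact zero_mem _

theorem ell_le (D : Pl C L →₀ ℤ) : ell D ≤ ell (D.mapDomain sp) := by
  have h1 := finrank_red_LD h.rd h.orth D
  haveI := LD_finite (D.mapDomain sp)
  rw [← h1.2]
  apply Submodule.finrank_mono
  rintro _ ⟨x, hx, hx1, rfl⟩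
  exact h.res_mem_LD hx hx1






end Good

end good

section inj

variable {C : Type*} [Field C] [IsAlgClosed C] {L : Type*} [Field L] [Algebra C L]
  [Algebra (RatFunc C) L] [IsScalarTower C (RatFunc C) L] [FiniteDimensional (RatFunc C) L]
  [Algebra.IsSeparable (RatFunc C) L]
  {k κ : Type*} [Field k] [IsAlgClosed k] [Field κ] [Algebra k κ]
  [Algebra (RatFunc k) κ] [IsScalarTower k (RatFunc k) κ] [FiniteDimensional (RatFunc k) κ]
  [Algebra.IsSeparable (RatFunc k) κ]

namespace Good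

variable {vC : Valuation C ℝ≥0} {ρC : C → k} {w : Valuation L ℝ≥0} {ρ : L → κ}
  {sp : Pl C L → Pl k κ} (h : Good vC ρC w ρ sp)

include h






/-- a class with trivial reduction is represented by `E - Q` -/
theorem exists_move {T : Finset (Pl k κ)} (hcard : T.card = gen k κ) (hT : ell (sumD T) ≤ 1)
    {Q : Pl C L →₀ ℤ} (hQ' : Q.mapDomain sp = sumD T) {D : Pl C L →₀ ℤ} {z : κ} (hz : z ≠ 0)
    (hD : D.mapDomain sp = divf (k := k) z) :
    ∃ x : L, x ≠ 0 ∧ 0 ≤ D + Q + divf (k := C) x ∧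
      (D + Q + divf (k := C) x).mapDomain sp = sumD T := by
  have hdeg : degD (D + Q) = gen C L := by
    rw [← h.degD_map, Finsupp.mapDomain_add, degD_add, hD, hQ', degD_divf hz, degD_sumD, hcard,
      h.gen_eq, zero_add]
  obtain ⟨x0, hx0, hx⟩ := exists_mem_LD hdeg.ge
  obtain ⟨c0, hc0, -, hw⟩ := h.rd.normalise hx0
  set x := x0 * algebraMap C L c0⁻¹ with hxdef
  have hx' : x ∈ LD (D + Q) := by
    rw [hxdef, mul_comm, ← Algebra.smul_def]; exact Submodule.smul_mem _ _ hx
  have hxne : x ≠ 0 := by rintro h0; rw [h0] at hw; simp at hw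
  refine ⟨x, hxne, (mem_LD_iff hxne).mp hx', ?_⟩
  have h1 := h.res_mem_LD hx' hw.le
  have hρ := h.res_ne hw
  rw [Finsupp.mapDomain_add, hD, hQ', mem_LD_iff hρ] at h1
  have h2 : z * ρ x ∈ LD (sumD T) := by
    rw [mem_LD_iff (mul_ne_zero hz hρ), divf_mul hz hρ]
    convert h1 using 1; abel
  obtain ⟨e, he⟩ := mem_range_of_LD (sumD_nonneg T) hT h2
  have he0 : e ≠ 0 := by rintro rfl; rw [map_zero] at he; exact mul_ne_zero hz hρ he.symm
  have h3 := divf_const (K := κ) he0
  rw [he, divf_mul hz hρ] at h3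
  rw [Finsupp.mapDomain_add, Finsupp.mapDomain_add, hD, hQ', ← h.spp x hw, add_right_comm, h3,
    zero_add]




end Good

end inj

end Crest.Agent.T15.Id
end

-- ▼ part T15/NgA_77
section

/-!
# Row 15, block F/Ht (helper77): the Gauss norm of `w ^ 2 = F(x)` and naive good reduction

* `Md` : a ring of integral functions with a reduction map gives a norm and a residue map;
* `NR` : a norm `W` of `K = C(x, w)` with `res x = xb`, `res w = H(xb) wb`; existence, uniqueness,
  orthonormal bases, invariance under semilinear automorphisms, the residual action.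
-/

set_option autoImplicit false
set_option linter.all false

namespace Crest.Agent.T15.Ng

open Polynomial WithZero Module
open scoped NNReal
open Crest.Agent.R013.GR4_921 Crest.Agent.R013.GR6_921
open Crest.Agent.T15.Hy

section abs

variable {C K k κ S : Type*} [Field C] [Field K] [Algebra C K] [Field k] [Field κ] [Algebra k κ]
  [CommRing S] {v : Valuation C ℝ≥0} {ρC : C → k}

/-- the residue map as a ring homomorphism -/
def resHom (h : IsRes v ρC) : v.integer →+* k where
  toFun a := ρC a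
  map_one' := h.one
  map_mul' a b := h.mul a b a.2 b.2
  map_zero' := h.zero
  map_add' a b := h.add a b a.2 b.2


theorem rd_resHom (h : IsRes v ρC) : Rd (resHom h) :=
  ⟨fun y => by obtain ⟨x, hx, rfl⟩ := h.surj y; exact ⟨⟨x, hx⟩, rfl⟩, fun a => h.zero_iff a a.2⟩


theorem exists_mul {s t : C} (h : v t ≤ v s) : ∃ c : v.integer, t = c * s := by
  by_cases hs : s = 0
  · refine ⟨0, ?_⟩
    rw [hs, map_zero, le_zero_iff, Valuation.zero_iff] at h
    simp [h]
  · have h0 : 0 < v s := (Valuation.pos_iff v).mpr hs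
    exact ⟨⟨t / s, show v (t / s) ≤ 1 by rw [map_div₀]; exact (div_le_one₀ h0).mpr h⟩,
      (div_mul_cancel₀ t hs).symm⟩

/-- a ring `S` of integral functions (`ι`) with its reduction (`φ`) -/
structure Md (h : IsRes v ρC) (j : v.integer →+* S) (ι : S →+* K) (φ : S →+* κ) : Prop where
  ij : ∀ c, ι (j c) = algebraMap C K c
  pj : ∀ c, φ (j c) = algebraMap k κ (ρC c)
  ker : ∀ u, ι u = 0 → φ u = 0
  up : ∀ f : K, ∃ (s : C) (u u' : S), φ u ≠ 0 ∧ φ u' ≠ 0 ∧ f * ι u' = algebraMap C K s * ι u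
  down : ∀ y : κ, ∃ u u' : S, φ u' ≠ 0 ∧ y * φ u' = φ u

/-- `f` is `s` times a unit -/
def Rp (ι : S →+* K) (φ : S →+* κ) (f : K) (s : C) : Prop :=
  ∃ u u' : S, φ u ≠ 0 ∧ φ u' ≠ 0 ∧ f * ι u' = algebraMap C K s * ι u

namespace Md

variable {h : IsRes v ρC} {j : v.integer →+* S} {ι : S →+* K} {φ : S →+* κ} (m : Md h j ι φ)
include m

theorem le_of {f : K} {s t : C} (ht : Rp ι φ f t) {u u' : S} (hu : φ u' ≠ 0)
    (e : f * ι u' = algebraMap C K s * ι u) : v t ≤ v s := by
  by_contra hlt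
  push Not at hlt
  obtain ⟨a, a', ha, -, e'⟩ := ht
  obtain ⟨c, hc⟩ := exists_mul hlt.le
  have ht0 : t ≠ 0 := by rintro rfl; simp at hlt
  have hc1 : v (c : C) < 1 := by
    rw [hc, map_mul] at hlt
    by_contra h1
    exact absurd hlt (not_lt.mpr (le_mul_of_one_le_left' (not_lt.mp h1)))
  have h1 : ι (a * u' - j c * (u * a')) = 0 := by
    have h2 : algebraMap C K t ≠ 0 := by simpa using ht0
    apply mul_left_cancel₀ h2
    rw [hc, map_mul] at e
    simp only [map_sub, map_mul, m.ij]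
    linear_combination ι a' * e - ι u' * e'
  have h2 := m.ker _ h1
  rw [map_sub, map_mul, map_mul, m.pj, (h.zero_iff _ c.2).mpr hc1, map_zero, zero_mul,
    sub_zero] at h2
  exact mul_ne_zero ha hu h2

theorem rp_eq {f : K} {s t : C} (hs : Rp ι φ f s) (ht : Rp ι φ f t) : v s = v t := by
  have h1 := hs
  have h2 := ht
  obtain ⟨u, u', -, hu, e⟩ := h1
  obtain ⟨a, a', -, ha, e'⟩ := h2
  exact le_antisymm (m.le_of hs ha e') (m.le_of ht hu e)

theorem exists_rp (f : K) : ∃ s : C, Rp ι φ f s := m.up f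

theorem w0_eq {f : K} {s : C} (hs : Rp ι φ f s) : v (m.exists_rp f).choose = v s :=
  m.rp_eq (m.exists_rp f).choose_spec hs

theorem add_le {f g : K} {s t r : C} (hs : Rp ι φ f s) (ht : Rp ι φ g t) (hr : Rp ι φ (f + g) r)
    (hle : v t ≤ v s) : v r ≤ v s := by
  obtain ⟨u, u', -, hu, e⟩ := hs
  obtain ⟨a, a', -, ha, e'⟩ := ht
  obtain ⟨c, hc⟩ := exists_mul hle
  refine m.le_of hr (u := u * a' + j c * (a * u')) (u' := u' * a')
    (by rw [map_mul]; exact mul_ne_zero hu ha) ?_
  rw [hc, map_mul] at e'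
  simp only [map_add, map_mul, m.ij]
  linear_combination ι a' * e + ι u' * e'

/-- the norm -/
noncomputable def W : Valuation K ℝ≥0 where
  toFun f := v (m.exists_rp f).choose
  map_zero' := (m.w0_eq (s := 0) ⟨1, 1, by simp, by simp, by simp⟩).trans (map_zero v)
  map_one' := (m.w0_eq (s := 1) ⟨1, 1, by simp, by simp, by simp⟩).trans (map_one v)
  map_mul' f g := by
    obtain ⟨u, u', h1, h2, e⟩ := (m.exists_rp f).choose_spec
    obtain ⟨a, a', h3, h4, e'⟩ := (m.exists_rp g).choose_spec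
    rw [← map_mul]
    refine m.w0_eq ⟨u * a, u' * a', by rw [map_mul]; exact mul_ne_zero h1 h3,
      by rw [map_mul]; exact mul_ne_zero h2 h4, ?_⟩
    simp only [map_mul]
    linear_combination (g * ι a') * e + (algebraMap C K (m.exists_rp f).choose * ι u) * e'
  map_add_le_max' f g := by
    rcases le_total (v (m.exists_rp g).choose) (v (m.exists_rp f).choose) with h1 | h1
    · exact (m.add_le (m.exists_rp f).choose_spec (m.exists_rp g).choose_spec
        (m.exists_rp _).choose_spec h1).trans (le_max_left _ _)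
    · refine (m.add_le (m.exists_rp g).choose_spec (m.exists_rp f).choose_spec
        (by rw [add_comm g f]; exact (m.exists_rp _).choose_spec) h1).trans (le_max_right _ _)

theorem W_eq {f : K} {s : C} (hs : Rp ι φ f s) : m.W f = v s := m.w0_eq hs

omit m in
variable (ι φ) in
/-- the residue map -/
noncomputable def res (f : K) : κ :=
  φ (Classical.epsilon fun p : S × S => φ p.2 ≠ 0 ∧ f * ι p.2 = ι p.1).1 /
    φ (Classical.epsilon fun p : S × S => φ p.2 ≠ 0 ∧ f * ι p.2 = ι p.1).2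

theorem res_eq {f : K} {u u' : S} (hu : φ u' ≠ 0) (e : f * ι u' = ι u) :
    res ι φ f = φ u / φ u' := by
  have hp := Classical.epsilon_spec (p := fun p : S × S => φ p.2 ≠ 0 ∧ f * ι p.2 = ι p.1)
    ⟨(u, u'), hu, e⟩
  unfold res
  generalize (Classical.epsilon fun p : S × S => φ p.2 ≠ 0 ∧ f * ι p.2 = ι p.1) = p at hp
  have h1 := m.ker (p.1 * u' - u * p.2) (by
    simp only [map_sub, map_mul]; linear_combination ι p.2 * e - ι u' * hp.2)
  rw [div_eq_div_iff hp.1 hu]
  simp only [map_sub, map_mul] at h1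
  exact sub_eq_zero.mp h1

theorem le_one_iff {f : K} : m.W f ≤ 1 ↔ ∃ u u' : S, φ u' ≠ 0 ∧ f * ι u' = ι u := by
  obtain ⟨s, hs⟩ := m.exists_rp f
  rw [m.W_eq hs]
  constructor
  · intro h1
    obtain ⟨u, u', -, hu, e⟩ := hs
    exact ⟨j ⟨s, h1⟩ * u, u', hu, by rw [map_mul, m.ij]; exact e⟩
  · rintro ⟨u, u', hu, e⟩
    have := m.le_of (s := 1) hs (u := u) hu (by simpa using e)
    rwa [map_one] at this

theorem W_le (u : S) : m.W (ι u) ≤ 1 := m.le_one_iff.mpr ⟨u, 1, by simp, by simp⟩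

theorem res_ι (u : S) : res ι φ (ι u) = φ u := by
  rw [m.res_eq (u := u) (u' := 1) (by simp) (by simp)]; simp

theorem isRes : IsRes m.W (res ι φ) where
  add f g hf hg := by
    obtain ⟨u, u', hu, e⟩ := m.le_one_iff.mp hf
    obtain ⟨a, a', ha, e'⟩ := m.le_one_iff.mp hg
    rw [m.res_eq hu e, m.res_eq ha e', m.res_eq (u := u * a' + a * u') (u' := u' * a')
      (by rw [map_mul]; exact mul_ne_zero hu ha)
      (by simp only [map_add, map_mul]; linear_combination ι a' * e + ι u' * e')]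
    simp only [map_add, map_mul]
    field_simp
  mul f g hf hg := by
    obtain ⟨u, u', hu, e⟩ := m.le_one_iff.mp hf
    obtain ⟨a, a', ha, e'⟩ := m.le_one_iff.mp hg
    rw [m.res_eq hu e, m.res_eq ha e', m.res_eq (u := u * a) (u' := u' * a')
      (by rw [map_mul]; exact mul_ne_zero hu ha)
      (by simp only [map_mul]; linear_combination (g * ι a') * e + ι u * e')]
    simp only [map_mul]
    field_simp
  one := by have := m.res_ι 1; rwa [map_one, map_one] at this
  zero_iff f hf := by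
    obtain ⟨s, hs⟩ := m.exists_rp f
    rw [m.W_eq hs] at hf ⊢
    obtain ⟨u, u', h0, hu, e⟩ := hs
    rw [m.res_eq (u := j ⟨s, hf⟩ * u) hu (by rw [map_mul, m.ij]; exact e), map_mul, m.pj,
      ← h.zero_iff s hf]
    simp [h0, hu]
  surj y := by
    obtain ⟨u, u', hu, e⟩ := m.down y
    have h0 : ι u' ≠ 0 := fun h0 => hu (m.ker _ h0)
    have e' : ι u / ι u' * ι u' = ι u := div_mul_cancel₀ _ h0
    exact ⟨ι u / ι u', m.le_one_iff.mpr ⟨u, u', hu, e'⟩, by
      rw [m.res_eq hu e', ← e, mul_div_cancel_right₀ _ hu]⟩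

theorem red : Red v ρC m.W (res ι φ) where
  resC := h
  res := m.isRes
  norm c := m.W_eq ⟨1, 1, by simp, by simp, by simp⟩
  comp c hc := by
    have := m.res_ι (j ⟨c, hc⟩)
    rwa [m.ij, m.pj] at this
  val f _ := by obtain ⟨s, hs⟩ := m.exists_rp f; exact ⟨s, m.W_eq hs⟩

end Md

/-- homomorphisms from `R[√a]` -/
def qh {R T : Type*} [CommRing R] [CommRing T] {a : R} (ψ : R →+* T) (t : T) (ht : t ^ 2 = ψ a) :
    QuadraticAlgebra R a 0 →+* T where
  toFun u := ψ u.re + ψ u.im * t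
  map_one' := by
    show ψ 1 + ψ 0 * t = 1
    simp
  map_mul' u u' := by
    simp only [QuadraticAlgebra.re_mul, QuadraticAlgebra.im_mul, map_add, map_mul, map_zero]
    linear_combination (-(ψ u.im * ψ u'.im)) * ht
  map_zero' := by simp
  map_add' u u' := by
    simp only [QuadraticAlgebra.re_add, QuadraticAlgebra.im_add, map_add]; ring

theorem qh_apply {R T : Type*} [CommRing R] [CommRing T] {a : R} (ψ : R →+* T) (t : T)
    (ht : t ^ 2 = ψ a) (u : QuadraticAlgebra R a 0) : qh ψ t ht u = ψ u.re + ψ u.im * t := rfl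

end abs

section poly

variable {C k : Type*} [Field C] [Field k] {v : Valuation C ℝ≥0} {ρC : C → k}

/-- integral coefficients -/
def IntP (v : Valuation C ℝ≥0) (A : C[X]) : Prop := ∀ i, v (A.coeff i) ≤ 1

theorem coeff_rp (h : IsRes v ρC) (A : C[X]) (n : ℕ) : (redP ρC A).coeff n = ρC (A.coeff n) := by
  unfold redP
  rw [finsetSum_coeff]
  simp only [coeff_C_mul_X_pow]
  rw [Finset.sum_ite_eq]
  split_ifs with hn
  · rfl
  · rw [coeff_eq_zero_of_natDegree_lt (by simpa [Nat.lt_succ_iff] using hn), h.zero]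

theorem intP_map (A : v.integer[X]) : IntP v (A.map v.integer.subtype) := fun i => by
  rw [coeff_map]; exact (A.coeff i).2

theorem redP_map (h : IsRes v ρC) (A : v.integer[X]) :
    redP ρC (A.map v.integer.subtype) = A.map (resHom h) := by
  ext n; rw [coeff_rp h, coeff_map, coeff_map]; rfl

theorem IntP.lift {A : C[X]} (hA : IntP v A) : ∃ A' : v.integer[X], A'.map v.integer.subtype = A := by
  have : A ∈ Polynomial.lifts v.integer.subtype :=
    (lifts_iff_coeff_lifts A).mpr fun n => ⟨⟨_, hA n⟩, rfl⟩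
  exact (mem_lifts A).mp this

theorem IntP.add {A B : C[X]} (hA : IntP v A) (hB : IntP v B) : IntP v (A + B) := by
  obtain ⟨A, rfl⟩ := hA.lift; obtain ⟨B, rfl⟩ := hB.lift
  rw [← Polynomial.map_add]; exact intP_map _

theorem IntP.mul {A B : C[X]} (hA : IntP v A) (hB : IntP v B) : IntP v (A * B) := by
  obtain ⟨A, rfl⟩ := hA.lift; obtain ⟨B, rfl⟩ := hB.lift
  rw [← Polynomial.map_mul]; exact intP_map _

theorem IntP.neg {A : C[X]} (hA : IntP v A) : IntP v (-A) := fun i => by
  rw [coeff_neg, Valuation.map_neg]; exact hA i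

theorem IntP.sub {A B : C[X]} (hA : IntP v A) (hB : IntP v B) : IntP v (A - B) := by
  rw [sub_eq_add_neg]; exact hA.add hB.neg

theorem intP_C {c : C} (hc : v c ≤ 1) : IntP v (Polynomial.C c) := fun i => by
  rw [coeff_C]; split_ifs <;> simp [hc]

theorem intP_X : IntP v (X : C[X]) := fun i => by
  rw [coeff_X]; split_ifs <;> simp

theorem intP_zero : IntP v (0 : C[X]) := fun i => by simp

theorem intP_one : IntP v (1 : C[X]) := by rw [← C_1]; exact intP_C (by simp)

theorem IntP.pow {A : C[X]} (hA : IntP v A) (n : ℕ) : IntP v (A ^ n) := by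
  induction n with
  | zero => rw [pow_zero]; exact intP_one
  | succ n ih => rw [pow_succ]; exact ih.mul hA

theorem redP_add (h : IsRes v ρC) {A B : C[X]} (hA : IntP v A) (hB : IntP v B) :
    redP ρC (A + B) = redP ρC A + redP ρC B := by
  obtain ⟨A, rfl⟩ := hA.lift; obtain ⟨B, rfl⟩ := hB.lift
  rw [← Polynomial.map_add, redP_map h, redP_map h, redP_map h, Polynomial.map_add]

theorem redP_mul (h : IsRes v ρC) {A B : C[X]} (hA : IntP v A) (hB : IntP v B) :
    redP ρC (A * B) = redP ρC A * redP ρC B := by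
  obtain ⟨A, rfl⟩ := hA.lift; obtain ⟨B, rfl⟩ := hB.lift
  rw [← Polynomial.map_mul, redP_map h, redP_map h, redP_map h, Polynomial.map_mul]

theorem redP_neg (h : IsRes v ρC) {A : C[X]} (hA : IntP v A) : redP ρC (-A) = -redP ρC A := by
  ext n; rw [coeff_neg, coeff_rp h, coeff_rp h, coeff_neg, h.neg (hA n)]

theorem redP_sub (h : IsRes v ρC) {A B : C[X]} (hA : IntP v A) (hB : IntP v B) :
    redP ρC (A - B) = redP ρC A - redP ρC B := by
  rw [sub_eq_add_neg, redP_add h hA hB.neg, redP_neg h hB, sub_eq_add_neg]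

theorem redP_C (h : IsRes v ρC) (c : C) : redP ρC (Polynomial.C c) = Polynomial.C (ρC c) := by
  ext n; rw [coeff_rp h, coeff_C, coeff_C]; split_ifs <;> simp [h.zero]

theorem redP_X (h : IsRes v ρC) : redP ρC (X : C[X]) = X := by
  ext n; rw [coeff_rp h, coeff_X, coeff_X]; split_ifs <;> simp [h.zero, h.one]

theorem redP_zero (h : IsRes v ρC) : redP ρC (0 : C[X]) = 0 := by
  ext n; rw [coeff_rp h]; simp [h.zero]

theorem redP_one (h : IsRes v ρC) : redP ρC (1 : C[X]) = 1 := by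
  rw [← C_1, redP_C h, h.one, C_1]

theorem redP_pow (h : IsRes v ρC) {A : C[X]} (hA : IntP v A) (n : ℕ) :
    redP ρC (A ^ n) = redP ρC A ^ n := by
  induction n with
  | zero => rw [pow_zero, pow_zero, redP_one h]
  | succ n ih => rw [pow_succ, pow_succ, redP_mul h (hA.pow n) hA, ih]

theorem natDegree_redP_le (h : IsRes v ρC) (A : C[X]) : (redP ρC A).natDegree ≤ A.natDegree :=
  natDegree_le_iff_coeff_eq_zero.mpr fun n hn => by
    rw [coeff_rp h, coeff_eq_zero_of_natDegree_lt hn, h.zero]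

theorem redP_ne_iff (h : IsRes v ρC) {A : C[X]} (hA : IntP v A) :
    redP ρC A ≠ 0 ↔ ∃ i, v (A.coeff i) = 1 := by
  rw [ne_eq, Polynomial.ext_iff, not_forall]
  refine exists_congr fun i => ?_
  rw [coeff_rp h, coeff_zero, ← h.ne_zero_iff (hA i)]

theorem exists_redP (h : IsRes v ρC) (B : k[X]) : ∃ A : C[X], IntP v A ∧ redP ρC A = B := by
  obtain ⟨A, rfl⟩ := map_surjective (resHom h) (rd_resHom h).surj B
  exact ⟨_, intP_map A, redP_map h A⟩

/-- normalisation of a pair of polynomials -/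
theorem exists_prim' (h : IsRes v ρC) (A B : C[X]) : ∃ (s : C) (A' B' : C[X]), IntP v A' ∧
    IntP v B' ∧ (redP ρC A' ≠ 0 ∨ redP ρC B' ≠ 0) ∧ A = Polynomial.C s * A' ∧
      B = Polynomial.C s * B' := by
  by_cases hAB : A ≠ 0 ∨ B ≠ 0
  · obtain ⟨s, A', B', -, hA, hB, h1⟩ := exists_prim v A B hAB
    have aux : ∀ D : v.integer[X], (∃ i, D.coeff i = 1) →
        redP ρC (D.map v.integer.subtype) ≠ 0 := by
      rintro D ⟨i, hi⟩
      exact (redP_ne_iff h (intP_map D)).mpr ⟨i, by rw [coeff_map, hi]; simp⟩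
    exact ⟨s, _, _, intP_map A', intP_map B', h1.imp (aux _) (aux _), hA, hB⟩
  · push Not at hAB
    exact ⟨0, 1, 0, intP_one, intP_zero, Or.inl (by rw [redP_one h]; exact one_ne_zero),
      by simp [hAB.1], by simp [hAB.2]⟩

theorem IntP.map {A : C[X]} (hA : IntP v A) {s : C →+* C} (hs : ∀ c, v (s c) = v c) :
    IntP v (A.map s) := fun i => by rw [coeff_map, hs]; exact hA i

end poly

section hyp

variable {C K k κ : Type*} [Field C] [Field K] [Algebra C K] [Field k] [Field κ] [Algebra k κ]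
  {v : Valuation C ℝ≥0} {ρC : C → k}

theorem rep (h : IsRes v ρC) {F : C[X]} {x w : K} (hy : Hyp F x w) (f : K) :
    ∃ (s : C) (A B c : C[X]), IntP v A ∧ IntP v B ∧ IntP v c ∧
      (redP ρC A ≠ 0 ∨ redP ρC B ≠ 0) ∧ redP ρC c ≠ 0 ∧
      f * aeval x c = algebraMap C K s * el x w A B := by
  obtain ⟨A, B, c, hc, he⟩ := hy.gen f
  obtain ⟨s, A', B', hA, hB, h1, rfl, rfl⟩ := exists_prim' h A B
  obtain ⟨s', c', d', hc', -, h2, rfl, hd⟩ := exists_prim' h c 0
  have hs' : s' ≠ 0 := by rintro rfl; simp at hc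
  have hd' : d' = 0 := (mul_eq_zero.mp hd.symm).resolve_left (by simpa using hs')
  have h3 : redP ρC c' ≠ 0 := h2.resolve_right (by rw [hd', redP_zero h]; simp)
  refine ⟨s / s', A', B', c', hA, hB, hc', h1, h3, ?_⟩
  have h4 : algebraMap C K s' ≠ 0 := by simpa using hs'
  simp only [el, map_mul, aeval_C] at he
  rw [map_div₀]
  unfold el
  field_simp
  linear_combination he

/-- a norm of `K = C(x, w)` with `res x = xb` and `res w = H(xb) wb` -/
structure NR (v : Valuation C ℝ≥0) (ρC : C → k) (F : C[X]) (x w : K) (H E : k[X]) (xb wb : κ)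
    (W : Valuation K ℝ≥0) (res : K → κ) : Prop where
  hyp : Hyp F x w
  hyb : Hyp E xb wb
  int : IntP v F
  red : redP ρC F = H ^ 2 * E
  H0 : H ≠ 0
  rd : Red v ρC W res
  wx : W x ≤ 1
  rx : res x = xb
  rw : res w = aeval xb H * wb

theorem exists_NR (h : IsRes v ρC) {F : C[X]} {x w : K} {H E : k[X]} {xb wb : κ} (hy : Hyp F x w)
    (hb : Hyp E xb wb) (hF : IntP v F) (hr : redP ρC F = H ^ 2 * E) (H0 : H ≠ 0) :
    ∃ (W : Valuation K ℝ≥0) (res : K → κ), NR v ρC F x w H E xb wb W res := by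
  obtain ⟨F', hF'⟩ := hF.lift
  let ψ : v.integer[X] →+* K := (aeval x : C[X] →ₐ[C] K).toRingHom.comp (mapRingHom v.integer.subtype)
  let ψ' : v.integer[X] →+* κ := (aeval xb : k[X] →ₐ[k] κ).toRingHom.comp (mapRingHom (resHom h))
  have hψ : ∀ A, ψ A = aeval x (A.map v.integer.subtype) := fun _ => rfl
  have hψ' : ∀ A, ψ' A = aeval xb (redP ρC (A.map v.integer.subtype)) := fun A => by
    rw [redP_map h]; rfl
  have h1 : w ^ 2 = ψ F' := by rw [hψ, hF', hy.sq]
  have h2 : (aeval xb H * wb) ^ 2 = ψ' F' := by rw [hψ', hF', hr, mul_pow, hb.sq]; simp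
  have hι : ∀ A B : v.integer[X], qh ψ w h1 ⟨A, B⟩ =
      el x w (A.map v.integer.subtype) (B.map v.integer.subtype) := fun _ _ => rfl
  have hφ : ∀ A B : v.integer[X], qh ψ' _ h2 ⟨A, B⟩ = el xb wb (redP ρC (A.map v.integer.subtype))
      (redP ρC (B.map v.integer.subtype) * H) := fun A B => by
    rw [qh_apply, hψ', hψ']; simp only [el, map_mul]; ring
  have m : Md h ((algebraMap v.integer[X] (QuadraticAlgebra v.integer[X] F' 0)).comp Polynomial.C)
      (qh ψ w h1) (qh ψ' _ h2) := by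
    refine ⟨fun c => ?_, fun c => ?_, ?_, fun f => ?_, fun y => ?_⟩
    · show qh ψ w h1 ⟨Polynomial.C c, 0⟩ = _
      rw [hι]; simp [el]
    · show qh ψ' _ h2 ⟨Polynomial.C c, 0⟩ = _
      rw [hφ, map_C, redP_C h, Polynomial.map_zero, redP_zero h]; simp [el]
    · rintro ⟨A, B⟩ h0
      rw [hι] at h0
      obtain ⟨hA, hB⟩ := hy.indep h0
      rw [hφ, hA, hB, redP_zero h]; simp [el]
    · obtain ⟨s, A, B, c, hA, hB, hc, h3, h4, e⟩ := rep h hy f
      obtain ⟨A, rfl⟩ := hA.lift
      obtain ⟨B, rfl⟩ := hB.lift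
      obtain ⟨c, rfl⟩ := hc.lift
      refine ⟨s, ⟨A, B⟩, ⟨c, 0⟩, ?_, ?_, ?_⟩
      · rw [hφ]; exact hb.el_ne (h3.imp id fun h5 => mul_ne_zero h5 H0)
      · rw [hφ]; exact hb.el_ne (Or.inl h4)
      · rw [hι, hι, Polynomial.map_zero, el_zero, e]
    · obtain ⟨A, B, c, hc, e⟩ := hb.gen y
      obtain ⟨A', hA, e1⟩ := exists_redP h (A * H)
      obtain ⟨B', hB, e2⟩ := exists_redP h B
      obtain ⟨c', hc', e3⟩ := exists_redP h (c * H)
      obtain ⟨A', rfl⟩ := hA.lift
      obtain ⟨B', rfl⟩ := hB.lift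
      obtain ⟨c', rfl⟩ := hc'.lift
      refine ⟨⟨A', B'⟩, ⟨c', 0⟩, ?_, ?_⟩
      · rw [hφ, e3]; exact hb.el_ne (Or.inl (mul_ne_zero hc H0))
      · rw [hφ, hφ, e1, e2, e3, Polynomial.map_zero, redP_zero h, zero_mul, el_zero, map_mul,
          ← mul_assoc, e, el_mul_aeval]
  have ex : x = qh ψ w h1 ⟨X, 0⟩ := by rw [hι]; simp [el]
  have ew : w = qh ψ w h1 ⟨0, 1⟩ := by rw [hι]; simp [el]
  refine ⟨m.W, _, hy, hb, hF, hr, H0, m.red, ?_, ?_, ?_⟩
  · conv_lhs => rw [ex]
    exact m.W_le _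
  · have := m.res_ι ⟨X, 0⟩
    rw [← ex, hφ, Polynomial.map_X, redP_X h, Polynomial.map_zero, redP_zero h] at this
    simpa [el] using this
  · have := m.res_ι ⟨0, 1⟩
    rw [← ew, hφ, Polynomial.map_one, redP_one h, Polynomial.map_zero, redP_zero h] at this
    simpa [el] using this

end hyp

end Crest.Agent.T15.Ng
end

-- ▼ part T15/NgB_77

/-!
# Row 15, block F/Ht (helper77): naive good reduction of `w ^ 2 = F(x)`

API of `NR`, the genus, `NG` (good reduction with explicit specialisation).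
-/

set_option autoImplicit false
set_option linter.all false

namespace Crest.Agent.T15.Ng

open Polynomial WithZero Module
open scoped NNReal
open Crest.Agent.R013.RR7_948 Crest.Agent.R013.RR8_948 Crest.Agent.R013.RR9_948
open Crest.Agent.R013.RR11_948 Crest.Agent.R013.RR12_948 Crest.Agent.R013.PicD_398
open Crest.Agent.R013.GR2_921 Crest.Agent.R013.Frob1_914
open Crest.Agent.R013.GR4_921 Crest.Agent.R013.GR6_921
open Crest.Agent.T15.Hy

section nr

variable {C K k κ : Type*} [Field C] [Field K] [Algebra C K] [Field k] [Field κ] [Algebra k κ]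
  {v : Valuation C ℝ≥0} {ρC : C → k} {W : Valuation K ℝ≥0} {res : K → κ}

theorem W_aeval_eq (h : Red v ρC W res) {t : K} (ht : W t ≤ 1)
    (tr : ∀ p : k[X], aeval (res t) p = 0 → p = 0) {A : C[X]} (hA : IntP v A)
    (h0 : redP ρC A ≠ 0) : W (aeval t A) = 1 := by
  rw [← h.res.ne_zero_iff (w_aeval_le h hA ht), res_aeval h hA ht]
  exact fun h1 => h0 (tr _ h1)

theorem tr_of_notMem [IsAlgClosed k] {y : κ} (hy : y ∉ Set.range (algebraMap k κ)) (p : k[X])
    (hp : aeval y p = 0) : p = 0 := by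
  by_contra h0
  have h1 : y ∈ algebraicClosure k κ := mem_algebraicClosure_iff.mpr ⟨p, h0, hp⟩
  rw [hc_of_isAlgClosed, IntermediateField.mem_bot] at h1
  exact hy h1

theorem SI_aeval {C' K' : Type*} [Field C'] [Field K'] [Algebra C' K'] (e : SI C K C' K') (x : K)
    (A : C[X]) : e.f (aeval x A) = aeval (e.f x) (A.map (e.s : C →+* C')) := by
  induction A using Polynomial.induction_on' with
  | add p q hp hq => rw [map_add, map_add, hp, hq, Polynomial.map_add, map_add]
  | monomial n a =>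
    rw [aeval_monomial, map_mul, map_pow, e.comm, Polynomial.map_monomial, aeval_monomial]; rfl


namespace NR

variable {F : C[X]} {x w : K} {H E : k[X]} {xb wb : κ} (h : NR v ρC F x w H E xb wb W res)
include h

theorem W_aeval_le {A : C[X]} (hA : IntP v A) : W (aeval x A) ≤ 1 := w_aeval_le h.rd hA h.wx

theorem res_aeval {A : C[X]} (hA : IntP v A) : res (aeval x A) = aeval xb (redP ρC A) := by
  rw [R013.GR6_921.res_aeval h.rd hA h.wx, h.rx]

theorem W_aeval {A : C[X]} (hA : IntP v A) (h0 : redP ρC A ≠ 0) : W (aeval x A) = 1 :=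
  W_aeval_eq h.rd h.wx (by rw [h.rx]; exact h.hyb.tr) hA h0

theorem W_x : W x = 1 := by
  have := h.W_aeval intP_X (by rw [redP_X h.rd.resC]; exact X_ne_zero)
  rwa [aeval_X] at this

theorem redF_ne : redP ρC F ≠ 0 := by
  rw [h.red]; exact mul_ne_zero (pow_ne_zero 2 h.H0) h.hyb.F_ne

theorem W_w : W w = 1 := by
  have h1 := h.W_aeval h.int h.redF_ne
  rw [← h.hyp.sq, map_pow] at h1
  exact (pow_eq_one_iff_of_nonneg zero_le' two_ne_zero).mp h1

theorem W_el_le {A B : C[X]} (hA : IntP v A) (hB : IntP v B) : W (el x w A B) ≤ 1 :=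
  (Valuation.map_add _ _ _).trans (max_le (h.W_aeval_le hA)
    (by rw [map_mul, h.W_w, mul_one]; exact h.W_aeval_le hB))

theorem res_el {A B : C[X]} (hA : IntP v A) (hB : IntP v B) :
    res (el x w A B) = el xb wb (redP ρC A) (redP ρC B * H) := by
  unfold el
  rw [h.rd.res.add _ _ (h.W_aeval_le hA) (by rw [map_mul, h.W_w, mul_one]; exact h.W_aeval_le hB),
    h.rd.res.mul _ _ (h.W_aeval_le hB) h.W_w.le, h.res_aeval hA, h.res_aeval hB, h.rw, map_mul,
    mul_assoc]

theorem W_el {A B : C[X]} (hA : IntP v A) (hB : IntP v B) (h0 : redP ρC A ≠ 0 ∨ redP ρC B ≠ 0) :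
    W (el x w A B) = 1 := by
  rw [← h.rd.res.ne_zero_iff (h.W_el_le hA hB), h.res_el hA hB]
  exact h.hyb.el_ne (h0.imp id fun h1 => mul_ne_zero h1 h.H0)

/-- the norm of `A(x) + B(x) w` dominates the coefficients -/
theorem coeff_le (A B : C[X]) (i : ℕ) :
    v (A.coeff i) ≤ W (el x w A B) ∧ v (B.coeff i) ≤ W (el x w A B) := by
  obtain ⟨s, A', B', hA, hB, h0, rfl, rfl⟩ := exists_prim' h.rd.resC A B
  have e : el x w (Polynomial.C s * A') (Polynomial.C s * B') = algebraMap C K s * el x w A' B' := by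
    simp only [el, map_mul, aeval_C]; ring
  rw [e, map_mul, h.W_el hA hB h0, h.rd.norm, mul_one, coeff_C_mul, coeff_C_mul, map_mul, map_mul]
  exact ⟨mul_le_of_le_one_right' (hA i), mul_le_of_le_one_right' (hB i)⟩


theorem rep' (f : K) : ∃ (s : C) (A B c : C[X]), IntP v A ∧ IntP v B ∧ IntP v c ∧
    (redP ρC A ≠ 0 ∨ redP ρC B ≠ 0) ∧ redP ρC c ≠ 0 ∧
    f * aeval x c = algebraMap C K s * el x w A B ∧ W f = v s := by
  obtain ⟨s, A, B, c, hA, hB, hc, h1, h2, e⟩ := rep h.rd.resC h.hyp f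
  refine ⟨s, A, B, c, hA, hB, hc, h1, h2, e, ?_⟩
  have := congrArg W e
  rwa [map_mul, map_mul, h.W_aeval hc h2, h.W_el hA hB h1, h.rd.norm, mul_one, mul_one] at this

theorem int_rep {f : K} (hf : W f ≤ 1) : ∃ A B c : C[X], IntP v A ∧ IntP v B ∧ IntP v c ∧
    redP ρC c ≠ 0 ∧ f * aeval x c = el x w A B := by
  obtain ⟨s, A, B, c, hA, hB, hc, -, h2, e, hs⟩ := h.rep' f
  rw [hs] at hf
  refine ⟨Polynomial.C s * A, Polynomial.C s * B, c, (intP_C hf).mul hA, (intP_C hf).mul hB, hc,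
    h2, ?_⟩
  rw [e]; simp only [el, map_mul, aeval_C]; ring

theorem unit_rep {f : K} (hf : W f = 1) : ∃ A B c : C[X], IntP v A ∧ IntP v B ∧ IntP v c ∧
    (redP ρC A ≠ 0 ∨ redP ρC B ≠ 0) ∧ redP ρC c ≠ 0 ∧ f * aeval x c = el x w A B := by
  obtain ⟨A, B, c, hA, hB, hc, h2, e⟩ := h.int_rep hf.le
  refine ⟨A, B, c, hA, hB, hc, ?_, h2, e⟩
  have h1 : W (el x w A B) = 1 := by rw [← e, map_mul, hf, h.W_aeval hc h2, mul_one]
  rw [← h.rd.res.ne_zero_iff h1.le, h.res_el hA hB] at h1
  by_contra hcon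
  push Not at hcon
  rw [hcon.1, hcon.2] at h1
  simp [el] at h1

theorem res_eq {f : K} {A B c : C[X]} (hA : IntP v A) (hB : IntP v B) (hc : IntP v c)
    (h2 : redP ρC c ≠ 0) (e : f * aeval x c = el x w A B) :
    W f ≤ 1 ∧ res f * aeval xb (redP ρC c) = el xb wb (redP ρC A) (redP ρC B * H) := by
  have h1 : W f ≤ 1 := by
    have := h.W_el_le hA hB
    rwa [← e, map_mul, h.W_aeval hc h2, mul_one] at this
  exact ⟨h1, by rw [← h.res_el hA hB, ← e, h.rd.res.mul _ _ h1 (h.W_aeval_le hc), h.res_aeval hc]⟩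

/-- a norm which is the Gauss norm on `C(x)` is `W` (form with a homomorphism `σ`) -/
theorem W_hom {K' : Type*} [Field K'] (W' : Valuation K' ℝ≥0) (σ : K →+* K')
    (hc : ∀ c, W' (σ (algebraMap C K c)) = v c)
    (h1 : ∀ A, IntP v A → W' (σ (aeval x A)) ≤ 1)
    (h2 : ∀ A, IntP v A → redP ρC A ≠ 0 → W' (σ (aeval x A)) = 1) (f : K) : W' (σ f) = W f := by
  have hw : W' (σ w) = 1 := by
    have h3 := h2 F h.int h.redF_ne
    rw [← h.hyp.sq, map_pow, map_pow] at h3
    exact (pow_eq_one_iff_of_nonneg zero_le' two_ne_zero).mp h3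
  have hle : ∀ A B, IntP v A → IntP v B → W' (σ (el x w A B)) ≤ 1 := fun A B hA hB => by
    unfold el
    rw [map_add, map_mul]
    exact (Valuation.map_add _ _ _).trans (max_le (h1 A hA)
      (by rw [map_mul, hw, mul_one]; exact h1 B hB))
  obtain ⟨s, A, B, c, hA, hB, hc', h3, h4, e, hs⟩ := h.rep' f
  have hN : IntP v (A ^ 2 - B ^ 2 * F) := (hA.pow 2).sub ((hB.pow 2).mul h.int)
  have h5 : W (aeval x (A ^ 2 - B ^ 2 * F)) = 1 := by
    rw [← el_norm h.hyp.sq, map_mul, h.W_el hA hB h3, h.W_el hA hB.neg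
      (by rw [redP_neg h.rd.resC hB]; exact h3.imp id neg_ne_zero.mpr), mul_one]
  have h6 : redP ρC (A ^ 2 - B ^ 2 * F) ≠ 0 := by
    rw [← h.rd.res.ne_zero_iff h5.le, h.res_aeval hN] at h5
    intro h0; rw [h0, map_zero] at h5; exact h5 rfl
  have h7 := h2 _ hN h6
  rw [← el_norm h.hyp.sq, map_mul, map_mul] at h7
  have h8 : W' (σ (el x w A B)) = 1 := by
    refine le_antisymm (hle A B hA hB) ?_
    rw [← h7]
    exact mul_le_of_le_one_right' (hle A (-B) hA hB.neg)
  have h9 := congrArg (fun z => W' (σ z)) e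
  simp only [map_mul] at h9
  rwa [h2 c hc' h4, h8, hc, mul_one, mul_one, ← hs] at h9

/-- **invariance**: an isometric semilinear automorphism for which the image of `x` has a
transcendental residue preserves the norm -/
theorem W_SI' (e : SI C K C K) (hs : ∀ c, v (e.s c) = v c) (hx : W (e.f x) ≤ 1)
    (tr : ∀ p : k[X], aeval (res (e.f x)) p = 0 → p = 0) (f : K) : W (e.f f) = W f := by
  have hs' : ∀ c, v ((e.s : C →+* C) c) = v c := hs
  refine h.W_hom W (e.f : K →+* K) (fun c => ?_) (fun A hA => ?_) (fun A hA h0 => ?_) f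
  · show W (e.f _) = _
    rw [e.comm, h.rd.norm, hs]
  · show W (e.f _) ≤ _
    rw [SI_aeval]; exact w_aeval_le h.rd (hA.map hs') hx
  · show W (e.f _) = _
    rw [SI_aeval]
    refine W_aeval_eq h.rd hx tr (hA.map hs') ?_
    obtain ⟨i, hi⟩ := (redP_ne_iff h.rd.resC hA).mp h0
    exact (redP_ne_iff h.rd.resC (hA.map hs')).mpr ⟨i, by rw [coeff_map, hs', hi]⟩

theorem W_SI [IsAlgClosed k] (e : SI C K C K) (hs : ∀ c, v (e.s c) = v c) (hx : W (e.f x) ≤ 1)
    (hn : res (e.f x) ∉ Set.range (algebraMap k κ)) (f : K) : W (e.f f) = W f :=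
  h.W_SI' e hs hx (tr_of_notMem hn) f

theorem xb_notMem : xb ∉ Set.range (algebraMap k κ) := by
  rintro ⟨a, ha⟩
  exact h.hyb.x_sub_ne a (by rw [ha, sub_self])

theorem W_fix (e : SI C K C K) (hs : ∀ c, v (e.s c) = v c) (hx : e.f x = x) (f : K) :
    W (e.f f) = W f :=
  h.W_SI' e hs (by rw [hx]; exact h.wx) (by rw [hx, h.rx]; exact h.hyb.tr) f

/-- `x ↦ a x + b` -/
theorem W_aff (e : SI C K C K) (hs : ∀ c, v (e.s c) = v c) {a b : C} (ha : v a = 1) (hb : v b ≤ 1)
    (hx : e.f x = algebraMap C K a * x + algebraMap C K b) [IsAlgClosed k] (f : K) :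
    W (e.f f) = W f := by
  have h1 : W (algebraMap C K a * x) ≤ 1 := by rw [map_mul, h.rd.norm, ha, h.W_x, mul_one]
  have h2 : W (algebraMap C K b) ≤ 1 := by rw [h.rd.norm]; exact hb
  refine h.W_SI e hs (by rw [hx]; exact (Valuation.map_add _ _ _).trans (max_le h1 h2)) ?_ f
  rw [hx, h.rd.res.add _ _ h1 h2, h.rd.res.mul _ _ (by rw [h.rd.norm, ha]) h.wx, h.rd.comp _ ha.le,
    h.rd.comp _ hb, h.rx]
  rintro ⟨c, hc⟩
  have h3 : ρC a ≠ 0 := (h.rd.resC.ne_zero_iff ha.le).mpr ha
  have h4 : algebraMap k κ (ρC a) ≠ 0 := by simpa using h3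
  exact h.xb_notMem ⟨(c - ρC b) / ρC a, by rw [map_div₀, map_sub, hc]; field_simp; ring⟩

/-- `x ↦ a / x` -/
theorem W_inv (e : SI C K C K) (hs : ∀ c, v (e.s c) = v c) {a : C} (ha : v a = 1)
    (hx : e.f x = algebraMap C K a / x) [IsAlgClosed k] (f : K) : W (e.f f) = W f := by
  have h2 : W (algebraMap C K a) = 1 := by rw [h.rd.norm]; exact ha
  refine h.W_SI e hs (by rw [hx, map_div₀, h2, h.W_x]; simp) ?_ f
  rw [hx, h.rd.res.div h2.le h.W_x, h.rd.comp _ ha.le, h.rx]
  rintro ⟨c, hc⟩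
  have h3 : ρC a ≠ 0 := (h.rd.resC.ne_zero_iff ha.le).mpr ha
  have h4 : algebraMap k κ (ρC a) ≠ 0 := by simpa using h3
  have h5 := h.hyb.x_ne
  exact h.xb_notMem ⟨ρC a / c, by rw [map_div₀, hc]; field_simp⟩

/-- **the residual action** is read on the constants, `x` and `w` -/
theorem res_hom {K' κ' : Type*} [Field K'] [Field κ'] {W' : Valuation K' ℝ≥0} {res' : K' → κ'}
    (h' : IsRes W' res') (σ : K →+* K') (hW : ∀ f, W' (σ f) = W f) (τ : κ →+* κ')
    (hc : ∀ c, v c ≤ 1 → res' (σ (algebraMap C K c)) = τ (algebraMap k κ (ρC c)))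
    (hx : res' (σ x) = τ xb) (hw : res' (σ w) = τ (aeval xb H * wb)) {f : K} (hf : W f ≤ 1) :
    res' (σ f) = τ (res f) := by
  have h1 : ∀ A, IntP v A → res' (σ (aeval x A)) = τ (res (aeval x A)) := by
    intro A hA
    rw [h.res_aeval hA, redP, aeval_eq_sum_range, map_sum, map_sum, map_sum,
      h'.sum _ _ fun i _ => by
        rw [hW, Algebra.smul_def, map_mul, map_pow, h.rd.norm, h.W_x, one_pow, mul_one]; exact hA i]
    refine Finset.sum_congr rfl fun i _ => ?_
    rw [Algebra.smul_def, map_mul, map_pow,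
      h'.mul _ _ (by rw [hW, h.rd.norm]; exact hA i) (by rw [map_pow, hW, h.W_x, one_pow]),
      h'.pow (by rw [hW]; exact h.wx), hc _ (hA i), hx]
    simp
  obtain ⟨A, B, c, hA, hB, hc', h2, e⟩ := h.int_rep hf
  have h3 : τ (res (aeval x c)) ≠ 0 := by
    rw [_root_.map_ne_zero, h.rd.res.ne_zero_iff (h.W_aeval_le hc')]; exact h.W_aeval hc' h2
  apply mul_right_cancel₀ h3
  have hBw : W (aeval x B * w) ≤ 1 := by rw [map_mul, h.W_w, mul_one]; exact h.W_aeval_le hB
  rw [← map_mul, ← h.rd.res.mul _ _ hf (h.W_aeval_le hc'), ← h1 c hc',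
    ← h'.mul _ _ (by rw [hW]; exact hf) (by rw [hW]; exact h.W_aeval_le hc'), ← map_mul, e]
  unfold el
  rw [map_add, h'.add _ _ (by rw [hW]; exact h.W_aeval_le hA) (by rw [hW]; exact hBw),
    h.rd.res.add _ _ (h.W_aeval_le hA) hBw, map_add, h1 A hA, map_mul,
    h'.mul _ _ (by rw [hW]; exact h.W_aeval_le hB) (by rw [hW]; exact h.W_w.le), h1 B hB, hw,
    h.rd.res.mul _ _ (h.W_aeval_le hB) h.W_w.le, h.rw, map_mul τ (res _)]

/-- automorphisms which are trivial on the residue field -/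
theorem res_triv (e : SI C K C K) (hW : ∀ f, W (e.f f) = W f)
    (hs : ∀ c, v c ≤ 1 → v (e.s c - c) < 1) (hx : W (e.f x - x) < 1) (hw : W (e.f w - w) < 1)
    {f : K} (hf : W f ≤ 1) : res (e.f f) = res f := by
  refine h.res_hom h.rd.res (e.f : K →+* K) hW (RingHom.id κ) (fun c hc => ?_) ?_ ?_ hf
  · show res (e.f _) = algebraMap k κ _
    have h1 : v (e.s c) ≤ 1 := by rw [← h.rd.norm, ← e.comm, hW, h.rd.norm]; exact hc
    rw [e.comm, h.rd.comp _ h1, (h.rd.resC.eq_iff h1 hc).mpr (hs c hc)]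
  · show res (e.f x) = xb
    rw [← h.rx]; exact (h.rd.res.eq_iff (by rw [hW]; exact h.wx) h.wx).mpr hx
  · show res (e.f w) = aeval xb H * wb
    rw [← h.rw]; exact (h.rd.res.eq_iff (by rw [hW]; exact h.W_w.le) h.W_w.le).mpr hw

theorem orth : Orth v W := by
  classical
  intro V hV
  obtain ⟨T, hT⟩ := (Submodule.fg_iff_finiteDimensional V).mpr hV
  choose s A B c hA hB hc h1 h2 e using rep (K := K) h.rd.resC h.hyp
  let d : C[X] := ∏ f ∈ T, c f
  have hd : IntP v d ∧ redP ρC d ≠ 0 :=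
    Finset.prod_induction _ (fun p => IntP v p ∧ redP ρC p ≠ 0)
      (fun p q hp hq => ⟨hp.1.mul hq.1, by
        rw [redP_mul h.rd.resC hp.1 hq.1]; exact mul_ne_zero hp.2 hq.2⟩)
      ⟨intP_one, by rw [redP_one h.rd.resC]; exact one_ne_zero⟩ fun f _ => ⟨hc f, h2 f⟩
  have hWd := h.W_aeval hd.1 hd.2
  have hd0 : aeval x d ≠ 0 := by intro h0; rw [h0] at hWd; simp at hWd
  have hex : ∀ f ∈ T, ∃ p : C[X] × C[X], f * aeval x d = el x w p.1 p.2 := by
    intro f hf
    obtain ⟨q, hq⟩ := Finset.dvd_prod_of_mem c hf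
    refine ⟨(Polynomial.C (s f) * A f * q, Polynomial.C (s f) * B f * q), ?_⟩
    rw [show d = c f * q from hq, map_mul, ← mul_assoc, e]
    simp only [el, map_mul, aeval_C]; ring
  choose! p hp using hex
  let N : ℕ := T.sup (fun f => max (p f).1.natDegree (p f).2.natDegree) + 1
  let b : Fin N ⊕ Fin N → K := Sum.elim (fun i => x ^ (i : ℕ) / aeval x d)
    fun i => x ^ (i : ℕ) * w / aeval x d
  have hsum : ∀ a : Fin N ⊕ Fin N → C, ∑ i, a i • b i =
      el x w (∑ i : Fin N, monomial i (a (Sum.inl i))) (∑ i : Fin N, monomial i (a (Sum.inr i))) /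
        aeval x d := by
    intro a
    rw [Fintype.sum_sum_type]
    simp only [b, el, Sum.elim_inl, Sum.elim_inr, map_sum, aeval_monomial, Algebra.smul_def,
      add_div, Finset.sum_div, Finset.sum_mul, mul_div_assoc, mul_assoc]
  have hco : ∀ (a : Fin N → C) (i : Fin N), (∑ i : Fin N, monomial (i : ℕ) (a i)).coeff i = a i := by
    intro a i
    rw [finsetSum_coeff, Finset.sum_eq_single i (fun j _ hj => by
      rw [coeff_monomial, if_neg (fun h0 => hj (Fin.ext h0))]) (by simp), coeff_monomial, if_pos rfl]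
  refine HasON.mono h.rd.norm (V := Submodule.span C (Set.range b))
    (HasON.of_family h.rd.norm b (fun i => Submodule.subset_span ⟨i, rfl⟩) le_rfl ?_ ?_) ?_
  · rintro (i | i) <;> simp [b, hWd, h.W_x, h.W_w]
  · intro a i
    rw [hsum, map_div₀, hWd, div_one]
    rcases i with i | i
    · rw [← hco (fun i => a (Sum.inl i)) i]; exact (h.coeff_le _ _ _).1
    · rw [← hco (fun i => a (Sum.inr i)) i]; exact (h.coeff_le _ _ _).2
  · rw [← hT, Submodule.span_le]
    intro f hf
    have hN := Finset.le_sup (f := fun f => max (p f).1.natDegree (p f).2.natDegree) hf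
    have hq : ∀ q : C[X], q.natDegree < N → ∑ i : Fin N, monomial (i : ℕ) (q.coeff i) = q :=
      fun q hq => by
        rw [Fin.sum_univ_eq_sum_range (fun i => monomial i (q.coeff i)) N]
        exact (as_sum_range' q N hq).symm
    have h3 := hsum (Sum.elim (fun i => (p f).1.coeff i) fun i => (p f).2.coeff i)
    simp only [Sum.elim_inl, Sum.elim_inr] at h3
    rw [hq _ (Nat.lt_succ_of_le ((le_max_left _ _).trans hN)),
      hq _ (Nat.lt_succ_of_le ((le_max_right _ _).trans hN)), ← hp f hf,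
      mul_div_cancel_right₀ _ hd0] at h3
    rw [← h3]
    exact Submodule.sum_mem _ fun i _ => Submodule.smul_mem _ _ (Submodule.subset_span ⟨i, rfl⟩)

end NR

end nr

section gen

variable {k K : Type*} [Field k] [IsAlgClosed k] [Field K] [Algebra k K]
  [Algebra (RatFunc k) K] [IsScalarTower k (RatFunc k) K] [FiniteDimensional (RatFunc k) K]
  [Algebra.IsSeparable (RatFunc k) K] {F : k[X]} {x w : K}

theorem le_gen (h : Hyp F x w) {g : ℕ} (hg : 2 * g + 1 ≤ F.natDegree) : g ≤ gen k K := by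
  have hdeg : ∀ n : ℕ, degD (n • Dinf k x) = 2 * n := by
    intro n
    induction n with
    | zero => simp [degD_zero]
    | succ n ih => rw [succ_nsmul, degD_add, ih, h.degD_Dinf]; push_cast; ring
  have h1 := ell_ge (k := k) (K := K) hc_of_isAlgClosed (g • Dinf k x)
  haveI : Module.Finite k (degreeLT k (g + 1)) := Module.Finite.equiv (degreeLTEquiv k _).symm
  have h2 : LD (g • Dinf k x) ≤ (degreeLT k (g + 1)).map (aeval x : k[X] →ₐ[k] K).toLinearMap := by
    intro f hf
    obtain ⟨A, B, rfl, hA, hB⟩ := h.of_mem_LD hf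
    obtain rfl : B = 0 := hB.resolve_right (by omega)
    exact ⟨A, mem_degreeLT.mpr (degree_le_natDegree.trans_lt (by exact_mod_cast Nat.lt_succ_of_le hA)),
      (el_zero x w A).symm⟩
  have h3 := (Submodule.finrank_mono h2).trans (Submodule.finrank_map_le _ _)
  rw [(degreeLTEquiv k _).finrank_eq, finrank_fin_fun] at h3
  change ell (g • Dinf k x) ≤ _ at h3
  rw [hdeg] at h1
  omega

theorem gen_eq (h : Hyp F x w) {g : ℕ} (h1 : 2 * g + 1 ≤ F.natDegree) (h2 : F.natDegree ≤ 2 * g + 2) :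
    gen k K = g := le_antisymm (h.gen_le h2) (le_gen h h1)

end gen

section good

variable {C K : Type*} [Field C] [IsAlgClosed C] [Field K] [Algebra C K]
  [Algebra (RatFunc C) K] [IsScalarTower C (RatFunc C) K] [FiniteDimensional (RatFunc C) K]
  [Algebra.IsSeparable (RatFunc C) K]
  {k κ : Type*} [Field k] [IsAlgClosed k] [Field κ] [Algebra k κ]
  [Algebra (RatFunc k) κ] [IsScalarTower k (RatFunc k) κ] [FiniteDimensional (RatFunc k) κ]
  [Algebra.IsSeparable (RatFunc k) κ]
  {v : Valuation C ℝ≥0} {ρC : C → k} {W : Valuation K ℝ≥0} {res : K → κ}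

/-- naive good reduction: `F` reduces to `Fb`, of the same genus -/
structure NG (v : Valuation C ℝ≥0) (ρC : C → k) (F : C[X]) (x w : K) (Fb : k[X]) (xb wb : κ)
    (W : Valuation K ℝ≥0) (res : K → κ) (sp : Pl C K → Pl k κ) : Prop where
  nr : NR v ρC F x w 1 Fb xb wb W res
  good : Id.Good v ρC W res sp
  rw : res w = wb
  at_ : ∀ (P : Pl C K) (a b : C), At P x w a b → v a ≤ 1 → v b ≤ 1 ∧ At (sp P) xb wb (ρC a) (ρC b)
  inf : ∀ P : Pl C K, ¬ (P.v x ≤ 1 ∧ v (Disc.ev P x) ≤ 1) → 1 < (sp P).v xb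

theorem NR.spP {F : C[X]} {x w : K} {H E : k[X]} {xb wb : κ} (h : NR v ρC F x w H E xb wb W res)
    {F' : v.integer[X]} (hs : SpD (resHom h.rd.resC) F' H E x w xb wb) :
    Id.SpP W res (sp (resHom h.rd.resC) H x w xb wb) := by
  intro u hu
  have hu0 : u ≠ 0 := by rintro rfl; simp at hu
  obtain ⟨A, B, c, hA, hB, hc, h1, h2, e⟩ := h.unit_rep hu
  have e' := (h.res_eq hA hB hc h2 e).2
  obtain ⟨A, rfl⟩ := hA.lift
  obtain ⟨B, rfl⟩ := hB.lift
  obtain ⟨c, rfl⟩ := hc.lift
  rw [redP_map h.rd.resC] at h2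
  rw [redP_map h.rd.resC, redP_map h.rd.resC] at h1
  rw [redP_map h.rd.resC, redP_map h.rd.resC, redP_map h.rd.resC] at e'
  have h3 := hs.sp_el h1
  have h4 := hs.sp_el (A := c) (B := 0) (Or.inl h2)
  have h5 := hs.up_ne (A := c) (B := 0) (Or.inl h2)
  rw [Polynomial.map_zero, el_zero] at h5
  rw [Polynomial.map_zero, Polynomial.map_zero, zero_mul, el_zero, el_zero] at h4
  rw [← e, ← e', divf_mul hu0 h5, divf_mul ((h.rd.res.ne_zero_iff hu.le).mpr hu)
    (h.hyb.aeval_ne h2), Finsupp.mapDomain_add, h4] at h3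
  exact (add_right_cancel h3).symm

/-- **(NG1)** naive good reduction -/
theorem exists_NG (h : IsRes v ρC) {F : C[X]} {x w : K} {Fb : k[X]} {xb wb : κ} (hy : Hyp F x w)
    (hb : Hyp Fb xb wb) (hF : IntP v F) (hr : redP ρC F = Fb) (hodd : Odd Fb.natDegree)
    (hd : F.natDegree ≤ Fb.natDegree + 1) :
    ∃ (W : Valuation K ℝ≥0) (res : K → κ) (sp : Pl C K → Pl k κ),
      NG v ρC F x w Fb xb wb W res sp := by
  obtain ⟨W, res, hn⟩ := exists_NR h hy hb hF (H := 1) (by rw [hr]; simp) one_ne_zero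
  obtain ⟨F', hF'⟩ := hF.lift
  have hs : SpD (resHom hn.rd.resC) F' 1 Fb x w xb wb :=
    ⟨rd_resHom _, by rw [hF']; exact hy, hb, by rw [← redP_map, hF', hr]; simp, one_ne_zero,
      fun t ht => by simp at ht, hodd⟩
  obtain ⟨g, hg⟩ := hodd
  have hle : Fb.natDegree ≤ F.natDegree := hr ▸ natDegree_redP_le h F
  refine ⟨W, res, _, hn, ⟨hn.rd, hn.orth, ?_, hn.spP hs⟩, by simpa using hn.rw, ?_, ?_⟩
  · rw [gen_eq hb (g := g) (by omega) (by omega), gen_eq hy (g := g) (by omega) (by omega)]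
  · intro P a b hP ha
    obtain ⟨a', b', hP'⟩ := hs.exists_int hP.x_le (by rw [Disc.ev_eq P hP.1]; exact ha)
    obtain ⟨rfl, rfl⟩ := hP.eq hP'
    refine ⟨b'.2, ?_⟩
    rw [hs.sp_at hP']
    have := hs.sq_red (hs.sq_int hP')
    simp only [eval_one, div_one] at this ⊢
    exact hb.at_pt this
  · intro P hP
    unfold sp
    rw [if_neg hP]
    exact hs.oo_spec

theorem NG.disc [CharZero C] {F : C[X]} {x w : K} {Fb : k[X]} {xb wb : κ} {sp : Pl C K → Pl k κ}
    (h : NG v ρC F x w Fb xb wb W res sp) : Disc.Good v ρC W res sp :=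
  ⟨h.good.rd, h.good.orth, h.good.gen_eq, h.good.spp⟩

end good

end Crest.Agent.T15.Ng
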