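import Mathlib
import Crest.Agent.T15.NgB_77
import Crest.Agent.T15.MoB_29
import Crest.Agent.T15.HopfB_71
import Crest.Agent.T15.HonDef_54

-- ▼ part T15/NgC_77
section

/-!
# Row 15 (helper77): naive good reduction of the curve `Y` of the family

* `Gd v P` : `2`, the `p_i`, the `d_i` and `t` are units; `Gd.red` the reduced parameters;
* `Gd.exists_NG` : good reduction; `Gd.W_act` : every `Act` preserves the Gauss norm;
* `NG.pic_triv` : automorphisms trivial on the residues act trivially on the torsion;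
* `exists_good_off` : an odd separable polynomial with algebraic coefficients is good off some `B`.
-/

set_option autoImplicit false
set_option linter.all false

namespace Crest.Agent.T15.Ng

open Polynomial WithZero Module
open scoped NNReal
open Crest.Agent.R013.RR7_948 Crest.Agent.R013.RR8_948 Crest.Agent.R013.RR9_948
open Crest.Agent.R013.RR11_948 Crest.Agent.R013.RR12_948 Crest.Agent.R013.PicD_398
open Crest.Agent.R013.GR2_921 Crest.Agent.R013.Frob1_914
open Crest.Agent.R013.GR4_921 Crest.Agent.R013.GR6_921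
open Crest.Agent.T15.Hy Crest.Agent.T15.Mo

section units

variable {C : Type*} [Field C] {v : Valuation C ℝ≥0}

theorem unit_of_mul {x y : C} (hx : v x ≤ 1) (hy : v y ≤ 1) (h : v (x * y) = 1) :
    v x = 1 ∧ v y = 1 := by
  rw [map_mul] at h
  refine ⟨le_antisymm hx ?_, le_antisymm hy ?_⟩
  · calc (1 : ℝ≥0) = v x * v y := h.symm
      _ ≤ v x * 1 := by gcongr
      _ = v x := mul_one _
  · calc (1 : ℝ≥0) = v x * v y := h.symm
      _ ≤ 1 * v y := by gcongr
      _ = v y := one_mul _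

theorem unit_of_sq {x : C} (h : v (x ^ 2) = 1) : v x = 1 := by
  rw [map_pow] at h
  exact (pow_eq_one_iff_of_nonneg zero_le two_ne_zero).mp h

theorem v_add_le {x y : C} (hx : v x ≤ 1) (hy : v y ≤ 1) : v (x + y) ≤ 1 :=
  (Valuation.map_add _ _ _).trans (max_le hx hy)

theorem v_sub_le {x y : C} (hx : v x ≤ 1) (hy : v y ≤ 1) : v (x - y) ≤ 1 :=
  (Valuation.map_sub _ _ _).trans (max_le hx hy)

theorem v_nat_le (n : ℕ) : v (n : C) ≤ 1 := by
  induction n with
  | zero => simp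
  | succ n ih => rw [Nat.cast_succ]; exact v_add_le ih (by simp)




theorem res_nat {k : Type*} [Field k] {ρ : C → k} (h : IsRes v ρ) (n : ℕ) : ρ n = n := by
  induction n with
  | zero => simp [h.zero]
  | succ n ih => rw [Nat.cast_succ, h.add _ _ (v_nat_le n) (by simp), ih, h.one, Nat.cast_succ]

theorem res_two {k : Type*} [Field k] {ρ : C → k} (h : IsRes v ρ) : ρ 2 = 2 := by
  exact_mod_cast res_nat h 2


end units

/-- all the parameters are units -/
structure Gd {C : Type*} [Field C] (v : Valuation C ℝ≥0) (P : Par C) : Prop where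
  two : v 2 = 1
  p1 : v P.p1 = 1
  p2 : v P.p2 = 1
  p3 : v P.p3 = 1
  d1 : v P.d1 = 1
  d2 : v P.d2 = 1
  d3 : v P.d3 = 1
  t : v P.t = 1


namespace Gd

variable {C k : Type*} [Field C] [Field k] {v : Valuation C ℝ≥0} {ρ : C → k} {P : Par C}
  (g : Gd v P)
include g

theorem two_ne : (2 : C) ≠ 0 := by
  intro h; have := g.two; rw [h] at this; simp at this

theorem al : v P.al = 1 := unit_of_sq (by rw [P.al_sq]; simp [g.p2, g.d2])
theorem be : v P.be = 1 := unit_of_sq (by rw [P.be_sq]; simp [g.p3, g.d3])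

theorem add_sub : v (P.al + P.be) = 1 ∧ v (P.al - P.be) = 1 :=
  unit_of_mul (v_add_le g.al.le g.be.le) (v_sub_le g.al.le g.be.le)
    (by rw [P.sq_sub]; simp [g.p1, g.d1])

theorem add_sub2 : v (P.al * P.p3 + P.be * P.p2) = 1 ∧ v (P.al * P.p3 - P.be * P.p2) = 1 :=
  unit_of_mul (v_add_le (by simp [g.al, g.p3]) (by simp [g.be, g.p2]))
    (v_sub_le (by simp [g.al, g.p3]) (by simp [g.be, g.p2]))
    (by rw [P.sq_sub2]; simp [g.p1, g.p2, g.p3, g.d1])

theorem add3 : v (P.be * P.d3 * P.p2 + P.al * P.d2 * P.p3) = 1 :=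
  (unit_of_mul (y := P.be * P.d3 * P.p2 - P.al * P.d2 * P.p3)
    (v_add_le (by simp [g.be, g.d3, g.p2]) (by simp [g.al, g.d2, g.p3]))
    (v_sub_le (by simp [g.be, g.d3, g.p2]) (by simp [g.al, g.d2, g.p3]))
    (by rw [P.sq_sub3]; simp [g.p1, g.p2, g.p3, g.d1])).1

theorem a1 : v P.a1 = 1 := by simp [Par.a1, g.p1, g.d1]
theorem a2 : v P.a2 = 1 := by simp [Par.a2, g.p1, g.d1]
theorem a3 : v P.a3 = 1 := by rw [P.a3_eq]; simp [g.add_sub.1, g.add_sub.2]
theorem b : v P.b = 1 := by simp [Par.b, g.add_sub2.1, g.add_sub2.2]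
theorem c : v P.c = 1 := by rw [P.c_eq]; simp [g.t, g.p1, g.add3, g.two, g.al, g.be]

theorem int_F : IntP v P.F :=
  ((((intP_C g.c.le).mul intP_X).mul ((intP_X.pow 2).sub (intP_C g.a1.le))).mul
    ((intP_X.pow 2).sub (intP_C g.a2.le))).mul ((intP_X.pow 2).sub (intP_C g.a3.le))

/-- isometric images -/
theorem map {C' : Type*} [Field C'] {v' : Valuation C' ℝ≥0} (f : C →+* C')
    (hf : ∀ c, v' (f c) = v c) : Gd v' (P.map f) := by
  refine ⟨?_, ?_, ?_, ?_, ?_, ?_, ?_, ?_⟩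
  · rw [← map_ofNat f 2, hf, g.two]
  all_goals simp only [Par.map_p1, Par.map_p2, Par.map_p3, Par.map_d1, Par.map_d2, Par.map_d3,
    Par.map_t, hf]
  exacts [g.p1, g.p2, g.p3, g.d1, g.d2, g.d3, g.t]

variable (h : IsRes v ρ)
include h

theorem ne {x : C} (hx : v x = 1) : ρ x ≠ 0 := (h.ne_zero_iff hx.le).mpr hx

theorem two_ne_res : (2 : k) ≠ 0 := by rw [← res_two h]; exact g.ne h g.two

/-- the reduced parameters -/
def red : Par k where
  p1 := ρ P.p1
  p2 := ρ P.p2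
  p3 := ρ P.p3
  t := ρ P.t
  al := ρ P.al
  be := ρ P.be
  sum := by
    rw [← h.add _ _ g.p1.le g.p2.le, ← h.add _ _ (v_add_le g.p1.le g.p2.le) g.p3.le, P.sum, h.zero]
  h1 := g.ne h g.p1
  h2 := g.ne h g.p2
  h3 := g.ne h g.p3
  k1 := by rw [← h.sub g.p2.le g.p3.le]; exact g.ne h g.d1
  k2 := by rw [← h.sub g.p3.le g.p1.le]; exact g.ne h g.d2
  k3 := by rw [← h.sub g.p1.le g.p2.le]; exact g.ne h g.d3
  ht := g.ne h g.t
  hal := by
    rw [← h.pow g.al.le, P.al_sq, h.mul _ _ (by simp [g.p2]) g.d2.le, h.neg (by simp [g.p2]),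
      h.pow g.p2.le, Par.d2, h.sub g.p3.le g.p1.le]
  hbe := by
    rw [← h.pow g.be.le, P.be_sq, h.mul _ _ (by simp [g.p3]) g.d3.le, h.pow g.p3.le, Par.d3,
      h.sub g.p1.le g.p2.le]

theorem red_p1 : (g.red h).p1 = ρ P.p1 := rfl
theorem red_p2 : (g.red h).p2 = ρ P.p2 := rfl
theorem red_p3 : (g.red h).p3 = ρ P.p3 := rfl
theorem red_t : (g.red h).t = ρ P.t := rfl
theorem red_al : (g.red h).al = ρ P.al := rfl
theorem red_be : (g.red h).be = ρ P.be := rfl
theorem red_d1 : (g.red h).d1 = ρ P.d1 := (h.sub g.p2.le g.p3.le).symm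
theorem red_d2 : (g.red h).d2 = ρ P.d2 := (h.sub g.p3.le g.p1.le).symm
theorem red_d3 : (g.red h).d3 = ρ P.d3 := (h.sub g.p1.le g.p2.le).symm

theorem red_a1 : (g.red h).a1 = ρ P.a1 := by
  rw [Par.a1, Par.a1, h.div (by simp [g.p1]) g.d1, h.neg g.p1.le, g.red_d1, g.red_p1]

theorem red_a2 : (g.red h).a2 = ρ P.a2 := by
  rw [Par.a2, Par.a2, h.div (by simp [g.d1]) g.p1, h.neg g.d1.le, g.red_d1, g.red_p1]

theorem red_a3 : (g.red h).a3 = ρ P.a3 := by
  rw [Par.a3_eq, Par.a3_eq, h.div g.add_sub.1.le g.add_sub.2, h.add _ _ g.al.le g.be.le,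
    h.sub g.al.le g.be.le, g.red_al, g.red_be]


theorem red_c : (g.red h).c = ρ P.c := by
  rw [Par.c_eq, Par.c_eq, h.div (by simp [g.t, g.p1, g.add3]) (by simp [g.two, g.al, g.be]),
    h.mul _ _ (by simp [g.t, g.p1]) g.add3.le, h.mul _ _ g.t.le g.p1.le,
    h.add _ _ (by simp [g.be, g.d3, g.p2]) (by simp [g.al, g.d2, g.p3]),
    h.mul _ _ (by simp [g.be, g.d3]) g.p2.le, h.mul _ _ g.be.le g.d3.le,
    h.mul _ _ (by simp [g.al, g.d2]) g.p3.le, h.mul _ _ g.al.le g.d2.le,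
    h.mul _ _ (by simp [g.two, g.al]) g.be.le, h.mul _ _ g.two.le g.al.le, res_two h,
    g.red_al, g.red_be, g.red_p1, g.red_p2, g.red_p3, g.red_t, g.red_d2, g.red_d3]

theorem red_F : redP ρ P.F = (g.red h).F := by
  have q : ∀ a : C, v a ≤ 1 → IntP v (X ^ 2 - Polynomial.C a) := fun a ha =>
    (intP_X.pow 2).sub (intP_C ha)
  have r : ∀ a : C, v a ≤ 1 → redP ρ (X ^ 2 - Polynomial.C a) = X ^ 2 - Polynomial.C (ρ a) :=
    fun a ha => by rw [redP_sub h (intP_X.pow 2) (intP_C ha), redP_pow h intP_X, redP_X h, redP_C h]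
  have h0 : IntP v (Polynomial.C P.c * X) := (intP_C g.c.le).mul intP_X
  rw [Par.F, Par.F, Fm, Fm, redP_mul h ((h0.mul (q _ g.a1.le)).mul (q _ g.a2.le)) (q _ g.a3.le),
    redP_mul h (h0.mul (q _ g.a1.le)) (q _ g.a2.le), redP_mul h h0 (q _ g.a1.le),
    redP_mul h (intP_C g.c.le) intP_X, r _ g.a1.le, r _ g.a2.le, r _ g.a3.le, redP_C h, redP_X h,
    g.red_a1, g.red_a2, g.red_a3, g.red_c]

theorem deg_red : (g.red h).F.natDegree = 7 := (g.red h).natDegree_F (g.two_ne_res h)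

theorem hf : HF (g.red h).F :=
  ⟨g.two_ne_res h, (g.red h).sep_F (g.two_ne_res h), by rw [g.deg_red h]; norm_num⟩

omit h in
/-- an automorphism which is trivial on the residues fixes `al` and `be` -/
theorem fix_al {s : C →+* C} (hf : P.Fix s) (hs : ∀ c, v c ≤ 1 → v (s c - c) < 1) :
    s P.al = P.al ∧ s P.be = P.be := by
  have key : ∀ a : C, v a = 1 → (s a = a ∨ s a = -a) → s a = a := by
    rintro a ha (h | h)
    · exact h
    · have h1 := hs a ha.le
      rw [h, show -a - a = -(2 * a) by ring, Valuation.map_neg, map_mul, g.two, ha, mul_one] at h1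
      exact absurd h1 (lt_irrefl _)
  exact ⟨key _ g.al hf.al, key _ g.be hf.be⟩

end Gd

section act

variable {C Y k κ : Type*} [Field C] [Field Y] [Algebra C Y] [Field k] [IsAlgClosed k] [Field κ]
  [Algebra k κ] {v : Valuation C ℝ≥0} {ρ : C → k} {W : Valuation Y ℝ≥0} {res : Y → κ}
  {P : Par C} {A B2 u : Y} {H E : k[X]} {zb wb : κ}

/-- every `Act` with an isometric action on the constants preserves the Gauss norm -/
theorem NR.W_act (h : NR v ρ P.F (P.zY A B2 u) (P.wY A B2 u) H E zb wb W res) (hY : IsY P A B2 u)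
    (e : SI C Y C Y) (hs : ∀ c, v (e.s c) = v c) {lam : C} (hl : v lam = 1)
    (a : Act P A B2 u (e.s : C →+* C) (e.f : Y →+* Y) lam) (f : Y) : W (e.f f) = W f := by
  have h2 : v (lam ^ 2) = 1 := by simp [hl]
  have h3 : v (-lam ^ 2) = 1 := by simp [hl]
  rcases a.fix.al with h1 | h1 <;> rcases a.fix.be with h1' | h1'
  · refine h.W_aff e hs h2 (b := 0) (by simp) ?_ f
    simpa using a.z_pp h1 h1'
  · refine h.W_inv e hs h2 ?_ f
    simpa [div_eq_mul_inv] using a.z_pm hY h1 h1'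
  · refine h.W_inv e hs h3 ?_ f
    simpa [div_eq_mul_inv] using a.z_mp hY h1 h1'
  · refine h.W_aff e hs h3 (b := 0) (by simp) ?_ f
    simpa using a.z_mm h1 h1'

/-- the Galois action preserves the Gauss norm -/
theorem NR.W_gal (h : NR v ρ P.F (P.zY A B2 u) (P.wY A B2 u) H E zb wb W res) (hY : IsY P A B2 u)
    (e : SI C Y C Y) (hs : ∀ c, v (e.s c) = v c) (hf : P.Fix e.s) (hA : e.f A = A)
    (hB : e.f B2 = B2) (hu : e.f u = u) (f : Y) : W (e.f f) = W f :=
  h.W_act hY e hs (map_one v) (hY.act_SI e hf hA hB hu) f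

/-- inertia acts trivially on the residue field -/
theorem NR.res_gal (h : NR v ρ P.F (P.zY A B2 u) (P.wY A B2 u) H E zb wb W res) (g : Gd v P)
    (hY : IsY P A B2 u) (e : SI C Y C Y) (hs : ∀ c, v (e.s c) = v c)
    (hr : ∀ c, v c ≤ 1 → v (e.s c - c) < 1) (hf : P.Fix e.s) (hA : e.f A = A)
    (hB : e.f B2 = B2) (hu : e.f u = u) {f : Y} (hf' : W f ≤ 1) : res (e.f f) = res f := by
  obtain ⟨h1, h2⟩ := g.fix_al (s := (e.s : C →+* C)) hf hr
  obtain ⟨h3, h4⟩ := hY.act_pp (hY.act_SI e hf hA hB hu) h1 h2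
  refine h.res_triv e (h.W_gal hY e hs hf hA hB hu) hr ?_ ?_ hf'
  · rw [show e.f (P.zY A B2 u) = _ from h3]; simp
  · rw [show e.f (P.wY A B2 u) = _ from h4]; simp

end act

section good

variable {C K : Type*} [Field C] [IsAlgClosed C] [Field K] [Algebra C K]
  [Algebra (RatFunc C) K] [IsScalarTower C (RatFunc C) K] [FiniteDimensional (RatFunc C) K]
  [Algebra.IsSeparable (RatFunc C) K]
  {k κ : Type*} [Field k] [IsAlgClosed k] [Field κ] [Algebra k κ]
  [Algebra (RatFunc k) κ] [IsScalarTower k (RatFunc k) κ] [FiniteDimensional (RatFunc k) κ]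
  [Algebra.IsSeparable (RatFunc k) κ]
  {v : Valuation C ℝ≥0} {ρ : C → k} {W : Valuation K ℝ≥0} {res : K → κ}

/-- **(NG2)** good reduction of `w² = P.F(z)` -/
theorem Gd.exists_NG {P : Par C} (g : Gd v P) (h : IsRes v ρ) {z w : K} (hy : Hyp P.F z w)
    {zb wb : κ} (hb : Hyp (g.red h).F zb wb) :
    ∃ (W : Valuation K ℝ≥0) (res : K → κ) (sp : Pl C K → Pl k κ),
      NG v ρ P.F z w (g.red h).F zb wb W res sp :=
  Ng.exists_NG h hy hb g.int_F (g.red_F h) (by rw [g.deg_red h]; decide)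
    (by rw [g.deg_red h, P.natDegree_F g.two_ne]; norm_num)

/-- automorphisms which are trivial on the residue field act trivially on the torsion -/
theorem pic_triv [CharZero C] {sp : Pl C K → Pl k κ} (h : Disc.Good v ρ W res sp) (e : SI C K C K)
    (hW : ∀ f, W (e.f f) = W f) (hr : ∀ f, W f ≤ 1 → res (e.f f) = res f) {n : ℕ}
    (hn : (n : k) ≠ 0) {a : Pic C K} (ha : n • a = 0) : e.pic a = a := by
  obtain ⟨eb, h1, -, h3⟩ := h.exists_bar e hW
  have h4 : ∀ z, eb.f z = z := by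
    intro z
    obtain ⟨u, hu, rfl⟩ := h.rd.res.surj z
    rw [← h1 u hu, hr u hu]
  have h5 : ∀ P, sp (e.pl P) = (SI.refl k κ).pl (sp P) := by
    intro P
    rw [h3, SI.pl_refl]
    ext z
    conv_lhs => rw [← h4 z]
    rw [SI.pl_v_apply]
  rw [← sub_eq_zero]
  refine h.eq_zero_of_spPic hn (by rw [nsmul_sub, ← map_nsmul, ha, map_zero, sub_self]) ?_
  rw [map_sub, h.spPic_pic e h5, sub_eq_zero]
  obtain ⟨D, hD⟩ := cls_surjective (h.spPic a)
  rw [← hD, SI.pic_cls]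
  congr 1
  rw [Disc.D_eq_mapDomain]
  have : ((SI.refl k κ).pl : Pl k κ → Pl k κ) = id := funext fun P => SI.pl_refl P
  rw [this, Finsupp.mapDomain_id]

end good

section unr

variable {C Y : Type*} [Field C] [IsAlgClosed C] [CharZero C] [Field Y] [Algebra C Y]
  [Algebra (RatFunc C) Y] [IsScalarTower C (RatFunc C) Y] [FiniteDimensional (RatFunc C) Y]
  [Algebra.IsSeparable (RatFunc C) Y] {v : Valuation C ℝ≥0}

theorem isAlgClosed_res {C k : Type*} [Field C] [IsAlgClosed C] [Field k] {v : Valuation C ℝ≥0}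
    {ρ : C → k} (h : IsRes v ρ) : IsAlgClosed k := by
  apply IsAlgClosed.of_exists_root
  intro p hp hirr
  obtain ⟨q, rfl, hdeg, hq⟩ := lifts_and_degree_eq_and_monic
    ((mem_lifts p).mpr (map_surjective (resHom h) (rd_resHom h).surj p)) hp
  obtain ⟨t, ht⟩ := IsAlgClosed.exists_root (q.map v.integer.subtype) (by
    rw [hq.degree_map, hdeg]; exact (degree_pos_of_irreducible hirr).ne')
  have h1 : v t ≤ 1 := (Valuation.integer.integers v).mem_of_integral
    ⟨q, hq, by rw [← eval_map]; exact ht⟩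
  refine ⟨resHom h ⟨t, h1⟩, ?_⟩
  have h2 : q.eval ⟨t, h1⟩ = 0 := Subtype.ext (by
    have := ht.eq_zero
    rw [eval_map, show t = v.integer.subtype ⟨t, h1⟩ from rfl, eval₂_at_apply] at this
    exact this)
  rw [eval_map, eval₂_at_apply, h2, map_zero]

theorem exists_res {C : Type*} [Field C] [IsAlgClosed C] (v : Valuation C ℝ≥0) :
    ∃ ρ : C → IsLocalRing.ResidueField v.valuationSubring, IsRes v ρ ∧
      IsAlgClosed (IsLocalRing.ResidueField v.valuationSubring) := by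
  obtain ⟨ρ, h, -⟩ := exists_isRes v
  exact ⟨ρ, h, isAlgClosed_res h⟩

/-- **unramified at the good places** -/
theorem Gd.unr {P : Par C} (g : Gd v P) {A B2 u : Y} (hY : IsY P A B2 u) (e : SI C Y C Y)
    (hs : ∀ c, v (e.s c) = v c) (hr : ∀ c, v c ≤ 1 → v (e.s c - c) < 1) (hf : P.Fix e.s)
    (hA : e.f A = A) (hB : e.f B2 = B2) (hu : e.f u = u) {n : ℕ} (hn : v (n : C) = 1)
    {a : Pic C Y} (ha : n • a = 0) : e.pic a = a := by
  obtain ⟨ρ, h, hk⟩ := exists_res v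
  haveI := g.hf h
  obtain ⟨W, res, sp, hN⟩ := g.exists_NG h hY.hyp (Hf.hyp (g.red h).F)
  exact pic_triv hN.disc e (hN.nr.W_gal hY e hs hf hA hB hu)
    (fun f hf' => hN.nr.res_gal g hY e hs hr hf hA hB hu hf')
    (by rw [← res_nat h]; exact g.ne h hn) ha

end unr

section off

variable {C : Type*} [Field C] [CharZero C]






variable [Algebra.IsAlgebraic ℚ C]





end off

end Crest.Agent.T15.Ng
end

-- ▼ part T15/NgD_77

/-!
# Row 15 (helper77): the fields `ng`, `deg`, `degb`, `e_iso` of the frame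
-/

set_option autoImplicit false
set_option linter.all false

namespace Crest.Agent.T15.Ng

open Polynomial
open scoped NNReal
open Crest.Agent.R013.RR7_948 Crest.Agent.R013.RR11_948 Crest.Agent.R013.Frob1_914
open Crest.Agent.R013.GR4_921
open Crest.Agent.T15.Hy Crest.Agent.T15.Mo Crest.Agent.T15.Hon

/-- the numbers which have to be units -/
noncomputable def S0 {C : Type*} [Field C] (P : Par C) : Finset C := by
  classical
  exact {2, P.p1, P.p2, P.p3, P.d1, P.d2, P.d3, P.t, P.al, P.be}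

theorem mem_S0 {C : Type*} [Field C] (P : Par C) (s : C) : s ∈ S0 P ↔ s = 2 ∨ s = P.p1 ∨ s = P.p2 ∨
    s = P.p3 ∨ s = P.d1 ∨ s = P.d2 ∨ s = P.d3 ∨ s = P.t ∨ s = P.al ∨ s = P.be := by
  simp [S0]

theorem zero_notMem_S0 {C : Type*} [Field C] [CharZero C] (P : Par C) : (0 : C) ∉ S0 P := by
  rw [mem_S0]
  push Not
  exact ⟨two_ne_zero.symm, P.h1.symm, P.h2.symm, P.h3.symm, P.d1_ne.symm, P.d2_ne.symm,
    P.d3_ne.symm, P.ht.symm, P.al_ne.symm, P.be_ne.symm⟩

theorem gd_of_S0 {C : Type*} [Field C] {v : Valuation C ℝ≥0} {P : Par C}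
    (h : ∀ s ∈ S0 P, v s = 1) : Gd v P := by
  refine ⟨?_, ?_, ?_, ?_, ?_, ?_, ?_, ?_⟩ <;> exact h _ (by simp [mem_S0])

section vs

variable {C : Type} [Field C] {K0 : Subfield C} {v0 : Valuation K0 ℝ≥0} {p : ℕ} {hp : p ≠ 0}
  {σ : K0 →+* K0} (X : Vs C K0 v0 p hp σ) {P : Par C}

theorem gd_vsC (h : ∀ s ∈ S0 P, ∃ hs : s ∈ K0, v0 ⟨s, hs⟩ = 1) :
    Gd (X.v.comap (algebraMap C X.Ω)) P :=
  gd_of_S0 fun s hs => by
    obtain ⟨h1, h2⟩ := h s hs
    exact (X.v_K0 ⟨s, h1⟩).trans h2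

theorem gd_vs (h : ∀ s ∈ S0 P, ∃ hs : s ∈ K0, v0 ⟨s, hs⟩ = 1) :
    Gd X.v (P.map (algebraMap C X.Ω)) := (gd_vsC X h).map _ fun _ => rfl

theorem map_F0 {F0 : K0[X]} (hF : F0.map K0.subtype = P.F) :
    F0.map ((algebraMap C X.Ω).comp K0.subtype) = (P.map (algebraMap C X.Ω)).F := by
  rw [← Polynomial.map_map, hF, P.map_F]

omit X in
theorem deg_F0 [CharZero C] {F0 : K0[X]} (hF : F0.map K0.subtype = P.F) :
    F0.natDegree = 2 * 3 + 1 := by
  rw [← natDegree_map K0.subtype, hF, P.natDegree_F two_ne_zero]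


variable {L : Type} [Field L] [Algebra X.Ω L] [Algebra (RatFunc X.Ω) L]
  [IsScalarTower X.Ω (RatFunc X.Ω) L] [FiniteDimensional (RatFunc X.Ω) L]
  [Algebra.IsSeparable (RatFunc X.Ω) L]

/-- **`ng`, `degb`, `e_iso`** for any model `κ` of the reduced curve -/
theorem frame_ng' (h : ∀ s ∈ S0 P, ∃ hs : s ∈ K0, v0 ⟨s, hs⟩ = 1) {F0 : K0[X]}
    (hF : F0.map K0.subtype = P.F) {A B2 u : L} (hY : IsY (P.map (algebraMap C X.Ω)) A B2 u)
    {κ : Type} [Field κ] [Algebra X.k' κ] [Algebra (RatFunc X.k') κ]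
    [IsScalarTower X.k' (RatFunc X.k') κ] [FiniteDimensional (RatFunc X.k') κ]
    [Algebra.IsSeparable (RatFunc X.k') κ] {xb wb : κ}
    (hb : Hyp ((gd_vs X h).red X.res).F xb wb) :
    ∃ (W : Valuation L ℝ≥0) (res : L → κ) (sp : Pl X.Ω L → Pl X.k' κ),
      NG X.v X.ρ (F0.map ((algebraMap C X.Ω).comp K0.subtype))
        ((P.map (algebraMap C X.Ω)).zY A B2 u) ((P.map (algebraMap C X.Ω)).wY A B2 u)
        ((gd_vs X h).red X.res).F xb wb W res sp ∧
      ∀ e : SI X.Ω L X.Ω L, (∀ c, X.v (e.s c) = X.v c) → (P.map (algebraMap C X.Ω)).Fix e.s →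
        e.f A = A → e.f B2 = B2 → e.f u = u → ∀ f, W (e.f f) = W f := by
  obtain ⟨W, res, sp, hN⟩ := (gd_vs X h).exists_NG X.res hY.hyp hb
  exact ⟨W, res, sp, by rw [map_F0 X hF]; exact hN, fun e h1 h2 h3 h4 h5 =>
    hN.nr.W_gal hY e h1 h2 h3 h4 h5⟩

/-- **`ng`, `degb`, `e_iso`** -/
theorem frame_ng (h : ∀ s ∈ S0 P, ∃ hs : s ∈ K0, v0 ⟨s, hs⟩ = 1) {F0 : K0[X]}
    (hF : F0.map K0.subtype = P.F) {A B2 u : L} (hY : IsY (P.map (algebraMap C X.Ω)) A B2 u) :
    ∃ (Fb : X.k'[X]) (_ : HF Fb) (W : Valuation L ℝ≥0) (res : L → Hf Fb)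
      (sp : Pl X.Ω L → Pl X.k' (Hf Fb)),
      NG X.v X.ρ (F0.map ((algebraMap C X.Ω).comp K0.subtype))
        ((P.map (algebraMap C X.Ω)).zY A B2 u) ((P.map (algebraMap C X.Ω)).wY A B2 u)
        Fb (Hf.x Fb) (Hf.w Fb) W res sp ∧ Fb.natDegree = 2 * 3 + 1 ∧
      ∀ e : SI X.Ω L X.Ω L, (∀ c, X.v (e.s c) = X.v c) →
        e.s (algebraMap C X.Ω P.p1) = algebraMap C X.Ω P.p1 →
        e.s (algebraMap C X.Ω P.p2) = algebraMap C X.Ω P.p2 →
        e.s (algebraMap C X.Ω P.t) = algebraMap C X.Ω P.t →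
        e.f A = A → e.f B2 = B2 → e.f u = u → ∀ f, W (e.f f) = W f := by
  haveI := (gd_vs X h).hf X.res
  obtain ⟨W, res, sp, h1, h2⟩ := frame_ng' X h hF hY (Hf.hyp _)
  refine ⟨_, this, W, res, sp, h1, (gd_vs X h).deg_red X.res, fun e hs a b c => h2 e hs ⟨a, b, ?_, c⟩⟩
  rw [Par.p3_eq, map_sub, map_neg]
  exact congrArg₂ (fun s t => -s - t) a b

end vs

end Crest.Agent.T15.Ng
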