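import Mathlib
import Crest.Agent.T15.FaA_51
import Crest.Agent.T15.FaDef_51
import Crest.Agent.T15.FaS_49
import Crest.Agent.R013.A2a_275
import Crest.Agent.R013.GR2_921
import Crest.Agent.T15.IdWF_11
import Crest.Agent.T15.HonH_54
import Crest.Agent.T15.Fn2_39
import Crest.Agent.T15.NgD_77
import Crest.Agent.T15.Gal_31

-- ▼ part T15/FaB_51
section

/-!
# Row 15 (helper51): the height pairing on a constant hyperelliptic curve, part B

Schwarz lemma in a residue disc, the chart at infinity.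
-/

set_option autoImplicit false
set_option linter.all false

namespace Crest.Agent.T15.Fa

open Polynomial WithZero Module
open scoped NNReal
open Crest.Agent.R013.RR7_948 Crest.Agent.R013.RR8_948 Crest.Agent.R013.RR9_948
open Crest.Agent.R013.RR11_948 Crest.Agent.R013.RR12_948 Crest.Agent.R013.PicD_398
open Crest.Agent.R013.GR2_921 Crest.Agent.R013.Frob1_914 Crest.Agent.T15.Disc
open Crest.Agent.T15.Hy

variable {Om L : Type*} [Field Om] [Field L] [Algebra Om L]
variable [Algebra (RatFunc Om) L] [IsScalarTower Om (RatFunc Om) L]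
  [FiniteDimensional (RatFunc Om) L] [Algebra.IsSeparable (RatFunc Om) L] [IsAlgClosed Om]
variable {ν : Valuation Om ℝ≥0} {F : Om[X]} {x w : L}

theorem ev_el {P : Pl Om L} {a b : Om} (hP : At P x w a b) (A B : Om[X]) :
    ev P (el x w A B) = A.eval a + B.eval a * b := ev_eq _ (hP.el_sub A B)

theorem divf_el_zero {P : Pl Om L} {a b : Om} (hP : At P x w a b) {A B : Om[X]}
    (h0 : A.eval a + B.eval a * b ≠ 0) : divf (k := Om) (el x w A B) P = 0 := by
  have h1 := hP.el_eq_one h0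
  have h2 : el x w A B ≠ 0 := by
    intro h; rw [h, map_zero] at h1; exact zero_ne_one h1
  exact (v_eq_one_iff h2 P).mp h1

theorem lv_el {P : Pl Om L} {a b : Om} (hP : At P x w a b) (u : L) {A B : Om[X]}
    (h0 : A.eval a + B.eval a * b ≠ 0) : lv P u (el x w A B) = A.eval a + B.eval a * b := by
  rw [lv_of_zero (divf_el_zero hP h0), ev_el hP]

theorem el_x (x w : L) (a : Om) : el x w (X - C a) 0 = x - algebraMap Om L a := by simp [el]

theorem el_w (x w : L) (b : Om) : el x w (-C b) 1 = w - algebraMap Om L b := by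
  simp [el]; ring

/-- `P` lies in the residue disc of `(a', b')` -/
def Near (ν : Valuation Om ℝ≥0) (x w : L) (a' b' : Om) (P : Pl Om L) : Prop :=
  ∃ a b, At P x w a b ∧ ν (a - a') < 1 ∧ ν (b - b') < 1

theorem schwarz_step (h : Hyp F x w) (hL : Loc ν F) {Q P : Pl Om L} {a' b' a b : Om}
    (hQ : At Q x w a' b') (ha' : ν a' ≤ 1) (hb' : b' ≠ 0) (hP : At P x w a b)
    (h1 : ν (a - a') < 1) (h2 : ν (b - b') < 1) {A B : Om[X]} (hA : A ∈ IP ν) (hB : B ∈ IP ν)
    (h0 : A.eval a + B.eval a * b = 0) :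
    ∃ (A' B' : Om[X]) (T U : L), A' ∈ IP ν ∧ B' ∈ IP ν ∧ T ≠ 0 ∧ U ≠ 0 ∧
      el x w A B * U = T * el x w A' B' ∧
      (∀ P', Near ν x w a' b' P' → divf (k := Om) U P' = 0) ∧
      divf (k := Om) T P = 1 ∧
      (∀ P', Near ν x w a' b' P' → P' ≠ P → divf (k := Om) T P' = 0) ∧
      ν (lv Q (x - algebraMap Om L a') U) = 1 ∧
      (P ≠ Q → ν (lv Q (x - algebraMap Om L a') T) ≤ max (ν (a - a')) (ν (b - b'))) ∧
      (P = Q → ν (lv Q (x - algebraMap Om L a') T) * ν b' ≤ 1) := by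
  have sq := hP.sq h.sq
  have sq' := hQ.sq h.sq
  have ha : ν a ≤ 1 := v_le_one_of_near ha' h1
  have hb1' := hL.b_le sq' ha'
  have hb1 := hL.b_le sq ha
  have hu := h.x_sub_ne a'
  have hu1 := h.ord_x hQ hb'
  have hQn : Near ν x w a' b' Q := ⟨a', b', hQ, by simp, by simp⟩
  rcases hb1'.eq_or_lt with hb | hb
  · -- the disc of an ordinary point
    have key : ∀ b'' : Om, ν (b'' - b') < 1 → ν (b + b'') = 1 := by
      intro b'' h3
      apply v_eq_one_of_near (u := 2 * b') (by rw [map_mul, hL.two, hb, one_mul])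
      rw [show b + b'' - 2 * b' = (b - b') + (b'' - b') by ring]
      exact lt_of_le_of_lt (ν.map_add _ _) (max_lt h2 h3)
    have key' : ∀ b'' : Om, ν (b'' - b') < 1 → b + b'' ≠ 0 := by
      intro b'' h3 h4
      have := key b'' h3
      rw [h4, map_zero] at this
      exact zero_ne_one this
    have hb0 : b ≠ 0 := by
      intro h4
      have := key' b h2
      rw [h4, add_zero] at this
      exact this rfl
    obtain ⟨A', B', e1, e2⟩ := div1 sq h0
    have hT : ∀ P', Near ν x w a' b' P' → P' ≠ P →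
        ∀ a'' b'', At P' x w a'' b'' → (X - C a).eval a'' + (0 : Om[X]).eval a'' * b'' ≠ 0 := by
      rintro P' ⟨a1, b1, hP1, h3, h4⟩ hne a'' b'' hP'
      obtain ⟨rfl, rfl⟩ := hP1.eq hP'
      simp only [eval_sub, eval_X, eval_C, eval_zero, zero_mul, add_zero]
      intro h5
      obtain rfl := sub_eq_zero.mp h5
      have h6 : (b + b1) * (b - b1) = 0 := by
        have := hP'.sq h.sq
        linear_combination sq - this
      obtain rfl := sub_eq_zero.mp ((mul_eq_zero.mp h6).resolve_left (key' b1 h4))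
      exact hne (h.at_unique hP' hP)
    refine ⟨A', B', el x w (X - C a) 0, el x w (C b) 1, ?_, ?_, ?_, ?_, el_div1 h.sq e1 e2,
      ?_, ?_, ?_, ?_, ?_, ?_⟩
    · exact IP_div' ((IP ν).add_mem ((IP ν).mul_mem hA (IP_C hb1)) ((IP ν).mul_mem hB hL.int)) ha e1
    · exact IP_div' ((IP ν).add_mem hA ((IP ν).mul_mem hB (IP_C hb1))) ha e2
    · exact h.el_ne (Or.inl (X_sub_C_ne_zero a))
    · exact h.el_ne (Or.inr one_ne_zero)
    · rintro P' ⟨a1, b1, hP1, h3, h4⟩
      exact divf_el_zero hP1 (by simpa using key' b1 h4)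
    · rw [el_x]; exact h.ord_x hP hb0
    · intro P' hn hne
      obtain ⟨a1, b1, hP1, -⟩ := id hn
      exact divf_el_zero hP1 (hT P' hn hne a1 b1 hP1)
    · rw [lv_el hQ _ (by simpa using key' b' (by simp))]
      simpa using key b' (by simp)
    · intro hne
      rw [lv_el hQ _ (hT Q hQn hne.symm a' b' hQ)]
      simp only [eval_sub, eval_X, eval_C, eval_zero, zero_mul, add_zero]
      rw [ν.map_sub_swap]
      exact le_max_left _ _
    · rintro rfl
      obtain ⟨rfl, rfl⟩ := hP.eq hQ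
      rw [el_x, lv_self hu hu1, map_one, one_mul]
      exact hb1
  · -- the disc of a Weierstrass point
    have hbl : ν b < 1 := v_lt_one_of_near hb h2
    have hd : ν (F.derivative.eval a) = 1 := by
      apply hL.sep a ha
      rw [← sq, map_pow]
      exact pow_lt_one₀ zero_le hbl two_ne_zero
    obtain ⟨G, hG, hGa⟩ := exists_G F a
    have hGI : G ∈ IP ν := IP_div hL.int ha hG
    have key : ∀ a'' : Om, ν (a'' - a') < 1 → ν (G.eval a'') = 1 := by
      intro a'' h3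
      apply v_eq_one_of_near (u := G.eval a) (by rw [hGa, hd])
      exact lt_of_le_of_lt (IP_eval_sub hGI ha (v_le_one_of_near ha' h3)) (v_sub_lt_trans h3 h1)
    have key' : ∀ a'' : Om, ν (a'' - a') < 1 → G.eval a'' ≠ 0 := by
      intro a'' h3 h4
      have := key a'' h3
      rw [h4, map_zero] at this
      exact zero_ne_one this
    have hG0 : G ≠ 0 := by
      intro h4
      exact key' a h1 (by rw [h4, eval_zero])
    rw [← sq] at hG
    obtain ⟨B', e2⟩ := exists_div h0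
    have hB' : B' ∈ IP ν := IP_div' ((IP ν).add_mem hA ((IP ν).mul_mem hB (IP_C hb1))) ha e2
    have hT : ∀ P', Near ν x w a' b' P' → P' ≠ P →
        ∀ a'' b'', At P' x w a'' b'' → (-C b).eval a'' + (1 : Om[X]).eval a'' * b'' ≠ 0 := by
      rintro P' ⟨a1, b1, hP1, h3, h4⟩ hne a'' b'' hP'
      obtain ⟨rfl, rfl⟩ := hP1.eq hP'
      simp only [eval_neg, eval_C, eval_one, one_mul]
      intro h5
      obtain rfl : b = b1 := by linear_combination -h5
      have h6 : (a1 - a) * G.eval a1 = 0 := by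
        have h7 := hP'.sq h.sq
        have h8 := congrArg (eval a1) hG
        simp only [eval_add, eval_mul, eval_sub, eval_X, eval_C] at h8
        linear_combination -h7 - h8
      obtain rfl := sub_eq_zero.mp ((mul_eq_zero.mp h6).resolve_right (key' a1 h3))
      exact hne (h.at_unique hP' hP)
    have hTne : el x w (-C b) 1 ≠ 0 := h.el_ne (Or.inr one_ne_zero)
    have hUne : el x w G 0 ≠ 0 := h.el_ne (Or.inl hG0)
    have hlU : ν (lv Q (x - algebraMap Om L a') (el x w G 0)) = 1 := by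
      rw [lv_el hQ _ (by simpa using key' a' (by simp))]
      simpa using key a' (by simp)
    refine ⟨C b * B' + B * G, B', el x w (-C b) 1, el x w G 0, ?_, hB', hTne, hUne,
      el_div2 h.sq hG e2, ?_, ?_, ?_, hlU, ?_, ?_⟩
    · exact (IP ν).add_mem ((IP ν).mul_mem (IP_C hb1) hB') ((IP ν).mul_mem hB hGI)
    · rintro P' ⟨a1, b1, hP1, h3, h4⟩
      exact divf_el_zero hP1 (by simpa using key' a1 h3)
    · rw [el_w]
      apply h.ord_w hP
      intro h4
      rw [h4, map_zero] at hd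
      exact zero_ne_one hd
    · intro P' hn hne
      obtain ⟨a1, b1, hP1, -⟩ := id hn
      exact divf_el_zero hP1 (hT P' hn hne a1 b1 hP1)
    · intro hne
      rw [lv_el hQ _ (hT Q hQn hne.symm a' b' hQ)]
      simp only [eval_neg, eval_C, eval_one, one_mul]
      rw [show -b + b' = -(b - b') by ring, ν.map_neg]
      exact le_max_right _ _
    · rintro rfl
      obtain ⟨rfl, rfl⟩ := hP.eq hQ
      have e3 : el x w (-C b) 1 * el x w (C b) 1 = (x - algebraMap Om L a) * el x w G 0 := by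
        have h8 := congrArg (aeval x) hG
        simp only [map_add, map_mul, map_sub, aeval_X, aeval_C, map_pow] at h8
        simp only [el, map_neg, aeval_C, map_one, map_zero]
        linear_combination h.sq + h8
      have h9 : (C b).eval a + (1 : Om[X]).eval a * b ≠ 0 := by
        simp only [eval_C, eval_one, one_mul]
        rw [← two_mul]
        exact mul_ne_zero h.two hb'
      have e4 := congrArg (fun z => ν (lv P (x - algebraMap Om L a) z)) e3
      rw [lv_mul hu hu1 hTne (h.el_ne (Or.inr one_ne_zero)), lv_mul hu hu1 hu hUne,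
        lv_self hu hu1, one_mul, hlU, lv_el hP _ h9, map_mul] at e4
      simp only [eval_C, eval_one, one_mul] at e4
      rw [← two_mul, map_mul, hL.two, one_mul] at e4
      exact e4.le

/-- Schwarz lemma -/
theorem schwarz (h : Hyp F x w) (hL : Loc ν F) {Q : Pl Om L} {a' b' : Om}
    (hQ : At Q x w a' b') (ha' : ν a' ≤ 1) (hb' : b' ≠ 0) (T : Finset (Pl Om L)) (hQT : Q ∈ T)
    (δ : Pl Om L → ℝ≥0)
    (hT : ∀ P ∈ T, ∃ a b, At P x w a b ∧ ν (a - a') < 1 ∧ ν (b - b') < 1 ∧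
      (P ≠ Q → max (ν (a - a')) (ν (b - b')) ≤ δ P))
    (hδ : 1 ≤ δ Q * ν b') (m : ℕ) :
    ∀ (n : Pl Om L → ℕ) (A B : Om[X]), ∑ P ∈ T, n P = m → A ∈ IP ν → B ∈ IP ν →
      el x w A B ≠ 0 → (∀ P ∈ T, (n P : ℤ) ≤ divf (k := Om) (el x w A B) P) →
      (n Q : ℤ) = divf (k := Om) (el x w A B) Q →
      ν (lv Q (x - algebraMap Om L a') (el x w A B)) ≤ ∏ P ∈ T, δ P ^ n P := by
  classical
  have hu := h.x_sub_ne a'
  have hu1 := h.ord_x hQ hb'
  have hb1' := hL.b_le (hQ.sq h.sq) ha'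
  induction m with
  | zero =>
    intro n A B hs hA hB hne hle heq
    have h0 : ∀ P ∈ T, n P = 0 := Finset.sum_eq_zero_iff.mp hs
    rw [Finset.prod_eq_one (fun P hP => by rw [h0 P hP, pow_zero]),
      lv_of_zero (by rw [← heq, h0 Q hQT]; rfl), ev_el hQ]
    refine (ν.map_add _ _).trans (max_le (IP_eval_le_one hA ha') ?_)
    rw [map_mul]
    exact mul_le_one' (IP_eval_le_one hB ha') hb1'
  | succ m ih =>
    intro n A B hs hA hB hne hle heq
    obtain ⟨P, hPT, hP0⟩ : ∃ P ∈ T, n P ≠ 0 :=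
      Finset.exists_ne_zero_of_sum_ne_zero (by rw [hs]; exact Nat.succ_ne_zero m)
    obtain ⟨a, b, hP, h1, h2, h3⟩ := hT P hPT
    have h0 : A.eval a + B.eval a * b = 0 := by
      rw [← hP.el_lt_iff, v_lt_one_iff hne]
      have := hle P hPT
      omega
    obtain ⟨A', B', T0, U, hA', hB', hT0, hU, he, d1, d2, d3, l1, l2, l3⟩ :=
      schwarz_step h hL hQ ha' hb' hP h1 h2 hA hB h0
    have hne' : el x w A' B' ≠ 0 := by
      intro h4
      rw [h4, mul_zero] at he
      exact mul_ne_zero hne hU he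
    have hnear : ∀ P' ∈ T, Near ν x w a' b' P' := fun P' hP' => by
      obtain ⟨a1, b1, e1, e2, e3, -⟩ := hT P' hP'
      exact ⟨a1, b1, e1, e2, e3⟩
    have hdiv : ∀ P' ∈ T, divf (k := Om) (el x w A' B') P' =
        divf (k := Om) (el x w A B) P' - if P' = P then 1 else 0 := by
      intro P' hP'
      have h5 := congrArg (fun z => divf (k := Om) z P') he
      rw [divf_mul hne hU, divf_mul hT0 hne', Finsupp.add_apply, Finsupp.add_apply,
        d1 P' (hnear P' hP')] at h5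
      split_ifs with h6
      · subst h6
        rw [d2] at h5
        omega
      · rw [d3 P' (hnear P' hP') h6] at h5
        omega
    have hs' : ∑ P' ∈ T, Function.update n P (n P - 1) P' = m := by
      rw [Finset.sum_update_of_mem hPT]
      rw [← Finset.add_sum_erase T n hPT, ← Finset.sdiff_singleton_eq_erase] at hs
      omega
    have hup : ∀ P', ((Function.update n P (n P - 1) P' : ℕ) : ℤ) =
        n P' - if P' = P then 1 else 0 := by
      intro P'
      split_ifs with h6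
      · subst h6
        rw [Function.update_self]
        omega
      · rw [Function.update_of_ne h6, sub_zero]
    have h7 := ih (Function.update n P (n P - 1)) A' B' hs' hA' hB' hne'
      (fun P' hP' => by rw [hup, hdiv P' hP']; have := hle P' hP'; omega)
      (by rw [hup, hdiv Q hQT, heq])
    have h8 := congrArg (fun z => ν (lv Q (x - algebraMap Om L a') z)) he
    rw [lv_mul hu hu1 hne hU, lv_mul hu hu1 hT0 hne', map_mul, map_mul, l1, mul_one] at h8
    have h9 : ν (lv Q (x - algebraMap Om L a') T0) ≤ δ P := by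
      by_cases h6 : P = Q
      · have h10 := l3 h6
        rw [h6]
        have hpos : 0 < ν b' := (ν.pos_iff).mpr hb'
        exact le_of_mul_le_mul_right (h10.trans hδ) hpos
      · exact (l2 h6).trans (h3 h6)
    have h10 : ∏ P' ∈ T, δ P' ^ n P' =
        δ P * ∏ P' ∈ T, δ P' ^ Function.update n P (n P - 1) P' := by
      rw [← Finset.mul_prod_erase T _ hPT, ← Finset.mul_prod_erase T _ hPT, Function.update_self,
        ← mul_assoc, ← pow_succ', Nat.sub_add_cancel (Nat.one_le_iff_ne_zero.mpr hP0)]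
      congr 1
      refine Finset.prod_congr rfl fun P' hP' => ?_
      rw [Function.update_of_ne (Finset.ne_of_mem_erase hP')]
    rw [h8, h10]
    exact mul_le_mul' h9 h7

end Crest.Agent.T15.Fa
end

-- ▼ part T15/FaC_51
section

/-!
# Row 15 (helper51): the height pairing on a constant hyperelliptic curve, part C

The chart at infinity and the upper bound for leading values.
-/

set_option autoImplicit false
set_option linter.all false

namespace Crest.Agent.T15.Fa

open Polynomial WithZero Module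
open scoped NNReal
open Crest.Agent.R013.RR7_948 Crest.Agent.R013.RR8_948 Crest.Agent.R013.RR9_948
open Crest.Agent.R013.RR11_948 Crest.Agent.R013.RR12_948 Crest.Agent.R013.PicD_398
open Crest.Agent.R013.GR2_921 Crest.Agent.R013.Frob1_914 Crest.Agent.T15.Disc
open Crest.Agent.T15.Hy

section refl

theorem aeval_reflect {K M : Type*} [Field K] [Field M] [Algebra K M] {z : M} (hz : z ≠ 0)
    {A : K[X]} {N : ℕ} (hA : A.natDegree ≤ N) :
    aeval z⁻¹ (reflect N A) = aeval z A * z⁻¹ ^ N := by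
  letI := invertibleOfNonzero hz
  have h := eval₂_reflect_mul_pow (algebraMap K M) z N A hA
  rw [invOf_eq_inv] at h
  rw [aeval_def, aeval_def, ← h, mul_assoc, ← mul_pow, mul_inv_cancel₀ hz, one_pow, mul_one]

theorem reflect_coeff_zero {K : Type*} [Field K] (F : K[X]) :
    (reflect (F.natDegree + 1) F).coeff 0 = 0 := by
  rw [coeff_reflect, revAt_zero]
  exact coeff_eq_zero_of_natDegree_lt (Nat.lt_succ_self _)

theorem reflect_coeff_one {K : Type*} [Field K] (F : K[X]) :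
    (reflect (F.natDegree + 1) F).coeff 1 = F.leadingCoeff := by
  rw [coeff_reflect, revAt_le (Nat.le_add_left _ _), Nat.add_sub_cancel]
  rfl

theorem sep_reflect {K : Type*} [Field K] [IsAlgClosed K] {F : K[X]} (hF : F.Separable) :
    (reflect (F.natDegree + 1) F).Separable := by
  have hF0 : F ≠ 0 := hF.ne_zero
  rw [Separable, isCoprime_iff_aeval_ne_zero_of_isAlgClosed K K]
  intro t
  by_contra hc
  push Not at hc
  obtain ⟨h1, h2⟩ := hc
  rw [coe_aeval_eq_eval] at h1 h2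
  by_cases ht : t = 0
  · subst ht
    rw [← coeff_zero_eq_eval_zero, coeff_derivative, zero_add, reflect_coeff_one] at h2
    simp [hF0] at h2
  · obtain ⟨G, hG, hGa⟩ := exists_G (reflect (F.natDegree + 1) F) t
    rw [h1, C_0, add_zero] at hG
    rw [h2] at hGa
    obtain ⟨G2, hG2⟩ := dvd_iff_isRoot.mpr hGa
    have h0 : reflect (F.natDegree + 1) F ≠ 0 := by rwa [Ne, reflect_eq_zero_iff]
    have hG0 : G ≠ 0 := by intro h; rw [h, mul_zero] at hG; exact h0 hG
    have hG20 : G2 ≠ 0 := by intro h; rw [h, mul_zero] at hG2; exact hG0 hG2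
    have hd : (reflect (F.natDegree + 1) F).natDegree ≤ F.natDegree + 1 :=
      natDegree_reflect_le.trans (max_le le_rfl (Nat.le_succ _))
    rw [hG, hG2, natDegree_mul (X_sub_C_ne_zero t) (by rw [← hG2]; exact hG0),
      natDegree_mul (X_sub_C_ne_zero t) hG20, natDegree_X_sub_C] at hd
    obtain ⟨m, hm⟩ : ∃ m, F.natDegree + 1 = 1 + (1 + m) := ⟨F.natDegree - 1, by omega⟩
    have h3 : F = reflect 1 (X - C t) * (reflect 1 (X - C t) * reflect m G2) := by
      rw [← reflect_mul _ _ (natDegree_X_sub_C t).le (by omega : G2.natDegree ≤ m), ← hG2,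
        ← reflect_mul _ _ (natDegree_X_sub_C t).le, ← hG, ← hm, reflect_reflect]
      rw [hG2, natDegree_mul (X_sub_C_ne_zero t) hG20, natDegree_X_sub_C]
      omega
    have h4 : IsUnit (reflect 1 (X - C t)) :=
      hF.squarefree _ ⟨reflect m G2, by rw [mul_assoc]; exact h3⟩
    have h5 := (h4.map (evalRingHom t⁻¹)).ne_zero
    apply h5
    rw [reflect_sub, reflect_one_X, reflect_C]
    simp [ht]

end refl

variable {Om L : Type*} [Field Om] [Field L] [Algebra Om L]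
variable {ν : Valuation Om ℝ≥0} {F : Om[X]} {x w : L} {g : ℕ}

theorem el_reflect (hx : x ≠ 0) (w : L) (g : ℕ) {A B : Om[X]} {M : ℕ}
    (hA : A.natDegree ≤ M + (g + 1)) (hB : B.natDegree ≤ M) :
    el x⁻¹ (w / x ^ (g + 1)) (reflect (M + (g + 1)) A) (reflect M B) =
      el x w A B * x⁻¹ ^ (M + (g + 1)) := by
  unfold el
  rw [aeval_reflect hx hA, aeval_reflect hx hB, div_eq_mul_inv, ← inv_pow]
  ring

theorem hyp_inf [IsAlgClosed Om] (h : Hyp F x w) (hg : F.natDegree = 2 * g + 1) :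
    Hyp (reflect (F.natDegree + 1) F) x⁻¹ (w / x ^ (g + 1)) where
  two := h.two
  sep := sep_reflect h.sep
  pos := le_natDegree_of_ne_zero (n := 1) (by
    rw [reflect_coeff_one]; exact leadingCoeff_ne_zero.mpr h.F_ne)
  tr := fun p hp => by
    have h1 := aeval_reflect (inv_ne_zero h.x_ne) (le_refl p.natDegree)
    rw [inv_inv, hp, zero_mul] at h1
    exact reflect_eq_zero_iff.mp (h.tr _ h1)
  sq := by
    rw [aeval_reflect h.x_ne (Nat.le_add_right _ 1), ← h.sq, hg, div_eq_mul_inv, ← inv_pow]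
    ring
  gen := fun f => by
    obtain ⟨A, B, c, hc, hf⟩ := h.gen f
    refine ⟨reflect (A.natDegree + B.natDegree + c.natDegree + (g + 1)) A,
      reflect (A.natDegree + B.natDegree + c.natDegree) B,
      reflect (A.natDegree + B.natDegree + c.natDegree + (g + 1)) c,
      by rwa [Ne, reflect_eq_zero_iff], ?_⟩
    rw [el_reflect h.x_ne w g (by omega) (by omega), aeval_reflect h.x_ne (by omega), ← mul_assoc,
      hf]

theorem IP_reflect {A : Om[X]} (hA : A ∈ IP ν) (N : ℕ) : reflect N A ∈ IP ν :=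
  IP_of_coeff fun i => by rw [coeff_reflect]; exact IP_coeff hA _

/-- good reduction data, both charts -/
structure LocB (ν : Valuation Om ℝ≥0) (F : Om[X]) : Prop where
  aff : Loc ν F
  inf : Loc ν (reflect (F.natDegree + 1) F)
  lc : ν F.leadingCoeff = 1

theorem locB_of {k : Type*} [Field k] [IsAlgClosed k] [Algebra k Om]
    (hν : ∀ c : k, c ≠ 0 → ν (algebraMap k Om c) = 1) (h2 : (2 : Om) ≠ 0) {F : k[X]}
    (hF : F.Separable) : LocB ν (F.map (algebraMap k Om)) := by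
  refine ⟨loc_of hν h2 hF, ?_, ?_⟩
  · rw [reflect_map, natDegree_map]
    exact loc_of hν h2 (sep_reflect hF)
  · rw [leadingCoeff_map]
    exact hν _ (leadingCoeff_ne_zero.mpr hF.ne_zero)

theorem LocB.sq_le (hL : LocB ν F) {t s : Om} (ht : ν t ≤ 1)
    (hs : s ^ 2 = (reflect (F.natDegree + 1) F).eval t) :
    max (ν (0 - t)) (ν (0 - s)) ^ 2 ≤ ν t := by
  rw [zero_sub, zero_sub, ν.map_neg, ν.map_neg]
  rcases le_total (ν t) (ν s) with h | h
  · rw [max_eq_right h, ← map_pow, hs]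
    have := IP_eval_sub hL.inf.int (a := 0) (by simp) ht
    rwa [← coeff_zero_eq_eval_zero, reflect_coeff_zero, sub_zero, sub_zero] at this
  · rw [max_eq_left h, sq]
    exact mul_le_of_le_one_right' ht

variable [Algebra (RatFunc Om) L] [IsScalarTower Om (RatFunc Om) L]
  [FiniteDimensional (RatFunc Om) L] [Algebra.IsSeparable (RatFunc Om) L] [IsAlgClosed Om]

theorem at_inv {P : Pl Om L} {a b : Om} (hP : At P x w a b) (ha : a ≠ 0) (g : ℕ) :
    At P x⁻¹ (w / x ^ (g + 1)) a⁻¹ (b / a ^ (g + 1)) := by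
  have h1 : P.v x = 1 := v_eq_one_of_sub P hP.1 ha
  have h0 : x ≠ 0 := by intro h; rw [h, map_zero] at h1; exact zero_ne_one h1
  have h2 : P.v x⁻¹ ≤ 1 := by rw [map_inv₀, h1, inv_one]
  have h3 : ev P x⁻¹ = a⁻¹ := by
    apply eq_inv_of_mul_eq_one_left
    rw [← ev_eq P hP.1, ← ev_mul P h2 h1.le, inv_mul_cancel₀ h0, ev_one]
  have h4 : P.v (x⁻¹ ^ (g + 1)) ≤ 1 := by rw [map_pow]; exact pow_le_one₀ zero_le h2
  constructor
  · rw [← h3]; exact ev_spec P h2
  · have h5 : ev P (w * x⁻¹ ^ (g + 1)) = b / a ^ (g + 1) := by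
      rw [ev_mul P hP.w_le h4, ev_pow P h2, h3, ev_eq P hP.2, inv_pow, div_eq_mul_inv]
    rw [← h5, div_eq_mul_inv, ← inv_pow]
    apply ev_spec
    rw [map_mul]
    exact mul_le_one' hP.w_le h4

theorem at_inf (h : Hyp F x w) (hg : F.natDegree = 2 * g + 1) {P : Pl Om L} (hP : 1 < P.v x) :
    At P x⁻¹ (w / x ^ (g + 1)) 0 0 := by
  have h1 : P.v (x⁻¹ - algebraMap Om L 0) < 1 := by
    rw [map_zero, sub_zero, map_inv₀]
    exact inv_lt_one_of_one_lt₀ hP
  refine ⟨h1, ?_⟩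
  have h2 := v_aeval_sub P h1 (reflect (F.natDegree + 1) F)
  rw [← coeff_zero_eq_eval_zero, reflect_coeff_zero, map_zero, sub_zero, ← (hyp_inf h hg).sq,
    map_pow] at h2
  rw [map_zero, sub_zero]
  exact (pow_lt_one_iff_of_nonneg zero_le two_ne_zero).mp h2

theorem divf_x_inf (h : Hyp F x w) (hg : F.natDegree = 2 * g + 1) {P : Pl Om L} (hP : 1 < P.v x) :
    divf (k := Om) x⁻¹ P = 2 := by
  have := (hyp_inf h hg).ord_x0 (at_inf h hg hP)
  rwa [map_zero, sub_zero] at this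

theorem schwarz' (h : Hyp F x w) (hL : Loc ν F) {Q : Pl Om L} {a' b' : Om}
    (hQ : At Q x w a' b') (ha' : ν a' ≤ 1) (hb' : b' ≠ 0) (S : Finset (Pl Om L)) (hQS : Q ∈ S)
    (δ : Pl Om L → ℝ≥0) (n : Pl Om L → ℕ) {A B : Om[X]} (hA : A ∈ IP ν) (hB : B ∈ IP ν)
    (hne : el x w A B ≠ 0)
    (hS : ∀ P ∈ S, P ≠ Q → 1 ≤ δ P ∨ ((n P : ℤ) ≤ divf (k := Om) (el x w A B) P ∧
      ∃ a b, At P x w a b ∧ max (ν (a - a')) (ν (b - b')) ≤ δ P))
    (hδ : 1 ≤ δ Q * ν b') (hn : (n Q : ℤ) = divf (k := Om) (el x w A B) Q) :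
    ν (lv Q (x - algebraMap Om L a') (el x w A B)) ≤ ∏ P ∈ S, δ P ^ n P := by
  classical
  have key : ∀ P ∈ S.filter (fun P => P = Q ∨ δ P < 1), P ≠ Q →
      δ P < 1 ∧ (n P : ℤ) ≤ divf (k := Om) (el x w A B) P ∧
      ∃ a b, At P x w a b ∧ max (ν (a - a')) (ν (b - b')) ≤ δ P := by
    intro P hP hne
    obtain ⟨h1, h2⟩ := Finset.mem_filter.mp hP
    have h3 := h2.resolve_left hne
    exact ⟨h3, (hS P h1 hne).resolve_left (not_le.mpr h3)⟩
  have h1 := schwarz h hL hQ ha' hb' (S.filter fun P => P = Q ∨ δ P < 1)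
    (Finset.mem_filter.mpr ⟨hQS, Or.inl rfl⟩) δ (fun P hP => by
      by_cases hPQ : P = Q
      · exact ⟨a', b', hPQ ▸ hQ, by simp, by simp, fun h => absurd hPQ h⟩
      · obtain ⟨h1, -, a, b, h2, h3⟩ := key P hP hPQ
        exact ⟨a, b, h2, lt_of_le_of_lt ((le_max_left _ _).trans h3) h1,
          lt_of_le_of_lt ((le_max_right _ _).trans h3) h1, fun _ => h3⟩) hδ _ n A B rfl hA hB hne
    (fun P hP => by
      by_cases hPQ : P = Q
      · rw [hPQ, hn]
      · exact (key P hP hPQ).2.1) hn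
  refine h1.trans (Finset.prod_le_prod_of_subset_of_one_le' (Finset.filter_subset _ _) ?_)
  intro P hP hP'
  apply one_le_pow₀
  by_contra hc
  exact hP' (Finset.mem_filter.mpr ⟨hP, Or.inr (not_le.mp hc)⟩)

theorem divf_el_nonneg (h : Hyp F x w) {A B : Om[X]} (hne : el x w A B ≠ 0) {P : Pl Om L}
    (hP : P.v x ≤ 1) : 0 ≤ divf (k := Om) (el x w A B) P :=
  (v_le_one_iff hne P).mp ((h.at_ev hP).el_le A B)

theorem sum_aff (h : Hyp F x w) (hg : F.natDegree = 2 * g + 1) {D : Pl Om L →₀ ℤ}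
    {S : Finset (Pl Om L)} (hS : ∀ P ∈ S, P.v x ≤ 1) (hD : ∀ P, P.v x ≤ 1 → D P ≠ 0 → P ∈ S)
    {W : Pl Om L} (hW : 1 < W.v x) : degD D = D W + ∑ P ∈ S, D P := by
  classical
  have hWS : W ∉ S := fun h1 => absurd (hS W h1) (not_le.mpr hW)
  rw [degD_eq_sum, ← Finset.sum_insert hWS]
  apply Finsupp.sum_of_support_subset _ _ _ (fun _ _ => rfl)
  intro P hP
  rcases le_or_gt (P.v x) 1 with h1 | h1
  · exact Finset.mem_insert_of_mem (hD P h1 (Finsupp.mem_support_iff.mp hP))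
  · rw [h.inf_unique ⟨g, hg⟩ h1 hW]
    exact Finset.mem_insert_self _ _

open Classical in
/-- the local factor -/
noncomputable def del (ν : Valuation Om ℝ≥0) (g : ℕ) (x w : L) (P Q : Pl Om L) : ℝ≥0 :=
  if P = Q then (dd ν g (ev Q x) (ev Q w) (ev Q x) (-ev Q w))⁻¹
  else dd ν g (ev P x) (ev P w) (ev Q x) (ev Q w)

theorem del_self (Q : Pl Om L) :
    del ν g x w Q Q = (dd ν g (ev Q x) (ev Q w) (ev Q x) (-ev Q w))⁻¹ := if_pos rfl

theorem del_ne {P Q : Pl Om L} (h : P ≠ Q) :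
    del ν g x w P Q = dd ν g (ev P x) (ev P w) (ev Q x) (ev Q w) := if_neg h

theorem ne_neg_of (h2 : (2 : Om) ≠ 0) {b : Om} (hb : b ≠ 0) : b ≠ -b := fun h3 =>
  mul_ne_zero h2 hb (by linear_combination h3)

/-- the upper bound -/
theorem upper (h : Hyp F x w) (hg : F.natDegree = 2 * g + 1) (hL : LocB ν F) {Q : Pl Om L}
    (hQ : Q.v x ≤ 1) (hb' : ev Q w ≠ 0) {A B : Om[X]} (hA : A ∈ IP ν) (hB : B ∈ IP ν)
    (hne : el x w A B ≠ 0) {S : Finset (Pl Om L)} (hS : ∀ P ∈ S, P.v x ≤ 1) (hQS : Q ∈ S)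
    (hD : ∀ P, P.v x ≤ 1 → divf (k := Om) (el x w A B) P ≠ 0 → P ∈ S) :
    ν (lv Q (x - algebraMap Om L (ev Q x)) (el x w A B)) ^ 2 *
        Hh ν (ev Q x) ^ (4 * (divf (k := Om) (el x w A B) Q).toNat) ≤
      ∏ P ∈ S, (del ν g x w P Q ^ 2 * Hh ν (ev Q x)) ^ (divf (k := Om) (el x w A B) P).toNat := by
  classical
  have hQa := h.at_ev hQ
  have hpos : 0 < dd ν g (ev Q x) (ev Q w) (ev Q x) (-ev Q w) :=
    dd_pos (Or.inr (ne_neg_of h.two hb'))
  have hneg := dd_neg_le hL.aff.two g (ev Q x) (ev Q w)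
  have hδ : 1 ≤ del ν g x w Q Q * (ν (ev Q w) / Hh ν (ev Q x) ^ (g + 1)) := by
    rw [del_self, mul_comm, ← div_eq_mul_inv, one_le_div hpos]
    exact hneg
  have hn : ∀ P, P.v x ≤ 1 → (((divf (k := Om) (el x w A B) P).toNat : ℕ) : ℤ) =
      divf (k := Om) (el x w A B) P := fun P hP => Int.toNat_of_nonneg (divf_el_nonneg h hne hP)
  rcases le_or_gt (ν (ev Q x)) 1 with ha' | ha'
  · rw [Hh_of_le ha'] at hδ ⊢
    rw [one_pow, div_one] at hδ
    simp only [one_pow, mul_one]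
    have h1 := schwarz' h hL.aff hQa ha' hb' S hQS (fun P => del ν g x w P Q)
      (fun P => (divf (k := Om) (el x w A B) P).toNat) hA hB hne (fun P hP hPQ => by
        rw [del_ne hPQ]
        rcases le_or_gt (ν (ev P x)) 1 with ha | ha
        · right
          have hPa := h.at_ev (hS P hP)
          exact ⟨(hn P (hS P hP)).le, _, _, hPa,
            (dd_int ha ha' (hL.aff.b_le (hPa.sq h.sq) ha)).ge⟩
        · left
          rw [dd_symm]
          exact dd_mix ha' ha) hδ (hn Q hQ)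
    refine (pow_le_pow_left' h1 2).trans (le_of_eq ?_)
    rw [← Finset.prod_pow]
    exact Finset.prod_congr rfl fun P _ => by rw [← pow_mul, ← pow_mul, mul_comm]
  · obtain ⟨W, hW⟩ := h.exists_inf
    have hWS : W ∉ S := fun h1 => absurd (hS W h1) (not_le.mpr hW)
    have hWQ : W ≠ Q := fun h1 => hWS (h1 ▸ hQS)
    have h' := hyp_inf h hg
    have ha0 := ne_zero_of_lt ha'
    have hQa' := at_inv hQa ha0 g
    have ht : ν (ev Q x)⁻¹ ≤ 1 := by rw [map_inv₀]; exact inv_le_one_of_one_le₀ ha'.le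
    set N := A.natDegree + B.natDegree + (g + 1) with hN
    have he := el_reflect h.x_ne w g (A := A) (B := B) (M := A.natDegree + B.natDegree)
      (by omega) (by omega)
    rw [← hN] at he
    have hxi : x⁻¹ ≠ 0 := inv_ne_zero h.x_ne
    have hne' : el x w A B * x⁻¹ ^ N ≠ 0 := mul_ne_zero hne (pow_ne_zero _ hxi)
    have hdv : ∀ P, divf (k := Om) (el x w A B * x⁻¹ ^ N) P =
        divf (k := Om) (el x w A B) P + N * divf (k := Om) x⁻¹ P := fun P => by
      rw [divf_mul hne (pow_ne_zero _ hxi), divf_pow hxi]; simp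
    have hz : ∀ P : Pl Om L, P.v x ≤ 1 → ev P x ≠ 0 → divf (k := Om) x⁻¹ P = 0 := fun P hP h0 => by
      rw [← v_eq_one_iff hxi, map_inv₀, v_eq_one_of_sub P (h.at_ev hP).1 h0, inv_one]
    have hWa := at_inf h hg hW
    have hWn : 0 ≤ divf (k := Om) (el x w A B * x⁻¹ ^ N) W := by
      rw [← v_le_one_iff hne', ← he]; exact hWa.el_le _ _
    have hsum := sum_aff h hg hS hD hW
    rw [degD_divf hne] at hsum
    have hr : (divf (k := Om) (el x w A B * x⁻¹ ^ N) W).toNat +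
        ∑ P ∈ S, (divf (k := Om) (el x w A B) P).toNat = 2 * N := by
      have h1 := Int.toNat_of_nonneg hWn
      have h2 : ((∑ P ∈ S, (divf (k := Om) (el x w A B) P).toNat : ℕ) : ℤ) =
          ∑ P ∈ S, divf (k := Om) (el x w A B) P := by
        rw [Nat.cast_sum]; exact Finset.sum_congr rfl fun P hP => hn P (hS P hP)
      have h3 := hdv W
      rw [divf_x_inf h hg hW] at h3
      omega
    have h1 := schwarz' h' hL.inf hQa' ht (div_ne_zero hb' (pow_ne_zero _ ha0)) (insert W S)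
      (Finset.mem_insert_of_mem hQS)
      (fun P => if P = W then max (ν (0 - (ev Q x)⁻¹)) (ν (0 - ev Q w / ev Q x ^ (g + 1)))
        else del ν g x w P Q)
      (fun P => if P = W then (divf (k := Om) (el x w A B * x⁻¹ ^ N) W).toNat
        else (divf (k := Om) (el x w A B) P).toNat)
      (IP_reflect hA N) (IP_reflect hB (A.natDegree + B.natDegree)) (by rw [he]; exact hne')
      (fun P hP hPQ => by
        rw [he]
        by_cases hPW : P = W
        · right
          simp only [hPW, if_true]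
          exact ⟨(Int.toNat_of_nonneg hWn).le, _, _, hWa, le_rfl⟩
        · have hP' := (Finset.mem_insert.mp hP).resolve_left hPW
          simp only [hPW, if_false]
          rw [del_ne hPQ]
          rcases le_or_gt (ν (ev P x)) 1 with ha | ha
          · exact Or.inl (dd_mix ha ha')
          · right
            have hPa := h.at_ev (hS P hP')
            refine ⟨?_, _, _, at_inv hPa (ne_zero_of_lt ha) g,
              (dd_inf ha ha' (b_le_Hh hL.aff.int hg.le (hPa.sq h.sq))).ge⟩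
            rw [hdv, hz P (hS P hP') (ne_zero_of_lt ha), hn P (hS P hP')]
            simp)
      (by
        simp only [hWQ.symm, if_false]
        rwa [map_div₀, map_pow, ← Hh_of_lt ha'])
      (by
        simp only [hWQ.symm, if_false]
        rw [he, hdv, hz Q hQ ha0, hn Q hQ]
        simp)
    rw [he, Finset.prod_insert hWS] at h1
    simp only [if_true] at h1
    rw [Finset.prod_congr rfl (g := fun P => del ν g x w P Q ^
      (divf (k := Om) (el x w A B) P).toNat) (fun P hP => by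
        have : P ≠ W := fun h2 => hWS (h2 ▸ hP)
        simp only [this, if_false])] at h1
    have h2 := hL.sq_le ht (hQa'.sq h'.sq)
    -- change of the uniformiser
    have hu := h.x_sub_ne (ev Q x)
    have hu1 := h.ord_x hQa hb'
    have hu' := h'.x_sub_ne (ev Q x)⁻¹
    have hu1' := h'.ord_x hQa' (div_ne_zero hb' (pow_ne_zero _ ha0))
    have hlx : lv Q (x - algebraMap Om L (ev Q x)) x⁻¹ = (ev Q x)⁻¹ := by
      rw [lv_of_zero (hz Q hQ ha0), ev_eq Q hQa'.1]
    have hlu : lv Q (x - algebraMap Om L (ev Q x)) (x⁻¹ - algebraMap Om L (ev Q x)⁻¹) =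
        -((ev Q x)⁻¹ * (ev Q x)⁻¹) := by
      have h3 : x⁻¹ - algebraMap Om L (ev Q x)⁻¹ =
          (x - algebraMap Om L (ev Q x)) * (x⁻¹ * algebraMap Om L (-(ev Q x)⁻¹)) := by
        have h4 : algebraMap Om L (ev Q x) ≠ 0 := by simpa using ha0
        have h5 := h.x_ne
        rw [map_neg, map_inv₀]
        field_simp
        ring
      have h6 : -(ev Q x)⁻¹ ≠ 0 := neg_ne_zero.mpr (inv_ne_zero ha0)
      have h7 : algebraMap Om L (-(ev Q x)⁻¹) ≠ 0 := by simpa using ha0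
      rw [h3, lv_mul hu hu1 hu (mul_ne_zero hxi h7), lv_self hu hu1, lv_mul hu hu1 hxi h7, hlx,
        lv_const _ _ h6]
      ring
    have h3 := lv_change hu hu1 hu' hu1' hne'
    rw [lv_mul hu hu1 hne (pow_ne_zero _ hxi), lv_pow hu hu1 hxi, hlx, hlu, hdv, hz Q hQ ha0,
      mul_zero, add_zero, ← hn Q hQ, zpow_natCast] at h3
    have h4 := congrArg ν h3
    rw [map_mul, map_mul, map_pow, map_pow, ν.map_neg, map_mul, map_inv₀] at h4
    rw [map_inv₀] at h2
    rw [Hh_of_lt ha']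
    simp only [mul_pow, Finset.prod_mul_distrib, Finset.prod_pow_eq_pow_sum]
    have h5 : ∏ P ∈ S, (del ν g x w P Q ^ 2) ^ (divf (k := Om) (el x w A B) P).toNat =
        (∏ P ∈ S, del ν g x w P Q ^ (divf (k := Om) (el x w A B) P).toNat) ^ 2 := by
      rw [← Finset.prod_pow]
      exact Finset.prod_congr rfl fun P _ => by rw [← pow_mul, ← pow_mul, mul_comm]
    rw [h5]
    generalize ∏ P ∈ S, del ν g x w P Q ^ (divf (k := Om) (el x w A B) P).toNat = p at h1 ⊢
    generalize ∑ P ∈ S, (divf (k := Om) (el x w A B) P).toNat = r at hr ⊢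
    generalize (divf (k := Om) (el x w A B * x⁻¹ ^ N) W).toNat = s at hr h1
    generalize (divf (k := Om) (el x w A B) Q).toNat = m at h4 ⊢
    generalize max (ν (0 - (ev Q x)⁻¹)) (ν (0 - ev Q w / ev Q x ^ (g + 1))) = d at h1 h2
    generalize ν (lv Q (x⁻¹ - algebraMap Om L (ev Q x)⁻¹) (el x w A B * x⁻¹ ^ N)) = l' at h1 h4
    generalize ν (lv Q (x - algebraMap Om L (ev Q x)) (el x w A B)) = l at h4 ⊢
    generalize ν (ev Q x) = H at ha' h2 h4 ⊢
    have hH : 0 < H := lt_trans zero_lt_one ha'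
    have hH' : H ≠ 0 := hH.ne'
    have h6 : l * H ^ (2 * m) = l' * H ^ N := by
      have h7 : l = l' * (H⁻¹ * H⁻¹) ^ m * H ^ N := by
        rw [← h4, mul_assoc, ← mul_pow, inv_mul_cancel₀ hH', one_pow, mul_one]
      rw [h7, pow_mul, sq]
      calc l' * (H⁻¹ * H⁻¹) ^ m * H ^ N * (H * H) ^ m
          = l' * H ^ N * ((H⁻¹ * H⁻¹) * (H * H)) ^ m := by rw [mul_pow (H⁻¹ * H⁻¹)]; ring
        _ = l' * H ^ N := by
          rw [show (H⁻¹ * H⁻¹) * (H * H) = (H⁻¹ * H) * (H⁻¹ * H) by ring, inv_mul_cancel₀ hH',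
            one_mul, one_pow, mul_one]
    calc l ^ 2 * H ^ (4 * m) = (l * H ^ (2 * m)) ^ 2 := by ring
      _ = l' ^ 2 * H ^ (s + r) := by rw [h6, hr]; ring
      _ ≤ (d ^ s * p) ^ 2 * H ^ (s + r) := mul_le_mul' (pow_le_pow_left' h1 2) le_rfl
      _ = (d ^ 2 * H) ^ s * (p ^ 2 * H ^ r) := by ring
      _ ≤ p ^ 2 * H ^ r := by
        apply mul_le_of_le_one_left'
        apply pow_le_one₀ zero_le
        calc d ^ 2 * H ≤ H⁻¹ * H := mul_le_mul' h2 le_rfl
          _ = 1 := inv_mul_cancel₀ hH'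

end Crest.Agent.T15.Fa
end

-- ▼ part T15/FaD_51
section

/-!
# Row 15 (helper51): the height pairing on a constant hyperelliptic curve, part D

The main local formula: `|lv_Q f|^2 = |kap f| ∏_P mu0(P, Q)^(ord_P f)`.
-/

set_option autoImplicit false
set_option linter.all false

namespace Crest.Agent.T15.Fa

open Polynomial WithZero Module
open scoped NNReal
open Crest.Agent.R013.RR7_948 Crest.Agent.R013.RR8_948 Crest.Agent.R013.RR9_948
open Crest.Agent.R013.RR11_948 Crest.Agent.R013.RR12_948 Crest.Agent.R013.PicD_398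
open Crest.Agent.R013.GR2_921 Crest.Agent.R013.Frob1_914 Crest.Agent.T15.Disc
open Crest.Agent.T15.Hy

section pol

variable {Om : Type*} [Field Om] {ν : Valuation Om ℝ≥0} {F : Om[X]} {g : ℕ}

theorem exists_prim (ν : Valuation Om ℝ≥0) {A B : Om[X]} (h : A ≠ 0 ∨ B ≠ 0) :
    ∃ (c : Om) (A1 B1 : Om[X]), c ≠ 0 ∧ A1 ∈ IP ν ∧ B1 ∈ IP ν ∧ A = A1 * C c ∧ B = B1 * C c ∧
      ∃ i, ν (A1.coeff i) = 1 ∨ ν (B1.coeff i) = 1 := by
  classical
  have hne : (A.support.image A.coeff ∪ B.support.image B.coeff).Nonempty := by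
    rcases h with h | h
    · exact ((support_nonempty.mpr h).image _).mono Finset.subset_union_left
    · exact ((support_nonempty.mpr h).image _).mono Finset.subset_union_right
  obtain ⟨c, hc, hmax⟩ := Finset.exists_max_image _ (fun c => ν c) hne
  have hc' : ∃ i, (A.coeff i = c ∨ B.coeff i = c) ∧ c ≠ 0 := by
    rcases Finset.mem_union.mp hc with h1 | h1
    · obtain ⟨i, hi, rfl⟩ := Finset.mem_image.mp h1
      exact ⟨i, Or.inl rfl, mem_support_iff.mp hi⟩
    · obtain ⟨i, hi, rfl⟩ := Finset.mem_image.mp h1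
      exact ⟨i, Or.inr rfl, mem_support_iff.mp hi⟩
  obtain ⟨i, hi, hc0⟩ := hc'
  have hpos : 0 < ν c := (ν.pos_iff).mpr hc0
  have key : ∀ z : Om, ν z ≤ ν c → ν (z * c⁻¹) ≤ 1 := fun z hz => by
    rw [map_mul, map_inv₀, ← div_eq_mul_inv]
    exact div_le_one_of_le₀ hz zero_le
  refine ⟨c, A * C c⁻¹, B * C c⁻¹, hc0, IP_of_coeff fun j => ?_, IP_of_coeff fun j => ?_, ?_, ?_,
    i, ?_⟩
  · rw [coeff_mul_C]
    apply key
    by_cases h0 : A.coeff j = 0
    · simp [h0]
    · exact hmax _ (Finset.mem_union_left _ (Finset.mem_image_of_mem _ (mem_support_iff.mpr h0)))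
  · rw [coeff_mul_C]
    apply key
    by_cases h0 : B.coeff j = 0
    · simp [h0]
    · exact hmax _ (Finset.mem_union_right _ (Finset.mem_image_of_mem _ (mem_support_iff.mpr h0)))
  · rw [mul_assoc, ← C_mul, inv_mul_cancel₀ hc0, C_1, mul_one]
  · rw [mul_assoc, ← C_mul, inv_mul_cancel₀ hc0, C_1, mul_one]
  · rw [coeff_mul_C, coeff_mul_C]
    rcases hi with hi | hi
    · left; rw [hi, mul_inv_cancel₀ hc0, map_one]
    · right; rw [hi, mul_inv_cancel₀ hc0, map_one]

/-- the maximal ideal -/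
def mI (ν : Valuation Om ℝ≥0) : Ideal ν.integer where
  carrier := {a | ν (a : Om) < 1}
  add_mem' := fun {a b} ha hb => lt_of_le_of_lt (ν.map_add _ _) (max_lt ha hb)
  zero_mem' := by simp
  smul_mem' := fun c a ha => by
    show ν ((c : Om) * a) < 1
    rw [map_mul]
    exact mul_lt_one_of_nonneg_of_lt_one_right c.2 zero_le ha

theorem mem_mI {a : ν.integer} : a ∈ mI ν ↔ ν (a : Om) < 1 := Iff.rfl

instance mI_prime (ν : Valuation Om ℝ≥0) : (mI ν).IsPrime where
  ne_top' := by rw [Ideal.ne_top_iff_one, mem_mI]; simp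
  mem_or_mem' := fun {a b} hab => by
    by_contra hc
    push Not at hc
    simp only [mem_mI, not_lt] at hc
    rw [mem_mI] at hab
    have : ν ((a : Om) * b) < 1 := hab
    rw [map_mul] at this
    exact absurd (one_le_mul hc.1 hc.2) (not_le.mpr this)

theorem norm_prim (hg : F.natDegree = 2 * g + 1) (hL : LocB ν F) {A B : Om[X]} (hA : A ∈ IP ν)
    (hB : B ∈ IP ν) (hp : ∃ i, ν (A.coeff i) = 1 ∨ ν (B.coeff i) = 1) :
    ∃ i, 1 ≤ ν ((A ^ 2 - B ^ 2 * F).coeff i) := by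
  by_contra hc
  push Not at hc
  have hlc := hL.lc
  obtain ⟨A0, rfl⟩ := hA
  obtain ⟨B0, rfl⟩ := hB
  obtain ⟨F0, rfl⟩ := hL.aff.int
  simp only [coe_mapRingHom] at *
  have hinj : Function.Injective ν.integer.subtype := Subtype.val_injective
  have hz : ∀ p : ν.integer[X], p.map (Ideal.Quotient.mk (mI ν)) = 0 ↔
      ∀ i, ν ((p.map ν.integer.subtype).coeff i) < 1 := fun p => by
    rw [Polynomial.ext_iff]
    refine forall_congr' fun i => ?_
    rw [coeff_map, coeff_map, coeff_zero, Ideal.Quotient.eq_zero_iff_mem, mem_mI]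
    rfl
  have h1 : (A0 ^ 2 - B0 ^ 2 * F0).map (Ideal.Quotient.mk (mI ν)) = 0 := by
    rw [hz]
    simpa only [Polynomial.map_sub, Polynomial.map_mul, Polynomial.map_pow] using hc
  rw [Polynomial.map_sub, Polynomial.map_mul, Polynomial.map_pow, Polynomial.map_pow,
    sub_eq_zero] at h1
  rw [natDegree_map_eq_of_injective hinj] at hg
  rw [leadingCoeff_map_of_injective hinj] at hlc
  have h2 : Ideal.Quotient.mk (mI ν) F0.leadingCoeff ≠ 0 := by
    rw [Ne, Ideal.Quotient.eq_zero_iff_mem, mem_mI]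
    exact not_lt.mpr hlc.ge
  have h3 : (F0.map (Ideal.Quotient.mk (mI ν))).natDegree = 2 * g + 1 := by
    rw [natDegree_map_of_leadingCoeff_ne_zero _ h2, hg]
  have h4 : F0.map (Ideal.Quotient.mk (mI ν)) ≠ 0 := by
    intro h; rw [h, natDegree_zero] at h3; omega
  by_cases hB : B0.map (Ideal.Quotient.mk (mI ν)) = 0
  · rw [hB, zero_pow two_ne_zero, zero_mul, pow_eq_zero_iff two_ne_zero] at h1
    obtain ⟨i, hi | hi⟩ := hp
    · exact absurd ((hz A0).mp h1 i) (not_lt.mpr hi.ge)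
    · exact absurd ((hz B0).mp hB i) (not_lt.mpr hi.ge)
  · have h5 := congrArg natDegree h1
    rw [natDegree_mul (pow_ne_zero _ hB) h4, natDegree_pow, natDegree_pow, h3] at h5
    omega

theorem sq_inf (hg : F.natDegree = 2 * g + 1) {a b : Om} (ha : a ≠ 0) (hb : b ^ 2 = F.eval a) :
    (b / a ^ (g + 1)) ^ 2 = (reflect (F.natDegree + 1) F).eval a⁻¹ := by
  have := aeval_reflect ha (Nat.le_add_right F.natDegree 1)
  rw [coe_aeval_eq_eval, coe_aeval_eq_eval] at this
  rw [this, ← hb, hg, div_eq_mul_inv, ← inv_pow]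
  ring

theorem dd_mul (hg : F.natDegree = 2 * g + 1) (hL : LocB ν F) {a b a' b' : Om}
    (hb : b ^ 2 = F.eval a) (hb' : b' ^ 2 = F.eval a') :
    dd ν g a b a' b' * dd ν g a b a' (-b') * (Hh ν a * Hh ν a') ≤ ν (a - a') := by
  have e := b_le_Hh hL.aff.int hg.le hb
  have e' := b_le_Hh hL.aff.int hg.le hb'
  have d1 : dd ν g a b a' b' * dd ν g a b a' (-b') ≤ 1 :=
    mul_le_one' (dd_le_one e e') (dd_le_one e (by rwa [ν.map_neg]))
  rcases le_or_gt (ν a) 1 with ha | ha <;> rcases le_or_gt (ν a') 1 with ha' | ha'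
  · rw [dd_int ha ha' (hL.aff.b_le hb ha), dd_int ha ha' (hL.aff.b_le hb ha), Hh_of_le ha,
      Hh_of_le ha', mul_one, mul_one]
    exact hL.aff.max_mul hb hb' ha ha'
  · rw [Hh_of_le ha, Hh_of_lt ha', one_mul, ν.map_sub_eq_of_lt_right (lt_of_le_of_lt ha ha')]
    exact mul_le_of_le_one_left' d1
  · rw [Hh_of_lt ha, Hh_of_le ha', mul_one, ν.map_sub_eq_of_lt_left (lt_of_le_of_lt ha' ha)]
    exact mul_le_of_le_one_left' d1
  · have h0 := ne_zero_of_lt ha
    have h0' := ne_zero_of_lt ha'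
    rw [dd_inf ha ha' e, dd_inf ha ha' e, Hh_of_lt ha, Hh_of_lt ha', neg_div]
    have h1 := hL.inf.max_mul (sq_inf hg h0 hb) (sq_inf hg h0' hb')
      (by rw [map_inv₀]; exact inv_le_one_of_one_le₀ ha.le)
      (by rw [map_inv₀]; exact inv_le_one_of_one_le₀ ha'.le)
    refine (mul_le_mul' h1 le_rfl).trans (le_of_eq ?_)
    rw [← map_mul, ← map_mul, ν.map_sub_swap a]
    congr 1
    field_simp

end pol

variable {Om L : Type*} [Field Om] [Field L] [Algebra Om L]
variable [Algebra (RatFunc Om) L] [IsScalarTower Om (RatFunc Om) L]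
  [FiniteDimensional (RatFunc Om) L] [Algebra.IsSeparable (RatFunc Om) L] [IsAlgClosed Om]
variable {ν : Valuation Om ℝ≥0} {F : Om[X]} {x w : L} {g : ℕ}

/-! ### the involution on places -/

theorem j_v_x (h : Hyp F x w) (P : Pl Om L) : (h.siota.pl P).v x = P.v x := by
  rw [h.siota_v, h.iota_x]

theorem j_j (h : Hyp F x w) (P : Pl Om L) : h.siota.pl (h.siota.pl P) = P := by
  apply Pl.ext
  ext f
  rw [h.siota_v, h.siota_v, h.iota_iota]

theorem j_eq_iff (h : Hyp F x w) {P Q : Pl Om L} : h.siota.pl P = Q ↔ P = h.siota.pl Q :=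
  ⟨fun e => by rw [← e, j_j], fun e => by rw [e, j_j]⟩

theorem ev_j_x (h : Hyp F x w) {P : Pl Om L} (hP : P.v x ≤ 1) :
    ev (h.siota.pl P) x = ev P x := ev_eq _ ((h.at_ev hP).iota h).1

theorem ev_j_w (h : Hyp F x w) {P : Pl Om L} (hP : P.v x ≤ 1) :
    ev (h.siota.pl P) w = -ev P w := ev_eq _ ((h.at_ev hP).iota h).2

theorem iota_ne (h : Hyp F x w) {f : L} (hf : f ≠ 0) : h.iota f ≠ 0 := by simpa using hf

theorem divf_iota (h : Hyp F x w) {f : L} (hf : f ≠ 0) (P : Pl Om L) :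
    divf (k := Om) (h.iota f) P = divf (k := Om) f (h.siota.pl P) := by
  have := h.siota_v P f
  rw [v_eq hf, v_eq (iota_ne h hf), exp_inj] at this
  omega

theorem j_ne (h : Hyp F x w) {Q : Pl Om L} (hQ : Q.v x ≤ 1) (hb : ev Q w ≠ 0) :
    h.siota.pl Q ≠ Q := by
  intro e
  have := ev_j_w h hQ
  rw [e] at this
  exact ne_neg_of h.two hb this

theorem eq_or_j (h : Hyp F x w) {P Q : Pl Om L} (hP : P.v x ≤ 1) (hQ : Q.v x ≤ 1)
    (e : ev P x = ev Q x) : P = Q ∨ P = h.siota.pl Q := by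
  have h1 := h.at_ev hP
  have h2 := h.at_ev hQ
  have h3 := (h1.sq h.sq).trans (e ▸ (h2.sq h.sq).symm)
  rcases sq_eq_sq_iff_eq_or_eq_neg.mp h3 with h4 | h4
  · left
    rw [e, h4] at h1
    exact h.at_unique h1 h2
  · right
    rw [e, h4] at h1
    exact h.at_unique h1 (h2.iota h)

theorem const_of_aff (h : Hyp F x w) (hg : F.natDegree = 2 * g + 1) {f : L} (hf : f ≠ 0)
    (h0 : ∀ P : Pl Om L, P.v x ≤ 1 → divf (k := Om) f P = 0) :
    ∃ c : Om, c ≠ 0 ∧ f = algebraMap Om L c := by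
  have h1 : ∃ c : Om, f = algebraMap Om L c := by
    by_contra hc
    push Not at hc
    obtain ⟨P, hP⟩ := Hyp.exists_pole hc
    have h2 : divf (k := Om) f P = 0 := by
      rcases le_or_gt (P.v x) 1 with h3 | h3
      · exact h0 P h3
      · have := sum_aff h hg (D := divf (k := Om) f) (S := ∅) (by simp)
          (fun P' h4 h5 => absurd (h0 P' h4) h5) h3
        rw [degD_divf hf] at this
        simpa using this.symm
    rw [(v_eq_one_iff hf P).mpr h2] at hP
    exact lt_irrefl _ hP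
  obtain ⟨c, rfl⟩ := h1
  exact ⟨c, fun h2 => hf (by rw [h2, map_zero]), rfl⟩

/-! ### the leading coefficient of the norm -/

open Classical in
/-- `x - x(P)` -/
noncomputable def xi (x : L) (P : Pl Om L) : L :=
  if P.v x ≤ 1 then x - algebraMap Om L (ev P x) else 1

theorem xi_aff {P : Pl Om L} (hP : P.v x ≤ 1) : xi x P = x - algebraMap Om L (ev P x) := if_pos hP

theorem xi_inf {P : Pl Om L} (hP : ¬ P.v x ≤ 1) : xi x P = 1 := if_neg hP

theorem xi_ne (h : Hyp F x w) (P : Pl Om L) : xi x P ≠ 0 := by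
  unfold xi
  split_ifs
  · exact h.x_sub_ne _
  · exact one_ne_zero

/-- `∏ (x - x(P)) ^ D(P)` -/
noncomputable def px (x : L) (D : Pl Om L →₀ ℤ) : L := D.prod fun P n => xi x P ^ n

theorem px_add (h : Hyp F x w) (D E : Pl Om L →₀ ℤ) : px x (D + E) = px x D * px x E :=
  Finsupp.prod_add_index' (fun _ => zpow_zero _) fun P _ _ => zpow_add₀ (xi_ne h P) _ _

theorem px_ne (h : Hyp F x w) (D : Pl Om L →₀ ℤ) : px x D ≠ 0 :=
  Finset.prod_ne_zero_iff.mpr fun P _ => zpow_ne_zero _ (xi_ne h P)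

theorem px_zero : px x (0 : Pl Om L →₀ ℤ) = 1 := Finsupp.prod_zero_index

theorem px_single (P : Pl Om L) (n : ℤ) : px x (Finsupp.single P n) = xi x P ^ n :=
  Finsupp.prod_single_index (zpow_zero _)

theorem divf_xi (h : Hyp F x w) {P : Pl Om L} (hP : P.v x ≤ 1) :
    divf (k := Om) (xi x P) =
      Finsupp.single P 1 + Finsupp.single (h.siota.pl P) 1 - Dinf Om x := by
  have h1 := h.at_ev hP
  rw [xi_aff hP, h.div_x (h1.sq h.sq), h.pt_eq h1, h.pt_eq (h1.iota h)]

theorem divf_px (h : Hyp F x w) (D : Pl Om L →₀ ℤ) {Q : Pl Om L} (hQ : Q.v x ≤ 1) :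
    divf (k := Om) (px x D) Q = D Q + D (h.siota.pl Q) := by
  classical
  induction D using Finsupp.induction_linear with
  | zero => rw [px_zero, divf_one]; simp
  | add D E h1 h2 =>
    rw [px_add h, divf_mul (px_ne h D) (px_ne h E)]
    simp only [Finsupp.add_apply, h1, h2]
    ring
  | single P n =>
    rw [px_single, divf_zpow (xi_ne h P)]
    by_cases hP : P.v x ≤ 1
    · rw [divf_xi h hP]
      simp only [Finsupp.smul_apply, Finsupp.sub_apply, Finsupp.add_apply, Finsupp.single_apply,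
        Dinf_of_le h.x_ne hQ, j_eq_iff h, smul_eq_mul]
      split_ifs <;> ring
    · have h1 : P ≠ Q := fun e => hP (e ▸ hQ)
      have h2 : P ≠ h.siota.pl Q := fun e => hP (by rw [e, j_v_x]; exact hQ)
      rw [xi_inf hP, divf_one]
      simp [Finsupp.single_apply, h1, h2]

/-- the leading coefficient of the norm of `f` -/
noncomputable def kap (h : Hyp F x w) (f : L) : Om :=
  Classical.epsilon fun c => f * h.iota f = algebraMap Om L c * px x (divf (k := Om) f)

theorem exists_kap (h : Hyp F x w) (hg : F.natDegree = 2 * g + 1) {f : L} (hf : f ≠ 0) :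
    ∃ c : Om, f * h.iota f = algebraMap Om L c * px x (divf (k := Om) f) := by
  have h1 := mul_ne_zero hf (iota_ne h hf)
  have h2 := px_ne h (divf (k := Om) f)
  obtain ⟨c, -, hc⟩ := const_of_aff h hg (div_ne_zero h1 h2) (fun P hP => by
    rw [divf_div h1 h2, divf_mul hf (iota_ne h hf), Finsupp.sub_apply, Finsupp.add_apply,
      divf_px h _ hP, divf_iota h hf, sub_self])
  exact ⟨c, by rw [← hc, div_mul_cancel₀ _ h2]⟩

theorem kap_spec (h : Hyp F x w) (hg : F.natDegree = 2 * g + 1) {f : L} (hf : f ≠ 0) :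
    f * h.iota f = algebraMap Om L (kap h f) * px x (divf (k := Om) f) :=
  Classical.epsilon_spec (exists_kap h hg hf)

theorem kap_eq (h : Hyp F x w) (hg : F.natDegree = 2 * g + 1) {f : L} (hf : f ≠ 0) {c : Om}
    (hc : f * h.iota f = algebraMap Om L c * px x (divf (k := Om) f)) : kap h f = c :=
  (algebraMap Om L).injective
    (mul_right_cancel₀ (px_ne h _) ((kap_spec h hg hf).symm.trans hc))

theorem kap_ne (h : Hyp F x w) (hg : F.natDegree = 2 * g + 1) {f : L} (hf : f ≠ 0) :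
    kap h f ≠ 0 := by
  intro h0
  have := kap_spec h hg hf
  rw [h0, map_zero, zero_mul] at this
  exact mul_ne_zero hf (iota_ne h hf) this

theorem kap_mul (h : Hyp F x w) (hg : F.natDegree = 2 * g + 1) {f f' : L} (hf : f ≠ 0)
    (hf' : f' ≠ 0) : kap h (f * f') = kap h f * kap h f' := by
  apply kap_eq h hg (mul_ne_zero hf hf')
  rw [divf_mul hf hf', px_add h, map_mul, map_mul, mul_mul_mul_comm, kap_spec h hg hf,
    kap_spec h hg hf', mul_mul_mul_comm]

theorem kap_const (h : Hyp F x w) (hg : F.natDegree = 2 * g + 1) {c : Om} (hc : c ≠ 0) :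
    kap h (algebraMap Om L c) = c ^ 2 := by
  apply kap_eq h hg (by simpa using hc)
  rw [divf_const hc, px_zero, mul_one, AlgEquiv.commutes, map_pow, sq]

theorem prod_conv {M : Type*} [CommGroupWithZero M] (φ : Pl Om L → M)
    (hφ : ∀ P : Pl Om L, ¬ P.v x ≤ 1 → φ P = 1) {D : Pl Om L →₀ ℤ}
    (h0 : ∀ P : Pl Om L, P.v x ≤ 1 → 0 ≤ D P) {S : Finset (Pl Om L)} (hS : ∀ P ∈ S, P.v x ≤ 1)
    (hD : ∀ P, P.v x ≤ 1 → D P ≠ 0 → P ∈ S) :
    (D.prod fun P n => φ P ^ n) = ∏ P ∈ S, φ P ^ (D P).toNat := by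
  classical
  rw [Finsupp.prod_of_support_subset D (s := D.support ∪ S) Finset.subset_union_left _
    (fun _ _ => zpow_zero _)]
  rw [← Finset.prod_subset (s₁ := S) Finset.subset_union_right]
  · refine Finset.prod_congr rfl fun P hP => ?_
    rw [← zpow_natCast, Int.toNat_of_nonneg (h0 P (hS P hP))]
  · intro P _ hP
    by_cases h1 : P.v x ≤ 1
    · have : D P = 0 := by
        by_contra h2
        exact hP (hD P h1 h2)
      rw [this, zpow_zero]
    · rw [hφ P h1, one_zpow]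

theorem gauss (h : Hyp F x w) (hg : F.natDegree = 2 * g + 1) (hL : LocB ν F) {A B : Om[X]}
    (hA : A ∈ IP ν) (hB : B ∈ IP ν) (hp : ∃ i, ν (A.coeff i) = 1 ∨ ν (B.coeff i) = 1)
    (hne : el x w A B ≠ 0) {S : Finset (Pl Om L)} (hS : ∀ P ∈ S, P.v x ≤ 1)
    (hD : ∀ P, P.v x ≤ 1 → divf (k := Om) (el x w A B) P ≠ 0 → P ∈ S) :
    1 ≤ ν (kap h (el x w A B)) *
      ∏ P ∈ S, Hh ν (ev P x) ^ (divf (k := Om) (el x w A B) P).toNat := by
  have h1 := kap_spec h hg hne
  rw [h.iota_el, el_norm h.sq, px, prod_conv (xi x) (fun P hP => xi_inf hP)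
    (fun P hP => divf_el_nonneg h hne hP) hS hD] at h1
  have h2 : A ^ 2 - B ^ 2 * F = C (kap h (el x w A B)) *
      ∏ P ∈ S, (X - C (ev P x)) ^ (divf (k := Om) (el x w A B) P).toNat := by
    apply sub_eq_zero.mp
    apply h.tr
    rw [map_sub, h1, map_mul, aeval_C, map_prod, sub_eq_zero]
    congr 1
    refine Finset.prod_congr rfl fun P hP => ?_
    rw [xi_aff (hS P hP)]
    simp
  obtain ⟨i, hi⟩ := norm_prim hg hL hA hB hp
  rw [h2, coeff_C_mul, map_mul] at hi
  exact hi.trans (mul_le_mul' le_rfl (coeff_prod_le S _ _ i))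

/-! ### the local symbol -/

open Classical in
/-- the multiplicative local symbol -/
noncomputable def mu0 (ν : Valuation Om ℝ≥0) (g : ℕ) (x w : L) (P Q : Pl Om L) : ℝ≥0 :=
  if P.v x ≤ 1 then
    if P = Q then (dd ν g (ev Q x) (ev Q w) (ev Q x) (-ev Q w) ^ 2 *
      (Hh ν (ev Q x) * Hh ν (ev Q x)))⁻¹
    else dd ν g (ev P x) (ev P w) (ev Q x) (ev Q w) ^ 2 * (Hh ν (ev P x) * Hh ν (ev Q x))
  else 1

theorem mu0_self {Q : Pl Om L} (hQ : Q.v x ≤ 1) : mu0 ν g x w Q Q =
    (dd ν g (ev Q x) (ev Q w) (ev Q x) (-ev Q w) ^ 2 * (Hh ν (ev Q x) * Hh ν (ev Q x)))⁻¹ := by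
  unfold mu0; rw [if_pos hQ, if_pos rfl]

theorem mu0_ne {P Q : Pl Om L} (hP : P.v x ≤ 1) (hne : P ≠ Q) : mu0 ν g x w P Q =
    dd ν g (ev P x) (ev P w) (ev Q x) (ev Q w) ^ 2 * (Hh ν (ev P x) * Hh ν (ev Q x)) := by
  unfold mu0; rw [if_pos hP, if_neg hne]

theorem mu0_inf {P Q : Pl Om L} (hP : ¬ P.v x ≤ 1) : mu0 ν g x w P Q = 1 := if_neg hP

theorem dd_pos' (h : Hyp F x w) {P Q : Pl Om L} (hP : P.v x ≤ 1) (hQ : Q.v x ≤ 1) (hne : P ≠ Q) :
    0 < dd ν g (ev P x) (ev P w) (ev Q x) (ev Q w) := by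
  apply dd_pos
  by_contra hc
  push Not at hc
  have h1 := h.at_ev hP
  rw [hc.1, hc.2] at h1
  exact hne (h.at_unique h1 (h.at_ev hQ))

theorem mu0_pos (h : Hyp F x w) (P : Pl Om L) {Q : Pl Om L} (hQ : Q.v x ≤ 1) (hb : ev Q w ≠ 0) :
    0 < mu0 ν g x w P Q := by
  by_cases hP : P.v x ≤ 1
  · by_cases hne : P = Q
    · rw [hne, mu0_self hQ]
      exact inv_pos.mpr (mul_pos (pow_pos (dd_pos (Or.inr (ne_neg_of h.two hb))) _)
        (mul_pos (Hh_pos _) (Hh_pos _)))
    · rw [mu0_ne hP hne]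
      exact mul_pos (pow_pos (dd_pos' h hP hQ hne) _) (mul_pos (Hh_pos _) (Hh_pos _))
  · rw [mu0_inf hP]; exact zero_lt_one

theorem upper2 (h : Hyp F x w) (hg : F.natDegree = 2 * g + 1) (hL : LocB ν F) {Q : Pl Om L}
    (hQ : Q.v x ≤ 1) (hb' : ev Q w ≠ 0) {A B : Om[X]} (hA : A ∈ IP ν) (hB : B ∈ IP ν)
    (hp : ∃ i, ν (A.coeff i) = 1 ∨ ν (B.coeff i) = 1)
    (hne : el x w A B ≠ 0) {S : Finset (Pl Om L)} (hS : ∀ P ∈ S, P.v x ≤ 1) (hQS : Q ∈ S)
    (hD : ∀ P, P.v x ≤ 1 → divf (k := Om) (el x w A B) P ≠ 0 → P ∈ S) :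
    ν (lv Q (x - algebraMap Om L (ev Q x)) (el x w A B)) ^ 2 ≤ ν (kap h (el x w A B)) *
      ∏ P ∈ S, mu0 ν g x w P Q ^ (divf (k := Om) (el x w A B) P).toNat := by
  classical
  have h1 := upper h hg hL hQ hb' hA hB hne hS hQS hD
  have h2 := gauss h hg hL hA hB hp hne hS hD
  have h3 := mul_le_mul' h1 h2
  rw [mul_one, mul_left_comm, ← Finset.prod_mul_distrib] at h3
  have hH := Hh_pos (ν := ν) (ev Q x)
  have h4 : ∏ P ∈ S, (del ν g x w P Q ^ 2 * Hh ν (ev Q x)) ^ (divf (k := Om) (el x w A B) P).toNat *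
      Hh ν (ev P x) ^ (divf (k := Om) (el x w A B) P).toNat =
      (∏ P ∈ S, mu0 ν g x w P Q ^ (divf (k := Om) (el x w A B) P).toNat) *
        Hh ν (ev Q x) ^ (4 * (divf (k := Om) (el x w A B) Q).toNat) := by
    rw [← Finset.mul_prod_erase S _ hQS, ← Finset.mul_prod_erase S _ hQS, mul_right_comm
      (mu0 ν g x w Q Q ^ _)]
    congr 1
    · rw [pow_mul, ← mul_pow, ← mul_pow, del_self, mu0_self hQ]
      congr 1
      have := hH.ne'
      rw [mul_inv, inv_pow]
      field_simp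
    · refine Finset.prod_congr rfl fun P hP => ?_
      have hne' := Finset.ne_of_mem_erase hP
      rw [← mul_pow, del_ne hne', mu0_ne (hS P (Finset.mem_of_mem_erase hP)) hne']
      congr 1
      ring
  rw [h4, ← mul_assoc] at h3
  exact le_of_mul_le_mul_right h3 (pow_pos hH _)

theorem mu0_mul (h : Hyp F x w) (hg : F.natDegree = 2 * g + 1) (hL : LocB ν F) {P Q : Pl Om L}
    (hP : P.v x ≤ 1) (hQ : Q.v x ≤ 1) (hb' : ev Q w ≠ 0) :
    mu0 ν g x w P Q * mu0 ν g x w P (h.siota.pl Q) ≤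
      ν (lv Q (x - algebraMap Om L (ev Q x)) (xi x P)) ^ 2 := by
  have hu := h.x_sub_ne (ev Q x)
  have hu1 := h.ord_x (h.at_ev hQ) hb'
  have hj := j_ne h hQ hb'
  have hjQ : (h.siota.pl Q).v x ≤ 1 := by rwa [j_v_x]
  have inv_le : ∀ r : ℝ≥0, r⁻¹ * r ≤ 1 := fun r => inv_mul_le_one_of_le₀ le_rfl zero_le
  by_cases h1 : P = Q
  · rw [h1, mu0_self hQ, mu0_ne hQ hj.symm, ev_j_x h hQ, ev_j_w h hQ, xi_aff hQ, lv_self hu hu1,
      map_one, one_pow]
    exact inv_le _
  by_cases h2 : P = h.siota.pl Q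
  · rw [h2, mu0_self hjQ, mu0_ne hjQ hj, xi_aff hjQ, ev_j_x h hQ, ev_j_w h hQ, neg_neg,
      lv_self hu hu1, map_one, one_pow, mul_comm]
    exact inv_le _
  · have h3 : ev Q x - ev P x ≠ 0 := fun e =>
      (eq_or_j h hP hQ (sub_eq_zero.mp e).symm).elim h1 h2
    rw [mu0_ne hP h1, mu0_ne hP h2, ev_j_x h hQ, ev_j_w h hQ, xi_aff hP, ← el_x x w (ev P x),
      lv_el (h.at_ev hQ) _ (by simpa using h3)]
    simp only [eval_sub, eval_X, eval_C, eval_zero, zero_mul, add_zero]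
    rw [ν.map_sub_swap]
    refine le_trans (le_of_eq ?_) (pow_le_pow_left'
      (dd_mul hg hL ((h.at_ev hP).sq h.sq) ((h.at_ev hQ).sq h.sq)) 2)
    ring

/-- the local formula for `f` at `Q` -/
def MLs (ν : Valuation Om ℝ≥0) (g : ℕ) (h : Hyp F x w) (Q : Pl Om L) (f : L) : Prop :=
  ν (lv Q (x - algebraMap Om L (ev Q x)) f) ^ 2 =
    ν (kap h f) * (divf (k := Om) f).prod fun P n => mu0 ν g x w P Q ^ n

theorem ml_prim (h : Hyp F x w) (hg : F.natDegree = 2 * g + 1) (hL : LocB ν F) {Q : Pl Om L}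
    (hQ : Q.v x ≤ 1) (hb' : ev Q w ≠ 0) {A B : Om[X]} (hA : A ∈ IP ν) (hB : B ∈ IP ν)
    (hp : ∃ i, ν (A.coeff i) = 1 ∨ ν (B.coeff i) = 1) (hne : el x w A B ≠ 0) :
    MLs ν g h Q (el x w A B) := by
  classical
  have hjQ : (h.siota.pl Q).v x ≤ 1 := by rwa [j_v_x]
  have hjb : ev (h.siota.pl Q) w ≠ 0 := by rw [ev_j_w h hQ]; exact neg_ne_zero.mpr hb'
  have hu := h.x_sub_ne (ev Q x)
  have hu1 := h.ord_x (h.at_ev hQ) hb'
  obtain ⟨S, hS, hQS, hjS, hD⟩ : ∃ S : Finset (Pl Om L), (∀ P ∈ S, P.v x ≤ 1) ∧ Q ∈ S ∧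
      h.siota.pl Q ∈ S ∧ ∀ P, P.v x ≤ 1 → divf (k := Om) (el x w A B) P ≠ 0 → P ∈ S := by
    refine ⟨(insert Q (insert (h.siota.pl Q) (divf (k := Om) (el x w A B)).support)).filter
      fun P => P.v x ≤ 1, fun P hP => (Finset.mem_filter.mp hP).2, ?_, ?_, fun P h1 h2 => ?_⟩
    · exact Finset.mem_filter.mpr ⟨Finset.mem_insert_self _ _, hQ⟩
    · exact Finset.mem_filter.mpr ⟨Finset.mem_insert_of_mem (Finset.mem_insert_self _ _), hjQ⟩
    · exact Finset.mem_filter.mpr ⟨Finset.mem_insert_of_mem (Finset.mem_insert_of_mem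
        (Finsupp.mem_support_iff.mpr h2)), h1⟩
  have h0 : ∀ P : Pl Om L, P.v x ≤ 1 → 0 ≤ divf (k := Om) (el x w A B) P :=
    fun P hP => divf_el_nonneg h hne hP
  have h1 := upper2 h hg hL hQ hb' hA hB hp hne hS hQS hD
  have h2 := upper2 h hg hL hjQ hjb hA hB hp hne hS hjS hD
  rw [ev_j_x h hQ] at h2
  have h3 : lv (h.siota.pl Q) (x - algebraMap Om L (ev Q x)) (el x w A B) =
      lv Q (x - algebraMap Om L (ev Q x)) (h.iota (el x w A B)) := by
    have := lv_SI h.siota hu hu1 (iota_ne h hne)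
    have e1 : h.siota.f (x - algebraMap Om L (ev Q x)) = x - algebraMap Om L (ev Q x) := by
      show h.iota _ = _
      rw [map_sub, h.iota_x, AlgEquiv.commutes]
    have e2 : h.siota.f (h.iota (el x w A B)) = el x w A B := h.iota_iota _
    rw [e1, e2] at this
    exact this
  rw [h3] at h2
  have hk := kap_ne h hg hne
  have h4 := congrArg (fun z => ν (lv Q (x - algebraMap Om L (ev Q x)) z)) (kap_spec h hg hne)
  rw [lv_mul hu hu1 hne (iota_ne h hne), lv_mul hu hu1 (by simpa using hk) (px_ne h _),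
    lv_const _ _ hk, px, prod_conv (xi x) (fun P hP => xi_inf hP) h0 hS hD,
    lv_prod hu hu1 _ _ (fun P => pow_ne_zero _ (xi_ne h P)), map_mul, map_mul, map_prod] at h4
  simp only [lv_pow hu hu1 (xi_ne h _), map_pow] at h4
  have h5 : (∏ P ∈ S, mu0 ν g x w P Q ^ (divf (k := Om) (el x w A B) P).toNat) *
      ∏ P ∈ S, mu0 ν g x w P (h.siota.pl Q) ^ (divf (k := Om) (el x w A B) P).toNat ≤
      (∏ P ∈ S, ν (lv Q (x - algebraMap Om L (ev Q x)) (xi x P)) ^
        (divf (k := Om) (el x w A B) P).toNat) ^ 2 := by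
    rw [← Finset.prod_mul_distrib, ← Finset.prod_pow]
    refine Finset.prod_le_prod' fun P hP => ?_
    rw [← mul_pow, ← pow_mul, mul_comm _ 2, pow_mul]
    exact pow_le_pow_left' (mu0_mul h hg hL (hS P hP) hQ hb') _
  have h6 : 0 < ν (lv Q (x - algebraMap Om L (ev Q x)) (h.iota (el x w A B))) :=
    (ν.pos_iff).mpr (lv_ne hu hu1 (iota_ne h hne))
  unfold MLs
  rw [prod_conv (fun P => mu0 ν g x w P Q) (fun P hP => mu0_inf hP) h0 hS hD]
  apply le_antisymm h1
  apply le_of_mul_le_mul_right _ (pow_pos h6 2)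
  rw [← mul_pow, h4]
  refine (mul_le_mul' le_rfl h2).trans ?_
  rw [mul_mul_mul_comm, mul_pow, sq]
  exact mul_le_mul' le_rfl h5

theorem ml_const (h : Hyp F x w) (hg : F.natDegree = 2 * g + 1) (Q : Pl Om L) {c : Om}
    (hc : c ≠ 0) : MLs ν g h Q (algebraMap Om L c) := by
  unfold MLs
  rw [lv_const _ _ hc, kap_const h hg hc, divf_const hc, Finsupp.prod_zero_index, map_pow, mul_one]

theorem prod_mu0_add (h : Hyp F x w) {Q : Pl Om L} (hQ : Q.v x ≤ 1) (hb' : ev Q w ≠ 0)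
    (D E : Pl Om L →₀ ℤ) : ((D + E).prod fun P n => mu0 ν g x w P Q ^ n) =
      (D.prod fun P n => mu0 ν g x w P Q ^ n) * E.prod fun P n => mu0 ν g x w P Q ^ n :=
  Finsupp.prod_add_index' (fun _ => zpow_zero _)
    fun P _ _ => zpow_add₀ (mu0_pos h P hQ hb').ne' _ _

theorem ml_mul (h : Hyp F x w) (hg : F.natDegree = 2 * g + 1) {Q : Pl Om L} (hQ : Q.v x ≤ 1)
    (hb' : ev Q w ≠ 0) {f f' : L} (hf : f ≠ 0) (hf' : f' ≠ 0) (h1 : MLs ν g h Q f)
    (h2 : MLs ν g h Q f') : MLs ν g h Q (f * f') := by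
  unfold MLs at *
  rw [lv_mul (h.x_sub_ne _) (h.ord_x (h.at_ev hQ) hb') hf hf', kap_mul h hg hf hf',
    divf_mul hf hf', prod_mu0_add h hQ hb', map_mul, map_mul, mul_pow, h1, h2, mul_mul_mul_comm]

theorem ml_cancel (h : Hyp F x w) (hg : F.natDegree = 2 * g + 1) {Q : Pl Om L} (hQ : Q.v x ≤ 1)
    (hb' : ev Q w ≠ 0) {f f' : L} (hf : f ≠ 0) (hf' : f' ≠ 0) (h1 : MLs ν g h Q (f * f'))
    (h2 : MLs ν g h Q f') : MLs ν g h Q f := by
  unfold MLs at *
  rw [lv_mul (h.x_sub_ne _) (h.ord_x (h.at_ev hQ) hb') hf hf', kap_mul h hg hf hf',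
    divf_mul hf hf', prod_mu0_add h hQ hb', map_mul, map_mul, mul_pow, mul_mul_mul_comm,
    ← h2] at h1
  exact mul_right_cancel₀ (pow_ne_zero _ ((ν.ne_zero_iff).mpr
    (lv_ne (h.x_sub_ne _) (h.ord_x (h.at_ev hQ) hb') hf'))) h1

theorem ml_el (h : Hyp F x w) (hg : F.natDegree = 2 * g + 1) (hL : LocB ν F) {Q : Pl Om L}
    (hQ : Q.v x ≤ 1) (hb' : ev Q w ≠ 0) {A B : Om[X]} (hne : el x w A B ≠ 0) :
    MLs ν g h Q (el x w A B) := by
  have h0 : A ≠ 0 ∨ B ≠ 0 := by
    by_contra hc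
    push Not at hc
    exact hne (by simp [el, hc.1, hc.2])
  obtain ⟨c, A1, B1, hc, hA, hB, rfl, rfl, hp⟩ := exists_prim ν h0
  rw [← el_mul_aeval, aeval_C] at hne ⊢
  exact ml_mul h hg hQ hb' (left_ne_zero_of_mul hne) (right_ne_zero_of_mul hne)
    (ml_prim h hg hL hQ hb' hA hB hp (left_ne_zero_of_mul hne)) (ml_const h hg Q hc)

/-- **the local formula** -/
theorem ml (h : Hyp F x w) (hg : F.natDegree = 2 * g + 1) (hL : LocB ν F) {Q : Pl Om L}
    (hQ : Q.v x ≤ 1) (hb' : ev Q w ≠ 0) {f : L} (hf : f ≠ 0) : MLs ν g h Q f := by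
  obtain ⟨A, B, c, hc, he⟩ := h.gen f
  have h1 := h.aeval_ne hc
  apply ml_cancel h hg hQ hb' hf h1
  · rw [he]
    exact ml_el h hg hL hQ hb' (he ▸ mul_ne_zero hf h1)
  · rw [← el_zero x w] at h1 ⊢
    exact ml_el h hg hL hQ hb' h1

end Crest.Agent.T15.Fa
end

-- ▼ part T15/FaE_51
section

/-!
# Row 15 (helper51): the height pairing on a constant hyperelliptic curve, part E

Reduced divisors, equivariance, the symmetric kernel `mu1`.
-/

set_option autoImplicit false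
set_option linter.all false

namespace Crest.Agent.T15.Fa

open Polynomial WithZero Module
open scoped NNReal
open Crest.Agent.R013.RR7_948 Crest.Agent.R013.RR8_948 Crest.Agent.R013.RR9_948
open Crest.Agent.R013.RR11_948 Crest.Agent.R013.RR12_948 Crest.Agent.R013.PicD_398
open Crest.Agent.R013.GR2_921 Crest.Agent.R013.Frob1_914 Crest.Agent.T15.Disc
open Crest.Agent.T15.Hy

variable {Om L : Type*} [Field Om] [Field L] [Algebra Om L]
variable [Algebra (RatFunc Om) L] [IsScalarTower Om (RatFunc Om) L]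
  [FiniteDimensional (RatFunc Om) L] [Algebra.IsSeparable (RatFunc Om) L] [IsAlgClosed Om]
variable {ν : Valuation Om ℝ≥0} {F : Om[X]} {x w : L} {g : ℕ}

/-- affine, not a Weierstrass point -/
def Gd (x w : L) (P : Pl Om L) : Prop := P.v x ≤ 1 ∧ ev P w ≠ 0

theorem Gd.j (h : Hyp F x w) {P : Pl Om L} (hP : Gd x w P) : Gd x w (h.siota.pl P) :=
  ⟨by rw [j_v_x]; exact hP.1, by rw [ev_j_w h hP.1]; exact neg_ne_zero.mpr hP.2⟩

theorem jD_apply (h : Hyp F x w) (D : Pl Om L →₀ ℤ) (P : Pl Om L) :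
    h.siota.D D P = D (h.siota.pl P) := by
  conv_lhs => rw [← j_j h P]
  exact h.siota.D_pl D _

theorem degD_single' (P : Pl Om L) (n : ℤ) : degD (Finsupp.single P n) = n := by
  rw [degD_single, degP_eq_one]; simp

theorem Dinf_eq (h : Hyp F x w) (hg : F.natDegree = 2 * g + 1) {W : Pl Om L} (hW : 1 < W.v x) :
    Dinf Om x = Finsupp.single W 2 := by
  ext P
  rcases le_or_gt (P.v x) 1 with h1 | h1
  · have : P ≠ W := fun e => absurd (e ▸ h1) (not_le.mpr hW)
    rw [Dinf_of_le h.x_ne h1, Finsupp.single_eq_of_ne this]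
  · obtain rfl := h.inf_unique ⟨g, hg⟩ h1 hW
    have := divf_x_inf h hg h1
    rw [divf_inv h.x_ne, Finsupp.neg_apply] at this
    rw [Dinf_of_lt h.x_ne h1, this, Finsupp.single_eq_same]

/-! ### reduced divisors -/

/-- `E + n W` represents `c`, `E` effective, affine, of degree `r` -/
structure Rp (x : L) (W : Pl Om L) (c : Pic Om L) (E : Pl Om L →₀ ℤ) (r : ℕ) : Prop where
  nonneg : 0 ≤ E
  aff : ∀ P, E P ≠ 0 → P.v x ≤ 1
  deg : degD E = r
  eq : ∃ n : ℤ, cls (E + Finsupp.single W n) = c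

theorem exists_rp (h : Hyp F x w) (hg : F.natDegree = 2 * g + 1) {W : Pl Om L} (hW : 1 < W.v x)
    (c : Pic Om L) : ∃ E r, r ≤ g ∧ Rp x W c E r := by
  classical
  obtain ⟨D, rfl⟩ := cls_surjective c
  have h1 : degD (D + Finsupp.single W (g - degD D)) = g := by
    rw [degD_add, degD_single']; ring
  obtain ⟨f, hf, hm⟩ := exists_mem_LD (D := D + Finsupp.single W (g - degD D))
    (by rw [h1]; exact_mod_cast h.gen_le (by omega))
  rw [mem_LD_iff hf] at hm
  set E0 := D + Finsupp.single W (g - degD D) + divf (k := Om) f with hE0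
  have h2 : degD E0 = g := by rw [hE0, degD_add, h1, degD_divf hf, add_zero]
  have h3 : E0 = E0.erase W + Finsupp.single W (E0 W) := (Finsupp.erase_add_single W E0).symm
  have h4 : 0 ≤ E0.erase W := fun P => by
    by_cases e : P = W
    · rw [e, Finsupp.erase_same]; rfl
    · rw [Finsupp.erase_ne e]; exact hm P
  have h5 : degD (E0.erase W) + E0 W = g := by
    rw [← h2]
    conv_rhs => rw [h3, degD_add, degD_single']
  have h6 := degD_nonneg h4
  have h7 : 0 ≤ E0 W := hm W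
  refine ⟨E0.erase W, (degD (E0.erase W)).toNat, by omega, h4, fun P hP => ?_,
    (Int.toNat_of_nonneg h6).symm, E0 W - (g - degD D), ?_⟩
  · by_contra hc
    rw [h.inf_unique ⟨g, hg⟩ (not_le.mp hc) hW, Finsupp.erase_same] at hP
    exact hP rfl
  · rw [Finsupp.single_sub, ← add_sub_assoc, ← h3, cls_eq_iff]
    exact ⟨f, hf, by rw [hE0]; abel⟩

/-- no pair of conjugate points -/
def Rd (h : Hyp F x w) (E : Pl Om L →₀ ℤ) : Prop :=
  ∀ P, Gd x w P → E P = 0 ∨ E (h.siota.pl P) = 0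

theorem exists_rd (h : Hyp F x w) (hg : F.natDegree = 2 * g + 1) {W : Pl Om L} (hW : 1 < W.v x)
    (c : Pic Om L) : ∃ E r, r ≤ g ∧ Rp x W c E r ∧ Rd h E := by
  classical
  obtain ⟨E0, r0, hr0, h0⟩ := exists_rp h hg hW c
  have hex : ∃ r, ∃ E, Rp x W c E r := ⟨r0, E0, h0⟩
  obtain ⟨E, hE⟩ := Nat.find_spec hex
  refine ⟨E, Nat.find hex, (Nat.find_min' hex ⟨E0, h0⟩).trans hr0, hE, fun P hP => ?_⟩
  by_contra hc
  push Not at hc
  have hj := j_ne h hP.1 hP.2
  have h1 : 0 ≤ E - Finsupp.single P 1 - Finsupp.single (h.siota.pl P) 1 := fun Q => by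
    have := hE.nonneg Q
    simp only [Finsupp.coe_zero, Pi.zero_apply, Finsupp.coe_sub, Pi.sub_apply,
      Finsupp.single_apply] at this ⊢
    split_ifs with e1 e2 e2
    · exact absurd (e2.trans e1.symm) hj
    · have := hc.1; rw [e1] at this; omega
    · have := hc.2; rw [e2] at this; omega
    · omega
  have h2 : degD (E - Finsupp.single P 1 - Finsupp.single (h.siota.pl P) 1) =
      (Nat.find hex : ℤ) - 2 := by
    rw [degD_sub, degD_sub, degD_single', degD_single', hE.deg]; ring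
  have h3 := degD_nonneg h1
  obtain ⟨n, hn⟩ := hE.eq
  refine Nat.find_min hex (m := Nat.find hex - 2) (by omega) ⟨_, h1, fun Q hQ => ?_, by omega,
    n + 2, ?_⟩
  · by_contra hq
    have e1 : Q ≠ P := fun e => hq (e ▸ hP.1)
    have e2 : Q ≠ h.siota.pl P := fun e => hq (e ▸ (hP.j h).1)
    have e3 : E Q = 0 := by
      by_contra e; exact hq (hE.aff Q e)
    simp [Finsupp.single_eq_of_ne e1, Finsupp.single_eq_of_ne e2, e3] at hQ
  · rw [← hn, eq_comm, cls_eq_iff]
    refine ⟨xi x P, xi_ne h P, ?_⟩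
    rw [divf_xi h hP.1, Dinf_eq h hg hW, Finsupp.single_add]
    abel

theorem red_unique (h : Hyp F x w) (hg : F.natDegree = 2 * g + 1) {W : Pl Om L} (hW : 1 < W.v x)
    {c : Pic Om L} {E E' : Pl Om L →₀ ℤ} {r r' : ℕ} (hr : r ≤ g) (hr' : r' ≤ g)
    (hE : Rp x W c E r) (hE' : Rp x W c E' r') (hd : Rd h E) (hd' : Rd h E') {P : Pl Om L}
    (hP : Gd x w P) : E P = E' P := by
  obtain ⟨n, hn⟩ := hE.eq
  obtain ⟨n', hn'⟩ := hE'.eq
  obtain ⟨f, hf, he⟩ := cls_eq_iff.mp (hn.trans hn'.symm)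
  have hf' := mul_ne_zero hf (px_ne h E')
  have hW0 : ∀ {D : Pl Om L →₀ ℤ}, (∀ Q, D Q ≠ 0 → Q.v x ≤ 1) → ∀ Q : Pl Om L, 1 < Q.v x →
      D Q = 0 := fun hD Q hQ => by
    by_contra e; exact absurd (hD Q e) (not_le.mpr hQ)
  have h1 : ∀ Q : Pl Om L, Q.v x ≤ 1 →
      divf (k := Om) (f * px x E') Q = E Q + E' (h.siota.pl Q) := fun Q hQ => by
    have e1 : Q ≠ W := fun e => absurd (e ▸ hQ) (not_le.mpr hW)
    have e2 := congrArg (fun D : Pl Om L →₀ ℤ => D Q) he
    simp only [Finsupp.add_apply, Finsupp.single_eq_of_ne e1] at e2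
    rw [divf_mul hf (px_ne h E'), Finsupp.add_apply, divf_px h _ hQ]
    omega
  have h2 : divf (k := Om) (f * px x E') =
      E + h.siota.D E' + Finsupp.single W (divf (k := Om) (f * px x E') W) := by
    ext Q
    rw [Finsupp.add_apply, Finsupp.add_apply, jD_apply]
    rcases le_or_gt (Q.v x) 1 with hQ | hQ
    · have e1 : Q ≠ W := fun e => absurd (e ▸ hQ) (not_le.mpr hW)
      rw [h1 Q hQ, Finsupp.single_eq_of_ne e1, add_zero]
    · rw [hW0 hE.aff Q hQ, hW0 hE'.aff _ (by rwa [j_v_x]), h.inf_unique ⟨g, hg⟩ hQ hW,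
        Finsupp.single_eq_same, add_zero, zero_add]
  have h3 := congrArg degD h2
  rw [degD_divf hf', degD_add, degD_add, degD_single', SI.degD_D, hE.deg, hE'.deg] at h3
  have h4 : f * px x E' ∈ LD (g • Dinf Om x) := by
    rw [mem_LD_iff hf', Dinf_eq h hg hW]
    intro Q
    rcases le_or_gt (Q.v x) 1 with hQ | hQ
    · have e1 : Q ≠ W := fun e => absurd (e ▸ hQ) (not_le.mpr hW)
      have a1 : 0 ≤ E Q := hE.nonneg Q
      have a2 : 0 ≤ E' (h.siota.pl Q) := hE'.nonneg _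
      simp only [Finsupp.coe_zero, Pi.zero_apply, Finsupp.add_apply, Finsupp.smul_apply,
        Finsupp.single_eq_of_ne e1, h1 Q hQ, smul_zero]
      omega
    · rw [h.inf_unique ⟨g, hg⟩ hQ hW]
      simp only [Finsupp.coe_zero, Pi.zero_apply, Finsupp.add_apply, Finsupp.smul_apply,
        Finsupp.single_eq_same, nsmul_eq_mul]
      omega
  obtain ⟨A, B, hAB, -, hB⟩ := h.of_mem_LD h4
  have hB0 : B = 0 := hB.resolve_right (by omega)
  have h5 : h.iota (f * px x E') = f * px x E' := by rw [hAB, h.iota_el, hB0, neg_zero]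
  have h6 := divf_iota h hf' P
  rw [h5, h1 P hP.1, h1 _ (hP.j h).1, j_j] at h6
  have a1 : 0 ≤ E P := hE.nonneg P
  have a2 : 0 ≤ E' P := hE'.nonneg P
  have a3 : 0 ≤ E (h.siota.pl P) := hE.nonneg _
  have a4 : 0 ≤ E' (h.siota.pl P) := hE'.nonneg _
  rcases hd P hP with b1 | b1 <;> rcases hd' P hP with b2 | b2 <;> omega

/-! ### equivariance -/

theorem ev_SI' (e : SI Om L Om L) (P : Pl Om L) (z : L) :
    ev (e.pl P) (e.f z) = e.s (ev P z) := by
  by_cases hz : P.v z ≤ 1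
  · exact ev_SI e P hz
  · have h1 : ¬ (e.pl P).v (e.f z) ≤ 1 := by rwa [e.pl_v_apply]
    unfold ev
    rw [dif_neg hz, dif_neg h1, map_zero]

theorem SI_aeval (e : SI Om L Om L) (z : L) (A : Om[X]) :
    e.f (aeval z A) = aeval (e.f z) (A.map (e.s : Om →+* Om)) := by
  induction A using Polynomial.induction_on' with
  | add p q hp hq => rw [map_add, map_add, hp, hq, Polynomial.map_add, map_add]
  | monomial n a =>
    rw [map_monomial, aeval_monomial, aeval_monomial, map_mul, map_pow, e.comm]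
    rfl

theorem prod_SI {M : Type*} [Field M] (e : SI Om L Om L) (σ : M ≃+* M) {φ ψ : Pl Om L → M}
    (hφ : ∀ P, ψ (e.pl P) = σ (φ P)) (D : Pl Om L →₀ ℤ) :
    ((e.D D).prod fun P n => ψ P ^ n) = σ (D.prod fun P n => φ P ^ n) := by
  have : e.D D = Finsupp.equivMapDomain e.plEquiv D := rfl
  rw [this, Finsupp.prod_equivMapDomain, Finsupp.prod, Finsupp.prod, map_prod]
  exact Finset.prod_congr rfl fun P _ => by rw [map_zpow₀, ← hφ]; rfl

section eqv

variable {e : SI Om L Om L} (hx : e.f x = x) (hw : e.f w = w)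

include hx in
theorem e_v_x (P : Pl Om L) : (e.pl P).v x = P.v x := by
  conv_lhs => rw [← hx]
  exact e.pl_v_apply P x

include hx in
theorem e_ev (P : Pl Om L) : ev (e.pl P) x = e.s (ev P x) := by
  conv_lhs => rw [← hx]
  exact ev_SI' e P x

include hx in
theorem e_xi (P : Pl Om L) : xi x (e.pl P) = e.f (xi x P) := by
  unfold xi
  rw [e_v_x hx]
  split_ifs
  · rw [map_sub, hx, e.comm, e_ev hx]
  · rw [map_one]

include hx in
theorem e_px (D : Pl Om L →₀ ℤ) : px x (e.D D) = e.f (px x D) := prod_SI e e.f (e_xi hx) D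

include hx hw

theorem e_Gd (P : Pl Om L) : Gd x w (e.pl P) ↔ Gd x w P := by
  unfold Gd
  rw [e_v_x hx, e_ev hw]
  simp

theorem e_el (A B : Om[X]) :
    e.f (el x w A B) = el x w (A.map (e.s : Om →+* Om)) (B.map (e.s : Om →+* Om)) := by
  unfold el
  rw [map_add, map_mul, SI_aeval, SI_aeval, hx, hw]

theorem e_iota (h : Hyp F x w) (f : L) : h.iota (e.f f) = e.f (h.iota f) := by
  obtain ⟨A, B, c, hc, hf⟩ := h.gen f
  have h1 := congrArg e.f hf
  rw [map_mul, SI_aeval, hx, e_el hx hw] at h1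
  have h2 := congrArg e.f (h.io_spec hf)
  rw [map_mul, SI_aeval, hx, e_el hx hw, Polynomial.map_neg, ← h.io_spec h1] at h2
  have h3 : c.map (e.s : Om →+* Om) ≠ 0 := by simpa using hc
  exact (mul_right_cancel₀ (h.aeval_ne h3) h2).symm

theorem e_j (h : Hyp F x w) (P : Pl Om L) : h.siota.pl (e.pl P) = e.pl (h.siota.pl P) := by
  apply Pl.ext
  ext f
  obtain ⟨f, rfl⟩ := e.f.surjective f
  rw [h.siota_v, e_iota hx hw, e.pl_v_apply, e.pl_v_apply, h.siota_v]

theorem e_kap (h : Hyp F x w) (hg : F.natDegree = 2 * g + 1) {f : L} (hf : f ≠ 0) :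
    kap h (e.f f) = e.s (kap h f) := by
  apply kap_eq h hg (by simpa using hf)
  rw [e_iota hx hw, ← map_mul, kap_spec h hg hf, map_mul, e.comm, e.divf_f hf, e_px hx]

theorem e_fix (h : Hyp F x w) (hg : F.natDegree = 2 * g + 1) (hr : ∀ a, F.eval a = 0 → e.s a = a)
    {P : Pl Om L} (hP : ¬ Gd x w P) : e.pl P = P := by
  rcases le_or_gt (P.v x) 1 with h1 | h1
  · have h2 : ev P w = 0 := by
      by_contra hc; exact hP ⟨h1, hc⟩
    have h3 := h.at_ev h1
    have h4 := h3.sq h.sq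
    rw [h2, zero_pow two_ne_zero] at h4
    have h5 := h3.SI e
    rw [hx, hw, hr _ h4.symm, h2, map_zero] at h5
    rw [h2] at h3
    exact h.at_unique h5 h3
  · exact h.inf_unique ⟨g, hg⟩ (by rwa [e_v_x hx]) h1

theorem e_red (h : Hyp F x w) (hg : F.natDegree = 2 * g + 1) (hr : ∀ a, F.eval a = 0 → e.s a = a)
    {W : Pl Om L} (hW : 1 < W.v x) {c : Pic Om L} (hc : e.pic c = c) {E : Pl Om L →₀ ℤ} {r : ℕ}
    (hrg : r ≤ g) (hE : Rp x W c E r) (hd : Rd h E) : e.D E = E := by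
  have hWe : e.pl W = W := e_fix hx hw h hg hr fun h1 => absurd h1.1 (not_le.mpr hW)
  have h1 : Rp x W c (e.D E) r := by
    refine ⟨e.D_nonneg hE.nonneg, fun P hP => ?_, by rw [SI.degD_D, hE.deg], ?_⟩
    · obtain ⟨P, rfl⟩ := e.plEquiv.surjective P
      rw [e.plEquiv_apply] at hP ⊢
      rw [e.D_pl] at hP
      rw [e_v_x hx]
      exact hE.aff P hP
    · obtain ⟨n, hn⟩ := hE.eq
      exact ⟨n, by rw [← hc, ← hn, e.pic_cls, map_add e.D, e.D_single, hWe]⟩
  have h2 : Rd h (e.D E) := fun P hP => by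
    obtain ⟨P, rfl⟩ := e.plEquiv.surjective P
    rw [e.plEquiv_apply] at hP ⊢
    rw [e_j hx hw, e.D_pl, e.D_pl]
    exact hd P ((e_Gd hx hw P).mp hP)
  ext P
  by_cases hP : Gd x w P
  · exact red_unique h hg hW hrg hrg h1 hE h2 hd hP
  · conv_lhs => rw [← e_fix hx hw h hg hr hP]
    exact e.D_pl E P

end eqv

/-! ### the symmetric kernel -/

open Classical in
/-- the kernel, trivial at the Weierstrass points -/
noncomputable def mu1 (ν : Valuation Om ℝ≥0) (g : ℕ) (x w : L) (P Q : Pl Om L) : ℝ≥0 :=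
  if Gd x w P ∧ Gd x w Q then mu0 ν g x w P Q else 1

open Classical in
/-- correction at the Weierstrass points -/
noncomputable def om (x w : L) (P Q : Pl Om L) : Om :=
  if P.v x ≤ 1 ∧ ev P w = 0 then ev Q x - ev P x else 1

theorem mu1_pos' {P Q : Pl Om L} (hP : Gd x w P) (hQ : Gd x w Q) :
    mu1 ν g x w P Q = mu0 ν g x w P Q := if_pos ⟨hP, hQ⟩

theorem mu1_neg {P Q : Pl Om L} (h : ¬ (Gd x w P ∧ Gd x w Q)) : mu1 ν g x w P Q = 1 := if_neg h

theorem om_pos {P : Pl Om L} (h1 : P.v x ≤ 1) (h2 : ev P w = 0) (Q : Pl Om L) :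
    om x w P Q = ev Q x - ev P x := if_pos ⟨h1, h2⟩

theorem om_neg {P : Pl Om L} (h : ¬ (P.v x ≤ 1 ∧ ev P w = 0)) (Q : Pl Om L) :
    om x w P Q = 1 := if_neg h

theorem mu1_symm (P Q : Pl Om L) : mu1 ν g x w P Q = mu1 ν g x w Q P := by
  unfold mu1
  by_cases h1 : Gd x w P ∧ Gd x w Q
  · rw [if_pos h1, if_pos h1.symm]
    by_cases h2 : P = Q
    · rw [h2]
    · rw [mu0_ne h1.1.1 h2, mu0_ne h1.2.1 (Ne.symm h2), dd_symm, mul_comm (Hh ν (ev P x))]
  · rw [if_neg h1, if_neg fun h2 => h1 h2.symm]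

theorem mu1_pos (h : Hyp F x w) (P Q : Pl Om L) : 0 < mu1 ν g x w P Q := by
  unfold mu1
  split_ifs with h1
  · exact mu0_pos h P h1.2.1 h1.2.2
  · exact zero_lt_one

theorem om_ne (h : Hyp F x w) (P : Pl Om L) {Q : Pl Om L} (hQ : Gd x w Q) : om x w P Q ≠ 0 := by
  unfold om
  split_ifs with h1
  · intro h2
    rcases eq_or_j h h1.1 hQ.1 (sub_eq_zero.mp h2).symm with h3 | h3
    · exact hQ.2 (h3 ▸ h1.2)
    · exact (hQ.j h).2 (h3 ▸ h1.2)
  · exact one_ne_zero

theorem mu0_eq (h : Hyp F x w) (hg : F.natDegree = 2 * g + 1) (hL : LocB ν F) (P : Pl Om L)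
    {Q : Pl Om L} (hQ : Gd x w Q) : mu0 ν g x w P Q = mu1 ν g x w P Q * ν (om x w P Q) := by
  have h0 := om_ne h P hQ
  by_cases h1 : P.v x ≤ 1
  · by_cases h2 : ev P w = 0
    · rw [om_pos h1 h2] at h0 ⊢
      rw [mu1_neg fun h3 => h3.1.2 h2, one_mul]
      obtain ⟨W, hW⟩ := h.exists_inf
      have hj : h.siota.pl P = P := by
        have h3 := h.at_ev h1
        have h4 := h3.iota h
        rw [h2, neg_zero] at h4
        rw [h2] at h3
        exact h.at_unique h4 h3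
      have hd : divf (k := Om) (xi x P) = Finsupp.single P 2 + Finsupp.single W (-2) := by
        rw [divf_xi h h1, hj, Dinf_eq h hg hW, ← Finsupp.single_add, Finsupp.single_neg,
          sub_eq_add_neg]
        rfl
      have hk : kap h (xi x P) = 1 := by
        apply kap_eq h hg (xi_ne h P)
        rw [hd, px_add h, px_single, px_single, xi_inf (not_le.mpr hW), one_zpow, map_one, one_mul,
          mul_one, xi_aff h1, map_sub, h.iota_x, AlgEquiv.commutes, zpow_two]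
      have h3 := ml (ν := ν) h hg hL hQ.1 hQ.2 (xi_ne h P)
      unfold MLs at h3
      rw [hk, hd, prod_mu0_add h hQ.1 hQ.2, Finsupp.prod_single_index (zpow_zero _),
        Finsupp.prod_single_index (zpow_zero _), mu0_inf (not_le.mpr hW), one_zpow, map_one,
        one_mul, mul_one, xi_aff h1, ← el_x x w (ev P x),
        lv_el (h.at_ev hQ.1) _ (by simpa using h0), zpow_two, ← sq] at h3
      simp only [eval_sub, eval_X, eval_C, eval_zero, zero_mul, add_zero] at h3
      exact ((pow_left_inj₀ zero_le zero_le two_ne_zero).mp h3).symm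
    · rw [mu1_pos' ⟨h1, h2⟩ hQ, om_neg fun h3 => h2 h3.2, map_one, mul_one]
  · rw [mu0_inf h1, mu1_neg fun h3 => h1 h3.1.1, om_neg fun h3 => h1 h3.1, map_one, mul_one]

open Classical in
/-- the normalised value of `f` at `Q` -/
noncomputable def zq (h : Hyp F x w) (f : L) (Q : Pl Om L) : Om :=
  if Gd x w Q then lv Q (x - algebraMap Om L (ev Q x)) f ^ 2 /
    (kap h f * (divf (k := Om) f).prod fun P n => om x w P Q ^ n) else 1

theorem prod_om_ne (h : Hyp F x w) (D : Pl Om L →₀ ℤ) {Q : Pl Om L} (hQ : Gd x w Q) :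
    (D.prod fun P n => om x w P Q ^ n) ≠ 0 :=
  Finset.prod_ne_zero_iff.mpr fun P _ => zpow_ne_zero _ (om_ne h P hQ)

theorem zq_ne (h : Hyp F x w) (hg : F.natDegree = 2 * g + 1) {f : L} (hf : f ≠ 0) (Q : Pl Om L) :
    zq h f Q ≠ 0 := by
  unfold zq
  split_ifs with hQ
  · exact div_ne_zero (pow_ne_zero _ (lv_ne (h.x_sub_ne _) (h.ord_x (h.at_ev hQ.1) hQ.2) hf))
      (mul_ne_zero (kap_ne h hg hf) (prod_om_ne h _ hQ))
  · exact one_ne_zero

theorem v_zq (h : Hyp F x w) (hg : F.natDegree = 2 * g + 1) (hL : LocB ν F) {f : L} (hf : f ≠ 0)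
    (Q : Pl Om L) : ν (zq h f Q) = (divf (k := Om) f).prod fun P n => mu1 ν g x w P Q ^ n := by
  unfold zq
  split_ifs with hQ
  · have h1 := ml (ν := ν) h hg hL hQ.1 hQ.2 hf
    unfold MLs at h1
    rw [map_div₀, map_pow, h1, div_eq_iff ((ν.ne_zero_iff).mpr
      (mul_ne_zero (kap_ne h hg hf) (prod_om_ne h _ hQ))), map_mul, mul_left_comm]
    congr 1
    rw [Finsupp.prod, Finsupp.prod, Finsupp.prod, map_prod, ← Finset.prod_mul_distrib]
    exact Finset.prod_congr rfl fun P _ => by rw [map_zpow₀, ← mul_zpow, mu0_eq h hg hL P hQ]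
  · rw [map_one]
    symm
    refine Finset.prod_eq_one fun P _ => ?_
    show mu1 ν g x w P Q ^ _ = 1
    rw [mu1_neg fun h1 => hQ h1.2, one_zpow]

theorem zq_smul (h : Hyp F x w) (hg : F.natDegree = 2 * g + 1) {f : L} (hf : f ≠ 0) {c : Om}
    (hc : c ≠ 0) (Q : Pl Om L) : zq h (f * algebraMap Om L c) Q = zq h f Q := by
  have hc' : algebraMap Om L c ≠ 0 := by simpa using hc
  unfold zq
  split_ifs with hQ
  · rw [lv_mul (h.x_sub_ne _) (h.ord_x (h.at_ev hQ.1) hQ.2) hf hc', lv_const _ _ hc,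
      kap_mul h hg hf hc', kap_const h hg hc, divf_mul hf hc', divf_const hc, add_zero]
    have h1 := kap_ne h hg hf
    have h2 := prod_om_ne h (divf (k := Om) f) hQ
    field_simp
  · rfl

theorem e_zq {e : SI Om L Om L} (hx : e.f x = x) (hw : e.f w = w) (h : Hyp F x w)
    (hg : F.natDegree = 2 * g + 1) {f : L} (hf : f ≠ 0) (Q : Pl Om L) :
    zq h (e.f f) (e.pl Q) = e.s (zq h f Q) := by
  unfold zq
  rw [e_Gd hx hw]
  split_ifs with hQ
  · have h1 := lv_SI e (h.x_sub_ne (ev Q x)) (h.ord_x (h.at_ev hQ.1) hQ.2) hf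
    rw [map_sub, hx, e.comm, ← e_ev hx] at h1
    rw [h1, e_kap hx hw h hg hf, e.divf_f hf,
      prod_SI e e.s (φ := fun P => om x w P Q) (ψ := fun P => om x w P (e.pl Q)), map_div₀,
      map_pow, map_mul]
    intro P
    by_cases h2 : P.v x ≤ 1 ∧ ev P w = 0
    · rw [om_pos h2.1 h2.2, om_pos (by rw [e_v_x hx]; exact h2.1)
        (by rw [e_ev hw, h2.2, map_zero]), e_ev hx, e_ev hx, map_sub]
    · rw [om_neg h2, om_neg, map_one]
      rw [e_v_x hx, e_ev hw]
      simpa using h2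
  · rw [map_one]

theorem e_zq_prod {e : SI Om L Om L} (hx : e.f x = x) (hw : e.f w = w) (h : Hyp F x w)
    (hg : F.natDegree = 2 * g + 1) {f : L} (hf : f ≠ 0)
    (hD : e.D (divf (k := Om) f) = divf (k := Om) f) {E : Pl Om L →₀ ℤ} (hE : e.D E = E) :
    e.s (E.prod fun Q n => zq h f Q ^ n) = E.prod fun Q n => zq h f Q ^ n := by
  have hf' : e.f f ≠ 0 := by simpa using hf
  obtain ⟨c, hc, he⟩ := const_of_aff h hg (div_ne_zero hf' hf) (fun P _ => by
    rw [divf_div hf' hf, e.divf_f hf, hD, sub_self]; rfl)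
  rw [div_eq_iff hf, mul_comm] at he
  rw [← prod_SI e e.s (ψ := zq h f), hE]
  intro P
  rw [← e_zq hx hw h hg hf, he, zq_smul h hg hf hc]

end Crest.Agent.T15.Fa
end

-- ▼ part T15/FaF_51
section

/-!
# Row 15 (helper51): the height pairing on a constant hyperelliptic curve, part F

Integrality and positivity of the local terms.
-/

set_option autoImplicit false
set_option linter.all false

namespace Crest.Agent.T15.Fa

open Polynomial WithZero Module
open scoped NNReal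
open Crest.Agent.R013.RR7_948 Crest.Agent.R013.RR8_948 Crest.Agent.R013.RR9_948
open Crest.Agent.R013.RR11_948 Crest.Agent.R013.RR12_948 Crest.Agent.R013.PicD_398
open Crest.Agent.R013.GR2_921 Crest.Agent.R013.Frob1_914 Crest.Agent.T15.Disc
open Crest.Agent.T15.Hy

/-! ### bilinear forms given by a kernel -/

section bil

variable {α : Type*}

/-- the bilinear form of a kernel -/
noncomputable def bil (K : α → α → ℝ) (D E : α →₀ ℤ) : ℝ :=
  D.sum fun P n => E.sum fun Q m => (n : ℝ) * m * K P Q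

theorem bil_add_left (K : α → α → ℝ) (D D' E : α →₀ ℤ) :
    bil K (D + D') E = bil K D E + bil K D' E := by
  unfold bil
  apply Finsupp.sum_add_index'
  · intro P; simp
  · intro P n n'
    rw [← Finsupp.sum_add]
    exact Finsupp.sum_congr fun Q _ => by push_cast; ring

theorem bil_swap (K : α → α → ℝ) (D E : α →₀ ℤ) :
    bil K D E = E.sum fun Q m => (m : ℝ) * D.sum fun P n => (n : ℝ) * K P Q := by
  unfold bil
  rw [Finsupp.sum_comm]
  refine Finsupp.sum_congr fun Q _ => ?_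
  rw [Finsupp.mul_sum]
  exact Finsupp.sum_congr fun P _ => by ring

theorem bil_symm {K : α → α → ℝ} (hK : ∀ P Q, K P Q = K Q P) (D E : α →₀ ℤ) :
    bil K D E = bil K E D := by
  unfold bil
  rw [Finsupp.sum_comm]
  exact Finsupp.sum_congr fun Q _ => Finsupp.sum_congr fun P _ => by rw [hK]; ring

theorem bil_single {K : α → α → ℝ} {W : α} (hW : ∀ Q, K W Q = 0) (n : ℤ) (E : α →₀ ℤ) :
    bil K (Finsupp.single W n) E = 0 := by
  unfold bil
  rw [Finsupp.sum_single_index (by simp)]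
  simp [hW]

theorem hasSum_bil {T : Type*} {K : T → α → α → ℝ} {M : α → α → ℝ}
    (h : ∀ P Q, HasSum (fun t => K t P Q) (M P Q)) (D E : α →₀ ℤ) :
    HasSum (fun t => bil (K t) D E) (bil M D E) :=
  hasSum_sum fun P _ => hasSum_sum fun Q _ => (h P Q).mul_left _

theorem log_prod (μ : α → ℝ≥0) (D : α →₀ ℤ) (h : ∀ P ∈ D.support, μ P ≠ 0) :
    Real.log ((D.prod fun P n => μ P ^ n : ℝ≥0) : ℝ) = D.sum fun P n => (n : ℝ) * Real.log (μ P) := by
  rw [Finsupp.prod, NNReal.coe_prod, Real.log_prod, Finsupp.sum]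
  · exact Finset.sum_congr rfl fun P _ => by rw [NNReal.coe_zpow, Real.log_zpow]
  · intro P hP
    rw [NNReal.coe_zpow]
    exact zpow_ne_zero _ (by simpa using h P hP)

theorem log_v_prod {Om : Type*} [Field Om] (ν : Valuation Om ℝ≥0) (ζ : α → Om) (D : α →₀ ℤ)
    (h : ∀ P ∈ D.support, ζ P ≠ 0) :
    Real.log (ν (D.prod fun P n => ζ P ^ n)) = D.sum fun P n => (n : ℝ) * Real.log (ν (ζ P)) := by
  rw [← log_prod (fun P => ν (ζ P)) D fun P hP => (ν.ne_zero_iff).mpr (h P hP)]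
  congr 2
  rw [Finsupp.prod, Finsupp.prod, map_prod]
  exact Finset.prod_congr rfl fun P _ => map_zpow₀ _ _ _

theorem pos_alg [DecidableEq α] (S : Finset α) (n : α → ℤ) (hn : ∀ P, 0 ≤ n P) (K : α → α → ℝ)
    (hh e b : α → ℝ) (r g : ℕ) (hr : ∑ P ∈ S, n P = r) (hrg : r ≤ g) (h0 : ∀ P, 0 ≤ hh P)
    (he : ∀ P, e P ≤ 0) (hb : ∀ P, e P ≤ b P - (2 * g + 2) * hh P)
    (hK : ∀ P ∈ S, ∀ Q ∈ S, K P Q ≤ hh P + hh Q + if P = Q then e P else 0) :
    ∑ P ∈ S, ∑ Q ∈ S, (n P : ℝ) * n Q * K P Q ≤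
      ∑ P ∈ S, (n P : ℝ) * b P - 2 * ∑ P ∈ S, (n P : ℝ) * hh P := by
  have hn' : ∀ P, (0 : ℝ) ≤ n P := fun P => by exact_mod_cast hn P
  have hr' : ∑ P ∈ S, (n P : ℝ) = r := by exact_mod_cast hr
  have hs : 0 ≤ ∑ P ∈ S, (n P : ℝ) * hh P := Finset.sum_nonneg fun P _ => mul_nonneg (hn' P) (h0 P)
  have hrg' : (r : ℝ) ≤ g := by exact_mod_cast hrg
  have h1 : ∑ P ∈ S, ∑ Q ∈ S, (n P : ℝ) * n Q * K P Q ≤
      ∑ P ∈ S, ((n P : ℝ) * hh P * r + n P * (∑ Q ∈ S, (n Q : ℝ) * hh Q) +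
        n P * (b P - (2 * g + 2) * hh P)) := by
    refine Finset.sum_le_sum fun P hP => ?_
    have h2 : ∑ Q ∈ S, (n P : ℝ) * n Q * K P Q ≤ ∑ Q ∈ S, ((n P : ℝ) * hh P * n Q +
        n P * (n Q * hh Q) + if P = Q then (n P : ℝ) * n P * e P else 0) := by
      refine Finset.sum_le_sum fun Q hQ => ?_
      refine (mul_le_mul_of_nonneg_left (hK P hP Q hQ) (mul_nonneg (hn' P) (hn' Q))).trans
        (le_of_eq ?_)
      split_ifs with h3
      · subst h3; ring
      · ring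
    rw [Finset.sum_add_distrib, Finset.sum_add_distrib, ← Finset.mul_sum, ← Finset.mul_sum, hr',
      Finset.sum_ite_eq, if_pos hP] at h2
    refine h2.trans ?_
    have h3 : (n P : ℝ) ≤ n P * n P := by
      have : n P ≤ n P * n P := by have := hn P; nlinarith [Int.le_self_sq (n P)]
      exact_mod_cast this
    have h4 := mul_le_mul_of_nonpos_right h3 (he P)
    have h5 := mul_le_mul_of_nonneg_left (hb P) (hn' P)
    linarith
  refine h1.trans ?_
  rw [Finset.sum_add_distrib, Finset.sum_add_distrib, ← Finset.sum_mul, ← Finset.sum_mul, hr']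
  have h6 : ∑ P ∈ S, (n P : ℝ) * (b P - (2 * g + 2) * hh P) =
      ∑ P ∈ S, (n P : ℝ) * b P - (2 * g + 2) * ∑ P ∈ S, (n P : ℝ) * hh P := by
    rw [Finset.mul_sum, ← Finset.sum_sub_distrib]
    exact Finset.sum_congr rfl fun P _ => by ring
  rw [h6]
  nlinarith [mul_le_mul_of_nonneg_right hrg' hs]

end bil

variable {Om L : Type*} [Field Om] [Field L] [Algebra Om L]
variable [Algebra (RatFunc Om) L] [IsScalarTower Om (RatFunc Om) L]
  [FiniteDimensional (RatFunc Om) L] [Algebra.IsSeparable (RatFunc Om) L] [IsAlgClosed Om]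
variable {ν : Valuation Om ℝ≥0} {F : Om[X]} {x w : L} {g : ℕ}

/-- the additive kernel -/
noncomputable def lg (ν : Valuation Om ℝ≥0) (g : ℕ) (x w : L) (P Q : Pl Om L) : ℝ :=
  Real.log (mu1 ν g x w P Q)

theorem lg_symm (P Q : Pl Om L) : lg ν g x w P Q = lg ν g x w Q P := by
  unfold lg; rw [mu1_symm]

theorem lg_neg {P Q : Pl Om L} (h : ¬ (Gd x w P ∧ Gd x w Q)) : lg ν g x w P Q = 0 := by
  unfold lg; rw [mu1_neg h]; simp

theorem bil_divf (h : Hyp F x w) (hg : F.natDegree = 2 * g + 1) (hL : LocB ν F) {f : L}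
    (hf : f ≠ 0) (E : Pl Om L →₀ ℤ) : bil (lg ν g x w) (divf (k := Om) f) E =
      Real.log (ν (E.prod fun Q n => zq h f Q ^ n)) := by
  rw [bil_swap, log_v_prod ν _ _ fun Q _ => zq_ne h hg hf Q]
  refine Finsupp.sum_congr fun Q _ => ?_
  rw [v_zq h hg hL hf, log_prod _ _ fun P _ => (mu1_pos h P Q).ne']
  rfl

open Classical in
/-- local height of a place -/
noncomputable def hh (ν : Valuation Om ℝ≥0) (x w : L) (P : Pl Om L) : ℝ :=
  if Gd x w P then Real.log (Hh ν (ev P x)) else 0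

open Classical in
/-- the square of `w(P)` -/
noncomputable def bb (x w : L) (P : Pl Om L) : Om := if Gd x w P then ev P w ^ 2 else 1

theorem hh_nonneg (P : Pl Om L) : 0 ≤ hh ν x w P := by
  unfold hh
  split_ifs
  · exact Real.log_nonneg (by exact_mod_cast one_le_Hh _)
  · exact le_rfl

theorem bb_ne (P : Pl Om L) : bb x w P ≠ 0 := by
  unfold bb
  split_ifs with h
  · exact pow_ne_zero _ h.2
  · exact one_ne_zero

theorem e_bb {e : SI Om L Om L} (hx : e.f x = x) (hw : e.f w = w) (P : Pl Om L) :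
    bb x w (e.pl P) = e.s (bb x w P) := by
  unfold bb
  rw [e_Gd hx hw]
  split_ifs
  · rw [e_ev hw, map_pow]
  · rw [map_one]

/-- the local inequality -/
theorem bil_le (h : Hyp F x w) (hg : F.natDegree = 2 * g + 1) (hL : LocB ν F) {E : Pl Om L →₀ ℤ}
    {r : ℕ} (hr : r ≤ g) (h0 : 0 ≤ E) (hdeg : degD E = r) (hd : Rd h E) :
    bil (lg ν g x w) (h.siota.D E) E ≤ Real.log (ν (E.prod fun P n => bb x w P ^ n)) -
      2 * E.sum fun P n => (n : ℝ) * hh ν x w P := by
  classical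
  rw [log_v_prod ν _ _ fun P _ => bb_ne P]
  have h1 : bil (lg ν g x w) (h.siota.D E) E =
      ∑ P ∈ E.support, ∑ Q ∈ E.support, (E P : ℝ) * E Q * lg ν g x w (h.siota.pl P) Q := by
    have : h.siota.D E = Finsupp.equivMapDomain h.siota.plEquiv E := rfl
    rw [bil, this, Finsupp.sum_equivMapDomain]
    rfl
  have hb : ∀ P : Pl Om L, P.v x ≤ 1 → ν (ev P w) ≤ Hh ν (ev P x) ^ (g + 1) := fun P hP =>
    b_le_Hh hL.aff.int hg.le ((h.at_ev hP).sq h.sq)
  have hlog : ∀ {d : ℝ≥0}, d ≤ 1 → Real.log d ≤ 0 := fun hd =>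
    Real.log_nonpos (NNReal.coe_nonneg _) (by exact_mod_cast hd)
  rw [h1]
  refine pos_alg E.support E h0 (fun P Q => lg ν g x w (h.siota.pl P) Q) (hh ν x w)
    (fun P => if Gd x w P then 2 * Real.log (dd ν g (ev P x) (-ev P w) (ev P x) (ev P w)) else 0)
    (fun P => Real.log (ν (bb x w P))) r g (by rw [← hdeg, degD_eq_sum]; rfl) hr hh_nonneg
    (fun P => ?_) (fun P => ?_) (fun P hP Q hQ => ?_)
  · split_ifs with hP
    · have := hlog (dd_le_one (g := g) (a := ev P x) (b := -ev P w)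
        (by rw [ν.map_neg]; exact hb P hP.1) (hb P hP.1))
      linarith
    · exact le_rfl
  · unfold hh bb
    split_ifs with hP
    · have h2 := dd_neg_le hL.aff.two g (ev P x) (-ev P w)
      rw [neg_neg, ν.map_neg] at h2
      have h3 : 0 < dd ν g (ev P x) (-ev P w) (ev P x) (ev P w) :=
        dd_pos (Or.inr (ne_neg_of h.two hP.2).symm)
      have h4 := Real.log_le_log (by exact_mod_cast h3) (NNReal.coe_le_coe.mpr h2)
      have h5 : ((ν (ev P w) : ℝ≥0) : ℝ) ≠ 0 := by simpa using hP.2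
      have h6 : ((Hh ν (ev P x) : ℝ≥0) : ℝ) ≠ 0 := by exact_mod_cast (Hh_pos _).ne'
      rw [NNReal.coe_div, NNReal.coe_pow, Real.log_div h5 (pow_ne_zero _ h6), Real.log_pow] at h4
      rw [map_pow, NNReal.coe_pow, Real.log_pow]
      push_cast at h4 ⊢
      linarith
    · simp
  · by_cases h2 : Gd x w P ∧ Gd x w Q
    · have hne : h.siota.pl P ≠ Q := by
        intro e
        rcases hd P h2.1 with h3 | h3
        · exact Finsupp.mem_support_iff.mp hP h3
        · exact Finsupp.mem_support_iff.mp hQ (e ▸ h3)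
      have hj := h2.1.j h
      have h3 := dd_pos' (ν := ν) (g := g) h hj.1 h2.2.1 hne
      have h4 := hlog (dd_le_one (g := g) (hb _ hj.1) (hb Q h2.2.1))
      unfold lg hh
      rw [mu1_pos' hj h2.2, mu0_ne hj.1 hne, if_pos h2.1, if_pos h2.2, if_pos h2.1]
      have h6 : ∀ a, ((Hh ν a : ℝ≥0) : ℝ) ≠ 0 := fun a => by exact_mod_cast (Hh_pos _).ne'
      rw [NNReal.coe_mul, NNReal.coe_mul, NNReal.coe_pow, Real.log_mul
        (pow_ne_zero _ (by exact_mod_cast h3.ne')) (mul_ne_zero (h6 _) (h6 _)),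
        Real.log_mul (h6 _) (h6 _), Real.log_pow]
      rw [ev_j_x h h2.1.1, ev_j_w h h2.1.1] at h4 ⊢
      split_ifs with h5
      · subst h5; push_cast; linarith
      · push_cast; linarith
    · have h3 : ¬ (Gd x w (h.siota.pl P) ∧ Gd x w Q) := fun h3 =>
        h2 ⟨by have := h3.1.j h; rwa [j_j] at this, h3.2⟩
      rw [lg_neg h3]
      have h4 := hh_nonneg (ν := ν) (x := x) (w := w) P
      have h5 := hh_nonneg (ν := ν) (x := x) (w := w) Q
      split_ifs with h6 h7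
      · exact absurd ⟨h7, h6 ▸ h7⟩ h2
      · linarith
      · linarith

/-! ### integrality -/

section rep

variable {k : Type*} [Field k] [Algebra k Om]

theorem exists_lam [Infinite k] (hν : ∀ c : k, c ≠ 0 → ν (algebraMap k Om c) = 1) {ι : Type*}
    (X : Finset ι) (u u' : ι → Om) :
    ∃ c : k, ∀ i ∈ X, ν (u i + algebraMap k Om c * u' i) = max (ν (u i)) (ν (u' i)) := by
  have hle : ∀ c : k, ν (algebraMap k Om c) ≤ 1 := fun c => by
    by_cases h : c = 0
    · simp [h]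
    · exact (hν c h).le
  have h1 : ∀ i, {c : k | ν (u i + algebraMap k Om c * u' i) ≠ max (ν (u i)) (ν (u' i))}.Finite := by
    intro i
    apply Set.Subsingleton.finite
    have key : ∀ c : k, ν (u i + algebraMap k Om c * u' i) ≠ max (ν (u i)) (ν (u' i)) →
        ν (u i + algebraMap k Om c * u' i) < max (ν (u i)) (ν (u' i)) := fun c hc =>
      lt_of_le_of_ne ((ν.map_add _ _).trans (max_le_max le_rfl (by
        rw [map_mul]; exact mul_le_of_le_one_left' (hle c)))) hc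
    intro c hc d hd
    by_contra hne
    have h2 := key c hc
    have h3 := key d hd
    have h4 : ν (u' i) < max (ν (u i)) (ν (u' i)) := by
      have := lt_of_le_of_lt (ν.map_sub _ _) (max_lt h2 h3)
      rwa [show u i + algebraMap k Om c * u' i - (u i + algebraMap k Om d * u' i) =
        algebraMap k Om (c - d) * u' i by rw [map_sub]; ring, map_mul,
        hν _ (sub_ne_zero.mpr hne), one_mul] at this
    have h5 : ν (u i) < max (ν (u i)) (ν (u' i)) := by
      have h6 : ν (algebraMap k Om c * u' i) < max (ν (u i)) (ν (u' i)) := by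
        rw [map_mul]; exact lt_of_le_of_lt (mul_le_of_le_one_left' (hle c)) h4
      have := lt_of_le_of_lt (ν.map_sub _ _) (max_lt h2 h6)
      rwa [add_sub_cancel_right] at this
    exact lt_irrefl _ (max_lt h5 h4)
  obtain ⟨c, hc⟩ := (Set.Finite.biUnion X.finite_toSet fun i _ => h1 i).infinite_compl.nonempty
  refine ⟨c, fun i hi => ?_⟩
  by_contra h2
  exact hc (Set.mem_biUnion hi h2)

variable (k) (S : Finset Om) (x w)

/-- equivariant functions of two places -/
def Eqv (ζ : Pl Om L → Pl Om L → Om) : Prop :=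
  ∀ e, Fx k S x w e → ∀ P Q, ζ (e.pl P) (e.pl Q) = e.s (ζ P Q)

/-- absolute values of equivariant functions, on a finite set of pairs -/
def Rep (ν : Valuation Om ℝ≥0) (X : Finset (Pl Om L × Pl Om L)) (μ : Pl Om L → Pl Om L → ℝ≥0) :
    Prop := ∃ ζ, Eqv x w k S ζ ∧ ∀ p ∈ X, ν (ζ p.1 p.2) = μ p.1 p.2

variable {k S x w} {X : Finset (Pl Om L × Pl Om L)}

theorem Eqv.sub {ζ ζ' : Pl Om L → Pl Om L → Om} (h : Eqv x w k S ζ) (h' : Eqv x w k S ζ') :
    Eqv x w k S fun P Q => ζ P Q - ζ' P Q := fun e he P Q => by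
  simp only [h e he, h' e he, map_sub]

theorem Eqv.mul {ζ ζ' : Pl Om L → Pl Om L → Om} (h : Eqv x w k S ζ) (h' : Eqv x w k S ζ') :
    Eqv x w k S fun P Q => ζ P Q * ζ' P Q := fun e he P Q => by
  simp only [h e he, h' e he, map_mul]

theorem Eqv.pow {ζ : Pl Om L → Pl Om L → Om} (h : Eqv x w k S ζ) (n : ℕ) :
    Eqv x w k S fun P Q => ζ P Q ^ n := fun e he P Q => by
  simp only [h e he, map_pow]

theorem Eqv.neg {ζ : Pl Om L → Pl Om L → Om} (h : Eqv x w k S ζ) :
    Eqv x w k S fun P Q => -ζ P Q := fun e he P Q => by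
  simp only [h e he, map_neg]

theorem Rep.of {ζ : Pl Om L → Pl Om L → Om} (h : Eqv x w k S ζ) :
    Rep x w k S ν X fun P Q => ν (ζ P Q) := ⟨ζ, h, fun _ _ => rfl⟩

theorem Rep.one : Rep x w k S ν X fun _ _ => 1 :=
  ⟨fun _ _ => 1, fun e _ _ _ => (map_one _).symm, fun _ _ => map_one _⟩

theorem Rep.mul {μ μ' : Pl Om L → Pl Om L → ℝ≥0} (h : Rep x w k S ν X μ) (h' : Rep x w k S ν X μ') :
    Rep x w k S ν X fun P Q => μ P Q * μ' P Q := by
  obtain ⟨ζ, h1, h2⟩ := h
  obtain ⟨ζ', h1', h2'⟩ := h'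
  exact ⟨_, h1.mul h1', fun p hp => by simp only [map_mul, h2 p hp, h2' p hp]⟩

theorem Rep.pow {μ : Pl Om L → Pl Om L → ℝ≥0} (h : Rep x w k S ν X μ) (n : ℕ) :
    Rep x w k S ν X fun P Q => μ P Q ^ n := by
  obtain ⟨ζ, h1, h2⟩ := h
  exact ⟨_, h1.pow n, fun p hp => by simp only [map_pow, h2 p hp]⟩

theorem Rep.inv {μ : Pl Om L → Pl Om L → ℝ≥0} (h : Rep x w k S ν X μ) :
    Rep x w k S ν X fun P Q => (μ P Q)⁻¹ := by
  obtain ⟨ζ, h1, h2⟩ := h
  exact ⟨fun P Q => (ζ P Q)⁻¹, fun e he P Q => by simp only [h1 e he, map_inv₀],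
    fun p hp => by simp only [map_inv₀, h2 p hp]⟩

theorem Rep.div {μ μ' : Pl Om L → Pl Om L → ℝ≥0} (h : Rep x w k S ν X μ) (h' : Rep x w k S ν X μ') :
    Rep x w k S ν X fun P Q => μ P Q / μ' P Q := by
  simpa only [div_eq_mul_inv] using h.mul h'.inv

theorem Rep.ite {μ μ' : Pl Om L → Pl Om L → ℝ≥0} (h : Rep x w k S ν X μ) (h' : Rep x w k S ν X μ')
    (c : Pl Om L → Pl Om L → Prop) [∀ P Q, Decidable (c P Q)]
    (hc : ∀ e, Fx k S x w e → ∀ P Q, c (e.pl P) (e.pl Q) ↔ c P Q) :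
    Rep x w k S ν X fun P Q => if c P Q then μ P Q else μ' P Q := by
  obtain ⟨ζ, h1, h2⟩ := h
  obtain ⟨ζ', h1', h2'⟩ := h'
  refine ⟨fun P Q => if c P Q then ζ P Q else ζ' P Q, fun e he P Q => ?_, fun p hp => ?_⟩
  · simp only [hc e he, h1 e he, h1' e he]
    split_ifs <;> rfl
  · simp only
    split_ifs
    · exact h2 p hp
    · exact h2' p hp

variable [Infinite k] (hν : ∀ c : k, c ≠ 0 → ν (algebraMap k Om c) = 1)
include hν

theorem Rep.max {μ μ' : Pl Om L → Pl Om L → ℝ≥0} (h : Rep x w k S ν X μ) (h' : Rep x w k S ν X μ') :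
    Rep x w k S ν X fun P Q => max (μ P Q) (μ' P Q) := by
  obtain ⟨ζ, h1, h2⟩ := h
  obtain ⟨ζ', h1', h2'⟩ := h'
  obtain ⟨c, hc⟩ := exists_lam hν X (fun p => ζ p.1 p.2) fun p => ζ' p.1 p.2
  refine ⟨fun P Q => ζ P Q + algebraMap k Om c * ζ' P Q, fun e he P Q => ?_, fun p hp => ?_⟩
  · simp only [h1 e he, h1' e he, map_add, map_mul, he.2.2.1 c]
  · simp only [hc p hp, h2 p hp, h2' p hp]

theorem rep_Hh {a : Pl Om L → Pl Om L → Om} (ha : Eqv x w k S a) :
    Rep x w k S ν X fun P Q => Hh ν (a P Q) := Rep.max hν Rep.one (Rep.of ha)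

theorem rep_dd {a b a' b' : Pl Om L → Pl Om L → Om} (ha : Eqv x w k S a) (hb : Eqv x w k S b)
    (ha' : Eqv x w k S a') (hb' : Eqv x w k S b') :
    Rep x w k S ν X fun P Q => dd ν g (a P Q) (b P Q) (a' P Q) (b' P Q) :=
  Rep.max hν ((Rep.of (ha.sub ha')).div ((rep_Hh hν ha).mul (rep_Hh hν ha')))
    ((Rep.max hν (Rep.of (hb.sub hb'))
      (Rep.of ((hb.mul (ha'.pow _)).sub (hb'.mul (ha.pow _))))).div
        (((rep_Hh hν ha).mul (rep_Hh hν ha')).pow _))

theorem rep_mu1 : Rep x w k S ν X (mu1 ν g x w) := by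
  classical
  have a1 : Eqv x w k S fun P _ => ev P x := fun e he P _ => e_ev he.1 P
  have b1 : Eqv x w k S fun P _ => ev P w := fun e he P _ => e_ev he.2.1 P
  have a2 : Eqv x w k S fun _ Q => ev Q x := fun e he _ Q => e_ev he.1 Q
  have b2 : Eqv x w k S fun _ Q => ev Q w := fun e he _ Q => e_ev he.2.1 Q
  have h1 := (((rep_dd (g := g) (X := X) hν a2 b2 a2 b2.neg).pow 2).mul
    ((rep_Hh hν a2).mul (rep_Hh hν a2))).inv
  have h2 := ((rep_dd (g := g) (X := X) hν a1 b1 a2 b2).pow 2).mul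
    ((rep_Hh hν a1).mul (rep_Hh hν a2))
  have h3 := (h1.ite h2 (fun P Q => P = Q) fun e _ P Q => e.pl_injective.eq_iff).ite Rep.one
    (fun P _ => P.v x ≤ 1) fun e he P _ => by rw [e_v_x he.1]
  have h4 := h3.ite Rep.one (fun P Q => Gd x w P ∧ Gd x w Q) fun e he P Q => by
    rw [e_Gd he.1 he.2.1, e_Gd he.1 he.2.1]
  obtain ⟨ζ, h5, h6⟩ := h4
  refine ⟨ζ, h5, fun p hp => (h6 p hp).trans ?_⟩
  unfold mu1 mu0
  congr

theorem exists_inv (h : Hyp F x w) {D E : Pl Om L →₀ ℤ} (hD : ∀ e, Fx k S x w e → e.D D = D)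
    (hE : ∀ e, Fx k S x w e → e.D E = E) :
    ∃ z : Om, z ≠ 0 ∧ (∀ e, Fx k S x w e → e.s z = z) ∧
      bil (lg ν g x w) D E = Real.log (ν z) := by
  obtain ⟨ζ, h1, h2⟩ := rep_mu1 (S := S) (x := x) (w := w) (g := g)
    (X := D.support ×ˢ E.support) hν
  have h3 : ∀ P ∈ D.support, ∀ Q ∈ E.support, ν (ζ P Q) = mu1 ν g x w P Q := fun P hP Q hQ =>
    h2 (P, Q) (Finset.mem_product.mpr ⟨hP, hQ⟩)
  have h4 : ∀ P ∈ D.support, ∀ Q ∈ E.support, ζ P Q ≠ 0 := fun P hP Q hQ =>
    (ν.ne_zero_iff).mp (by rw [h3 P hP Q hQ]; exact (mu1_pos h P Q).ne')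
  have h5 : ∀ Q ∈ E.support, (D.prod fun P n => ζ P Q ^ n) ≠ 0 := fun Q hQ =>
    Finset.prod_ne_zero_iff.mpr fun P hP => zpow_ne_zero _ (h4 P hP Q hQ)
  refine ⟨E.prod fun Q m => (D.prod fun P n => ζ P Q ^ n) ^ m,
    Finset.prod_ne_zero_iff.mpr fun Q hQ => zpow_ne_zero _ (h5 Q hQ), fun e he => ?_, ?_⟩
  · rw [← prod_SI e e.s (ψ := fun Q => D.prod fun P n => ζ P Q ^ n), hE e he]
    intro Q
    rw [← prod_SI e e.s (ψ := fun P => ζ P (e.pl Q)) (fun P => h1 e he P Q), hD e he]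
  · rw [bil_swap, log_v_prod ν _ _ h5]
    refine Finsupp.sum_congr fun Q hQ => ?_
    rw [log_v_prod ν _ _ fun P hP => h4 P hP Q hQ]
    congr 1
    exact Finsupp.sum_congr fun P hP => by rw [h3 P hP Q hQ]; rfl

end rep

end Crest.Agent.T15.Fa
end

-- ▼ part T15/FaG_51
section

/-!
# Row 15 (helper51): the height pairing on a constant hyperelliptic curve, part G

The global pairing.
-/

set_option autoImplicit false
set_option linter.all false

namespace Crest.Agent.T15.Fa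

open Polynomial WithZero Module Filter
open scoped NNReal
open Crest.Agent.R013.RR7_948 Crest.Agent.R013.RR8_948 Crest.Agent.R013.RR9_948
open Crest.Agent.R013.RR11_948 Crest.Agent.R013.RR12_948 Crest.Agent.R013.PicD_398
open Crest.Agent.R013.GR2_921 Crest.Agent.R013.Frob1_914 Crest.Agent.T15.Disc
open Crest.Agent.T15.Hy

/-- `ℤ[1/q]` -/
def Zq (q : ℕ) : AddSubgroup ℝ where
  carrier := {r | ∃ (e : ℕ) (n : ℤ), (q : ℝ) ^ e * r = n}
  add_mem' := by
    rintro a b ⟨e, n, h⟩ ⟨e', n', h'⟩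
    refine ⟨e + e', q ^ e' * n + q ^ e * n', ?_⟩
    push_cast
    rw [← h, ← h']
    ring
  zero_mem' := ⟨0, 0, by simp⟩
  neg_mem' := by
    rintro a ⟨e, n, h⟩
    exact ⟨e, -n, by push_cast; rw [← h]; ring⟩

variable {k Om L : Type*} [Field k] [Field Om] [Field L] [Algebra k Om] [Algebra Om L]

theorem root_mem [IsAlgClosed k] {p : k[X]} (hp : p ≠ 0) {a : Om}
    (ha : (p.map (algebraMap k Om)).eval a = 0) : a ∈ Set.range (algebraMap k Om) := by
  have h1 : IsIntegral k a := (show IsAlgebraic k a from ⟨p, hp, by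
    rwa [eval_map_algebraMap] at ha⟩).isIntegral
  exact minpoly.mem_range_of_degree_eq_one k a
    (IsAlgClosed.degree_eq_one_of_irreducible k (minpoly.irreducible h1))

section ev

variable {T : Type*} {ν : T → Valuation Om ℝ≥0} {G : (Om ≃+* Om) → Prop} (hP : PF k ν G)
include hP

theorem PF.ev_eq {z : Om} (hz : z ≠ 0) : ∀ᶠ t in cofinite, ν t z = 1 := hP.fin z hz

theorem PF.ev_le (z : Om) : ∀ᶠ t in cofinite, ν t z ≤ 1 := by
  by_cases hz : z = 0
  · simp [hz]
  · filter_upwards [hP.ev_eq hz] with t ht using ht.le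

theorem PF.ev_Hh (z : Om) : ∀ᶠ t in cofinite, Hh (ν t) z = 1 := by
  filter_upwards [hP.ev_le z] with t ht using Hh_of_le ht

theorem PF.ev_dd (g : ℕ) {a b a' b' : Om} (h : a ≠ a' ∨ b ≠ b') :
    ∀ᶠ t in cofinite, dd (ν t) g a b a' b' = 1 := by
  have h1 : ∀ᶠ t in cofinite, 1 ≤ max (ν t (a - a')) (ν t (b - b')) := by
    rcases h with h | h
    · filter_upwards [hP.ev_eq (sub_ne_zero.mpr h)] with t ht using ht.ge.trans (le_max_left _ _)
    · filter_upwards [hP.ev_eq (sub_ne_zero.mpr h)] with t ht using ht.ge.trans (le_max_right _ _)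
  filter_upwards [h1, hP.ev_le a, hP.ev_le a', hP.ev_le b, hP.ev_le (a - a'), hP.ev_le (b - b')]
    with t h1 h2 h3 h4 h5 h6
  rw [dd_int h2 h3 h4]
  exact le_antisymm (max_le h5 h6) h1

end ev

variable [Algebra (RatFunc Om) L] [IsScalarTower Om (RatFunc Om) L]
  [FiniteDimensional (RatFunc Om) L] [Algebra.IsSeparable (RatFunc Om) L] [IsAlgClosed Om]
  [IsAlgClosed k]
variable {F : k[X]} {x w : L} {g : ℕ} {S : Finset Om}

variable (k) in
/-- invariant divisors -/
def InvD (S : Finset Om) (x w : L) (D : Pl Om L →₀ ℤ) : Prop := ∀ e, Fx k S x w e → e.D D = D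

section glob

variable {T : Type*} {ν : T → Valuation Om ℝ≥0} (hP : PF k ν (Gs k S))
  (h : Hyp (F.map (algebraMap k Om)) x w) (hg : (F.map (algebraMap k Om)).natDegree = 2 * g + 1)

/-- the global kernel -/
noncomputable def MM (ν : T → Valuation Om ℝ≥0) (g : ℕ) (x w : L) (P Q : Pl Om L) : ℝ :=
  ∑' t, lg (ν t) g x w P Q

theorem MM_symm (P Q : Pl Om L) : MM ν g x w P Q = MM ν g x w Q P := by
  unfold MM
  simp only [lg_symm P Q]

theorem MM_neg {P : Pl Om L} (hP : ¬ Gd x w P) (Q : Pl Om L) : MM ν g x w P Q = 0 := by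
  unfold MM
  simp only [lg_neg fun h : Gd x w P ∧ Gd x w Q => hP h.1, tsum_zero]

include h in
theorem root_fix {e : SI Om L Om L} (he : Fx k S x w e) (a : Om)
    (ha : (F.map (algebraMap k Om)).eval a = 0) : e.s a = a := by
  obtain ⟨c, rfl⟩ := root_mem (p := F) (fun h0 => h.F_ne (by rw [h0, Polynomial.map_zero])) ha
  exact he.2.2.1 c

include h in
theorem fix_of {z : Om} (hz : ∀ e, Fx k S x w e → e.s z = z) : ∀ s, Gs k S s → s z = z :=
  fun s hs => by
    obtain ⟨e, rfl, he⟩ := exists_Fx h hs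
    exact hz e he

include h hg in
theorem exists_invD {W : Pl Om L} (hW : 1 < W.v x) {c : Pic Om L} (hc : c ∈ Gam k S x w) :
    ∃ (E : Pl Om L →₀ ℤ) (r : ℕ) (n : ℤ), r ≤ g ∧ Rp x W c E r ∧ Rd h E ∧ InvD k S x w E ∧
      InvD k S x w (E + Finsupp.single W n) ∧ cls (E + Finsupp.single W n) = c := by
  obtain ⟨E, r, hr, hE, hd⟩ := exists_rd h hg hW c
  obtain ⟨n, hn⟩ := hE.eq
  have h1 : InvD k S x w E := fun e he =>
    e_red he.1 he.2.1 h hg (root_fix h he) hW (hc e he) hr hE hd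
  refine ⟨E, r, n, hr, hE, hd, h1, fun e he => ?_, hn⟩
  rw [map_add, h1 e he, e.D_single,
    e_fix he.1 he.2.1 h hg (root_fix h he) fun h2 => absurd h2.1 (not_le.mpr hW)]

include hP h

theorem locB (t : T) : LocB (ν t) (F.map (algebraMap k Om)) :=
  locB_of (hP.const t) h.two ((separable_map _).mp h.sep)

theorem ev_lg (P Q : Pl Om L) : ∀ᶠ t in cofinite, lg (ν t) g x w P Q = 0 := by
  by_cases h1 : Gd x w P ∧ Gd x w Q
  · unfold lg
    by_cases h2 : P = Q
    · filter_upwards [hP.ev_dd g (a := ev Q x) (a' := ev Q x) (Or.inr (ne_neg_of h.two h1.2.2)),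
        hP.ev_Hh (ev Q x)] with t h3 h4
      rw [mu1_pos' h1.1 h1.2, h2, mu0_self h1.2.1, h3, h4]
      simp
    · have h5 : ev P x ≠ ev Q x ∨ ev P w ≠ ev Q w := by
        by_contra hc
        push Not at hc
        have h6 := h.at_ev h1.1.1
        rw [hc.1, hc.2] at h6
        exact h2 (h.at_unique h6 (h.at_ev h1.2.1))
      filter_upwards [hP.ev_dd g h5, hP.ev_Hh (ev P x), hP.ev_Hh (ev Q x)] with t h3 h4 h6
      rw [mu1_pos' h1.1 h1.2, mu0_ne h1.1.1 h2, h3, h4, h6]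
      simp
  · simp only [lg_neg h1, eventually_true]

theorem hasSum_MM (D E : Pl Om L →₀ ℤ) :
    HasSum (fun t => bil (lg (ν t) g x w) D E) (bil (MM ν g x w) D E) :=
  hasSum_bil (fun P Q => (summable_of_hasFiniteSupport (ev_lg hP h P Q)).hasSum) D E

theorem bil_int {D E : Pl Om L →₀ ℤ} (hD : InvD k S x w D) (hE : InvD k S x w E) :
    bil (MM ν g x w) D E ∈ Zq (ringExpChar k) := by
  have h1 : ∀ᶠ t in cofinite, bil (lg (ν t) g x w) D E = 0 := by
    have : ∀ᶠ t in cofinite, ∀ P ∈ D.support, ∀ Q ∈ E.support, lg (ν t) g x w P Q = 0 := by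
      simp only [eventually_all_finset]
      exact fun P _ Q _ => ev_lg hP h P Q
    filter_upwards [this] with t ht
    exact Finset.sum_eq_zero fun P hP => Finset.sum_eq_zero fun Q hQ => by
      show _ * lg (ν t) g x w P Q = 0
      rw [ht P hP Q hQ, mul_zero]
  have h2 : {t | ¬ bil (lg (ν t) g x w) D E = 0}.Finite := h1
  have h3 : HasSum (fun t => bil (lg (ν t) g x w) D E)
      (∑ t ∈ h2.toFinset, bil (lg (ν t) g x w) D E) :=
    hasSum_sum_of_ne_finset_zero fun t ht => by simpa using ht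
  rw [(hasSum_MM hP h D E).unique h3]
  refine (Zq _).sum_mem fun t _ => ?_
  obtain ⟨z, hz, h4, h5⟩ := exists_inv (g := g) (hP.const t) h hD hE
  rw [h5]
  exact hP.int z hz (fix_of h h4) t

include hg

theorem bil_kill {f : L} (hf : f ≠ 0) (hD : InvD k S x w (divf (k := Om) f)) {E : Pl Om L →₀ ℤ}
    (hE : InvD k S x w E) : bil (MM ν g x w) (divf (k := Om) f) E = 0 := by
  have h1 := hP.prod (E.prod fun Q n => zq h f Q ^ n)
    (Finset.prod_ne_zero_iff.mpr fun Q _ => zpow_ne_zero _ (zq_ne h hg hf Q))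
    (fix_of h fun e he => e_zq_prod he.1 he.2.1 h hg hf (hD e he) (hE e he))
  have h2 := hasSum_MM (g := g) hP h (divf (k := Om) f) E
  simp only [fun t => bil_divf h hg (locB hP h t) hf E] at h2
  exact h2.unique h1

theorem bil_congr {D D' E : Pl Om L →₀ ℤ} (hD : InvD k S x w D) (hD' : InvD k S x w D')
    (hE : InvD k S x w E) (hc : cls D = cls D') :
    bil (MM ν g x w) D E = bil (MM ν g x w) D' E := by
  obtain ⟨f, hf, rfl⟩ := cls_eq_iff.mp hc
  rw [bil_add_left, bil_kill hP h hg hf _ hE, add_zero]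
  intro e he
  have := hD e he
  rw [map_add, hD' e he] at this
  exact add_left_cancel this

theorem hasSum_pos {W : Pl Om L} (hW : 1 < W.v x) {c : Pic Om L} {E : Pl Om L →₀ ℤ} {r : ℕ}
    (hr : r ≤ g) (hE : Rp x W c E r) (hd : Rd h E) (hI : InvD k S x w E) :
    ∃ u : T → ℝ, HasSum u (bil (MM ν g x w) E E) ∧
      ∀ t, 2 * (E.sum fun P n => (n : ℝ) * hh (ν t) x w P) ≤ u t := by
  have h2 : divf (k := Om) (px x E) =
      E + h.siota.D E + Finsupp.single W (divf (k := Om) (px x E) W) := by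
    have hW0 : ∀ Q : Pl Om L, 1 < Q.v x → E Q = 0 := fun Q hQ => by
      by_contra e; exact absurd (hE.aff Q e) (not_le.mpr hQ)
    ext Q
    rw [Finsupp.add_apply, Finsupp.add_apply, jD_apply]
    rcases le_or_gt (Q.v x) 1 with hQ | hQ
    · have e1 : Q ≠ W := fun e => absurd (e ▸ hQ) (not_le.mpr hW)
      rw [divf_px h _ hQ, Finsupp.single_eq_of_ne e1, add_zero]
    · rw [hW0 Q hQ, hW0 _ (by rwa [j_v_x]), h.inf_unique ⟨g, hg⟩ hQ hW,
        Finsupp.single_eq_same, add_zero, zero_add]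
  have h3 := bil_kill hP h hg (px_ne h E) (fun e he => by
    rw [← e.divf_f (px_ne h E), ← e_px he.1, hI e he]) hI
  rw [h2, bil_add_left, bil_add_left,
    bil_single (MM_neg fun h4 => absurd h4.1 (not_le.mpr hW)), add_zero] at h3
  have h4 := hP.prod (E.prod fun P n => bb x w P ^ n)
    (Finset.prod_ne_zero_iff.mpr fun P _ => zpow_ne_zero _ (bb_ne P))
    (fix_of h fun e he => by rw [← prod_SI e e.s (e_bb he.1 he.2.1), hI e he])
  have h5 := h4.sub (hasSum_MM (g := g) hP h (h.siota.D E) E)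
  rw [show 0 - bil (MM ν g x w) (h.siota.D E) E = bil (MM ν g x w) E E by linarith] at h5
  refine ⟨_, h5, fun t => ?_⟩
  have := bil_le h hg (locB hP h t) hr hE.nonneg hE.deg hd
  linarith

theorem con_of {W : Pl Om L} (hW : 1 < W.v x) {c : Pic Om L} {E : Pl Om L →₀ ℤ} {r : ℕ}
    (hr : r ≤ g) (hE : Rp x W c E r) (hd : Rd h E) (hI : InvD k S x w E) :
    0 ≤ bil (MM ν g x w) E E ∧ (bil (MM ν g x w) E E = 0 → ∀ P, E P ≠ 0 → Con k x w P) := by
  obtain ⟨u, hu, hle⟩ := hasSum_pos hP h hg hW hr hE hd hI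
  have hn : ∀ t P, 0 ≤ (E P : ℝ) * hh (ν t) x w P := fun t P =>
    mul_nonneg (by exact_mod_cast hE.nonneg P) (hh_nonneg P)
  have hs : ∀ t, 0 ≤ E.sum fun P n => (n : ℝ) * hh (ν t) x w P := fun t =>
    Finset.sum_nonneg fun P _ => hn t P
  have h0 : ∀ t, 0 ≤ u t := fun t => by linarith [hle t, hs t]
  refine ⟨hu.nonneg h0, fun hz => ?_⟩
  have h1 : ∀ P, E P ≠ 0 → Gd x w P → ∀ t, ν t (ev P x) ≤ 1 := fun P hP hG t => by
    have h2 : u t ≤ 0 := hz ▸ le_hasSum hu t fun t' _ => h0 t'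
    have h3 : (E.sum fun P n => (n : ℝ) * hh (ν t) x w P) = 0 := by linarith [hle t, hs t]
    have h4 := (Finset.sum_eq_zero_iff_of_nonneg fun P _ => hn t P).mp h3 P
      (Finsupp.mem_support_iff.mpr hP)
    have h5 : hh (ν t) x w P = 0 := (mul_eq_zero.mp h4).resolve_left (by exact_mod_cast hP)
    unfold hh at h5
    rw [if_pos hG] at h5
    have h6 := Real.eq_one_of_pos_of_log_eq_zero (by exact_mod_cast Hh_pos _) h5
    exact (le_Hh _).trans (le_of_eq (by exact_mod_cast h6))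
  intro P hP'
  have hA := h.at_ev (hE.aff P hP')
  have hsq := hA.sq h.sq
  obtain ⟨a, ha⟩ : ev P x ∈ Set.range (algebraMap k Om) := by
    by_cases hG : Gd x w P
    · refine hP.cst _ fun s hs t => ?_
      obtain ⟨e, rfl, he⟩ := exists_Fx h hs
      rw [← e_ev he.1]
      refine h1 _ ?_ ((e_Gd he.1 he.2.1 P).mpr hG) t
      rwa [← hI e he, e.D_pl]
    · have h2 : ev P w = 0 := by
        by_contra hc; exact hG ⟨hE.aff P hP', hc⟩
      rw [h2, zero_pow two_ne_zero] at hsq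
      exact root_mem (p := F) (fun h0 => h.F_ne (by rw [h0, Polynomial.map_zero])) hsq.symm
  obtain ⟨b, hb⟩ : ev P w ∈ Set.range (algebraMap k Om) := by
    apply root_mem (p := X ^ 2 - C (F.eval a)) (X_pow_sub_C_ne_zero two_pos _)
    rw [← ha, eval_map_algebraMap, aeval_algebraMap_apply, coe_aeval_eq_eval] at hsq
    simp [hsq]
  exact Or.inr ⟨a, b, by rw [ha, hb]; exact hA⟩

/-- the real valued pairing -/
theorem pairing_real : ∃ B : Gam k S x w →+ Gam k S x w →+ ℝ, (∀ c c', B c c' = B c' c) ∧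
    (∀ c c', B c c' ∈ Zq (ringExpChar k)) ∧ (∀ c, 0 ≤ B c c) ∧
    ∀ c, B c c = 0 → ConC k x w (c : Pic Om L) := by
  obtain ⟨W, hW⟩ := h.exists_inf
  choose E r n hr hE hd hI hI' hc using fun c : Gam k S x w => exists_invD h hg hW c.2
  have hsym := bil_symm (K := MM ν g x w) MM_symm
  have hadd : ∀ c c' c'' : Gam k S x w,
      bil (MM ν g x w) (E (c + c') + Finsupp.single W (n (c + c')))
        (E c'' + Finsupp.single W (n c'')) =
      bil (MM ν g x w) (E c + Finsupp.single W (n c)) (E c'' + Finsupp.single W (n c'')) +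
      bil (MM ν g x w) (E c' + Finsupp.single W (n c')) (E c'' + Finsupp.single W (n c'')) := by
    intro c c' c''
    rw [← bil_add_left]
    refine bil_congr hP h hg (hI' _) (fun e he => ?_) (hI' _) ?_
    · rw [map_add, hI' c e he, hI' c' e he]
    · rw [map_add cls (E c + _), hc, hc, hc]; rfl
  have hdiag : ∀ c : Gam k S x w,
      bil (MM ν g x w) (E c + Finsupp.single W (n c)) (E c + Finsupp.single W (n c)) =
      bil (MM ν g x w) (E c) (E c) := by
    intro c
    have h0 := fun (m : ℤ) (D : Pl Om L →₀ ℤ) => bil_single (K := MM ν g x w)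
      (MM_neg fun h4 => absurd h4.1 (not_le.mpr hW)) m D
    rw [bil_add_left, h0, add_zero, hsym, bil_add_left, h0, add_zero]
  refine ⟨AddMonoidHom.mk' (fun c => AddMonoidHom.mk' (fun c' =>
    bil (MM ν g x w) (E c + Finsupp.single W (n c)) (E c' + Finsupp.single W (n c')))
    fun c' c'' => ?_) fun c c' => ?_, fun c c' => hsym _ _, fun c c' => bil_int hP h (hI' c) (hI' c'),
    fun c => ?_, fun c hz => ?_⟩
  · rw [hsym, hadd, hsym, hsym (E c'' + _)]
  · ext c''
    exact hadd c c' c''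
  · show 0 ≤ bil _ _ _
    rw [hdiag]
    exact (con_of hP h hg hW (hr c) (hE c) (hd c) (hI c)).1
  · have hz' : bil (MM ν g x w) (E c) (E c) = 0 := by rw [← hdiag]; exact hz
    refine ⟨_, hc c, fun P hP' => ?_⟩
    rcases le_or_gt (P.v x) 1 with h1 | h1
    · have e1 : P ≠ W := fun e => absurd (e ▸ h1) (not_le.mpr hW)
      rw [Finsupp.add_apply, Finsupp.single_eq_of_ne e1, add_zero] at hP'
      exact (con_of hP h hg hW (hr c) (hE c) (hd c) (hI c)).2 hz' P hP'
    · exact Or.inl h1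

end glob

/-- **the pairing**, from a product formula -/
theorem pairing_of {T : Type*} {ν : T → Valuation Om ℝ≥0} (hP : PF k ν (Gs k S))
    (h : Hyp (F.map (algebraMap k Om)) x w) (hodd : Odd F.natDegree) :
    ∃ B : Gam k S x w →+ Gam k S x w →+ ℚ, (∀ c c', B c c' = B c' c) ∧
      (∀ c c', ∃ (e : ℕ) (n : ℤ), (ringExpChar k : ℚ) ^ e * B c c' = n) ∧ (∀ c, 0 ≤ B c c) ∧
      ∀ c, B c c = 0 → ConC k x w (c : Pic Om L) := by
  obtain ⟨g, hg⟩ := hodd
  obtain ⟨B, h1, h2, h3, h4⟩ := pairing_real hP h (g := g) (by rw [natDegree_map, hg])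
  have hq : (ringExpChar k : ℝ) ≠ 0 := by exact_mod_cast (expChar_pos k (ringExpChar k)).ne'
  have h5 : ∀ c c', ∃ r : ℚ, (r : ℝ) = B c c' := fun c c' => by
    obtain ⟨e, n, hn⟩ := h2 c c'
    refine ⟨n / (ringExpChar k : ℚ) ^ e, ?_⟩
    push_cast
    rw [← hn, mul_div_cancel_left₀ _ (pow_ne_zero _ hq)]
  choose r hr using h5
  have inj : ∀ {a b : ℚ}, (a : ℝ) = b → a = b := fun h => by exact_mod_cast h
  refine ⟨AddMonoidHom.mk' (fun c => AddMonoidHom.mk' (fun c' => r c c') fun c' c'' => ?_)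
    fun c c' => ?_, fun c c' => inj (by show (r c c' : ℝ) = r c' c; rw [hr, hr, h1]),
    fun c c' => ?_, fun c => ?_, fun c hz => h4 c ?_⟩
  · apply inj
    push_cast
    rw [hr, hr, hr, map_add]
  · ext c''
    apply inj
    show (r (c + c') c'' : ℝ) = ((r c c'' + r c' c'' : ℚ) : ℝ)
    push_cast
    rw [hr, hr, hr, map_add]
    rfl
  · obtain ⟨e, n, hn⟩ := h2 c c'
    refine ⟨e, n, inj ?_⟩
    show (((ringExpChar k : ℚ) ^ e * r c c' : ℚ) : ℝ) = _
    push_cast
    rw [hr, hn]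
  · have := h3 c
    rw [← hr] at this
    show 0 ≤ r c c
    exact_mod_cast this
  · rw [← hr]
    have : r c c = 0 := hz
    rw [this, Rat.cast_zero]



end Crest.Agent.T15.Fa
end

-- ▼ part T15/FaP_34
section

/-!
# Row 15 (helper34): the product formula on an algebraic closure of `k(z)`
-/

set_option autoImplicit false

namespace Crest.Agent.T15.Fa

open Polynomial WithZero Module
open scoped NNReal IntermediateField
open Crest.Agent.R013.RR7_948 Crest.Agent.R013.RR11_948 Crest.Agent.R013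

namespace P34

section val

variable {F Om : Type*} [Field F] [Field Om] [Algebra F Om]

theorem le_one_of_root (ν : Valuation Om ℝ≥0) {p : F[X]} (hp : p.Monic) {z : Om}
    (hz : aeval z p = 0) (h : ∀ i, ν (algebraMap F Om (p.coeff i)) ≤ 1) : ν z ≤ 1 := by
  by_contra! hlt
  rw [aeval_eq_sum_range, Finset.sum_range_succ, hp.coeff_natDegree, one_smul,
    add_eq_zero_iff_eq_neg] at hz
  have h1 := ν.map_sum_lt (s := Finset.range p.natDegree) (f := fun i => p.coeff i • z ^ i)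
    (g := ν z ^ p.natDegree) (pow_ne_zero _ (zero_lt_one.trans hlt).ne') fun i hi => by
      rw [Algebra.smul_def, map_mul, map_pow]
      exact (mul_le_of_le_one_left' (h i)).trans_lt
        (pow_lt_pow_right₀ hlt (Finset.mem_range.1 hi))
  rw [hz, ν.map_neg, map_pow] at h1
  exact h1.false

variable [IsAlgClosed Om] [Algebra.IsAlgebraic F Om]

theorem conj_of_root {x y : Om} (h : y ∈ (minpoly F x).aroots Om) : ∃ σ : Om ≃ₐ[F] Om, σ x = y := by
  have : IsAlgClosure F Om := ⟨inferInstance, inferInstance⟩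
  exact minpoly.exists_algEquiv_of_root' (Algebra.IsAlgebraic.isAlgebraic x) (mem_aroots.1 h).2

theorem pow_mem_of_fixed {x : Om} (h : ∀ σ : Om ≃ₐ[F] Om, σ x = x) :
    ∃ (e : ℕ) (y : F), algebraMap F Om y = x ^ ringExpChar F ^ e := by
  classical
  refine (minpoly.natSepDegree_eq_one_iff_pow_mem (ringExpChar F)).1 ?_
  rw [natSepDegree_eq_of_isAlgClosed Om, Finset.card_eq_one]
  refine ⟨x, Finset.eq_singleton_iff_unique_mem.2 ⟨?_, fun y hy => ?_⟩⟩
  · exact Multiset.mem_toFinset.2 (mem_aroots.2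
      ⟨minpoly.ne_zero (Algebra.IsIntegral.isIntegral x), minpoly.aeval F x⟩)
  · obtain ⟨σ, rfl⟩ := conj_of_root (Multiset.mem_toFinset.1 hy)
    exact h σ

theorem coeff_le (ν : Valuation Om ℝ≥0) {x : Om} (h : ∀ σ : Om ≃ₐ[F] Om, ν (σ x) ≤ 1) (i : ℕ) :
    ν (algebraMap F Om ((minpoly F x).coeff i)) ≤ 1 := by
  have hm := (minpoly.monic (Algebra.IsIntegral.isIntegral (R := F) x)).map (algebraMap F Om)
  have h1 : (minpoly F x).map (algebraMap F Om) ∈ liftsRing ν.integer.subtype := by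
    rw [(IsAlgClosed.splits _).eq_prod_roots_of_monic hm]
    refine multiset_prod_mem _ fun q hq => ?_
    obtain ⟨y, hy, rfl⟩ := Multiset.mem_map.1 hq
    obtain ⟨σ, rfl⟩ := conj_of_root (F := F) hy
    exact ⟨X - C ⟨σ x, h σ⟩, by simp⟩
  obtain ⟨q, hq⟩ := h1
  rw [← coeff_map, ← hq, coe_mapRingHom, coeff_map]
  exact (q.coeff i).2

end val

theorem one_lt_e : (1 : ℝ≥0) < ⟨Real.exp 1, (Real.exp_pos 1).le⟩ :=
  Real.one_lt_exp_iff.2 one_pos

/-- `exp n ↦ e ^ n` -/
noncomputable def toE : ℤᵐ⁰ →*₀ ℝ≥0 := WithZeroMulInt.toNNReal (zero_lt_one.trans one_lt_e).ne'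

theorem toE_mono : StrictMono toE := WithZeroMulInt.toNNReal_strictMono one_lt_e

theorem log_toE (n : ℤ) : Real.log (toE (exp n)) = n := by
  rw [toE, WithZeroMulInt.toNNReal_neg_apply _ exp_ne_zero, NNReal.coe_zpow, Real.log_zpow]
  change (n : ℝ) * Real.log (Real.exp 1) = n
  rw [Real.log_exp, mul_one]

theorem pf_of {k F Om : Type*} [Field k] [Field F] [Field Om] [Algebra k F] [Algebra F Om]
    [Algebra k Om] [IsScalarTower k F Om] [IsAlgClosed k] [IsAlgClosed Om]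
    [Algebra.IsAlgebraic F Om] [Algebra (RatFunc k) F] [IsScalarTower k (RatFunc k) F]
    [FiniteDimensional (RatFunc k) F] [Algebra.IsSeparable (RatFunc k) F]
    (G : (Om ≃+* Om) → Prop) (hG : ∀ σ : Om ≃ₐ[F] Om, G σ) :
    ∃ ν : Pl k F → Valuation Om ℝ≥0, PF k ν G := by
  have h1 : ∀ P : Pl k F, ∃ W : Valuation Om ℝ≥0, ∀ y, W (algebraMap F Om y) = toE (P.v y) :=
    fun P => by
      obtain ⟨W, hW, -⟩ := A2a_275.exists_ext_lift (K := F) (Ω := Om)
        (P.v.map toE toE_mono.monotone) (by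
          obtain ⟨a, ha⟩ := P.surj (exp 1)
          refine ⟨a, ?_⟩
          change 1 < toE (P.v a)
          rw [ha, ← map_one toE, toE_mono.lt_iff_lt, ← exp_zero, exp_lt_exp]
          exact one_pos)
      exact ⟨W, fun y => DFunLike.congr_fun hW y⟩
  choose ν hν using h1
  have hq : ringExpChar F = ringExpChar k :=
    ringExpChar.eq_iff.2 (expChar_of_injective_algebraMap (algebraMap k F).injective _)
  have hle : ∀ z : Om, {P | ¬ ν P z ≤ 1}.Finite := fun z => by
    refine ((minpoly F z).support.finite_toSet.biUnion fun i hi =>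
      finite_ne_one (k := k) (mem_support_iff.1 hi)).subset fun P hP => ?_
    by_contra hcon
    simp only [Set.mem_iUnion, not_exists, Set.mem_ofPred_eq, not_not] at hcon
    refine hP (le_one_of_root _ (minpoly.monic (Algebra.IsIntegral.isIntegral (R := F) z))
      (minpoly.aeval F z) fun i => ?_)
    by_cases hi : i ∈ (minpoly F z).support
    · rw [hν, hcon i hi, map_one]
    · rw [notMem_support_iff.1 hi, map_zero, map_zero]; exact zero_le
  have key : ∀ z : Om, z ≠ 0 → (∀ s, G s → s z = z) → ∃ (e : ℕ) (y : F), y ≠ 0 ∧ ∀ P,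
      (ringExpChar k : ℝ) ^ e * Real.log (ν P z) = (-divf (k := k) y P : ℤ) := fun z hz h => by
    obtain ⟨e, y, hy⟩ := pow_mem_of_fixed (F := F) fun σ => h σ (hG σ)
    have hy0 : y ≠ 0 := fun h0 => pow_ne_zero _ hz (by rw [← hy, h0, map_zero])
    refine ⟨e, y, hy0, fun P => ?_⟩
    rw [← log_toE, ← v_eq hy0, ← hν, hy, map_pow, NNReal.coe_pow, Real.log_pow, hq, Nat.cast_pow]
  refine ⟨ν, fun P c hc => ?_, fun z hz => ((hle z).union (hle z⁻¹)).subset fun P hP => ?_,
    fun z hz h => ?_, fun z hz h P => ?_, fun z h => ?_⟩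
  · rw [IsScalarTower.algebraMap_apply k F Om, hν, P.const c hc, map_one]
  · by_contra hcon
    simp only [Set.mem_union, Set.mem_ofPred_eq, not_or, not_not, map_inv₀] at hcon
    exact hP (le_antisymm hcon.1
      ((inv_le_one₀ (pos_iff_ne_zero.2 ((ν P).ne_zero_iff.2 hz))).1 hcon.2))
  · obtain ⟨e, y, hy0, hy⟩ := key z hz h
    have h0 : (ringExpChar k : ℝ) ^ e ≠ 0 :=
      pow_ne_zero _ (Nat.cast_ne_zero.2 (expChar_pos k _).ne')
    have h2 := degD_divf (k := k) hy0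
    rw [GR2_921.degD_eq_sum, Finsupp.sum] at h2
    have h3 : HasSum (fun P => (ringExpChar k : ℝ) ^ e * Real.log (ν P z)) 0 := by
      simp only [hy]
      have h4 : HasSum (fun P => ((-divf (k := k) y P : ℤ) : ℝ))
          (∑ P ∈ (divf (k := k) y).support, ((-divf (k := k) y P : ℤ) : ℝ)) :=
        hasSum_sum_of_ne_finset_zero fun P hP => by rw [Finsupp.notMem_support_iff.1 hP]; simp
      rwa [← Int.cast_sum, Finset.sum_neg_distrib, h2, neg_zero, Int.cast_zero] at h4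
    simpa [h0] using h3.mul_left ((ringExpChar k : ℝ) ^ e)⁻¹
  · obtain ⟨e, y, -, hy⟩ := key z hz h
    exact ⟨e, _, hy P⟩
  · have h2 : minpoly F z ∈ lifts (algebraMap k F) := (lifts_iff_coeff_lifts _).2 fun i => by
      have h3 : (minpoly F z).coeff i ∈ algebraicClosure k F :=
        mem_algebraicClosure_iff.2 (isAlgebraic_of_no_poles fun P => by
          have := coeff_le (F := F) (ν P) (fun σ => h σ (hG σ) P) i
          rwa [hν, ← map_one toE, toE_mono.le_iff_le] at this)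
      rwa [GR2_921.hc_of_isAlgClosed, IntermediateField.mem_bot] at h3
    obtain ⟨q, hq⟩ := h2
    rw [coe_mapRingHom] at hq
    have h4 : z ∈ algebraicClosure k Om := mem_algebraicClosure_iff.2 ⟨q, fun h0 =>
      minpoly.ne_zero (Algebra.IsIntegral.isIntegral (R := F) z) (by rw [← hq, h0, Polynomial.map_zero]),
      by rw [← aeval_map_algebraMap F, hq, minpoly.aeval]⟩
    rwa [GR2_921.hc_of_isAlgClosed, IntermediateField.mem_bot] at h4

end P34

theorem exists_pf.{u} (k : Type*) {Om : Type u} [Field k] [Field Om] [Algebra k Om] [IsAlgClosed k]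
    [IsAlgClosed Om] (z : Om) (S : Finset Om) (hz : Transcendental k z)
    [Algebra.IsAlgebraic k⟮z⟯ Om] :
    ∃ (T : Type u) (ν : T → Valuation Om ℝ≥0), PF k ν (Gs k S) := by
  let e := RatFunc.algEquivOfTranscendental z hz
  let _ : Algebra (RatFunc k) k⟮z⟯ := (e : RatFunc k →+* k⟮z⟯).toAlgebra
  let _ : Algebra (RatFunc k) Om := ((algebraMap k⟮z⟯ Om).comp (e : RatFunc k →+* k⟮z⟯)).toAlgebra
  have : IsScalarTower (RatFunc k) k⟮z⟯ Om := IsScalarTower.of_algebraMap_eq fun _ => rfl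
  have : IsScalarTower k (RatFunc k) Om := IsScalarTower.of_algebraMap_eq fun c =>
    (congrArg (algebraMap k⟮z⟯ Om) (e.commutes c)).symm
  have : Algebra.IsAlgebraic (RatFunc k) k⟮z⟯ :=
    ⟨fun x => by obtain ⟨y, rfl⟩ := e.surjective x; exact isAlgebraic_algebraMap y⟩
  have : Algebra.IsAlgebraic (RatFunc k) Om := Algebra.IsAlgebraic.trans _ k⟮z⟯ _
  let F1 := IntermediateField.adjoin (RatFunc k) (S : Set Om)
  have : FiniteDimensional (RatFunc k) F1 := IntermediateField.finiteDimensional_adjoin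
    fun x _ => Algebra.IsIntegral.isIntegral x
  let F0 := separableClosure (RatFunc k) Om ⊓ F1
  have : FiniteDimensional (RatFunc k) F0 := FiniteDimensional.of_injective
    (IntermediateField.inclusion (inf_le_right : F0 ≤ F1)).toLinearMap
    (IntermediateField.inclusion_injective (inf_le_right : F0 ≤ F1))
  have : Algebra.IsSeparable (RatFunc k) F0 := (le_separableClosure_iff _ _ F0).1 inf_le_left
  have : IsScalarTower k F0 Om := IsScalarTower.of_algebraMap_eq fun _ => rfl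
  refine ⟨Pl k F0, P34.pf_of _ fun σ => ⟨fun c => ?_, fun y hy => ?_⟩⟩
  · exact (σ.restrictScalars k).commutes c
  · let q := ringExpChar (separableClosure (RatFunc k) Om)
    obtain ⟨n, u, hu⟩ := IsPurelyInseparable.pow_mem (separableClosure (RatFunc k) Om) q y
    have h1 : y ^ q ^ n ∈ F0 := ⟨hu ▸ u.2, pow_mem (IntermediateField.subset_adjoin _ _ hy) _⟩
    have h2 : σ (y ^ q ^ n) = y ^ q ^ n := σ.commutes ⟨_, h1⟩
    have : ExpChar Om q := expChar_of_injective_algebraMap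
      (algebraMap (separableClosure (RatFunc k) Om) Om).injective q
    rw [map_pow] at h2
    exact iterateFrobenius_inj Om q n h2


end Crest.Agent.T15.Fa
end

-- ▼ part T15/IdWH_11
section

/-!
# Row 15 (helper11): `Rat.Tri` on the frame `Fm`, unconditional
-/

set_option autoImplicit false
set_option linter.all false

noncomputable section

open scoped NNReal PowerSeries
open Polynomial
open Crest.Agent.R013.GR4_921 Crest.Agent.R013.GR6_921

namespace Crest.Agent.T15.Id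

theorem res_natCast11 {L κ : Type*} [Field L] [Field κ] {w : Valuation L ℝ≥0} {ρ : L → κ}
    (h : IsRes w ρ) (n : ℕ) : ρ n = n := by
  induction n with
  | zero => simpa using h.zero
  | succ n ih =>
    rw [Nat.cast_succ, h.add _ _ (Hon.v_natCast_le w n) (by simp), ih, h.one, Nat.cast_succ]

theorem ringExpChar_res11 {L κ : Type*} [Field L] [Field κ] {w : Valuation L ℝ≥0} {ρ : L → κ}
    (h : IsRes w ρ) {p : ℕ} (hp : p.Prime) (h1 : w p < 1) : ringExpChar κ = p := by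
  have h2 : (p : κ) = 0 := by
    rw [← res_natCast11 h]; exact (h.zero_iff _ h1.le).mpr h1
  haveI := (CharP.charP_iff_prime_eq_zero (R := κ) hp).mpr h2
  haveI : ExpChar κ p := ExpChar.prime hp
  exact ringExpChar.eq κ p

/-- the height pairing in the words of the wrapper -/
theorem hasPair {k : Type*} {Ω L : Type} [Field k] [Field Ω] [Field L] [Algebra k Ω]
    [IsAlgClosed k] [IsAlgClosed Ω]
    [Algebra Ω L] [Algebra (RatFunc Ω) L] [IsScalarTower Ω (RatFunc Ω) L]
    [FiniteDimensional (RatFunc Ω) L] [Algebra.IsSeparable (RatFunc Ω) L] {z : Ω} {x w : L}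
    (hz : Transcendental k z) (ha : Algebra.IsAlgebraic (IntermediateField.adjoin k {z}) Ω)
    {F : k[X]} (h : Hy.Hyp (F.map (algebraMap k Ω)) x w) (ho : Odd F.natDegree) :
    HasPair (ringExpChar k) k z x w := fun S _ => by
  obtain ⟨T, ν, hP⟩ := Fa.exists_pf k z S hz
  obtain ⟨B, -, h1, -, h2⟩ := Fa.pairing_of hP h ho
  exact ⟨B, h1, h2⟩

end Crest.Agent.T15.Id

namespace Crest.Agent.T15.Hon.Fm

variable {C : Type} [Field C] {K0 : Subfield C} {v0 : Valuation K0 ℝ≥0} {p : ℕ} {hp : p ≠ 0}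
  {σ : K0 →+* K0} {X : Vs C K0 v0 p hp σ} {g : ℕ} {F : K0[X]} {N : Fin g → Fin g → K0}
  {J : Matrix (Fin g) (Fin g) ℤ} (Y : Fm X g F N J)

theorem Fb_eq11 (hF : ∀ n, v0 (F.coeff n) ≤ 1) :
    Y.Fb = (redP X.ρC (F.map K0.subtype)).map (algebraMap X.k X.k') := by
  have h1 := Y.ng.nr.red
  rw [one_pow, one_mul, ← Polynomial.map_map] at h1
  rw [← h1]
  refine Id.redP_map' X.resC X.res X.comp fun n => ?_
  rw [coeff_map]
  change X.v _ ≤ 1
  exact (X.v_K0 _).trans_le (hF n)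

theorem hasPair11 (U : Un v0 p σ) (hF : ∀ n, v0 (F.coeff n) ≤ 1) :
    Id.HasPair p X.k (X.ρ (X.em PowerSeries.X)) Y.xb Y.wb := by
  have h1 : ringExpChar X.k = p := Id.ringExpChar_res11 X.resC U.prime (by
    have h2 := X.v_K0 p
    change X.v (algebraMap C X.Ω (p : C)) < 1
    exact (X.v_K0 p).trans_lt U.lt)
  have h3 := Y.ng.nr.hyb
  have h4 := Y.degb
  rw [Y.Fb_eq11 hF] at h3 h4
  rw [natDegree_map] at h4
  have h5 := Id.hasPair X.tr (Gen.gp_t X).alg_res h3 ⟨g, h4⟩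
  rwa [h1] at h5

/-- **TRI** on a frame, unconditional -/
theorem tri_U (U : Un v0 p σ) {a b : K0} (h : GdP v0 F a b) :
    Rat.Tri 3 p (Kill Y.j Y.e.pic.toAddMonoidHom) (Y.Cg a b) :=
  Y.tri h (Y.hasPair11 U h.cF)

end Crest.Agent.T15.Hon.Fm
end
end

-- ▼ part T15/Frm_90

/-!
# Row 15, block Ht (helper90): the assembly of the frame
-/

set_option autoImplicit false
set_option linter.all false

noncomputable section

namespace Crest.Agent.T15.Ht

open Polynomial Matrix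
open scoped NNReal
open Crest.Agent.R013.PicD_398 Crest.Agent.R013.Frob1_914 Crest.Agent.R013.RR14_948
open Crest.Agent.R013.RR7_948 Crest.Agent.R013.RR11_948
open Crest.Agent.T15.C (Om Gam)
open Crest.Agent.T15.Top (Plc IsFr)
open Crest.Agent.T15.Mo (Par)
open Crest.Agent.T15.Hon

/-- the logarithmic derivative on the base change -/
def LamS90 : Prop :=
  ∀ (P : Par Om) (M : Mdl P) (N : Matrix (Fin 3) (Fin 3) Om), IsOm M N →
    ∀ (Ω : Type) [Field Ω] [IsAlgClosed Ω] [Algebra Om Ω] (d : Derivation Om Ω Ω),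
    ∃ Λ : Pic Ω (M.bc Ω).Y →+ (Fin 3 → Ω),
      (∀ D m, Λ (cls D) m = ∑ k, algebraMap Om Ω (N m k) *
        lam d ((M.bc Ω).z ^ (k : ℕ) / (M.bc Ω).w) (M.bc Ω).z D) ∧
      (∀ c m, Λ ((M.bc Ω).j c) m = ∑ m', J3 m m' • Λ c m') ∧
      ∀ (e : SI Om M.Y Om M.Y) (E : SI Ω (M.bc Ω).Y Ω (M.bc Ω).Y) (c : Ω), M.Fx e →
        (∀ f, E.f (M.iY Ω f) = M.iY Ω (e.f f)) → (∀ a, d (E.s a) = c * E.s (d a)) →
        ∀ x m, Λ (E.pic x) m = c * E.s (Λ x m)

/-- the place of a valuation -/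
def PlS90 : Prop :=
  ∀ (v : Valuation Om ℝ≥0) (p : ℕ) (s : Om ≃+* Om), p.Prime → v p < 1 →
    (∀ a, v a ≤ 1 → v (s a - a ^ p) < 1) →
    ∃ (Q : Plc) (σ : Gam), Q.rchar = p ∧ IsFr Q σ ∧ ∀ c, s c = σ c

section fx

variable {C : Type} [Field C] [IsAlgClosed C] {P : Par C} {M : Mdl P}

theorem Mdl.Fx.trans90 {e e' : SI C M.Y C M.Y} (h : M.Fx e) (h' : M.Fx e') : M.Fx (e.trans e') := by
  obtain ⟨a, b, c, d, f, g⟩ := h
  obtain ⟨a', b', c', d', f', g'⟩ := h'
  refine ⟨?_, ?_, ?_, ?_, ?_, ?_⟩ <;> simp [*]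

theorem Mdl.Fx.symm90 {e : SI C M.Y C M.Y} (h : M.Fx e) : M.Fx e.symm := by
  obtain ⟨a, b, c, d, f, g⟩ := h
  refine ⟨?_, ?_, ?_, ?_, ?_, ?_⟩ <;> simp [RingEquiv.symm_apply_eq, *]

theorem Mdl.Fx.zw90 [CharZero C] {e : SI C M.Y C M.Y} (h : M.Fx e) (h1 : e.s P.al = P.al)
    (h2 : e.s P.be = P.be) : e.f M.z = M.z ∧ e.f M.w = M.w := by
  obtain ⟨a, b, c, d, f, g⟩ := h
  exact M.isY31.act_pp (M.isY31.act_SI e ⟨d, f, by rw [P.p3_eq, map_sub, map_neg, d, f], g⟩ a b c)
    h1 h2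

end fx

theorem frmStmt_of (hL : LamS90) (hQ : PlS90) : FrmStmt := by
  classical
  intro p1 p2 p3 t P M N hI hO
  refine ⟨Ng.S0 P, Ng.zero_notMem_S0 P, fun K0 v0 p hp σ U _ hS X F0 N0 hF hN => ?_⟩
  obtain ⟨Q, φ, hQ1, hQ2, hQ3⟩ := hQ (X.v.comap (algebraMap Om X.Ω)) p X.s U.prime (by
      have := X.v_K0 (p : K0)
      rw [show (((p : K0) : Om)) = p by simp] at this
      exact this.trans_lt U.lt) fun a ha => by
    have := X.S_res _ ha
    rwa [X.S_C, ← map_pow, ← map_sub] at this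
  obtain ⟨e, he, hes⟩ := (galStmt Om P M).1 X.s (by rw [hI.h1, map_intCast])
    (by rw [hI.h2, map_intCast]) (by rw [hI.ht, map_intCast])
  have hg : ∀ c, X.S (algebraMap Om X.Ω c) = algebraMap Om X.Ω (e.s c) := fun c => by
    rw [X.S_C, hes]
  obtain ⟨Λ, hΛ1, hΛ2, hΛ3⟩ := hL P M N hO X.Ω X.d
  obtain ⟨Fb, _, W, res, sp, hng, hdeg, hiso⟩ := Ng.frame_ng X hS hF (M.bc X.Ω).isY31
  obtain ⟨G1, G2, G3⟩ := galStmt X.Ω _ (M.bc X.Ω)
  obtain ⟨hal, -⟩ := hS P.al (by simp [Ng.mem_S0])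
  obtain ⟨hbe, -⟩ := hS P.be (by simp [Ng.mem_S0])
  have hE := Mdl.Fx.ext hg he
  let Y : Fm X 3 F0 N0 J3 :=
    { L := (M.bc X.Ω).Y
      κ := Hy.Hf Fb
      z := (M.bc X.Ω).z
      w := (M.bc X.Ω).w
      Fb := Fb
      xb := Hy.Hf.x Fb
      wb := Hy.Hf.w Fb
      W := W
      res := res
      sp := sp
      ng := hng
      deg := Ng.deg_F0 hF
      degb := hdeg
      Fx := (M.bc X.Ω).Fx
      Fx_trans := fun _ _ => Mdl.Fx.trans90
      Fx_symm := fun _ => Mdl.Fx.symm90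
      Fx_ex := fun s => G1 s (by rw [Par.map_p1, hI.h1, map_intCast, map_intCast])
        (by rw [Par.map_p2, hI.h2, map_intCast, map_intCast])
        (by rw [Par.map_t, hI.ht, map_intCast, map_intCast])
      Fx_ext := G2
      T := {⟨P.al, hal⟩, ⟨P.be, hbe⟩}
      Fx_zw := fun g hg h => hg.zw90 (h ⟨P.al, hal⟩ (by simp)) (h ⟨P.be, hbe⟩ (by simp))
      e := M.ext e X.S hg
      e_Fx := hE
      e_s := Mdl.ext_s hg
      e_iso := hiso _ (fun c => by rw [Mdl.ext_s, X.S_iso]) hE.2.2.2.1 hE.2.2.2.2.1 hE.2.2.2.2.2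
        hE.1 hE.2.1 hE.2.2.1
      j := (M.bc X.Ω).j
      j_comm := G3
      Λ := Λ
      Λ_cls := fun D m => by simp only [hN]; exact hΛ1 D m
      Λ_j := hΛ2
      Λ_e := fun c m => by
        have := hΛ3 e _ p he (Mdl.ext_iY hg) (fun a => by rw [Mdl.ext_s, X.d_S]) c m
        rwa [Mdl.ext_s] at this }
  refine ⟨Q, e, hQ1, ⟨he, φ, hQ2, fun c => by rw [hes, hQ3]⟩, Y, fun a b hab => ?_⟩
  refine (Y.tri_U U hab).mono (fun Ψ m h => ?_) fun _ h => h
  refine Kill.of_map11 (M.bp X.Ω) (fun c => (M.bc_j X.Ω c).symm)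
    (fun c => (Mdl.ext_pic hg c).symm) (fun y hy => ?_) h
  obtain ⟨c, h1, h2⟩ := M.exists_bp X.Ω (pow_ne_zero m three_ne_zero) hy
  exact ⟨c, h1, h2.symm⟩

end Crest.Agent.T15.Ht
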