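import Mathlib
import Crest.Agent.T15.Frm_90
import Crest.Agent.T15.BrG_37_Mg
import Crest.Agent.T15.HonH_54
import Crest.Agent.T15.AbelB_82_Mg
import Crest.Agent.T15.Fn2_39

-- ▼ part T15/FrmP_90
section

/-!
# Row 15, block Ht (helper90): the place of a valuation of `Om`
-/

set_option autoImplicit false
set_option linter.all false

noncomputable section

namespace Crest.Agent.T15.Ht

open NumberField
open scoped NNReal
open Crest.Agent.T15.C (Om Gam)
open Crest.Agent.R018.Placesx484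

theorem plS90 : PlS90 := by
  intro v p s hp h1 h2
  have hint : ∀ x : 𝓞 Om, v (x : Om) ≤ 1 := fun x =>
    (Valuation.integer.integers v).mem_of_integral (x.isIntegral_coe.tower_top)
  let I : Ideal (𝓞 Om) :=
    { carrier := {x | v (x : Om) < 1}
      add_mem' := fun {a b} ha hb => by simpa using v.map_add_lt ha hb
      zero_mem' := by simp
      smul_mem' := fun c x hx => by
        show v ((c * x : 𝓞 Om) : Om) < 1
        push_cast
        rw [map_mul]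
        exact mul_lt_one_of_nonneg_of_lt_one_right (hint c) zero_le hx }
  have hI : ∀ x : 𝓞 Om, x ∈ I ↔ v (x : Om) < 1 := fun _ => Iff.rfl
  have hpI : (p : 𝓞 Om) ∈ I := by rw [hI]; simpa using h1
  let Q : Place Om := ⟨I, ⟨by rw [Ideal.ne_top_iff_one, hI]; simp, fun {a b} hab => by
      rw [hI] at hab
      push_cast at hab
      rw [map_mul] at hab
      by_contra hcon
      rw [not_or, hI, hI, not_lt, not_lt] at hcon
      exact absurd (one_le_mul hcon.1 hcon.2) hab.not_ge⟩, fun h => by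
    rw [h, Ideal.mem_bot] at hpI
    exact hp.ne_zero (by exact_mod_cast hpI)⟩
  have hQ : Q.rchar = p := Q.rchar_eq_of_mem hp hpI
  refine ⟨Q, AlgEquiv.ofRingEquiv (f := s) (fun c => by simp), hQ, fun x => ?_, fun _ => rfl⟩
  rw [hQ]
  exact h2 x (hint x)

end Crest.Agent.T15.Ht
end
end

-- ▼ part T15/Omq_82
section

/-!
# Row 15, block Ht (helper82): leaf `OmStmt`, and the logarithmic derivative `Λ` of the frame
-/

set_option autoImplicit false
set_option linter.all false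

noncomputable section

namespace Crest.Agent.T15.Ht

open Polynomial Matrix
open Crest.Agent.R013.RR7_948 Crest.Agent.R013.RR8_948 Crest.Agent.R013.RR9_948 Crest.Agent.R013.RR11_948
open Crest.Agent.R013.RR12_948 Crest.Agent.R013.RR13_948 Crest.Agent.R013.RR14_948
open Crest.Agent.R013.RR18_948 Crest.Agent.R013.RR19_948 Crest.Agent.R013.RR20_948
open Crest.Agent.R013.RR21_948 Crest.Agent.R013.RR22_948
open Crest.Agent.R013.PicD_398 Crest.Agent.R013.Frob1_914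
open Crest.Agent.T15.C (Om Gam)
open Crest.Agent.T15.Mo (Par)
open Crest.Agent.T15.Hon Crest.Agent.T15.Omq

theorem isOm_Nm {P : Par Om} (M : Mdl P) : IsOm M (Nm P) :=
  ⟨det_Nm P, Nm_v1 P, Nm_Mx P, fun _ h m => fx_mdl M h _ m⟩

/-- **leaf OM** -/
theorem omStmt : OmStmt := fun _ _ _ _ P M _ => ⟨Nm P, isOm_Nm M⟩

namespace Mdl

variable {C : Type} [Field C] [IsAlgClosed C] [CharZero C] {P : Par C} (M : Mdl P)

theorem reg82 (k : Fin 3) : M.z ^ (k : ℕ) / M.w * del C M.Y M.z ∈ LD (canD C M.Y) :=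
  reg_22 (hyp82 M) (by rw [P.natDegree_F two_ne_zero]; omega)

/-- the coefficient of `dz` -/
def hN (N : Matrix (Fin 3) (Fin 3) C) (m : Fin 3) : M.Y := ∑ k : Fin 3, N m k • (M.z ^ (k : ℕ) / M.w)

theorem reg_hN (N : Matrix (Fin 3) (Fin 3) C) (m : Fin 3) :
    M.hN N m * del C M.Y M.z ∈ LD (canD C M.Y) := by
  rw [hN, Finset.sum_mul]
  exact Submodule.sum_mem _ fun k _ => by
    rw [smul_mul_assoc]; exact Submodule.smul_mem _ _ (M.reg82 k)

/-- the trace form of `IsMat` -/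
theorem trace82 {N : Matrix (Fin 3) (Fin 3) C} (h : M.IsMat N) (D : Derivation C M.K M.K)
    (hD : D (algebraMap M.Y M.K M.z) = 1) (k : Fin 3) :
    Algebra.trace M.Y M.K (M.r.symm (algebraMap M.Y M.K (M.z ^ (k : ℕ) / M.w)) *
      D (M.r.symm (algebraMap M.Y M.K M.z))) = ∑ m : Fin 3, N k m • (M.z ^ (m : ℕ) / M.w) := by
  haveI := M.isGalois
  obtain ⟨g, -, -, -, h4, h5⟩ := M.exists_g
  apply (algebraMap M.Y M.K).injective
  have h6 : ∀ y, g (D y) = D (g y) := fun y => by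
    have := chain_D D hD (g.restrictScalars C : M.K →ₐ[C] M.K) D y
    have h7 : (g.restrictScalars C : M.K →ₐ[C] M.K) (algebraMap M.Y M.K M.z) =
      algebraMap M.Y M.K M.z := g.commutes _
    rw [h7, hD, mul_one] at this
    exact this.symm
  have h8 := h D k
  rw [hD] at h8
  rw [trace_eq_sum_automorphisms, h4, AlgEquiv.one_apply, map_mul, h6, h5, h5, map_sum]
  simp only [map_div₀, map_pow, Algebra.smul_def, map_mul, ← IsScalarTower.algebraMap_apply,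
    mul_one] at h8 ⊢
  rw [← h8]
  ring

variable (Ω : Type) [Field Ω] [IsAlgClosed Ω] [Algebra C Ω] (d : Derivation C Ω Ω)

/-- the logarithmic derivative in the basis `N` -/
def Lam (N : Matrix (Fin 3) (Fin 3) C) : Pic Ω (M.bc Ω).Y →+ (Fin 3 → Ω) :=
  Pi.addMonoidHom fun m => lamP (M.ceY Ω) (M.xY Ω) d (M.hN N m) M.z (M.reg_hN N m)

theorem Lam_apply (N : Matrix (Fin 3) (Fin 3) C) (c : Pic Ω (M.bc Ω).Y) (m : Fin 3) :
    M.Lam Ω d N c m = ∑ k, algebraMap C Ω (N m k) *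
      lamP (M.ceY Ω) (M.xY Ω) d (M.z ^ (k : ℕ) / M.w) M.z (M.reg82 k) c := by
  obtain ⟨E, rfl⟩ := cls_surjective c
  exact lam_sum (M.ceY Ω) d Finset.univ (N m) (fun k : Fin 3 => M.z ^ (k : ℕ) / M.w) M.z E

theorem Lam_cls (N : Matrix (Fin 3) (Fin 3) C) (D : Pl Ω (M.bc Ω).Y →₀ ℤ) (m : Fin 3) :
    M.Lam Ω d N (cls D) m = ∑ k, algebraMap C Ω (N m k) *
      lam d ((M.bc Ω).z ^ (k : ℕ) / (M.bc Ω).w) (M.bc Ω).z D := by
  rw [Lam_apply]
  simp only [lamP_cls, map_div₀, map_pow, bc_z, bc_w]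

theorem lamP_j {N : Matrix (Fin 3) (Fin 3) C} (h : M.IsMat N) (c : Pic Ω (M.bc Ω).Y) (k : Fin 3) :
    lamP (M.ceY Ω) (M.xY Ω) d (M.z ^ (k : ℕ) / M.w) M.z (M.reg82 k) ((M.bc Ω).j c) =
      ∑ m, algebraMap C Ω (N k m) *
        lamP (M.ceY Ω) (M.xY Ω) d (M.z ^ (m : ℕ) / M.w) M.z (M.reg82 m) c := by
  have hz : Transcendental C (algebraMap M.Y M.K M.z) :=
    (transcendental_algebraMap_iff (algebraMap M.Y M.K).injective).2 (isY82 M).tr_z
  obtain ⟨D, hD⟩ := Aj.exists_D hz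
  have h1 : ∀ f, (M.bc Ω).rS.f (M.iK Ω (M.r.symm f)) = M.iK Ω f := fun f => by
    have := M.bc_r Ω (M.r.symm f)
    rwa [AlgEquiv.apply_symm_apply] at this
  exact lamP_end (M.ceY Ω) (M.xY Ω) (M.ceK Ω) (M.iK_alg Ω) d D hD (M.bc Ω).rS (fun _ => rfl)
    (M.reg82 k) (h1 _) (h1 _) Finset.univ (N k) (fun m : Fin 3 => M.z ^ (m : ℕ) / M.w) M.reg82
    (M.trace82 h D hD k) c

theorem Lam_j {N : Matrix (Fin 3) (Fin 3) C} {J : Matrix (Fin 3) (Fin 3) ℤ} (h : M.IsMat (Mx P))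
    (hN : N * Mx P = J.map (Int.cast : ℤ → C) * N) (c : Pic Ω (M.bc Ω).Y) (m : Fin 3) :
    M.Lam Ω d N ((M.bc Ω).j c) m = ∑ m', J m m' • M.Lam Ω d N c m' := by
  simp only [Lam_apply, M.lamP_j Ω d h, Finset.mul_sum, zsmul_eq_mul]
  rw [Finset.sum_comm, Finset.sum_comm (s := Finset.univ) (f := fun m' k => (J m m' : Ω) * _)]
  refine Finset.sum_congr rfl fun l _ => ?_
  have := congrArg (algebraMap C Ω) (congrFun (congrFun hN m) l)
  simp only [mul_apply, map_sum, map_mul, map_apply, map_intCast] at this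
  simp only [← mul_assoc, ← Finset.sum_mul, this]

theorem Lam_e {N : Matrix (Fin 3) (Fin 3) C} {e : SI C M.Y C M.Y}
    (h : ∀ m, ∑ k : Fin 3, e.s (N m k) • (e.f M.z ^ (k : ℕ) / e.f M.w * del C M.Y (e.f M.z)) =
      ∑ k : Fin 3, N m k • (M.z ^ (k : ℕ) / M.w * del C M.Y M.z))
    {E : SI Ω (M.bc Ω).Y Ω (M.bc Ω).Y} (hE : ∀ f, E.f (M.iY Ω f) = M.iY Ω (e.f f)) {a : Ω}
    (hd : ∀ x, d (E.s x) = a * E.s (d x)) (c : Pic Ω (M.bc Ω).Y) (m : Fin 3) :
    M.Lam Ω d N (E.pic c) m = a * E.s (M.Lam Ω d N c m) := by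
  refine lamP_SI (M.ceY Ω) (M.xY Ω) d E a hd (M.reg_hN N m) (M.reg_hN N m) (hE _) (hE _) ?_ c
  have := h m
  simp only [hN, map_sum, Algebra.smul_def, map_mul, map_div₀, map_pow, e.comm, Finset.sum_mul,
    mul_assoc] at this ⊢
  exact this

end Mdl

/-- the four `Λ` fields of the frame -/
theorem exists_Lam (hMat : MatStmt) {P : Par Om} {M : Mdl P} {N : Matrix (Fin 3) (Fin 3) Om}
    (h : IsOm M N) (Ω : Type) [Field Ω] [IsAlgClosed Ω] [Algebra Om Ω] (d : Derivation Om Ω Ω) :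
    ∃ Λ : Pic Ω (M.bc Ω).Y →+ (Fin 3 → Ω),
      (∀ D m, Λ (cls D) m = ∑ k, algebraMap Om Ω (N m k) *
        lam d ((M.bc Ω).z ^ (k : ℕ) / (M.bc Ω).w) (M.bc Ω).z D) ∧
      (∀ c m, Λ ((M.bc Ω).j c) m = ∑ m', J3 m m' • Λ c m') ∧
      ∀ (e : SI Om M.Y Om M.Y) (E : SI Ω (M.bc Ω).Y Ω (M.bc Ω).Y) (a : Ω), M.Fx e →
        (∀ f, E.f (M.iY Ω f) = M.iY Ω (e.f f)) → (∀ x, d (E.s x) = a * E.s (d x)) →
        ∀ c m, Λ (E.pic c) m = a * E.s (Λ c m) :=
  ⟨M.Lam Ω d N, M.Lam_cls Ω d N, M.Lam_j Ω d (hMat Om P M) h.mx,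
    fun e _ _ he hE hd => M.Lam_e Ω d (h.fx e he) hE hd⟩

end Crest.Agent.T15.Ht
end
end

-- ▼ part T15/FrmZ_90

/-!
# Row 15, block Ht (helper90): `FrmStmt` from `MatStmt`
-/

set_option autoImplicit false

namespace Crest.Agent.T15.Ht

theorem frmStmt_mat (hMat : MatStmt) : FrmStmt :=
  frmStmt_of (fun _ _ _ h Ω _ _ _ d => exists_Lam hMat h Ω d) plS90

end Crest.Agent.T15.Ht
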