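import Mathlib

/-!
# Row 15, block Ht (helper58): bounded integer bases (Siegel) and the covolume lower bound
-/

set_option autoImplicit false
set_option linter.unusedSectionVars false

noncomputable section

namespace Crest.Agent.T15.Hab

open Finset Matrix ComplexConjugate

variable {P : Type*} [Fintype P] [DecidableEq P]

/-- real solutions of a set of integer rows -/
def Ker (R : Set (P → ℤ)) : Submodule ℝ (P → ℝ) where
  carrier := {u | ∀ row ∈ R, ∑ A, (row A : ℝ) * u A = 0}
  zero_mem' := by intro row _; simp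
  add_mem' := by
    intro u v hu hv row h
    simp only [Pi.add_apply, mul_add, sum_add_distrib, hu row h, hv row h, add_zero]
  smul_mem' := by
    intro c u hu row h
    have := hu row h
    simp only [Pi.smul_apply, smul_eq_mul]
    calc ∑ A, (row A : ℝ) * (c * u A) = c * ∑ A, (row A : ℝ) * u A := by
          rw [mul_sum]; exact sum_congr rfl fun A _ => by ring
      _ = 0 := by rw [this, mul_zero]


/-- cast of an integer vector -/
def cz (z : P → ℤ) : P → ℝ := fun A => (z A : ℝ)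

attribute [local instance] Matrix.seminormedAddCommGroup in
/-- a small non-zero integer solution -/
lemma exists_small (R : Set (P → ℤ)) {B : ℝ} (hB1 : 1 ≤ B) (hB : ∀ row ∈ R, ∀ A, |(row A : ℝ)| ≤ B)
    (hne : Ker R ≠ ⊥) :
    ∃ z : P → ℤ, z ≠ 0 ∧ cz z ∈ Ker R ∧
      ∀ A, |(z A : ℝ)| ≤ (Fintype.card P * B) ^ Fintype.card P := by
  obtain ⟨u, hu, hu0⟩ := Submodule.exists_mem_ne_zero_of_ne_bot hne
  have hP : Nonempty P := by
    by_contra h
    rw [not_nonempty_iff] at h
    exact hu0 (Subsingleton.elim _ _)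
  have hn1 : (1 : ℝ) ≤ Fintype.card P := by exact_mod_cast Fintype.card_pos
  have hnB : (1 : ℝ) ≤ Fintype.card P * B := by nlinarith
  obtain ⟨b, hbs, hspan, hli⟩ := exists_linearIndependent ℝ (cz '' R)
  have hfin : b.Finite := hli.setFinite
  have : Fintype b := hfin.fintype
  -- the functional `v ↦ v ⬝ u`
  let φ : (P → ℝ) →ₗ[ℝ] ℝ := ∑ A, (u A) • LinearMap.proj A
  have hφ : ∀ v, φ v = ∑ A, v A * u A := by
    intro v; simp [φ, LinearMap.sum_apply, mul_comm]
  have hcard : Fintype.card b < Fintype.card P := by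
    have h1 : Submodule.span ℝ b ≤ LinearMap.ker φ := by
      rw [Submodule.span_le]
      intro v hv
      obtain ⟨row, hr, rfl⟩ := hbs hv
      simp only [SetLike.mem_coe, LinearMap.mem_ker, hφ]
      exact hu row hr
    have h2 : LinearMap.ker φ ≠ ⊤ := by
      intro h
      have : φ u = 0 := by rw [← LinearMap.mem_ker, h]; trivial
      rw [hφ] at this
      apply hu0
      funext A
      have h3 := (sum_eq_zero_iff_of_nonneg (fun A _ => mul_self_nonneg (u A))).mp this A
        (mem_univ A)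
      simpa using h3
    have h3 := Submodule.finrank_lt h2
    have h4 := Submodule.finrank_mono h1
    have h5 : Module.finrank ℝ (Submodule.span ℝ b) = Fintype.card b := by
      rw [finrank_span_set_eq_card hli, Set.toFinset_card]
    rw [Module.finrank_fintype_fun_eq_card] at h3
    omega
  have key : ∀ z : P → ℤ, (∀ v ∈ b, ∑ A, v A * (z A : ℝ) = 0) → cz z ∈ Ker R := by
    intro z hz row hr
    let ψ : (P → ℝ) →ₗ[ℝ] ℝ := ∑ A, (z A : ℝ) • LinearMap.proj A
    have hψ : ∀ v, ψ v = ∑ A, v A * (z A : ℝ) := by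
      intro v; simp [ψ, LinearMap.sum_apply, mul_comm]
    have h1 : Submodule.span ℝ b ≤ LinearMap.ker ψ := by
      rw [Submodule.span_le]
      intro v hv
      simp only [SetLike.mem_coe, LinearMap.mem_ker, hψ]
      exact hz v hv
    have h2 : cz row ∈ Submodule.span ℝ b := by
      rw [hspan]; exact Submodule.subset_span ⟨row, hr, rfl⟩
    have := h1 h2
    rw [LinearMap.mem_ker, hψ] at this
    exact this
  rcases Nat.eq_zero_or_pos (Fintype.card b) with h0 | h0
  · obtain ⟨A0⟩ := hP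
    have hb : IsEmpty b := Fintype.card_eq_zero_iff.mp h0
    refine ⟨Pi.single A0 1, by simp, key _ (fun v hv => (hb.false ⟨v, hv⟩).elim), fun A => ?_⟩
    have : |((Pi.single A0 (1 : ℤ) : P → ℤ) A : ℝ)| ≤ 1 := by
      by_cases h : A = A0
      · subst h; simp
      · simp [Pi.single_eq_of_ne h]
    exact this.trans (one_le_pow₀ hnB)
  · choose row hrow hrw using fun v : b => hbs v.2
    let M : Matrix b P ℤ := fun v A => row v A
    obtain ⟨t, ht0, htM, htn⟩ := Int.Matrix.exists_ne_zero_int_vec_norm_le M hcard h0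
    refine ⟨t, ht0, key t (fun v hv => ?_), fun A => ?_⟩
    · have := congrFun htM ⟨v, hv⟩
      simp only [mulVec, dotProduct, M, Pi.zero_apply] at this
      have h2 : ∑ A, (row ⟨v, hv⟩ A : ℝ) * (t A : ℝ) = 0 := by exact_mod_cast this
      have h3 : cz (row ⟨v, hv⟩) = v := hrw ⟨v, hv⟩
      rw [← h2]
      exact sum_congr rfl fun A _ => by rw [← congrFun h3 A]; rfl
    · have hM : ‖M‖ ≤ B := by
        rw [Matrix.norm_le_iff (by linarith)]
        intro v A
        rw [Int.norm_eq_abs]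
        exact hB _ (hrow v) A
      have h1 : |(t A : ℝ)| ≤ ‖t‖ := by
        rw [← Int.norm_eq_abs]; exact norm_le_pi_norm t A
      have h2 : (Fintype.card P : ℝ) * max 1 ‖M‖ ≤ Fintype.card P * B :=
        mul_le_mul_of_nonneg_left (max_le hB1 hM) (by positivity)
      have h3 : (Fintype.card b : ℝ) / (Fintype.card P - Fintype.card b) ≤ Fintype.card P := by
        have h4 : (Fintype.card b : ℝ) + 1 ≤ Fintype.card P := by exact_mod_cast hcard
        have h5 : (0 : ℝ) ≤ Fintype.card b := by positivity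
        rw [div_le_iff₀ (by linarith)]; nlinarith
      have h6 : (0 : ℝ) ≤ (Fintype.card b : ℝ) / (Fintype.card P - Fintype.card b) := by
        have h4 : (Fintype.card b : ℝ) + 1 ≤ Fintype.card P := by exact_mod_cast hcard
        exact div_nonneg (by positivity) (by linarith)
      calc |(t A : ℝ)| ≤ _ := h1.trans htn
        _ ≤ (Fintype.card P * B) ^ ((Fintype.card b : ℝ) / (Fintype.card P - Fintype.card b)) :=
          Real.rpow_le_rpow (by positivity) h2 h6
        _ ≤ (Fintype.card P * B) ^ (Fintype.card P : ℝ) :=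
          Real.rpow_le_rpow_of_exponent_le hnB h3
        _ = _ := Real.rpow_natCast _ _

/-- bounded integer generators of the real kernel -/
lemma exists_gens {B : ℝ} (hB1 : 1 ≤ B) (e : ℕ) : ∀ (R : Set (P → ℤ)),
    (∀ row ∈ R, ∀ A, |(row A : ℝ)| ≤ B) → Module.finrank ℝ (Ker R) ≤ e →
    ∃ z : Fin e → P → ℤ, (∀ k A, |(z k A : ℝ)| ≤ (Fintype.card P * B) ^ Fintype.card P) ∧
      ∀ u ∈ Ker R, ∃ c : Fin e → ℝ, ∀ A, u A = ∑ k, c k * (z k A : ℝ) := by
  induction e with
  | zero =>
    intro R _ hd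
    have : Ker R = ⊥ := Submodule.finrank_eq_zero.mp (Nat.le_zero.mp hd)
    refine ⟨fun _ => 0, fun k => k.elim0, fun u hu => ⟨fun _ => 0, fun A => ?_⟩⟩
    rw [this, Submodule.mem_bot] at hu
    simp [hu]
  | succ e ih =>
    intro R hB hd
    by_cases hne : Ker R = ⊥
    · refine ⟨fun _ => 0, fun k A => by simp; positivity, fun u hu => ⟨fun _ => 0, fun A => ?_⟩⟩
      rw [hne, Submodule.mem_bot] at hu
      simp [hu]
    obtain ⟨z0, hz0, hzK, hzb⟩ := exists_small R hB1 hB hne
    obtain ⟨a, ha⟩ : ∃ a, z0 a ≠ 0 := by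
      by_contra h; push Not at h; exact hz0 (funext h)
    have ha' : (z0 a : ℝ) ≠ 0 := by exact_mod_cast ha
    have hs : ∀ u : P → ℝ, ∑ A, ((Pi.single a (1 : ℤ) : P → ℤ) A : ℝ) * u A = u a := by
      intro u
      rw [sum_eq_single a]
      · simp
      · intro A _ h; simp [Pi.single_eq_of_ne h]
      · simp
    set R' : Set (P → ℤ) := insert (Pi.single a 1) R with hR'
    have hlt : Ker R' < Ker R := by
      refine lt_of_le_of_ne (fun u hu row hr => hu row (Set.mem_insert_of_mem _ hr)) ?_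
      intro h
      rw [← h] at hzK
      have := hzK _ (Set.mem_insert _ _)
      rw [hs] at this
      exact ha' this
    have hd' : Module.finrank ℝ (Ker R') ≤ e := by
      have := Submodule.finrank_lt_finrank_of_lt hlt
      omega
    obtain ⟨z, hz1, hz2⟩ := ih R' (by
      rintro row (rfl | hr) A
      · by_cases h : A = a
        · subst h; simpa using hB1
        · simp [Pi.single_eq_of_ne h]; linarith
      · exact hB row hr A) hd'
    refine ⟨Fin.cons z0 z, fun k => Fin.cases hzb hz1 k, fun u hu => ?_⟩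
    have hm : u - (u a / z0 a) • cz z0 ∈ Ker R' := by
      rintro row (rfl | hr)
      · rw [hs]; simp only [Pi.sub_apply, Pi.smul_apply, cz, smul_eq_mul]; field_simp; ring
      · exact ((Ker R).sub_mem hu ((Ker R).smul_mem _ hzK)) row hr
    obtain ⟨c, hc⟩ := hz2 _ hm
    refine ⟨Fin.cons (u a / z0 a) c, fun A => ?_⟩
    have := hc A
    simp only [Pi.sub_apply, Pi.smul_apply, cz, smul_eq_mul] at this
    rw [Fin.sum_univ_succ]
    simp only [Fin.cons_zero, Fin.cons_succ]
    linarith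

/-- a coercive real matrix has a large determinant -/
lemma det_ge {ι : Type*} [Fintype ι] [DecidableEq ι] (H : Matrix ι ι ℝ) {c : ℝ} (hc : 0 ≤ c)
    (h : ∀ t : ι → ℝ, c * (t ⬝ᵥ t) ≤ |t ⬝ᵥ H *ᵥ t|) : c ^ Fintype.card ι ≤ |H.det| := by
  have hH : (Hᵀ * H).IsHermitian := by
    have := isHermitian_conjTranspose_mul_self H
    rwa [conjTranspose_eq_transpose_of_trivial] at this
  have hev : ∀ i, c ^ 2 ≤ hH.eigenvalues i := by
    intro i
    set v : ι → ℝ := ⇑(hH.eigenvectorBasis i) with hv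
    have h1 : v ⬝ᵥ v = 1 := by
      have := hH.eigenvectorBasis.orthonormal.1 i
      have h2 := EuclideanSpace.real_norm_sq_eq (hH.eigenvectorBasis i)
      rw [this] at h2
      simp only [dotProduct, hv]
      simpa [sq] using h2.symm
    have h2 : (Hᵀ * H) *ᵥ v = hH.eigenvalues i • v := hH.mulVec_eigenvectorBasis i
    have h3 : (H *ᵥ v) ⬝ᵥ (H *ᵥ v) = hH.eigenvalues i := by
      have : v ⬝ᵥ (Hᵀ * H) *ᵥ v = (H *ᵥ v) ⬝ᵥ (H *ᵥ v) := by
        rw [← mulVec_mulVec, dotProduct_mulVec, vecMul_transpose]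
      rw [← this, h2, dotProduct_smul, h1]; simp
    have h4 := h v
    rw [h1, mul_one] at h4
    have h5 : (v ⬝ᵥ H *ᵥ v) ^ 2 ≤ (v ⬝ᵥ v) * ((H *ᵥ v) ⬝ᵥ (H *ᵥ v)) := by
      have := sum_mul_sq_le_sq_mul_sq univ v (H *ᵥ v)
      simpa [dotProduct, sq] using this
    rw [h1, one_mul, h3] at h5
    have := pow_le_pow_left₀ hc h4 2
    rw [sq_abs] at this
    linarith
  have h1 : (Hᵀ * H).det = ∏ i, hH.eigenvalues i := by
    simpa using hH.det_eq_prod_eigenvalues
  have h2 : (c ^ 2) ^ Fintype.card ι ≤ ∏ i, hH.eigenvalues i := by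
    rw [← card_univ, ← prod_const]
    exact prod_le_prod (fun _ _ => by positivity) (fun i _ => hev i)
  rw [← h1, det_mul, det_transpose] at h2
  refine le_of_sq_le_sq ?_ (abs_nonneg _)
  rw [sq_abs, ← pow_mul, mul_comm, pow_mul, sq H.det]
  exact h2

variable {κ : Type*} [Fintype κ] [DecidableEq κ]

/-- real and imaginary parts of a complex vector -/
def ri (v : κ → ℂ) : κ ⊕ κ → ℝ := Sum.elim (fun j => (v j).re) (fun j => (v j).im)

/-- **Covolume lower bound.** Any `2d` integer combinations of the vectors `(r j A)_j ∈ ℂ^d`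
have real determinant `0` or at least an explicit constant. -/
theorem covol_lower (V : P → P) (r : κ → P → ℂ) {c0 B : ℝ} (hc : 0 ≤ c0) (hB1 : 1 ≤ B)
    (hpos : ∀ x : κ → ℂ, c0 * ∑ j, ‖x j‖ ^ 2
      ≤ |∑ A, (conj (∑ j, x j * r j A) * ∑ j, x j * r j (V A)).im|)
    (R : Set (P → ℤ)) (hB : ∀ row ∈ R, ∀ A, |(row A : ℝ)| ≤ B)
    (hker : ∀ row ∈ R, ∀ j, ∑ A, (row A : ℂ) * r j A = 0)
    (hdim : Module.finrank ℝ (Ker R) ≤ 2 * Fintype.card κ)
    (m : κ ⊕ κ → P → ℤ) :
    (Matrix.of fun k => ri fun j => ∑ A, (m k A : ℂ) * r j A).det = 0 ∨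
      c0 ^ (2 * Fintype.card κ) ≤ (2 * Fintype.card κ).factorial
        * (2 * Fintype.card P * (Fintype.card P * B) ^ (2 * Fintype.card P)) ^ (2 * Fintype.card κ)
        * (Matrix.of fun k => ri fun j => ∑ A, (m k A : ℂ) * r j A).det ^ 2 := by
  have hcard : Fintype.card (κ ⊕ κ) = 2 * Fintype.card κ := by simp [two_mul]
  obtain ⟨z0, hz1, hz2⟩ := exists_gens hB1 (2 * Fintype.card κ) R hB hdim
  let e : κ ⊕ κ ≃ Fin (2 * Fintype.card κ) := Fintype.equivFinOfCardEq hcard
  set B' : ℝ := (Fintype.card P * B) ^ Fintype.card P with hB'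
  let z : κ ⊕ κ → P → ℤ := fun k => z0 (e k)
  let u : κ ⊕ κ → P → ℝ := fun a A => ri (fun j => r j A) a
  have huK : ∀ a, u a ∈ Ker R := by
    intro a row hr
    rcases a with j | j
    · have := congrArg Complex.re (hker row hr j)
      simpa [u, ri, Complex.re_sum] using this
    · have := congrArg Complex.im (hker row hr j)
      simpa [u, ri, Complex.im_sum] using this
  choose c hc' using fun a => hz2 (u a) (huK a)
  let Pm : Matrix (κ ⊕ κ) (κ ⊕ κ) ℝ := Matrix.of fun k a => c a (e k)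
  have hu : ∀ a A, u a A = ∑ k, Pm k a * (z k A : ℝ) := by
    intro a A
    rw [hc' a A, ← e.sum_comp]
    rfl
  let Z : Matrix (κ ⊕ κ) P ℝ := Matrix.of fun k A => (z k A : ℝ)
  let ZV : Matrix (κ ⊕ κ) P ℝ := Matrix.of fun k A => (z k (V A) : ℝ)
  let U : Matrix (κ ⊕ κ) P ℝ := Matrix.of fun a A => u a A
  let UV : Matrix (κ ⊕ κ) P ℝ := Matrix.of fun a A => u a (V A)
  have hU : U = Pmᵀ * Z := by
    ext a A; simp only [U, Z, of_apply, mul_apply, transpose_apply, hu]
  have hUV : UV = Pmᵀ * ZV := by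
    ext a A; simp only [UV, ZV, of_apply, mul_apply, transpose_apply, hu]
  let N : Matrix (κ ⊕ κ) (κ ⊕ κ) ℤ := Matrix.of fun k l => ∑ A, m k A * z l A
  let M : Matrix (κ ⊕ κ) P ℝ := Matrix.of fun k A => (m k A : ℝ)
  have hN : N.map (Int.castRingHom ℝ) = M * Zᵀ := by
    ext k l; simp [N, M, Z, mul_apply]
  have hD : (Matrix.of fun k => ri fun j => ∑ A, (m k A : ℂ) * r j A)
      = N.map (Int.castRingHom ℝ) * Pm := by
    have : M * Uᵀ = N.map (Int.castRingHom ℝ) * Pm := by
      rw [hN, hU, transpose_mul, transpose_transpose, Matrix.mul_assoc]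
    rw [← this]
    ext k a
    rcases a with j | j
    · simp [M, U, u, ri, Complex.re_sum, mul_apply]
    · simp [M, U, u, ri, Complex.im_sum, mul_apply]
  let Ez : Matrix (κ ⊕ κ) (κ ⊕ κ) ℝ := Z * ZVᵀ - ZV * Zᵀ
  let Bm : Matrix (κ ⊕ κ) (κ ⊕ κ) ℝ := U * UVᵀ - UV * Uᵀ
  have hBm : Bm = Pmᵀ * Ez * Pm := by
    simp only [Bm, Ez, hU, hUV, transpose_mul, transpose_transpose, Matrix.mul_sub,
      Matrix.sub_mul, Matrix.mul_assoc]
  have hq : ∀ t : κ ⊕ κ → ℝ, c0 * (t ⬝ᵥ t) ≤ |t ⬝ᵥ (Bm * Matrix.J κ ℝ) *ᵥ t| := by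
    intro t
    let x : κ → ℂ := fun j => (t (Sum.inl j) : ℂ) - Complex.I * (t (Sum.inr j) : ℂ)
    set t' : κ ⊕ κ → ℝ := Matrix.J κ ℝ *ᵥ t with ht'
    have h1 : ∀ j, t' (Sum.inl j) = - t (Sum.inr j) := by
      intro j; simp [ht', Matrix.J, fromBlocks_mulVec, neg_mulVec]
    have h2 : ∀ j, t' (Sum.inr j) = t (Sum.inl j) := by
      intro j; simp [ht', Matrix.J, fromBlocks_mulVec, neg_mulVec]
    have hre : ∀ A, (∑ j, x j * r j A).re = ∑ a, t a * u a A := by
      intro A
      simp [x, u, ri, Complex.re_sum, Fintype.sum_sum_type, sum_add_distrib]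
    have him : ∀ A, (∑ j, x j * r j A).im = ∑ a, t' a * u a A := by
      intro A
      simp only [x, u, ri, Complex.im_sum, Fintype.sum_sum_type, h1, h2, Sum.elim_inl,
        Sum.elim_inr, ← sum_add_distrib]
      refine sum_congr rfl fun j _ => ?_
      simp; ring
    have hn : ∑ j, ‖x j‖ ^ 2 = t ⬝ᵥ t := by
      simp only [dotProduct, Fintype.sum_sum_type, ← sum_add_distrib]
      refine sum_congr rfl fun j _ => ?_
      rw [← Complex.normSq_eq_norm_sq, Complex.normSq_apply]
      simp [x]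
    have hx := hpos x
    rw [hn] at hx
    refine hx.trans (le_of_eq ?_)
    congr 1
    rw [← mulVec_mulVec, ← ht']
    have e1 : ∀ (X Y : Matrix (κ ⊕ κ) P ℝ), t ⬝ᵥ (X * Yᵀ) *ᵥ t' = (t ᵥ* X) ⬝ᵥ (t' ᵥ* Y) := by
      intro X Y
      rw [← mulVec_mulVec, dotProduct_mulVec, mulVec_transpose]
    simp only [Bm, sub_mulVec, dotProduct_sub, e1]
    simp only [dotProduct, vecMul, ← sum_sub_distrib, U, UV, of_apply]
    refine sum_congr rfl fun A _ => ?_
    rw [Complex.mul_im, Complex.conj_re, Complex.conj_im, hre, hre, him, him]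
    ring
  have h1 := det_ge _ hc hq
  have hJ : |(Matrix.J κ ℝ).det| = 1 := by
    have := Matrix.J_det_mul_J_det κ ℝ
    have h2 : |(Matrix.J κ ℝ).det| * |(Matrix.J κ ℝ).det| = 1 := by rw [← abs_mul, this, abs_one]
    nlinarith [abs_nonneg (Matrix.J κ ℝ).det]
  rw [det_mul, abs_mul, hJ, mul_one, hBm, det_mul, det_mul, det_transpose, hcard] at h1
  have hB'0 : 0 ≤ B' := by positivity
  have hE : |Ez.det| ≤ (2 * Fintype.card κ).factorial
      * (2 * Fintype.card P * B' ^ 2) ^ (2 * Fintype.card κ) := by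
    have := Matrix.det_le (A := Ez) (abv := AbsoluteValue.abs)
      (x := 2 * Fintype.card P * B' ^ 2) (fun k l => ?_)
    · simpa [hcard, two_mul] using this
    · have hb : ∀ k l A A', |(z k A : ℝ) * (z l A' : ℝ)| ≤ B' ^ 2 := by
        intro k l A A'
        rw [abs_mul, sq]
        exact mul_le_mul (hz1 _ _) (hz1 _ _) (abs_nonneg _) hB'0
      simp only [Ez, Z, ZV, AbsoluteValue.abs_apply, Matrix.sub_apply, mul_apply, of_apply,
        transpose_apply, ← sum_sub_distrib]
      refine (abs_sum_le_sum_abs _ _).trans ?_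
      calc _ ≤ ∑ _A : P, 2 * B' ^ 2 := sum_le_sum fun A _ => by
            have := abs_sub (z k A * z l (V A) : ℝ) (z k (V A) * z l A)
            linarith [hb k l A (V A), hb k l (V A) A]
        _ = _ := by simp; ring
  rw [hD, det_mul]
  have hNd : (N.map (Int.castRingHom ℝ)).det = (N.det : ℝ) := by
    rw [← RingHom.mapMatrix_apply, ← RingHom.map_det]; rfl
  rw [hNd]
  by_cases h0 : N.det = 0
  · left; simp [h0]
  right
  have h2 : (1 : ℝ) ≤ (N.det : ℝ) ^ 2 := by
    have : (1 : ℤ) ≤ N.det ^ 2 := by have := Int.one_le_abs h0; nlinarith [sq_abs N.det]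
    exact_mod_cast this
  have h3 : |Pm.det * Ez.det * Pm.det| = |Ez.det| * Pm.det ^ 2 := by
    rw [show Pm.det * Ez.det * Pm.det = Ez.det * Pm.det ^ 2 by ring, abs_mul, abs_pow, sq_abs]
  rw [h3] at h1
  have h4 : B' ^ 2 = (Fintype.card P * B) ^ (2 * Fintype.card P) := by
    rw [hB', ← pow_mul, mul_comm (Fintype.card P) 2]
  rw [← h4]
  calc _ ≤ _ := h1
    _ ≤ (2 * Fintype.card κ).factorial * (2 * Fintype.card P * B' ^ 2) ^ (2 * Fintype.card κ)
        * Pm.det ^ 2 := mul_le_mul_of_nonneg_right hE (sq_nonneg _)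
    _ ≤ _ := by
      refine mul_le_mul_of_nonneg_left ?_ (by positivity)
      rw [mul_pow]; nlinarith [sq_nonneg Pm.det]

end Crest.Agent.T15.Hab
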