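import Mathlib
import Crest.Agent.T15.EscA_99
import Crest.Agent.T15.Hk_62

-- ▼ part T15/HabA_58
section

/-!
# Row 15, block Ht (helper58): Green's formula for `conj G · dG` between two graphs
-/

set_option autoImplicit false
set_option linter.unusedSectionVars false

noncomputable section

namespace Crest.Agent.T15.Hab

open Complex MeasureTheory Set ComplexConjugate

/-- `G` is holomorphic on the upper half plane with derivative `g` -/
def Prim (G g : ℂ → ℂ) : Prop := ∀ z : ℂ, 0 < z.im → HasDerivAt G (g z) z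

/-- the open upper half plane -/
def UU : Set ℂ := {z | 0 < z.im}

lemma isOpen_UU : IsOpen UU := isOpen_lt continuous_const Complex.continuous_im

variable {G g : ℂ → ℂ}

lemma Prim.diffOn (h : Prim G g) : DifferentiableOn ℂ G UU :=
  fun z hz => (h z hz).differentiableAt.differentiableWithinAt

lemma Prim.eq_deriv (h : Prim G g) : EqOn g (deriv G) UU := fun z hz => (h z hz).deriv.symm

lemma Prim.diffOn' (h : Prim G g) : DifferentiableOn ℂ g UU :=
  (h.diffOn.deriv isOpen_UU).congr h.eq_deriv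

lemma Prim.deriv2 (h : Prim G g) : Prim g (deriv g) := fun z hz =>
  ((h.diffOn' z hz).differentiableAt (isOpen_UU.mem_nhds hz)).hasDerivAt

lemma Prim.cG (h : Prim G g) : ContinuousOn G UU := h.diffOn.continuousOn
lemma Prim.cg (h : Prim G g) : ContinuousOn g UU := h.diffOn'.continuousOn
lemma Prim.cg' (h : Prim G g) : ContinuousOn (deriv g) UU := h.deriv2.cg

/-- the point `x + i (a x + s b x)` -/
def pt (a b : ℝ → ℝ) (x s : ℝ) : ℂ := (x : ℂ) + I * ((a x + s * b x : ℝ) : ℂ)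

lemma pt_im (a b : ℝ → ℝ) (x s : ℝ) : (pt a b x s).im = a x + s * b x := by simp [pt]

/-- the interval `[-1/2, 1/2]` -/
def JJ : Set ℝ := Icc (-1 / 2) (1 / 2)

/-- admissible family of graphs -/
structure Fam (a b a' b' : ℝ → ℝ) (R : ℝ) : Prop where
  da : ∀ x ∈ JJ, HasDerivAt a (a' x) x
  db : ∀ x ∈ JJ, HasDerivAt b (b' x) x
  ca : ContinuousOn a' JJ
  cb : ContinuousOn b' JJ
  hR : 0 ≤ R
  pos : ∀ x ∈ JJ, ∀ s ∈ Icc 0 R, 0 < a x + s * b x

/-- integrand along the graph -/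
def Pf (G g : ℂ → ℂ) (a b a' b' : ℝ → ℝ) (x s : ℝ) : ℂ :=
  conj (G (pt a b x s)) * g (pt a b x s) * (1 + I * ((a' x + s * b' x : ℝ) : ℂ))

/-- integrand along the vertical sides -/
def Qf (G g : ℂ → ℂ) (a b : ℝ → ℝ) (x s : ℝ) : ℂ :=
  conj (G (pt a b x s)) * g (pt a b x s) * (I * (b x : ℂ))

/-- `∂ₓ Qf` -/
def Df (G g : ℂ → ℂ) (a b a' b' : ℝ → ℝ) (x s : ℝ) : ℂ :=
  conj (g (pt a b x s) * (1 + I * ((a' x + s * b' x : ℝ) : ℂ))) * g (pt a b x s) * (I * (b x : ℂ))
  + conj (G (pt a b x s)) * (deriv g (pt a b x s) * (1 + I * ((a' x + s * b' x : ℝ) : ℂ)))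
      * (I * (b x : ℂ))
  + conj (G (pt a b x s)) * g (pt a b x s) * (I * (b' x : ℂ))

/-- the area density -/
def Af (g : ℂ → ℂ) (a b : ℝ → ℝ) (x s : ℝ) : ℝ := b x * ‖g (pt a b x s)‖ ^ 2

variable {a b a' b' : ℝ → ℝ} {R : ℝ}

lemma Fam.dx (F : Fam a b a' b' R) {x : ℝ} (hx : x ∈ JJ) (s : ℝ) :
    HasDerivAt (fun x => pt a b x s) (1 + I * ((a' x + s * b' x : ℝ) : ℂ)) x := by
  have h1 : HasDerivAt (fun x : ℝ => (x : ℂ)) 1 x := (hasDerivAt_id x).ofReal_comp
  have h2 : HasDerivAt (fun x : ℝ => ((a x + s * b x : ℝ) : ℂ)) ((a' x + s * b' x : ℝ) : ℂ) x :=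
    ((F.da x hx).add ((F.db x hx).const_mul s)).ofReal_comp
  exact h1.add (h2.const_mul I)

lemma ds_pt (a b : ℝ → ℝ) (x s : ℝ) :
    HasDerivAt (fun s => pt a b x s) (I * (b x : ℂ)) s := by
  have h2 : HasDerivAt (fun s : ℝ => ((a x + s * b x : ℝ) : ℂ)) ((b x : ℝ) : ℂ) s := by
    have : HasDerivAt (fun s : ℝ => a x + s * b x) (b x) s := by
      simpa using ((hasDerivAt_id s).mul_const (b x)).const_add (a x)
    exact this.ofReal_comp
  exact (h2.const_mul I).const_add _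

lemma comp_real {F : ℂ → ℂ} {F' : ℂ} {γ : ℝ → ℂ} {γ' : ℂ} {x : ℝ} (h : HasDerivAt F F' (γ x))
    (hγ : HasDerivAt γ γ' x) : HasDerivAt (fun x => F (γ x)) (F' * γ') x := by
  have := (h.hasFDerivAt.restrictScalars ℝ).comp_hasDerivAt x hγ
  simpa [mul_comm, Function.comp_def] using this

lemma conj_real {u : ℝ → ℂ} {u' : ℂ} {x : ℝ} (h : HasDerivAt u u' x) :
    HasDerivAt (fun x => conj (u x)) (conj u') x := by
  have := (Complex.conjCLE.toContinuousLinearMap.hasFDerivAt (x := u x)).comp_hasDerivAt x h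
  simpa [Function.comp_def] using this

lemma Fam.dQ (F : Fam a b a' b' R) (h : Prim G g) {x s : ℝ} (hx : x ∈ JJ) (hs : s ∈ Icc 0 R) :
    HasDerivAt (fun x => Qf G g a b x s) (Df G g a b a' b' x s) x := by
  have hp : 0 < (pt a b x s).im := by rw [pt_im]; exact F.pos x hx s hs
  have h1 := conj_real (comp_real (γ := fun x => pt a b x s) (h _ hp) (F.dx hx s))
  have h2 := comp_real (γ := fun x => pt a b x s) (h.deriv2 _ hp) (F.dx hx s)
  have h3 : HasDerivAt (fun x : ℝ => I * (b x : ℂ)) (I * (b' x : ℂ)) x :=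
    (F.db x hx).ofReal_comp.const_mul I
  refine ((h1.mul h2).mul h3).congr_deriv ?_
  simp only [Df, Pi.mul_apply]; ring

lemma Fam.dP (F : Fam a b a' b' R) (h : Prim G g) {x s : ℝ} (hx : x ∈ JJ) (hs : s ∈ Icc 0 R) :
    HasDerivAt (fun s => Pf G g a b a' b' x s)
      (Df G g a b a' b' x s - 2 * I * (Af g a b x s : ℂ)) s := by
  have hp : 0 < (pt a b x s).im := by rw [pt_im]; exact F.pos x hx s hs
  have h1 := conj_real (comp_real (h _ hp) (ds_pt a b x s))
  have h2 := comp_real (h.deriv2 _ hp) (ds_pt a b x s)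
  have h3 : HasDerivAt (fun s : ℝ => 1 + I * ((a' x + s * b' x : ℝ) : ℂ)) (I * (b' x : ℂ)) s := by
    have : HasDerivAt (fun s : ℝ => a' x + s * b' x) (b' x) s := by
      simpa using ((hasDerivAt_id s).mul_const (b' x)).const_add (a' x)
    exact (this.ofReal_comp.const_mul I).const_add 1
  refine ((h1.mul h2).mul h3).congr_deriv ?_
  have e : ((‖g (pt a b x s)‖ : ℂ)) ^ 2 = conj (g (pt a b x s)) * g (pt a b x s) := by
    rw [mul_comm, Complex.mul_conj, Complex.normSq_eq_norm_sq]; push_cast; ring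
  simp only [Df, Af, Pi.mul_apply, map_mul, map_add, map_one, conj_I, conj_ofReal]
  push_cast
  rw [e]
  ring

lemma Fam.ca0 (F : Fam a b a' b' R) : ContinuousOn a JJ :=
  fun x hx => (F.da x hx).continuousAt.continuousWithinAt
lemma Fam.cb0 (F : Fam a b a' b' R) : ContinuousOn b JJ :=
  fun x hx => (F.db x hx).continuousAt.continuousWithinAt

lemma fst_on {u : ℝ → ℝ} (h : ContinuousOn u JJ) (R : ℝ) :
    ContinuousOn (fun p : ℝ × ℝ => u p.1) (JJ ×ˢ Icc 0 R) :=
  h.comp continuousOn_fst (fun _ hp => hp.1)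

lemma Fam.cpt (F : Fam a b a' b' R) :
    ContinuousOn (fun p : ℝ × ℝ => pt a b p.1 p.2) (JJ ×ˢ Icc 0 R) := by
  unfold pt
  have h1 := fst_on F.ca0 R
  have h2 := fst_on F.cb0 R
  refine (Complex.continuous_ofReal.comp_continuousOn continuousOn_fst).add
    (continuousOn_const.mul (Complex.continuous_ofReal.comp_continuousOn
      (h1.add (continuousOn_snd.mul h2))))

lemma Fam.ccomp (F : Fam a b a' b' R) {u : ℂ → ℂ} (hu : ContinuousOn u UU) :
    ContinuousOn (fun p : ℝ × ℝ => u (pt a b p.1 p.2)) (JJ ×ˢ Icc 0 R) :=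
  hu.comp F.cpt (fun p hp => by
    show 0 < (pt a b p.1 p.2).im
    rw [pt_im]; exact F.pos _ hp.1 _ hp.2)

lemma Fam.ctan (F : Fam a b a' b' R) :
    ContinuousOn (fun p : ℝ × ℝ => 1 + I * ((a' p.1 + p.2 * b' p.1 : ℝ) : ℂ)) (JJ ×ˢ Icc 0 R) :=
  continuousOn_const.add (continuousOn_const.mul (Complex.continuous_ofReal.comp_continuousOn
      ((fst_on F.ca R).add (continuousOn_snd.mul (fst_on F.cb R)))))

lemma cI {u : ℝ → ℝ} (h : ContinuousOn u JJ) (R : ℝ) :
    ContinuousOn (fun p : ℝ × ℝ => I * ((u p.1 : ℝ) : ℂ)) (JJ ×ˢ Icc 0 R) :=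
  continuousOn_const.mul (Complex.continuous_ofReal.comp_continuousOn (fst_on h R))

lemma cconj {K : Set (ℝ × ℝ)} {u : ℝ × ℝ → ℂ} (h : ContinuousOn u K) :
    ContinuousOn (fun p => conj (u p)) K := Complex.continuous_conj.comp_continuousOn h

lemma Fam.cD (F : Fam a b a' b' R) (h : Prim G g) :
    ContinuousOn (fun p : ℝ × ℝ => Df G g a b a' b' p.1 p.2) (JJ ×ˢ Icc 0 R) := by
  unfold Df
  exact ((((cconj ((F.ccomp h.cg).mul F.ctan)).mul (F.ccomp h.cg)).mul (cI F.cb0 R)).add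
    (((cconj (F.ccomp h.cG)).mul ((F.ccomp h.cg').mul F.ctan)).mul (cI F.cb0 R))).add
    (((cconj (F.ccomp h.cG)).mul (F.ccomp h.cg)).mul (cI F.cb R))

lemma Fam.cA (F : Fam a b a' b' R) (h : Prim G g) :
    ContinuousOn (fun p : ℝ × ℝ => Af g a b p.1 p.2) (JJ ×ˢ Icc 0 R) := by
  unfold Af
  exact (fst_on F.cb0 R).mul ((F.ccomp h.cg).norm.pow 2)

lemma Fam.cP (F : Fam a b a' b' R) (h : Prim G g) :
    ContinuousOn (fun p : ℝ × ℝ => Pf G g a b a' b' p.1 p.2) (JJ ×ˢ Icc 0 R) := by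
  unfold Pf
  exact ((cconj (F.ccomp h.cG)).mul (F.ccomp h.cg)).mul F.ctan

lemma uIcc_JJ : uIcc (-1 / 2 : ℝ) (1 / 2) = JJ := by
  rw [uIcc_of_le (by norm_num)]; rfl

variable {E : Type*} [NormedAddCommGroup E] [NormedSpace ℝ E]

lemma ii_x {u : ℝ → ℝ → E} (h : ContinuousOn (fun p : ℝ × ℝ => u p.1 p.2) (JJ ×ˢ Icc 0 R))
    {s : ℝ} (hs : s ∈ Icc 0 R) : IntervalIntegrable (fun x => u x s) volume (-1 / 2) (1 / 2) := by
  apply ContinuousOn.intervalIntegrable
  rw [uIcc_JJ]
  exact h.comp (f := fun x : ℝ => (x, s)) (by fun_prop) (fun x hx => ⟨hx, hs⟩)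

lemma ii_s {u : ℝ → ℝ → E} (h : ContinuousOn (fun p : ℝ × ℝ => u p.1 p.2) (JJ ×ˢ Icc 0 R))
    (hR : 0 ≤ R) {x : ℝ} (hx : x ∈ JJ) : IntervalIntegrable (fun s => u x s) volume 0 R := by
  apply ContinuousOn.intervalIntegrable
  rw [uIcc_of_le hR]
  exact h.comp (f := fun s : ℝ => (x, s)) (by fun_prop) (fun s hs => ⟨hx, hs⟩)

lemma io {u : ℝ → ℝ → E} (h : ContinuousOn (fun p : ℝ × ℝ => u p.1 p.2) (JJ ×ˢ Icc 0 R))
    (hR : 0 ≤ R) : IntegrableOn (Function.uncurry u) (uIoc (-1 / 2 : ℝ) (1 / 2) ×ˢ uIoc 0 R) := by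
  have hK : IsCompact (JJ ×ˢ Icc (0 : ℝ) R) := isCompact_Icc.prod isCompact_Icc
  refine (h.integrableOn_compact hK).mono_set ?_
  rw [uIoc_of_le (by norm_num), uIoc_of_le hR]
  exact Set.prod_mono Ioc_subset_Icc_self Ioc_subset_Icc_self

lemma swap [CompleteSpace E] {u : ℝ → ℝ → E}
    (h : ContinuousOn (fun p : ℝ × ℝ => u p.1 p.2) (JJ ×ˢ Icc 0 R)) (hR : 0 ≤ R) :
    ∫ x in (-1 / 2 : ℝ)..(1 / 2), ∫ s in (0 : ℝ)..R, u x s
      = ∫ s in (0 : ℝ)..R, ∫ x in (-1 / 2 : ℝ)..(1 / 2), u x s :=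
  intervalIntegral_intervalIntegral_swap (io h hR)

/-- the line integral `∫ conj G dG` along the graph `s` -/
def II (G g : ℂ → ℂ) (a b a' b' : ℝ → ℝ) (s : ℝ) : ℂ :=
  ∫ x in (-1 / 2 : ℝ)..(1 / 2), Pf G g a b a' b' x s

/-- the area integral -/
def AA (g : ℂ → ℂ) (a b : ℝ → ℝ) (R : ℝ) : ℝ :=
  ∫ s in (0 : ℝ)..R, ∫ x in (-1 / 2 : ℝ)..(1 / 2), Af g a b x s

theorem Fam.green (F : Fam a b a' b' R) (h : Prim G g) :
    II G g a b a' b' R - II G g a b a' b' 0
      = (∫ s in (0 : ℝ)..R, (Qf G g a b (1 / 2) s - Qf G g a b (-1 / 2) s))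
        - 2 * I * (AA g a b R : ℂ) := by
  have h0 : (0 : ℝ) ∈ Icc 0 R := ⟨le_rfl, F.hR⟩
  have hRR : R ∈ Icc 0 R := ⟨F.hR, le_rfl⟩
  have cA' : ContinuousOn (fun p : ℝ × ℝ => 2 * I * ((Af g a b p.1 p.2 : ℝ) : ℂ))
      (JJ ×ˢ Icc 0 R) :=
    continuousOn_const.mul (Complex.continuous_ofReal.comp_continuousOn (F.cA h))
  have cE : ContinuousOn (fun p : ℝ × ℝ => Df G g a b a' b' p.1 p.2
      - 2 * I * ((Af g a b p.1 p.2 : ℝ) : ℂ)) (JJ ×ˢ Icc 0 R) := (F.cD h).sub cA'
  have e1 : II G g a b a' b' R - II G g a b a' b' 0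
      = ∫ x in (-1 / 2 : ℝ)..(1 / 2), ∫ s in (0 : ℝ)..R,
        (Df G g a b a' b' x s - 2 * I * (Af g a b x s : ℂ)) := by
    unfold II
    rw [← intervalIntegral.integral_sub (ii_x (F.cP h) hRR) (ii_x (F.cP h) h0)]
    refine intervalIntegral.integral_congr (fun x hx => ?_)
    rw [uIcc_JJ] at hx
    symm
    refine intervalIntegral.integral_eq_sub_of_hasDerivAt (f := fun s => Pf G g a b a' b' x s)
      (fun s hs => ?_) (ii_s (u := fun x s => Df G g a b a' b' x s
        - 2 * I * (Af g a b x s : ℂ)) cE F.hR hx)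
    rw [uIcc_of_le F.hR] at hs
    exact F.dP h hx hs
  rw [e1, swap (u := fun x s => Df G g a b a' b' x s - 2 * I * (Af g a b x s : ℂ)) cE F.hR]
  have e2 : ∀ s ∈ uIcc (0 : ℝ) R, (∫ x in (-1 / 2 : ℝ)..(1 / 2),
      (Df G g a b a' b' x s - 2 * I * (Af g a b x s : ℂ)))
      = (Qf G g a b (1 / 2) s - Qf G g a b (-1 / 2) s)
        - 2 * I * ((∫ x in (-1 / 2 : ℝ)..(1 / 2), Af g a b x s : ℝ) : ℂ) := by
    intro s hs
    rw [uIcc_of_le F.hR] at hs
    rw [intervalIntegral.integral_sub (ii_x (F.cD h) hs)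
      (ii_x (u := fun x s => 2 * I * (Af g a b x s : ℂ)) cA' hs),
      intervalIntegral.integral_const_mul, intervalIntegral.integral_ofReal]
    congr 1
    refine intervalIntegral.integral_eq_sub_of_hasDerivAt (f := fun x => Qf G g a b x s)
      (fun x hx => ?_) (ii_x (F.cD h) hs)
    rw [uIcc_JJ] at hx
    exact F.dQ h hx hs
  have hJ1 : (1 / 2 : ℝ) ∈ JJ := ⟨by norm_num, le_rfl⟩
  have hJ2 : (-1 / 2 : ℝ) ∈ JJ := ⟨le_rfl, by norm_num⟩
  have cQ : ContinuousOn (fun p : ℝ × ℝ => Qf G g a b p.1 p.2) (JJ ×ˢ Icc 0 R) := by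
    unfold Qf
    exact ((cconj (F.ccomp h.cG)).mul (F.ccomp h.cg)).mul (cI F.cb0 R)
  have iQ : IntervalIntegrable (fun s => Qf G g a b (1 / 2) s - Qf G g a b (-1 / 2) s)
      volume 0 R := (ii_s cQ F.hR hJ1).sub (ii_s cQ F.hR hJ2)
  have iA : IntervalIntegrable (fun s => ∫ x in (-1 / 2 : ℝ)..(1 / 2), Af g a b x s)
      volume 0 R := by
    have := (io (F.cA h) F.hR)
    rw [IntegrableOn, Measure.volume_eq_prod, ← Measure.prod_restrict] at this
    have h2 := this.integral_prod_right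
    rw [intervalIntegrable_iff]
    refine h2.congr (Filter.Eventually.of_forall fun s => ?_)
    simp only [Function.uncurry]
    rw [intervalIntegral.integral_of_le (by norm_num), uIoc_of_le (by norm_num)]
  have iA' : IntervalIntegrable (fun s => ((∫ x in (-1 / 2 : ℝ)..(1 / 2), Af g a b x s : ℝ) : ℂ))
      volume 0 R := ⟨iA.1.ofReal, iA.2.ofReal⟩
  rw [intervalIntegral.integral_congr e2, intervalIntegral.integral_sub iQ
    (iA'.const_mul _), intervalIntegral.integral_const_mul,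
    intervalIntegral.integral_ofReal]
  rfl

end Crest.Agent.T15.Hab
end
end

-- ▼ part T15/HabB_58
section

/-!
# Row 15, block Ht (helper58): Haberland's inequality for Manin symbols
-/

set_option autoImplicit false
set_option linter.unusedSectionVars false

noncomputable section

namespace Crest.Agent.T15.Hab

open Complex MeasureTheory Set ComplexConjugate

/-- A system of primitives indexed by the cosets `A ∈ Γ\SL₂(ℤ)`; `r` = Manin symbols. -/
structure Sys {P : Type*} (S T : Equiv.Perm P) (G g : P → ℂ → ℂ) (r : P → ℂ) : Prop where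
  prim : ∀ A, Prim (G A) (g A)
  hT : ∀ A z, 0 < z.im → G A (z + 1) = G (T A) z
  hS : ∀ A z, 0 < z.im → G A (-1 / z) = G (S A) z + r A
  SS : ∀ A, S (S A) = A
  V3 : ∀ A, T (S (T (S (T (S A))))) = A
  dec : ∀ A (ε : ℝ), 0 < ε → ∃ Y : ℝ, ∀ z : ℂ, Y ≤ z.im → ‖G A z‖ ≤ ε ∧ ‖g A z‖ ≤ ε

variable {P : Type*} [Fintype P] {S T : Equiv.Perm P} {G g : P → ℂ → ℂ} {r : P → ℂ}
variable {a b a' b' : ℝ → ℝ} {R : ℝ}

lemma Sys.gT (h : Sys S T G g r) (A : P) (z : ℂ) (hz : 0 < z.im) : g A (z + 1) = g (T A) z := by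
  have h1 : HasDerivAt (fun w => G A (w + 1)) (g A (z + 1)) z :=
    (h.prim A (z + 1) (by simpa using hz)).comp_add_const z 1
  have h2 : HasDerivAt (fun w => G A (w + 1)) (g (T A) z) z := by
    refine (h.prim (T A) z hz).congr_of_eventuallyEq ?_
    filter_upwards [isOpen_UU.mem_nhds (show z ∈ UU from hz)] with w hw
    exact h.hT A w hw
  exact h1.unique h2

lemma im_neg_inv {z : ℂ} (hz : 0 < z.im) : 0 < (-1 / z).im := by
  have h0 : z ≠ 0 := by rintro rfl; simp at hz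
  have : (-1 / z).im = z.im / normSq z := by
    rw [div_im]; simp
    ring
  rw [this]; exact div_pos hz (normSq_pos.mpr h0)

lemma Sys.rS (h : Sys S T G g r) (A : P) : r (S A) = - r A := by
  have hI : 0 < (I : ℂ).im := by simp
  have e : -1 / I = I := by field_simp; simp
  have h1 := h.hS A I hI
  have h2 := h.hS (S A) I hI
  rw [e] at h1 h2
  rw [h.SS] at h2
  linear_combination -h1 - h2

lemma Fam.cQ {G g : ℂ → ℂ} (F : Fam a b a' b' R) (h : Prim G g) :
    ContinuousOn (fun p : ℝ × ℝ => Qf G g a b p.1 p.2) (JJ ×ˢ Icc 0 R) := by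
  unfold Qf
  exact ((cconj (F.ccomp h.cG)).mul (F.ccomp h.cg)).mul (cI F.cb0 R)

lemma hJ1 : (1 / 2 : ℝ) ∈ JJ := ⟨by norm_num, le_rfl⟩
lemma hJ2 : (-1 / 2 : ℝ) ∈ JJ := ⟨le_rfl, by norm_num⟩

lemma Sys.sum_green (h : Sys S T G g r) (F : Fam a b a' b' R) (ha : a (1 / 2) = a (-1 / 2))
    (hb : b (1 / 2) = b (-1 / 2)) :
    ∑ A, (II (G A) (g A) a b a' b' 0).im
      = ∑ A, (II (G A) (g A) a b a' b' R).im + 2 * ∑ A, AA (g A) a b R := by
  set QQ : P → ℂ := fun A => ∫ s in (0 : ℝ)..R, Qf (G A) (g A) a b (-1 / 2) s with hQQ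
  have e : ∀ A, (∫ s in (0 : ℝ)..R, (Qf (G A) (g A) a b (1 / 2) s - Qf (G A) (g A) a b (-1 / 2) s))
      = QQ (T A) - QQ A := by
    intro A
    rw [intervalIntegral.integral_sub (ii_s (F.cQ (h.prim A)) F.hR hJ1)
      (ii_s (F.cQ (h.prim A)) F.hR hJ2)]
    congr 1
    refine intervalIntegral.integral_congr (fun s hs => ?_)
    rw [uIcc_of_le F.hR] at hs
    have hp : pt a b (1 / 2) s = pt a b (-1 / 2) s + 1 := by
      simp only [pt, ha, hb]; push_cast; ring
    have hi : 0 < (pt a b (-1 / 2) s).im := by rw [pt_im]; exact F.pos _ hJ2 s hs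
    simp only [Qf, hp, h.hT A _ hi, h.gT A _ hi, hb]
  have e2 : ∑ A, (II (G A) (g A) a b a' b' R - II (G A) (g A) a b a' b' 0)
      = - (2 * I * ((∑ A, AA (g A) a b R : ℝ) : ℂ)) := by
    simp_rw [fun A => F.green (h.prim A), e]
    rw [Finset.sum_sub_distrib, Finset.sum_sub_distrib, Equiv.sum_comp T QQ, ← Finset.mul_sum]
    push_cast; ring
  have e3 := congrArg Complex.im e2
  rw [Finset.sum_sub_distrib, sub_im, im_sum, im_sum] at e3
  simp only [neg_im, mul_im, mul_re, re_ofNat, I_re, im_ofNat, I_im, ofReal_re, ofReal_im] at e3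
  linarith

lemma AA_nonneg {g : ℂ → ℂ} (hR : 0 ≤ R) (hb : ∀ x ∈ JJ, 0 ≤ b x) : 0 ≤ AA g a b R := by
  refine intervalIntegral.integral_nonneg hR (fun s _ => ?_)
  refine intervalIntegral.integral_nonneg (by norm_num) (fun x hx => ?_)
  exact mul_nonneg (hb x hx) (by positivity)

/-! ### horizontal lines -/

lemma famH {c : ℝ} (hc : 0 < c) (hR : 0 ≤ R) :
    Fam (fun _ => c) (fun _ => 1) (fun _ => 0) (fun _ => 0) R where
  da := fun x _ => hasDerivAt_const x c
  db := fun x _ => hasDerivAt_const x 1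
  ca := continuousOn_const
  cb := continuousOn_const
  hR := hR
  pos := fun _ _ s hs => by have := hs.1; linarith

/-- the line integral along `im z = c` -/
def LL (G g : ℂ → ℂ) (c : ℝ) : ℂ :=
  ∫ x in (-1 / 2 : ℝ)..(1 / 2), conj (G (x + I * c)) * g (x + I * c)

lemma II_H (G g : ℂ → ℂ) (c s : ℝ) :
    II G g (fun _ => c) (fun _ => 1) (fun _ => 0) (fun _ => 0) s = LL G g (c + s) := by
  simp [II, LL, Pf, pt]

lemma Sys.LL_step (h : Sys S T G g r) {c : ℝ} (hc : 0 < c) (hR : 0 ≤ R) :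
    ∑ A, (LL (G A) (g A) c).im = ∑ A, (LL (G A) (g A) (c + R)).im
      + 2 * ∑ A, AA (g A) (fun _ => c) (fun _ => 1) R := by
  have := h.sum_green (famH hc hR) rfl rfl
  simpa only [II_H, add_zero] using this

lemma Sys.LL_nonneg (h : Sys S T G g r) {c : ℝ} (hc : 0 < c) :
    0 ≤ ∑ A, (LL (G A) (g A) c).im := by
  refine le_of_forall_pos_le_add (fun ε hε => ?_)
  set n : ℝ := Fintype.card P + 1 with hn
  have hn0 : 0 < n := by positivity
  set δ := min 1 (ε / n) with hδ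
  have hδ0 : 0 < δ := lt_min one_pos (div_pos hε hn0)
  choose Y hY using fun A => h.dec A δ hδ0
  set R : ℝ := ∑ A, |Y A| with hR
  have hR0 : 0 ≤ R := Finset.sum_nonneg fun A _ => abs_nonneg _
  have hb : ∀ A, -(ε / n) ≤ (LL (G A) (g A) (c + R)).im := by
    intro A
    have hle : Y A ≤ c + R := by
      have := Finset.single_le_sum (f := fun A => |Y A|) (fun A _ => abs_nonneg _)
        (Finset.mem_univ A)
      have := le_abs_self (Y A)
      linarith
    have hn : ‖LL (G A) (g A) (c + R)‖ ≤ (ε / n) * |(1 / 2 : ℝ) - (-1 / 2)| := by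
      refine intervalIntegral.norm_integral_le_of_norm_le_const (fun x _ => ?_)
      obtain ⟨h1, h2⟩ := hY A (x + I * ((c + R : ℝ) : ℂ)) (by simpa using hle)
      rw [norm_mul, Complex.norm_conj]
      calc _ ≤ δ * δ := mul_le_mul h1 h2 (norm_nonneg _) hδ0.le
        _ ≤ 1 * (ε / n) := mul_le_mul (min_le_left _ _) (min_le_right _ _) hδ0.le zero_le_one
        _ = _ := one_mul _
    have := Complex.abs_im_le_norm (LL (G A) (g A) (c + R))
    have h3 := neg_abs_le (LL (G A) (g A) (c + R)).im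
    norm_num at hn
    linarith
  have h1 := h.LL_step hc hR0
  have h2 : 0 ≤ ∑ A, AA (g A) (fun _ => c) (fun _ => 1) R :=
    Finset.sum_nonneg fun A _ => AA_nonneg hR0 (fun _ _ => zero_le_one)
  have h3 : ∑ _A : P, -(ε / n) ≤ ∑ A, (LL (G A) (g A) (c + R)).im :=
    Finset.sum_le_sum fun A _ => hb A
  rw [Finset.sum_const, Finset.card_univ, nsmul_eq_mul] at h3
  have h4 : (Fintype.card P : ℝ) * (ε / n) ≤ ε := by
    rw [← mul_div_assoc, div_le_iff₀ hn0, hn]; nlinarith
  linarith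

/-! ### the arc -/

/-- height of the unit circle -/
def ar (x : ℝ) : ℝ := Real.sqrt (1 - x ^ 2)
/-- its derivative -/
def ar' (x : ℝ) : ℝ := -x / ar x

lemma sq_lt {x : ℝ} (hx : x ∈ JJ) : 0 < 1 - x ^ 2 := by
  obtain ⟨h1, h2⟩ := hx; nlinarith

lemma ar_pos {x : ℝ} (hx : x ∈ JJ) : 0 < ar x := Real.sqrt_pos.mpr (sq_lt hx)
lemma ar_sq {x : ℝ} (hx : x ∈ JJ) : ar x ^ 2 = 1 - x ^ 2 := Real.sq_sqrt (sq_lt hx).le
lemma ar_le {x : ℝ} : ar x ≤ 1 := Real.sqrt_le_one.mpr (by nlinarith [sq_nonneg x])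
lemma ar_neg (x : ℝ) : ar (-x) = ar x := by simp [ar]

lemma ar_deriv {x : ℝ} (hx : x ∈ JJ) : HasDerivAt ar (ar' x) x := by
  have h1 : HasDerivAt (fun x : ℝ => 1 - x ^ 2) (-(2 * x)) x := by
    simpa using (hasDerivAt_pow 2 x).const_sub 1
  refine (h1.sqrt (sq_lt hx).ne').congr_deriv ?_
  have := (ar_pos hx).ne'
  simp only [ar', ar] at this ⊢
  field_simp

lemma ar'_cont : ContinuousOn ar' JJ := by
  unfold ar'
  refine ContinuousOn.div (by fun_prop) ?_ (fun x hx => (ar_pos hx).ne')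
  unfold ar; fun_prop

lemma famA : Fam ar (fun x => 1 - ar x) ar' (fun x => - ar' x) 1 where
  da := fun x hx => ar_deriv hx
  db := fun x hx => (ar_deriv hx).const_sub 1
  ca := ar'_cont
  cb := ar'_cont.neg
  hR := zero_le_one
  pos := fun x hx s hs => by
    have h1 := ar_pos hx
    have h2 : 0 ≤ s * (1 - ar x) := mul_nonneg hs.1 (by linarith [ar_le (x := x)])
    linarith

/-- the arc -/
def gm (x : ℝ) : ℂ := x + I * (ar x : ℂ)

lemma gm_im (x : ℝ) : (gm x).im = ar x := by simp [gm]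

lemma gm_neg {x : ℝ} (hx : x ∈ JJ) : gm (-x) = -1 / gm x := by
  have h0 : gm x ≠ 0 := by
    intro h; have := ar_pos hx; rw [← gm_im, h] at this; simp at this
  have h1 : ((ar x : ℂ)) ^ 2 = 1 - (x : ℂ) ^ 2 := by exact_mod_cast ar_sq hx
  rw [eq_div_iff h0, gm, gm, ar_neg]
  push_cast
  linear_combination ((ar x : ℂ)) ^ 2 * I_sq - h1

lemma neg_mem_JJ {x : ℝ} (hx : x ∈ JJ) : -x ∈ JJ := by
  obtain ⟨h1, h2⟩ := hx; constructor <;> linarith

lemma gm_deriv {x : ℝ} (hx : x ∈ JJ) : HasDerivAt gm (1 + I * (ar' x : ℂ)) x :=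
  (hasDerivAt_id x).ofReal_comp.add ((ar_deriv hx).ofReal_comp.const_mul I)

/-- derivative of `G` along the arc -/
def du (g : ℂ → ℂ) (x : ℝ) : ℂ := g (gm x) * (1 + I * (ar' x : ℂ))

lemma Prim.arc {G g : ℂ → ℂ} (h : Prim G g) {x : ℝ} (hx : x ∈ JJ) :
    HasDerivAt (fun x => G (gm x)) (du g x) x :=
  comp_real (γ := gm) (h _ (by rw [gm_im]; exact ar_pos hx)) (gm_deriv hx)

lemma II_A0 (G g : ℂ → ℂ) : II G g ar (fun x => 1 - ar x) ar' (fun x => - ar' x) 0
    = ∫ x in (-1 / 2 : ℝ)..(1 / 2), conj (G (gm x)) * du g x := by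
  simp [II, Pf, pt, du, gm, mul_assoc]

lemma II_A1 (G g : ℂ → ℂ) : II G g ar (fun x => 1 - ar x) ar' (fun x => - ar' x) 1
    = LL G g 1 := by
  simp [II, Pf, pt, LL]

lemma cont_gm : ContinuousOn gm JJ := fun _ hx => (gm_deriv hx).continuousAt.continuousWithinAt

lemma Prim.c_arc {u : ℂ → ℂ} (h : ContinuousOn u UU) : ContinuousOn (fun x => u (gm x)) JJ :=
  h.comp cont_gm (fun x hx => by show 0 < (gm x).im; rw [gm_im]; exact ar_pos hx)

lemma Prim.c_du {G g : ℂ → ℂ} (h : Prim G g) : ContinuousOn (du g) JJ :=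
  (Prim.c_arc h.cg).mul (continuousOn_const.add (continuousOn_const.mul
    (Complex.continuous_ofReal.comp_continuousOn ar'_cont)))

lemma Sys.uS (h : Sys S T G g r) (A : P) {x : ℝ} (hx : x ∈ JJ) :
    G A (gm (-x)) = G (S A) (gm x) + r A := by
  rw [gm_neg hx]; exact h.hS A _ (by rw [gm_im]; exact ar_pos hx)

lemma Sys.duS (h : Sys S T G g r) (A : P) {x : ℝ} (hx : x ∈ Ioo (-1 / 2 : ℝ) (1 / 2)) :
    du (g A) (-x) = - du (g (S A)) x := by
  have hx' : x ∈ JJ := Ioo_subset_Icc_self hx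
  have h1 : HasDerivAt (fun x => G A (gm (-x))) (- du (g A) (-x)) x := by
    have := ((h.prim A).arc (neg_mem_JJ hx')).scomp x (hasDerivAt_neg x)
    simpa [Function.comp_def] using this
  have h2 : HasDerivAt (fun x => G A (gm (-x))) (du (g (S A)) x) x := by
    refine (((h.prim (S A)).arc hx').add_const (r A)).congr_of_eventuallyEq ?_
    filter_upwards [Ioo_mem_nhds hx.1 hx.2] with w hw
    exact h.uS A (Ioo_subset_Icc_self hw)
  have := h1.unique h2
  linear_combination -this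

lemma Sys.arcS (h : Sys S T G g r) (A : P) :
    (∫ x in (-1 / 2 : ℝ)..(1 / 2), conj (G A (gm x)) * du (g A) x)
      = - (∫ x in (-1 / 2 : ℝ)..(1 / 2), conj (G (S A) (gm x)) * du (g (S A)) x)
        - conj (r A) * (G (S A) (gm (1 / 2)) - G (S A) (gm (-1 / 2))) := by
  have p := h.prim (S A)
  have i1 : IntervalIntegrable (fun x => conj (G (S A) (gm x)) * du (g (S A)) x) volume
      (-1 / 2) (1 / 2) := by
    apply ContinuousOn.intervalIntegrable; rw [uIcc_JJ]
    exact (Complex.continuous_conj.comp_continuousOn (Prim.c_arc p.cG)).mul p.c_du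
  have i2 : IntervalIntegrable (du (g (S A))) volume (-1 / 2) (1 / 2) := by
    apply ContinuousOn.intervalIntegrable; rw [uIcc_JJ]; exact p.c_du
  have e1 : (∫ x in (-1 / 2 : ℝ)..(1 / 2), conj (G A (gm x)) * du (g A) x)
      = ∫ x in (-1 / 2 : ℝ)..(1 / 2), conj (G A (gm (-x))) * du (g A) (-x) := by
    rw [intervalIntegral.integral_comp_neg (fun x => conj (G A (gm x)) * du (g A) x)]
    norm_num
  have e2 : (∫ x in (-1 / 2 : ℝ)..(1 / 2), conj (G A (gm (-x))) * du (g A) (-x))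
      = ∫ x in (-1 / 2 : ℝ)..(1 / 2), (-(conj (G (S A) (gm x)) * du (g (S A)) x)
          - conj (r A) * du (g (S A)) x) := by
    refine intervalIntegral.integral_congr_ae ?_
    have hne : ∀ᵐ x : ℝ, x ≠ 1 / 2 := by simp [ae_iff]
    filter_upwards [hne] with x hx hx'
    rw [uIoc_of_le (by norm_num)] at hx'
    have hI : x ∈ Ioo (-1 / 2 : ℝ) (1 / 2) := ⟨hx'.1, lt_of_le_of_ne hx'.2 hx⟩
    rw [h.uS A (Ioo_subset_Icc_self hI), h.duS A hI, map_add]; ring
  have e3 : (∫ x in (-1 / 2 : ℝ)..(1 / 2), du (g (S A)) x)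
      = G (S A) (gm (1 / 2)) - G (S A) (gm (-1 / 2)) :=
    intervalIntegral.integral_eq_sub_of_hasDerivAt (f := fun x => G (S A) (gm x))
      (fun x hx => p.arc (by rwa [uIcc_JJ] at hx)) i2
  have i3 : IntervalIntegrable (fun x => -(conj (G (S A) (gm x)) * du (g (S A)) x)) volume
      (-1 / 2) (1 / 2) := i1.neg
  rw [e1, e2, intervalIntegral.integral_sub i3 (i2.const_mul _),
    intervalIntegral.integral_neg, intervalIntegral.integral_const_mul, e3]

lemma gm_half : gm (1 / 2) = gm (-1 / 2) + 1 := by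
  have : ar (1 / 2) = ar (-1 / 2) := by rw [← ar_neg]; norm_num
  simp only [gm, this]; push_cast; ring

/-- the value of the arc integral -/
theorem Sys.arc_sum (h : Sys S T G g r) :
    ∑ A, (∫ x in (-1 / 2 : ℝ)..(1 / 2), conj (G A (gm x)) * du (g A) x).im
      = -(1 / 3) * ∑ A, (conj (r A) * r (T (S A))).im := by
  set J : P → ℂ := fun A => ∫ x in (-1 / 2 : ℝ)..(1 / 2), conj (G A (gm x)) * du (g A) x with hJ
  set x : P → ℂ := fun A => G A (gm (-1 / 2)) with hx
  set V : Equiv.Perm P := S.trans T with hV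
  have hVa : ∀ A, V A = T (S A) := fun A => rfl
  have hp : 0 < (gm (-1 / 2)).im := by rw [gm_im]; exact ar_pos hJ2
  have x1 : ∀ A, G A (gm (1 / 2)) = x (T A) := fun A => by rw [gm_half, h.hT A _ hp]
  have x2 : ∀ A, r A = x A - x (V A) := fun A => by
    have := h.uS A hJ1
    rw [x1, show -(1 / 2 : ℝ) = -1 / 2 by norm_num] at this
    simp only [hx, hVa] at this ⊢
    linear_combination -this
  have j1 : ∀ A, J A = - J (S A) - conj (r A) * (x (V A) - x (S A)) := fun A => by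
    have := h.arcS A
    rw [x1] at this
    exact this
  have s1 : ∑ A, J (S A) = ∑ A, J A := Equiv.sum_comp S J
  have s2 : ∑ A, conj (r A) * x (S A) = - ∑ A, conj (r A) * x A := by
    rw [← Equiv.sum_comp S (fun A => conj (r A) * x (S A)), ← Finset.sum_neg_distrib]
    refine Finset.sum_congr rfl fun A _ => ?_
    rw [h.rS, h.SS, map_neg]; ring
  have s3 : 2 * ∑ A, J A = - ∑ A, conj (r A) * (x A + x (V A)) := by
    have : ∑ A, J A = ∑ A, (- J (S A) - conj (r A) * (x (V A) - x (S A))) :=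
      Finset.sum_congr rfl fun A _ => j1 A
    simp only [mul_sub, mul_add, Finset.sum_sub_distrib, Finset.sum_add_distrib,
      Finset.sum_neg_distrib] at this ⊢
    rw [s1, s2] at this
    linear_combination this
  set W : ℝ := ∑ A, (conj (x A) * x (V A)).im with hW
  have s4 : ∑ A, (J A).im = - W := by
    have := congrArg Complex.im s3
    rw [neg_im, im_sum] at this
    simp only [mul_im, re_ofNat, im_ofNat, zero_mul, add_zero, im_sum] at this
    have e : ∑ A, ((conj (r A)).re * (x A + x (V A)).im + (conj (r A)).im * (x A + x (V A)).re)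
        = 2 * W := by
      rw [hW, Finset.mul_sum]
      refine Finset.sum_congr rfl fun A _ => ?_
      rw [x2 A]; simp; ring
    linarith
  have s5 : ∑ A, (conj (x (V A)) * x (V (V A))).im = W :=
    Equiv.sum_comp V (fun A => (conj (x A) * x (V A)).im)
  have s6 : ∑ A, (conj (x A) * x (V (V A))).im = - W := by
    rw [← Equiv.sum_comp V (fun A => (conj (x A) * x (V (V A))).im), hW, ← Finset.sum_neg_distrib]
    refine Finset.sum_congr rfl fun A _ => ?_
    have : V (V (V A)) = A := h.V3 A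
    rw [this]; simp; ring
  have s7 : ∑ A, (conj (r A) * r (T (S A))).im = 3 * W := by
    have : ∑ A, (conj (r A) * r (T (S A))).im = ∑ A, ((conj (x A) * x (V A)).im
        - (conj (x A) * x (V (V A))).im + (conj (x (V A)) * x (V (V A))).im) := by
      refine Finset.sum_congr rfl fun A _ => ?_
      rw [← hVa, x2 A, x2 (V A)]; simp; ring
    rw [this, Finset.sum_add_distrib, Finset.sum_sub_distrib, s5, s6]; ring
  rw [s7]
  change ∑ A, (J A).im = _
  rw [s4]; ring

/-- **Haberland's inequality.** -/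
theorem Sys.haberland (h : Sys S T G g r) (A0 : P) :
    6 * AA (g A0) (fun _ => 1) (fun _ => 1) 1 ≤ - ∑ A, (conj (r A) * r (T (S A))).im := by
  have h1 := h.sum_green famA (by rw [← ar_neg]; norm_num) (by rw [← ar_neg]; norm_num)
  simp only [II_A0, II_A1] at h1
  rw [h.arc_sum] at h1
  have h2 : 0 ≤ ∑ A, AA (g A) ar (fun x => 1 - ar x) 1 :=
    Finset.sum_nonneg fun A _ => AA_nonneg zero_le_one (fun x _ => by linarith [ar_le (x := x)])
  have h3 := h.LL_step one_pos zero_le_one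
  have h4 := h.LL_nonneg (c := 1 + 1) (by norm_num)
  have h5 : AA (g A0) (fun _ => 1) (fun _ => 1) 1 ≤ ∑ A, AA (g A) (fun _ => 1) (fun _ => 1) 1 :=
    Finset.single_le_sum (f := fun A => AA (g A) (fun _ => 1) (fun _ => 1) 1)
      (fun A _ => AA_nonneg zero_le_one (fun _ _ => zero_le_one)) (Finset.mem_univ A0)
  linarith

/-- lower bound of the strip integral by one Fourier coefficient -/
theorem coef_le {G g : ℂ → ℂ} (h : Prim G g) {c : ℝ} (hc : 0 ≤ c)
    (hb : ∀ y ∈ Icc (1 : ℝ) 2, c ≤ ∫ x in (-1 / 2 : ℝ)..(1 / 2), ‖g (x + I * y)‖) :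
    c ^ 2 ≤ AA g (fun _ => 1) (fun _ => 1) 1 := by
  have F := famH (R := 1) one_pos zero_le_one
  have key : ∀ s ∈ Icc (0 : ℝ) 1,
      c ^ 2 ≤ ∫ x in (-1 / 2 : ℝ)..(1 / 2), Af g (fun _ => 1) (fun _ => 1) x s := by
    intro s hs
    have h1 := hb (1 + s) ⟨by linarith [hs.1], by linarith [hs.2]⟩
    have i1 := ii_x (u := fun x s => ‖g (pt (fun _ => 1) (fun _ => 1) x s)‖)
      (F.ccomp h.cg).norm hs
    have i2 := ii_x (F.cA h) hs
    have e : ∀ x : ℝ, pt (fun _ => 1) (fun _ => 1) x s = x + I * ((1 + s : ℝ) : ℂ) := by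
      intro x; simp [pt]
    have h2 : (∫ x in (-1 / 2 : ℝ)..(1 / 2),
        (2 * c * ‖g (pt (fun _ => 1) (fun _ => 1) x s)‖ - c ^ 2))
        ≤ ∫ x in (-1 / 2 : ℝ)..(1 / 2), Af g (fun _ => 1) (fun _ => 1) x s := by
      refine intervalIntegral.integral_mono_on (by norm_num)
        ((i1.const_mul _).sub intervalIntegrable_const) i2 (fun x _ => ?_)
      simp only [Af]
      nlinarith [sq_nonneg (‖g (pt (fun _ => 1) (fun _ => 1) x s)‖ - c)]
    rw [intervalIntegral.integral_sub (i1.const_mul _) intervalIntegrable_const,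
      intervalIntegral.integral_const_mul] at h2
    simp only [e] at h2
    norm_num at h2 h1 ⊢
    nlinarith
  have iA : IntervalIntegrable
      (fun s => ∫ x in (-1 / 2 : ℝ)..(1 / 2), Af g (fun _ => 1) (fun _ => 1) x s) volume 0 1 := by
    have := (io (F.cA h) F.hR)
    rw [IntegrableOn, Measure.volume_eq_prod, ← Measure.prod_restrict] at this
    have h2 := this.integral_prod_right
    rw [intervalIntegrable_iff]
    refine h2.congr (Filter.Eventually.of_forall fun s => ?_)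
    simp only [Function.uncurry]
    rw [intervalIntegral.integral_of_le (by norm_num), uIoc_of_le (by norm_num)]
  have := intervalIntegral.integral_mono_on zero_le_one intervalIntegrable_const iA key
  simpa [AA] using this

end Crest.Agent.T15.Hab
end
end

-- ▼ part T15/HabD_58

/-!
# Row 15, block Ht (helper58): Haberland's inequality for cusp forms of weight two
-/

set_option autoImplicit false
set_option linter.unusedSectionVars false

noncomputable section

namespace Crest.Agent.T15.Hab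

open UpperHalfPlane hiding I
open Complex ModularForm Filter Function Set
open Crest.Agent.T15.Esc Crest.Agent.T15.Hk
open scoped MatrixGroups Manifold Topology Real ComplexConjugate

/-- right multiplication on the right cosets -/
def rm {G : Type*} [Group G] (Γ : Subgroup G) (g : G) : Equiv.Perm (RC Γ) where
  toFun := Quotient.map' (· * g) fun a b h => by
    rw [QuotientGroup.rightRel_apply] at h ⊢; simpa using h
  invFun := Quotient.map' (· * g⁻¹) fun a b h => by
    rw [QuotientGroup.rightRel_apply] at h ⊢; simpa using h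
  left_inv x := by
    induction x using Quotient.inductionOn' with
    | h a => exact congrArg (cs Γ) (mul_inv_cancel_right a g)
  right_inv x := by
    induction x using Quotient.inductionOn' with
    | h a => exact congrArg (cs Γ) (inv_mul_cancel_right a g)

lemma rm_cs {G : Type*} [Group G] (Γ : Subgroup G) (g h : G) : rm Γ g (cs Γ h) = cs Γ (h * g) := rfl

lemma cs_surj {G : Type*} [Group G] (Γ : Subgroup G) (x : RC Γ) : ∃ g, x = cs Γ g :=
  ⟨x.out, (Quotient.out_eq x).symm⟩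

/-- the permutation `A ↦ A S T` of Haberland's form -/
def VV (Γ : Subgroup SL(2, ℤ)) (A : RC Γ) : RC Γ := rm Γ ModularGroup.T (rm Γ ModularGroup.S A)

lemma VV_cs (Γ : Subgroup SL(2, ℤ)) (g : SL(2, ℤ)) :
    VV Γ (cs Γ g) = cs Γ (g * ModularGroup.S * ModularGroup.T) := rfl

/-- the constant of the coefficient bound -/
def c0 : ℝ := 6 * Real.exp (-4 * π) ^ 2

lemma c0_pos : 0 < c0 := by unfold c0; positivity

variable {Γ : Subgroup SL(2, ℤ)} {f : ℍ → ℂ}

lemma T_smul' (z : ℍ) : ModularGroup.T • z = (1 : ℝ) +ᵥ z := by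
  have := T_pow_smul 1 z
  rwa [pow_one, Nat.cast_one] at this

lemma tendsto_T : Tendsto (fun z : ℍ => ModularGroup.T • z) atImInfty atImInfty := by
  simp only [T_smul', atImInfty, tendsto_comap_iff, Function.comp_def, vadd_im]
  exact tendsto_comap

lemma ofC_T {z : ℂ} (hz : 0 < z.im) : ofComplex (z + 1) = ModularGroup.T • ofComplex z := by
  rw [ofComplex_apply_of_im_pos hz, ofComplex_apply_of_im_pos (by simpa using hz), T_smul']
  ext1
  simp [add_comm]

lemma ofC_S {z : ℂ} (hz : 0 < z.im) : ofComplex (-1 / z) = ModularGroup.S • ofComplex z := by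
  rw [ofComplex_apply_of_im_pos hz, ofComplex_apply_of_im_pos (im_neg_inv hz), modular_S_smul]
  ext1
  simp [div_eq_mul_inv, inv_neg]

lemma coef_bound (hf : MDiff f) (hp : Periodic (f ∘ ofComplex) (1 : ℝ)) (hb : IsBoundedAtImInfty f)
    {y : ℝ} (hy : y ∈ Icc (1 : ℝ) 2) :
    Real.exp (-4 * π) * ‖(qExpansion 1 f).coeff 1‖ ≤
      ∫ x in (-1 / 2 : ℝ)..(1 / 2), ‖(f ∘ ofComplex) (x + I * y)‖ := by
  have hy0 : 0 < y := by linarith [hy.1]
  have h1 := qExpansion_coeff_eq_intervalIntegral one_pos hp hf hb 1 hy0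
  have hper : Periodic (fun x : ℝ => ‖(f ∘ ofComplex) (x + I * y)‖) 1 := fun x => by
    have := hp (x + I * y)
    simp only [ofReal_add, ofReal_one] at this ⊢
    rw [show (x : ℂ) + 1 + I * y = x + I * y + 1 by ring, this]
  have h2 := hper.intervalIntegral_add_eq (-1 / 2) 0
  rw [show (-1 / 2 : ℝ) + 1 = 1 / 2 by norm_num, zero_add] at h2
  have hc : Continuous fun x : ℝ => ‖(f ∘ ofComplex) (x + I * y)‖ := by
    have hd := (UpperHalfPlane.mdifferentiable_iff.1 hf).continuousOn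
    exact (hd.comp_continuous (by fun_prop) fun x => by simpa using hy0).norm
  have h3 : ‖(qExpansion 1 f).coeff 1‖ ≤
      ∫ x in (0 : ℝ)..1, Real.exp (4 * π) * ‖(f ∘ ofComplex) (x + I * y)‖ := by
    rw [h1, ofReal_one, div_one, one_mul]
    refine intervalIntegral.norm_integral_le_of_norm_le zero_le_one
      (Eventually.of_forall fun x _ => ?_) ((hc.const_mul _).intervalIntegrable _ _)
    rw [norm_mul, norm_div, norm_one, pow_one, Periodic.norm_qParam, mul_comm I,
      comp_ofComplex_of_im_pos f _ (by simpa using hy0)]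
    refine mul_le_mul_of_nonneg_right ?_ (norm_nonneg _)
    rw [one_div, ← Real.exp_neg]
    refine Real.exp_le_exp.2 ?_
    simp
    nlinarith [Real.pi_pos, hy.2]
  rw [intervalIntegral.integral_const_mul, ← h2] at h3
  have h4 : Real.exp (-4 * π) * Real.exp (4 * π) = 1 := by rw [← Real.exp_add]; simp
  calc _ ≤ Real.exp (-4 * π) * (Real.exp (4 * π) * ∫ x in (-1 / 2 : ℝ)..(1 / 2),
        ‖(f ∘ ofComplex) (x + I * y)‖) := mul_le_mul_of_nonneg_left h3 (Real.exp_pos _).le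
    _ = _ := by rw [← mul_assoc, h4, one_mul]

/-- **Haberland's inequality for a cusp form.**  `c A` is the value of the primitive at the cusp
`A ∞` and `r (Γ A) = c (A S) - c A` is the Manin symbol. -/
theorem hab_CS [Fintype (RC Γ)] (hn : (-1 : SL(2, ℤ)) ∈ Γ) (hT : ModularGroup.T ∈ Γ)
    (hf : f ∈ CS Γ 2) {c : SL(2, ℤ) → ℂ}
    (hc : ∀ A : SL(2, ℤ), Tendsto (fun z => prim f (A • z)) atImInfty (𝓝 (c A))) {r : RC Γ → ℂ}
    (hr : ∀ A, r (cs Γ A) = c (A * ModularGroup.S) - c A) :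
    c0 * ‖(qExpansion 1 f).coeff 1‖ ^ 2 ≤ -∑ A, (conj (r A) * r (VV Γ A)).im := by
  have hF := isPrim_prim hf.1
  have c1 : ∀ γ ∈ Γ, ∀ A, c (γ * A) = per f γ + c A := fun γ hγ A => by
    refine tendsto_nhds_unique (hc _) ?_
    simp only [mul_smul, per_SL hF (hf.2.1 γ hγ)]
    exact (hc A).const_add _
  have c2 : ∀ A, c (A * ModularGroup.T) = c A := fun A => by
    refine tendsto_nhds_unique (hc _) ?_
    simp only [mul_smul]
    exact (hc A).comp tendsto_T
  set G : RC Γ → ℂ → ℂ := fun A z => prim f (A.out • ofComplex z) - c A.out with hG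
  set g : RC Γ → ℂ → ℂ := fun A => (f ∣[(2 : ℤ)] A.out) ∘ ofComplex with hg
  have G1 : ∀ A z, G (cs Γ A) z = prim f (A • ofComplex z) - c A := fun A z => by
    have h1 := mul_out_mem Γ A
    have h2 := c1 _ h1 (cs Γ A).out
    have h3 := per_SL hF (hf.2.1 _ h1) ((cs Γ A).out • ofComplex z)
    rw [inv_mul_cancel_right] at h2
    rw [← mul_smul, inv_mul_cancel_right] at h3
    rw [h2, h3, hG]
    ring
  have cn : ∀ A : SL(2, ℤ), cs Γ (A * -1) = cs Γ A := fun A => by
    rw [show A * -1 = -1 * A by simp, cs_mul hn]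
  have hS : Sys (rm Γ ModularGroup.S) (rm Γ ModularGroup.T) G g r := by
    refine ⟨fun A z hz => ?_, fun A z hz => ?_, fun A z hz => ?_, fun A => ?_, fun A => ?_,
      fun A ε hε => ?_⟩
    · have := (hF.comp_SL A.out ⟨z, hz⟩).sub_const (c A.out)
      rw [hg]
      simp only [comp_apply, ofComplex_apply_of_im_pos hz]
      exact this
    · obtain ⟨a, rfl⟩ := cs_surj Γ A
      rw [rm_cs, G1, G1, ofC_T hz, mul_smul, c2]
    · obtain ⟨a, rfl⟩ := cs_surj Γ A
      rw [rm_cs, G1, G1, ofC_S hz, mul_smul, hr]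
      ring
    · obtain ⟨a, rfl⟩ := cs_surj Γ A
      rw [rm_cs, rm_cs, mul_assoc, show (ModularGroup.S * ModularGroup.S : SL(2, ℤ)) = -1 by decide,
        cn]
    · obtain ⟨a, rfl⟩ := cs_surj Γ A
      simp only [rm_cs, mul_assoc]
      rw [show (ModularGroup.S * (ModularGroup.T * (ModularGroup.S * (ModularGroup.T *
        (ModularGroup.S * ModularGroup.T)))) : SL(2, ℤ)) = -1 by decide, cn]
    · have h1 := (Metric.tendsto_nhds.1 (hc A.out) ε hε).and
        (Metric.tendsto_nhds.1 (hf.2.2 A.out) ε hε)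
      obtain ⟨Y, hY⟩ := (atImInfty_mem _).1 h1
      refine ⟨max Y 1, fun z hz => ?_⟩
      have hz0 : 0 < z.im := by linarith [le_max_right Y 1]
      have := hY ⟨z, hz0⟩ ((le_max_left Y 1).trans hz)
      simp only [mem_ofPred_eq, dist_eq_norm, sub_zero] at this
      simp only [hG, hg, comp_apply, ofComplex_apply_of_im_pos hz0]
      exact ⟨this.1.le, this.2.le⟩
  have g1 : g (cs Γ 1) = f ∘ ofComplex := by
    have h1 : (cs Γ (1 : SL(2, ℤ))).out ∈ Γ := by simpa using mul_out_mem Γ (1 : SL(2, ℤ))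
    rw [hg]
    simp only [hf.2.1 _ h1]
  have hp : Periodic (f ∘ ofComplex) (1 : ℝ) := periodic_of_vadd fun z => by
    have := slash_T_pow (k := 2) f 1 z
    rw [pow_one, hf.2.1 _ hT, Nat.cast_one] at this
    exact this.symm
  have hb : IsBoundedAtImInfty f := by simpa using (hf.2.2 1).isBoundedAtImInfty
  have h1 := hS.haberland (cs Γ 1)
  have h2 := coef_le (hS.prim (cs Γ 1))
    (c := Real.exp (-4 * π) * ‖(qExpansion 1 f).coeff 1‖) (by positivity) fun y hy => by
      rw [g1]; exact coef_bound hf.1 hp hb hy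
  rw [mul_pow] at h2
  unfold c0 VV
  linarith

end Crest.Agent.T15.Hab
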