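import Crest.Agent.T15.Hk_62
import Crest.Agent.T15.MfA_79
import Crest.Agent.T15.EscA_99

-- ▼ part T15/MsA_40
section

/-!
# Row 15, block Ht (helper40): Manin symbols, combinatorics

* `cu g x` action of `SL(2,ℤ)` on the cusps `OnePoint ℚ`; `ht x` the denominator;
* `steps x` the continued fraction path from `∞` to `x`, `sy Φ A = Φ (A 0) - Φ (A ∞)`;
* `Man r` Manin's relations, `pt r` the potential of a Manin system (`sy_pt`).
-/

set_option autoImplicit false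
set_option linter.unusedSectionVars false

noncomputable section

namespace Crest.Agent.T15.Ms

open Matrix MatrixGroups ModularGroup OnePoint Matrix.SpecialLinearGroup
open Crest.Agent.T15.Mf Crest.Agent.T15.Hk

/-- cusps -/
abbrev Cu : Type := OnePoint ℚ

/-- action of `GL(2,ℚ)⁺` on the cusps -/
def ac (g : GQ) (x : Cu) : Cu := (g : GL (Fin 2) ℚ) • x

lemma ac_mul (g h : GQ) (x : Cu) : ac (g * h) x = ac g (ac h x) := by
  simp [ac, mul_smul]

lemma ac_one (x : Cu) : ac 1 x = x := by simp [ac]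

/-- action of `SL(2,ℤ)` on the cusps -/
def cu (g : SL(2, ℤ)) (x : Cu) : Cu := ac (sq g) x

lemma cu_mul (g h : SL(2, ℤ)) (x : Cu) : cu (g * h) x = cu g (cu h x) := by
  simp [cu, ac_mul]

lemma cu_one (x : Cu) : cu 1 x = x := by simp [cu, ac_one]

lemma ac_infty (g : GQ) : ac g ∞ = if (g : GL (Fin 2) ℚ) 1 0 = 0 then ∞ else
    (((g : GL (Fin 2) ℚ) 0 0 / (g : GL (Fin 2) ℚ) 1 0 : ℚ) : Cu) := smul_infty_eq_ite _

lemma cu_infty (g : SL(2, ℤ)) : cu g ∞ = if g 1 0 = 0 then ∞ else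
    ((((g 0 0 : ℤ) : ℚ) / ((g 1 0 : ℤ) : ℚ) : ℚ) : Cu) := by
  rw [cu, ac_infty, sq_apply, sq_apply]; simp


/-- `g 0` -/
def cz (g : SL(2, ℤ)) : Cu := cu (g * S) ∞


lemma mulS (g : SL(2, ℤ)) : (g * S) 0 0 = g 0 1 ∧ (g * S) 0 1 = -g 0 0 ∧ (g * S) 1 0 = g 1 1 ∧
    (g * S) 1 1 = -g 1 0 := by
  simp [coe_S, Matrix.mul_apply, Fin.sum_univ_two]

lemma mulT (g : SL(2, ℤ)) : (g * T) 0 0 = g 0 0 ∧ (g * T) 0 1 = g 0 0 + g 0 1 ∧
    (g * T) 1 0 = g 1 0 ∧ (g * T) 1 1 = g 1 0 + g 1 1 := by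
  simp [coe_T, Matrix.mul_apply, Fin.sum_univ_two]

/-- the lower triangular generator -/
def Lm : SL(2, ℤ) := ⟨!![1, 0; 1, 1], by simp [det_fin_two_of]⟩

lemma mulL (g : SL(2, ℤ)) : (g * Lm) 0 0 = g 0 0 + g 0 1 ∧ (g * Lm) 0 1 = g 0 1 ∧
    (g * Lm) 1 0 = g 1 0 + g 1 1 ∧ (g * Lm) 1 1 = g 1 1 := by
  have e : (Lm : Matrix (Fin 2) (Fin 2) ℤ) = !![1, 0; 1, 1] := rfl
  simp [e, Matrix.mul_apply, Fin.sum_univ_two]

lemma det_eq (g : SL(2, ℤ)) : g 0 0 * g 1 1 - g 0 1 * g 1 0 = 1 := by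
  have := g.det_coe
  rwa [det_fin_two] at this

lemma cu_congr {g h : SL(2, ℤ)} (h0 : g 0 0 = h 0 0) (h1 : g 1 0 = h 1 0) : cu g ∞ = cu h ∞ := by
  rw [cu_infty, cu_infty, h0, h1]

lemma cu_congr' {g h : SL(2, ℤ)} (h0 : g 0 0 = -h 0 0) (h1 : g 1 0 = -h 1 0) :
    cu g ∞ = cu h ∞ := by
  rw [cu_infty, cu_infty, h0, h1]; simp [neg_div_neg_eq]

lemma cu_mulT (g : SL(2, ℤ)) : cu (g * T) ∞ = cu g ∞ := cu_congr (mulT g).1 (mulT g).2.2.1

lemma cz_mulS (g : SL(2, ℤ)) : cz (g * S) = cu g ∞ :=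
  cu_congr' (by rw [(mulS _).1, (mulS _).2.1]) (by rw [(mulS _).2.2.1, (mulS _).2.2.2])

lemma cz_mulL (g : SL(2, ℤ)) : cz (g * Lm) = cz g :=
  cu_congr (by rw [(mulS _).1, (mulS _).1, (mulL _).2.1])
    (by rw [(mulS _).2.2.1, (mulS _).2.2.1, (mulL _).2.2.2])

lemma cu_mulL (g : SL(2, ℤ)) : cu (g * Lm) ∞ = cz (g * T) :=
  cu_congr (by rw [(mulS _).1, (mulL _).1, (mulT _).2.1])
    (by rw [(mulS _).2.2.1, (mulL _).2.2.1, (mulT _).2.2.2])

lemma cu_neg (g : SL(2, ℤ)) : cu (-g) ∞ = cu g ∞ := cu_congr' (by simp) (by simp)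


lemma cz_mul (g h : SL(2, ℤ)) : cz (g * h) = cu g (cz h) := by rw [cz, cz, mul_assoc, cu_mul]

/-- the denominator of a cusp -/
def ht (x : Cu) : ℕ := OnePoint.rec 0 (fun q : ℚ => q.den) x

@[simp] lemma ht_infty : ht ∞ = 0 := rfl
@[simp] lemma ht_coe (q : ℚ) : ht (q : Cu) = q.den := rfl

lemma den_div_le (a c : ℤ) (hc : c ≠ 0) : ((a : ℚ) / (c : ℚ)).den ≤ c.natAbs := by
  have h := Rat.den_dvd a c
  rw [Rat.divInt_eq_div] at h
  exact Nat.le_of_dvd (Int.natAbs_pos.2 hc) (Int.natCast_dvd.1 h)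

lemma coprime_col (g : SL(2, ℤ)) : Nat.Coprime (g 0 0).natAbs (g 1 0).natAbs := by
  rw [← Int.isCoprime_iff_nat_coprime]
  exact ⟨g 1 1, -g 0 1, by linear_combination det_eq g⟩

lemma ht_cu (g : SL(2, ℤ)) : ht (cu g ∞) = (g 1 0).natAbs := by
  rcases lt_trichotomy (g 1 0) 0 with h | h | h
  · rw [← cu_neg, cu_infty, if_neg (by simpa using h.ne), ht_coe]
    have := Rat.den_div_eq_of_coprime (a := (-g) 0 0) (b := (-g) 1 0) (by simpa using h)
      (coprime_col (-g))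
    have e : (-g) 1 0 = -g 1 0 := by simp
    omega
  · rw [cu_infty, if_pos h, h]; rfl
  · rw [cu_infty, if_neg h.ne', ht_coe]
    have := Rat.den_div_eq_of_coprime h (coprime_col g)
    omega

lemma ht_cz (g : SL(2, ℤ)) : ht (cz g) = (g 1 1).natAbs := by rw [cz, ht_cu, (mulS g).2.2.1]

/-- reduced matrices -/
def Rd (g : SL(2, ℤ)) : Prop := 0 ≤ g 1 1 ∧ g 1 1 < g 1 0

lemma exists_rd (q : ℚ) : ∃ g : SL(2, ℤ), Rd g ∧ cu g ∞ = (q : Cu) := by
  obtain ⟨u, v, h⟩ : IsCoprime q.num (q.den : ℤ) := Int.isCoprime_iff_nat_coprime.2 (by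
    simpa using q.reduced)
  have hc : (0 : ℤ) < q.den := by exact_mod_cast q.den_pos
  refine ⟨⟨!![q.num, -(v + q.num * (u / q.den)); q.den, u % q.den], ?_⟩, ⟨?_, ?_⟩, ?_⟩
  · rw [det_fin_two_of]
    have := Int.emod_add_mul_ediv u q.den
    linear_combination h + q.num * this
  · exact Int.emod_nonneg _ hc.ne'
  · exact Int.emod_lt_of_pos _ hc
  · exact (cu_infty _).trans ((if_neg hc.ne').trans (congrArg _ (Rat.num_div_den q)))

lemma rd_unique {g h : SL(2, ℤ)} (hg : Rd g) (hh : Rd h) (e : cu g ∞ = cu h ∞) : g = h := by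
  have g0 : 0 < g 1 0 := hg.1.trans_lt hg.2
  have h0 : 0 < h 1 0 := hh.1.trans_lt hh.2
  rw [cu_infty, cu_infty, if_neg g0.ne', if_neg h0.ne'] at e
  obtain ⟨e0, e1⟩ := Rat.div_int_inj g0 h0 (coprime_col g) (coprime_col h) (coe_injective e)
  have d1 := det_eq g
  have d2 := det_eq h
  rw [← e0, ← e1] at d2
  have hd : g 1 0 ∣ g 1 1 - h 1 1 := by
    have hc : IsCoprime (g 1 0) (g 0 0) := ⟨-g 0 1, g 1 1, by linear_combination d1⟩
    refine hc.dvd_of_dvd_mul_left ⟨g 0 1 - h 0 1, by linear_combination d1 - d2⟩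
  have e3 : g 1 1 = h 1 1 := by
    have := Int.eq_zero_of_abs_lt_dvd hd (by
      have := hg.1; have := hg.2; have := hh.1; have := hh.2
      rw [abs_lt]; constructor <;> omega)
    omega
  have e2 : g 0 1 = h 0 1 := by
    rw [← e3] at d2
    exact mul_right_cancel₀ g0.ne' (by linear_combination d2 - d1)
  ext i j
  fin_cases i <;> fin_cases j <;> assumption

/-- the last step of the path to `q` -/
def nx (q : ℚ) : SL(2, ℤ) := (exists_rd q).choose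

lemma nx_rd (q : ℚ) : Rd (nx q) := (exists_rd q).choose_spec.1
lemma cu_nx (q : ℚ) : cu (nx q) ∞ = (q : Cu) := (exists_rd q).choose_spec.2

lemma ht_nx (q : ℚ) : ht (cz (nx q)) < ht (q : Cu) := by
  rw [← cu_nx q, ht_cz, ht_cu]
  have := (nx_rd q).1; have := (nx_rd q).2
  omega

/-- path of length at most `n` -/
def stp : ℕ → Cu → List SL(2, ℤ)
  | 0, _ => []
  | n + 1, x => OnePoint.rec [] (fun q : ℚ => nx q :: stp n (cz (nx q))) x

lemma stp_eq : ∀ (n m : ℕ) (x : Cu), ht x ≤ n → ht x ≤ m → stp n x = stp m x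
  | 0, 0, _, _, _ => rfl
  | 0, m + 1, x, h, _ => by
    induction x using OnePoint.rec with
    | infty => rfl
    | coe q => exact absurd h (by simp)
  | n + 1, 0, x, _, h => by
    induction x using OnePoint.rec with
    | infty => rfl
    | coe q => exact absurd h (by simp)
  | n + 1, m + 1, x, h, h' => by
    induction x using OnePoint.rec with
    | infty => rfl
    | coe q =>
      have := ht_nx q
      exact congrArg (nx q :: ·) (stp_eq n m _ (by omega) (by omega))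

/-- the continued fraction path from `∞` to `x` -/
def steps (x : Cu) : List SL(2, ℤ) := stp (ht x) x

@[simp] lemma steps_infty : steps ∞ = [] := rfl

lemma steps_coe (q : ℚ) : steps (q : Cu) = nx q :: steps (cz (nx q)) := by
  have h := ht_nx q
  obtain ⟨n, hn⟩ : ∃ n, ht (q : Cu) = n + 1 := ⟨ht (q : Cu) - 1, by omega⟩
  rw [steps, hn]
  exact congrArg (nx q :: ·) (stp_eq _ _ _ (by omega) le_rfl)

lemma cu_ind {p : Cu → Prop} (h0 : p ∞) (h1 : ∀ q : ℚ, p (cz (nx q)) → p q) (x : Cu) : p x := by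
  induction hn : ht x using Nat.strong_induction_on generalizing x with
  | _ n ih =>
    induction x using OnePoint.rec with
    | infty => exact h0
    | coe q => exact h1 q (ih _ (hn ▸ ht_nx q) _ rfl)


variable {A : Type*} [AddCommGroup A]

/-- the Manin symbol of a potential -/
def sy (Φ : Cu → A) (g : SL(2, ℤ)) : A := Φ (cz g) - Φ (cu g ∞)

/-- the potential of a function on `SL(2,ℤ)` -/
def pt (r : SL(2, ℤ) → A) (x : Cu) : A := -((steps x).map r).sum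

@[simp] lemma pt_infty (r : SL(2, ℤ) → A) : pt r ∞ = 0 := by simp [pt]

lemma pt_coe (r : SL(2, ℤ) → A) (q : ℚ) : pt r q = pt r (cz (nx q)) - r (nx q) := by
  rw [pt, pt, steps_coe, List.map_cons, List.sum_cons]; abel

theorem pt_sy (Φ : Cu → A) (x : Cu) : pt (sy Φ) x = Φ x - Φ ∞ := by
  induction x using cu_ind with
  | h0 => simp
  | h1 q ih => rw [pt_coe, ih, sy, cu_nx]; abel

/-- Manin's relations -/
structure Man (r : SL(2, ℤ) → A) : Prop where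
  s : ∀ g, r (g * S) = -r g
  t : ∀ g, r g = r (g * T) + r (g * Lm)

theorem man_sy (Φ : Cu → A) : Man (sy Φ) where
  s g := by rw [sy, sy, cz_mulS, cz]; abel
  t g := by rw [sy, sy, sy, cu_mulT, cz_mulL, cu_mulL]; abel

lemma Man.neg {r : SL(2, ℤ) → A} (h : Man r) (g : SL(2, ℤ)) : r (-g) = r g := by
  have e : g * S * S = -g := by
    rw [mul_assoc, show (S * S : SL(2, ℤ)) = -1 by decide]; simp
  rw [← e, h.s, h.s, neg_neg]

lemma sy_pt_rd (r : SL(2, ℤ) → A) {g : SL(2, ℤ)} (hg : Rd g) : sy (pt r) g = r g := by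
  have g0 : 0 < g 1 0 := hg.1.trans_lt hg.2
  have e : cu g ∞ = ((((g 0 0 : ℤ) : ℚ) / ((g 1 0 : ℤ) : ℚ) : ℚ) : Cu) := by
    rw [cu_infty, if_neg g0.ne']
  have e2 : nx _ = g := rd_unique (nx_rd _) hg ((cu_nx _).trans e.symm)
  rw [sy, e, pt_coe, e2]; abel

/-- **Manin's theorem**: a Manin system is the symbol of its potential -/
theorem Man.sy_pt {r : SL(2, ℤ) → A} (h : Man r) (g : SL(2, ℤ)) : sy (pt r) g = r g := by
  have hm := man_sy (pt r)
  have hS : ∀ g, Ms.sy (pt r) (g * S) = r (g * S) → Ms.sy (pt r) g = r g := fun g e => by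
    rwa [hm.s, h.s, neg_inj] at e
  have hN : ∀ g, Ms.sy (pt r) (-g) = r (-g) → Ms.sy (pt r) g = r g := fun g e => by
    rwa [hm.neg, h.neg] at e
  induction hn : (g 1 0).natAbs + (g 1 1).natAbs using Nat.strong_induction_on generalizing g with
  | _ n ih =>
    have key : ∀ g : SL(2, ℤ), (g 1 0).natAbs + (g 1 1).natAbs = n → 0 < g 1 0 →
        (g 1 1).natAbs ≤ (g 1 0).natAbs → Ms.sy (pt r) g = r g := by
      intro g hn h0 h1
      rcases lt_or_ge (g 1 1) 0 with h2 | h2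
      · rw [hm.t, h.t g, sy_pt_rd r (g := g * T) ⟨by rw [(mulT g).2.2.2]; omega,
          by rw [(mulT g).2.2.2, (mulT g).2.2.1]; omega⟩,
          ih _ ?_ (g * Lm) rfl]
        rw [(mulL g).2.2.1, (mulL g).2.2.2]; omega
      rcases lt_or_ge (g 1 1) (g 1 0) with h3 | h3
      · exact sy_pt_rd r ⟨h2, h3⟩
      have e : g 1 1 = g 1 0 := by omega
      have e0 : (g * T⁻¹) 1 0 = g 1 0 := by
        have := (mulT (g * T⁻¹)).2.2.1; rw [inv_mul_cancel_right] at this; exact this.symm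
      have e1 : (g * T⁻¹) 1 1 = 0 := by
        have := (mulT (g * T⁻¹)).2.2.2; rw [inv_mul_cancel_right] at this; omega
      have a1 := sy_pt_rd r (g := g * T⁻¹) ⟨e1.ge, by omega⟩
      have a2 := sy_pt_rd r (g := g * T⁻¹ * Lm) ⟨by rw [(mulL _).2.2.2]; omega,
        by rw [(mulL _).2.2.2, (mulL _).2.2.1]; omega⟩
      rw [hm.t, h.t (g * T⁻¹), inv_mul_cancel_right, a2] at a1
      exact add_right_cancel a1
    have key2 : ∀ g : SL(2, ℤ), (g 1 0).natAbs + (g 1 1).natAbs = n →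
        (g 1 1).natAbs ≤ (g 1 0).natAbs → Ms.sy (pt r) g = r g := by
      intro g hn h1
      rcases lt_trichotomy (g 1 0) 0 with h0 | h0 | h0
      · exact hN g (key _ (by simpa using hn) (by simpa using h0) (by simpa using h1))
      · have := det_eq g
        have e : g 1 1 = 0 := by omega
        rw [h0, e] at this; simp at this
      · exact key g hn h0 h1
    rcases le_total (g 1 1).natAbs (g 1 0).natAbs with h1 | h1
    · exact key2 g hn h1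
    · refine hS g (key2 _ ?_ ?_) <;> rw [(mulS g).2.2.1, (mulS g).2.2.2] <;> omega

lemma sy_eq_zero {Φ : Cu → A} (h : ∀ g, sy Φ g = 0) (x : Cu) : Φ x = Φ ∞ := by
  have := pt_sy Φ x
  rw [show sy Φ = fun _ => 0 from funext h, pt, List.map_const', List.sum_replicate, smul_zero,
    neg_zero] at this
  exact sub_eq_zero.1 this.symm

lemma sy_cu (Φ : Cu → A) (γ g : SL(2, ℤ)) : sy (fun x => Φ (cu γ x)) g = sy Φ (γ * g) := by
  rw [sy, sy, cz_mul, cu_mul]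

/-- invariance of the symbol under `γ` makes the potential a cocycle -/
lemma cu_of_inv {Φ : Cu → A} {γ : SL(2, ℤ)} (h : ∀ g, sy Φ (γ * g) = sy Φ g) (x : Cu) :
    Φ (cu γ x) = Φ (cu γ ∞) - Φ ∞ + Φ x := by
  have := sy_eq_zero (Φ := fun x => Φ (cu γ x) - Φ x) (fun g => by
    have := h g
    rw [← sy_cu] at this
    simp only [sy] at this ⊢
    rw [sub_sub_sub_comm, this, sub_self]) x
  rw [← this]; abel

lemma inv_of_cu {Φ : Cu → A} {γ : SL(2, ℤ)} {a : A} (h : ∀ x, Φ (cu γ x) = a + Φ x)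
    (g : SL(2, ℤ)) : sy Φ (γ * g) = sy Φ g := by
  rw [← sy_cu, sy, sy, h, h]; abel

end Crest.Agent.T15.Ms
end
end

-- ▼ part T15/MsB_40
section

/-!
# Row 15, block Ht (helper40): potentials of cusp forms

* `pot f x` the value at the cusp `x` of the primitive `prim f` (`tendsto_pot`);
* `PP f Φ`: `Φ` is the boundary value of a primitive of `f`;
* `sl z f = f ∣ z`, `hk Φ z` the action of `ℤ[GL₂(ℚ)⁺]` on forms and on potentials.
-/

set_option autoImplicit false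
set_option linter.unusedSectionVars false

noncomputable section

namespace Crest.Agent.T15.Ms

open UpperHalfPlane hiding I
open MatrixGroups ModularGroup OnePoint Matrix.SpecialLinearGroup ModularForm Filter Complex
open scoped Topology Manifold
open Crest.Agent.T15.Mf Crest.Agent.T15.Hk Crest.Agent.T15.Esc

lemma exists_cu (x : Cu) : ∃ g : SL(2, ℤ), cu g ∞ = x := by
  induction x using OnePoint.rec with
  | infty => exact ⟨1, cu_one _⟩
  | coe q => exact ⟨_, cu_nx q⟩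

lemma rr_tri {δ : GQ} (h : ac δ ∞ = ∞) : rr δ 1 0 = 0 := by
  rw [rr_apply, smul_infty_eq_self_iff.1 h, Rat.cast_zero]

lemma exists_tri (δ : GQ) {g : SL(2, ℤ)} (h : cu g ∞ = ac δ ∞) :
    ∃ u : GQ, rr u 1 0 = 0 ∧ δ = Mf.sq g * u :=
  ⟨(sq g)⁻¹ * δ, rr_tri (by rw [ac_mul, ← h, cu, ← ac_mul, inv_mul_cancel, ac_one]),
    (mul_inv_cancel_left _ _).symm⟩

lemma rr_det_pos (δ : GQ) : 0 < (rr δ).val.det := by
  have := rr_pos δ
  rwa [Matrix.GeneralLinearGroup.val_det_apply] at this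

/-- `Φ` is the boundary value of `F` -/
def IsPot (F : ℍ → ℂ) (Φ : Cu → ℂ) : Prop :=
  ∀ δ : GQ, Tendsto (fun z => F (rr δ • z)) atImInfty (𝓝 (Φ (ac δ ∞)))

/-- the value of `prim f` at a cusp -/
def pot (f : ℍ → ℂ) (x : Cu) : ℂ := limUnder atImInfty fun z => prim f ((exists_cu x).choose • z)

variable {Γ : Subgroup SL(2, ℤ)} {f f' F F' : ℍ → ℂ} {Φ Φ' : Cu → ℂ}

theorem tendsto_pot [Γ.FiniteIndex] (hf : f ∈ CS Γ 2) (δ : GQ) :
    Tendsto (fun z => prim f (rr δ • z)) atImInfty (𝓝 (pot f (ac δ ∞))) := by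
  obtain ⟨M, hM⟩ := exists_wid Γ
  obtain ⟨u, hu, e⟩ := exists_tri δ (exists_cu (ac δ ∞)).choose_spec
  have h1 := tendsto_nhds_limUnder (((isPrim_prim hf.1).comp_SL (exists_cu (ac δ ∞)).choose).tendsto
    hM.pos (hM.periodic hf.2.1 _) (hf.2.2 _))
  refine (h1.comp (tendsto_smul_atImInfty hu)).congr fun z => ?_
  conv_rhs => rw [e, map_mul, mul_smul, rr_sq_smul]
  rfl

theorem tendsto_pot_SL [Γ.FiniteIndex] (hf : f ∈ CS Γ 2) (g : SL(2, ℤ)) :
    Tendsto (fun z => prim f (g • z)) atImInfty (𝓝 (pot f (cu g ∞))) := by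
  simpa only [rr_sq_smul] using! tendsto_pot hf (sq g)

lemma IsPot.eq (h : IsPot F Φ) (h' : IsPot F' Φ') {c : ℂ} (e : ∀ z, F z = c + F' z) (x : Cu) :
    Φ x = c + Φ' x := by
  obtain ⟨g, rfl⟩ := exists_cu x
  exact tendsto_nhds_unique (h (sq g)) (((h' (sq g)).const_add c).congr fun z => (e _).symm)

lemma IsPot.comp (h : IsPot F Φ) (δ : GQ) : IsPot (fun z => F (rr δ • z)) fun x => Φ (ac δ x) :=
  fun ε => by simpa only [map_mul, mul_smul, ac_mul] using h (δ * ε)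

/-- `Φ` is the boundary value of a primitive of `f` -/
def PP (f : ℍ → ℂ) (Φ : Cu → ℂ) : Prop := ∃ F, IsPrim F f ∧ IsPot F Φ

lemma pp_pot [Γ.FiniteIndex] (hf : f ∈ CS Γ 2) : PP f (pot f) :=
  ⟨_, isPrim_prim hf.1, tendsto_pot hf⟩

lemma pp_zero : PP 0 0 := ⟨_, isPrim_const 0, fun _ => tendsto_const_nhds⟩

lemma PP.add (h : PP f Φ) (h' : PP f' Φ') : PP (f + f') (Φ + Φ') := by
  obtain ⟨F, h1, h2⟩ := h
  obtain ⟨F', h1', h2'⟩ := h'
  exact ⟨_, h1.add h1', fun δ => (h2 δ).add (h2' δ)⟩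

lemma PP.smul (c : ℂ) (h : PP f Φ) : PP (c • f) (c • Φ) := by
  obtain ⟨F, h1, h2⟩ := h
  exact ⟨_, h1.smul c, fun δ => (h2 δ).const_mul c⟩

lemma PP.sum {ι : Type*} (s : Finset ι) {f : ι → ℍ → ℂ} {Φ : ι → Cu → ℂ}
    (h : ∀ i, PP (f i) (Φ i)) : PP (∑ i ∈ s, f i) (∑ i ∈ s, Φ i) := by
  classical
  induction s using Finset.induction_on with
  | empty => simpa using pp_zero
  | insert a s ha ih => rw [Finset.sum_insert ha, Finset.sum_insert ha]; exact (h a).add ih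

lemma PP.slash (h : PP f Φ) (δ : GQ) : PP (f ∣[(2 : ℤ)] rr δ) fun x => Φ (ac δ x) := by
  obtain ⟨F, h1, h2⟩ := h
  exact ⟨_, h1.comp_smul (rr_det_pos δ), h2.comp δ⟩

lemma PP.unique (h : PP f Φ) (h' : PP f Φ') : ∃ c, ∀ x, Φ x = c + Φ' x := by
  obtain ⟨F, h1, h2⟩ := h
  obtain ⟨F', h1', h2'⟩ := h'
  exact ⟨F UpperHalfPlane.I - F' UpperHalfPlane.I, h2.eq h2' fun z => by
    linear_combination h1.sub_eq h1' z UpperHalfPlane.I⟩

lemma PP.cu_eq (h : PP f Φ) {γ : SL(2, ℤ)} (hγ : f ∣[(2 : ℤ)] γ = f) (x : Cu) :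
    Φ (cu γ x) = per f γ + Φ x := by
  obtain ⟨F, h1, h2⟩ := h
  exact (h2.comp (sq γ)).eq h2 (fun z => by rw [rr_sq_smul]; exact per_SL h1 hγ z) x

theorem pot_cu [Γ.FiniteIndex] (hf : f ∈ CS Γ 2) {γ : SL(2, ℤ)} (hγ : γ ∈ Γ) (x : Cu) :
    pot f (cu γ x) = per f γ + pot f x := (pp_pot hf).cu_eq (hf.2.1 γ hγ) x

/-! ### the group ring -/

/-- `f ∣ z` -/
def sl (z : MonoidAlgebra ℤ GQ) (f : ℍ → ℂ) : ℍ → ℂ := lin ℤ (fun δ => f ∣[(2 : ℤ)] rr δ) z

/-- `Φ ∣ z` -/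
def hk {A : Type*} [AddCommGroup A] (Φ : Cu → A) (z : MonoidAlgebra ℤ GQ) (x : Cu) : A :=
  lin ℤ (fun δ => Φ (ac δ x)) z

lemma lin_ind {p : MonoidAlgebra ℤ GQ → Prop} (h0 : p 0) (ha : ∀ x y, p x → p y → p (x + y))
    (hs : ∀ (n : ℤ) δ, p (n • e ℤ δ)) (z : MonoidAlgebra ℤ GQ) : p z := by
  induction z using MonoidAlgebra.induction_linear with
  | zero => exact h0
  | add x y hx hy => exact ha x y hx hy
  | single g r => rw [single_eq]; exact hs r g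

lemma sl_add (z w : MonoidAlgebra ℤ GQ) (f : ℍ → ℂ) : sl (z + w) f = sl z f + sl w f := map_add _ _ _
lemma sl_sub (z w : MonoidAlgebra ℤ GQ) (f : ℍ → ℂ) : sl (z - w) f = sl z f - sl w f := map_sub _ _ _
lemma sl_zsmul (n : ℤ) (z : MonoidAlgebra ℤ GQ) (f : ℍ → ℂ) : sl (n • z) f = (n : ℂ) • sl z f := by
  rw [Int.cast_smul_eq_zsmul]; exact map_smul _ _ _
lemma sl_e (δ : GQ) (f : ℍ → ℂ) : sl (e ℤ δ) f = f ∣[(2 : ℤ)] rr δ := lin_e _ _
lemma sl_zero (f : ℍ → ℂ) : sl 0 f = 0 := map_zero _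
lemma sl_one (f : ℍ → ℂ) : sl 1 f = f := by
  rw [← e_one, sl_e, map_one, SlashAction.slash_one]

lemma PP.hk (h : PP f Φ) (z : MonoidAlgebra ℤ GQ) : PP (sl z f) (hk Φ z) := by
  induction z using lin_ind with
  | h0 =>
    rw [sl_zero, show Ms.hk Φ 0 = 0 from funext fun x => map_zero _]
    exact pp_zero
  | ha x y hx hy =>
    rw [sl_add, show Ms.hk Φ (x + y) = Ms.hk Φ x + Ms.hk Φ y from funext fun _ => map_add _ _ _]
    exact hx.add hy
  | hs n δ =>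
    rw [sl_zsmul, sl_e, show Ms.hk Φ (n • e ℤ δ) = (n : ℂ) • fun x => Φ (ac δ x) from
      funext fun x => by rw [Ms.hk, _root_.map_smul, lin_e, Int.cast_smul_eq_zsmul]; rfl]
    exact (h.slash δ).smul _

lemma sl_slash (z : MonoidAlgebra ℤ GQ) (f : ℍ → ℂ) (δ : GQ) :
    sl z f ∣[(2 : ℤ)] rr δ = sl (z * e ℤ δ) f := by
  induction z using lin_ind with
  | h0 => simp [sl_zero]
  | ha x y hx hy => rw [sl_add, SlashAction.add_slash, hx, hy, add_mul, sl_add]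
  | hs n ε =>
    rw [smul_mul_assoc, ← e_mul, sl_zsmul, sl_zsmul, sl_e, sl_e, map_mul, SlashAction.slash_mul,
      Int.cast_smul_eq_zsmul, Int.cast_smul_eq_zsmul]
    exact map_zsmul (AddMonoidHom.mk' (fun u : ℍ → ℂ => u ∣[(2 : ℤ)] rr δ) fun a b =>
      SlashAction.add_slash _ _ a b) n _

lemma sl_null (hf : ∀ γ ∈ Γ, f ∣[(2 : ℤ)] γ = f) {z : MonoidAlgebra ℤ GQ}
    (hz : z ∈ Null ℤ (Γ.map sq)) : sl z f = 0 :=
  null_lin hz (by
    rintro _ ⟨γ, hγ, rfl⟩ δ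
    rw [map_mul, SlashAction.slash_mul, slash_sq, hf γ hγ])

theorem sl_mem (hf : f ∈ CS Γ 2) {c : MonoidAlgebra ℤ GQ} {Γ' : Subgroup SL(2, ℤ)}
    (hc : c ∈ Corr ℤ (Γ.map sq) (Γ'.map sq)) : sl c f ∈ CS Γ' 2 := by
  have key : ∀ z, MDiff (sl z f) ∧ IsZeroAtImInfty (sl z f) := fun z => by
    induction z using lin_ind with
    | h0 => rw [sl_zero]; exact ⟨mdifferentiable_const, Filter.zero_zeroAtFilter atImInfty⟩
    | ha x y hx hy => rw [sl_add]; exact ⟨hx.1.add hy.1, hx.2.add hy.2⟩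
    | hs n δ =>
      rw [sl_zsmul, sl_e]
      refine ⟨(hf.1.slash 2 _).const_smul _, Filter.ZeroAtFilter.smul _ ?_⟩
      obtain ⟨g, hg⟩ := exists_cu (ac δ ∞)
      obtain ⟨u, hu, rfl⟩ := exists_tri δ hg
      rw [map_mul, SlashAction.slash_mul, slash_sq]
      exact (hf.2.2 g).slash 2 hu
  refine ⟨(key c).1, fun γ hγ => ?_, fun s => ?_⟩
  · rw [← slash_sq, sl_slash, ← sub_eq_zero, ← sl_sub]
    exact sl_null hf.2.1 (hc _ ⟨γ, hγ, rfl⟩)
  · rw [← slash_sq, sl_slash]; exact (key _).2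

end Crest.Agent.T15.Ms
end
end

-- ▼ part T15/MsC_40

/-!
# Row 15, block Ht (helper40): normalised symbols, heights, cosets

* `Ht x` height of a cusp, `Sz δ m` integral matrices with small entries, `exists_rep`;
* `kp Γ x` the canonical cusp of the orbit of `x`, `nm Γ Φ x = Φ x - Φ (kp Γ x)`;
* `rm g` right multiplication on the cosets, `rs Γ f`, `rn Γ f` the symbols, `hab_rn`, `per_comb`.
-/

set_option autoImplicit false
set_option linter.unusedSectionVars false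

noncomputable section

namespace Crest.Agent.T15.Ms

open UpperHalfPlane hiding I
open MatrixGroups ModularGroup OnePoint Matrix.SpecialLinearGroup ModularForm Filter Complex
open scoped Topology Manifold ComplexConjugate
open Crest.Agent.T15.Mf Crest.Agent.T15.Hk Crest.Agent.T15.Esc

/-- the height of a cusp -/
def Ht (x : Cu) : ℕ := OnePoint.rec 1 (fun q : ℚ => max q.num.natAbs q.den) x

lemma ht_le_Ht (x : Cu) : ht x ≤ Ht x := by
  induction x using OnePoint.rec with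
  | infty => exact Nat.zero_le _
  | coe q => exact le_max_right _ _

lemma Ht_pos (x : Cu) : 1 ≤ Ht x := by
  induction x using OnePoint.rec with
  | infty => exact le_rfl
  | coe q => exact le_max_of_le_right q.den_pos

lemma Ht_infty_le (δ : GQ) {a c : ℤ} (ha : (δ : GL (Fin 2) ℚ) 0 0 = a)
    (hc : (δ : GL (Fin 2) ℚ) 1 0 = c) {n : ℕ} (hn : 1 ≤ n) (h1 : a.natAbs ≤ n) (h2 : c.natAbs ≤ n) :
    Ht (ac δ ∞) ≤ n := by
  rw [ac_infty, ha, hc]
  split_ifs with h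
  · exact hn
  · have hc0 : c ≠ 0 := by exact_mod_cast h
    refine max_le ?_ ((den_div_le a c hc0).trans h2)
    rcases eq_or_ne a 0 with rfl | h0
    · simp
    · have := Rat.num_dvd a hc0
      rw [Rat.divInt_eq_div] at this
      exact (Nat.le_of_dvd (Int.natAbs_pos.2 h0) (Int.natAbs_dvd_natAbs.2 this)).trans h1

lemma exists_vec (x : Cu) : ∃ g : SL(2, ℤ), cu g ∞ = x ∧ (g 0 0).natAbs ≤ Ht x ∧
    (g 1 0).natAbs ≤ Ht x := by
  induction x using OnePoint.rec with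
  | infty => exact ⟨1, cu_one _, le_rfl, Nat.zero_le _⟩
  | coe q =>
    refine ⟨_, cu_nx q, ?_, by rw [← ht_cu, cu_nx]; exact ht_le_Ht _⟩
    have g0 : 0 < nx q 1 0 := (nx_rd q).1.trans_lt (nx_rd q).2
    have h := cu_nx q
    rw [cu_infty, if_neg g0.ne'] at h
    rw [← Rat.num_div_eq_of_coprime g0 (coprime_col _), coe_injective h]
    exact le_max_left _ _

/-- integral matrices with entries at most `m` -/
def Sz (δ : GQ) (m : ℕ) : Prop := 1 ≤ m ∧ ∃ M : Fin 2 → Fin 2 → ℤ,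
  (∀ i j, (δ : GL (Fin 2) ℚ) i j = M i j) ∧ ∀ i j, (M i j).natAbs ≤ m

lemma Sz.mono {δ : GQ} {m m' : ℕ} (h : Sz δ m) (h' : m ≤ m') : Sz δ m' :=
  let ⟨h1, M, h2, h3⟩ := h
  ⟨h1.trans h', M, h2, fun i j => (h3 i j).trans h'⟩

lemma Sz.Ht_le {δ : GQ} {m : ℕ} (h : Sz δ m) (x : Cu) : Ht (ac δ x) ≤ 2 * m * Ht x := by
  obtain ⟨h1, M, h2, h3⟩ := h
  obtain ⟨g, hg, h4, h5⟩ := exists_vec x
  have e : ∀ i, ((δ * Mf.sq g : GQ) : GL (Fin 2) ℚ) i 0 = (M i 0 * g 0 0 + M i 1 * g 1 0 : ℤ) := by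
    intro i
    rw [Subgroup.coe_mul, Units.val_mul, Matrix.mul_apply, Fin.sum_univ_two, h2, h2, sq_apply,
      sq_apply]
    push_cast; rfl
  have b : ∀ i, (M i 0 * g 0 0 + M i 1 * g 1 0).natAbs ≤ 2 * m * Ht x := fun i =>
    (Int.natAbs_add_le _ _).trans (by
      rw [Int.natAbs_mul, Int.natAbs_mul]
      linarith [Nat.mul_le_mul (h3 i 0) h4, Nat.mul_le_mul (h3 i 1) h5])
  conv_lhs => rw [← hg, cu, ← ac_mul]
  exact Ht_infty_le _ (e 0) (e 1) (by nlinarith [Ht_pos x]) (b 0) (b 1)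

variable {Γ : Subgroup SL(2, ℤ)}

instance [Γ.FiniteIndex] : Finite (RC Γ) :=
  Finite.of_equiv _ (QuotientGroup.quotientRightRelEquivQuotientLeftRel Γ).symm

/-- right multiplication on the cosets -/
def rm (g : SL(2, ℤ)) : Equiv.Perm (RC Γ) where
  toFun A := cs Γ (A.out * g)
  invFun A := cs Γ (A.out * g⁻¹)
  left_inv A := (cs_eq.2 (by simpa [mul_assoc] using mul_out_mem Γ (A.out * g))).trans A.out_eq
  right_inv A := (cs_eq.2 (by simpa [mul_assoc] using mul_out_mem Γ (A.out * g⁻¹))).trans A.out_eq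

lemma cs_out (A : RC Γ) : cs Γ A.out = A := A.out_eq

lemma cs_mul_right {g h : SL(2, ℤ)} (e : cs Γ g = cs Γ h) (s : SL(2, ℤ)) :
    cs Γ (g * s) = cs Γ (h * s) := cs_eq.2 (by simpa [mul_assoc] using cs_eq.1 e)

lemma rm_cs (g h : SL(2, ℤ)) : rm g (cs Γ h) = cs Γ (h * g) := cs_mul_right (cs_out _) g

/-- small representatives of the cosets -/
theorem exists_rep [Γ.FiniteIndex] (A : RC Γ) :
    ∃ g : SL(2, ℤ), cs Γ g = A ∧ ∀ i j, (g i j).natAbs ≤ 2 ^ Nat.card (RC Γ) := by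
  let X : ℕ → Set (RC Γ) := fun k => {A | ∃ g, cs Γ g = A ∧ ∀ i j, (g i j).natAbs ≤ 2 ^ k}
  have mono : ∀ k, X k ⊆ X (k + 1) := fun k A ⟨g, h1, h2⟩ =>
    ⟨g, h1, fun i j => (h2 i j).trans (Nat.pow_le_pow_right two_pos k.le_succ)⟩
  have one : ∀ k, cs Γ 1 ∈ X k := fun k => ⟨1, rfl, fun i j => le_trans (by
    fin_cases i <;> fin_cases j <;> simp) Nat.one_le_two_pow⟩
  have step : ∀ k (s : SL(2, ℤ)), (∀ i j, (s i j).natAbs ≤ 1) → ∀ g, cs Γ g ∈ X k →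
      cs Γ (g * s) ∈ X (k + 1) := by
    rintro k s hs g ⟨g', h1, h2⟩
    refine ⟨g' * s, cs_mul_right h1 s, fun i j => ?_⟩
    rw [show (g' * s) i j = g' i 0 * s 0 j + g' i 1 * s 1 j by
      simp [Matrix.mul_apply, Fin.sum_univ_two]]
    refine (Int.natAbs_add_le _ _).trans ?_
    rw [Int.natAbs_mul, Int.natAbs_mul, pow_succ]
    linarith [Nat.mul_le_mul (h2 i 0) (hs 0 j), Nat.mul_le_mul (h2 i 1) (hs 1 j)]
  have gen : ∀ s ∈ ({S, T} : Set SL(2, ℤ)), (∀ i j, (s i j).natAbs ≤ 1) ∧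
      ∀ i j, (s⁻¹ i j).natAbs ≤ 1 := by
    rintro s (rfl | rfl) <;> decide
  have key : ∀ k, X k = Set.univ ∨ k < (X k).ncard := by
    intro k
    induction k with
    | zero => exact Or.inr ((Set.ncard_pos (Set.toFinite _)).2 ⟨_, one 0⟩)
    | succ k ih =>
      by_cases h : X (k + 1) ⊆ X k
      · refine Or.inl (Set.eq_univ_of_forall fun A => mono k ?_)
        rw [← cs_out A]
        exact Subgroup.closure_induction_right (p := fun x _ => cs Γ x ∈ X k) (one k)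
          (fun x _ y hy hx => h (step k y (gen y hy).1 x hx))
          (fun x _ y hy hx => h (step k _ (gen y hy).2 x hx))
          (show A.out ∈ Subgroup.closure {S, T} by simp [SpecialLinearGroup.SL2Z_generators])
      · rcases ih with ih | ih
        · exact absurd (ih ▸ Set.subset_univ _) h
        · exact Or.inr (Nat.lt_of_le_of_lt ih (Set.ncard_lt_ncard ⟨mono k, h⟩))
  rcases key (Nat.card (RC Γ)) with h | h
  · exact (h ▸ Set.mem_univ A : A ∈ X _)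
  · exact absurd (Set.ncard_le_card _) h.not_ge

lemma Ht_rep {g : SL(2, ℤ)} {E : ℕ} (h : ∀ i j, (g i j).natAbs ≤ 2 ^ E) :
    Ht (cu g ∞) ≤ 2 ^ E ∧ Ht (cz g) ≤ 2 ^ E :=
  ⟨Ht_infty_le _ (sq_apply _ _ _) (sq_apply _ _ _) Nat.one_le_two_pow (h _ _) (h _ _),
    Ht_infty_le _ (sq_apply _ _ _) (sq_apply _ _ _) Nat.one_le_two_pow
      (by rw [(mulS g).1]; exact h _ _) (by rw [(mulS g).2.2.1]; exact h _ _)⟩

/-! ### canonical cusps -/

/-- the orbit of a cusp -/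
def orb (Γ : Subgroup SL(2, ℤ)) (x : Cu) : Set Cu := {y | ∃ γ ∈ Γ, cu γ y = x}

lemma mem_orb (x : Cu) : x ∈ orb Γ x := ⟨1, one_mem _, cu_one x⟩

lemma orb_cu {γ : SL(2, ℤ)} (hγ : γ ∈ Γ) (x : Cu) : orb Γ (cu γ x) = orb Γ x := by
  ext y
  constructor <;> rintro ⟨δ, hδ, e⟩
  · exact ⟨γ⁻¹ * δ, mul_mem (inv_mem hγ) hδ, by rw [cu_mul, e, ← cu_mul, inv_mul_cancel, cu_one]⟩
  · exact ⟨γ * δ, mul_mem hγ hδ, by rw [cu_mul, e]⟩

/-- the canonical cusp of an orbit -/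
def kp (Γ : Subgroup SL(2, ℤ)) (x : Cu) : Cu := Function.argminOn Ht (orb Γ x) ⟨x, mem_orb x⟩

lemma kp_mem (x : Cu) : ∃ γ ∈ Γ, cu γ (kp Γ x) = x := Function.argminOn_mem Ht (orb Γ x) _

lemma kp_cu {γ : SL(2, ℤ)} (hγ : γ ∈ Γ) (x : Cu) : kp Γ (cu γ x) = kp Γ x := by
  unfold kp; congr 1; exact orb_cu hγ x

lemma kp_kp (x : Cu) : kp Γ (kp Γ x) = kp Γ x := by
  obtain ⟨γ, hγ, e⟩ := kp_mem (Γ := Γ) x
  rw [← kp_cu hγ, e]

lemma Ht_kp (x : Cu) : Ht (kp Γ x) ≤ Ht x := Function.argminOn_le Ht _ (mem_orb x)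

lemma Ht_kp_le [Γ.FiniteIndex] (x : Cu) : Ht (kp Γ x) ≤ 2 ^ Nat.card (RC Γ) := by
  obtain ⟨g, rfl⟩ := exists_cu x
  obtain ⟨g', h1, h2⟩ := exists_rep (cs Γ g)
  rw [← inv_mul_cancel_right g g', cu_mul, kp_cu (cs_eq.1 h1)]
  exact (Ht_kp _).trans (Ht_rep h2).1

variable {A B : Type*} [AddCommGroup A] [AddCommGroup B] {Φ Ψ : Cu → A}

/-- the normalised potential -/
def nm (Γ : Subgroup SL(2, ℤ)) (Φ : Cu → A) (x : Cu) : A := Φ x - Φ (kp Γ x)

/-- cocycle potentials -/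
def Coc (Γ : Subgroup SL(2, ℤ)) (Φ : Cu → A) : Prop := ∀ γ ∈ Γ, ∃ a, ∀ x, Φ (cu γ x) = a + Φ x

/-- invariant potentials -/
def Inv (Γ : Subgroup SL(2, ℤ)) (Φ : Cu → A) : Prop := ∀ γ ∈ Γ, ∀ x, Φ (cu γ x) = Φ x

lemma Inv.kp (h : Inv Γ Φ) (x : Cu) : Φ (kp Γ x) = Φ x := by
  obtain ⟨γ, hγ, e⟩ := kp_mem (Γ := Γ) x
  rw [← h γ hγ, e]

lemma Coc.nm (h : Coc Γ Φ) : Coc Γ (nm Γ Φ) := fun γ hγ =>
  let ⟨a, ha⟩ := h γ hγ
  ⟨a, fun x => by rw [Ms.nm, Ms.nm, kp_cu hγ, ha, add_sub_assoc]⟩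

lemma Coc.sy (h : Coc Γ Φ) {g g' : SL(2, ℤ)} (e : cs Γ g = cs Γ g') : sy Φ g = sy Φ g' := by
  obtain ⟨a, ha⟩ := h _ (cs_eq.1 e)
  rw [← inv_of_cu ha g, inv_mul_cancel_right]

lemma Coc.sum {ι : Type*} (s : Finset ι) {Φ : ι → Cu → A} (h : ∀ i, Coc Γ (Φ i)) :
    Coc Γ fun x => ∑ i ∈ s, Φ i x := fun γ hγ => by
  choose a ha using fun i => h i γ hγ
  exact ⟨∑ i ∈ s, a i, fun x => by simp only [ha, Finset.sum_add_distrib]⟩

lemma ac_sq (γ : SL(2, ℤ)) (x : Cu) : ac (Mf.sq γ) x = cu γ x := rfl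

lemma hk_cu (Φ : Cu → A) (c : MonoidAlgebra ℤ GQ) (γ : SL(2, ℤ)) (x : Cu) :
    hk Φ c (cu γ x) - hk Φ c x = hk Φ (c * e ℤ (Mf.sq γ) - c) x := by
  simp only [hk, map_sub, lin_mul_e, ac_mul, ac_sq]

lemma Inv.hk (h : Inv Γ Φ) {c : MonoidAlgebra ℤ GQ} (hc : c ∈ Corr ℤ (Γ.map Mf.sq) (Γ.map Mf.sq)) :
    Inv Γ (hk Φ c) := fun γ hγ x => by
  rw [← sub_eq_zero, hk_cu]
  refine null_lin (hc _ ⟨γ, hγ, rfl⟩) ?_
  rintro _ ⟨γ', hγ', rfl⟩ δ
  rw [ac_mul, ac_sq, h γ' hγ']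

lemma Coc.hk (h : Coc Γ Φ) {c : MonoidAlgebra ℤ GQ} (hc : c ∈ Corr ℤ (Γ.map Mf.sq) (Γ.map Mf.sq)) :
    Coc Γ (hk Φ c) := fun γ hγ => ⟨Ms.hk Φ (c * e ℤ (Mf.sq γ) - c) ∞, fun x => by
  rw [← sub_eq_iff_eq_add, hk_cu, ← sub_eq_zero, Ms.hk, Ms.hk, ← lin_sub]
  refine null_lin (hc _ ⟨γ, hγ, rfl⟩) ?_
  rintro _ ⟨γ', hγ', rfl⟩ δ
  obtain ⟨a, ha⟩ := h γ' hγ'
  rw [ac_mul, ac_mul, ac_sq, ac_sq, ha, ha]; abel⟩

/-- finitely many small cusps detect invariance -/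
theorem Coc.inv [Γ.FiniteIndex] (h : Coc Γ Φ)
    (h' : ∀ x, Ht x ≤ 2 ^ Nat.card (RC Γ) → Φ x = Φ (kp Γ x)) : Inv Γ Φ := fun γ hγ x => by
  have h1 := sy_eq_zero (Φ := Ms.nm Γ Φ) fun g => by
    obtain ⟨g', h1, h2⟩ := exists_rep (cs Γ g)
    rw [← h.nm.sy h1, Ms.sy, Ms.nm, Ms.nm, ← h' _ (Ht_rep h2).1, ← h' _ (Ht_rep h2).2]; abel
  have h2 := (h1 (cu γ x)).trans (h1 x).symm
  rwa [Ms.nm, Ms.nm, kp_cu hγ, sub_left_inj] at h2

/-! ### symbols of cusp forms -/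

/-- the Manin symbol `∫_{A∞}^{A0} f` -/
def rs (Γ : Subgroup SL(2, ℤ)) (f : ℍ → ℂ) (A : RC Γ) : ℂ := sy (pot f) A.out

/-- the normalised Manin symbol -/
def rn (Γ : Subgroup SL(2, ℤ)) (f : ℍ → ℂ) (A : RC Γ) : ℂ := sy (nm Γ (pot f)) A.out

variable [Γ.FiniteIndex] {f f' : ℍ → ℂ}

lemma coc_pot (hf : f ∈ CS Γ 2) : Coc Γ (pot f) := fun _ hγ => ⟨_, pot_cu hf hγ⟩

lemma rs_cs (hf : f ∈ CS Γ 2) (g : SL(2, ℤ)) : rs Γ f (cs Γ g) = sy (pot f) g :=
  (coc_pot hf).sy (cs_out _)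

lemma rn_cs (hf : f ∈ CS Γ 2) (g : SL(2, ℤ)) : rn Γ f (cs Γ g) = sy (nm Γ (pot f)) g :=
  (coc_pot hf).nm.sy (cs_out _)

lemma PP.rs_eq (hf : f ∈ CS Γ 2) {Φ : Cu → ℂ} (h : PP f Φ) (A : RC Γ) :
    rs Γ f A = sy Φ A.out ∧ rn Γ f A = sy (nm Γ Φ) A.out := by
  obtain ⟨c, hc⟩ := (pp_pot hf).unique h
  constructor <;> simp only [rs, rn, sy, nm, hc] <;> ring



lemma rn_add (hf : f ∈ CS Γ 2) (hf' : f' ∈ CS Γ 2) (A : RC Γ) :
    rn Γ (f + f') A = rn Γ f A + rn Γ f' A := by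
  rw [(((pp_pot hf).add (pp_pot hf')).rs_eq (add_mem hf hf') A).2]
  simp only [rn, sy, nm, Pi.add_apply]; ring

lemma rn_smul (c : ℂ) (hf : f ∈ CS Γ 2) (A : RC Γ) : rn Γ (c • f) A = c * rn Γ f A := by
  rw [(((pp_pot hf).smul c).rs_eq (Submodule.smul_mem _ c hf) A).2]
  simp only [rn, sy, nm, Pi.smul_apply, smul_eq_mul]; ring

lemma rn_sum {ι : Type*} (s : Finset ι) (c : ι → ℂ) {f : ι → ℍ → ℂ} (hf : ∀ i, f i ∈ CS Γ 2)
    (A : RC Γ) : rn Γ (∑ i ∈ s, c i • f i) A = ∑ i ∈ s, c i * rn Γ (f i) A := by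
  rw [((PP.sum s fun i => (pp_pot (hf i)).smul (c i)).rs_eq
    (sum_mem fun i _ => Submodule.smul_mem _ _ (hf i)) A).2]
  simp only [rn, sy, nm, Finset.sum_apply, Pi.smul_apply, smul_eq_mul, mul_sub,
    Finset.sum_sub_distrib]

lemma map_pt (φ : A →+ B) (r : SL(2, ℤ) → A) (x : Cu) : φ (pt r x) = pt (fun g => φ (r g)) x := by
  rw [pt, pt, map_neg, map_list_sum, List.map_map]; rfl

/-- the periods are integral combinations of the normalised symbols -/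
theorem per_comb [Fintype (RC Γ)] {γ : SL(2, ℤ)} (hγ : γ ∈ Γ) :
    ∃ m : RC Γ → ℤ, ∀ f ∈ CS Γ 2, per f γ = ∑ A, m A * rn Γ f A := by
  classical
  refine ⟨pt (fun g => Pi.single (cs Γ g) 1) (cu γ ∞), fun f hf => ?_⟩
  have h1 := map_pt (Fintype.linearCombination ℤ (rn Γ f)).toAddMonoidHom
    (fun g => Pi.single (cs Γ g) 1) (cu γ ∞)
  simp only [LinearMap.toAddMonoidHom_coe, Fintype.linearCombination_apply_single, one_smul,
    rn_cs hf] at h1
  rw [Fintype.linearCombination_apply, pt_sy, nm, nm, kp_cu hγ, pot_cu hf hγ] at h1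
  simp only [zsmul_eq_mul] at h1
  linear_combination -h1

lemma hab_core {P : Type*} [Fintype P] (S T : Equiv.Perm P)
    (V3 : ∀ A, T (S (T (S (T (S A))))) = A) (y b : P → ℂ) (hS : ∀ A, y (S A) = -y A)
    (h3 : ∀ A, y A + y (T (S A)) + y (T (S (T (S A)))) = 0) (hb : ∀ A, b (T A) = b A) :
    ∑ A, (conj (y A - (b (S A) - b A)) * (y (T (S A)) - (b (S (T (S A))) - b (T (S A))))).im =
    ∑ A, (conj (y A + (b (S A) - b A)) * (y (T (S A)) + (b (S (T (S A))) - b (T (S A))))).im := by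
  have hV := fun φ : P → ℂ => Equiv.sum_comp (S.trans T) φ
  simp only [Equiv.trans_apply] at hV
  have e1 := hV fun A => conj (b A) * y A
  have e2 := hV fun A => conj (b A) * y (T (S A))
  have e3 := Equiv.sum_comp ((((S.trans T).trans S).trans T).trans S) fun A => conj (b (T A)) * y A
  simp only [Equiv.trans_apply, V3, hS] at e3
  simp only [hb] at e1 e2 e3
  have e4 : ∑ A, conj (b A) * y (T (S A)) = 0 := by
    rw [← sub_eq_zero, ← Finset.sum_sub_distrib] at e3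
    rw [← e3]
    exact Finset.sum_congr rfl fun A _ => by linear_combination conj (b A) * h3 A
  have e5 : ∑ A, conj (b (S A) - b A) * (y (T (S A)) - y (T (S (T (S A))))) = 0 := by
    simp only [map_sub, sub_mul, mul_sub, mul_neg, Finset.sum_sub_distrib,
      Finset.sum_neg_distrib] at e3 ⊢
    linear_combination e1 - e2 - 2 * e4 - e3
  have e6 := (Equiv.sum_comp (((S.trans T).trans S).trans T)
    fun A => (conj (y A) * (b (S (T (S A))) - b (T (S A)))).im)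
  simp only [Equiv.trans_apply, V3] at e6
  have e7 := congrArg Complex.im e5
  rw [im_sum, zero_im] at e7
  rw [← sub_eq_zero] at e6 ⊢
  rw [← Finset.sum_sub_distrib] at e6 ⊢
  rw [show (0 : ℝ) = 2 * 0 - 2 * 0 by ring]
  nth_rewrite 1 [← e6]
  rw [← e7, Finset.mul_sum, Finset.mul_sum, ← Finset.sum_sub_distrib]
  refine Finset.sum_congr rfl fun A _ => ?_
  simp only [mul_im, conj_re, conj_im, sub_re, sub_im, add_re, add_im]
  ring

lemma rm_V3 (h1 : -1 ∈ Γ) (A : RC Γ) : rm T (rm S (rm T (rm S (rm T (rm S A))))) = A := by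
  rw [← cs_out A]
  simp only [rm_cs, mul_assoc]
  rw [show S * (T * (S * (T * (S * T)))) = -1 by decide, mul_neg_one, ← neg_one_mul, cs_mul h1]


lemma Man.three {r : SL(2, ℤ) → A} (h : Man r) (g : SL(2, ℤ)) :
    r g + r (g * S * T) + r (g * S * T * S * T) = 0 := by
  have h1 := h.t (g * S)
  rw [h.s] at h1
  rw [show g * S * T * S * T = g * S * Lm by simp only [mul_assoc]; congr 2; decide, add_assoc, ← h1,
    add_neg_cancel]

/-- Haberland's form does not see the normalisation -/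
theorem hab_rn [Fintype (RC Γ)] (h1 : -1 ∈ Γ) (hf : f ∈ CS Γ 2) :
    ∑ A, (conj (rn Γ f A) * rn Γ f (rm T (rm S A))).im =
      ∑ A, (conj (rs Γ f A) * rs Γ f (rm T (rm S A))).im := by
  have hc : Coc Γ fun x => pot f x - pot f (kp Γ x) / 2 := fun γ hγ =>
    ⟨per f γ, fun x => by simp only [kp_cu hγ, pot_cu hf hγ]; ring⟩
  let y : RC Γ → ℂ := fun A => sy (fun x => pot f x - pot f (kp Γ x) / 2) A.out
  let b : RC Γ → ℂ := fun A => pot f (kp Γ (cu A.out ∞)) / 2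
  have hy : ∀ g, y (cs Γ g) = sy (fun x => pot f x - pot f (kp Γ x) / 2) g := fun g =>
    hc.sy (cs_out _)
  have hb : ∀ g, b (cs Γ g) = pot f (kp Γ (cu g ∞)) / 2 := fun g => by
    conv_rhs => rw [← inv_mul_cancel_right g (cs Γ g).out, cu_mul, kp_cu (mul_out_mem Γ g)]
  have ind : ∀ {p : RC Γ → Prop}, (∀ g, p (cs Γ g)) → ∀ A, p A := fun h A => cs_out A ▸ h _
  have e1 : ∀ A, rn Γ f A = y A - (b (rm S A) - b A) := ind fun g => by
    rw [rn_cs hf, rm_cs, hy, hb, hb]; simp only [sy, nm, cz]; ring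
  have e2 : ∀ A, rs Γ f A = y A + (b (rm S A) - b A) := ind fun g => by
    rw [rs_cs hf, rm_cs, hy, hb, hb]; simp only [sy, cz]; ring
  simp only [e1, e2]
  exact hab_core _ _ (rm_V3 h1) y b (ind fun g => by rw [rm_cs, hy, hy, (man_sy _).s])
    (ind fun g => by simp only [rm_cs, hy, (man_sy _).three])
    (ind fun g => by rw [rm_cs, hb, hb, cu_mulT])

end Crest.Agent.T15.Ms
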