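import Mathlib

/-!
# Row 15, block L: long arithmetic progressions of primes in a residue class (helper15)

From the statement of `S0068` (`APStmt`): a set with `∑ log n / n = ∞` contains arbitrarily long
progressions; the primes of an invertible residue class are such a set (Mathlib's Dirichlet).
-/

set_option autoImplicit false

namespace Crest.Agent.T15.PrAP

open Real

/-- the statement of `S0068` -/
def APStmt : Prop := ∀ k : ℕ, 3 ≤ k →
  ∃ C c ε : ℝ, 0 < C ∧ 0 < c ∧ 0 < ε ∧ ∀ N : ℕ, 2 ≤ N → ∀ A : Finset ℕ,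
    A ⊆ Finset.Icc 1 N → (∀ a d : ℕ, 0 < d → ∃ i, i < k ∧ a + i * d ∉ A) →
      (A.card : ℝ) ≤ C * N * Real.exp (-(c * Real.log N ^ ε))

theorem summable_aux {c ε : ℝ} (hc : 0 < c) (hε : 0 < ε) :
    Summable fun j : ℕ => ((j + 1 : ℕ) * log 2) * exp (-(c * ((j + 1 : ℕ) * log 2) ^ ε)) := by
  obtain ⟨m, hm⟩ := exists_nat_gt (2 / ε)
  have hm' : 1 - ε * m < -1 := by rw [div_lt_iff₀ hε] at hm; nlinarith
  have h2 : 0 < log 2 := log_pos one_lt_two
  have hs : Summable fun j : ℕ => (m.factorial / c ^ m * log 2 ^ (1 - ε * m)) *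
      ((j + 1 : ℕ) : ℝ) ^ (1 - ε * m) :=
    ((summable_nat_add_iff 1).2 (summable_nat_rpow.2 hm')).mul_left _
  refine hs.of_nonneg_of_le (fun j => by positivity) fun j => ?_
  have hj : (0 : ℝ) < (j + 1 : ℕ) := by positivity
  rw [mul_assoc (_ / _), ← mul_rpow h2.le hj.le, mul_comm (log 2)]
  generalize ht : ((j + 1 : ℕ) : ℝ) * log 2 = t
  have ht0 : 0 < t := ht ▸ by positivity
  have h1 := pow_div_factorial_le_exp (c * t ^ ε) (by positivity) m
  rw [mul_pow, ← rpow_natCast (t ^ ε), ← rpow_mul ht0.le, div_le_iff₀ (by positivity)] at h1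
  rw [exp_neg, rpow_sub ht0, rpow_one, ← div_eq_mul_inv, div_mul_div_comm,
    div_le_div_iff₀ (by positivity) (by positivity)]
  nlinarith

theorem summable_of_noAP (H : APStmt) {k : ℕ} (hk : 3 ≤ k) {A : Set ℕ}
    (hA : ∀ a d : ℕ, 0 < d → ∃ i, i < k ∧ a + i * d ∉ A) :
    Summable fun n : ℕ => A.indicator (fun n => log n / n) n := by
  classical
  obtain ⟨C, c, ε, hC, hc, hε, H⟩ := H k hk
  have hs := (summable_aux hc hε).mul_left (2 * C)
  have h0 : ∀ n : ℕ, 0 ≤ A.indicator (fun n : ℕ => log n / n) n := fun n =>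
    Set.indicator_nonneg (fun n _ => div_nonneg (log_natCast_nonneg n) n.cast_nonneg) n
  refine summable_of_sum_le h0 (c := ∑' j, _) fun s => le_trans ?_
    (hs.sum_le_tsum (s.image (Nat.log 2)) fun j _ => by have := log_pos one_lt_two; positivity)
  rw [← Finset.sum_fiberwise_of_maps_to (fun n hn => Finset.mem_image_of_mem (Nat.log 2) hn)]
  refine Finset.sum_le_sum fun j _ => ?_
  let T := (s.filter fun n => Nat.log 2 n = j).filter fun n => n ∈ A ∧ n ≠ 0
  have hT : ∀ n ∈ T, n ∈ A ∧ 2 ^ j ≤ n ∧ n < 2 ^ (j + 1) := fun n hn => by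
    simp only [T, Finset.mem_filter] at hn
    obtain ⟨⟨-, rfl⟩, h1, h2⟩ := hn
    exact ⟨h1, Nat.pow_log_le_self 2 h2, Nat.lt_pow_succ_log_self one_lt_two n⟩
  have hl : log ((2 ^ (j + 1) : ℕ) : ℝ) = (j + 1 : ℕ) * log 2 := by
    rw [Nat.cast_pow, log_pow, Nat.cast_ofNat]
  have h1 := H (2 ^ (j + 1)) (Nat.le_self_pow (by omega) 2) T
    (fun n hn => Finset.mem_Icc.2 ⟨le_trans Nat.one_le_two_pow (hT n hn).2.1, (hT n hn).2.2.le⟩)
    fun a d hd => (hA a d hd).imp fun i hi => ⟨hi.1, fun h => hi.2 (hT _ h).1⟩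
  rw [hl] at h1
  calc _ = ∑ n ∈ T, A.indicator (fun n : ℕ => log n / n) n := by
        refine (Finset.sum_filter_of_ne fun n _ hn => ⟨Set.mem_of_indicator_ne_zero hn, ?_⟩).symm
        rintro rfl
        exact hn (by simp [Set.indicator])
    _ ≤ T.card • (((j + 1 : ℕ) * log 2) / 2 ^ j) := by
        refine Finset.sum_le_card_nsmul _ _ _ fun n hn => ?_
        obtain ⟨h1, h2, h3⟩ := hT n hn
        have h4 : 0 < n := lt_of_lt_of_le Nat.one_le_two_pow h2
        rw [Set.indicator_of_mem h1, ← hl]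
        refine div_le_div₀ (log_natCast_nonneg _) (log_le_log (by exact_mod_cast h4)
          (by exact_mod_cast h3.le)) (by positivity) (by exact_mod_cast h2)
    _ ≤ _ := by
        rw [nsmul_eq_mul]
        refine (mul_le_mul_of_nonneg_right h1 (by have := log_pos one_lt_two; positivity)).trans
          (le_of_eq ?_)
        push_cast
        field_simp
        ring

/-- a set with `∑ log n / n = ∞` contains `k`-term progressions beyond any bound -/
theorem exists_ap (H : APStmt) {A : Set ℕ}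
    (hA : ¬ Summable fun n : ℕ => A.indicator (fun n => log n / n) n) (k B : ℕ) :
    ∃ x d : ℕ, 0 < d ∧ B < x ∧ ∀ i < k, x + i * d ∈ A := by
  by_contra h
  push Not at h
  have h1 := summable_of_noAP H (le_max_right k 3) (A := A ∩ {n | B < n}) fun a d hd => by
    by_cases ha : B < a
    · obtain ⟨i, hi, hi'⟩ := h a d hd ha
      exact ⟨i, lt_max_of_lt_left hi, fun h => hi' h.1⟩
    · exact ⟨0, by omega, fun h => ha (by simpa using h.2)⟩
  refine hA ((summable_nat_add_iff (B + 1)).1 (((summable_nat_add_iff (B + 1)).2 h1).congr fun n => ?_))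
  have : B < n + (B + 1) := by omega
  by_cases h2 : n + (B + 1) ∈ A
  · rw [Set.indicator_of_mem h2, Set.indicator_of_mem (show _ ∈ A ∩ {n | B < n} from ⟨h2, this⟩)]
  · rw [Set.indicator_of_notMem h2, Set.indicator_of_notMem fun h => h2 h.1]



/-- `k`-term progressions of primes in the class `a mod q`, beyond any bound -/
theorem prime_ap (H : APStmt) {q : ℕ} [NeZero q] {a : ZMod q} (ha : IsUnit a) (k B : ℕ) :
    ∃ x d : ℕ, 0 < d ∧ B < x ∧ ∀ i < k, (x + i * d).Prime ∧ ((x + i * d : ℕ) : ZMod q) = a := by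
  refine exists_ap H (A := {n | n.Prime ∧ (n : ZMod q) = a}) (fun h => ?_) k B
  refine ArithmeticFunction.vonMangoldt.not_summable_residueClass_prime_div ha (h.congr fun n => ?_)
  by_cases h1 : n.Prime
  · by_cases h2 : (n : ZMod q) = a
    · simp [ArithmeticFunction.vonMangoldt.residueClass, h1, h2,
        ArithmeticFunction.vonMangoldt_apply_prime h1]
    · simp [ArithmeticFunction.vonMangoldt.residueClass, h1, h2]
  · simp [h1]

end Crest.Agent.T15.PrAP
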