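import Crest.Agent.T15.Tan_28
import Crest.Agent.R018.TameP_31
import Crest.Agent.R018.Places3_484

/-!
# Row 15, block R (helper3): inertia at the primes of the level, read on traces

For a representation `σ` over a finite local ring of residue characteristic `p` and a place `P` of
residue characteristic `≠ p`, the image of `I_P ∩ ker σbar` is generated by one element `σ τ`, which
commutes with `σ I_P` and is conjugate to its `q`-th power.  Two explicit trace expressions `u₁`,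
`u₂` are killed by `v = S_q(tr σ τ) - 1` (value `q² - 1` at `tr = 2`) and cut out the tangent
vectors that are unramified at `P`.
-/

set_option autoImplicit false

noncomputable section

namespace Crest.Agent.T15.Inert

open Matrix IsLocalRing NumberField
open Crest.Agent.T15.Ps
open Crest.Agent.R018.Placesx484 Crest.Agent.R018.Tamex31

/-! ### the trace identities -/

section alg

variable {R A : Type*} [CommRing R] [CommRing A]

/-- `(D_n(t) - 2) / (t - 2)` for the Dickson polynomials `D_n` -/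
def Sq (t : R) : ℕ → R
  | 0 => 0
  | 1 => 1
  | n + 2 => t * Sq t (n + 1) - Sq t n + 2

lemma map_Sq (f : R →+* A) (t : R) : ∀ n, f (Sq t n) = Sq (f t) n
  | 0 => by simp [Sq]
  | 1 => by simp [Sq]
  | n + 2 => by simp [Sq, map_Sq f t (n + 1), map_Sq f t n, map_ofNat]

lemma Sq_two : ∀ n : ℕ, Sq (2 : R) n = (n : R) ^ 2
  | 0 => by simp [Sq]
  | 1 => by simp [Sq]
  | n + 2 => by rw [Sq, Sq_two (n + 1), Sq_two n]; push_cast; ring

lemma sq_eq (C : M2 R) : C * C = C.trace • C - C.det • (1 : M2 R) := by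
  ext i j
  fin_cases i <;> fin_cases j <;> simp [mul_apply, Fin.sum_univ_two, trace_fin_two, det_fin_two] <;>
    ring

lemma trace_pow {C : M2 R} (hC : C.det = 1) :
    ∀ n, (C ^ n).trace - 2 = (C.trace - 2) * Sq C.trace n
  | 0 => by simp [Sq]
  | 1 => by simp [Sq]
  | n + 2 => by
    have h : C ^ (n + 2) = C.trace • C ^ (n + 1) - C ^ n := by
      rw [pow_add, pow_two, sq_eq, hC, one_smul, mul_sub, mul_smul_comm, mul_one, pow_succ]
    rw [h, trace_sub, trace_smul, smul_eq_mul, Sq]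
    linear_combination C.trace * trace_pow hC (n + 1) - trace_pow hC n

/-- first killed element -/
def u₁ (C : M2 R) : R := C.trace - 2
/-- second killed element -/
def u₂ (B C : M2 R) : R := 2 * (B * C).trace - B.trace * C.trace
/-- the element that kills them -/
def vv (q : ℕ) (C : M2 R) : R := Sq C.trace q - 1

lemma u₁_mul {C F F' : M2 R} {q : ℕ} (hC : C.det = 1) (hF : F' * F = 1) (h : F * C * F' = C ^ q) :
    u₁ C * vv q C = 0 := by
  have h1 : (C ^ q).trace = C.trace := by rw [← h, trace_mul_comm, ← mul_assoc, hF, one_mul]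
  have h2 := trace_pow hC q
  rw [h1] at h2
  rw [u₁, vv]
  linear_combination -h2

lemma u₂_sq {B C : M2 R} (h : B * C = C * B) :
    u₂ B C ^ 2 = (B.trace ^ 2 - 4 * B.det) * (C.trace ^ 2 - 4 * C.det) := by
  have h00 := congrFun (congrFun h 0) 0
  have h01 := congrFun (congrFun h 0) 1
  have h10 := congrFun (congrFun h 1) 0
  simp only [mul_apply, Fin.sum_univ_two] at h00 h01 h10
  simp only [u₂, trace_fin_two, det_fin_two, mul_apply, Fin.sum_univ_two]
  linear_combination (4 * (B 0 1 * C 1 0 - B 1 0 * C 0 1)) * h00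
    + (4 * (B 1 0 * (C 0 0 - C 1 1) - C 1 0 * (B 0 0 - B 1 1))) * h01 + 0 * h10

lemma u₂_mul {B C F F' : M2 R} {q : ℕ} (hC : C.det = 1) (hF : F' * F = 1) (h : F * C * F' = C ^ q)
    (hB : B * C = C * B) : (u₂ B C * vv q C) ^ 2 = 0 := by
  have h1 := u₁_mul hC hF h
  rw [mul_pow, u₂_sq hB, hC]
  rw [u₁] at h1
  linear_combination (B.trace ^ 2 - 4 * B.det) * (C.trace + 2) * vv q C * h1

lemma map_vv (f : R →+* A) (q : ℕ) {C : M2 R} (h : f C.trace = 2) :
    f (vv q C) = (q : A) ^ 2 - 1 := by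
  rw [vv, map_sub, map_Sq, h, Sq_two, map_one]

/-- a traceless matrix commuting with and orthogonal to a regular semisimple one vanishes -/
lemma eq_zero_of_comm {k : Type*} [Field k] {B X : M2 k}
    (hB : B.trace ^ 2 - 4 * B.det ≠ 0) (hc : B * X = X * B) (h0 : X.trace = 0)
    (h1 : (B * X).trace = 0) : X = 0 := by
  have h00 := congrFun (congrFun hc 0) 0
  have h01 := congrFun (congrFun hc 0) 1
  have h10 := congrFun (congrFun hc 1) 0
  simp only [mul_apply, Fin.sum_univ_two, trace_fin_two, det_fin_two] at h00 h01 h10 h0 h1 hB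
  have h11 : X 1 1 = -X 0 0 := by linear_combination h0
  rw [h11] at h01 h10 h1
  have e00 : X 0 0 = 0 := by
    refine (mul_eq_zero.1 (?_ : ((B 0 0 + B 1 1) ^ 2 - 4 * (B 0 0 * B 1 1 - B 0 1 * B 1 0)) *
      X 0 0 = 0)).resolve_left hB
    linear_combination (B 0 0 - B 1 1) * h1 - B 1 0 * h01 + B 0 1 * h10
  have e01 : X 0 1 = 0 := by
    refine (mul_eq_zero.1 (?_ : ((B 0 0 + B 1 1) ^ 2 - 4 * (B 0 0 * B 1 1 - B 0 1 * B 1 0)) *
      X 0 1 = 0)).resolve_left hB
    linear_combination (2 * B 0 1) * h1 + (B 0 0 - B 1 1) * h01 - (2 * B 0 1) * h00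
  have e10 : X 1 0 = 0 := by
    refine (mul_eq_zero.1 (?_ : ((B 0 0 + B 1 1) ^ 2 - 4 * (B 0 0 * B 1 1 - B 0 1 * B 1 0)) *
      X 1 0 = 0)).resolve_left hB
    linear_combination (2 * B 1 0) * h1 - (B 0 0 - B 1 1) * h10 + (2 * B 1 0) * h00
  ext i j
  fin_cases i <;> fin_cases j <;> simp [e00, e01, e10, h11]

/-- the kernel of reduction is a `p`-group -/
lemma pow_eq_one [IsLocalRing R] [Finite R] {p : ℕ} (hp : (p : R) ∈ maximalIdeal R) {X : M2 R}
    (hX : ∀ i j, (X - 1) i j ∈ maximalIdeal R) : ∃ k : ℕ, X ^ p ^ k = 1 := by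
  have key : ∀ k : ℕ, ∀ i j, (X ^ p ^ k - 1) i j ∈ maximalIdeal R ^ (k + 1) := by
    intro k
    induction k with
    | zero => simpa using hX
    | succ k ih =>
      set Y := X ^ p ^ k with hY
      have h1 : Y.map (Ideal.Quotient.mk (maximalIdeal R)) = 1 := by
        ext i j
        have h := Ideal.Quotient.eq.2 (Ideal.pow_le_self (Nat.succ_ne_zero k) (ih i j))
        rw [map_apply, h, one_apply, one_apply]
        split_ifs <;> simp
      have h2 : ∀ i j, (∑ l ∈ Finset.range p, Y ^ l) i j ∈ maximalIdeal R := fun i j => by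
        rw [← Ideal.Quotient.eq_zero_iff_mem]
        have h := map_sum (Ideal.Quotient.mk (maximalIdeal R)).mapMatrix (fun l => Y ^ l)
          (Finset.range p)
        simp only [map_pow, RingHom.mapMatrix_apply, h1, one_pow, Finset.sum_const,
          Finset.card_range] at h
        have h3 := congrFun (congrFun h i) j
        rw [map_apply] at h3
        rw [h3, nsmul_eq_mul, mul_one, ← map_natCast (Ideal.Quotient.mk (maximalIdeal R)).mapMatrix,
          RingHom.mapMatrix_apply, map_apply, Matrix.natCast_apply]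
        split_ifs
        · exact Ideal.Quotient.eq_zero_iff_mem.2 hp
        · simp
      intro i j
      rw [pow_succ p, pow_mul, ← hY, ← mul_geom_sum, mul_apply, pow_succ]
      exact sum_mem fun l _ => Ideal.mul_mem_mul (ih i l) (h2 l j)
  obtain ⟨N, hN⟩ : IsNilpotent (maximalIdeal R) := by
    rw [← IsLocalRing.jacobson_eq_maximalIdeal ⊥ bot_ne_top]
    exact IsArtinianRing.isNilpotent_jacobson_bot
  refine ⟨N, sub_eq_zero.1 (Matrix.ext fun i j => ?_)⟩
  have := Ideal.pow_le_pow_right (Nat.le_succ N) (key N i j)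
  rwa [hN, Ideal.zero_eq_bot, Ideal.mem_bot] at this

end alg

/-! ### tangent vectors -/

section tan

variable {G : Type*} [Group G] {O R k : Type*} [CommRing O] [CommRing R] [Field k]
  [Algebra O R] [Algebra R k] [Algebra O k] (σ : G →* M2 R) (D : Derivation O R k)

lemma phi_congr {g g' : G} (h : σ g = σ g') : phi σ D g = phi σ D g' := by rw [phi, phi, h]

lemma phi_pow_eq_zero {τ : G} (h : phi σ D τ = 0) (m : ℕ) :
    phi σ D (τ ^ m) = 0 := by
  induction m with
  | zero => rw [pow_zero, phi_one]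
  | succ m ih => rw [pow_succ, phi_mul, ih, h, zero_mul, mul_zero, add_zero]

/-- **tangent criterion** -/
theorem phi_eq_zero (h2 : (2 : k) ≠ 0) {s τ : G} (hτ : bar k σ τ = 1)
    (hs : (bar k σ s).trace ^ 2 - 4 * (bar k σ s).det ≠ 0) (hc : σ s * σ τ = σ τ * σ s)
    (h1 : D (u₁ (σ τ)) = 0) (h3 : D (u₂ (σ s) (σ τ)) = 0) : phi σ D τ = 0 := by
  have hD2 : D 2 = 0 := by exact_mod_cast D.map_natCast 2
  have ht : D (σ τ).trace = 0 := by rwa [u₁, map_sub, hD2, sub_zero] at h1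
  have ht2 : algebraMap R k (σ τ).trace = 2 := by rw [← trace_bar, hτ]; simp
  refine eq_zero_of_comm hs ?_ (by rw [trace_phi, ht]) ?_
  · have e : σ (s * τ * s⁻¹) = σ τ := by
      rw [map_mul, map_mul, hc, mul_assoc, ← map_mul, mul_inv_cancel, map_one, mul_one]
    have e2 := phi_conj σ D s hτ
    rw [phi_congr σ D e] at e2
    conv_rhs => rw [e2]
    rw [mul_assoc, ← map_mul, inv_mul_cancel, map_one, mul_one]
  · rw [trace_bar_mul_phi σ D s hτ]
    rw [u₂, map_sub, D.leibniz, D.leibniz, hD2, ht, ← map_mul] at h3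
    simp only [Algebra.smul_def, ht2, map_ofNat] at h3
    refine (mul_eq_zero.1 (?_ : (2 : k) * _ = 0)).resolve_left h2
    linear_combination h3

end tan

/-! ### the generator of tame inertia -/

section gal

variable {F E : Type*} [Field F] [NumberField F] [Field E] [CharZero E] [IsAlgClosed E]
  [Algebra.IsAlgebraic ℚ E] [Algebra F E] [IsGalois F E] {R : Type*} [CommRing R] [IsLocalRing R] [Finite R]

theorem exists_tau (P : Place E) {p : ℕ} [hp : Fact p.Prime] (hP : P.rchar ≠ p)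
    (hpR : (p : R) ∈ maximalIdeal R) (σ : (E ≃ₐ[F] E) →* M2 R)
    (hσ : ∃ L : IntermediateField F E, FiniteDimensional F L ∧
      ∀ g : E ≃ₐ[F] E, (∀ x ∈ L, g x = x) → σ g = 1)
    (N : Subgroup (E ≃ₐ[F] E)) [hN : N.Normal]
    (hNm : ∀ g ∈ N, ∀ i j, (σ g - 1) i j ∈ maximalIdeal R) :
    ∃ τ ∈ P.ideal.inertia (E ≃ₐ[F] E), τ ∈ N ∧
      (∀ n ∈ P.ideal.inertia (E ≃ₐ[F] E), n ∈ N → ∃ m : ℕ, σ n = σ (τ ^ m)) ∧
      (∀ s ∈ P.ideal.inertia (E ≃ₐ[F] E), σ s * σ τ = σ τ * σ s) ∧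
      ∃ φ : E ≃ₐ[F] E, σ φ * σ τ * σ φ⁻¹ = σ τ ^ P.qv F := by
  classical
  set V : Subgroup (E ≃ₐ[F] E) := inS F P.val ⊓ N with hV
  have hVle : V ≤ inS F P.val := inf_le_left
  obtain ⟨f, hf⟩ : ∃ f : V →* (M2 R)ˣ, ∀ a, (f a : M2 R) = σ a :=
    ⟨σ.toHomUnits.comp V.subtype, fun _ => rfl⟩
  obtain ⟨π, hπf, hπs⟩ : ∃ π : V →* f.range, (∀ a, (π a : (M2 R)ˣ) = f a) ∧ Function.Surjective π :=
    ⟨f.rangeRestrict, fun _ => rfl, f.rangeRestrict_surjective⟩
  have hπ : ∀ a b : V, π a = π b ↔ σ a = σ b := fun a b => by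
    rw [Subtype.ext_iff, Units.ext_iff, hπf, hπf, hf, hf]
  have hfin : Finite (M2 R)ˣ := inferInstance
  have hopen : OpenKer π := by
    obtain ⟨L, hL, h⟩ := hσ
    exact ⟨L, hL, fun u hu => by rw [← map_one π, hπ]; simpa using h u hu⟩
  have hPG : IsPGroup p f.range := by
    rintro ⟨_, a, rfl⟩
    obtain ⟨k, hk⟩ := pow_eq_one hpR (hNm a a.2.2)
    exact ⟨k, Subtype.ext (Units.ext (by simpa [hf] using hk))⟩
  have hroot : ∀ n : ℕ, n ≠ 0 → ∃ ζ : E, IsPrimitiveRoot ζ n := fun n hn => by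
    have : NeZero n := ⟨hn⟩
    exact HasEnoughRootsOfUnity.exists_primitiveRoot E n
  obtain ⟨ζ, hζ⟩ := hroot p hp.out.ne_zero
  have hcyc : IsCyclic f.range := isCyclic_of_inertia (rankOne P) hVle
    (val_prime_eq_one P hp.out hP) hζ hPG π hopen hπs
  obtain ⟨γ, hγ⟩ := IsCyclic.exists_monoid_generator (α := f.range)
  obtain ⟨τ, rfl⟩ := hπs γ
  obtain ⟨e, he⟩ := IsPGroup.iff_card.1 hPG
  obtain ⟨ω, hω⟩ := hroot (p ^ e) (pow_ne_zero _ hp.out.ne_zero)
  have hnd : ¬ P.rchar ∣ p ^ e := fun h =>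
    hP ((Nat.prime_dvd_prime_iff_eq P.rchar_prime hp.out).1 (P.rchar_prime.dvd_of_dvd_pow h))
  have hconj : ∀ s ∈ decS F P.val, ∀ c : ℕ, s ω = ω ^ c → σ s * σ τ * σ s⁻¹ = σ τ ^ c := by
    intro s hs c hc
    have hsV : ∀ x ∈ V, s * x * s⁻¹ ∈ V := fun x hx =>
      ⟨conj_mem_inS hs hx.1, hN.conj_mem x hx.2 s⟩
    have h := conj_eq_pow hVle (val_natCast_eq_one P hnd) hω he.dvd π hopen hs hsV hc τ
    rw [← map_pow, hπ] at h
    simpa using h
  refine ⟨τ, (mem_inS_val P _).1 τ.2.1, τ.2.2, fun n hn hn' => ?_, fun s hs => ?_, ?_⟩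
  · obtain ⟨m, hm⟩ := hγ (π ⟨n, (mem_inS_val P _).2 hn, hn'⟩)
    refine ⟨m, ?_⟩
    have h : π (τ ^ m) = π ⟨n, (mem_inS_val P _).2 hn, hn'⟩ := by rw [map_pow]; exact hm
    exact ((hπ _ _).1 h).symm
  · have h := hconj s (inS_le_decS _ ((mem_inS_val P _).2 hs)) 1 (by
      rw [pow_one]; exact Place.inertia_root P hs hnd hω.pow_eq_one)
    rw [pow_one] at h
    conv_rhs => rw [← h]
    rw [mul_assoc (σ s * σ τ), ← map_mul σ s⁻¹, inv_mul_cancel, map_one, mul_one]
  · obtain ⟨φ, h1, h2⟩ := Place.exists_frob (F := F) P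
    exact ⟨φ, hconj φ ((mem_decS_val P φ).2 h1) _ (Place.frob_root P h2 hnd hω.pow_eq_one)⟩

end gal

end Crest.Agent.T15.Inert

end
private theorem rz_db34951c4a : type_of% @_root_.Crest.Agent.T15.Inert.Sq.eq_def := @_root_.Crest.Agent.T15.Inert.Sq.eq_def -- L32
private theorem rz_4455470d50 : type_of% @_root_.Crest.Agent.T15.Inert.Sq.eq_1 := @_root_.Crest.Agent.T15.Inert.Sq.eq_1 -- L32
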