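import Crest.Agent.T15.MDef_7

/-!
# Row 15, block C (helper28): the field `ℚ(i)`, `qiStmt : QiStmt`, and the dictionary between
Gaussian primes, primes of `Ki j`, places and the subgroup of `Gam` fixing `i`
-/

set_option autoImplicit false

noncomputable section

namespace Crest.Agent.T15.Qi

open NumberField IsDedekindDomain Crest.Agent.R018.Placesx484 Crest.Agent.T15.Art
  Crest.Agent.T15.Ex Crest.Agent.T15.C

variable (j : Zi →+* 𝓞 Om)

theorem ii_sq : ii * ii = -1 := by decide

theorem zi_eq (x : Zi) : x = (x.re : Zi) + (x.im : Zi) * ii := by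
  ext <;> simp [ii]

theorem dl_mul : dl j * dl j = -1 := by
  have h : j ii * j ii = -1 := by rw [← map_mul, ii_sq, map_neg, map_one]
  exact_mod_cast congrArg (fun x : 𝓞 Om => (x : Om)) h


theorem j_eq (x : Zi) : ((j x : 𝓞 Om) : Om) = x.re + x.im * dl j := by
  conv_lhs => rw [zi_eq x]
  simp


theorem j_injective : Function.Injective j := by
  rw [injective_iff_map_eq_zero]
  intro x hx
  have h := congrArg j (Zsqrtd.norm_eq_mul_conj x)
  rw [map_mul, hx, zero_mul, map_intCast] at h
  exact GaussianInt.norm_eq_zero.1 (by exact_mod_cast h)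





theorem dl_mem : dl j ∈ Ki j := IntermediateField.mem_adjoin_simple_self ℚ _

theorem j_mem (x : Zi) : ((j x : 𝓞 Om) : Om) ∈ Ki j := by
  rw [j_eq]
  exact add_mem (intCast_mem _ _) (mul_mem (intCast_mem _ _) (dl_mem j))

theorem mem_Ki {z : Om} : z ∈ Ki j ↔ ∃ a b : ℚ, z = a + b * dl j := by
  constructor
  · intro hz
    induction hz using IntermediateField.adjoin_induction with
    | mem x hx => exact ⟨0, 1, by simpa using hx⟩
    | algebraMap x => exact ⟨x, 0, by simp⟩
    | add x y _ _ hx hy =>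
      obtain ⟨a, b, rfl⟩ := hx
      obtain ⟨c, d, rfl⟩ := hy
      exact ⟨a + c, b + d, by push_cast; ring⟩
    | inv x _ hx =>
      obtain ⟨a, b, rfl⟩ := hx
      by_cases h0 : (a : Om) + b * dl j = 0
      · exact ⟨0, 0, by simp [h0]⟩
      have h1 : (a : Om) - b * dl j ≠ 0 := by
        intro h
        have h2 : (a : Om) ^ 2 + b ^ 2 = 0 := by
          linear_combination (a + b * dl j) * h + (b : Om) ^ 2 * dl_mul j
        have h3 : a ^ 2 + b ^ 2 = 0 := by exact_mod_cast h2
        have ha : a = 0 := by nlinarith [sq_nonneg a, sq_nonneg b]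
        have hb : b = 0 := by nlinarith [sq_nonneg a, sq_nonneg b]
        exact h0 (by simp [ha, hb])
      have h2 : (a : Om) ^ 2 + b ^ 2 = (a + b * dl j) * (a - b * dl j) := by
        linear_combination (b : Om) ^ 2 * dl_mul j
      refine ⟨a / (a ^ 2 + b ^ 2), -b / (a ^ 2 + b ^ 2), ?_⟩
      push_cast
      rw [h2]; field_simp; ring
    | mul x y _ _ hx hy =>
      obtain ⟨a, b, rfl⟩ := hx
      obtain ⟨c, d, rfl⟩ := hy
      exact ⟨a * c - b * d, a * d + b * c, by
        push_cast; linear_combination (b * d : Om) * dl_mul j⟩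
  · rintro ⟨a, b, rfl⟩
    exact add_mem (SubfieldClass.ratCast_mem _ _)
      (mul_mem (SubfieldClass.ratCast_mem _ _) (dl_mem j))

instance finKi : FiniteDimensional ℚ (Ki j) :=
  IntermediateField.adjoin.finiteDimensional (Algebra.IsIntegral.isIntegral _)

instance nfKi : NumberField (Ki j) := NumberField.of_module_finite ℚ _

instance tcKi : IsTotallyComplex (Ki j) where
  isComplex v := by
    rw [← InfinitePlace.not_isReal_iff_isComplex]
    intro hv
    have h : (⟨dl j, dl_mem j⟩ : Ki j) * ⟨dl j, dl_mem j⟩ = -1 := Subtype.ext (dl_mul j)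
    have := congrArg (InfinitePlace.embedding_of_isReal hv) h
    rw [map_mul, map_neg, map_one] at this
    nlinarith [mul_self_nonneg (InfinitePlace.embedding_of_isReal hv ⟨dl j, dl_mem j⟩)]

/-- `ℤ[i] → ℚ(i)` -/
def jK : Zi →+* Ki j := ((algebraMap (𝓞 Om) Om).comp j).codRestrict (Ki j) (j_mem j)

@[simp] theorem coe_jK (x : Zi) : (jK j x : Om) = ((j x : 𝓞 Om) : Om) := rfl

theorem jK_injective : Function.Injective (jK j) := fun _ _ h =>
  j_injective j (RingOfIntegers.coe_injective (congrArg (fun z : Ki j => (z : Om)) h))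

theorem jK_ne {x : Zi} (hx : x ≠ 0) : jK j x ≠ 0 := (map_ne_zero_iff _ (jK_injective j)).2 hx

theorem exists_jK_div (z : Ki j) : ∃ (x : Zi) (n : ℕ), n ≠ 0 ∧ z = jK j x / n := by
  obtain ⟨a, b, h⟩ := (mem_Ki j).1 z.2
  refine ⟨⟨a.num * b.den, b.num * a.den⟩, a.den * b.den, mul_ne_zero a.den_nz b.den_nz,
    Subtype.ext ?_⟩
  have ha : (a.den : Om) ≠ 0 := by exact_mod_cast a.den_nz
  have hb : (b.den : Om) ≠ 0 := by exact_mod_cast b.den_nz
  push_cast
  rw [coe_jK, j_eq, h, Rat.cast_def a, Rat.cast_def b]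
  push_cast
  field_simp

theorem isIntegral_jK (x : Zi) : IsIntegral ℤ (jK j x) :=
  (isIntegral_algHom_iff (Ki j).val.toRingHom.toIntAlgHom Subtype.val_injective).1
    (RingOfIntegers.isIntegral_coe (j x))

/-- `ℤ[i] → 𝓞 ℚ(i)` -/
def jO : Zi →+* 𝓞 (Ki j) := (jK j).codRestrict (integralClosure ℤ (Ki j)) (isIntegral_jK j)

theorem jO_bijective : Function.Bijective (jO j) := by
  refine ⟨fun _ _ h => jK_injective j (congrArg Subtype.val h), fun z => ?_⟩
  let _ : Algebra Zi (Ki j) := (jK j).toAlgebra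
  have : FaithfulSMul Zi (Ki j) := (faithfulSMul_iff_algebraMap_injective _ _).2 (jK_injective j)
  have : IsFractionRing Zi (Ki j) := IsFractionRing.of_field _ _ fun z => by
    obtain ⟨x, n, -, h⟩ := exists_jK_div j z
    exact ⟨x, n, by rw [h, map_natCast]; rfl⟩
  obtain ⟨x, hx⟩ := (IsIntegrallyClosed.isIntegral_iff (R := Zi) (K := Ki j) (x := (z : Ki j))).1
    (RingOfIntegers.isIntegral_coe z).tower_top
  exact ⟨x, RingOfIntegers.coe_injective hx⟩

/-- `ℤ[i] ≃ 𝓞 ℚ(i)` -/
def eO : Zi ≃+* 𝓞 (Ki j) := RingEquiv.ofBijective (jO j) (jO_bijective j)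

@[simp] theorem coe_eO (x : Zi) : (eO j x : Ki j) = jK j x := rfl

theorem algebraMap_eO (x : Zi) : algebraMap (𝓞 (Ki j)) (𝓞 Om) (eO j x) = j x :=
  RingOfIntegers.coe_injective rfl


/-- **leaf QI** -/
theorem qiStmt : QiStmt := fun j => ⟨inferInstance, inferInstance, eO j, algebraMap_eO j⟩

instance pidKi : IsPrincipalIdealRing (𝓞 (Ki j)) :=
  IsPrincipalIdealRing.of_surjective (eO j).toRingHom (eO j).surjective

/-! ### the Galois group of `ℚ(i)` -/

/-- the Galois group of `Om / ℚ(i)` -/
abbrev GK : Type := Om ≃ₐ[Ki j] Om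

/-- `Gal(Om/ℚ(i)) → Gam` -/
def dn : GK j →* Gam where
  toFun t := t.restrictScalars ℚ
  map_one' := rfl
  map_mul' _ _ := rfl

@[simp] theorem dn_apply (t : GK j) (x : Om) : dn j t x = t x := rfl





/-- an automorphism fixing `i` as an automorphism over `ℚ(i)` -/
def up (s : Gam) (h : s (dl j) = dl j) : GK j :=
  { s with
    commutes' := fun z => by
      obtain ⟨a, b, e⟩ := (mem_Ki j).1 z.2
      show s (z : Om) = z
      rw [e]; simp [h] }

@[simp] theorem up_apply (s : Gam) (h : s (dl j) = dl j) (x : Om) : up j s h x = s x := rfl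

@[simp] theorem dn_up (s : Gam) (h : s (dl j) = dl j) : dn j (up j s h) = s := rfl







theorem isOpen_iff {K : Type} [Field K] [Algebra K Om] [IsGalois K Om]
    (U : Subgroup (Om ≃ₐ[K] Om)) : IsOpen (U : Set (Om ≃ₐ[K] Om)) ↔
      ∃ s : Finset Om, ∀ g : Om ≃ₐ[K] Om, (∀ x ∈ s, g x = x) → g ∈ U := by
  constructor
  · intro h
    obtain ⟨L, hL, h2⟩ := (krullTopology_mem_nhds_one_iff K Om _).1 (h.mem_nhds U.one_mem)
    obtain ⟨s, hs⟩ : L.FG := by
      have := IntermediateField.fg_of_fg_toSubalgebra L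
        (Subalgebra.fg_of_fg_toSubmodule ((Submodule.fg_top _).1
          (Module.finite_def.1 (show Module.Finite K L.toSubalgebra.toSubmodule from hL))))
      exact this
    refine ⟨s, fun g hg => h2 ?_⟩
    rw [← hs]
    show g ∈ IntermediateField.fixingSubgroup _
    rw [IntermediateField.mem_fixingSubgroup_iff]
    intro x hx
    have : IntermediateField.adjoin K (s : Set Om) ≤
        IntermediateField.fixedField (Subgroup.zpowers g) :=
      IntermediateField.adjoin_le_iff.2 fun y hy => by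
        rintro ⟨_, n, rfl⟩
        exact MulAction.fixedBy_subset_fixedBy_zpow Om g n (hg y hy)
    exact this hx ⟨g, Subgroup.mem_zpowers g⟩
  · rintro ⟨s, hs⟩
    have : FiniteDimensional K (IntermediateField.adjoin K (s : Set Om)) :=
      IntermediateField.finiteDimensional_adjoin fun x _ => Algebra.IsIntegral.isIntegral x
    refine Subgroup.isOpen_mono (H₁ := (IntermediateField.adjoin K (s : Set Om)).fixingSubgroup)
      (fun g hg => hs g fun x hx => ?_) (IntermediateField.fixingSubgroup_isOpen _)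
    exact (IntermediateField.mem_fixingSubgroup_iff _ _).1 hg x
      (IntermediateField.subset_adjoin K _ hx)





/-! ### primes -/





















/-! ### the homomorphism `ev f` on Gaussian integers -/

/-- a non-zero Gaussian integer as a unit of `ℚ(i)` -/
def uz (x : Zi) (hx : x ≠ 0) : (Ki j)ˣ := Units.mk0 (jK j x) (jK_ne j hx)

@[simp] theorem coe_uz (x : Zi) (hx : x ≠ 0) : (uz j x hx : Ki j) = jK j x := rfl



section ev

variable {A : Type*} [CommGroup A] (f : Pr (Ki j) → A)











end ev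

/-! ### valuations -/








end Crest.Agent.T15.Qi
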