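import Crest.Agent.T15.TopH_88
import Crest.Agent.T15.Inert_3
import Crest.Agent.T15.TwC_6
import Crest.Agent.T15.TwAsm_16
import Crest.Agent.T15.Qi_28

/-!
# Row 15, block R (helper28): pieces of the concrete glue

* `Cn O n` is finite, local; `eq_of_forall_cn`;
* `tame_of_span` (T2): if `ρbar (I_P)` spans `M₂`, then `ρ = 1` on `I_P ∩ ker ρbar`;
* `exists_ne` (NE): non-Eisenstein primes `p ≡ 1 mod M`;
* `exists_frob_fun` (CH): a Frobenius element in every class modulo an open normal subgroup.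
-/

set_option autoImplicit false

noncomputable section

namespace Crest.Agent.T15.Rg

open NumberField IsLocalRing Matrix Crest.Agent.R018.Placesx484 Crest.Agent.T15.Ps
  Crest.Agent.T15.Top
open Crest.Agent.T15.C (Om Gam In De om Hyp)

/-! ### open kernels -/

theorem op_iff {M : Type*} [Monoid M] (f : Gam →* M) : Op f ↔
    ∃ L : IntermediateField ℚ Om, FiniteDimensional ℚ L ∧
      ∀ g : Gam, (∀ x ∈ L, g x = x) → f g = 1 := by
  constructor
  · intro h
    obtain ⟨L, hL, h2⟩ := (krullTopology_mem_nhds_one_iff ℚ Om _).1 (h.mem_nhds (map_one f))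
    exact ⟨L, hL, fun g hg => h2 ((IntermediateField.mem_fixingSubgroup_iff _ _).2 hg)⟩
  · rintro ⟨L, hL, h⟩
    exact Subgroup.isOpen_mono (H₁ := L.fixingSubgroup) (H₂ := f.ker)
      (fun g hg => h g ((IntermediateField.mem_fixingSubgroup_iff _ _).1 hg))
      L.fixingSubgroup_isOpen

/-- inertia fixes the roots of unity of order prime to the residue characteristic -/
theorem inertia_root {P : Plc} {g : Gam} (hg : g ∈ In P) {m : ℕ} (hm : ¬ P.rchar ∣ m) {ξ : Om}
    (hξ : ξ ^ m = 1) : g ξ = ξ := by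
  have m0 : m ≠ 0 := by rintro rfl; exact hm (dvd_zero _)
  let z : 𝓞 Om := ⟨ξ, IsIntegral.of_pow (Nat.pos_of_ne_zero m0) (hξ ▸ isIntegral_one)⟩
  have hz : z ^ m = 1 := by apply RingOfIntegers.ext; push_cast; exact hξ
  have h4 : g • z = z := T27.root_eq_of_sub_mem_79 P.ideal (q := m) (a := 1)
    (by rw [← smul_pow', hz, smul_one]) hz (by rwa [P.natCast_mem_iff]) P.one_notMem (hg z)
  exact congrArg (fun w : 𝓞 Om => (w : Om)) h4

theorem exists_root (m : ℕ) (hm : m ≠ 0) : ∃ ζ : Om, IsPrimitiveRoot ζ m := by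
  have : NeZero ((m : ℕ) : Om) := ⟨by exact_mod_cast hm⟩
  exact HasEnoughRootsOfUnity.exists_primitiveRoot Om m

theorem not_dvd_pow {P : Plc} (hP : P.rchar ≠ 3) (n : ℕ) : ¬ P.rchar ∣ 3 ^ n := fun h =>
  hP ((Nat.prime_dvd_prime_iff_eq P.rchar_prime Nat.prime_three).1 (P.rchar_prime.dvd_of_dvd_pow h))

theorem det_inertia {R : Type*} [CommRing R] {ρ : Gam →* M2 R} (h : DetCyc ρ) {P : Plc}
    (hP : P.rchar ≠ 3) {g : Gam} (hg : g ∈ In P) (n : ℕ) :
    (ρ g).det - 1 ∈ Ideal.span {(3 : R) ^ n} := by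
  obtain ⟨ζ, hζ⟩ := exists_root (3 ^ n) (by positivity)
  simpa using h g n 1 ζ hζ (by rw [pow_one]; exact inertia_root hg (not_dvd_pow hP n) hζ.pow_eq_one)


/-! ### the rings `O / 3 ^ n` -/

section coef

variable {O : Type} [CommRing O] [IsDomain O] [IsDiscreteValuationRing O] [hO : Coef O]

theorem span_le_pow (n : ℕ) : Ideal.span {(3 : O) ^ n} ≤ maximalIdeal O ^ n := by
  rw [Ideal.span_singleton_le_iff_mem]; exact Ideal.pow_mem_pow hO.h3 n

theorem eq_zero_of_forall {x : O} (h : ∀ n, x ∈ Ideal.span {(3 : O) ^ n}) : x = 0 := by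
  have := hO.cpl
  refine IsHausdorff.haus' (I := maximalIdeal O) x fun n => ?_
  rw [SModEq.zero, smul_eq_mul, Ideal.mul_top]
  exact span_le_pow n (h n)

theorem eq_of_forall_cn {X Y : M2 O}
    (h : ∀ n, X.map (Ideal.Quotient.mk (Ideal.span {(3 : O) ^ (n + 1)})) =
      Y.map (Ideal.Quotient.mk (Ideal.span {(3 : O) ^ (n + 1)}))) : X = Y := by
  ext i j
  refine sub_eq_zero.1 (eq_zero_of_forall fun n => ?_)
  refine Ideal.span_singleton_le_span_singleton.2 (pow_dvd_pow _ n.le_succ) ?_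
  exact Ideal.Quotient.eq.1 (congrFun (congrFun (h n) i) j)

theorem three_ne : (3 : O) ≠ 0 := by have := hO.cz; norm_num

theorem finite_quot_pow (n : ℕ) : Finite (O ⧸ maximalIdeal O ^ n) := by
  have : Finite (O ⧸ maximalIdeal O) := hO.fin
  exact Ideal.finite_quotient_pow (IsNoetherian.noetherian _) n

theorem finite_cn (n : ℕ) : Finite (Cn O n) := by
  obtain ⟨π, hπ⟩ := IsDiscreteValuationRing.exists_irreducible O
  obtain ⟨m, hm⟩ := IsDiscreteValuationRing.ideal_eq_span_pow_irreducible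
    (s := Ideal.span {(3 : O) ^ n}) (by rw [Ne, Ideal.span_singleton_eq_bot]; exact pow_ne_zero n three_ne) hπ
  rw [← Ideal.span_singleton_pow π, ← hπ.maximalIdeal_eq] at hm
  have := finite_quot_pow (O := O) m
  exact Finite.of_equiv _ (Ideal.quotEquivOfEq hm.symm).toEquiv

theorem span_ne_top (n : ℕ) : Ideal.span {(3 : O) ^ (n + 1)} ≠ ⊤ := fun h =>
  (maximalIdeal.isMaximal O).ne_top
    (top_le_iff.1 (h ▸ (span_le_pow (n + 1)).trans (Ideal.pow_le_self n.succ_ne_zero)))

theorem nontrivial_cn (n : ℕ) : Nontrivial (Cn O (n + 1)) :=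
  Ideal.Quotient.nontrivial_iff.2 (span_ne_top n)

theorem isLocalRing_cn (n : ℕ) : IsLocalRing (Cn O (n + 1)) :=
  have := nontrivial_cn (O := O) n
  IsLocalRing.of_surjective' (Ideal.Quotient.mk _) Ideal.Quotient.mk_surjective

theorem two_unit : IsUnit (2 : O) := by
  by_contra h
  have h2 : (2 : O) ∈ maximalIdeal O := h
  have := (maximalIdeal O).sub_mem hO.h3 h2
  norm_num at this

end coef

/-! ### (T2) -/

/-- Nakayama: matrices whose reductions span `M₂(k)` span `M₂(R)` -/
theorem span_top {R : Type*} [CommRing R] [IsLocalRing R] (s : Set (M2 R))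
    (h : Submodule.span (ResidueField R) ((fun X : M2 R => X.map (residue R)) '' s) = ⊤) :
    Submodule.span R s = ⊤ := by
  refine top_le_iff.1 (Submodule.le_of_le_smul_of_le_jacobson_bot (I := maximalIdeal R)
    Module.Finite.fg_top (by rw [IsLocalRing.jacobson_eq_maximalIdeal ⊥ bot_ne_top]) fun X _ => ?_)
  have key : ∀ Z ∈ Submodule.span (ResidueField R) ((fun X : M2 R => X.map (residue R)) '' s),
      ∃ Y ∈ Submodule.span R s, Y.map (residue R) = Z := by
    intro Z hZ
    induction hZ using Submodule.span_induction with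
    | mem x hx => obtain ⟨Y, hY, rfl⟩ := hx; exact ⟨Y, Submodule.subset_span hY, rfl⟩
    | zero => exact ⟨0, Submodule.zero_mem _, by ext; simp⟩
    | add x y _ _ hx hy =>
      obtain ⟨Y, hY, rfl⟩ := hx
      obtain ⟨Y', hY', rfl⟩ := hy
      exact ⟨Y + Y', Submodule.add_mem _ hY hY', by ext; simp⟩
    | smul a x _ hx =>
      obtain ⟨Y, hY, rfl⟩ := hx
      obtain ⟨a, rfl⟩ := residue_surjective a
      exact ⟨a • Y, Submodule.smul_mem _ _ hY, by ext; simp⟩
  obtain ⟨Y, hY, e⟩ := key (X.map (residue R)) (h ▸ Submodule.mem_top)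
  rw [show X = Y + (X - Y) by abel]
  refine Submodule.add_mem_sup hY ?_
  rw [matrix_eq_sum_single (X - Y)]
  refine Submodule.sum_mem _ fun i _ => Submodule.sum_mem _ fun j _ => ?_
  rw [show single i j ((X - Y) i j) = (X - Y) i j • single i j (1 : R) by simp]
  refine Submodule.smul_mem_smul ?_ Submodule.mem_top
  rw [← residue_eq_zero_iff, Matrix.sub_apply, map_sub, sub_eq_zero]
  exact (congrFun (congrFun e i) j).symm

theorem scalar_of_comm {R : Type*} [CommRing R] {X : M2 R} (h : ∀ Y, Y * X = X * Y) :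
    X = X 0 0 • (1 : M2 R) := by
  have h1 := h !![0, 1; 0, 0]
  have h2 := h !![0, 0; 1, 0]
  have a := congrFun (congrFun h1 0) 0
  have b := congrFun (congrFun h1 0) 1
  have c := congrFun (congrFun h2 0) 0
  simp [mul_apply, Fin.sum_univ_two] at a b c
  ext i j
  fin_cases i <;> fin_cases j <;> simp [a, b, ← c]

/-- **(T2)** -/
theorem tame_of_span {O : Type} [CommRing O] [IsDomain O] [IsDiscreteValuationRing O] [hO : Coef O]
    {ρ : Gam →* M2 O} (hop : ∀ n, Op (mp (Ideal.Quotient.mk (Ideal.span {(3 : O) ^ n})) ρ))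
    (hdet : DetCyc ρ) {P : Plc} (hP : P.rchar ≠ 3)
    (hs : Submodule.span (ResidueField O) (mp (residue O) ρ '' (In P : Set Gam)) = ⊤) :
    ∀ g ∈ In P, mp (residue O) ρ g = 1 → ρ g = 1 := by
  intro g hg h1
  have hsp : Submodule.span O (ρ '' (In P : Set Gam)) = ⊤ :=
    span_top _ (by rw [Set.image_image]; exact hs)
  refine eq_of_forall_cn fun n => ?_
  have := finite_cn (O := O) (n + 1)
  have := isLocalRing_cn (O := O) n
  have : Fact (Nat.Prime 3) := ⟨Nat.prime_three⟩
  set π := Ideal.Quotient.mk (Ideal.span {(3 : O) ^ (n + 1)}) with hπ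
  have hl : ∀ x ∈ maximalIdeal O, π x ∈ maximalIdeal (Cn O (n + 1)) := fun x hx =>
    have := IsLocalHom.of_surjective π Ideal.Quotient.mk_surjective
    map_nonunit π x hx
  have hm : ∀ g ∈ (mp (residue O) ρ).ker, ∀ i j, (ρ g - 1) i j ∈ maximalIdeal O := by
    intro g hg i j
    rw [← residue_eq_zero_iff, Matrix.sub_apply, map_sub, sub_eq_zero]
    have := congrFun (congrFun (show (ρ g).map (residue O) = 1 from hg) i) j
    rw [map_apply] at this
    rw [this, one_apply, one_apply]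
    split_ifs <;> simp
  obtain ⟨τ, hτ, hτN, hgen, hc, -⟩ := Inert.exists_tau (F := ℚ) P (p := 3) hP
    (by simpa [map_ofNat] using hl 3 hO.h3) (mp π ρ) ((op_iff _).1 (hop (n + 1)))
    (mp (residue O) ρ).ker (fun g hg i j => by
      have e : mp π ρ g - 1 = π.mapMatrix (ρ g - 1) := by rw [map_sub, map_one]; rfl
      rw [e]
      exact hl _ (hm g hg i j))
  have hall : ∀ Y, Y * mp π ρ τ = mp π ρ τ * Y := by
    intro Y
    obtain ⟨Y, rfl⟩ : ∃ Y' : M2 O, π.mapMatrix Y' = Y :=
      ⟨Matrix.of fun i j => (Ideal.Quotient.mk_surjective (Y i j)).choose, by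
        ext i j; exact (Ideal.Quotient.mk_surjective (Y i j)).choose_spec⟩
    have hY : Y ∈ Submodule.span O (ρ '' (In P : Set Gam)) := hsp ▸ Submodule.mem_top
    induction hY using Submodule.span_induction with
    | mem x hx => obtain ⟨s, hs, rfl⟩ := hx; exact hc s hs
    | zero => simp
    | add x y _ _ hx hy => rw [map_add, add_mul, mul_add, hx, hy]
    | smul a x _ hx =>
      have : π.mapMatrix (a • x) = π a • π.mapMatrix x := by ext; simp
      rw [this, smul_mul_assoc, mul_smul_comm, hx]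
  have hsc := scalar_of_comm hall
  have hd : (mp π ρ τ).det = 1 := by
    have := Ideal.Quotient.eq.2 (det_inertia hdet hP hτ (n + 1))
    rw [map_one] at this
    rw [← this]; simp [mp, det_fin_two, hπ]
  rw [hsc, det_smul, det_one, mul_one, Fintype.card_fin] at hd
  have hu : IsUnit (mp π ρ τ 0 0 + 1) := by
    have a1 : ρ τ 0 0 - 1 ∈ maximalIdeal O := by simpa using hm τ hτN 0 0
    have a2 : IsUnit (ρ τ 0 0 + 1) := by
      by_contra hn
      have := (maximalIdeal O).sub_mem (show ρ τ 0 0 + 1 ∈ maximalIdeal O from hn) a1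
      rw [show ρ τ 0 0 + 1 - (ρ τ 0 0 - 1) = 2 by ring] at this
      exact this two_unit
    simpa [mp] using a2.map π
  have h00 : mp π ρ τ 0 0 = 1 := by
    refine sub_eq_zero.1 (hu.mul_left_cancel ?_)
    linear_combination hd
  rw [h00, one_smul] at hsc
  obtain ⟨m, hm'⟩ := hgen g hg h1
  rw [map_pow, hsc, one_pow] at hm'
  rw [show (ρ g).map π = 1 from hm', Matrix.map_one _ (map_zero _) (map_one _)]

/-! ### (CH) -/




/-! ### (NE) -/




end Crest.Agent.T15.Rg
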