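import Crest.Agent.T15.CvS_53
import Crest.Agent.T15.AxD_14
import Crest.Agent.T15.MsC_40
import Crest.Agent.T15.HabC_58
import Crest.Agent.T15.HabD_58
import Crest.Agent.T15.UndB_98
import Crest.Agent.T15.LvT_10
import Crest.Agent.R007.OpQ
import Crest.Agent.T15.EscY_12
import Crest.Agent.T15.HtDef_95
import Crest.Agent.T15.ArchA_58
import Crest.Agent.T15.TDef_10
import Crest.Agent.T15.Rg_28
import Mathlib
import Crest.Agent.T15.HonDef_54
import Crest.Agent.T15.Sel_78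
import Crest.Agent.T15.TopH_88
import Crest.Agent.T15.RDef_20
import Crest.Agent.T15.HkF4_62
import Crest.Agent.T15.RG_20
import Crest.Agent.T15.Zer0_7
import Crest.Agent.R018.PowResA_693
import Crest.Agent.T15.PrAP_15
import Crest.Agent.S0068

-- ▼ part T15/Cv_53
section

/-!
# Row 15, block Ht (helper53): the covolume of the period lattice of the `A`-part
-/

set_option autoImplicit false
set_option linter.all false

noncomputable section

namespace Crest.Agent.T15.Cv53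

open Matrix Filter Topology
open Crest.Agent.T15.Mo (Par)
open Crest.Agent.T15.Ar (Cert)
open Crest.Agent.T15.Ht

/-- `ri` as a linear map -/
def riL : (Fin 2 → ℂ) →ₗ[ℝ] (Fin 2 ⊕ Fin 2 → ℝ) where
  toFun := Hab.ri
  map_add' x y := by ext i; rcases i with i | i <;> simp [Hab.ri]
  map_smul' c x := by ext i; rcases i with i | i <;> simp [Hab.ri]

theorem riL_ker : LinearMap.ker riL = ⊥ := by
  rw [LinearMap.ker_eq_bot']
  intro x hx
  ext i
  exact Complex.ext (congrFun hx (Sum.inl i)) (congrFun hx (Sum.inr i))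

/-- a spanning family contains four vectors of nonzero determinant -/
theorem exists_four {ι : Type} [Fintype ι] (w : ι → Fin 2 → ℂ)
    (hw : Submodule.span ℝ (Set.range w) = ⊤) :
    ∃ a : Fin 2 ⊕ Fin 2 → ι, rdet (w ∘ a) ≠ 0 := by
  classical
  obtain ⟨κ, a, ha, hs, hl⟩ := exists_linearIndependent' ℝ w
  have : Finite κ := Finite.of_injective a ha
  have := Fintype.ofFinite κ
  have hc : Fintype.card (Fin 2 ⊕ Fin 2) = Fintype.card κ := by
    rw [← finrank_span_eq_card hl, hs, hw, finrank_top, Ax.finrank_V]; simp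
  obtain e := Fintype.equivOfCardEq hc
  refine ⟨a ∘ e, ?_⟩
  have h1 := (hl.comp e e.injective).map' riL riL_ker
  exact ((Matrix.isUnit_iff_isUnit_det _).1
    ((Matrix.linearIndependent_rows_iff_isUnit
      (A := Matrix.of fun k => Hab.ri ((w ∘ a ∘ e) k))).1 h1)).ne_zero

theorem rdet_le (x : Fin 2 ⊕ Fin 2 → Fin 2 → ℂ) {r : ℝ} (h : ∀ i j, ‖x i j‖ ≤ r) :
    |rdet x| ≤ 24 * r ^ 4 := by
  have := Matrix.det_le (A := Matrix.of fun k => Hab.ri (x k)) (abv := AbsoluteValue.abs) (x := r)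
    (fun i j => by
      rcases j with j | j
      · exact (Complex.abs_re_le_norm _).trans (h i j)
      · exact (Complex.abs_im_le_norm _).trans (h i j))
  simpa [rdet, Nat.factorial] using this

variable (P : Par ℂ)

/-- the constant `kap` -/
abbrev kp : ℂ := Sc3.kap P.p2 P.p3 P.al P.be

theorem kp_ne : kp P ≠ 0 := mul_ne_zero (by norm_num) P.sub_ne2

theorem tr3 : Mx P 1 0 * Mx P 0 1 + Mx P 1 2 * Mx P 2 1 = 3 := by
  have h1 := P.h1; have h2 := P.h2; have h3 := P.h3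
  have ha := P.hal; have hb := P.hbe
  have e : P.p2 = -P.p1 - P.p3 := by linear_combination P.sum
  simp only [Mx, Matrix.of_apply, Matrix.cons_val', Matrix.cons_val_zero, Matrix.cons_val_one,
    Matrix.cons_val_two, Matrix.cons_val_fin_one, Matrix.head_cons, Matrix.tail_cons,
    Matrix.head_fin_const, Matrix.cons_val]
  field_simp
  linear_combination 2 * P.p3 ^ 3 * ha + 2 * P.p2 ^ 3 * hb - 2 * P.p2 ^ 3 * P.p3 ^ 3 * P.sum

theorem v3_eq : v3 P = ![Mx P 0 1 / kp P, 0, Mx P 2 1 / kp P] := by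
  ext i
  rw [v3, Matrix.mulVec, dotProduct, Fin.sum_univ_three]
  fin_cases i <;> simp [v1, Mx, div_eq_mul_inv]

theorem emb_apply (x : Fin 2 → ℂ) :
    emb P x = ![x 1 * Mx P 0 1 / kp P, x 0 / kp P, x 1 * Mx P 2 1 / kp P] := by
  show x 0 • v1 P + x 1 • v3 P = _
  rw [v3_eq]
  ext i
  fin_cases i <;> simp [v1, div_eq_mul_inv, mul_assoc]

/-- the projection on the plane -/
def prj : (Fin 3 → ℂ) →ₗ[ℝ] (Fin 2 → ℂ) where
  toFun v := ![kp P * (Mx P 1 0 * v 0 + Mx P 1 2 * v 2), kp P * v 1]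
  map_add' x y := by ext i; fin_cases i <;> simp <;> ring
  map_smul' c x := by ext i; fin_cases i <;> simp <;> ring

theorem prj_apply (v : Fin 3 → ℂ) :
    prj P v = ![kp P * (Mx P 1 0 * v 0 + Mx P 1 2 * v 2), kp P * v 1] := rfl

theorem emb_prj (v : Fin 3 → ℂ) : emb P (prj P v) = Mx P *ᵥ v := by
  have := kp_ne P
  rw [emb_apply, prj_apply]
  ext i
  fin_cases i <;> simp [Mx, Matrix.mulVec, dotProduct, Fin.sum_univ_three] <;> field_simp

theorem prj_emb (x : Fin 2 → ℂ) : prj P (emb P x) = ![3 * x 1, x 0] := by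
  have := kp_ne P
  have h := tr3 P
  rw [emb_apply, prj_apply]
  ext i
  fin_cases i
  · simp only [Fin.zero_eta, Matrix.cons_val_zero, Matrix.cons_val_two, Matrix.tail_cons,
      Matrix.head_cons, Matrix.cons_val]
    field_simp
    linear_combination x 1 * h
  · simp
    field_simp

theorem prj_surj : LinearMap.range (prj P) = ⊤ := by
  rw [LinearMap.range_eq_top]
  intro y
  refine ⟨emb P ![y 1, y 0 / 3], ?_⟩
  rw [prj_emb]
  ext i
  fin_cases i <;> simp
  ring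

theorem emb_zero {x : Fin 2 → ℂ} (h : emb P x = 0) : x = 0 := by
  have := prj_emb P x
  rw [h, map_zero] at this
  ext i
  fin_cases i
  · simpa using (congrFun this 1).symm
  · simpa using (congrFun this 0).symm

theorem emb_cont : Continuous (emb P) := by
  show Continuous fun x : Fin 2 → ℂ => x 0 • v1 P + x 1 • v3 P
  fun_prop

variable {P}

theorem mem_Lam (J : Jc P) {x : Fin 2 → ℂ} : x ∈ J.Lam ↔ J.ex (emb P x) = 0 := Iff.rfl

theorem discrete (J : Jc P) : DiscreteTopology J.Lam := by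
  refine discreteTopology_of_isOpen_singleton_zero (isOpen_iff_mem_nhds.2 ?_)
  rintro _ rfl
  have ht : Tendsto (fun z : J.Lam => emb P z.1) (𝓝 0) (𝓝 0) := by
    have := ((emb_cont P).comp (continuous_subtype_val (p := fun x => x ∈ J.Lam))).tendsto 0
    simpa [Function.comp_def] using this
  filter_upwards [ht.eventually (J.lt.exp.disc J.lt.dat)] with z hz
  exact Subtype.ext (emb_zero P (hz z.2))

/-- **leaf COV** -/
theorem covStmt (del : ℚ) : CovStmt del := by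
  have k0 := K0
  have k1 := K1
  obtain ⟨B, hB⟩ := Ax.periods7 (K ^ 19) (ε := (K ^ 19)⁻¹) (by positivity)
  refine ⟨24 * (2 * K ^ 6) ^ 4 * (64 * K ^ 26) * B ^ 2, fun m p1 p2 p3 t D P J h hP => ?_⟩
  obtain ⟨⟨s1, s2, s3⟩, ⟨s4, s5, s6⟩, ⟨s7, s8, s9⟩, ⟨m1, m2⟩, hk⟩ := sizes h hP
  obtain ⟨v, hv, hs, hb⟩ := hB P.c P.a1 P.a2 P.a3 s1 s2 s3 s4 s5 s6 s7 s8 s9 J.lt.dat J.lt.exp
  have hm : ∀ i, prj P (v i) ∈ J.Lam := fun i => by
    rw [mem_Lam, emb_prj, ← J.j_ex, hv, map_zero]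
  have hw : Submodule.span ℝ (Set.range fun i => prj P (v i)) = ⊤ := by
    rw [show (fun i => prj P (v i)) = prj P ∘ v from rfl, Set.range_comp, ← Submodule.map_span, hs,
      Submodule.map_top, prj_surj]
  have := discrete J
  have : IsZLattice ℝ J.Lam :=
    ⟨top_le_iff.1 (hw ▸ Submodule.span_mono (by rintro _ ⟨i, rfl⟩; exact hm i))⟩
  refine ⟨ZLattice.module_finite ℝ _, by rw [ZLattice.rank ℝ, Ax.finrank_V], ?_⟩
  obtain ⟨a, ha⟩ := exists_four _ hw
  refine ⟨_, fun i => hm (a i), ha, ?_⟩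
  have hc : 0 < ‖P.c‖ := norm_pos_iff.2 P.c_ne
  have hB0 : 0 ≤ B := le_trans (by positivity) (hb 0)
  set r := Real.sqrt (B / ‖P.c‖) with hr
  have r2 : r ^ 2 = B / ‖P.c‖ := Real.sq_sqrt (by positivity)
  have hvr : ∀ i k, ‖v i k‖ ≤ r := fun i k => (norm_le_pi_norm _ k).trans
    (Real.le_sqrt_of_sq_le (by rw [le_div_iff₀ hc, mul_comm]; exact hb i))
  have r0 : 0 ≤ r := Real.sqrt_nonneg _
  have k6 : 1 ≤ K ^ 6 := one_le_pow₀ k1
  have hx : ∀ i j, ‖prj P (v i) j‖ ≤ ‖kp P‖ * (2 * K ^ 6 * r) := fun i j => by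
    rw [prj_apply]
    fin_cases j
    · simp only [Fin.zero_eta, Matrix.cons_val_zero, norm_mul]
      refine mul_le_mul_of_nonneg_left ((norm_add_le _ _).trans ?_) (norm_nonneg _)
      rw [norm_mul, norm_mul]
      have e1 := mul_le_mul m1 (hvr i 0) (norm_nonneg _) (by positivity)
      have e2 := mul_le_mul m2 (hvr i 2) (norm_nonneg _) (by positivity)
      linarith
    · simp only [Fin.mk_one, Matrix.cons_val_one, Matrix.cons_val_zero, norm_mul]
      refine mul_le_mul_of_nonneg_left ((hvr i 1).trans ?_) (norm_nonneg _)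
      nlinarith
  refine (rdet_le _ fun i j => hx (a i) j).trans ?_
  have r4 : r ^ 4 * ‖P.c‖ ^ 2 = B ^ 2 := by
    rw [show r ^ 4 = (r ^ 2) ^ 2 by ring, r2]; field_simp
  calc 24 * (‖kp P‖ * (2 * K ^ 6 * r)) ^ 4 = 24 * (2 * K ^ 6) ^ 4 * r ^ 4 * ‖kp P‖ ^ 4 := by ring
    _ ≤ 24 * (2 * K ^ 6) ^ 4 * r ^ 4 * (64 * K ^ 26 * |(D : ℝ)| * (p2 : ℝ) ^ 4 * ‖P.c‖ ^ 2) := by
        gcongr
    _ = 24 * (2 * K ^ 6) ^ 4 * (64 * K ^ 26) * (r ^ 4 * ‖P.c‖ ^ 2) * |(D : ℝ)| * (p2 : ℝ) ^ 4 := by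
        ring
    _ = _ := by rw [r4]

end Crest.Agent.T15.Cv53
end
end

-- ▼ part T15/MsD_40
section

/-!
# Row 15, block Ht (helper40): the integer rows

For correspondences `c j i`, the space `Sp Γ c` of tuples of cusp forms with `∑ i, h i ∣ c j i = 0`
is cut out, on normalised symbols, by the small integer rows `Rows Γ c`.
-/

set_option autoImplicit false
set_option linter.unusedSectionVars false

noncomputable section

namespace Crest.Agent.T15.Ms

open UpperHalfPlane hiding I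
open MatrixGroups ModularGroup OnePoint Matrix.SpecialLinearGroup ModularForm Filter Complex
open scoped Topology Manifold ComplexConjugate
open Crest.Agent.T15.Mf Crest.Agent.T15.Hk Crest.Agent.T15.Esc

variable {Γ : Subgroup SL(2, ℤ)} {ι J : Type*} [Fintype ι]
variable {A B : Type*} [AddCommGroup A] [AddCommGroup B]

open Classical in
/-- the universal symbol -/
def un (Γ : Subgroup SL(2, ℤ)) (i : ι) (g : SL(2, ℤ)) : ι × RC Γ → ℤ := Pi.single (i, cs Γ g) 1

/-- the rows -/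
def Rows (Γ : Subgroup SL(2, ℤ)) (c : J → ι → MonoidAlgebra ℤ GQ) : Set (ι × RC Γ → ℤ) :=
  {v | (∃ i g, v = un Γ i (g * S) + un Γ i g) ∨
    (∃ i g, v = un Γ i g - (un Γ i (g * T) + un Γ i (g * Lm))) ∨
    (∃ i x y, v = pt (un Γ i) (kp Γ x) - pt (un Γ i) (kp Γ y)) ∨
    ∃ j x, Ht x ≤ 2 ^ Nat.card (RC Γ) ∧
      v = ∑ i, hk (pt (un Γ i)) (c j i) x - ∑ i, hk (pt (un Γ i)) (c j i) (kp Γ x)}

/-- solutions of the rows -/
structure Sol (Γ : Subgroup SL(2, ℤ)) (c : J → ι → MonoidAlgebra ℤ GQ) (u : ι × RC Γ → A) :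
    Prop where
  man : ∀ i, Man fun g => u (i, cs Γ g)
  nrm : ∀ i x y, pt (fun g => u (i, cs Γ g)) (kp Γ x) = pt (fun g => u (i, cs Γ g)) (kp Γ y)
  hke : ∀ j x, Ht x ≤ 2 ^ Nat.card (RC Γ) → ∑ i, hk (pt fun g => u (i, cs Γ g)) (c j i) x =
    ∑ i, hk (pt fun g => u (i, cs Γ g)) (c j i) (kp Γ x)

lemma map_hk (φ : A →+ B) (Φ : Cu → A) (z : MonoidAlgebra ℤ GQ) (x : Cu) :
    φ (hk Φ z x) = hk (fun y => φ (Φ y)) z x := map_lin φ.toIntLinearMap _ z

variable {c : J → ι → MonoidAlgebra ℤ GQ}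

theorem sol_iff [Fintype (RC Γ)] (u : ι × RC Γ → A) :
    Sol Γ c u ↔ ∀ v ∈ Rows Γ c, ∑ a, v a • u a = 0 := by
  classical
  let φ : (ι × RC Γ → ℤ) →+ A := (Fintype.linearCombination ℤ u).toAddMonoidHom
  have h0 : ∀ v, ∑ a, v a • u a = φ v := fun v => (Fintype.linearCombination_apply ℤ u v).symm
  have h1 : ∀ i g, φ (un Γ i g) = u (i, cs Γ g) := fun i g => by
    rw [← h0, Finset.sum_eq_single (i, cs Γ g)] <;> simp +contextual [un]
  simp only [h0]
  constructor
  · rintro h v (⟨i, g, rfl⟩ | ⟨i, g, rfl⟩ | ⟨i, x, y, rfl⟩ | ⟨j, x, hx, rfl⟩)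
    · rw [map_add, h1, h1, (h.man i).s g, neg_add_cancel]
    · rw [map_sub, map_add, h1, h1, h1, sub_eq_zero]; exact (h.man i).t g
    · simp only [map_sub, map_pt, h1, h.nrm i x y, sub_self]
    · simp only [map_sub, map_sum, map_hk, map_pt, h1, h.hke j x hx, sub_self]
  · refine fun h => ⟨fun i => ⟨fun g => ?_, fun g => ?_⟩, fun i x y => ?_, fun j x hx => ?_⟩
    · have := h _ (Or.inl ⟨i, g, rfl⟩)
      rwa [map_add, h1, h1, add_eq_zero_iff_eq_neg] at this
    · have := h _ (Or.inr (Or.inl ⟨i, g, rfl⟩))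
      rwa [map_sub, map_add, h1, h1, h1, sub_eq_zero] at this
    · have := h _ (Or.inr (Or.inr (Or.inl ⟨i, x, y, rfl⟩)))
      simpa only [map_sub, map_pt, h1, sub_eq_zero] using this
    · have := h _ (Or.inr (Or.inr (Or.inr ⟨j, x, hx, rfl⟩)))
      simpa only [map_sub, map_sum, map_hk, map_pt, h1, sub_eq_zero] using this

/-! ### the size of the rows -/

/-- `z` is a sum of at most `n` matrices of size at most `m` -/
def Nm (z : MonoidAlgebra ℤ GQ) (n m : ℕ) : Prop :=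
  ∀ (F : GQ → ℤ) (b : ℕ), (∀ δ, Sz δ m → |F δ| ≤ b) → |lin ℤ F z| ≤ n * b

lemma Nm.mono {z : MonoidAlgebra ℤ GQ} {n n' m : ℕ} (h : Nm z n m) (h' : n ≤ n') : Nm z n' m :=
  fun F b hb => (h F b hb).trans (by gcongr)

lemma nm_zero (n m : ℕ) : Nm 0 n m := fun F b _ => by rw [map_zero, abs_zero]; positivity

lemma nm_e {δ : GQ} {m : ℕ} (h : Sz δ m) : Nm (e ℤ δ) 1 m := fun F b hb => by
  simpa using hb δ h

lemma Nm.add {z w : MonoidAlgebra ℤ GQ} {n n' m : ℕ} (h : Nm z n m) (h' : Nm w n' m) :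
    Nm (z + w) (n + n') m := fun F b hb => by
  rw [map_add]; push_cast
  linarith [abs_add_le (lin ℤ F z) (lin ℤ F w), h F b hb, h' F b hb]

lemma Nm.smul {z : MonoidAlgebra ℤ GQ} {n m : ℕ} (h : Nm z n m) (k : ℤ) :
    Nm (k • z) (k.natAbs * n) m := fun F b hb => by
  rw [_root_.map_smul, smul_eq_mul, abs_mul]; push_cast
  rw [mul_assoc]
  exact mul_le_mul_of_nonneg_left (h F b hb) (abs_nonneg _)

lemma nm_sum {κ : Type*} (s : Finset κ) {α : κ → GQ} {m : ℕ} (h : ∀ k ∈ s, Sz (α k) m) :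
    Nm (∑ k ∈ s, e ℤ (α k)) s.card m := fun F b hb => by
  rw [lin_sum_e]
  refine (Finset.abs_sum_le_sum_abs _ _).trans ?_
  simpa using Finset.sum_le_card_nsmul s _ _ fun k hk => hb _ (h k hk)

lemma abs_un (i : ι) (g : SL(2, ℤ)) (a : ι × RC Γ) : |un Γ i g a| ≤ 1 := by
  classical
  rw [un, Pi.single_apply]; split_ifs <;> simp

lemma abs_pt {r : SL(2, ℤ) → ℤ} (h : ∀ g, |r g| ≤ 1) (x : Cu) : |pt r x| ≤ ht x := by
  induction x using cu_ind with
  | h0 => simp
  | h1 q ih =>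
    have h1 : (ht (cz (nx q)) : ℤ) < ht (q : Cu) := by exact_mod_cast ht_nx q
    rw [pt_coe]
    linarith [abs_sub (pt r (cz (nx q))) (r (nx q)), h (nx q)]

theorem rows_bound [Γ.FiniteIndex] {n m : ℕ} (hc : ∀ j i, Nm (c j i) n m) {v : ι × RC Γ → ℤ}
    (hv : v ∈ Rows Γ c) (a : ι × RC Γ) :
    |v a| ≤ (3 + 4 * Fintype.card ι * n * m) * 2 ^ Nat.card (RC Γ) := by
  set E : ℕ := 2 ^ Nat.card (RC Γ) with hE
  have hE1 : (1 : ℤ) ≤ E := by exact_mod_cast Nat.one_le_two_pow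
  have hE2 : (2 : ℤ) ^ Nat.card (RC Γ) = E := by rw [hE]; push_cast; rfl
  have h0 : (0 : ℤ) ≤ 4 * Fintype.card ι * n * m * E := by positivity
  have hp : ∀ i x, |pt (un Γ i) x a| ≤ Ht x := fun i x => by
    have := map_pt (Pi.evalAddMonoidHom (fun _ => ℤ) a) (un Γ i) x
    rw [Pi.evalAddMonoidHom_apply] at this
    rw [this]
    exact (abs_pt (fun g => abs_un i g a) x).trans (by exact_mod_cast ht_le_Ht x)
  have hh : ∀ j x, Ht x ≤ E → |(∑ i, hk (pt (un Γ i)) (c j i) x) a| ≤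
      Fintype.card ι * (n * (2 * m * E : ℕ)) := fun j x hx => by
    rw [Finset.sum_apply]
    refine (Finset.abs_sum_le_sum_abs _ _).trans ?_
    rw [← nsmul_eq_mul, ← Finset.card_univ]
    refine Finset.sum_le_card_nsmul _ _ _ fun i _ => ?_
    have := map_hk (Pi.evalAddMonoidHom (fun _ => ℤ) a) (pt (un Γ i)) (c j i) x
    rw [Pi.evalAddMonoidHom_apply] at this
    rw [this]
    refine hc j i _ _ fun δ hδ => (hp i _).trans ?_
    exact_mod_cast (hδ.Ht_le x).trans (Nat.mul_le_mul_left _ hx)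
  rw [hE2, add_mul]
  rcases hv with ⟨i, g, rfl⟩ | ⟨i, g, rfl⟩ | ⟨i, x, y, rfl⟩ | ⟨j, x, hx, rfl⟩
  · linarith [abs_add_le (un Γ i (g * S) a) (un Γ i g a), abs_un i (g * S) a, abs_un i g a,
      show |(un Γ i (g * S) + un Γ i g) a| = |un Γ i (g * S) a + un Γ i g a| from rfl]
  · linarith [abs_sub (un Γ i g a) (un Γ i (g * T) a + un Γ i (g * Lm) a), abs_un i g a,
      abs_add_le (un Γ i (g * T) a) (un Γ i (g * Lm) a), abs_un i (g * T) a, abs_un i (g * Lm) a,
      show |(un Γ i g - (un Γ i (g * T) + un Γ i (g * Lm))) a| =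
        |un Γ i g a - (un Γ i (g * T) a + un Γ i (g * Lm) a)| from rfl]
  · have h1 : (Ht (kp Γ x) : ℤ) ≤ E := by exact_mod_cast Ht_kp_le x
    have h2 : (Ht (kp Γ y) : ℤ) ≤ E := by exact_mod_cast Ht_kp_le y
    rw [Pi.sub_apply]
    linarith [abs_sub (pt (un Γ i) (kp Γ x) a) (pt (un Γ i) (kp Γ y) a), hp i (kp Γ x),
      hp i (kp Γ y)]
  · have h1 := hh j x hx
    have h2 := hh j _ (Ht_kp_le x)
    push_cast at h1 h2
    rw [Pi.sub_apply]
    refine (abs_sub _ _).trans ?_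
    linarith

/-! ### cusp forms -/

/-- the solutions in cusp forms -/
def Sp (Γ : Subgroup SL(2, ℤ)) (c : J → ι → MonoidAlgebra ℤ GQ) (h : ι → ℍ → ℂ) : Prop :=
  (∀ i, h i ∈ CS Γ 2) ∧ ∀ j, ∑ i, sl (c j i) (h i) = 0

/-- surjectivity of the Eichler-Shimura map -/
def ES (Γ : Subgroup SL(2, ℤ)) : Prop :=
  ∀ φ : SL(2, ℤ) → ℂ, (∀ γ ∈ Γ, ∀ γ' ∈ Γ, φ (γ * γ') = φ γ + φ γ') →
    ∃ f ∈ MS Γ 2, ∃ g ∈ CS Γ 2, ∀ γ ∈ Γ, φ γ = per f γ + conj (per g γ)

lemma hk_sub (Φ Ψ : Cu → A) (z : MonoidAlgebra ℤ GQ) (x : Cu) :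
    hk (fun y => Φ y - Ψ y) z x = hk Φ z x - hk Ψ z x := lin_sub _ _ z

variable [Γ.FiniteIndex]

theorem Sp.sol (hc : ∀ j i, c j i ∈ Corr ℤ (Γ.map Mf.sq) (Γ.map Mf.sq)) {h : ι → ℍ → ℂ}
    (hh : Sp Γ c h) : Sol Γ c fun a => rn Γ (h a.1) a.2 := by
  have e : ∀ i, (fun g => rn Γ (h i) (cs Γ g)) = sy (nm Γ (pot (h i))) := fun i =>
    funext (rn_cs (hh.1 i))
  refine ⟨fun i => e i ▸ man_sy _, fun i x y => ?_, fun j x _ => ?_⟩
  · simp only [e, pt_sy, nm, kp_kp, sub_self]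
  · have e2 : ∀ i, pt (fun g => rn Γ (h i) (cs Γ g)) =
        fun y => pot (h i) y - (pot (h i) (kp Γ y) + nm Γ (pot (h i)) ∞) := fun i =>
      funext fun y => by rw [e, pt_sy, nm, sub_sub]
    have h1 : ∀ i, Inv Γ fun y => pot (h i) (kp Γ y) + nm Γ (pot (h i)) ∞ := fun i γ hγ y => by
      simp only [kp_cu hγ]
    have h2 := PP.sum Finset.univ fun i => (pp_pot (hh.1 i)).hk (c j i)
    rw [hh.2 j] at h2
    obtain ⟨b, hb⟩ := h2.unique pp_zero
    simp only [Finset.sum_apply, Pi.zero_apply] at hb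
    simp only [e2, hk_sub, Finset.sum_sub_distrib, hb, ((h1 _).hk (hc j _)).kp]

theorem Sol.exists_sp (hES : ES Γ) (hc : ∀ j i, c j i ∈ Corr ℤ (Γ.map Mf.sq) (Γ.map Mf.sq))
    {u : ι × RC Γ → ℝ} (hu : Sol Γ c u) : ∃ h, Sp Γ c h ∧ ∀ a, u a = (rn Γ (h a.1) a.2).re := by
  obtain ⟨M, hM⟩ := exists_wid Γ
  let Φ : ι → Cu → ℝ := fun i => pt fun g => u (i, cs Γ g)
  have h1 : ∀ i g, sy (Φ i) g = u (i, cs Γ g) := fun i g => (hu.man i).sy_pt g
  have h2 : ∀ i, ∀ γ ∈ Γ, ∀ x, Φ i (cu γ x) = Φ i (cu γ ∞) - Φ i ∞ + Φ i x := fun i γ hγ =>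
    cu_of_inv fun g => by rw [h1, h1, cs_mul hγ]
  have h3 : ∀ i, ∃ h ∈ CS Γ 2, Inv Γ fun x => Φ i x - (pot h x).re := fun i => by
    obtain ⟨f, hf, g, hg, e⟩ := hES (fun γ => (Φ i (cu γ ∞) - Φ i ∞ : ℝ)) fun γ hγ γ' _ => by
      rw [cu_mul, h2 i γ hγ]; push_cast; ring
    have hf' : f ∈ CS Γ 2 := (mem_CS_iff hM hf).2 fun s => by
      have e1 := e _ (hM.2 s)
      have e2 := h2 i _ (hM.2 s) (cu s ∞)
      have e3 : ∀ k : ℕ, cu (s * T ^ k) ∞ = cu s ∞ := fun k => by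
        induction k with
        | zero => rw [pow_zero, mul_one]
        | succ k ih => rw [pow_succ, ← mul_assoc, cu_mulT, ih]
      rw [← cu_mul, inv_mul_cancel_right, e3, right_eq_add] at e2
      rw [(mem_CS_iff hM (CS_le_MS hg)).1 hg s, map_zero, add_zero] at e1
      rw [← e1, e2, ofReal_zero]
    refine ⟨f + g, add_mem hf' hg, fun γ hγ x => ?_⟩
    have e1 := congrArg Complex.re (e γ hγ)
    rw [ofReal_re, add_re, conj_re] at e1
    simp only [pot_cu (add_mem hf' hg) hγ, h2 i γ hγ x, per_add hf.1 hg.1, add_re]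
    linarith
  choose h hh hi using h3
  refine ⟨h, ⟨hh, fun j => ?_⟩, fun ⟨i, a⟩ => ?_⟩
  · have h4 : Inv Γ fun x => ∑ i, hk (Φ i) (c j i) x :=
      (Coc.sum _ fun i => Coc.hk (fun γ hγ => ⟨_, h2 i γ hγ⟩) (hc j i)).inv (hu.hke j)
    have h5 := PP.sum Finset.univ fun i => (pp_pot (hh i)).hk (c j i)
    have h6 : ∑ i, sl (c j i) (h i) ∈ CS Γ 2 := sum_mem fun i _ => sl_mem (hh i) (hc j i)
    refine re_per_inj h6 fun γ hγ => ?_
    have h7 := congrArg Complex.re (h5.cu_eq (h6.2.1 γ hγ) ∞)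
    have h8 : ∀ i x, (hk (pot (h i)) (c j i) x).re =
        hk (Φ i) (c j i) x - hk (fun x => Φ i x - (pot (h i) x).re) (c j i) x := fun i x => by
      rw [hk_sub, sub_sub_cancel]; exact map_hk Complex.reLm.toAddMonoidHom _ _ _
    have h9 := h4 γ hγ ∞
    simp only [add_re, Finset.sum_apply, re_sum, h8, Finset.sum_sub_distrib,
      (hi _).hk (hc j _) γ hγ] at h7 h9
    linarith
  · have e1 := (hi i).kp (cz a.out)
    have e2 := (hi i).kp (cu a.out ∞)
    have e3 : Φ i _ = Φ i _ := hu.nrm i (cz a.out) (cu a.out ∞)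
    have e4 := h1 i a.out
    rw [cs_out] at e4
    simp only [← e4, rn, sy, nm, sub_re] at e1 e2 ⊢
    linarith

/-- **the rows cut out the symbols** -/
theorem rows_dim [Fintype (RC Γ)] [DecidableEq (ι × RC Γ)] (hES : ES Γ)
    (hc : ∀ j i, c j i ∈ Corr ℤ (Γ.map Mf.sq) (Γ.map Mf.sq)) {κ : Type*} [Fintype κ]
    (G : κ → ι → ℍ → ℂ) (hG : ∀ k i, G k i ∈ CS Γ 2)
    (hs : ∀ h, Sp Γ c h → ∃ x : κ → ℂ, ∀ i, h i = ∑ k, x k • G k i) :
    Module.finrank ℝ (Hab.Ker (Rows Γ c)) ≤ 2 * Fintype.card κ := by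
  let w : κ ⊕ κ → ι × RC Γ → ℝ := Sum.elim (fun k a => (rn Γ (G k a.1) a.2).re)
    fun k a => (rn Γ (G k a.1) a.2).im
  have h1 : Hab.Ker (Rows Γ c) ≤ Submodule.span ℝ (Set.range w) := fun u hu => by
    obtain ⟨h, hh, e⟩ := ((sol_iff u).2 fun v hv => by
      simpa only [zsmul_eq_mul] using hu v hv).exists_sp hES hc
    obtain ⟨x, hx⟩ := hs h hh
    refine (Submodule.mem_span_range_iff_exists_fun ℝ).2
      ⟨Sum.elim (fun k => (x k).re) fun k => -(x k).im, funext fun a => ?_⟩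
    rw [e, hx, rn_sum _ _ fun k => hG k _]
    simp [w, Fintype.sum_sum_type, sub_eq_add_neg, Finset.sum_add_distrib]
  refine (Submodule.finrank_mono h1).trans ((finrank_range_le_card w).trans ?_)
  simp [two_mul]

theorem rows_ker [Fintype (RC Γ)] (hc : ∀ j i, c j i ∈ Corr ℤ (Γ.map Mf.sq) (Γ.map Mf.sq))
    {h : ι → ℍ → ℂ} (hh : Sp Γ c h) {v : ι × RC Γ → ℤ} (hv : v ∈ Rows Γ c) :
    ∑ a, (v a : ℂ) * rn Γ (h a.1) a.2 = 0 := by
  simpa only [zsmul_eq_mul] using (sol_iff _).1 (hh.sol hc) v hv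

end Crest.Agent.T15.Ms
end
end

-- ▼ part T15/MsE_40
section

/-!
# Row 15, block Ht (helper40): the Sturm bound and Haberland's inequality for normalised symbols
-/

set_option autoImplicit false
set_option linter.unusedSectionVars false

noncomputable section

namespace Crest.Agent.T15.Ms

open UpperHalfPlane hiding I
open MatrixGroups ModularGroup OnePoint Matrix.SpecialLinearGroup ModularForm Filter Complex
open scoped Topology Manifold ComplexConjugate
open Crest.Agent.T15.Mf Crest.Agent.T15.Hk Crest.Agent.T15.Esc Crest.Agent.T15.Und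

local notation "𝕢" => Function.Periodic.qParam

variable {Γ : Subgroup SL(2, ℤ)} {f : ℍ → ℂ} {c : ℕ → ℂ}

lemma qs_iff : QS c f ↔ ∀ τ : ℍ, HasSum (fun n => c n * 𝕢 1 τ ^ n) (f τ) := by
  refine forall_congr' fun τ => iff_of_eq ?_
  congr 1
  funext n
  rw [Function.Periodic.qParam, ← Complex.exp_nat_mul]
  congr 2
  push_cast
  ring

lemma periodic_T (h : f ∣[(2 : ℤ)] T = f) : Function.Periodic (f ∘ ofComplex) (1 : ℝ) :=
  periodic_of_vadd fun z => by
    have := slash_T_pow (k := 2) f 1 z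
    rw [pow_one, h, Nat.cast_one] at this
    exact this.symm

lemma qs_coeff (hT : T ∈ Γ) (hf : f ∈ CS Γ 2) : QS (fun n => (qExpansion 1 f).coeff n) f :=
  qs_iff.2 (hasSum_qExpansion one_pos (periodic_T (hf.2.1 _ hT)) hf.1
    (by simpa using (hf.2.2 1).isBoundedAtImInfty))

lemma coeff_zero (hT : T ∈ Γ) (hf : f ∈ CS Γ 2) (hc : QS c f) : c 0 = 0 := by
  have h0 : IsZeroAtImInfty f := by simpa using hf.2.2 1
  have hp := periodic_T (hf.2.1 _ hT)
  rw [hc.coeff_eq (qs_coeff hT hf)]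
  exact (qExpansion_coeff_zero one_pos (analyticAt_cuspFunction_zero one_pos hp hf.1
    h0.isBoundedAtImInfty) hp).trans h0.valueAtInfty_eq_zero

lemma slash_cs {k : ℤ} (hf : ∀ γ ∈ Γ, f ∣[k] γ = f) (g : SL(2, ℤ)) :
    f ∣[k] (cs Γ g).out = f ∣[k] g := by
  conv_rhs => rw [← inv_mul_cancel_right g (cs Γ g).out, SlashAction.slash_mul,
    hf _ (mul_out_mem Γ g)]

/-- **Sturm bound** -/
theorem sturm [Γ.FiniteIndex] (hf : f ∈ MS Γ 2) (hc : QS c f)
    (h0 : ∀ n ≤ Nat.card (RC Γ), c n = 0) : f = 0 := by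
  classical
  have := Fintype.ofFinite (RC Γ)
  rw [Nat.card_eq_fintype_card] at h0
  set n := Fintype.card (RC Γ) with hn
  have hG : ∀ γ : SL(2, ℤ), (∏ A : RC Γ, f ∣[(2 : ℤ)] A.out) ∣[(2 * n : ℤ)] γ =
      ∏ A : RC Γ, f ∣[(2 : ℤ)] A.out := fun γ => by
    have h1 := prod_slash (k := 2) (g := (γ : GL (Fin 2) ℝ)) (s := Finset.univ)
      (f := fun A : RC Γ => f ∣[(2 : ℤ)] A.out)
    rw [Matrix.GeneralLinearGroup.val_det_apply, det_SL, abs_one, one_zpow, one_smul] at h1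
    rw [SL_slash, hn, ← Finset.card_univ, h1,
      ← Equiv.prod_comp (rm γ) fun A : RC Γ => f ∣[(2 : ℤ)] A.out]
    refine Finset.prod_congr rfl fun A _ => ?_
    rw [← SL_slash, ← SlashAction.slash_mul]
    exact (slash_cs hf.2.1 _).symm
  have hb : ∀ s : Finset (RC Γ), IsBoundedAtImInfty (∏ A ∈ s, f ∣[(2 : ℤ)] A.out) := fun s =>
    (boundedAtImInftySubalgebra ℂ).prod_mem fun A _ => hf.2.2 _
  have hd : ∀ s : Finset (RC Γ), MDiff (∏ A ∈ s, f ∣[(2 : ℤ)] A.out) := fun s =>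
    Hol.prod_mem fun A _ => mdiff_slash hf.1 _
  let G : ModularForm 𝒮ℒ (2 * n : ℤ) :=
    { toFun := ∏ A : RC Γ, f ∣[(2 : ℤ)] A.out
      slash_action_eq' := by rintro _ ⟨γ, rfl⟩; exact hG γ
      holo' := hd _
      bdd_at_cusps' := fun {c} hc => by
        rw [OnePoint.isBoundedAt_iff_forall_SL2Z hc]
        intro γ _
        rw [hG]; exact hb _ }
  have hq : ∀ τ : ℍ, 𝕢 1 τ ^ (n + 1) ≠ 0 := fun τ =>
    pow_ne_zero _ (Function.Periodic.qParam_ne_zero _)
  have h1 : IsBoundedAtImInfty fun τ => f τ / 𝕢 1 τ ^ (n + 1) :=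
    isBoundedAtImInfty_of_hasSum_qExpansion (c := fun j => c (j + (n + 1))) one_pos fun τ => by
      have := (hasSum_nat_add_iff' (n + 1)).2 (qs_iff.1 hc τ)
      rw [Finset.sum_eq_zero fun j hj => by
        rw [h0 j (Nat.lt_succ_iff.1 (Finset.mem_range.1 hj)), zero_mul], sub_zero] at this
      refine (this.div_const _).congr_fun fun j => ?_
      rw [pow_add _ j, ← mul_assoc, mul_div_cancel_right₀ _ (hq τ), smul_eq_mul]
  have h2 : IsBoundedAtImInfty fun τ => G τ / 𝕢 1 τ ^ (n + 1) := by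
    have h3 := h1.mul (hb (Finset.univ.erase (cs Γ 1)))
    refine (funext fun τ => ?_ : _ = fun τ => G τ / 𝕢 1 τ ^ (n + 1)) ▸ h3
    change _ = (∏ A : RC Γ, f ∣[(2 : ℤ)] A.out) τ / _
    rw [← Finset.mul_prod_erase _ _ (Finset.mem_univ (cs Γ 1)), slash_cs hf.2.1,
      SlashAction.slash_one, Pi.mul_apply, Pi.mul_apply]
    ring
  have h3 : MDiff fun τ => G τ / 𝕢 1 τ ^ (n + 1) := by
    have : MDiff fun τ : ℍ => 𝕢 1 τ := fun τ =>
      (Function.Periodic.differentiable_qParam (τ : ℂ)).mdifferentiableAt.comp τ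
        (mdifferentiable_coe τ)
    exact G.holo'.div (this.pow _) hq
  have h4 : Function.Periodic ((fun τ => G τ / 𝕢 1 τ ^ (n + 1)) ∘ ofComplex) (1 : ℝ) :=
    periodic_of_vadd fun z => by
      have := slash_T_pow (k := 2 * n) G 1 z
      rw [show (G : ℍ → ℂ) ∣[(2 * n : ℤ)] (T ^ 1) = G from hG _, Nat.cast_one] at this
      simp only [qParam_vadd one_pos, ← this]
  have h5 := ModularFormClass.qExpansion_coeff_unique (f := G) one_pos (by simp)
    (c := fun j => if j < n + 1 then 0 else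
      (qExpansion 1 fun τ => G τ / 𝕢 1 τ ^ (n + 1)).coeff (j - (n + 1))) fun τ => by
    refine (hasSum_nat_add_iff' (n + 1)).1 ?_
    rw [Finset.sum_eq_zero fun j hj => by rw [if_pos (Finset.mem_range.1 hj), zero_smul], sub_zero]
    have := (hasSum_qExpansion one_pos h4 h3 h2 τ).mul_right (𝕢 1 τ ^ (n + 1))
    rw [div_mul_cancel₀ _ (hq τ)] at this
    refine this.congr_fun fun j => ?_
    rw [if_neg (by omega), Nat.add_sub_cancel, pow_add _ j, smul_mul_assoc]
  have h6 : G = 0 := sturm_bound_levelOne (lt_of_lt_of_le (b := ((n + 1 : ℕ) : ℕ∞))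
    (by exact_mod_cast (by omega : (2 * n : ℤ).toNat / 12 < n + 1))
    (PowerSeries.nat_le_order _ _ fun j hj => by rw [← h5, if_pos hj]))
  obtain ⟨A, -, hA⟩ := (prod_eq_zero_iff fun A _ => mdiff_slash hf.1 _).1
    (show ∏ A : RC Γ, f ∣[(2 : ℤ)] A.out = 0 from congrArg (fun u : ModularForm 𝒮ℒ _ => (u : ℍ → ℂ)) h6)
  exact (SlashAction.slash_eq_zero_iff _ _ _).1 hA


end Crest.Agent.T15.Ms
end
end

-- ▼ part T15/MsF_40
section

/-!
# Row 15, block Ht (helper40): the rows for `Γ₀(L)`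
-/

set_option autoImplicit false
set_option linter.unusedSectionVars false

noncomputable section

namespace Crest.Agent.T15.Ms

open UpperHalfPlane hiding I
open MatrixGroups ModularGroup OnePoint Matrix.SpecialLinearGroup ModularForm Filter Complex
open CongruenceSubgroup
open scoped Topology Manifold ComplexConjugate
open Crest.Agent.T15.Mf Crest.Agent.T15.Hk Crest.Agent.T15.Esc Crest.Agent.T15.Und
open Crest.Agent.T15.Lv (gm up dg U Tp Gq GH)
open Crest.NumberTheoryR.HeckeTwoAdic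

variable {L : ℕ} {f : ℍ → ℂ} {c : ℕ → ℂ}

lemma card_le [NeZero L] : Nat.card (RC (Gamma0 L)) ≤ L ^ 2 := by
  have h := Nat.card_le_card_of_injective (fun A : RC (Gamma0 L) =>
    (((A.out 1 0 : ℤ) : ZMod L), ((A.out 1 1 : ℤ) : ZMod L))) fun A B e => by
    rw [← cs_out A, ← cs_out B, cs_eq, Gamma0_mem, Lv.mul_apply, (Lv.inv_apply _).1,
      (Lv.inv_apply _).2.2.1]
    push_cast
    rw [show ((A.out 1 0 : ℤ) : ZMod L) = _ from congrArg Prod.fst e,
      show ((A.out 1 1 : ℤ) : ZMod L) = _ from congrArg Prod.snd e]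
    ring
  rwa [Nat.card_prod, Nat.card_zmod, ← pow_two] at h

/-- the Hecke element with small entries -/
def tp (L p : ℕ) : MonoidAlgebra ℤ GQ := U ℤ p + if p ∣ L then 0 else e ℤ (dg p)

lemma tp_corr {p : ℕ} (hp : p.Prime) :
    tp L p ∈ Corr ℤ ((Gamma0 L).map Mf.sq) ((Gamma0 L).map Mf.sq) := by
  rw [← Lv.GH_top]
  refine corr_congr (cen_corr₁ (Lv.cen_of le_rfl (Lv.Tp_cen hp))) ?_
  rw [tp, Tp, add_sub_add_left_eq_sub]
  split_ifs
  · simp
  · exact e_sub_mem (by rw [mul_inv_rev, mul_inv_cancel_left]; exact inv_mem (Lv.sg_mem L p))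

lemma sz_gm {a b c d : ℤ} (h : 0 < a * d - b * c) {m : ℕ} (hm : 1 ≤ m) (ha : a.natAbs ≤ m)
    (hb : b.natAbs ≤ m) (hc : c.natAbs ≤ m) (hd : d.natAbs ≤ m) : Sz (gm a b c d) m :=
  ⟨hm, ![![a, b], ![c, d]], fun i j => by
    rw [Lv.gm_val h]; fin_cases i <;> fin_cases j <;> rfl, fun i j => by
    fin_cases i <;> fin_cases j <;> assumption⟩

lemma sz_one {m : ℕ} (hm : 1 ≤ m) : Sz 1 m :=
  ⟨hm, ![![1, 0], ![0, 1]], fun i j => by fin_cases i <;> fin_cases j <;> simp, fun i j => by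
    fin_cases i <;> fin_cases j <;> simp [hm]⟩

lemma nm_tp {p m : ℕ} (hp : 0 < p) (hm : p ≤ m) : Nm (tp L p) (m + 1) m := by
  have h1 : Nm (U ℤ p) _ m := nm_sum (Finset.range p) fun i hi => by
    have := Finset.mem_range.1 hi
    exact sz_gm (by simpa using hp) (by omega) (by omega) (by omega) (by omega) (by omega)
  refine (h1.add (n' := 1) ?_).mono (by simpa using hm)
  split_ifs
  · exact nm_zero _ _
  · exact nm_e (sz_gm (by simpa using hp) (by omega) (by omega) (by omega) (by omega) (by omega))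

lemma qs_tp (h : QS c f) {p : ℕ} (hp : p ≠ 0) :
    QS (fun n => c (p * n) + if p ∣ L then 0 else if p ∣ n then p * c (n / p) else 0)
      (sl (tp L p) f) := by
  have hp' : 0 < p := Nat.pos_of_ne_zero hp
  have e1 : ∀ j, rr (up p j) = upperMat p j hp := fun j => by
    ext a b
    rw [rr_apply, up, Lv.gm_val (by simpa using hp')]
    fin_cases a <;> fin_cases b <;> simp [upperMat, mat2]
  have e2 : rr (dg p) = lowerMat p hp := by
    ext a b
    rw [rr_apply, dg, Lv.gm_val (by simpa using hp')]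
    fin_cases a <;> fin_cases b <;> simp [lowerMat, mat2]
  have h1 : QS (fun n => c (p * n)) (sl (U ℤ p) f) := qs_iff.2 fun τ => by
    rw [sl, U, lin_sum_e]
    simp only [e1]
    exact R007.Op.hasSum_upper 2 (qs_iff.1 h) hp τ
  rw [tp]
  split_ifs
  · simpa using h1
  · rw [sl_add, sl_e, e2]
    exact h1.add (qs_iff.2 fun τ => by simpa using R007.Op.hasSum_lower 2 (qs_iff.1 h) hp τ)


lemma qs_sum {κ : Type*} (s : Finset κ) {c : κ → ℕ → ℂ} {f : κ → ℍ → ℂ} (h : ∀ k, QS (c k) (f k))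
    (x : κ → ℂ) : QS (fun n => ∑ k ∈ s, x k * c k n) (∑ k ∈ s, x k • f k) := fun z => by
  have := hasSum_sum (s := s) fun k _ => (h k z).mul_left (x k)
  simpa only [Finset.sum_apply, Pi.smul_apply, smul_eq_mul, Finset.sum_mul, mul_assoc] using this

variable {ι : Type*} [Fintype ι] [DecidableEq ι]

/-- the relations `T_l h_i = ∑ j, b l i j h_j` for the primes below the Sturm bound -/
def rel (L : ℕ) (b : ℕ → ι → ι → ℤ)
    (j : {l : ℕ // l.Prime ∧ l ≤ Nat.card (RC (Gamma0 L))} × ι) (i : ι) : MonoidAlgebra ℤ GQ :=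
  (if i = j.2 then tp L j.1 else 0) + (-b j.1 j.2 i) • e ℤ 1

/-- the recursion on the coefficients -/
def Rec (L : ℕ) (b : ℕ → ι → ι → ℤ) (a : ι → ℕ → ℂ) (l : ℕ) : Prop :=
  ∀ i n, (a i (l * n) + if l ∣ L then 0 else if l ∣ n then l * a i (n / l) else 0) =
    ∑ j, b l i j * a j n

lemma rel_corr (b : ℕ → ι → ι → ℤ) (j) (i : ι) :
    rel L b j i ∈ Corr ℤ ((Gamma0 L).map Mf.sq) ((Gamma0 L).map Mf.sq) := by
  refine add_mem ?_ (Submodule.smul_mem _ _ (one_mem_corr le_rfl))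
  split_ifs
  exacts [tp_corr j.1.2.1, zero_mem _]

lemma sp_iff {b : ℕ → ι → ι → ℤ} {h : ι → ℍ → ℂ} {a : ι → ℕ → ℂ} (ha : ∀ i, QS (a i) (h i)) :
    (∀ j, ∑ i, sl (rel L b j i) (h i) = 0) ↔
      ∀ l : ℕ, l.Prime → l ≤ Nat.card (RC (Gamma0 L)) → Rec L b a l := by
  have e : ∀ j, ∑ i, sl (rel L b j i) (h i) =
      sl (tp L j.1) (h j.2) - ∑ i, (b j.1 j.2 i : ℂ) • h i := fun j => by
    simp only [rel, sl_add, sl_zsmul, e_one, sl_one, Finset.sum_add_distrib, sub_eq_add_neg]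
    congr 1
    · rw [Finset.sum_eq_single j.2] <;> simp +contextual [sl_zero]
    · simp
  simp only [e, sub_eq_zero]
  refine ⟨fun H l hl hn i n => ?_, fun H j => ?_⟩
  · exact congrFun ((qs_tp (L := L) (ha i) hl.ne_zero).coeff_eq
      (H (⟨l, hl, hn⟩, i) ▸ qs_sum _ ha _)) n
  · refine (qs_tp (ha j.2) j.1.2.1.ne_zero).unique ?_
    simp only [H _ j.1.2.1 j.1.2.2 j.2 _]
    exact qs_sum _ ha _

theorem rows_gen [NeZero L] [Fintype (RC (Gamma0 L))] [DecidableEq (ι × RC (Gamma0 L))]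
    (hES : ES (Gamma0 L)) (b : ℕ → ι → ι → ℤ) (G : ι → ι → ℍ → ℂ) (a : ι → ι → ℕ → ℂ)
    (hG : ∀ k i, G k i ∈ CS (Gamma0 L) 2) (ha : ∀ k i, QS (a k i) (G k i))
    (h1 : ∀ k i, a k i 1 = if k = i then 1 else 0)
    (hr : ∀ k, ∀ l : ℕ, l.Prime → Rec L b (a k) l) :
    (∀ v ∈ Rows (Gamma0 L) (rel L b), ∀ k, ∑ A, (v A : ℂ) * rn (Gamma0 L) (G k A.1) A.2 = 0) ∧
    Module.finrank ℝ (Hab.Ker (Rows (Gamma0 L) (rel L b))) ≤ 2 * Fintype.card ι := by
  have hT : T ∈ Gamma0 L := Lv.GH_top ▸ Lv.T_mem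
  refine ⟨fun v hv k => rows_ker (rel_corr b) ⟨hG k, (sp_iff (ha k)).2 fun l hl _ => hr k l hl⟩ hv,
    rows_dim hES (rel_corr b) G hG fun h hh => ?_⟩
  have hq := fun i => qs_coeff hT (hh.1 i)
  set c : ι → ℕ → ℂ := fun i n => (qExpansion 1 (h i)).coeff n
  have hc := (sp_iff hq).1 hh.2
  refine ⟨fun k => c k 1, fun i => sub_eq_zero.1 ?_⟩
  have hm : ∀ i, h i - ∑ k, c k 1 • G k i ∈ CS (Gamma0 L) 2 := fun i =>
    sub_mem (hh.1 i) (sum_mem fun k _ => Submodule.smul_mem _ _ (hG k i))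
  have hd := fun i => (hq i).sub (qs_sum Finset.univ (fun k => ha k i) fun k => c k 1)
  refine sturm (CS_le_MS (hm i)) (hd i) fun n hn => ?_
  induction n using Nat.strong_induction_on generalizing i with
  | _ n ih =>
    rcases Nat.lt_or_ge n 2 with h2 | h2
    · interval_cases n
      · exact coeff_zero hT (hm i) (hd i)
      · simp [h1, c]
    obtain ⟨l, hl, m, rfl⟩ := Nat.exists_prime_and_dvd (n := n) (by omega)
    have hm0 : 0 < m := Nat.pos_of_ne_zero (by rintro rfl; omega)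
    have hlm : m < l * m := by nlinarith [hl.two_le]
    have hz : ∀ j, ∀ k ≤ m, c j k = ∑ x, c x 1 * a x j k := fun j k hk =>
      sub_eq_zero.1 (ih k (by omega) j (by omega))
    have e1 : c i (l * m) = ∑ j, b l i j * c j m -
        if l ∣ L then 0 else if l ∣ m then l * c i (m / l) else 0 :=
      eq_sub_of_add_eq (hc l hl (le_trans (Nat.le_mul_of_pos_right l hm0) hn) i m)
    have e2 : ∀ x, a x i (l * m) = ∑ j, b l i j * a x j m -
        if l ∣ L then 0 else if l ∣ m then l * a x i (m / l) else 0 := fun x =>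
      eq_sub_of_add_eq (hr x l hl i m)
    rw [Pi.sub_apply, sub_eq_zero]
    change c i (l * m) = _
    simp only [e2, e1, hz _ m le_rfl, hz _ (m / l) (Nat.div_le_self _ _), mul_sub,
      Finset.sum_sub_distrib, Finset.mul_sum]
    congr 1
    · rw [Finset.sum_comm]
      exact Finset.sum_congr rfl fun _ _ => Finset.sum_congr rfl fun _ _ => by ring
    · split_ifs
      · simp
      · exact Finset.sum_congr rfl fun _ _ => by ring
      · simp

lemma rel_bound [NeZero L] {b : ℕ → ι → ι → ℤ} {β : ℕ}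
    (hb : ∀ l : ℕ, l.Prime → ∀ i j, (b l i j).natAbs ≤ β * (l + 1)) {v : ι × RC (Gamma0 L) → ℤ}
    (hv : v ∈ Rows (Gamma0 L) (rel L b)) (A : ι × RC (Gamma0 L)) :
    |(v A : ℝ)| ≤ (3 + 4 * Fintype.card ι * (1 + β)) * Real.exp (3 * (L : ℝ) ^ 2) := by
  set n := Nat.card (RC (Gamma0 L)) with hn
  have h1 := rows_bound (n := (1 + β) * (n + 1)) (m := n) (fun j i => by
    have h2 := j.1.2.1.pos
    have h3 := j.1.2.2
    refine (Nm.add (n := n + 1) ?_ ((nm_e (sz_one (by omega))).smul _)).mono ?_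
    · split_ifs
      exacts [nm_tp h2 h3, nm_zero _ _]
    · have := hb _ j.1.2.1 j.2 i
      rw [Int.natAbs_neg]
      nlinarith) hv A
  have h2 : (n : ℝ) + 1 ≤ Real.exp n := Real.add_one_le_exp _
  have h3 : (2 : ℝ) ^ n ≤ Real.exp n := by
    rw [← Real.exp_one_pow]
    exact pow_le_pow_left₀ zero_le_two (by linarith [Real.add_one_le_exp (1 : ℝ)]) n
  have h4 : Real.exp n * Real.exp n * Real.exp n ≤ Real.exp (3 * (L : ℝ) ^ 2) := by
    rw [← Real.exp_add, ← Real.exp_add]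
    have : (n : ℝ) ≤ (L : ℝ) ^ 2 := by exact_mod_cast card_le
    exact Real.exp_le_exp.2 (by linarith)
  have h5 : (1 : ℝ) ≤ Real.exp n := Real.one_le_exp (Nat.cast_nonneg n)
  have h6 : |(v A : ℝ)| ≤ (3 + 4 * Fintype.card ι * ((1 + β) * (n + 1)) * n) * 2 ^ n := by
    exact_mod_cast h1
  refine h6.trans (le_trans ?_ (mul_le_mul_of_nonneg_left h4 (by positivity)))
  rw [← mul_assoc _ _ (Real.exp n)]
  refine mul_le_mul ?_ h3 (by positivity) (by positivity)
  have h7 : ((n : ℝ) + 1) * n ≤ Real.exp n * Real.exp n :=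
    mul_le_mul h2 (by linarith) (by positivity) (by positivity)
  have h8 : (0 : ℝ) ≤ 4 * Fintype.card ι * (1 + β) := by positivity
  nlinarith [mul_le_mul_of_nonneg_left h7 h8, mul_le_mul h5 h5 zero_le_one (by positivity)]

/-- **the rows of the pair `g₁, g₃`** -/
theorem rows_pair [NeZero L] [Fintype (RC (Gamma0 L))] (hES : ES (Gamma0 L)) (h2 : 2 ∣ L)
    {g : ℕ → ℤ} {f : Fin 2 → ℍ → ℂ} (h1 : g 1 = 1) (hsup : ∀ n, ¬ n.Coprime L → g n = 0)
    (hrec : ∀ l : ℕ, l.Prime → ¬ l ∣ L → ∀ n : ℕ,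
      g (l * n) + (if l ∣ n then (l : ℤ) * g (n / l) else 0) =
        3 ^ ((if l % 4 = 3 then 1 else 0) * (if n % 4 = 3 then 1 else 0)) * g l * g n)
    (hcs : ∀ i, f i ∈ CS (Gamma0 L) 2)
    (q1 : QS (fun n => ((if n % 4 = 1 then g n else 0 : ℤ) : ℂ)) (f 0))
    (q3 : QS (fun n => ((if n % 4 = 3 then g n else 0 : ℤ) : ℂ)) (f 1)) :
    ∃ R : Set (Fin 2 × RC (Gamma0 L) → ℤ),
      (∀ row ∈ R, ∀ A, |(row A : ℝ)| ≤ 35 * Real.exp (3 * (L : ℝ) ^ 2)) ∧
      (∀ row ∈ R, ∀ j : Fin 2, ∑ A, (row A : ℂ) *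
        ![![rn (Gamma0 L) (f 0) A.2, 3 * rn (Gamma0 L) (f 1) A.2],
          ![rn (Gamma0 L) (f 1) A.2, rn (Gamma0 L) (f 0) A.2]] j A.1 = 0) ∧
      Module.finrank ℝ (Hab.Ker R) ≤ 4 := by
  classical
  let p1 : ℕ → ℤ := fun n => if n % 4 = 1 then g n else 0
  let p3 : ℕ → ℤ := fun n => if n % 4 = 3 then g n else 0
  have hev : ∀ n, n % 2 = 0 → g n = 0 := fun n hn => hsup n fun h =>
    absurd (Nat.eq_one_of_dvd_coprimes h (Nat.dvd_of_mod_eq_zero hn) h2) (by norm_num)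
  have key : ∀ l : ℕ, l.Prime → ¬ l ∣ L → ∀ n : ℕ,
      (p1 (l * n) + (if l ∣ n then (l : ℤ) * p1 (n / l) else 0) =
        g l * if l % 4 = 1 then p1 n else 3 * p3 n) ∧
      (p3 (l * n) + (if l ∣ n then (l : ℤ) * p3 (n / l) else 0) =
        g l * if l % 4 = 1 then p3 n else p1 n) := by
    intro l hl hL n
    have h := hrec l hl hL n
    have ho : l % 4 = 1 ∨ l % 4 = 3 := by
      rcases hl.eq_two_or_odd with rfl | h
      · exact absurd h2 hL
      · omega
    have e1 : l * n % 4 = l % 4 * (n % 4) % 4 := Nat.mul_mod _ _ _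
    have e2 : l ∣ n → n / l % 4 = l * n % 4 := by
      rintro ⟨m, rfl⟩
      rw [Nat.mul_div_cancel_left _ hl.pos, ← mul_assoc, Nat.mul_mod, Nat.mul_mod l l]
      rcases ho with h | h <;> simp [h]
    have hn : n % 4 = 0 ∨ n % 4 = 1 ∨ n % 4 = 2 ∨ n % 4 = 3 := by omega
    by_cases hd : l ∣ n
    · have e3 := e2 hd
      rcases ho with h0 | h0 <;> rcases hn with hn | hn | hn | hn <;>
        simp [p1, p3, hd, h0, hn, e1, e3] at h ⊢ <;> linarith
    · rcases ho with h0 | h0 <;> rcases hn with hn | hn | hn | hn <;>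
        simp [p1, p3, hd, h0, hn, e1] at h ⊢ <;> linarith
  have kz : ∀ l : ℕ, l.Prime → l ∣ L → ∀ n : ℕ, p1 (l * n) = 0 ∧ p3 (l * n) = 0 := fun l hl hL n => by
    have := hsup (l * n) fun h => hl.one_lt.ne'
      (Nat.eq_one_of_dvd_coprimes h (dvd_mul_right l n) hL)
    simp [p1, p3, this]
  let b : ℕ → Fin 2 → Fin 2 → ℤ := fun l => if l ∣ L then 0 else
    if l % 4 = 1 then ![![g l, 0], ![0, g l]] else ![![0, g l], ![3 * g l, 0]]
  have hs : ((√3 : ℝ) : ℂ) * (√3 : ℝ) = 3 := by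
    rw [← ofReal_mul, Real.mul_self_sqrt (by norm_num)]; simp
  have hg : ∀ l : ℕ, l.Prime → ¬ l ∣ L → (g l).natAbs ≤ l + 1 := fun l hl hL => by
    have hq := q1.add (q3.smul (√3 : ℝ))
    have h3 := eig_lt (add_mem (hcs 0) (Submodule.smul_mem _ _ (hcs 1))) (fun h0 => by
      rw [h0] at hq
      simpa [h1] using congrFun hq.eq_zero 1) hq hl.two_le
      (a := g l * if l % 4 = 1 then 1 else (√3 : ℝ)) fun n => by
        have a1 := congrArg (Int.cast : ℤ → ℂ) (key l hl hL n).1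
        have a2 := congrArg (Int.cast : ℤ → ℂ) (key l hl hL n).2
        simp only [Pi.add_apply, Pi.smul_apply, smul_eq_mul]
        change (p1 _ : ℂ) + _ * p3 _ + (if _ then _ * ((p1 _ : ℂ) + _ * p3 _) else _) =
          _ * ((p1 _ : ℂ) + _ * p3 _)
        split_ifs at a1 a2 ⊢ <;> push_cast at a1 a2 ⊢
        · linear_combination a1 + (√3 : ℝ) * a2
        · linear_combination a1 + (√3 : ℝ) * a2 - g l * p3 n * hs
        · linear_combination a1 + (√3 : ℝ) * a2
        · linear_combination a1 + (√3 : ℝ) * a2 - g l * p3 n * hs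
    have h4 : (1 : ℝ) ≤ ‖((if l % 4 = 1 then 1 else √3 : ℝ) : ℂ)‖ := by
      split_ifs
      · simp
      · rw [norm_real, Real.norm_of_nonneg (Real.sqrt_nonneg _)]
        exact Real.one_le_sqrt.2 (by norm_num)
    rw [norm_mul, norm_intCast, ← Int.cast_abs, Int.abs_eq_natAbs, Int.cast_natCast] at h3
    exact_mod_cast ((le_mul_of_one_le_right (Nat.cast_nonneg _) h4).trans h3.le :
      ((g l).natAbs : ℝ) ≤ l + 1)
  obtain ⟨k1, k2⟩ := rows_gen hES b ![![f 0, (3 : ℂ) • f 1], ![f 1, f 0]]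
    ![![fun n => p1 n, (3 : ℂ) • fun n => (p3 n : ℂ)], ![fun n => p3 n, fun n => p1 n]]
    (fun k i => by
      fin_cases k <;> fin_cases i
      exacts [hcs 0, Submodule.smul_mem _ _ (hcs 1), hcs 1, hcs 0])
    (fun k i => by
      fin_cases k <;> fin_cases i
      exacts [q1, q3.smul 3, q3, q1])
    (fun k i => by fin_cases k <;> fin_cases i <;> simp [p1, p3, h1])
    (fun k l hl i n => by
      by_cases hL : l ∣ L
      · fin_cases k <;> fin_cases i <;> simp [b, hL, kz l hl hL n]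
      · have a1 := congrArg (Int.cast : ℤ → ℂ) (key l hl hL n).1
        have a2 := congrArg (Int.cast : ℤ → ℂ) (key l hl hL n).2
        clear_value p1 p3
        by_cases h4 : l % 4 = 1 <;> by_cases hd : l ∣ n <;> fin_cases k <;> fin_cases i <;>
          simp [b, hL, h4, hd] at a1 a2 ⊢ <;>
          first | linear_combination a1 | linear_combination a2 | linear_combination 3 * a2)
  refine ⟨_, fun v hv A => (rel_bound (β := 3) (fun l hl i j => ?_) hv A).trans_eq (by norm_num),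
    fun v hv j => ?_, k2⟩
  · by_cases hL : l ∣ L
    · simp [b, hL]
    · have := hg l hl hL
      by_cases h4 : l % 4 = 1 <;> fin_cases i <;> fin_cases j <;>
        simp [b, hL, h4, Int.natAbs_mul] <;> omega
  · rw [← k1 v hv j]
    refine Finset.sum_congr rfl fun ⟨i, A⟩ _ => ?_
    fin_cases j <;> fin_cases i <;> simp [rn_smul _ (hcs 1)]

end Crest.Agent.T15.Ms
end
end

-- ▼ part T15/MsG_40
section

/-!
# Row 15, block Ht (helper40): Eichler-Shimura for `Γ₀(L)` from the torsion free levels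
-/

set_option autoImplicit false

noncomputable section

namespace Crest.Agent.T15.Ms

open UpperHalfPlane hiding I
open MatrixGroups ModularForm CongruenceSubgroup
open scoped ComplexConjugate
open Crest.Agent.T15.Hk Crest.Agent.T15.Esc

/-- Eichler-Shimura for congruence subgroups of `Γ₁(4)` -/
def EsS : Prop :=
  ∀ (Γ : Subgroup SL(2, ℤ)) [Γ.FiniteIndex], Γ ≤ Gamma1 4 → IsCongruenceSubgroup Γ →
    ∀ φ : HH (Γ.map Mf.sq) ℂ, ∃ f ∈ MS Γ 2, ∃ g ∈ CS Γ 2, ∀ γ ∈ Γ,
      val φ (Mf.sq γ) = per f γ + conj (per g γ)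

lemma slash_neg_SL (f : ℍ → ℂ) (γ : SL(2, ℤ)) : f ∣[(2 : ℤ)] (-γ) = f ∣[(2 : ℤ)] γ := by
  funext z
  rw [SL_slash_apply, SL_slash_apply, ModularGroup.SL_neg_smul, ModularGroup.denom_apply,
    ModularGroup.denom_apply]
  simp only [Matrix.SpecialLinearGroup.coe_neg, Matrix.neg_apply, Int.cast_neg, neg_mul, ← neg_add,
    Even.neg_zpow (by decide : Even (-2 : ℤ))]

lemma per_neg (f : ℍ → ℂ) (γ : SL(2, ℤ)) : per f (-γ : SL(2, ℤ)) = per f γ :=
  congrArg (fun z => prim f z - prim f UpperHalfPlane.I) (ModularGroup.SL_neg_smul γ _)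

theorem es_gamma0_of (h : EsS) {L : ℕ} [NeZero L] (h4 : 4 ∣ L) : ES (Gamma0 L) := by
  intro φ hφ
  have hn : -1 ∈ Gamma0 L := by simp [Gamma0_mem]
  have hpm : ∀ γ ∈ Gamma0 L, γ ∈ Gamma0 L ⊓ Gamma1 4 ∨ -γ ∈ Gamma0 L ⊓ Gamma1 4 := fun γ hγ => by
    have h0 : ((γ 1 0 : ℤ) : ZMod 4) = 0 := by
      simpa using congrArg (ZMod.castHom h4 (ZMod 4)) (Gamma0_mem.1 hγ)
    have h1 := Lv.a_mul_d h0
    have h2 : ∀ a d : ZMod 4, a * d = 1 → (a = 1 ∧ d = 1) ∨ (-a = 1 ∧ -d = 1) := by decide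
    rcases h2 _ _ h1 with h3 | h3
    · exact Or.inl ⟨hγ, (Gamma1_mem _ _).2 ⟨h3.1, h3.2, h0⟩⟩
    · refine Or.inr ⟨by simpa using mul_mem hn hγ, (Gamma1_mem _ _).2 ?_⟩
      simpa [h0] using h3
  have hφ1 : φ 1 = 0 := by simpa using hφ 1 (one_mem _) 1 (one_mem _)
  have hφn : ∀ γ ∈ Gamma0 L, φ (-γ) = φ γ := fun γ hγ => by
    have h1 := hφ _ hn _ hn
    have h2 := hφ _ hn _ hγ
    rw [neg_mul_neg, one_mul, hφ1] at h1
    rw [neg_one_mul] at h2
    linear_combination h2 - h1 / 2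
  have e : ∀ γ, Function.extend Mf.sq φ 0 (Mf.sq γ) = φ γ := Mf.sq_injective.extend_apply φ 0
  obtain ⟨f, hf, g, hg, H⟩ := h (Gamma0 L ⊓ Gamma1 4) inf_le_right
    ⟨L, NeZero.ne L, le_inf (Lv.GH_top ▸ Lv.Gamma_le_GH) (Lv.Gamma_le_GH.trans
      (Lv.GH_le_G4 (H := ⊥) h4 fun u hu => by rw [Subgroup.mem_bot.1 hu, map_one]))⟩
    (mk _ (Function.extend Mf.sq φ 0) (by
      rintro _ ⟨γ, hγ, rfl⟩ _ ⟨γ', hγ', rfl⟩
      rw [← map_mul, e, e, e, hφ _ hγ.1 _ hγ'.1]))
  have inv : ∀ u : ℍ → ℂ, (∀ γ ∈ Gamma0 L ⊓ Gamma1 4, u ∣[(2 : ℤ)] γ = u) →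
      ∀ γ ∈ Gamma0 L, u ∣[(2 : ℤ)] γ = u := fun u hu γ hγ =>
    (hpm γ hγ).elim (hu γ) fun h => slash_neg_SL u γ ▸ hu _ h
  refine ⟨f, ⟨hf.1, inv f hf.2.1, hf.2.2⟩, g, ⟨hg.1, inv g hg.2.1, hg.2.2⟩, fun γ hγ => ?_⟩
  rcases hpm γ hγ with h1 | h1
  · rw [← H γ h1, val_mk _ _ (Subgroup.mem_map_of_mem _ h1), e]
  · rw [← per_neg f, ← per_neg g, ← H _ h1, val_mk _ _ (Subgroup.mem_map_of_mem _ h1), e, hφn γ hγ]

end Crest.Agent.T15.Ms
end
end

-- ▼ part T15/EscX_12
section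

/-!
# Row 15 (helper12): Eichler-Shimura in the words of the block `Ms`
-/

set_option autoImplicit false

namespace Crest.Agent.T15.EscO

open CongruenceSubgroup

theorem esS : Ms.EsS := fun Γ _ h4 ⟨M, hM, hc⟩ φ =>
  esSurj M Γ (Nat.pos_of_ne_zero hM) hc h4 φ


end Crest.Agent.T15.EscO
end

-- ▼ part T15/Arch_58
section

/-!
# Row 15, block Ht (helper58): `ArchStmt` from the integer rows
-/

set_option autoImplicit false

noncomputable section

namespace Crest.Agent.T15.Ht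

open CongruenceSubgroup
open scoped MatrixGroups UpperHalfPlane
open Crest.Agent.T15.Hk (RC)

/-- bounded integer rows which cut out the symbols of the pair -/
def RowsStmt : Prop :=
  ∃ (C : ℝ) (k : ℕ), ∀ (L : ℕ) (g : ℕ → ℤ) (f : Fin 2 → ℍ → ℂ), Hk L g → Pair L g f →
    ∀ [Fintype (RC (Gamma0 L))], ∃ R : Set (Fin 2 × RC (Gamma0 L) → ℤ),
      (∀ row ∈ R, ∀ A, |(row A : ℝ)| ≤ Real.exp (C * (L : ℝ) ^ k)) ∧
      (∀ row ∈ R, ∀ j, ∑ A, (row A : ℂ) * Hab.rr (Gamma0 L) f j A = 0) ∧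
      Module.finrank ℝ (Hab.Ker R) ≤ 4

theorem archStmt_of (h : RowsStmt) : ArchStmt := by
  obtain ⟨C, k, h⟩ := h
  obtain ⟨C', hC'⟩ := Hab.arch_num C k
  refine ⟨C', k + 4, fun L g f a b x hk hp hx hd => ?_⟩
  have : NeZero L := ⟨hk.pos.ne'⟩
  have := Fintype.ofFinite (RC (Gamma0 L))
  obtain ⟨R, hB, hker, hdim⟩ := h L g f hk hp
  have hL : (0 : ℝ) ≤ (L : ℝ) ^ k := by positivity
  have := Hab.arch_core (Γ := Gamma0 L) (by simp [Gamma0_mem])
    (by simp [Gamma0_mem, ModularGroup.coe_T]) hp.cs hp.q1 hp.q3 (by simp [pc, hk.one])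
    (by simp [pc]) (B := Real.exp (|C| * (L : ℝ) ^ k)) (Real.one_le_exp (by positivity)) R
    (fun row hr A => (hB row hr A).trans
      (Real.exp_le_exp.2 (mul_le_mul_of_nonneg_right (le_abs_self C) hL))) hker hdim a b x
    (fun i => by
      obtain ⟨v, hv, w, hw, e⟩ := hx i
      refine ⟨v, hv, w, hw, ?_, ?_⟩
      · have := congrFun e 0
        change (64 : ℚ) • x i 0 = a • (v 0 + 3 * w 1) + b • (3 * (v 1 + w 0)) at this
        simp only [Rat.smul_def] at this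
        exact_mod_cast this
      · have := congrFun e 1
        change (64 : ℚ) • x i 1 = a • (v 1 + w 0) + b • (v 0 + 3 * w 1) at this
        simp only [Rat.smul_def] at this
        exact_mod_cast this) hd
  refine ⟨fun e => this.1 (by exact_mod_cast e), ?_⟩
  push_cast
  exact hC' L _ _ _ hk.pos (Hab.card_RC L) (sq_nonneg _) this.2

theorem rowsStmt_of (h : Ms.EsS) : RowsStmt := by
  refine ⟨38, 2, fun L g f hk hp _ => ?_⟩
  have : NeZero L := ⟨hk.pos.ne'⟩
  obtain ⟨R, h1, h2, h3⟩ := Ms.rows_pair (Ms.es_gamma0_of h (dvd_trans (by norm_num) hk.dvd))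
    (dvd_trans (by norm_num) hk.dvd) hk.one hk.sup hk.hrec hp.cs hp.q1 hp.q3
  refine ⟨R, fun row hr A => (h1 row hr A).trans ?_, h2, h3⟩
  have hL : (1 : ℝ) ≤ (L : ℝ) ^ 2 := one_le_pow₀ (by exact_mod_cast hk.pos)
  rw [show 38 * (L : ℝ) ^ 2 = 35 * (L : ℝ) ^ 2 + 3 * (L : ℝ) ^ 2 by ring, Real.exp_add]
  refine mul_le_mul_of_nonneg_right ?_ (Real.exp_pos _).le
  linarith [Real.add_one_le_exp (35 * (L : ℝ) ^ 2)]

/-- leaf ARCH from the surjectivity of the Eichler-Shimura map -/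
theorem archStmt_of_es (h : Ms.EsS) : ArchStmt := archStmt_of (rowsStmt_of h)

/-- leaf ARCH -/
theorem archStmt : ArchStmt := archStmt_of_es EscO.esS

end Crest.Agent.T15.Ht
end
end

-- ▼ part T15/Cy_10
section

/-!
# Row 15, block T (helper10): the character `δ`
-/

set_option autoImplicit false

noncomputable section

namespace Crest.Agent.T15.TD

open Crest.Agent.T15.Hk
open Crest.Agent.T15.C (Gam Om In)

theorem exists_cy (N : ℕ) [NeZero N] : ∃ c : Gam →* (ZMod N)ˣ,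
    (∀ (g : Gam) (ζ : Om), ζ ^ N = 1 → g ζ = ζ ^ (c g : ZMod N).val) ∧
    ∀ (g : Gam) (u : (ZMod N)ˣ) (ζ : Om), IsPrimitiveRoot ζ N → g ζ = ζ ^ (u : ZMod N).val →
      c g = u := by
  obtain ⟨μ, hμ⟩ := Rg.exists_root N (NeZero.ne N)
  have h1 : ∀ (g : Gam) (ζ : Om), ζ ^ N = 1 → g ζ = ζ ^ (hμ.autToPow ℚ g : ZMod N).val :=
    fun g ζ hζ => by
      obtain ⟨a, -, rfl⟩ := hμ.eq_pow_of_pow_eq_one hζ
      rw [map_pow, ← hμ.autToPow_spec ℚ g, pow_right_comm]
  exact ⟨hμ.autToPow ℚ, h1, fun g u ζ hζ e => Units.ext (ZMod.val_injective N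
    (hζ.pow_inj (ZMod.val_lt _) (ZMod.val_lt _) ((h1 g ζ hζ.pow_eq_one).symm.trans e)))⟩

lemma pow_val {N : ℕ} [NeZero N] {ζ : Om} (hζ : ζ ^ N = 1) (a : ℕ) :
    ζ ^ (a : ZMod N).val = ζ ^ a := by rw [ZMod.val_natCast, ← pow_eq_pow_mod a hζ]

theorem cyStmt : CyStmt := fun L r m q h => by
  have := h.neZero
  obtain ⟨c, h1, h2⟩ := exists_cy (LQ L q)
  obtain ⟨ζ, hζ⟩ := Rg.exists_root (LQ L q) (NeZero.ne _)
  refine ⟨(chi L q m).comp c, fun g u ξ hξ e => congrArg (chi L q m) (h2 g u ξ hξ e),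
    (Qi.isOpen_iff _).2 ⟨{ζ}, fun g hg => ?_⟩, fun P hP g hg => funext fun i => ?_,
    fun P s u hs hu => congrArg (chi L q m) (h2 s u ζ hζ ?_)⟩
  · rw [MonoidHom.mem_ker, MonoidHom.comp_apply, h2 g 1 ζ hζ, map_one]
    rw [hg ζ (Finset.mem_singleton_self _), Units.val_one, ← Nat.cast_one, pow_val hζ.pow_eq_one,
      pow_one]
  · obtain ⟨ξ, hξ⟩ := Rg.exists_root (q i) (h.prime i).ne_zero
    have e := h1 g ξ ((hξ.pow_eq_one_iff_dvd _).2 (q_dvd_LQ L q i))
    rw [Rg.inertia_root hg (fun hd => hP i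
      ((Nat.prime_dvd_prime_iff_eq P.rchar_prime (h.prime i)).1 hd)) hξ.pow_eq_one] at e
    have e' := (Tw.pow_eq_iff hξ (h.prime i).ne_zero).1 ((pow_one ξ).trans e)
    have e'' : ZMod.unitsMap (q_dvd_LQ L q i) (c g) = 1 := Units.ext (by
      rw [ZMod.unitsMap_val, ← ZMod.natCast_val, ← (ZMod.natCast_eq_natCast_iff _ _ _).2 e',
        Nat.cast_one, Units.val_one])
    rw [MonoidHom.comp_apply, chi_apply, e'', map_one]; rfl
  · rw [hu, pow_val hζ.pow_eq_one]
    exact Tw.frob_root P hs ((Nat.Prime.coprime_iff_not_dvd P.rchar_prime).1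
      ((ZMod.isUnit_iff_coprime _ _).1 (hu ▸ u.isUnit))) hζ.pow_eq_one

end Crest.Agent.T15.TD

end
end

-- ▼ part T15/BadA_93
section

/-!
# Row 15, block Ht (helper93): integrality of the formal solution after rescaling (core of `BadStmt`)
-/

set_option autoImplicit false
set_option linter.all false

noncomputable section

namespace Crest.Agent.T15.Bad

open scoped NNReal PowerSeries
open PowerSeries

variable {K : Type*} [Field K]

section val
variable (v : Valuation K ℝ≥0)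

theorem v_nat (n : ℕ) : v (n : K) ≤ 1 := by
  induction n with
  | zero => simp
  | succ n ih => push_cast; exact v.map_add_le ih (by simp)

theorem v_int (n : ℤ) : v (n : K) ≤ 1 := by
  obtain ⟨m, rfl | rfl⟩ := n.eq_nat_or_neg
  · simpa using v_nat v m
  · simpa using v_nat v m

theorem pow_le_nat {N : ℕ} (hN : v (N : K) < 1) (n : ℕ) : v (N : K) ^ n ≤ v ((n + 1 : ℕ) : K) := by
  induction n using Nat.strong_induction_on with
  | _ n ih =>
  by_cases h : Nat.gcd (n + 1) N = 1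
  · have e := Nat.gcd_eq_gcd_ab (n + 1) N
    rw [h] at e
    have e' : (1 : K) = ((n + 1 : ℕ) : K) * (Nat.gcdA (n + 1) N : K) +
        (N : K) * (Nat.gcdB (n + 1) N : K) := by
      have := congrArg (Int.cast : ℤ → K) e
      simpa using this
    refine (pow_le_one₀ zero_le hN.le).trans ?_
    by_contra hlt
    push Not at hlt
    have h1 : v (((n + 1 : ℕ) : K) * (Nat.gcdA (n + 1) N : K)) < 1 := by
      rw [map_mul]; exact (mul_le_of_le_one_right' (v_int v _)).trans_lt hlt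
    have h2 : v ((N : K) * (Nat.gcdB (n + 1) N : K)) < 1 := by
      rw [map_mul]; exact (mul_le_of_le_one_right' (v_int v _)).trans_lt hN
    have := v.map_add_lt h1 h2
    rw [← e'] at this
    simp at this
  · obtain ⟨k, hk⟩ := Nat.gcd_dvd_left (n + 1) N
    obtain ⟨N', hN'⟩ := Nat.gcd_dvd_right (n + 1) N
    set d := Nat.gcd (n + 1) N
    have hd0 : d ≠ 0 := by rintro h0; rw [h0] at hk; omega
    have hd : 2 ≤ d := by omega
    obtain ⟨k, rfl⟩ : ∃ k', k = k' + 1 := by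
      cases k with
      | zero => omega
      | succ k => exact ⟨k, rfl⟩
    have hkn : k + 1 ≤ n := by nlinarith
    have h1 : v (N : K) ≤ v (d : K) := by
      conv_lhs => rw [hN']
      push_cast; rw [map_mul]; exact mul_le_of_le_one_right' (v_nat v _)
    calc v (N : K) ^ n ≤ v (N : K) ^ (k + 1) := pow_le_pow_of_le_one zero_le hN.le hkn
      _ = v (N : K) * v (N : K) ^ k := by ring
      _ ≤ v (d : K) * v ((k + 1 : ℕ) : K) := mul_le_mul' h1 (ih k (by omega))
      _ = _ := by rw [hk, Nat.cast_mul, map_mul]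

/-- integral below `n` -/
def Ib (n : ℕ) (f : K⟦X⟧) : Prop := ∀ k < n, v (coeff k f) ≤ 1

/-- integral -/
def Ia (f : K⟦X⟧) : Prop := ∀ k, v (coeff k f) ≤ 1

variable {v}

theorem Ia.ib {f : K⟦X⟧} (h : Ia v f) (n : ℕ) : Ib v n f := fun k _ => h k

theorem ia_of {f : K⟦X⟧} (h : ∀ n, Ib v n f) : Ia v f := fun k => h (k + 1) k k.lt_succ_self

theorem Ib.mono {n m : ℕ} {f : K⟦X⟧} (h : Ib v n f) (hm : m ≤ n) : Ib v m f :=
  fun k hk => h k (hk.trans_le hm)

theorem Ib.add {n : ℕ} {f g : K⟦X⟧} (hf : Ib v n f) (hg : Ib v n g) : Ib v n (f + g) :=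
  fun k hk => by rw [map_add]; exact v.map_add_le (hf k hk) (hg k hk)

theorem Ib.neg {n : ℕ} {f : K⟦X⟧} (hf : Ib v n f) : Ib v n (-f) :=
  fun k hk => by rw [map_neg, Valuation.map_neg]; exact hf k hk

theorem ib_C {n : ℕ} {a : K} (ha : v a ≤ 1) : Ib v n (C a) := fun k _ => by
  rw [coeff_C]; split_ifs <;> simp [ha]

theorem ib_X {n : ℕ} : Ib v n (X : K⟦X⟧) := fun k _ => by
  rw [coeff_X]; split_ifs <;> simp

theorem ib_one {n : ℕ} : Ib v n (1 : K⟦X⟧) := by simpa using ib_C (v := v) (n := n) (a := 1) (by simp)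

theorem Ib.mul {n : ℕ} {f g : K⟦X⟧} (hf : Ib v n f) (hg : Ib v n g) : Ib v n (f * g) := fun k hk => by
  rw [coeff_mul]
  refine v.map_sum_le fun p hp => ?_
  have := Finset.HasAntidiagonal.mem_antidiagonal.1 hp
  rw [map_mul]
  exact mul_le_one' (hf _ (by omega)) (hg _ (by omega))

theorem Ib.mul1 {n : ℕ} {f g : K⟦X⟧} (h0 : constantCoeff f = 0) (hf : Ib v (n + 1) f)
    (hg : Ib v n g) : Ib v (n + 1) (f * g) := fun k hk => by
  rw [coeff_mul]
  refine v.map_sum_le fun p hp => ?_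
  have := Finset.HasAntidiagonal.mem_antidiagonal.1 hp
  rw [map_mul]
  rcases Nat.eq_zero_or_pos p.1 with h | h
  · simp [h, h0]
  · exact mul_le_one' (hf _ (by omega)) (hg _ (by omega))

theorem Ib.mul2 {n : ℕ} {f g : K⟦X⟧} (h0 : constantCoeff f = 0) (h0' : constantCoeff g = 0)
    (hf : Ib v n f) (hg : Ib v n g) : Ib v (n + 1) (f * g) := fun k hk => by
  rw [coeff_mul]
  refine v.map_sum_le fun p hp => ?_
  have := Finset.HasAntidiagonal.mem_antidiagonal.1 hp
  rw [map_mul]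
  rcases Nat.eq_zero_or_pos p.1 with h | h
  · simp [h, h0]
  rcases Nat.eq_zero_or_pos p.2 with h' | h'
  · simp [h', h0']
  · exact mul_le_one' (hf _ (by omega)) (hg _ (by omega))

theorem Ib.pow {n : ℕ} {f : K⟦X⟧} (hf : Ib v n f) (k : ℕ) : Ib v n (f ^ k) := by
  induction k with
  | zero => simpa using ib_one
  | succ k ih => rw [pow_succ]; exact ih.mul hf

theorem Ib.pow2 {n : ℕ} {f : K⟦X⟧} (h0 : constantCoeff f = 0) (hf : Ib v n f) (k : ℕ) :
    Ib v (n + 1) (f ^ (k + 2)) := by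
  rw [pow_succ]
  exact Ib.mul2 (by simp [h0]) h0 (hf.pow _) hf

theorem Ia.mul {f g : K⟦X⟧} (hf : Ia v f) (hg : Ia v g) : Ia v (f * g) :=
  ia_of fun n => (hf.ib n).mul (hg.ib n)

theorem Ia.pow {f : K⟦X⟧} (hf : Ia v f) (k : ℕ) : Ia v (f ^ k) := ia_of fun n => (hf.ib n).pow k

theorem Ia.add {f g : K⟦X⟧} (hf : Ia v f) (hg : Ia v g) : Ia v (f + g) :=
  ia_of fun n => (hf.ib n).add (hg.ib n)

theorem ia_C {a : K} (ha : v a ≤ 1) : Ia v (C a) := ia_of fun _ => ib_C ha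

theorem ia_X : Ia v (X : K⟦X⟧) := ia_of fun _ => ib_X

theorem ia_sqrt {Z G : K⟦X⟧} (hZ : constantCoeff Z = 0) (hG0 : constantCoeff G = 0) (hG : Ia v G)
    (e : Z = -(Z * Z) + -(G * (1 + C 2 * Z) ^ 2)) : Ia v Z := by
  refine ia_of fun n => ?_
  induction n with
  | zero => exact fun k hk => absurd hk (by omega)
  | succ n ih =>
    rw [e]
    have h2 : v (2 : K) ≤ 1 := by simpa using v_nat v 2
    exact (Ib.mul2 hZ hZ ih ih).neg.add
      (Ib.mul1 hG0 (hG.ib _) ((ib_one.add ((ib_C h2).mul ih)).pow 2)).neg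

theorem v_subst_le (H y : K⟦X⟧) (hy : constantCoeff y = 0) (n : ℕ) (c : ℝ≥0)
    (h : ∀ k, v (coeff k H * coeff n (y ^ k)) ≤ c) : v (coeff n (H.subst y)) ≤ c := by
  have hs := HasSubst.of_constantCoeff_zero' hy
  rw [coeff_subst' hs, finsum_eq_sum _ (coeff_subst_finite' hs H n)]
  exact v.map_sum_le fun k _ => h k

end val

theorem exists_isqrt [CharZero K] (P : K⟦X⟧) (b : K) (hb : b ≠ 0) (hP : constantCoeff P = b ^ 2) :
    ∃ U : K⟦X⟧, U ^ 2 * P = 1 ∧ constantCoeff U = b⁻¹ := by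
  set G : K⟦X⟧ := C (b ^ 2)⁻¹ * P - 1 with hG
  have hG0 : constantCoeff G = 0 := by simp [hG, hP, hb]
  have hs := HasSubst.of_constantCoeff_zero' hG0
  set B : K⟦X⟧ := binomialSeries K (-1 / 2 : ℚ)
  have hB : B ^ 2 * (1 + X) = 1 := by
    have h1 : binomialSeries K ((1 : ℕ) : ℚ) = (1 + X : K⟦X⟧) := by
      rw [binomialSeries_nat]; simp
    rw [← h1, sq, ← binomialSeries_add, ← binomialSeries_add]
    norm_num
  have hB0 : constantCoeff B = 1 := binomialSeries_constantCoeff _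
  have h1 : (B.subst G : K⟦X⟧) ^ 2 * (1 + G) = 1 := by
    have := congrArg (substAlgHom (R := K) hs) hB
    rw [map_mul, map_pow, map_add, map_one, coe_substAlgHom, subst_X hs] at this
    exact this
  have h0 : constantCoeff (B.subst G : K⟦X⟧) = 1 := by
    have h2 : constantCoeff (B - 1) = 0 := by simp [hB0]
    have := constantCoeff_subst_eq_zero (a := G) hG0 (B - 1) h2
    rw [← coe_substAlgHom hs, map_sub, map_one, coe_substAlgHom, map_sub, map_one,
      sub_eq_zero] at this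
    exact this
  refine ⟨C b⁻¹ * B.subst G, ?_, by simp [h0]⟩
  rw [← h1, hG, mul_pow, ← map_pow, inv_pow]
  ring

theorem sqrt_int [CharZero K] {v : Valuation K ℝ≥0} (P : K⟦X⟧) (b D : K) (hb : b ≠ 0)
    (hP : constantCoeff P = b ^ 2) (hD : v D ≤ 1)
    (hc : ∀ k, v D * v ((b ^ 2)⁻¹ * coeff k P) ≤ 1) :
    ∃ U : K⟦X⟧, U ^ 2 * P = 1 ∧ constantCoeff U = b⁻¹ ∧ Ia v (rescale (4 * D) (C b * U)) ∧
      Ia v (rescale (4 * D) (C (b ^ 2)⁻¹ * P)) := by
  obtain ⟨U, hU, hU0⟩ := exists_isqrt P b hb hP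
  set Ut := rescale (4 * D) (C b * U) with hUt
  set Pt := rescale (4 * D) (C (b ^ 2)⁻¹ * P) with hPt
  have h4 : v (4 : K) ≤ 1 := by simpa using v_nat v 4
  have h2 : v (2 : K) ≤ 1 := by simpa using v_nat v 2
  have e : Ut ^ 2 * Pt = 1 := by
    rw [hUt, hPt, ← map_pow, ← map_mul, ← map_one (rescale (4 * D))]
    congr 1
    have : (C b : K⟦X⟧) ^ 2 * C (b ^ 2)⁻¹ = 1 := by
      rw [← map_pow, ← map_mul, mul_inv_cancel₀ (pow_ne_zero 2 hb), map_one]
    linear_combination (U ^ 2 * P) * this + hU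
  have hU1 : constantCoeff Ut = 1 := by
    rw [← coeff_zero_eq_constantCoeff_apply, hUt, coeff_rescale]; simp [hU0, hb]
  have hP1 : constantCoeff Pt = 1 := by
    rw [← coeff_zero_eq_constantCoeff_apply, hPt, coeff_rescale]; simp [hP, hb]
  set Z : K⟦X⟧ := C 2⁻¹ * (Ut - 1) with hZ
  set G : K⟦X⟧ := C 4⁻¹ * (Pt - 1) with hG
  have c2 : (C 2 : K⟦X⟧) * C 2⁻¹ = 1 := by rw [← map_mul]; simp
  have c4 : (C 2 : K⟦X⟧) ^ 2 * C 4⁻¹ = 1 := by rw [← map_pow, ← map_mul]; norm_num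
  have c2' : (C 2 : K⟦X⟧) = 2 := map_ofNat _ 2
  have eU : Ut = 1 + C 2 * Z := by rw [hZ]; linear_combination (1 - Ut) * c2
  have eP : Pt = 1 + C 2 ^ 2 * G := by rw [hG]; linear_combination (1 - Pt) * c4
  have hG0 : constantCoeff G = 0 := by simp [hG, hP1]
  have hGi : Ia v G := fun k => by
    cases k with
    | zero => simp [hG0]
    | succ k =>
      have : coeff (k + 1) G = (4 * D) ^ k * (D * ((b ^ 2)⁻¹ * coeff (k + 1) P)) := by
        rw [hG, coeff_C_mul, map_sub, hPt, coeff_rescale, coeff_C_mul, coeff_one, if_neg (by omega)]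
        field_simp; ring
      rw [this, map_mul, map_pow, map_mul, map_mul]
      exact mul_le_one' (pow_le_one' (mul_le_one' h4 hD) _) (hc _)
  have hZi : Ia v Z := by
    refine ia_sqrt (by simp [hZ, hU1]) hG0 hGi ?_
    rw [eU, eP] at e
    have h40 : (C 2 : K⟦X⟧) ^ 2 ≠ 0 := fun h => by rw [h] at c4; simp at c4
    apply mul_left_cancel₀ h40
    rw [c2'] at e ⊢
    linear_combination e
  refine ⟨U, hU, hU0, ?_, ?_⟩
  · change Ia v Ut
    rw [eU]; exact (by simpa using ia_C (v := v) (a := 1) (by simp) : Ia v 1).add ((ia_C h2).mul hZi)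
  · change Ia v Pt
    rw [eP]
    exact (by simpa using ia_C (v := v) (a := 1) (by simp) : Ia v 1).add (((ia_C h2).pow 2).mul hGi)

/-- the primitive with zero constant term -/
def prim (H : K⟦X⟧) : K⟦X⟧ := PowerSeries.mk fun k => coeff (k - 1) H / k

theorem deriv_prim [CharZero K] (H : K⟦X⟧) : derivative K (prim H) = H := by
  ext k
  have : ((k : K) + 1) ≠ 0 := by exact_mod_cast k.succ_ne_zero
  rw [coeff_derivative, prim, coeff_mk]
  simp only [Nat.add_sub_cancel]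
  push_cast
  field_simp

/-- the part of degree at least two of the primitive -/
def prim2 (H : K⟦X⟧) : K⟦X⟧ := prim H - C (constantCoeff H) * X

theorem coeff_prim2 (H : K⟦X⟧) (k : ℕ) :
    coeff (k + 2) (prim2 H) = coeff (k + 1) H / ((k + 1 + 1 : ℕ) : K) := by
  rw [prim2, map_sub, coeff_C_mul, coeff_X, if_neg (by omega), prim, coeff_mk, mul_zero, sub_zero]
  rfl

theorem coeff_prim2_zero (H : K⟦X⟧) : coeff 0 (prim2 H) = 0 := by
  rw [prim2, map_sub, coeff_C_mul, coeff_X, if_neg (by omega), prim, coeff_mk]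
  simp

theorem coeff_prim2_one (H : K⟦X⟧) : coeff 1 (prim2 H) = 0 := by
  rw [prim2, map_sub, coeff_C_mul, coeff_X, if_pos rfl, prim, coeff_mk]
  simp

theorem rescale_C' (a r : K) : rescale a (C r : K⟦X⟧) = C r := by
  ext k
  rw [coeff_rescale, coeff_C]
  split_ifs with h
  · simp [h]
  · simp

theorem core [CharZero K] {v : Valuation K ℝ≥0} {g : ℕ} (a b : Fin g → K) (hb : ∀ i, b i ≠ 0)
    (P : Fin g → K⟦X⟧) (W : Fin g → Fin g → K)
    (hW : ∀ j i, ∑ m : Fin g, W j m * (a i ^ (m : ℕ) * (b i)⁻¹) = if i = j then 1 else 0)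
    (D N : K) (hD0 : D ≠ 0) (hN0 : N ≠ 0) (hD : v D ≤ 1) (hN1 : v N ≤ 1)
    (hN : ∀ n : ℕ, v N ^ n ≤ v ((n + 1 : ℕ) : K))
    (ha : ∀ i, v D * v (a i) ≤ 1) (hb1 : ∀ i, v D * v (b i) ≤ 1) (hb2 : ∀ i, v D * v (b i)⁻¹ ≤ 1)
    (hW1 : ∀ j m, v D * v (W j m) ≤ 1) (hc : ∀ i k, v D * v ((b i ^ 2)⁻¹ * coeff k (P i)) ≤ 1)
    (hP : ∀ i, constantCoeff (P i) = b i ^ 2) (Φ y w η : Fin g → K⟦X⟧)
    (hΦ : ∀ m n, v (coeff n (Φ m)) ≤ v (4 * D * N * D ^ (g + 1) * D))
    (sq : ∀ i, w i ^ 2 = (P i).subst (y i)) (y0 : ∀ i, constantCoeff (y i) = 0)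
    (w0 : ∀ i, constantCoeff (w i) = b i) (dy : ∀ i, derivative K (y i) = η i * w i)
    (sum : ∀ m : Fin g, ∑ i, (C (a i) + y i) ^ (m : ℕ) * η i = derivative K (Φ m)) :
    ∀ i n, 0 < n → v (coeff n (y i)) ≤ 1 ∧ v (coeff n (w i)) ≤ 1 := by
  choose U hU hU0 hUi hPi using fun i => sqrt_int (v := v) (P i) (b i) D (hb i) (hP i) hD (hc i)
  have hs : ∀ i, HasSubst (y i) := fun i => HasSubst.of_constantCoeff_zero' (y0 i)
  have h4 : v (4 : K) ≤ 1 := by simpa using v_nat v 4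
  have h40 : v (4 * D) ≤ 1 := by rw [map_mul]; exact mul_le_one' h4 hD
  set μ : K := 4 * D * N * D ^ (g + 1) with hμ
  have hμ0 : μ ≠ 0 := by simp [hμ, hD0, hN0]
  have hvμ0 : v μ ≠ 0 := by simpa using hμ0
  have hvD0 : v D ≠ 0 := by simpa using hD0
  have hvμ : v μ = v (4 * D) * v N * v D ^ (g + 1) := by rw [hμ, map_mul, map_mul, map_pow]
  have hμ1 : v μ ≤ 1 := by rw [hvμ]; exact mul_le_one' (mul_le_one' h40 hN1) (pow_le_one' hD _)
  -- the inverse of `w`
  have hUw : ∀ i, ((U i).subst (y i) : K⟦X⟧) * w i = 1 := fun i => by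
    have e := congrArg (substAlgHom (R := K) (hs i)) (hU i)
    rw [map_mul, map_pow, map_one, coe_substAlgHom, ← sq i] at e
    have e0 : constantCoeff ((U i).subst (y i) : K⟦X⟧) = (b i)⁻¹ := by
      have h2 : constantCoeff (U i - C (b i)⁻¹) = 0 := by simp [hU0]
      have := constantCoeff_subst_eq_zero (a := y i) (y0 i) _ h2
      rw [subst_sub (hs i), subst_C, map_sub, sub_eq_zero] at this
      exact this
    have e1 : (((U i).subst (y i) : K⟦X⟧) * w i - 1) * (((U i).subst (y i) : K⟦X⟧) * w i + 1) = 0 := by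
      linear_combination e
    rcases mul_eq_zero.1 e1 with h | h
    · exact sub_eq_zero.1 h
    · have := congrArg constantCoeff h
      rw [map_add, map_mul, e0, w0, inv_mul_cancel₀ (hb i), map_one, map_zero] at this
      norm_num at this
  set H : Fin g → Fin g → K⟦X⟧ := fun i m => (C (a i) + X) ^ (m : ℕ) * U i with hH
  have hHi : ∀ i m k, v D ^ (g + 1) * (v (4 * D) ^ k * v (coeff k (H i m))) ≤ v D := fun i m k => by
    have e : C (D ^ ((m : ℕ) + 1)) * rescale (4 * D) (H i m) =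
        (C (D * a i) + C (D * (4 * D)) * X) ^ (m : ℕ) *
          (C (D * (b i)⁻¹) * rescale (4 * D) (C (b i) * U i)) := by
      have : (C (b i)⁻¹ : K⟦X⟧) * C (b i) = 1 := by rw [← map_mul, inv_mul_cancel₀ (hb i), map_one]
      simp only [hH, map_mul, map_pow, map_add, rescale_C', rescale_X]
      rw [show C D * C (a i) + C D * (C 4 * C D) * X = C D * (C (a i) + C 4 * C D * X) by ring, mul_pow]
      linear_combination (-(C D ^ (m : ℕ) * (C (a i) + C 4 * C D * X) ^ (m : ℕ) * C D *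
        rescale (4 * D) (U i))) * this
    have hI : Ia v (C (D ^ ((m : ℕ) + 1)) * rescale (4 * D) (H i m)) := by
      rw [e]
      refine (((ia_C ?_).add ((ia_C ?_).mul ia_X)).pow _).mul ((ia_C ?_).mul (hUi i))
      · rw [map_mul]; exact ha i
      · rw [map_mul]; exact mul_le_one' hD h40
      · rw [map_mul]; exact hb2 i
    have := hI k
    rw [coeff_C_mul, coeff_rescale, map_mul, map_mul, map_pow, map_pow] at this
    calc _ = v D * (v D ^ g * (v (4 * D) ^ k * v (coeff k (H i m)))) := by ring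
      _ ≤ v D * (v D ^ ((m : ℕ) + 1) * (v (4 * D) ^ k * v (coeff k (H i m)))) :=
        mul_le_mul' le_rfl (mul_le_mul' (pow_le_pow_of_le_one zero_le hD m.2) le_rfl)
      _ ≤ v D := mul_le_of_le_one_right' this
  -- the integrated equation
  have hint : ∀ (m : Fin g) (n : ℕ), ∑ i, (a i ^ (m : ℕ) * (b i)⁻¹) * coeff (n + 1) (y i) =
      coeff (n + 1) (Φ m) - ∑ i, coeff (n + 1) ((prim2 (H i m)).subst (y i) : K⟦X⟧) := fun m n => by
    have e : derivative K (∑ i, ((prim (H i m)).subst (y i) : K⟦X⟧)) = derivative K (Φ m) := by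
      rw [← sum m, map_sum]
      refine Finset.sum_congr rfl fun i _ => ?_
      rw [derivative_subst (hs i), deriv_prim, dy i]
      simp only [hH]
      rw [subst_mul (hs i), subst_pow (hs i), subst_add (hs i), subst_X (hs i), subst_C]
      change (C (a i) + y i) ^ (m : ℕ) * _ * _ = _
      linear_combination ((C (a i) + y i) ^ (m : ℕ) * η i) * hUw i
    have e1 := congrArg (coeff n) e
    have hn : ((n : K) + 1) ≠ 0 := by exact_mod_cast n.succ_ne_zero
    rw [coeff_derivative, coeff_derivative] at e1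
    rw [← mul_right_cancel₀ hn e1, map_sum, ← Finset.sum_sub_distrib]
    refine Finset.sum_congr rfl fun i _ => ?_
    rw [prim2, subst_sub (hs i), subst_mul (hs i), subst_X (hs i), subst_C, map_sub]
    change _ = _ - (_ - coeff (n + 1) (C (constantCoeff (H i m)) * y i))
    rw [coeff_C_mul]
    simp [hH, hU0]
  set z : Fin g → K⟦X⟧ := fun i => C μ⁻¹ * y i with hz
  have hyz : ∀ i, y i = C μ * z i := fun i => by
    rw [hz, ← mul_assoc, ← map_mul, mul_inv_cancel₀ hμ0, map_one, one_mul]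
  have z0 : ∀ i, constantCoeff (z i) = 0 := fun i => by simp [hz, y0]
  have hpow : ∀ i k n, coeff n (y i ^ k) = μ ^ k * coeff n (z i ^ k) := fun i k n => by
    rw [hyz i, mul_pow, ← map_pow, coeff_C_mul]
  have key : ∀ n i, Ib v n (z i) := by
    intro n
    induction n with
    | zero => exact fun i k hk => absurd hk (by omega)
    | succ n ih =>
      intro j k hk
      rcases (Nat.lt_succ_iff.1 hk).lt_or_eq with h | rfl
      · exact ih j k h
      cases k with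
      | zero => simp [z0]
      | succ n =>
      have e : coeff (n + 1) (y j) = ∑ m, W j m * (coeff (n + 1) (Φ m) -
          ∑ i, coeff (n + 1) ((prim2 (H i m)).subst (y i) : K⟦X⟧)) := by
        simp only [← hint, Finset.mul_sum]
        rw [Finset.sum_comm]
        have : ∀ i, ∑ m : Fin g, W j m * (a i ^ (m : ℕ) * (b i)⁻¹ * coeff (n + 1) (y i)) =
            (if i = j then 1 else 0) * coeff (n + 1) (y i) := fun i => by
          rw [← hW j i, Finset.sum_mul]
          exact Finset.sum_congr rfl fun m _ => by ring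
        simp [this]
      have hb : v (coeff (n + 1) (y j)) ≤ v μ := by
        rw [e]
        refine v.map_sum_le fun m _ => ?_
        have h1 : v (coeff (n + 1) (Φ m) -
            ∑ i, coeff (n + 1) ((prim2 (H i m)).subst (y i) : K⟦X⟧)) ≤ v μ * v D := by
          refine v.map_sub_le ((hΦ m _).trans (by rw [map_mul])) (v.map_sum_le fun i _ => ?_)
          refine v_subst_le _ _ (y0 i) _ _ fun k => ?_
          match k with
          | 0 => simp [coeff_prim2_zero]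
          | 1 => simp [coeff_prim2_one]
          | k + 2 =>
            have h2 := (ih i).pow2 (z0 i) k (n + 1) (by omega)
            have h3 := hN (k + 1)
            have h5 := hHi i m (k + 1)
            have h6 : v ((k + 1 + 1 : ℕ) : K) ≠ 0 := by
              simpa using (by exact_mod_cast (by omega : k + 1 + 1 ≠ 0) : ((k + 1 + 1 : ℕ) : K) ≠ 0)
            rw [coeff_prim2, hpow, map_mul v, map_mul v, map_div₀ v, map_pow v]
            set e := v ((k + 1 + 1 : ℕ) : K)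
            set c := v (coeff (k + 1) (H i m))
            have h7 : v N ^ (k + 1) / e ≤ 1 := div_le_one_of_le₀ h3 zero_le
            have h8 : (v D ^ (g + 1)) ^ k ≤ 1 := pow_le_one' (pow_le_one' hD _) _
            calc c / e * (v μ ^ (k + 2) * v (coeff (n + 1) (z i ^ (k + 2))))
                ≤ c / e * (v μ ^ (k + 2) * 1) := by gcongr
              _ = v μ * (v D ^ (g + 1) * (v (4 * D) ^ (k + 1) * c)) *
                  ((v N ^ (k + 1) / e) * (v D ^ (g + 1)) ^ k) := by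
                rw [show v μ ^ (k + 2) = v μ * v μ ^ (k + 1) by ring]
                conv_lhs => rw [show v μ ^ (k + 1) = (v (4 * D) * v N * v D ^ (g + 1)) ^ (k + 1) by
                  rw [← hvμ]]
                simp only [div_eq_mul_inv]
                ring
              _ ≤ v μ * v D * 1 := mul_le_mul' (mul_le_mul' le_rfl h5) (mul_le_one' h7 h8)
              _ = _ := mul_one _
        rw [map_mul]
        calc _ ≤ v (W j m) * (v μ * v D) := mul_le_mul' le_rfl h1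
          _ = v μ * (v D * v (W j m)) := by ring
          _ ≤ v μ := mul_le_of_le_one_right' (hW1 j m)
      simp only [hz]
      rw [coeff_C_mul, map_mul, map_inv₀]
      exact inv_mul_le_one_of_le₀ hb zero_le
  have kz : ∀ i, Ia v (z i) := fun i => ia_of fun n => key n i
  intro i n hn
  refine ⟨?_, ?_⟩
  · rw [hyz i, coeff_C_mul, map_mul]; exact mul_le_one' hμ1 (kz i n)
  · have e : w i = (P i * U i).subst (y i) := by
      rw [subst_mul (hs i), ← sq i]
      linear_combination (-w i) * hUw i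
    rw [e]
    refine v_subst_le _ _ (y0 i) _ _ fun k => ?_
    cases k with
    | zero => simp [coeff_one, hn.ne']
    | succ k =>
      have e2 : C D * rescale (4 * D) (P i * U i) = C (D * b i) *
          (rescale (4 * D) (C (b i) * U i) * rescale (4 * D) (C (b i ^ 2)⁻¹ * P i)) := by
        have : (C (b i) : K⟦X⟧) ^ 2 * C (b i ^ 2)⁻¹ = 1 := by
          rw [← map_pow, ← map_mul, mul_inv_cancel₀ (pow_ne_zero 2 (hb i)), map_one]
        simp only [map_mul, rescale_C']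
        linear_combination (-(C D * rescale (4 * D) (P i) * rescale (4 * D) (U i))) * this
      have hI : Ia v (C D * rescale (4 * D) (P i * U i)) := by
        rw [e2]; exact (ia_C (by rw [map_mul]; exact hb1 i)).mul ((hUi i).mul (hPi i))
      have h1 := hI (k + 1)
      rw [coeff_C_mul, coeff_rescale, map_mul, map_mul, map_pow] at h1
      have h2 := (kz i).pow (k + 1) n
      rw [hpow, map_mul v, map_mul v, map_pow v]
      set c := v (coeff (k + 1) (P i * U i))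
      have h8 : v N ^ (k + 1) * (v D ^ g * (v D ^ (g + 1)) ^ k) ≤ 1 :=
        mul_le_one' (pow_le_one' hN1 _) (mul_le_one' (pow_le_one' hD _) (pow_le_one' (pow_le_one' hD _) _))
      calc c * (v μ ^ (k + 1) * v (coeff n (z i ^ (k + 1)))) ≤ c * (v μ ^ (k + 1) * 1) := by gcongr
        _ = (v D * (v (4 * D) ^ (k + 1) * c)) * (v N ^ (k + 1) * (v D ^ g * (v D ^ (g + 1)) ^ k)) := by
          rw [hvμ]; ring
        _ ≤ 1 := mul_le_one' h1 h8

/-- a common denominator -/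
theorem exists_den [CharZero K] [Algebra.IsAlgebraic ℚ K] {s : Set K} (hs : s.Finite) :
    ∃ D : ℕ, D ≠ 0 ∧ ∀ v : Valuation K ℝ≥0, ∀ z ∈ s, v (D : K) * v z ≤ 1 := by
  induction s, hs using Set.Finite.induction_on with
  | empty => exact ⟨1, one_ne_zero, by simp⟩
  | @insert x s _ _ ih =>
    obtain ⟨D, hD, h⟩ := ih
    have hx : IsAlgebraic ℤ x :=
      (IsFractionRing.isAlgebraic_iff ℤ ℚ K).2 (Algebra.IsAlgebraic.isAlgebraic x)
    obtain ⟨y, hy, hi⟩ := hx.exists_integral_multiple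
    refine ⟨D * y.natAbs, by simp [hD, hy], fun v z hz => ?_⟩
    rw [Nat.cast_mul, map_mul]
    rcases hz with rfl | hz
    · have h1 : v (y • z) ≤ 1 :=
        (Valuation.integer.integers v).mem_of_integral (hi.tower_top (A := v.integer))
      have h2 : v ((y.natAbs : ℕ) : K) = v (y : K) := by
        rcases Int.natAbs_eq y with h | h
        · conv_rhs => rw [h]
          simp
        · conv_rhs => rw [h]
          simp
      rw [zsmul_eq_mul, map_mul] at h1
      rw [h2, mul_assoc]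
      exact mul_le_one' (v_nat v _) h1
    · rw [mul_right_comm]
      exact mul_le_one' (h v z hz) (v_nat v _)

end Crest.Agent.T15.Bad
end
end

-- ▼ part T15/Bad_93
section

/-!
# Row 15, block Ht (helper93): leaf `Hon.BadStmt`
-/

set_option autoImplicit false
set_option linter.all false

noncomputable section

namespace Crest.Agent.T15.Hon

open scoped NNReal PowerSeries
open PowerSeries Crest.Agent.T15.Bad

theorem badStmt : BadStmt := by
  intro K0 _ _ _ g F a b ha hb N hN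
  set P : Fin g → Polynomial K0 := fun i => F.comp (Polynomial.C (a i) + Polynomial.X) with hP
  set V := Matrix.vandermonde a
  have hV : IsUnit V.det := (Matrix.det_vandermonde_ne_zero_iff.2 ha).isUnit
  set W : Fin g → Fin g → K0 := fun j m => b j * V⁻¹ m j with hWd
  have hW : ∀ j i, ∑ m : Fin g, W j m * (a i ^ (m : ℕ) * (b i)⁻¹) = if i = j then 1 else 0 := by
    intro j i
    have e := congrFun (congrFun (Matrix.mul_nonsing_inv V hV) i) j
    rw [Matrix.mul_apply, Matrix.one_apply] at e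
    have : ∑ m : Fin g, W j m * (a i ^ (m : ℕ) * (b i)⁻¹) =
        (b j * (b i)⁻¹) * ∑ m : Fin g, V i m * V⁻¹ m j := by
      rw [Finset.mul_sum]
      exact Finset.sum_congr rfl fun m _ => by simp only [hWd, V, Matrix.vandermonde_apply]; ring
    rw [this, e]
    split_ifs with h
    · subst h; simp [hb i]
    · simp
  have hfin : (Set.range a ∪ Set.range b ∪ Set.range (fun i => (b i)⁻¹) ∪
      Set.range (fun p : Fin g × Fin g => W p.1 p.2) ∪
      Set.range (fun p : (i : Fin g) × Fin ((P i).natDegree + 1) =>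
        (b p.1 ^ 2)⁻¹ * (P p.1).coeff p.2)).Finite :=
    ((((Set.finite_range _).union (Set.finite_range _)).union (Set.finite_range _)).union
      (Set.finite_range _)).union (Set.finite_range _)
  obtain ⟨D, hD, hden⟩ := exists_den hfin
  refine ⟨4 * D * N * D ^ (g + 1) * D, by simp [hD, hN], fun v0 hv Φ x w η hΦ hS => ?_⟩
  have hy0 : ∀ i, constantCoeff (x i - C (a i)) = 0 := fun i => by simp [hS.x0]
  have hs : ∀ i, HasSubst (x i - C (a i)) := fun i => HasSubst.of_constantCoeff_zero' (hy0 i)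
  have hsq : ∀ i, w i ^ 2 = ((P i : K0⟦X⟧)).subst (x i - C (a i)) := fun i => by
    rw [subst_coe (hs i), hS.sq i]
    simp only [hP, Polynomial.aeval_comp, map_add, Polynomial.aeval_C, Polynomial.aeval_X]
    have : (algebraMap K0 (MvPowerSeries Unit K0)) (a i) + (x i - C (a i)) = x i := by
      change C (a i) + (x i - C (a i)) = x i
      ring
    rw [this]
  have hP0 : ∀ i, constantCoeff (P i : K0⟦X⟧) = b i ^ 2 := fun i => by
    have h2 : constantCoeff ((P i : K0⟦X⟧) - C (constantCoeff (P i : K0⟦X⟧))) = 0 := by simp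
    have := constantCoeff_subst_eq_zero (a := x i - C (a i)) (hy0 i) _ h2
    rw [subst_sub (hs i), subst_C, map_sub, sub_eq_zero, ← hsq i] at this
    rw [← hS.w0 i, ← map_pow]
    exact this.symm
  have := core (v := v0) a b hb (fun i => (P i : K0⟦X⟧)) W hW D N (by exact_mod_cast hD)
    (by exact_mod_cast hN) (v_nat v0 D) hv.le (pow_le_nat v0 hv)
    (fun i => hden v0 _ (by simp)) (fun i => hden v0 _ (by simp)) (fun i => hden v0 _ (by simp))
    (fun j m => hden v0 _ (Or.inl (Or.inr ⟨(j, m), rfl⟩)))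
    (fun i k => by
      rw [Polynomial.coeff_coe]
      by_cases hk : k < (P i).natDegree + 1
      · exact hden v0 _ (Or.inr ⟨⟨i, ⟨k, hk⟩⟩, rfl⟩)
      · rw [Polynomial.coeff_eq_zero_of_natDegree_lt (by omega)]; simp)
    hP0 Φ (fun i => x i - C (a i)) w η
    (fun m n => by have := hΦ m n; push_cast at this; exact this) hsq hy0 hS.w0
    (fun i => by rw [map_sub, derivative_C, sub_zero, hS.dx i])
    (fun m => by rw [← hS.sum m]; exact Finset.sum_congr rfl fun i _ => by rw [add_sub_cancel])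
  intro i n hn
  obtain ⟨h1, h2⟩ := this i n hn
  refine ⟨?_, h2⟩
  rwa [map_sub, coeff_C, if_neg hn.ne', sub_zero] at h1

end Crest.Agent.T15.Hon
end
end

-- ▼ part T15/SelT_78
section

/-!
# Row 15, block R (helper78): `RT.Glob` and `RT.Sel` in the words of `TopH_88`
-/

set_option autoImplicit false

noncomputable section

namespace Crest.Agent.T15.Sel

open Matrix Module IsLocalRing NumberField
open Crest.Agent.T15.Ps Crest.Agent.T15.C Crest.Agent.T15.Top Crest.Agent.T15.Pat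
open Crest.Agent.R018.Placesx484

/-- **BLOCK Fl**: the local bound at `3` -/
def L3Stmt (X : Lc) : Prop :=
  ∀ (k : Type) [Field k] [Finite k] [CharP k 3] (ρ : Gam →* M2 k), Hyp ρ → Loc ρ X.P →
    L3 X.w X.G X.r ρ X.P





lemma opn_of_op {M : Type*} [Monoid M] {f : Gam →* M} (h : Op f) : RT.Opn f := opn_of_isOpen h




section coef
variable (O : Type) [CommRing O] [IsDomain O] [IsDiscreteValuationRing O] [hO : Coef O]

lemma cpt_coef : Cpt (maximalIdeal O) :=
  haveI := hO.cpl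
  haveI : Finite (O ⧸ maximalIdeal O) := hO.fin
  cpt_of _

lemma charP_coef : CharP (ResidueField O) 3 :=
  (CharP.charP_iff_prime_eq_zero Nat.prime_three).2 (by
    rw [← map_natCast (residue O), residue_eq_zero_iff]; exact_mod_cast hO.h3)

lemma span_three_le (n : ℕ) : Ideal.span {(3 : O) ^ n} ≤ maximalIdeal O ^ n :=
  (Ideal.span_singleton_le_iff_mem _).2 (Ideal.pow_mem_pow hO.h3 n)

lemma ker_Cn (n : ℕ) : RingHom.ker (algebraMap O (Cn O n)) ≤ maximalIdeal O ^ n := by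
  rw [Ideal.Quotient.algebraMap_eq, Ideal.mk_ker]; exact span_three_le O n

lemma finite_Cn (n : ℕ) : Finite (Cn O n) := by
  have := hO.cz
  obtain ⟨m, hm⟩ : ∃ m, maximalIdeal O ^ m ≤ Ideal.span {(3 : O) ^ n} := by
    obtain ⟨ϖ, hϖ⟩ := IsDiscreteValuationRing.exists_irreducible O
    obtain ⟨m, hm⟩ := IsDiscreteValuationRing.associated_pow_irreducible
      (pow_ne_zero n (by norm_num : (3 : O) ≠ 0)) hϖ
    exact ⟨m, by
      rw [hϖ.maximalIdeal_eq, Ideal.span_singleton_pow, Ideal.span_singleton_le_span_singleton]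
      exact hm.dvd⟩
  have := (cpt_coef O).fin m
  exact Finite.of_surjective _ (Ideal.Quotient.factor_surjective hm)

variable {O}

lemma eq_of_forall_three {a b : O} (h : ∀ n, a - b ∈ Ideal.span {(3 : O) ^ n}) : a = b :=
  sub_eq_zero.1 ((cpt_coef O).eq_zero fun n => span_three_le O n (h n))



/-- **the Selmer bound** for `C = O / 3^n` -/
theorem sel_top {X : Lc} (h3 : L3Stmt X) {ρ : Gam →* M2 O} {N : ℕ} (hR : Res (mp (residue O) ρ) N)
    (hL : Lift X ρ) {Λ : Type} {Pl : Λ → Place Om}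
    (hPl : ∀ l : ℕ, l.Prime → l ∣ N → ∃ j, (Pl j).rchar = l) (n : ℕ) {H : Type} [AddCommGroup H]
    [Module O H] [Finite H] {ρH : Gam →* Module.End O H} {Δ : Type} [CommGroup Δ] {δ : Gam →* Δ}
    {Q : Finset ℕ} {r : ℕ} (hB : Bound (mp (residue O) ρ) Q r) (hQ : 3 ∉ Q)
    (hδ : ∀ P : Plc, P.rchar ∉ Q → ∀ g ∈ In P, δ g = 1)
    (hH : ∀ P : Plc, ¬ P.rchar ∣ 3 * N → P.rchar ∉ Q → ∀ g ∈ In P, ρH g = 1)
    (hfl : X.Fl fun g (x : H) => ρH g x) : RT.Sel r ρ Pl (Cn O n) ρH δ := by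
  have := charP_coef O
  have := finite_Cn O n
  have := hO.fin
  refine sel_of hR.hyp.idx hB X.h3 (h3 _ _ hR.hyp (hR.loc _ X.h3))
    (fun g => hδ _ (X.h3 ▸ hQ) _ (X.r_mem g)) hfl (hL.flat n) fun P h1 h2 => ?_
  by_cases h : P.rchar ∣ N
  · exact Or.inl (hPl _ P.rchar_prime h)
  · have h4 : ¬ P.rchar ∣ 3 * N := fun h4 => ((P.rchar_prime.dvd_mul).1 h4).elim
      (fun h5 => h1 ((Nat.prime_dvd_prime_iff_eq P.rchar_prime Nat.prime_three).1 h5)) h
    refine Or.inr fun g hg => ⟨hδ P h2 g hg, hH P h4 h2 g hg, ?_⟩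
    show (algebraMap O (Cn O n)).mapMatrix (ρ g) = 1
    rw [hL.min P h1 g hg (hR.unr P h4 g hg), map_one]

end coef

end Crest.Agent.T15.Sel

end
end

-- ▼ part T15/RL_78
section

/-!
# Row 15, block R (helper78): a Taylor-Wiles module `TLev` gives a level `RT.LevE`
-/

set_option autoImplicit false

noncomputable section

namespace Crest.Agent.T15.R

open Matrix IsLocalRing Function NumberField
open Crest.Agent.T15.Ps Crest.Agent.T15.Pat Crest.Agent.T15.Hk Crest.Agent.T15.Eig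
open Crest.Agent.T15.C (Gam Om In De)
open Crest.Agent.T15.Top

/-- a commuting family generates a commutative ring -/
lemma exists_commAlg {O E κ : Type} [CommRing O] [Ring E] [Algebra O E] (s : κ → E)
    (h : ∀ i j, Commute (s i) (s j)) :
    ∃ (A : Type) (_ : CommRing A) (_ : Algebra O A) (ac : A →ₐ[O] E) (s' : κ → A),
      Injective ac ∧ (∀ i, ac (s' i) = s i) ∧ Algebra.adjoin O (Set.range s') = ⊤ := by
  let _ : CommRing (Algebra.adjoin O (Set.range s)) :=
    { (inferInstance : Ring (Algebra.adjoin O (Set.range s))) with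
      mul_comm := fun x y => Subtype.ext (Algebra.commute_of_mem_adjoin_of_forall_mem_commute y.2
        fun b hb => (Algebra.commute_of_mem_adjoin_of_forall_mem_commute x.2
          fun a ha => by
            obtain ⟨i, rfl⟩ := ha
            obtain ⟨j, rfl⟩ := hb
            exact h j i).symm) }
  refine ⟨Algebra.adjoin O (Set.range s), inferInstance, inferInstance, Subalgebra.val _,
    fun i => ⟨s i, Algebra.subset_adjoin ⟨i, rfl⟩⟩, Subtype.val_injective, fun _ => rfl, ?_⟩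
  apply Subalgebra.map_injective (f := (Algebra.adjoin O (Set.range s)).val) Subtype.val_injective
  rw [AlgHom.map_adjoin, ← Set.range_comp, Algebra.map_top, Subalgebra.range_val]
  rfl

/-- Frobenius on roots of unity -/
lemma frob_root' {P : Plc} {s : Gam} (h : IsFr P s) {m : ℕ} (hm : ¬ P.rchar ∣ m) {ζ : Om}
    (hζ : ζ ^ m = 1) : s ζ = ζ ^ P.rchar := by
  have hm0 : 0 < m := Nat.pos_of_ne_zero fun h0 => hm (h0 ▸ dvd_zero _)
  let z : 𝓞 Om := ⟨ζ, IsIntegral.of_pow hm0 (hζ ▸ isIntegral_one)⟩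
  have hz : z ^ m = 1 := by
    apply RingOfIntegers.ext; push_cast; exact hζ
  have := P.isMaximal.isPrime
  have h4 : s • z = z ^ P.rchar := T27.root_eq_of_sub_mem_79 P.ideal (q := m) (a := 1)
    (by rw [← smul_pow', hz, smul_one]) (by rw [pow_right_comm, hz, one_pow])
    (fun h => hm ((P.natCast_mem_iff m).1 h)) ((Ideal.ne_top_iff_one _).1 this.ne_top) (h z)
  exact congrArg (fun w : 𝓞 Om => (w : Om)) h4

/-- the determinant of Frobenius -/
lemma det_frob {O : Type} [CommRing O] [IsDomain O] [IsDiscreteValuationRing O] [Coef O]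
    {ρ : Gam →* M2 O} (h : DetCyc ρ) {P : Plc} {s : Gam} (h3 : P.rchar ≠ 3) (hs : IsFr P s) :
    (ρ s).det = P.rchar := Sel.eq_of_forall_three fun n => by
  have : NeZero ((3 ^ n : ℕ) : Om) := ⟨by norm_num⟩
  obtain ⟨ζ, hζ⟩ := HasEnoughRootsOfUnity.exists_primitiveRoot Om (3 ^ n)
  exact h s n _ ζ hζ (frob_root' hs (fun hd => h3 ((Nat.prime_dvd_prime_iff_eq P.rchar_prime
    Nat.prime_three).1 (P.rchar_prime.dvd_of_dvd_pow hd))) hζ.pow_eq_one)

lemma Gd.ne_three {L p : ℕ} (h : Gd L p) : p ≠ 3 := fun e => h.2 (e ▸ dvd_mul_right 3 L)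

variable {G : Type} [Group G]

/-- the size of `Hom(Γ, C)` -/
lemma exists_card_le (Γ : Subgroup G) [Group.FG Γ] : ∃ s : ℕ, ∀ (C : Type) [AddCommGroup C]
    [Finite C], Nat.card (HH Γ C) ≤ Nat.card C ^ s := by
  obtain ⟨S, hS, hf⟩ := Group.fg_iff.1 (inferInstance : Group.FG Γ)
  have := hf.to_subtype
  refine ⟨Nat.card S, fun C _ _ => ?_⟩
  rw [← Nat.card_fun]
  refine Nat.card_le_card_of_injective (fun (φ : HH Γ C) (s : S) => φ (Additive.ofMul s.1))
    fun φ ψ h => ?_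
  refine AddMonoidHom.toMultiplicativeRight.injective (MonoidHom.eq_of_eqOn_dense hS fun s hs => ?_)
  exact congrArg Multiplicative.ofAdd (congrFun h ⟨s, hs⟩)

/-- Chebotarev: a good Frobenius element in every class of an open normal subgroup -/
lemma cheb_good {L r : ℕ} (hL : 0 < L) (q : Fin r → ℕ) (U : Subgroup Gam) [U.Normal]
    (hU : IsOpen (U : Set Gam)) (g : Gam) : ∃ (P : Plc) (s : Gam), Gd L P.rchar ∧
      (∀ i, P.rchar ≠ q i) ∧ IsFr P s ∧ g⁻¹ * s ∈ U := by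
  obtain ⟨P, s, h1, -, h2, -, h3⟩ := Cheb.cheb_inf U hU g (3 * L + ∑ i, q i)
  refine ⟨P, s, ⟨P.rchar_prime, fun h => ?_⟩, fun i h => ?_, h2, h3⟩
  · have := Nat.le_of_dvd (by omega) h; omega
  · have := Finset.single_le_sum (f := q) (fun _ _ => Nat.zero_le _) (Finset.mem_univ i); omega

lemma eq_of_mem_ker {M : Type*} [Monoid M] {f : Gam →* M} {g s : Gam} (h : g⁻¹ * s ∈ f.ker) :
    f s = f g := by
  rw [← mul_inv_cancel_left g s, map_mul, show f (g⁻¹ * s) = 1 from h, mul_one]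

/-- **`TLev` gives a level of the abstract `R = T` theorem** -/
theorem levE_of {X : Lc} {O : Type} [CommRing O] [IsDomain O] [IsDiscreteValuationRing O] [Coef O]
    {ρ : Gam →* M2 O} {N L : ℕ} {a : ℕ → O} (hR : Res (mp (residue O) ρ) N) (hL : Lift X ρ)
    (ha : IsTr ρ (3 * L) a) (hL0 : 0 < L) (hLN : ∀ l : ℕ, l.Prime → (l ∣ L ↔ l ∣ N))
    {Λ : Type} {Pl : Λ → Plc} (hPl : ∀ l : ℕ, l.Prime → l ∣ N → ∃ j, (Pl j).rchar = l)
    (hPl3 : ∀ j, (Pl j).rchar ≠ 3) (h3 : L3Out X) {n r : ℕ} {q : Fin r → ℕ}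
    (hB : Sel.Bound (mp (residue O) ρ) (Finset.univ.image q) r) (hq : ∀ i, Gd L (q i))
    {Γ : Subgroup G} [Group.FG Γ] [IsFreeGroup Γ] {c : ℕ → Corr ℤ Γ Γ} {s : ℕ}
    (hs : Nat.card (HH Γ (Cn O (n + 1))) ≤ Nat.card (Cn O (n + 1)) ^ s)
    {v₀ : HH Γ O} {γ : Additive Γ} (hv : v₀ γ = 1) {b : ℕ → O}
    (hb : ∀ p, Gd L p → b p - a p ∈ maximalIdeal O ∧ T O (c p) v₀ = b p • v₀)
    {σ : Gam →* M2 (Cn O (n + 1))} (hσo : Op σ)
    (hσ : IsTr σ (3 * L) fun l => algebraMap O _ (b l))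
    (hσI : ∀ P : Plc, P.rchar ≠ 3 → ∀ g ∈ In P, mp (residue O) ρ g = 1 → σ g = 1)
    {fr : {p // Gd L p} → Gam} (hfr : ∀ i, ∃ P : Plc, P.rchar = i.1 ∧ IsFr P (fr i))
    {p : FreeAlgebra ℤ {p // Gd L p}}
    (hp : p ∈ Algebra.adjoin ℤ (FreeAlgebra.ι ℤ '' {i | ∀ j, i.1 ≠ q j}))
    (hW : W ℚ (fun i : {p // Gd L p} => c i.1) p = 0)
    {Δ : Type} [CommGroup Δ] [Fintype Δ] {del : Fin r → Δ} {δ : Gam →* Δ}
    {H : Type} [AddCommGroup H] [Module O H] [Module (Cn O (n + 1)) H]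
    [IsScalarTower O (Cn O (n + 1)) H] {ρH : Gam →* Module.End O H}
    {Tp : ℕ → Module.End O H} {dia : Δ →* Module.End O H} {kap : H →+ HH Γ (Cn O (n + 1))}
    {lam : HH Γ (Cn O (n + 1)) →ₗ[Cn O (n + 1)] H}
    (Y : TLev X c L a n q del δ ρH Tp dia kap lam) :
    RT.LevE (maximalIdeal O) 3 n r 1 s ρ Pl
      (FreeAlgebra.lift ℤ (fun i => (MvPolynomial.X (fr i) : MvPolynomial Gam O)) p) := by
  have := (inferInstance : Coef O).cz
  have hCfin := Sel.finite_Cn O (n + 1)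
  have hsurj : Surjective (algebraMap O (Cn O (n + 1))) := Ideal.Quotient.mk_surjective
  have hCnt : Nontrivial (Cn O (n + 1)) := Ideal.Quotient.nontrivial_iff.2 fun h =>
    (maximalIdeal.isMaximal O).ne_top (eq_top_iff.2 (h ▸ (Sel.span_three_le O (n + 1)).trans
      (Ideal.pow_le_self n.succ_ne_zero)))
  have hsm : ∀ {o o' : O}, algebraMap O (Cn O (n + 1)) o = algebraMap O (Cn O (n + 1)) o' →
      ∀ x : H, o • x = o' • x := fun {o o'} h x => by
    rw [← algebraMap_smul (Cn O (n + 1)) o, h, algebraMap_smul]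
  have hlin : ∀ (f : Module.End O H) (z : Cn O (n + 1)) (x : H), f (z • x) = z • f x :=
    fun f z x => by
      obtain ⟨o, rfl⟩ := hsurj z
      rw [algebraMap_smul, algebraMap_smul, map_smul]
  have : Finite (HH Γ (Cn O (n + 1))) := fin_HH _
  obtain ⟨d, hd, m, hm1, hm2⟩ := Y.free
  have hHfin : Finite H := by
    have : Module.Finite (Cn O (n + 1)) H :=
      ⟨hm2 ▸ Submodule.fg_span (Set.finite_range _)⟩
    exact Module.finite_of_finite (Cn O (n + 1))
  let t : Gam → Module.End O H := fun g => ρH g + (ρ g).det • (dia (δ g) * ρH g⁻¹)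
  have tfr : ∀ (P : Plc) (s : Gam), Gd L P.rchar → (∀ i, P.rchar ≠ q i) → IsFr P s →
      t s = Tp P.rchar := fun P s h1 h2 h4 => by
    rw [← Y.es P s h1 h2 h4, ← det_frob hL.det h1.ne_three h4]
  have cheb : ∀ g, ∃ p, Gd L p ∧ (∀ i, p ≠ q i) ∧ t g = Tp p ∧
      algebraMap O (Cn O (n + 1)) (ρ g).trace = algebraMap O _ (a p) ∧
      (σ g).trace = algebraMap O _ (b p) := fun g => by
    obtain ⟨P, s, h1, h2, h4, ⟨⟨u1, u2⟩, u3⟩, u4⟩ := cheb_good hL0 q
      (ρH.ker ⊓ δ.ker ⊓ (bar (Cn O (n + 1)) ρ).ker ⊓ σ.ker)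
      (((Y.opnH.inter Y.opnδ).inter (hL.op (n + 1))).inter hσo) g
    have e1 := eq_of_mem_ker u1
    have e3 := eq_of_mem_ker u3
    have e5 : ρH s⁻¹ = ρH g⁻¹ := by
      rw [← mul_one (ρH s⁻¹), ← map_one ρH, ← mul_inv_cancel g, map_mul, ← e1, ← mul_assoc,
        ← map_mul, inv_mul_cancel, map_one, one_mul]
    refine ⟨P.rchar, h1, h2, ?_, ?_, ?_⟩
    · rw [← tfr P s h1 h2 h4]
      simp only [t, e1, eq_of_mem_ker u2, e5]
      congr 1
      refine LinearMap.ext fun x => hsm ?_ _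
      rw [RingHom.map_det, RingHom.map_det]
      exact congrArg Matrix.det e3.symm
    · rw [← trace_bar, ← e3, trace_bar, ha P s h1.2 h4]
    · rw [← eq_of_mem_ker u4, hσ P s h1.2 h4]
  have hdd : ∀ x y, Commute (dia x) (dia y) := fun x y => (Commute.all x y).map dia
  have htρ : ∀ g k, Commute (ρH k) (t g) := fun g k => by
    obtain ⟨p, h1, h2, h4, -⟩ := cheb g
    rw [h4]; exact Y.cgT k p h1 h2
  have htd : ∀ g x, Commute (dia x) (t g) := fun g x =>
    (Y.cgD g x).symm.add_right (((hdd x _).mul_right (Y.cgD _ x).symm).smul_right _)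
  have htt : ∀ g k, Commute (t g) (t k) := fun g k =>
    (htρ g k).symm.add_right (((htd g _).symm.mul_right (htρ g _).symm).smul_right _)
  obtain ⟨A, _, _, ac, e, hac, he, hgen⟩ := exists_commAlg (O := O) (Sum.elim t dia) (by
    rintro (g | x) (k | y)
    exacts [htt g k, (htd g y).symm, htd k x, hdd x y])
  let dia' : Δ →* A :=
    { toFun := fun x => e (Sum.inr x)
      map_one' := hac (by rw [he, map_one]; exact map_one dia)
      map_mul' := fun x y => hac (by rw [map_mul, he, he, he]; exact map_mul dia x y) }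
  have hd' : ∀ x, ac (dia' x) = dia x := fun x => he _
  have ht' : ∀ g, ac (e (Sum.inl g)) = t g := fun g => he _
  -- the eigenvector
  let v₁ : HH Γ (Cn O (n + 1)) := (algebraMap O (Cn O (n + 1))).toAddMonoidHom.comp v₀
  have hv₁ : ∀ p, Gd L p → T _ (c p) v₁ = algebraMap O (Cn O (n + 1)) (b p) • v₁ :=
    fun p hp => eig_map _ (hb p hp).2
  have hprim : ∀ z : Cn O (n + 1), z • lam v₁ = 0 → z = 0 := fun z hz => by
    have h1 := Y.lam0 (z • v₁) b (fun p hp => ⟨(hb p hp).1, by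
      rw [smul_comm, ← hv₁ p hp]
      exact T_nat (c p) (DistribSMul.toAddMonoidHom _ z) v₁⟩) (by rw [map_smul, hz])
    simpa [v₁, hv] using DFunLike.congr_fun h1 γ
  let _ : Module A H := Module.compHom H ac.toRingHom
  have hA : ∀ (s : A) (x : H), s • x = ac s x := fun _ _ => rfl
  have : IsScalarTower O A H := ⟨fun o s x => by rw [hA, hA, map_smul]; rfl⟩
  have : SMulCommClass A (Cn O (n + 1)) H := ⟨fun s z x => hlin _ z x⟩
  obtain ⟨θ, hθ, hθv⟩ := exists_char hgen hprim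
    (b := Sum.elim (fun g => (σ g).trace) fun _ => 1) (by
      rintro (g | x)
      · obtain ⟨p, h1, h2, h4, -, h5⟩ := cheb g
        rw [hA, ht', h4, Y.lamT p h1 h2, hv₁ p h1, map_smul, Sum.elim_inl, h5]
      · rw [hA, he, Sum.elim_inr, Sum.elim_inr, Y.lamD, one_smul])
  have hQ : ∀ {l : ℕ}, l ∉ Finset.univ.image q → ∀ i, l ≠ q i := fun h i e =>
    h (Finset.mem_image.2 ⟨i, Finset.mem_univ _, e.symm⟩)
  have hGd : ∀ {P : Plc}, Gd L P.rchar ↔ ¬ P.rchar ∣ 3 * N := fun {P} => by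
    rw [Gd, and_iff_right P.rchar_prime, P.rchar_prime.dvd_mul, P.rchar_prime.dvd_mul,
      hLN _ P.rchar_prime]
  refine ⟨d, Cn O (n + 1), Cn O (n + 1), Δ, H, A, hd,
    RT.nonempty_of_span hm2 (v := lam v₁) fun h => one_ne_zero (hprim 1 (by rw [h, smul_zero])),
    inferInstance, inferInstance, inferInstance, inferInstance, inferInstance, inferInstance,
    inferInstance, inferInstance, inferInstance, inferInstance, inferInstance,
    algebraMap O (Cn O (n + 1)), del, δ, ρH, ac, dia', fun g => e (Sum.inl g), θ.toRingHom,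
    RT.card_le_of_kap (a := fun x => (dia x).toAddMonoidHom) (fun x => hlin _) hm1 kap
      Y.kap0 hs, hsurj,
    (Sel.ker_Cn O (n + 1)).trans (Ideal.pow_le_pow_right n.le_succ), ?_, ?_⟩
  · refine
      { finC := hCfin
        surj := hsurj
        ker := Sel.ker_Cn O (n + 1)
        twg := Y.twg
        free := ⟨m, by simpa only [hd'] using hm1, by simpa only [hd'] using hm2⟩
        comm := fun g s => ?_
        opnH := Sel.opn_of_isOpen Y.opnH
        opnδ := Sel.opn_of_isOpen Y.opnδ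
        opnρ := Sel.opn_of_op (hL.op (n + 1))
        ch := fun g => by rw [hd', ht']
        res := fun g => ?_
        tw := fun i => ?_
        thO := fun o => θ.commutes o
        thD := fun x => hθ (Sum.inr x)
        thK := fun s hs => by rw [(map_eq_zero_iff ac hac).1 hs, map_zero]
        thI := fun l g hg h1 => (hθ (Sum.inl g)).trans (by
          rw [Sum.elim_inl, hσI _ (hPl3 l) g hg h1]; simp)
        sel := Sel.sel_top h3 hR hL hPl (n + 1) hB (fun h => ?_)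
          (fun P h g hg => Y.unrδ P (hQ h) hg) (fun P h1 h2 g hg => Y.unrH P (hGd.2 h1) (hQ h2) hg)
          Y.flat }
    · refine Algebra.commute_of_mem_adjoin_of_forall_mem_commute (R := O)
        (s := Set.range (Sum.elim t dia)) ?_ ?_
      · have h1 : ac s ∈ (Algebra.adjoin O (Set.range e)).map ac := ⟨s, hgen ▸ trivial, rfl⟩
        rwa [AlgHom.map_adjoin, ← Set.range_comp, show ac ∘ e = _ from funext he] at h1
      · rintro _ ⟨k | y, rfl⟩
        exacts [htρ k g, Y.cgD g y]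
    · obtain ⟨p, h1, h2, h4, h5, -⟩ := cheb g
      have h6 : algebraMap O (Module.End O H) (ρ g).trace = algebraMap O _ (a p) :=
        LinearMap.ext (hsm h5)
      rw [map_sub, ht', AlgHom.commutes, h4, h6]
      exact Y.res p h1 h2
    · obtain ⟨P, hP, τ, hτ, h1, h2⟩ := Y.tw i
      have h4 : ρ τ = 1 := hL.min P (hP ▸ (hq i).ne_three) τ hτ
        (hR.unr P (hGd.1 (hP ▸ hq i)) τ hτ)
      refine ⟨τ, h1, h4, ?_⟩
      have h5 : ρH τ * ρH τ⁻¹ = 1 := by rw [← map_mul, mul_inv_cancel, map_one]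
      have h6 := congrArg (· * ρH τ⁻¹) h2
      simp only [mul_assoc, sub_mul, h5, zero_mul, mul_sub, mul_one, one_mul] at h6
      rw [← mul_assoc, (Y.cgD τ _).eq, mul_assoc, h5, mul_one] at h6
      rw [pow_one, map_sub, map_sub, map_one, hd', ht']
      simp only [t, h4, det_one, one_smul, h1]
      rw [← h6]; abel
    · obtain ⟨i, -, hi⟩ := Finset.mem_image.1 h
      exact (hq i).ne_three hi
  · have h1 : W (Cn O (n + 1)) (fun i : {p // Gd L p} => c i.1) p = 0 := LinearMap.ext fun ψ => by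
      obtain ⟨φ, rfl⟩ := comp_surj (f := (algebraMap O (Cn O (n + 1))).toAddMonoidHom) hsurj ψ
      rw [W_nat, kills_of_rat _ hW]; simp
    have h2 : ∀ x, kap (ac (MvPolynomial.aeval (fun g => e (Sum.inl g)) (FreeAlgebra.lift ℤ
        (fun i => (MvPolynomial.X (fr i) : MvPolynomial Gam O)) p)) x) =
        W (Cn O (n + 1)) (fun i : {p // Gd L p} => c i.1) p (kap x) := by
      clear hW h1
      induction hp using Algebra.adjoin_induction with
      | mem y hy =>
        obtain ⟨i, hi, rfl⟩ := hy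
        obtain ⟨P, hP, hf⟩ := hfr i
        intro x
        rw [FreeAlgebra.lift_ι_apply, MvPolynomial.aeval_X, ht', W_ι,
          tfr P _ (hP ▸ i.2) (hP ▸ hi) hf, hP, Y.kapT _ i.2 hi]
      | algebraMap z => intro x; simp
      | add y z _ _ hy hz => intro x; simp only [map_add, LinearMap.add_apply, hy, hz]
      | mul y z _ _ hy hz => intro x; simp only [map_mul, Module.End.mul_apply, hy, hz]
    refine LinearMap.ext fun x => ?_
    simp only [map_mul, hd', LinearMap.sum_apply, Module.End.mul_apply, LinearMap.zero_apply]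
    exact Y.kap0 _ (by rw [h2, h1, LinearMap.zero_apply])

end Crest.Agent.T15.R

end
end

-- ▼ part T15/RA_78
section

/-!
# Row 15, block R (helper78): the assembly `RStmt`
-/

set_option autoImplicit false

noncomputable section

namespace Crest.Agent.T15.R

open Matrix IsLocalRing Function NumberField
open Crest.Agent.T15.Ps Crest.Agent.T15.Pat Crest.Agent.T15.Hk Crest.Agent.T15.Eig
open Crest.Agent.T15.C (Gam Om In De)
open Crest.Agent.T15.Top

lemma exists_supp_78 {ι : Type*} (p : FreeAlgebra ℤ ι) :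
    ∃ S : Set ι, S.Finite ∧ p ∈ Algebra.adjoin ℤ (FreeAlgebra.ι ℤ '' S) := by
  have hm : ∀ {S S' : Set ι} {q : FreeAlgebra ℤ ι}, S ⊆ S' →
      q ∈ Algebra.adjoin ℤ (FreeAlgebra.ι ℤ '' S) →
      q ∈ Algebra.adjoin ℤ (FreeAlgebra.ι ℤ '' S') := fun h hq =>
    Algebra.adjoin_mono (Set.image_mono h) hq
  induction p using FreeAlgebra.induction with
  | grade0 r => exact ⟨∅, Set.finite_empty, Subalgebra.algebraMap_mem _ r⟩
  | grade1 x => exact ⟨{x}, Set.finite_singleton x, Algebra.subset_adjoin ⟨x, rfl, rfl⟩⟩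
  | mul a b ha hb =>
    obtain ⟨S, hS, ha⟩ := ha
    obtain ⟨S', hS', hb⟩ := hb
    exact ⟨S ∪ S', hS.union hS',
      mul_mem (hm Set.subset_union_left ha) (hm Set.subset_union_right hb)⟩
  | add a b ha hb =>
    obtain ⟨S, hS, ha⟩ := ha
    obtain ⟨S', hS', hb⟩ := hb
    exact ⟨S ∪ S', hS.union hS',
      add_mem (hm Set.subset_union_left ha) (hm Set.subset_union_right hb)⟩

lemma isTr_level_78 {R : Type*} [CommRing R] {ρ : Gam →* M2 R} {N L : ℕ} {a : ℕ → R}
    (h : IsTr ρ (3 * N) a) (hNL : N ∣ L) : IsTr ρ (3 * L) a := fun P g hP hg =>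
  h P g (fun h' => hP (h'.trans (Nat.mul_dvd_mul_left 3 hNL))) hg

lemma lift_aeval_78 {ι κ O : Type*} [CommRing O] (a : ι → O) (f : ι → κ) (t : κ → O)
    (h : ∀ i, a i = t (f i)) (p : FreeAlgebra ℤ ι) : FreeAlgebra.lift ℤ a p = MvPolynomial.aeval t
      (FreeAlgebra.lift ℤ (fun i => (MvPolynomial.X (f i) : MvPolynomial κ O)) p) := by
  induction p using FreeAlgebra.induction with
  | grade0 r => simp
  | grade1 x => simp [h]
  | mul a b ha hb => simp only [map_mul, ha, hb]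
  | add a b ha hb => simp only [map_add, ha, hb]

theorem rStmt_78 : RStmt := by
  intro X G _ 𝓛 hRT hW hθ h3 hT hE
  classical
  obtain ⟨e, hθ⟩ := hθ
  refine ⟨1, e, fun O _ _ _ _ N ρ a hi hR hD hL ha => ?_⟩
  obtain ⟨L, θ, hL0, hLe, h16, hNL, hLN, hθe, hθt, hσ⟩ :=
    hθ (ResidueField O) (mp (residue O) ρ) N hR.pos hD
  refine ⟨L, hL0, by rw [one_mul]; exact_mod_cast hLe, hNL, hLN, fun j => ?_⟩
  have hcz := (inferInstance : Coef O).cz
  have hfin := (inferInstance : Coef O).fin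
  have hch : CharP (ResidueField O) 3 := Sel.charP_coef O
  have h4 : 4 ∣ L := (by norm_num : 4 ∣ 16).trans h16
  have h3L : ¬ 3 ∣ L := fun h => hR.three (hLN 3 Nat.prime_three h)
  have hLN' : ∀ l : ℕ, l.Prime → (l ∣ L ↔ l ∣ N) := fun l hl =>
    ⟨hLN l hl, fun h => h.trans hNL⟩
  obtain ⟨hG, hA⟩ := hT L hL0 h4 h3L
  have := hG.fg
  have := hG.free
  have ha' : IsTr ρ (3 * L) a := isTr_level_78 ha hNL
  have hne : NEis a := nEis hL.det hR.hyp hL0.ne' ha'
  have hc : ∀ i i' : {p // Gd L p}, T ℚ (𝓛.c L i.1) * T ℚ (𝓛.c L i'.1) =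
      T ℚ (𝓛.c L i'.1) * T ℚ (𝓛.c L i.1) := fun i i' => hG.comm _ _ i.2 i'.2
  obtain ⟨φ, hφ0, hφ⟩ := (hE L _ hL0 h4).1 hθe
  obtain ⟨v₀, γ, hv, hv₀⟩ := theta_point (c := fun i : {p // Gd L p} => 𝓛.c L i.1) hc
    (Int.castRingHom ℂ) Int.cast_injective (Int.castRingHom O) (b₀ := fun i => θ i.1) hφ0
    (fun i => hφ i.1 i.2)
  have hfr' : ∀ i : {p // Gd L p}, ∃ (s : Gam) (P : Plc), P.rchar = i.1 ∧ IsFr P s := fun i => by
    obtain ⟨P, s, h1, h2⟩ := exists_fr i.2.1
    exact ⟨s, P, h1, h2⟩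
  choose fr hfr using hfr'
  have hb : ∀ p, Gd L p → (θ p : O) - a p ∈ maximalIdeal O ∧
      T O (𝓛.c L p) v₀ = (θ p : O) • v₀ := fun p hp => by
    refine ⟨?_, hv₀ ⟨p, hp⟩⟩
    obtain ⟨P, s, h1, h2⟩ := exists_fr hp.1
    have e1 := isTr_level_78 hθt hNL P s (h1 ▸ hp.2) h2
    have e2 := ha' P s (h1 ▸ hp.2) h2
    rw [trace_mp, e2, h1] at e1
    rw [← residue_eq_zero_iff, map_sub, e1, map_intCast, sub_self]
  obtain ⟨Pl, hPl, hGl⟩ := exists_glob hR hL
  obtain ⟨s, hs⟩ := exists_card_le (𝓛.Γ L)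
  obtain ⟨r, hr⟩ := Sel.tw_bound hW hR.hyp
  obtain ⟨i₀, hi₀⟩ := hi
  have key : ∀ p, W ℚ (fun i : {p // Gd L p} => 𝓛.c L i.1) p = 0 →
      FreeAlgebra.lift ℤ (fun i : {p // Gd L p} => a i.1) p = 0 := fun p hp => by
    obtain ⟨S, hS, hpS⟩ := exists_supp_78 p
    obtain ⟨B, hB⟩ := (hS.image Subtype.val).bddAbove
    have h0 := RT.rt_ex hRT (J' := maximalIdeal O) (O' := O) (r := r) (e := 1) (s := s) hGl
      (Sel.cpt_coef O)
      (P := FreeAlgebra.lift ℤ (fun i => (MvPolynomial.X (fr i) : MvPolynomial Gam O)) p)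
      fun n => ?_
    · rw [← h0]
      refine lift_aeval_78 _ _ _ (fun i => ?_) p
      obtain ⟨P, h1, h2⟩ := hfr i
      rw [ha' P _ (h1 ▸ i.2.2) h2, h1]
    obtain ⟨Q, hQr, hQ, hBd⟩ := hr (n + 1) (B + 3 * L)
    let q : Fin r → ℕ := fun i => (Q.equivFinOfCardEq hQr).symm i
    have hqi : Injective q := Subtype.val_injective.comp (Equiv.injective _)
    have hqQ : ∀ i, q i ∈ Q := fun i => Subtype.property _
    have hQq : Finset.univ.image q = Q := by
      ext x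
      simp only [Finset.mem_image, Finset.mem_univ, true_and]
      exact ⟨fun ⟨i, hi⟩ => hi ▸ hqQ i, fun hx => ⟨Q.equivFinOfCardEq hQr ⟨x, hx⟩, by simp [q]⟩⟩
    have hq : ∀ i, Gd L (q i) := fun i => ⟨(hQ _ (hqQ i)).1, fun h => by
      have := Nat.le_of_dvd (by omega) h
      have := (hQ _ (hqQ i)).2.1
      omega⟩
    obtain ⟨Δ, _, _, del, δ, H, _, _, _, _, ρH, Tp, dia, kap, lam, Y⟩ :=
      hA O a hne n r q hqi fun i => tWa hL.det hR ha' (hq i) (hQ _ (hqQ i)).2.2.1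
        fun P s h1 h2 => ((hQ _ (hqQ i)).2.2.2 P h1).2 s (h1 ▸ h2)
    have := Sel.finite_Cn O (n + 1)
    obtain ⟨σ, hσo, hσt, hσI⟩ := hσ (Cn O (n + 1)) (algebraMap O _ i₀)
      (by rw [← map_pow, hi₀, map_neg, map_one])
      ⟨n + 1, by
        rw [← map_ofNat (algebraMap O (Cn O (n + 1))) 3, ← map_pow]
        exact Ideal.Quotient.eq_zero_iff_mem.2 (Ideal.subset_span rfl)⟩
    have k1 : ∀ l : ℕ, l.Prime → l ∣ N → ∃ j, (Pl j).rchar = l := fun l hl hlN =>
      ⟨⟨l, Nat.mem_primeFactors.2 ⟨hl, hlN, hR.pos.ne'⟩⟩, hPl _⟩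
    have k2 : ∀ j, (Pl j).rchar ≠ 3 := fun l h => by
      rw [hPl] at h
      exact hR.three (h ▸ Nat.dvd_of_mem_primeFactors l.2)
    have k3 : S ⊆ {i | ∀ j, i.1 ≠ q j} := fun i hi j hij => by
      have h1 : i.1 ≤ B := hB ⟨i, hi, rfl⟩
      have h2 := (hQ _ (hqQ j)).2.1
      omega
    exact levE_of hR hL ha' hL0 hLN' k1 k2 h3 (hQq ▸ hBd) hq (hs _) hv hb hσo
      (by simpa only [map_intCast] using isTr_level_78 hσt hNL) hσI hfr
      (Algebra.adjoin_mono (Set.image_mono k3) hpS) hp Y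
  obtain ⟨ψ, hψ0, hψ⟩ := last_step (A := ℚ) (c := fun i : {p // Gd L p} => 𝓛.c L i.1) hc
    (RingHom.id O) injective_id j (fun i : {p // Gd L p} => a i.1) key
  refine (hE L _ hL0 h4).2 ⟨ψ, hψ0, fun p hp => hψ ⟨p, hp⟩⟩ ?_
  obtain ⟨p, hp, hpB, hp1, hu⟩ := hne L (3 * L) hL0.ne'
  refine ⟨p, ⟨hp, fun h => ?_⟩, hp1, fun h => (hu.map j).ne_zero ?_⟩
  · have := Nat.le_of_dvd (by omega) h
    omega
  · rw [map_sub, map_sub, map_natCast, map_one, h]
    ring

end Crest.Agent.T15.R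

end
end

-- ▼ part T15/Zer1_7
section

/-!
# Row 15, block C: local lemmas for the reciprocity step
-/

set_option autoImplicit false

noncomputable section

namespace Crest.Agent.T15.Zr

open NumberField IsDedekindDomain Crest.Agent.R018.Placesx484 Crest.Agent.T15.Ps
  Crest.Agent.T15.Art Crest.Agent.T15.Ex Crest.Agent.T15.C

section val

variable {K : Type} [Field K] [NumberField K] [Algebra K Om]

theorem isEquiv_pr (P : Place Om) :
    (P.v.comap (algebraMap K Om)).IsEquiv ((pr K P).valuation K) :=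
  Valuation.isEquiv_iff_val_le_one.2 fun {x} => by
    rw [Valuation.comap_apply, ← Place.v_res_le_one_iff K P x, Place.numberField_val_iff]
    rfl

theorem v_ne {P : Place Om} {x : Om} (h : P.v x = 1) : x ≠ 0 := fun e => by simp [e] at h

theorem frob_val {P : Place Om} {g : Gam} {q : ℕ} (hq : q ≠ 0) (h : IsFr P q g) {a : Om}
    (ha : P.v a ≤ 1) : P.v (g a - a ^ q) < 1 := by
  have hg : g • P = P := by
    rw [Place.smul_eq_iff]
    intro x hx
    have := P.ideal.add_mem (h x) (P.ideal.pow_mem_of_mem hx _ (Nat.pos_of_ne_zero hq))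
    rwa [sub_add_cancel] at this
  obtain ⟨u, s, hs, e⟩ := (P.v_le_one_iff a).1 ha
  have hs1 : P.v (algebraMap (𝓞 Om) Om s) = 1 :=
    le_antisymm (P.v_int_le_one s) (not_lt.1 (mt (P.v_int_lt_one_iff s).1 hs))
  have h1 := (P.v_int_lt_one_iff _).2 (h s)
  have h2 := (P.v_int_lt_one_iff _).2 (h u)
  rw [map_sub, map_pow, Place.smul_coe, AlgEquiv.smul_def] at h1 h2
  have h3 : P.v (g a) ≤ 1 := (Place.v_smul_eq g P hg a).trans_le ha
  have e2 : (g a - a ^ q) * algebraMap (𝓞 Om) Om s ^ q = (g (algebraMap (𝓞 Om) Om u) -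
      algebraMap (𝓞 Om) Om u ^ q) - g a * (g (algebraMap (𝓞 Om) Om s) -
      algebraMap (𝓞 Om) Om s ^ q) := by
    rw [← e, map_mul, mul_pow]; ring
  have h4 := congrArg P.v e2
  rw [map_mul, map_pow, hs1, one_pow, mul_one] at h4
  rw [h4]
  refine P.v.map_sub_lt h2 ?_
  rw [map_mul]
  exact mul_lt_one_of_nonneg_of_lt_one_right h3 zero_le h1

theorem v_pow_sub {P : Place Om} {x y : Om} (hx : P.v x ≤ 1) (hy : P.v y ≤ 1)
    (h : P.v (x - y) < 1) (n : ℕ) : P.v (x ^ n - y ^ n) < 1 := by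
  induction n with
  | zero => simp
  | succ n ih =>
    have e : x ^ (n + 1) - y ^ (n + 1) = x * (x ^ n - y ^ n) + y ^ n * (x - y) := by ring
    rw [e]
    refine P.v.map_add_lt ?_ ?_ <;> rw [map_mul]
    · exact mul_lt_one_of_nonneg_of_lt_one_right hx zero_le ih
    · exact mul_lt_one_of_nonneg_of_lt_one_right (by rw [map_pow]; exact pow_le_one₀ zero_le hy)
        zero_le h

theorem v_trans {P : Place Om} {x y z : Om} (h : P.v (x - y) < 1) (h' : P.v (y - z) < 1) :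
    P.v (x - z) < 1 := by
  have := P.v.map_add_lt h h'
  rwa [sub_add_sub_cancel] at this

theorem v_symm {P : Place Om} {x y : Om} (h : P.v (x - y) < 1) : P.v (y - x) < 1 := by
  rwa [Valuation.map_sub_swap]

/-- the tame character depends only on the valuation -/
theorem ratio_congr {P : Place Om} {t : Gam} (ht : t ∈ In P) {y z : Om} (hz : z ≠ 0)
    (h : P.v y = P.v z) : P.v (t y / y - t z / z) < 1 := by
  have z0 : P.v z ≠ 0 := (Valuation.ne_zero_iff _).2 hz
  have hy : y ≠ 0 := (Valuation.ne_zero_iff _).1 (h ▸ z0)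
  have h1 : P.v (y / z) = 1 := by rw [map_div₀, h, div_self z0]
  have h2 := Place.v_smul_sub_lt_one P ht _ h1.le
  have h3 : P.v (t z) = P.v z := Place.v_smul_eq t P (Place.smul_eq_of_mem_inertia P ht) z
  have h4 : t z ≠ 0 := by simpa using hz
  have e : t y / y - t z / z = t z / y * (t • (y / z) - y / z) := by
    rw [AlgEquiv.smul_def, map_div₀]; field_simp
  rwa [e, map_mul, map_div₀, h3, h, div_self z0, one_mul]

theorem not_dvd_qv (P : Place Om) [IsGalois K Om] : ¬ P.rchar ∣ P.qv K - 1 := fun h => by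
  obtain ⟨f, hf, e⟩ := Place.exists_qv_eq (F := K) P
  have h1 : P.rchar ∣ P.qv K := e ▸ dvd_pow_self _ hf.ne'
  have h2 := Place.one_lt_qv (F := K) P
  have := (Nat.dvd_sub_iff_right h2.le h1).1 h
  exact P.rchar_prime.one_lt.ne' (Nat.dvd_one.1 this)

/-- a generator of tame inertia -/
theorem exists_gen [IsGalois K Om] (P : Place Om) {π : K} (hI : ∀ t ∈ In P,
      t (algebraMap K Om π) = algebraMap K Om π)
    (hπ : (pr K P).valuation K π = WithZero.exp (-1 : ℤ)) {z : Om}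
    (hz : z ^ (P.qv K - 1) = algebraMap K Om π) :
    ∃ τ ∈ In P, IsPrimitiveRoot (τ z / z) (P.qv K - 1) := by
  have hn := not_dvd_qv (K := K) P
  set n := P.qv K - 1
  have n0 : n ≠ 0 := fun e => hn (e ▸ dvd_zero _)
  have : NeZero (n : Om) := ⟨Nat.cast_ne_zero.2 n0⟩
  obtain ⟨ζ, hζ⟩ := HasEnoughRootsOfUnity.exists_primitiveRoot Om n
  obtain ⟨a, ha⟩ := IsAlgClosed.exists_pow_nat_eq (P.rchar : Om) (Nat.pos_of_ne_zero n0)
  obtain ⟨τ, hτ, h⟩ := R018.PowResAx693.exists_tame P hn hζ ha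
  have π0 : π ≠ 0 := fun e => by
    rw [e, map_zero] at hπ
    exact WithZero.exp_ne_zero hπ.symm
  have z0 : z ≠ 0 := fun e => by
    rw [e, zero_pow n0] at hz
    exact π0 ((map_eq_zero _).1 hz.symm)
  have q0 : (P.rchar : K) ≠ 0 := Nat.cast_ne_zero.2 P.rchar_prime.ne_zero
  have a0 : a ≠ 0 := fun e => by
    rw [e, zero_pow n0] at ha
    exact P.rchar_prime.ne_zero (Nat.cast_eq_zero.1 ha.symm)
  obtain ⟨e, he⟩ : ∃ e : ℕ, (pr K P).valuation K (P.rchar : K) = (pr K P).valuation K (π ^ e) := by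
    have h1 : (pr K P).valuation K (P.rchar : K) ≤ 1 := by
      simpa using (pr K P).valuation_le_one (K := K) (P.rchar : 𝓞 K)
    have h2 : (pr K P).valuation K (P.rchar : K) ≠ 0 := (Valuation.ne_zero_iff _).2 q0
    rw [← WithZero.exp_log h2, ← WithZero.exp_zero, WithZero.exp_le_exp] at h1
    refine ⟨(-WithZero.log ((pr K P).valuation K (P.rchar : K))).toNat, ?_⟩
    rw [map_pow, hπ, ← WithZero.exp_nsmul, ← WithZero.exp_log h2, WithZero.log_exp]
    congr 1
    rw [nsmul_eq_mul, Int.toNat_of_nonneg (by omega)]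
    ring
  have h1 : P.v a = P.v (z ^ e) := by
    have := (isEquiv_pr P).eq_iff.2 he
    rw [Valuation.comap_apply, Valuation.comap_apply, map_natCast, map_pow, ← ha, ← hz,
      pow_right_comm, map_pow, map_pow _ (z ^ e)] at this
    exact (pow_left_inj₀ zero_le zero_le n0).1 this
  have h2 := ratio_congr hτ (pow_ne_zero e z0) h1
  have h3 : (τ z / z) ^ n = 1 := by
    rw [div_pow, ← map_pow, hz, hI τ hτ, div_self (by simpa using π0)]
  rw [h, mul_div_cancel_right₀ _ a0, map_pow, ← div_pow] at h2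
  have h4 := Place.root_eq_of_sub P hn hζ.pow_eq_one (by rw [pow_right_comm, h3, one_pow]) h2
  exact ⟨τ, hτ, h3, fun l hl => hζ.dvd_of_pow_eq_one l (by rw [h4, pow_right_comm, hl, one_pow])⟩

theorem exists_res {P : Place Om} {η x : Om} {n : ℕ} (hη : IsPrimitiveRoot η n) (n0 : n ≠ 0)
    (h : P.v (x ^ n - 1) < 1) : ∃ m : ℕ, P.v (x - η ^ m) < 1 := by
  have : NeZero n := ⟨n0⟩
  by_contra hc
  push Not at hc
  have e := hη.pow_sub_pow_eq_prod_sub_mul (x := x) (y := 1) (Nat.pos_of_ne_zero n0)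
  rw [one_pow] at e
  rw [e, map_prod] at h
  refine h.not_ge (Finset.one_le_prod' fun ζ hζ => ?_)
  obtain ⟨i, -, hi⟩ := hη.eq_pow_of_pow_eq_one ((Polynomial.mem_nthRootsFinset
    (Nat.pos_of_ne_zero n0) 1).1 hζ)
  rw [mul_one, ← hi]
  exact hc i

theorem qv_dvd [IsGalois K Om] {P : Place Om} {S : Gam} {Q : ℕ} (hQ : Q ≠ 0) (h : IsFr P Q S)
    (hS : ∀ x : K, S (algebraMap K Om x) = algebraMap K Om x) : P.qv K - 1 ∣ Q - 1 := by
  have := Place.finite_residue (P.res K)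
  have := (P.res K).isMaximal
  let _ := Ideal.Quotient.field (P.res K).ideal
  have := Fintype.ofFinite (𝓞 K ⧸ (P.res K).ideal)
  rw [Place.qv_def, Nat.card_eq_fintype_card, ← FiniteField.forall_pow_eq_one_iff]
  intro u
  obtain ⟨x, hx⟩ := Ideal.Quotient.mk_surjective (u : 𝓞 K ⧸ (P.res K).ideal)
  have h1 : S • algebraMap (𝓞 K) (𝓞 Om) x = algebraMap (𝓞 K) (𝓞 Om) x :=
    RingOfIntegers.coe_injective (hS x)
  have h2 := h (algebraMap (𝓞 K) (𝓞 Om) x)
  rw [h1, ← map_pow, ← map_sub, ← Place.mem_res, ← Ideal.Quotient.eq, map_pow, hx] at h2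
  have h3 : u ^ Q = u := Units.ext (by rw [Units.val_pow_eq_pow_val, ← h2])
  obtain ⟨Q, rfl⟩ := Nat.exists_eq_succ_of_ne_zero hQ
  rwa [pow_succ, mul_eq_right] at h3

theorem v_fermat [IsGalois K Om] [IsScalarTower ℚ K Om] {P : Place Om} {x : K}
    (hx : P.v (algebraMap K Om x) = 1) : P.v (algebraMap K Om x ^ (P.qv K - 1) - 1) < 1 := by
  obtain ⟨φ, hφ⟩ := exists_isF (K := K) P
  have h2 := Place.one_lt_qv (F := K) P
  have h1 := frob_val (g := φ.restrictScalars ℚ) (q := P.qv K) (by omega) hφ hx.le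
  have e : (φ.restrictScalars ℚ) (algebraMap K Om x) - algebraMap K Om x ^ P.qv K =
      -algebraMap K Om x * (algebraMap K Om x ^ (P.qv K - 1) - 1) := by
    rw [AlgEquiv.restrictScalars_apply, φ.commutes, mul_sub, neg_mul, ← pow_succ',
      Nat.sub_add_cancel h2.le]
    ring
  rwa [e, map_mul, Valuation.map_neg, hx, one_mul] at h1

end val

theorem not_three_dvd {q i f J : ℕ} (hq : 1 < q) (h3 : 3 ∣ q - 1) (hi : ¬ 3 ∣ i)
    (h : q ^ i - 1 = (q ^ f - 1) * J) : ¬ 3 ∣ J := fun hJ => by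
  have e1 := Nat.geomSum_eq hq i
  have e2 : q - 1 ∣ q ^ f - 1 := Nat.sub_one_dvd_pow_sub_one q f
  obtain ⟨G, hG⟩ := e2
  rw [h, hG, mul_assoc, Nat.mul_div_cancel_left _ (by omega)] at e1
  have h1 : q ≡ 1 [MOD 3] := ((Nat.modEq_iff_dvd' hq.le).2 h3).symm
  have h2 : ((∑ k ∈ Finset.range i, q ^ k : ℕ) : ZMod 3) = i := by
    have : (q : ZMod 3) = 1 := by exact_mod_cast (ZMod.natCast_eq_natCast_iff q 1 3).2 h1
    simp [this]
  rw [e1, (ZMod.natCast_eq_zero_iff _ 3).2 (hJ.mul_left G)] at h2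
  exact hi ((ZMod.natCast_eq_zero_iff _ 3).1 h2.symm)

theorem kum_nat {k : Type} [Field k] [CharP k 3] {g : Gam} {u : Om} (hu : u ≠ 0) {j : ℕ}
    (h : g (rt u) = om ^ j * rt u) : kum k g u = j := by
  rw [Tw.kum_eq (i := (j : ZMod 3)) hu, map_natCast]
  rw [h, ZMod.val_natCast, ← pow_eq_pow_mod j om_spec.pow_eq_one]

/-- the cubic Kummer pairing at a Frobenius element is the cubic residue symbol -/
theorem kum_res {k : Type} [Field k] [CharP k 3] {P : Place Om} {S : Gam} {D b m : ℕ} {η x : Om}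
    (h3 : P.rchar ≠ 3) (hS : IsFr P (3 * D + 1) S) (hx : S x = x) (hv : P.v x = 1)
    (hη : η ^ D = om ^ b) (h : P.v (x - η ^ m) < 1) : kum k S x = (b * m : ℕ) := by
  have x0 := v_ne hv
  have hr : P.v (rt x) = 1 := Place.pow_eq_one_aux three_ne_zero (by rw [← map_pow, rt_spec, hv])
  have r0 := v_ne hr
  refine kum_nat x0 ?_
  rw [← div_eq_iff r0]
  have hom : (om ^ (b * m)) ^ 3 = 1 := by rw [pow_right_comm, om_spec.pow_eq_one, one_pow]
  refine Place.root_eq_of_sub P (n := 3)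
    (fun e => h3 ((Nat.prime_dvd_prime_iff_eq P.rchar_prime Nat.prime_three).1 e))
    (by rw [div_pow, ← map_pow, rt_spec, hx, div_self x0]) hom ?_
  have h1 := frob_val (by omega) hS hr.le
  have e : S (rt x) - rt x ^ (3 * D + 1) = rt x * (S (rt x) / rt x - x ^ D) := by
    rw [pow_succ, pow_mul, rt_spec]; field_simp
  rw [e, map_mul, hr, one_mul] at h1
  refine v_trans h1 ?_
  have h2 : P.v (η ^ m) ≤ 1 := by
    have := P.v.map_sub x (x - η ^ m)
    rw [sub_sub_cancel] at this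
    exact this.trans (max_le hv.le h.le)
  have h4 := v_pow_sub hv.le h2 h D
  rwa [pow_right_comm, hη, ← pow_mul] at h4

end Crest.Agent.T15.Zr
end
end

-- ▼ part T15/Zer3_7
section

/-!
# Row 15, block C: the reciprocity step; a class with independent Taylor-Wiles primes is unramified
-/

set_option autoImplicit false

noncomputable section

namespace Crest.Agent.T15.Zr

open NumberField IsDedekindDomain Crest.Agent.R018.Placesx484 Crest.Agent.T15.Ps
  Crest.Agent.T15.Art Crest.Agent.T15.Ex Crest.Agent.T15.C Crest.Agent.R018.SLatx824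

/-- product formula for a character that is tamely ramified at `T` -/
theorem prod_formula (hA : ArtStmt) (hT : TameStmt) {K : Type} [Field K] [NumberField K]
    [IsTotallyComplex K] [Algebra K Om] [IsGalois K Om] {A : Type} [CommGroup A]
    {ξ : (Om ≃ₐ[K] Om) →* A} {N : ℕ} {T : Finset (Pr K)} {f : Pr K → A}
    (ho : IsOpen (ξ.ker : Set (Om ≃ₐ[K] Om))) (hN : N ≠ 0) (hξ : ∀ g, ξ g ^ N = 1)
    (h1 : ∀ w ∈ T, f w = 1) (hav : Av T f ξ) (hTN : ∀ w ∈ T, w.valuation K (N : K) = 1) (u : Kˣ)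
    (hu : ∀ w ∈ T, w.valuation K (u : K) = 1) :
    ∃ F : Pr K → A, ev f u = ∏ w ∈ T, F w ∧ ∀ (P : Place Om) (π : K) (z : Om) (t : Om ≃ₐ[K] Om),
      pr K P ∈ T → (pr K P).valuation K π = WithZero.exp (-1 : ℤ) →
      P.v z ^ (P.qv K - 1) = P.v (algebraMap K Om π) → t ∈ P.ideal.inertia (Om ≃ₐ[K] Om) →
      P.v (t z / z - algebraMap K Om u) < 1 → F (pr K P) = ξ t := by
  classical
  have key : ∀ w : Pr K, ∃ y : Kˣ, ∀ w' ∈ T,
      w'.valuation K ((y : K) - if w' = w then (u : K) else 1) < 1 := by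
    intro w
    obtain ⟨e, he⟩ := IsDedekindDomain.exists_forall_sub_mem_ideal (s := T)
      (fun w' : Pr K => w'.asIdeal) (fun _ => 1) (fun w' _ => w'.prime)
      (fun a _ b _ hab h => hab (HeightOneSpectrum.ext h)) fun w' => if w'.1 = w then 1 else 0
    have hy : ∀ w' ∈ T, w'.valuation K
        (1 + (e : K) * ((u : K) - 1) - if w' = w then (u : K) else 1) < 1 := fun w' hw' => by
      have h2 : w'.valuation K ((u : K) - 1) ≤ 1 :=
        w'.valuation K |>.map_sub_le (hu w' hw').le (map_one _).le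
      have h3 := (w'.valuation_lt_one_iff_mem (K := K) _).2 (pow_one w'.asIdeal ▸ he w' hw')
      have e2 : (1 + (e : K) * ((u : K) - 1) - if w' = w then (u : K) else 1) = ((u : K) - 1) *
          algebraMap (𝓞 K) K (e - if w' = w then 1 else 0) := by
        split_ifs <;> simp <;> ring
      rw [e2, map_mul]
      exact mul_lt_one_of_nonneg_of_lt_one_right h2 zero_le h3
    by_cases h0 : 1 + (e : K) * ((u : K) - 1) = 0
    · refine ⟨1, fun w' hw' => absurd (hy w' hw') ?_⟩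
      rw [h0, zero_sub, Valuation.map_neg]
      split_ifs
      · exact (hu w' hw').not_lt
      · simp
    · exact ⟨Units.mk0 _ h0, hy⟩
  choose y hy using key
  refine ⟨fun w => ev f (y w), ?_, fun P π z t hP hπ hz ht h => ?_⟩
  · rw [← map_prod, eq_comm, ← div_eq_one, ← map_div]
    refine artin_av hA ho hN hξ h1 hav _ fun w hw => ?_
    have e : ((((∏ w' ∈ T, y w') / u : Kˣ)) : K) =
        ∏ w' ∈ T, ((y w' : K) / if w = w' then (u : K) else 1) := by
      rw [Finset.prod_div_distrib, Finset.prod_ite_eq, if_pos hw]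
      simp
    rw [hTN w hw, one_pow, e]
    refine v_prod_sub_one _ _ _ one_ne_zero le_rfl fun w' _ => ?_
    have h2 := hy w' w hw
    split_ifs at h2 ⊢
    · rwa [div_sub_one u.ne_zero, map_div₀, hu w hw, div_one]
    · rwa [div_one]
  · refine hT K A ξ N T f ho hN hξ h1 hav P π z t (y _) hP ?_ hπ hz ht (v_trans h ?_)
      fun w hw hne => ?_
    · rw [← P.v_natCast_eq_one_iff, ← map_natCast (algebraMap K Om)]
      exact (isEquiv_pr (K := K) P).eq_one_iff_eq_one.2 (hTN _ hP)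
    · have h2 := hy (pr K P) _ hP
      rw [if_pos rfl] at h2
      rw [Valuation.map_sub_swap, ← map_sub]
      exact (isEquiv_pr (K := K) P).lt_one_iff_lt_one.2 h2
    · have h2 := hy (pr K P) w hw
      rw [if_neg hne] at h2
      rwa [hTN w hw, one_pow]

section transport

attribute [local instance] actH

variable {F : Type} [Field F] [Algebra F Om] (K : IntermediateField F Om) [NumberField K]
  [Normal F K]

theorem pr_smul_eq (g : Om ≃ₐ[F] Om) (P : Place Om) :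
    pr K (g • P) = AlgEquiv.restrictNormalHom K g • pr K P := by
  ext x
  change algebraMap _ _ x ∈ (g • P).ideal ↔ _
  rw [smul_asIdeal, Ideal.mem_pointwise_smul_iff_inv_smul_mem, Place.mem_smul_ideal, ← map_inv,
    ← res_int]
  rfl

theorem qv_smul (g : Om ≃ₐ[F] Om) (P : Place Om) : (g • P).qv K = P.qv K :=
  (Nat.card_congr (Ideal.quotientEquiv (P.res K).ideal ((g • P).res K).ideal
    (MulSemiringAction.toRingEquiv _ _ (AlgEquiv.restrictNormalHom K g))
    (congrArg HeightOneSpectrum.asIdeal (pr_smul_eq K g P))).toEquiv).symm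

theorem exists_unif (g : Om ≃ₐ[F] Om) (P : Place Om) (π : K) : ∃ π' : K, (π' : Om) = g π ∧
    (pr K (g • P)).valuation K π' = (pr K P).valuation K π :=
  ⟨AlgEquiv.restrictNormalHom K g π, AlgEquiv.restrictNormal_commutes g K π, by
    rw [pr_smul_eq, val_smul]⟩

theorem pr_congr (g : Om ≃ₐ[F] Om) {P P' : Place Om} :
    pr K (g • P) = pr K (g • P') ↔ pr K P = pr K P' := by
  rw [pr_smul_eq, pr_smul_eq, smul_left_cancel_iff]

end transport

variable {k : Type} [Field k] [CharP k 3] {ρ : Gam →* M2 k} {c : Gam → M2 k}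

/-- the class on the inertia group at a Taylor-Wiles prime -/
theorem loc_tw (hT : TameStmt) (h : Hyp ρ) (hc : Cls ρ c) [NumberField (Kf ρ)]
    {T : Finset (Pr (Kf ρ))} {f : Pr (Kf ρ) → Multiplicative (M2 k)} (h1 : ∀ w ∈ T, f w = 1)
    (hav : Av T f (hc.xi h.opn)) (hT3 : ∀ w ∈ T, w.valuation (Kf ρ) ((3 : ℕ) : Kf ρ) = 1)
    {q : ℕ} {P : Place Om} {s : Gam} (hq : TWq ρ q P s) (hP : pr (Kf ρ) P ∈ T) :
    ∃ (w : M2 k) (π : Kf ρ) (z : Om), w.trace = 0 ∧ ρ s * w = w * ρ s ∧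
      (pr (Kf ρ) P).valuation (Kf ρ) π = WithZero.exp (-1 : ℤ) ∧ z ^ (P.qv (Kf ρ) - 1) = π ∧
      (w = 0 → Triv ρ c (In P)) ∧ ∀ x : Om, (∀ n ∈ ρ.ker, n x = x) → P.v x = 1 →
        ∃ t ∈ In P, P.v (t z / z - x) < 1 ∧ c t = kum k (s ^ ρ.ker.index) x • w := by
  have := tc_Kf h
  have hn := not_dvd_qv (K := Kf ρ) P
  have q1 := hq.prime.one_lt
  have h3 : P.rchar ≠ 3 := fun e => by
    have := hq.three
    rw [← hq.rchar, e] at this
    omega
  obtain ⟨π, hπ⟩ := (pr (Kf ρ) P).valuation_exists_uniformizer (Kf ρ)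
  have n0 : P.qv (Kf ρ) - 1 ≠ 0 := fun e => hn (e ▸ dvd_zero _)
  obtain ⟨z, hz⟩ := IsAlgClosed.exists_pow_nat_eq (π : Om) (Nat.pos_of_ne_zero n0)
  have hI : ∀ t ∈ In P, t (π : Om) = π := fun t ht => π.2 ⟨t, hq.unr ht⟩
  obtain ⟨τ, hτ, hη⟩ := exists_gen P hI hπ hz
  have π0 : (π : Om) ≠ 0 := fun e => by
    rw [show π = 0 from Subtype.ext e, map_zero] at hπ
    exact WithZero.exp_ne_zero hπ.symm
  have z0 : z ≠ 0 := fun e => π0 (by rw [← hz, e, zero_pow n0])
  set η := τ z / z with hηd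
  have η1 : P.v η = 1 := Place.v_root_of_unity P n0 hη.pow_eq_one
  have hfix : ∀ t ∈ In P, t η = η := fun t ht => Place.inertia_root P ht hn hη.pow_eq_one
  have hτm : ∀ m : ℕ, (τ ^ m) z = η ^ m * z := fun m => by
    induction m with
    | zero => simp
    | succ m ih =>
      rw [pow_succ', AlgEquiv.mul_apply, ih, map_mul, map_pow, hfix τ hτ, pow_succ, mul_assoc,
        hηd, div_mul_cancel₀ _ z0]
  have L : ∀ t ∈ In P, ∀ m : ℕ, P.v (t z / z - η ^ m) < 1 → c t = m • c τ := fun t ht m hm => by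
    have h4 : t * (τ ^ m)⁻¹ ∈ In P := mul_mem ht (inv_mem (pow_mem hτ m))
    obtain ⟨t', ht'⟩ := exists_rs_Kf h.opn (hq.unr h4)
    have h5 : t z = η ^ m * t' z := by
      rw [← rs_apply, ht', ← hfix _ h4, ← map_pow, ← map_mul, ← hτm, ← AlgEquiv.mul_apply,
        inv_mul_cancel_right]
    have h6 := hT (Kf ρ) _ (hc.xi h.opn) 3 T f (hc.xi_open _) three_ne_zero (hc.xi_pow _) h1 hav P π
      z t' 1 hP (fun e => h3 ((Nat.prime_dvd_prime_iff_eq P.rchar_prime Nat.prime_three).1 e)) hπ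
      (by rw [← map_pow, hz]; rfl) (by rw [← rs_inertia, ht']; exact h4) (by
        rw [h5, mul_div_assoc, ← mul_sub_one, map_mul, map_pow, η1, one_pow, one_mul] at hm
        simpa using hm) fun w hw _ => by rw [hT3 w hw]; simp
    rw [map_one, hc.xi_apply, ht', eq_comm, ofAdd_eq_one] at h6
    have h7 := hc.add _ (τ ^ m) (hq.unr h4) (hq.unr (pow_mem hτ m))
    rwa [inv_mul_cancel_right, h6, zero_add, hc.pow (hq.unr hτ)] at h7
  -- arithmetic of the exponents
  have hS : IsFr P (q ^ ρ.ker.index) (s ^ ρ.ker.index) := pow_act P hq.fr _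
  have hSk : s ^ ρ.ker.index ∈ ρ.ker := ρ.ker.pow_index_mem s
  obtain ⟨J, hJ⟩ := qv_dvd (K := Kf ρ) (pow_ne_zero _ hq.prime.ne_zero) hS fun x => x.2 ⟨_, hSk⟩
  obtain ⟨f', -, hf'⟩ := Place.exists_qv_eq (F := Kf ρ) P
  rw [hq.rchar] at hf'
  have hJ3 := not_three_dvd q1 hq.three h.idx (hf' ▸ hJ)
  obtain ⟨n, hn3⟩ : 3 ∣ P.qv (Kf ρ) - 1 := hf' ▸ hq.three.trans (Nat.sub_one_dvd_pow_sub_one q f')
  have h8 : IsPrimitiveRoot ((η ^ n) ^ J) 3 :=
    (hη.pow (Nat.pos_of_ne_zero n0) (hn3.trans (mul_comm _ _))).pow_of_coprime J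
      ((Nat.Prime.coprime_iff_not_dvd Nat.prime_three).2 hJ3).symm
  obtain ⟨b, hb, hb'⟩ := om_spec.eq_pow_of_pow_eq_one h8.pow_eq_one
  have hb2 : ((b * b : ℕ) : k) = 1 := by
    have h30 : (3 : k) = 0 := by exact_mod_cast CharP.cast_eq_zero k 3
    interval_cases b
    · exact absurd (hb'.symm.trans (pow_zero _)) (h8.ne_one (by norm_num))
    · simp
    · push_cast; linear_combination h30
  have hS' : IsFr P (3 * (n * J) + 1) (s ^ ρ.ker.index) := by
    have := Nat.one_le_pow ρ.ker.index q (by omega)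
    rwa [← mul_assoc, ← hn3, ← hJ, Nat.sub_add_cancel this]
  refine ⟨b • c τ, π, z, ?_, ?_, hπ, hz, fun h0 t ht _ => ?_, fun x hx hv => ?_⟩
  · rw [Matrix.trace_smul, hc.tr τ (hq.unr hτ), smul_zero]
  · have hsP : s • P = P := by
      rw [Place.smul_eq_iff]
      intro x hx
      have := P.ideal.add_mem (hq.fr x) (P.ideal.pow_mem_of_mem hx _ hq.prime.pos)
      rwa [sub_add_cancel] at this
    have h9 := ratio_congr hτ z0 (Place.v_smul_eq s⁻¹ P (by rw [inv_smul_eq_iff, hsP]) z)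
    rw [← Place.v_smul_eq s P hsP, smul_sub, ← hηd, Place.frob_root P hq.fr hn hη.pow_eq_one,
      AlgEquiv.smul_def, map_div₀, ← AlgEquiv.smul_def s (s⁻¹ • z), smul_inv_smul] at h9
    have h10 := L _ (conj_inertia hsP hτ) q h9
    obtain ⟨a, ha⟩ := hq.three
    have h11 : q • c τ = c τ := by
      rw [show q = 3 * a + 1 by omega, add_smul, one_smul, ← Nat.cast_smul_eq_nsmul k, Nat.cast_mul,
        CharP.cast_eq_zero, zero_mul, zero_smul, zero_add]
    rw [hc.conj s τ (hq.unr hτ), h11, Tw.conj_eq_iff] at h10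
    rw [mul_smul_comm, smul_mul_assoc, h10]
  · have h9 : (t z / z) ^ (P.qv (Kf ρ) - 1) = 1 := by
      rw [div_pow, ← map_pow, hz, hI t ht, div_self π0]
    have : NeZero (P.qv (Kf ρ) - 1) := ⟨n0⟩
    obtain ⟨m, -, hm⟩ := hη.eq_pow_of_pow_eq_one h9
    have h10 : c τ = 0 := by
      rw [← one_smul k (c τ), ← hb2, Nat.cast_smul_eq_nsmul, mul_smul, h0, smul_zero]
    rw [L t ht m (by rw [hm]; simp), h10, smul_zero]
  · obtain ⟨m, hm⟩ := exists_res hη n0 (v_fermat (K := Kf ρ) (x := ⟨x, fun n => hx n n.2⟩) hv)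
    have e : (τ ^ m) z / z = η ^ m := by rw [hτm, mul_div_cancel_right₀ _ z0]
    refine ⟨τ ^ m, pow_mem hτ m, by rw [e]; exact v_symm hm, ?_⟩
    rw [kum_res h3 hS' (hx _ hSk) hv (by rw [pow_mul, hb']) hm, hc.pow (hq.unr hτ),
      ← Nat.cast_smul_eq_nsmul k b, smul_smul, ← Nat.cast_mul, mul_right_comm, Nat.cast_mul, hb2,
      one_mul, Nat.cast_smul_eq_nsmul]

/-- a sum over a finite group of a function of the prime `g P` -/
theorem sum_fibre {G X A : Type} [Group G] [Fintype G] [DecidableEq X] [AddCommMonoid A]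
    (β : G → X) (hβ : ∀ a g h, β (a * g) = β (a * h) ↔ β g = β h) :
    ∃ n : ℕ, n ∣ Fintype.card G ∧
      ∀ F : X → A, ∑ g, F (β g) = n • ∑ x ∈ Finset.univ.image β, F x := by
  have key : ∀ x ∈ Finset.univ.image β,
      (Finset.univ.filter fun g => β g = x).card = (Finset.univ.filter fun g => β g = β 1).card := by
    intro x hx
    obtain ⟨a, -, rfl⟩ := Finset.mem_image.1 hx
    refine (Finset.card_equiv (Equiv.mulLeft a) fun g => ?_).symm
    simp only [Finset.mem_filter, Finset.mem_univ, true_and, Equiv.coe_mulLeft]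
    rw [← hβ a, mul_one]
  refine ⟨(Finset.univ.filter fun g => β g = β 1).card, ?_, fun F => ?_⟩
  · rw [← Finset.card_univ, Finset.card_eq_sum_card_image β Finset.univ, Finset.sum_congr rfl key,
      Finset.sum_const, smul_eq_mul]
    exact dvd_mul_left _ _
  · rw [Finset.sum_comp F β, Finset.smul_sum]
    exact Finset.sum_congr rfl fun x hx => by rw [key x hx]

omit [CharP k 3] in
theorem triv_smul (hc : Cls ρ c) {P : Place Om} (h : Triv ρ c (In P)) (g : Gam) :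
    Triv ρ c (In (g • P)) := fun t ht h1 => by
  have h2 : ρ (g⁻¹ * t * g) = 1 := (MonoidHom.normal_ker ρ).conj_mem' t h1 g
  have h3 := hc.conj g _ h2
  rw [h _ (fun x => by
    have := (Place.mem_smul_ideal g P _).1 (ht (g • x))
    rwa [smul_sub, inv_smul_smul, ← mul_smul, ← mul_smul] at this) h2] at h3
  simpa [mul_assoc] using h3

theorem zero1 (hA : ArtStmt) (hT : TameStmt) (h : Hyp ρ) {M : ℕ} (hM : M ≠ 0) {Q : Finset ℕ}
    {P : ℕ → Place Om} {s : ℕ → Gam} (hQ : ∀ q ∈ Q, TWq ρ q (P q) (s q) ∧ M < q)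
    (hi : Indep ρ M Q s) (hc : Cls ρ c) (hD : ∀ P : Place Om, P.rchar ∣ M → Triv ρ c (De P))
    (hI : ∀ P : Place Om, P.rchar ∉ Q → Triv ρ c (In P)) (P' : Place Om) : Triv ρ c (In P') := by
  classical
  have := nf_Kf h.opn
  have := tc_Kf h
  have := (facts ρ.ker h.opn).2.2
  have := Subgroup.quotient_finite_of_isOpen ρ.ker h.opn
  have := Fintype.ofFinite (Gam ⧸ ρ.ker)
  let β : ℕ → Gam ⧸ ρ.ker → Pr (Kf ρ) := fun q g => pr _ (g.out • P q)
  have hout : ∀ (g : Gam) (R : Place Om),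
      pr (Kf ρ) ((g : Gam ⧸ ρ.ker).out • R) = pr (Kf ρ) (g • R) := fun g R => by
    obtain ⟨n, hn⟩ := QuotientGroup.mk_out_eq_mul ρ.ker g
    obtain ⟨n', hn'⟩ := exists_rs_Kf h.opn n.2
    rw [hn, mul_smul, pr_congr, ← hn', rs_place, pr_smul]
  let T : Finset (Pr (Kf ρ)) := Q.biUnion fun q => Finset.univ.image (β q)
  have hrc : ∀ {R R' : Place Om}, pr (Kf ρ) R = pr (Kf ρ) R' → R.rchar = R'.rchar := fun e => by
    rw [← Place.rchar_res (Kf ρ), pr_eq_iff.1 e, Place.rchar_res]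
  have hmem : ∀ R : Place Om, pr (Kf ρ) R ∈ T ↔ R.rchar ∈ Q := fun R => by
    simp only [T, Finset.mem_biUnion, Finset.mem_image, Finset.mem_univ, true_and]
    refine ⟨fun ⟨q, hq, g, e⟩ => ?_, fun hq => ?_⟩
    · rwa [← hrc e, Place.rchar_smul, (hQ q hq).1.rchar]
    · obtain ⟨g, hg⟩ := Cheb.exists_smul_eq (hQ _ hq).1.rchar
      exact ⟨_, hq, g, (hout g _).trans (by rw [hg])⟩
  obtain ⟨f, h1, hav⟩ := exists_av T (hc.xi h.opn) fun R hR t ht =>
    congrArg Multiplicative.ofAdd (hI R (mt (hmem R).2 hR) _ ht (rho_rs h.opn t))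
  have hT3 : ∀ w ∈ T, w.valuation (Kf ρ) ((3 : ℕ) : Kf ρ) = 1 := fun w hw => by
    obtain ⟨R, rfl⟩ := exists_pr (E := Om) w
    rw [← (isEquiv_pr R).eq_one_iff_eq_one, Valuation.comap_apply, map_natCast,
      Place.v_natCast_eq_one_iff]
    intro e
    have := (hQ _ ((hmem R).1 hw)).1.three
    rw [(Nat.prime_dvd_prime_iff_eq R.rchar_prime Nat.prime_three).1 e] at this
    omega
  choose! w π z w1 w2 w3 w4 w5 w6 using fun q (hq : q ∈ Q) =>
    loc_tw hT h hc h1 hav hT3 (hQ q hq).1 ((hmem _).2 (by rwa [(hQ q hq).1.rchar]))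
  choose n n1 n2 using fun q => sum_fibre (A := M2 k) (β q) fun a g g' => by
    simp only [β]
    rw [← a.out_eq', ← g.out_eq', ← g'.out_eq', ← QuotientGroup.mk_mul, ← QuotientGroup.mk_mul,
      hout, hout, hout, hout, mul_smul, mul_smul, pr_congr]
  have n0 : ∀ q, (n q : k) ≠ 0 := fun q e => h.idx
    (((CharP.cast_eq_zero_iff k 3 _).1 e).trans (by
      rw [Subgroup.index_eq_card, Nat.card_eq_fintype_card]; exact n1 q))
  have key := hi (fun q => (n q : k)⁻¹ • w q) (fun q hq => ⟨by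
    rw [Matrix.trace_smul, w1 q hq, smul_zero], by
    rw [mul_smul_comm, smul_mul_assoc, w2 q hq]⟩) fun u hu => ?_
  · by_cases hP : P'.rchar ∈ Q
    · obtain ⟨g, hg⟩ := Cheb.exists_smul_eq (hQ _ hP).1.rchar
      exact hg ▸ triv_smul hc (w5 _ hP ((smul_eq_zero_iff_right (inv_ne_zero (n0 _))).1
        (key _ hP))) g
    · exact hI P' hP
  have hv : ∀ R : Place Om, R.rchar ∈ Q → R.v (u : Om) = 1 := fun R hR =>
    hu.2 R fun e => (hQ _ hR).2.not_ge (Nat.le_of_dvd (Nat.pos_of_ne_zero hM) e)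
  let u' : (Kf ρ)ˣ := Units.mk0 ⟨u, fun n => hu.1 n n.2⟩ fun e => u.ne_zero (congrArg Subtype.val e)
  obtain ⟨F, hF, hF'⟩ := prod_formula hA hT (hc.xi_open h.opn) three_ne_zero (hc.xi_pow _) h1 hav
    hT3 u' fun w hw => by
      obtain ⟨R, rfl⟩ := exists_pr (E := Om) w
      exact (isEquiv_pr R).eq_one_iff_eq_one.1 (hv R ((hmem R).1 hw))
  have hev : ev f u' = 1 := by
    rw [ev_congr (g := fun _ => 1) fun w hw => ?_]
    · simp [ev_apply]
    obtain ⟨R, rfl⟩ := exists_pr (E := Om) w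
    have hR : R.rchar ∣ M := by
      by_contra e
      exact hw ((ord_eq_zero_iff _ _).2 ((isEquiv_pr R).eq_one_iff_eq_one.1 (hu.2 R e)))
    by_cases hw' : pr (Kf ρ) R ∈ T
    · exact h1 _ hw'
    obtain ⟨φ, hφ⟩ := exists_isF (K := Kf ρ) R
    rw [← hav R hw' φ hφ]
    exact congrArg Multiplicative.ofAdd
      (hD R hR _ ((rs_place φ R).trans hφ.smul_eq) (rho_rs h.opn φ))
  have hq : ∀ q ∈ Q, av ρ (s q) ((n q : k)⁻¹ • w q) u =
      ∑ x ∈ Finset.univ.image (β q), (F x).toAdd := fun q hq => by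
    rw [← inv_smul_smul₀ (n0 q) (∑ x ∈ Finset.univ.image (β q), (F x).toAdd),
      Nat.cast_smul_eq_nsmul, ← n2, av, finsum_eq_sum_of_fintype, Finset.smul_sum]
    refine Finset.sum_congr rfl fun g _ => ?_
    have hr : (g.out • P q).rchar ∈ Q := by rwa [Place.rchar_smul, (hQ q hq).1.rchar]
    obtain ⟨t, t1, t2, t3⟩ := w6 q hq (g.out⁻¹ u) (Tw.fix_smul hu.1 _) (by
      rw [← Tw.v_smul_one g.out, ← AlgEquiv.mul_apply, mul_inv_cancel]
      exact hv _ hr)
    have t4 : ρ t = 1 := (hQ q hq).1.unr t1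
    obtain ⟨t', ht'⟩ := exists_rs_Kf h.opn ((MonoidHom.normal_ker ρ).conj_mem t t4 g.out)
    obtain ⟨π', p1, p2⟩ := exists_unif (Kf ρ) g.out (P q) (π q)
    have e := hF' (g.out • P q) π' (g.out (z q)) t' ((hmem _).2 hr) (p2.trans (w3 q hq)) (by
      rw [qv_smul, ← map_pow, ← map_pow, w4 q hq, ← p1]; rfl) (by
        rw [← rs_inertia, ht']
        intro x
        refine (Place.mem_smul_ideal g.out (P q) _).2 ?_
        rw [smul_sub, mul_smul, mul_smul, inv_smul_smul]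
        exact t1 _) (by
        rw [← Place.v_smul_smul_lt_one g.out, AlgEquiv.smul_def, map_sub, map_div₀,
          ← AlgEquiv.mul_apply g.out g.out⁻¹, mul_inv_cancel] at t2
        rw [← rs_apply, ht', AlgEquiv.mul_apply, AlgEquiv.mul_apply,
          ← AlgEquiv.mul_apply g.out⁻¹, inv_mul_cancel]
        exact t2)
    simp only [β]
    rw [e, hc.xi_apply, toAdd_ofAdd, ht', hc.conj _ _ t4, t3]
    simp only [mul_smul_comm, smul_mul_assoc]
    rw [smul_comm]
  rw [Finset.sum_congr rfl hq, ← Finset.sum_biUnion, ← toAdd_prod, ← hF, hev, toAdd_one]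
  intro q h2 q' h3 hne
  refine Finset.disjoint_left.2 fun x hx hx' => hne ?_
  obtain ⟨g, -, rfl⟩ := Finset.mem_image.1 hx
  obtain ⟨g', -, e⟩ := Finset.mem_image.1 hx'
  have := hrc e
  rwa [Place.rchar_smul, Place.rchar_smul, (hQ q h2).1.rchar, (hQ q' h3).1.rchar, eq_comm] at this

end Crest.Agent.T15.Zr
end
end

-- ▼ part T15/Zer2_6
section

/-!
# Row 15, block C (helper6): everywhere unramified classes that are trivial above `M` vanish
-/

set_option autoImplicit false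

noncomputable section

namespace Crest.Agent.T15.C

open NumberField IsDedekindDomain Crest.Agent.R018.Placesx484 Crest.Agent.T15.Ps
  Crest.Agent.T15.Art Crest.Agent.T15.Ex
open scoped nonZeroDivisors

theorem evI_eq_one {K : Type*} [Field K] [NumberField K] {A : Type*} [CommGroup A]
    (f : Pr K → A) (I : Ideal (𝓞 K)) (h : ∀ w : Pr K, w.asIdeal ∣ I → f w = 1) (hI : I ≠ ⊥) :
    evI f I = 1 := by
  induction I using UniqueFactorizationMonoid.induction_on_prime with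
  | h₁ => exact absurd rfl hI
  | h₂ I hu => rw [Ideal.isUnit_iff.1 hu, evI_top]
  | h₃ I P hI0 hP ih =>
    let W : Pr K := ⟨P, Ideal.isPrime_of_prime hP, hP.ne_zero⟩
    rw [evI_mul _ hP.ne_zero hI0, ih (fun w hw => h w (hw.mul_left _)) hI0, mul_one]
    exact (evI_prime f W).trans (h W (dvd_mul_right _ _))

/-- the primes dividing a suitable `M` generate the class group -/
theorem exists_gen (K : Type*) [Field K] [NumberField K] :
    ∃ M : ℕ, M ≠ 0 ∧ ∀ (A : Type) [CommGroup A] (f : Pr K → A), (∀ a : Kˣ, ev f a = 1) →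
      (∀ w : Pr K, (M : 𝓞 K) ∈ w.asIdeal → f w = 1) → ∀ w, f w = 1 := by
  classical
  choose J hJ using ClassGroup.mk0_surjective (R := 𝓞 K)
  refine ⟨∏ C : ClassGroup (𝓞 K), Ideal.absNorm (J C : Ideal (𝓞 K)),
    Finset.prod_ne_zero_iff.2 fun C _ => ?_, fun A _ f ha hM w => ?_⟩
  · exact mt Ideal.absNorm_eq_zero_iff.1 (nonZeroDivisors.coe_ne_zero (J C))
  · let W : (Ideal (𝓞 K))⁰ := ⟨w.asIdeal, mem_nonZeroDivisors_of_ne_zero w.ne_bot⟩
    obtain ⟨x, hx, h⟩ := ClassGroup.mk0_eq_mk0_inv_iff.1 (hJ (ClassGroup.mk0 W)⁻¹)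
    have h0 := nonZeroDivisors.coe_ne_zero (J (ClassGroup.mk0 W)⁻¹)
    have h1 := ev_int f (Units.mk0 (x : K) (by exact_mod_cast hx)) x rfl
    rw [ha, ← h, evI_mul f h0 w.ne_bot, evI_prime, evI_eq_one f _ (fun v hv => hM v ?_) h0,
      one_mul] at h1
    · exact h1.symm
    · obtain ⟨m, hm⟩ := Finset.dvd_prod_of_mem
        (fun C : ClassGroup (𝓞 K) => Ideal.absNorm (J C : Ideal (𝓞 K)))
        (Finset.mem_univ (ClassGroup.mk0 W)⁻¹)
      rw [hm, Nat.cast_mul]
      exact Ideal.mul_mem_right _ _ (Ideal.le_of_dvd hv (Ideal.absNorm_mem _))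

theorem zero2 (hA : ArtStmt) {k : Type} [Field k] [CharP k 3] {ρ : Gam →* M2 k} (h : Hyp ρ) :
    ∃ M : ℕ, M ≠ 0 ∧ 3 ∣ M ∧ ∀ c, Cls ρ c → (∀ P : Place Om, P.rchar ∣ M → Triv ρ c (De P)) →
      (∀ P : Place Om, Triv ρ c (In P)) → Triv ρ c ⊤ := by
  have := nf_Kf h.opn
  have := tc_Kf h
  obtain ⟨M, hM, H⟩ := exists_gen (Kf ρ)
  refine ⟨3 * M, by omega, dvd_mul_right _ _, fun c hc hD hI n _ hn => ?_⟩
  obtain ⟨f, hf1, hf⟩ := exists_av ∅ (hc.xi h.opn) fun P _ g hg =>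
    congrArg Multiplicative.ofAdd (hI P _ ((rs_inertia g P).2 hg) (rho_rs h.opn g))
  have h1 := H _ f (fun a => artin_av hA (hc.xi_open h.opn) three_ne_zero (hc.xi_pow h.opn) hf1 hf a
    (by simp)) fun w hw => by
      obtain ⟨P, rfl⟩ := exists_pr (E := Om) w
      obtain ⟨φ, hφ⟩ := exists_isF (K := Kf ρ) P
      rw [← hf P (by simp) φ hφ]
      have hP : P.rchar ∣ M := by
        rw [← Place.natCast_mem_iff, ← map_natCast (algebraMap (𝓞 (Kf ρ)) (𝓞 Om))]
        exact (Place.mem_res _ P _).1 hw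
      exact congrArg Multiplicative.ofAdd (hD P (hP.mul_left 3) _
        ((rs_place φ P).trans hφ.smul_eq) (rho_rs h.opn φ))
  obtain ⟨g, rfl⟩ := exists_rs_Kf h.opn hn
  obtain ⟨P, φ, h2, h3, h4⟩ := cheb_av (hc.xi h.opn) (hc.xi_open h.opn) ∅ g
  rw [hf P h2 φ h3, h1] at h4
  exact h4.symm

end Crest.Agent.T15.C
end
end

-- ▼ part T15/PrAPf_15

/-! # Row 15, block L: `APStmt` is `S0068` (helper15) -/

namespace Crest.Agent.T15.PrAP

theorem apStmt : APStmt := Crest.Agent.S0068.result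

end Crest.Agent.T15.PrAP
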