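import Mathlib
import Crest.Agent.T15.Inj_71
import Crest.Agent.T15.MfB_79

-- ▼ part T15/CgA_84
section

/-!
# Row 15, block T: Frobenius on Hahn series (helper84)

`(x ^ p).coeff (p • g) = (x.coeff g) ^ p` in characteristic `p`.
-/

set_option autoImplicit false

noncomputable section

namespace Crest.Agent.T15.Cg

open HahnSeries Pointwise

section gen
variable {Γ R : Type*} [AddCommGroup Γ] [LinearOrder Γ] [IsOrderedAddMonoid Γ] [CommRing R]

lemma isPWO_nsmul {s : Set Γ} (hs : s.IsPWO) : ∀ n : ℕ, (n • s).IsPWO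
  | 0 => by rw [zero_nsmul]; exact (Set.finite_singleton 0).isPWO
  | n + 1 => by rw [succ_nsmul]; exact (isPWO_nsmul hs n).add hs

lemma support_pow_subset {s : Set Γ} {z : HahnSeries Γ R} (hz : z.support ⊆ s) :
    ∀ n : ℕ, (z ^ n).support ⊆ n • s
  | 0 => by
      rw [pow_zero, zero_nsmul]
      exact support_single_subset
  | n + 1 => by
      rw [pow_succ, succ_nsmul]
      exact support_mul_subset.trans (Set.add_subset_add (support_pow_subset hz n) hz)

lemma charP_hahn (p : ℕ) [CharP R p] : CharP (HahnSeries Γ R) p :=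
  charP_of_injective_ringHom (C_injective (Γ := Γ) (R := R)) p

/-- the coefficients of a `p`-th power in characteristic `p` -/
theorem coeff_pow_char' (p : ℕ) [hp : Fact p.Prime] [CharP R p] (x : HahnSeries Γ R) (g : Γ) :
    ∃ S : Finset Γ, (∀ a, x.coeff a ≠ 0 → p • a = g → a ∈ S) ∧
      (x ^ p).coeff g = ∑ a ∈ S, if g = p • a then x.coeff a ^ p else 0 := by
  classical
  have := charP_hahn (Γ := Γ) (R := R) p
  obtain ⟨m, hm⟩ : ∃ m, p = m + 1 := ⟨p - 1, (Nat.sub_add_cancel hp.1.one_le).symm⟩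
  let A := Finset.antidiagonal (isPWO_nsmul x.isPWO_support m) x.isPWO_support g
  let S : Finset Γ := A.image Prod.snd
  let y : HahnSeries Γ R := ∑ a ∈ S, single a (x.coeff a)
  have hy : ∀ b, y.coeff b = if b ∈ S then x.coeff b else 0 := fun b => by
    simp only [y, coeff_sum, coeff_single]
    convert Finset.sum_ite_eq S b fun a => x.coeff a
  have hz : ∀ b, (x - y).coeff b = if b ∈ S then 0 else x.coeff b := fun b => by
    rw [coeff_sub, hy]; split_ifs <;> simp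
  have hzs : (x - y).support ⊆ x.support := fun b hb => by
    rw [mem_support, hz] at hb
    split_ifs at hb with h
    · exact absurd rfl hb
    · exact hb
  have h0 : ((x - y) ^ p).coeff g = 0 := by
    rw [hm, pow_succ, coeff_mul]
    refine Finset.sum_eq_zero fun ij hij => ?_
    rw [Finset.mem_antidiagonal] at hij
    have : ij.2 ∈ S := Finset.mem_image.2 ⟨ij, Finset.mem_antidiagonal.2
      ⟨support_pow_subset hzs m hij.1, hzs hij.2.1, hij.2.2⟩, rfl⟩
    rw [hz, if_pos this, mul_zero]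
  refine ⟨S, fun a ha hag => Finset.mem_image.2 ⟨(m • a, a), Finset.mem_antidiagonal.2
    ⟨Set.nsmul_mem_nsmul ha, ha, by rw [← hag, hm, succ_nsmul]⟩, rfl⟩, ?_⟩
  have e : x ^ p = y ^ p + (x - y) ^ p := by rw [← add_pow_char]; congr 1; ring
  rw [e, coeff_add, h0, add_zero, sum_pow_char, coeff_sum]
  refine Finset.sum_congr rfl fun a _ => ?_
  rw [single_pow, coeff_single]
  congr

theorem coeff_pow_char_nsmul (p : ℕ) [hp : Fact p.Prime] [CharP R p] (x : HahnSeries Γ R)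
    (a : Γ) : (x ^ p).coeff (p • a) = x.coeff a ^ p := by
  classical
  obtain ⟨S, h1, h2⟩ := coeff_pow_char' p x (p • a)
  have hi : ∀ b : Γ, p • a = p • b ↔ a = b := fun b => nsmul_right_inj hp.1.ne_zero
  rw [h2]
  simp only [hi, Finset.sum_ite_eq]
  split_ifs with h
  · rfl
  · by_contra h3
    refine h (h1 a (fun h4 => h3 ?_) rfl)
    rw [h4, zero_pow hp.1.ne_zero]

end gen

/-- Frobenius on Hahn series with rational exponents -/
theorem coeff_pow_char {R : Type*} [CommRing R] (p : ℕ) [hp : Fact p.Prime] [CharP R p]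
    (x : HahnSeries ℚ R) (g : ℚ) : (x ^ p).coeff g = x.coeff (g / p) ^ p := by
  have h : (p : ℚ) ≠ 0 := Nat.cast_ne_zero.2 hp.1.ne_zero
  rw [← coeff_pow_char_nsmul p x (g / p), nsmul_eq_mul, mul_div_cancel₀ _ h]

end Crest.Agent.T15.Cg

end
end

-- ▼ part T15/CgC_84
section

/-!
# Row 15, block T: the congruence relation on `q`-expansions (helper84)

* `IntS`, `UnS` integral / primitive Hahn series, `rd` coefficientwise reduction;
* `Pr v x` : `x ∈ Cˣ · (1 + 𝔪)` for the Gauss norm;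
* `pr_T`, `pr_V`, `pr_I` : `∏ f((z+i)/l) ~ σ f`, `f(lz) ~ (σ⁻¹ f)^l`, `τ f ~ f`;
* `IsG v qx w` : `w` is the Gauss norm of the expansion `qx`; `pow_of_pr`.
-/

set_option autoImplicit false
set_option linter.unusedSectionVars false

noncomputable section

namespace Crest.Agent.T15.Cg

open HahnSeries
open scoped NNReal
open Crest.Agent.R013.GR4_921 Crest.Agent.R013.RR7_948 Crest.Agent.R013.RR8_948
open Crest.Agent.R013.RR9_948 Crest.Agent.R013.RR11_948 Crest.Agent.R013.RR12_948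

section hahn

variable {K k : Type*} [Field K] [Field k] {v : Valuation K ℝ≥0} {r : K → k}

/-- integral coefficients -/
def IntS (v : Valuation K ℝ≥0) (x : HahnSeries ℚ K) : Prop := ∀ g, v (x.coeff g) ≤ 1

/-- integral coefficients, one of them a unit -/
def UnS (v : Valuation K ℝ≥0) (x : HahnSeries ℚ K) : Prop := IntS v x ∧ ∃ g, v (x.coeff g) = 1

lemma IntS.mul {x y : HahnSeries ℚ K} (hx : IntS v x) (hy : IntS v y) : IntS v (x * y) := fun g => by
  rw [coeff_mul]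
  exact Valuation.map_sum_le _ fun ij _ => by rw [map_mul]; exact mul_le_one' (hx _) (hy _)

lemma IntS.sub {x y : HahnSeries ℚ K} (hx : IntS v x) (hy : IntS v y) : IntS v (x - y) := fun g => by
  rw [coeff_sub]
  exact (Valuation.map_sub _ _ _).trans (max_le (hx g) (hy g))

lemma IntS.one : IntS v (1 : HahnSeries ℚ K) := fun g => by
  rw [coeff_one]; split_ifs <;> simp

lemma IntS.prod {ι : Type*} (s : Finset ι) {x : ι → HahnSeries ℚ K} (hx : ∀ i ∈ s, IntS v (x i)) :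
    IntS v (∏ i ∈ s, x i) :=
  Finset.prod_induction x (IntS v) (fun _ _ => IntS.mul) IntS.one hx

lemma IntS.pow {x : HahnSeries ℚ K} (hx : IntS v x) (n : ℕ) : IntS v (x ^ n) := by
  induction n with
  | zero => rw [pow_zero]; exact IntS.one
  | succ n ih => rw [pow_succ]; exact ih.mul hx

lemma le_one_of_sub_lt {a b : K} (h : v (a - b) < 1) (hb : v b ≤ 1) : v a ≤ 1 := by
  rw [← sub_add_cancel a b]
  exact (Valuation.map_add _ _ _).trans (max_le h.le hb)

/-- coefficientwise reduction -/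
def rd (h : IsRes v r) (x : HahnSeries ℚ K) : HahnSeries ℚ k where
  coeff g := r (x.coeff g)
  isPWO_support' := x.isPWO_support.mono fun g hg h0 => hg (by beta_reduce; rw [h0, h.zero])

variable (h : IsRes v r)

lemma rd_coeff (x : HahnSeries ℚ K) (g : ℚ) : (rd h x).coeff g = r (x.coeff g) := rfl

lemma rd_mul {x y : HahnSeries ℚ K} (hx : IntS v x) (hy : IntS v y) :
    rd h (x * y) = rd h x * rd h y := by
  ext g
  rw [rd_coeff, coeff_mul, coeff_mul,
    h.sum _ _ fun ij _ => by rw [map_mul]; exact mul_le_one' (hx _) (hy _)]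
  simp only [h.mul _ _ (hx _) (hy _), rd_coeff]
  refine (Finset.sum_subset (fun ij hij => ?_) fun ij hij hn => ?_).symm
  · rw [Finset.mem_antidiagonal] at hij ⊢
    exact ⟨fun h0 => hij.1 (by rw [rd_coeff, h0, h.zero]),
      fun h0 => hij.2.1 (by rw [rd_coeff, h0, h.zero]), hij.2.2⟩
  · rw [Finset.mem_antidiagonal] at hij hn
    by_contra h0
    exact hn ⟨left_ne_zero_of_mul h0, right_ne_zero_of_mul h0, hij.2.2⟩

lemma rd_one : rd h (1 : HahnSeries ℚ K) = 1 := by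
  ext g
  rw [rd_coeff, coeff_one, coeff_one]
  split_ifs
  · exact h.one
  · exact h.zero

lemma rd_prod {ι : Type*} (s : Finset ι) {x : ι → HahnSeries ℚ K} (hx : ∀ i ∈ s, IntS v (x i)) :
    rd h (∏ i ∈ s, x i) = ∏ i ∈ s, rd h (x i) := by
  classical
  induction s using Finset.induction_on with
  | empty => simp [rd_one]
  | insert a s ha ih =>
    rw [Finset.prod_insert ha, Finset.prod_insert ha, rd_mul h (hx a (by simp))
      (IntS.prod s fun i hi => hx i (by simp [hi])), ih fun i hi => hx i (by simp [hi])]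

lemma rd_pow {x : HahnSeries ℚ K} (hx : IntS v x) (n : ℕ) : rd h (x ^ n) = rd h x ^ n := by
  induction n with
  | zero => rw [pow_zero, pow_zero, rd_one]
  | succ n ih => rw [pow_succ, pow_succ, rd_mul h (hx.pow n) hx, ih]

lemma rd_eq_iff {x y : HahnSeries ℚ K} (hx : IntS v x) (hy : IntS v y) :
    rd h x = rd h y ↔ ∀ g, v (x.coeff g - y.coeff g) < 1 := by
  rw [HahnSeries.ext_iff, funext_iff]
  exact forall_congr' fun g => h.eq_iff (hx g) (hy g)

lemma unS_iff {x : HahnSeries ℚ K} : UnS v x ↔ IntS v x ∧ rd h x ≠ 0 := by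
  refine and_congr_right fun hx => ?_
  rw [Ne, HahnSeries.ext_iff, funext_iff, not_forall]
  exact exists_congr fun g => (h.ne_zero_iff (hx g)).symm

end hahn

section pr

variable {K : Type*} [Field K] {v : Valuation K ℝ≥0}

lemma UnS.mul {x y : HahnSeries ℚ K} (hx : UnS v x) (hy : UnS v y) : UnS v (x * y) := by
  obtain ⟨r, h, -⟩ := exists_isRes v
  rw [unS_iff h] at hx hy ⊢
  exact ⟨hx.1.mul hy.1, by rw [rd_mul h hx.1 hy.1]; exact mul_ne_zero hx.2 hy.2⟩

lemma UnS.one : UnS v (1 : HahnSeries ℚ K) := ⟨IntS.one, 0, by simp⟩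

lemma UnS.ne_zero {x : HahnSeries ℚ K} (hx : UnS v x) : x ≠ 0 := by
  rintro rfl
  obtain ⟨g, hg⟩ := hx.2
  simp at hg

/-- congruence modulo the maximal ideal -/
def Cgr (v : Valuation K ℝ≥0) (x y : HahnSeries ℚ K) : Prop := ∀ g, v (x.coeff g - y.coeff g) < 1

lemma Cgr.int {x y : HahnSeries ℚ K} (h : Cgr v x y) (hy : IntS v y) : IntS v x :=
  fun g => le_one_of_sub_lt (h g) (hy g)

lemma Cgr.symm {x y : HahnSeries ℚ K} (h : Cgr v x y) : Cgr v y x :=
  fun g => by rw [Valuation.map_sub_swap]; exact h g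

lemma Cgr.un {x y : HahnSeries ℚ K} (h : Cgr v x y) (hy : UnS v y) : UnS v x := by
  obtain ⟨r, hr, -⟩ := exists_isRes v
  have hx := h.int hy.1
  rw [unS_iff hr] at hy ⊢
  exact ⟨hx, by rw [(rd_eq_iff hr hx hy.1).2 h]; exact hy.2⟩

lemma Cgr.mul {x y x' y' : HahnSeries ℚ K} (h : Cgr v x y) (h' : Cgr v x' y') (hy : IntS v y)
    (hy' : IntS v y') : Cgr v (x * x') (y * y') := by
  obtain ⟨r, hr, -⟩ := exists_isRes v
  have hx := h.int hy
  have hx' := h'.int hy'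
  refine (rd_eq_iff hr (hx.mul hx') (hy.mul hy')).1 ?_
  rw [rd_mul hr hx hx', rd_mul hr hy hy', (rd_eq_iff hr hx hy).2 h, (rd_eq_iff hr hx' hy').2 h']

/-- `x ∈ Kˣ · (1 + 𝔪)` -/
def Pr (v : Valuation K ℝ≥0) (x : HahnSeries ℚ K) : Prop :=
  ∃ (c : K) (a b : HahnSeries ℚ K), c ≠ 0 ∧ UnS v b ∧ Cgr v a b ∧ x * b = C c * a

lemma Pr.mul {x y : HahnSeries ℚ K} (hx : Pr v x) (hy : Pr v y) : Pr v (x * y) := by
  obtain ⟨c, a, b, hc, hb, hab, e⟩ := hx
  obtain ⟨c', a', b', hc', hb', hab', e'⟩ := hy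
  refine ⟨c * c', a * a', b * b', mul_ne_zero hc hc', hb.mul hb', hab.mul hab' hb.1 hb'.1, ?_⟩
  rw [map_mul]
  linear_combination (y * b') * e + (C c * a) * e'

/-- two quotients with congruent numerators and denominators -/
lemma pr_div {x y a b a' b' : HahnSeries ℚ K} {c c' : K} (hc : c ≠ 0) (hc' : c' ≠ 0)
    (ha' : UnS v a') (hb' : UnS v b') (ha : Cgr v a a') (hb : Cgr v b b')
    (e : x * b = C c * a) (e' : y * b' = C c' * a') : Pr v (x / y) := by
  have hC : (C c' : HahnSeries ℚ K) ≠ 0 := by simpa using hc'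
  have hy : y ≠ 0 := by
    rintro rfl
    rw [zero_mul] at e'
    exact mul_ne_zero hC ha'.ne_zero e'.symm
  refine ⟨c / c', a * b', a' * b, div_ne_zero hc hc', ha'.mul (hb.un hb'),
    ha.mul hb.symm ha'.1 (hb.un hb').1, ?_⟩
  rw [map_div₀]
  field_simp
  linear_combination (a' * C c') * e - (C c * a) * e'

lemma charP_res {k : Type*} [Field k] {r : K → k} (h : IsRes v r) {l : ℕ} (hl : l.Prime)
    (hv : v (l : K) < 1) : CharP k l := by
  have h1 : ∀ n : ℕ, v (n : K) ≤ 1 ∧ r (n : K) = n := fun n => by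
    induction n with
    | zero => simp [h.zero]
    | succ n ih =>
      rw [Nat.cast_succ, Nat.cast_succ, h.add _ _ ih.1 (by simp), ih.2, h.one]
      exact ⟨(Valuation.map_add _ _ _).trans (max_le ih.1 (by simp)), rfl⟩
  exact (CharP.charP_iff_prime_eq_zero hl).2
    (by rw [← (h1 l).2]; exact (h.zero_iff _ hv.le).2 hv)

/-- `∏ a((z+i)/l) ≡ Frob a` -/
lemma cgr_T {l : ℕ} (hl : l.Prime) (hv : v (l : K) < 1) {ι : Type*} [Fintype ι]
    (hι : Fintype.card ι = l) {a a' : HahnSeries ℚ K} (ha : IntS v a) {A : ι → HahnSeries ℚ K}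
    (hA : ∀ i g, v ((A i).coeff g - a.coeff (l * g)) < 1)
    (ha' : ∀ g, v (a'.coeff g - a.coeff g ^ l) < 1) : Cgr v (∏ i, A i) a' := by
  obtain ⟨r, h, -⟩ := exists_isRes v
  have := charP_res h hl hv
  have : Fact l.Prime := ⟨hl⟩
  have hp : ∀ g, v (a.coeff g ^ l) ≤ 1 := fun g => by rw [map_pow]; exact pow_le_one' (ha g) l
  have hAi : ∀ i, IntS v (A i) := fun i g => le_one_of_sub_lt (hA i g) (ha _)
  have hai : IntS v a' := fun g => le_one_of_sub_lt (ha' g) (hp g)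
  obtain ⟨i0⟩ : Nonempty ι := Fintype.card_pos_iff.1 (hι ▸ hl.pos)
  have h1 : ∀ i g, (rd h (A i)).coeff g = r (a.coeff (l * g)) := fun i g =>
    (h.eq_iff (hAi i g) (ha _)).2 (hA i g)
  have h2 : ∀ i, rd h (A i) = rd h (A i0) := fun i => by ext g; rw [h1, h1]
  refine (rd_eq_iff h (IntS.prod _ fun i _ => hAi i) hai).1 ?_
  rw [rd_prod h _ fun i _ => hAi i]
  simp only [h2, Finset.prod_const, Finset.card_univ, hι]
  ext g
  rw [coeff_pow_char, h1, mul_div_cancel₀ _ (Nat.cast_ne_zero.2 hl.ne_zero), rd_coeff,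
    ← h.pow (ha g)]
  exact ((h.eq_iff (hai g) (hp g)).2 (ha' g)).symm

/-- `a(lz) ≡ (Frob⁻¹ a)^l` -/
lemma cgr_V {l : ℕ} (hl : l.Prime) (hv : v (l : K) < 1) {A a' : HahnSeries ℚ K} (ha' : IntS v a')
    (hA : ∀ g, v (A.coeff g - a'.coeff (g / l) ^ l) < 1) : Cgr v A (a' ^ l) := by
  obtain ⟨r, h, -⟩ := exists_isRes v
  have := charP_res h hl hv
  have : Fact l.Prime := ⟨hl⟩
  have hp : ∀ g, v (a'.coeff g ^ l) ≤ 1 := fun g => by rw [map_pow]; exact pow_le_one' (ha' g) l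
  have hAi : IntS v A := fun g => le_one_of_sub_lt (hA g) (hp _)
  refine (rd_eq_iff h hAi (ha'.pow l)).1 ?_
  rw [rd_pow h ha']
  ext g
  rw [coeff_pow_char, rd_coeff, rd_coeff, ← h.pow (ha' _)]
  exact (h.eq_iff (hAi g) (hp _)).2 (hA g)

lemma UnS.pow {x : HahnSeries ℚ K} (hx : UnS v x) (n : ℕ) : UnS v (x ^ n) := by
  induction n with
  | zero => rw [pow_zero]; exact UnS.one
  | succ n ih => rw [pow_succ]; exact ih.mul hx

lemma UnS.of_eq {x y : HahnSeries ℚ K} (hx : UnS v x) (h : ∀ g, v (y.coeff g) = v (x.coeff g)) :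
    UnS v y := ⟨fun g => (h g).trans_le (hx.1 g), hx.2.imp fun g hg => (h g).trans hg⟩

/-- `∏ f((z+i)/l) ~ σ f` -/
theorem pr_T {l : ℕ} (hl : l.Prime) (hv : v (l : K) < 1) {ι : Type*} [Fintype ι]
    (hι : Fintype.card ι = l) {σ : K → K} (hσv : ∀ c, v (σ c) = v c)
    (hσ : ∀ c, v c ≤ 1 → v (σ c - c ^ l) < 1)
    {a b a' b' x' : HahnSeries ℚ K} (ha : UnS v a) (hb : UnS v b) {A B X : ι → HahnSeries ℚ K}
    (hA : ∀ i g, v ((A i).coeff g - a.coeff (l * g)) < 1)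
    (hB : ∀ i g, v ((B i).coeff g - b.coeff (l * g)) < 1)
    (ha' : ∀ g, a'.coeff g = σ (a.coeff g)) (hb' : ∀ g, b'.coeff g = σ (b.coeff g))
    {c c' : K} (hc : c ≠ 0) (hc' : c' ≠ 0) (e : ∀ i, X i * B i = C c * A i)
    (e' : x' * b' = C c' * a') : Pr v ((∏ i, X i) / x') := by
  refine pr_div (pow_ne_zero l hc) hc' (ha.of_eq fun g => by rw [ha', hσv])
    (hb.of_eq fun g => by rw [hb', hσv])
    (cgr_T hl hv hι ha.1 hA fun g => by rw [ha']; exact hσ _ (ha.1 g))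
    (cgr_T hl hv hι hb.1 hB fun g => by rw [hb']; exact hσ _ (hb.1 g)) ?_ e'
  rw [← Finset.prod_mul_distrib]
  simp only [e, Finset.prod_mul_distrib, Finset.prod_const, Finset.card_univ, hι, map_pow]

/-- `f(lz) ~ (σ⁻¹ f)^l` -/
theorem pr_V {l : ℕ} (hl : l.Prime) (hv : v (l : K) < 1) {σ : K → K} (hσv : ∀ c, v (σ c) = v c)
    (hσ : ∀ c, v c ≤ 1 → v (σ c - c ^ l) < 1)
    {a b a' b' x' A B X : HahnSeries ℚ K} (ha : UnS v a) (hb : UnS v b)
    (hA : ∀ g, A.coeff g = a.coeff (g / l)) (hB : ∀ g, B.coeff g = b.coeff (g / l))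
    (ha' : ∀ g, σ (a'.coeff g) = a.coeff g) (hb' : ∀ g, σ (b'.coeff g) = b.coeff g)
    {c c' : K} (hc : c ≠ 0) (hc' : c' ≠ 0) (e : X * B = C c * A)
    (e' : x' * b' = C c' * a') : Pr v (X / x' ^ l) := by
  have h1 : UnS v a' := ha.of_eq fun g => by rw [← ha', hσv]
  have h2 : UnS v b' := hb.of_eq fun g => by rw [← hb', hσv]
  refine pr_div hc (pow_ne_zero l hc') (h1.pow l) (h2.pow l)
    (cgr_V hl hv h1.1 fun g => by rw [hA, ← ha']; exact hσ _ (h1.1 _))
    (cgr_V hl hv h2.1 fun g => by rw [hB, ← hb']; exact hσ _ (h2.1 _)) e ?_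
  rw [← mul_pow, e', mul_pow, map_pow]

/-- `τ f ~ f` -/
theorem pr_I {τ : K → K} (hτ : ∀ c, v c ≤ 1 → v (τ c - c) < 1)
    {a b a' b' x x' : HahnSeries ℚ K} (ha : UnS v a) (hb : UnS v b)
    (ha' : ∀ g, a'.coeff g = τ (a.coeff g)) (hb' : ∀ g, b'.coeff g = τ (b.coeff g))
    {c c' : K} (hc : c ≠ 0) (hc' : c' ≠ 0) (e : x * b = C c * a) (e' : x' * b' = C c' * a') :
    Pr v (x' / x) :=
  pr_div hc' hc ha hb (fun g => by rw [ha']; exact hτ _ (ha.1 g))
    (fun g => by rw [hb']; exact hτ _ (hb.1 g)) e' e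

variable {L : Type*} [Field L]

/-- `w` is the Gauss norm of the expansion `qx` -/
def IsG (v : Valuation K ℝ≥0) (qx : L →+* HahnSeries ℚ K) (w : Valuation L ℝ≥0) : Prop :=
  ∀ f : L, f ≠ 0 → ∃ (c : K) (a b : HahnSeries ℚ K), UnS v a ∧ UnS v b ∧ qx f * b = C c * a ∧
    w f = v c

lemma IsG.lt_one {qx : L →+* HahnSeries ℚ K} {w : Valuation L ℝ≥0} (h : IsG v qx w) {f : L}
    {a b : HahnSeries ℚ K} (hb : UnS v b) (ha : ∀ g, v (a.coeff g) < 1) (e : qx f * b = a) :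
    w f < 1 := by
  by_cases hf : f = 0
  · simp [hf]
  obtain ⟨c, a', b', ha', hb', e', hw⟩ := h f hf
  obtain ⟨g, hg⟩ := (ha'.mul hb).2
  have h1 : C c * (a' * b) = a * b' := by linear_combination b' * e - b * e'
  have h2 : Cgr v (a * b') (0 * b') :=
    Cgr.mul (fun g => by simpa using ha g) (fun g => by simp) (fun g => by simp) hb'.1
  have h3 := h2 g
  rw [← h1, zero_mul, coeff_zero, sub_zero, C_mul_eq_smul, coeff_smul, smul_eq_mul, map_mul, hg,
    mul_one] at h3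
  rwa [hw]

lemma IsG.of_pr [Algebra K L] {qx : L →+* HahnSeries ℚ K} {w : Valuation L ℝ≥0} (h : IsG v qx w)
    (hq : ∀ c, qx (algebraMap K L c) = C c) {f : L} (hf : Pr v (qx f)) :
    ∃ c : K, c ≠ 0 ∧ w (f * algebraMap K L c⁻¹ - 1) < 1 := by
  obtain ⟨c, a, b, hc, hb, hab, e⟩ := hf
  refine ⟨c, hc, h.lt_one hb (a := a - b) (fun g => by rw [coeff_sub]; exact hab g) ?_⟩
  have hC : (C c : HahnSeries ℚ K) ≠ 0 := by simpa using hc
  rw [map_sub, map_mul, hq, map_one, map_inv₀]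
  field_simp
  linear_combination e

end pr

section good

variable {K : Type*} [Field K] [IsAlgClosed K] [CharZero K] {L : Type*} [Field L] [Algebra K L]
  [Algebra (RatFunc K) L] [IsScalarTower K (RatFunc K) L] [FiniteDimensional (RatFunc K) L]
  {k κ : Type*} [Field k] [IsAlgClosed k] [Field κ] [Algebra k κ]
  [Algebra (RatFunc k) κ] [IsScalarTower k (RatFunc k) κ] [FiniteDimensional (RatFunc k) κ]
  [Algebra.IsSeparable (RatFunc k) κ]
  {v : Valuation K ℝ≥0} {r : K → k} {w : Valuation L ℝ≥0} {ρ : L → κ} {sp : Pl K L → Pl k κ}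

/-- a Kummer class which is `1` modulo the maximal ideal is trivial -/
theorem pow_of_lt (h : Disc.Good v r w ρ sp) {n : ℕ} (hn : (n : k) ≠ 0) {f : L} {c : K}
    (hc : c ≠ 0) (hw : w (f * algebraMap K L c⁻¹ - 1) < 1) (S : Set (Pl K L))
    (hS : Set.InjOn sp S) (hdiv : ∀ P, P ∉ S → (n : ℤ) ∣ divf (k := K) f P) :
    ∃ g : L, f = g ^ n := by
  have hn0 : n ≠ 0 := by rintro rfl; simp at hn
  have h1 : w (f * algebraMap K L c⁻¹) = 1 := by
    have := Valuation.map_add_eq_of_lt_right w (x := f * algebraMap K L c⁻¹ - 1) (y := 1)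
      (by simpa using hw)
    simpa using this
  have hf : f ≠ 0 := by rintro rfl; simp at h1
  have h2 : ρ (f * algebraMap K L c⁻¹) = 1 ^ n := by
    rw [one_pow, ← h.rd.res.one]
    exact (h.rd.res.eq_iff h1.le (by simp)).2 hw
  obtain ⟨g, hg⟩ := h.inj_pow hn h1 S hS (fun P hP => by
    rw [divf_mul hf (by simpa using hc), Disc.divf_const (inv_ne_zero hc), add_zero]
    exact hdiv P hP) h2
  obtain ⟨e, he⟩ := IsAlgClosed.exists_pow_nat_eq c (Nat.pos_of_ne_zero hn0)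
  refine ⟨g * algebraMap K L e, ?_⟩
  have hC : algebraMap K L c ≠ 0 := by simpa using hc
  rw [mul_pow, ← map_pow, he, ← hg, map_inv₀, inv_mul_cancel_right₀ hC]

theorem pow_of_pr (h : Disc.Good v r w ρ sp) {qx : L →+* HahnSeries ℚ K} (hG : IsG v qx w)
    (hq : ∀ c, qx (algebraMap K L c) = C c) {n : ℕ} (hn : (n : k) ≠ 0) {f : L}
    (hf : Pr v (qx f)) (S : Set (Pl K L)) (hS : Set.InjOn sp S)
    (hdiv : ∀ P, P ∉ S → (n : ℤ) ∣ divf (k := K) f P) : ∃ g : L, f = g ^ n := by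
  obtain ⟨c, hc, hw⟩ := hG.of_pr hq hf
  exact pow_of_lt h hn hc hw S hS hdiv

end good

end Crest.Agent.T15.Cg

end
end

-- ▼ part T15/CgD_84

/-!
# Row 15, block T: the congruence relation for modular functions (helper84)

`Rep v x` : `x = c a / b` with primitive series `a`, `b`.  For `f : FF` with `Rep v (qx f)`:
`pr_up`, `pr_dg`, `pr_hecke` (`T_l f ~ σ f · (σ⁻¹ ⟨l⟩ f)^l`), `pr_inertia` (`τ f ~ f`).
-/

set_option autoImplicit false
set_option linter.unusedSectionVars false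

noncomputable section

namespace Crest.Agent.T15.Cg

open HahnSeries
open scoped NNReal MatrixGroups
open Crest.Agent.R013.GR4_921 Crest.Agent.T15.Hs Crest.Agent.T15.Mf

section rep

variable {K : Type*} [Field K] {v : Valuation K ℝ≥0}

/-- a quotient of primitive series up to a constant -/
def Rep (v : Valuation K ℝ≥0) (x : HS K) : Prop :=
  ∃ (c : K) (a b : HS K), c ≠ 0 ∧ UnS v a ∧ UnS v b ∧ x * b = C c * a

lemma IsG.rep {L : Type*} [Field L] {qx : L →+* HS K} {w : Valuation L ℝ≥0} (h : IsG v qx w)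
    {f : L} (hf : f ≠ 0) : Rep v (qx f) := by
  obtain ⟨c, a, b, ha, hb, e, -⟩ := h f hf
  refine ⟨c, a, b, ?_, ha, hb, e⟩
  rintro rfl
  rw [map_zero, zero_mul] at e
  exact mul_ne_zero (by simpa using hf) hb.ne_zero e

lemma IsG.comp {L L' : Type*} [Field L] [Field L'] {qx : L →+* HS K} {w : Valuation L ℝ≥0}
    (h : IsG v qx w) (i : L' →+* L) : IsG v (qx.comp i) (w.comap i) :=
  fun f hf => h (i f) (by simpa using hf)

/-- integral exponents -/
def IntE (x : HS K) : Prop := ∀ r, x.coeff r ≠ 0 → ∃ n : ℤ, r = n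

open Classical in
/-- the part with integral exponents -/
def prj (x : HS K) : HS K where
  coeff r := if ∃ n : ℤ, r = n then x.coeff r else 0
  isPWO_support' := x.isPWO_support.mono fun g hg h0 => hg (by beta_reduce; rw [h0, ite_self])

open Classical in
lemma prj_coeff (x : HS K) (r : ℚ) :
    (prj x).coeff r = if ∃ n : ℤ, r = n then x.coeff r else 0 := rfl

lemma intE_prj (x : HS K) : IntE (prj x) := fun r hr => by
  by_contra h
  exact hr (by rw [prj_coeff, if_neg h])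

lemma IntS.prj {x : HS K} (hx : IntS v x) : IntS v (prj x) := fun r => by
  rw [prj_coeff]
  split_ifs
  · exact hx r
  · simp

lemma prj_mul {x : HS K} (hx : IntE x) (y : HS K) : prj (x * y) = x * prj y := by
  ext r
  rw [coeff_mul_of (y := prj y) x.isPWO_support y.isPWO_support subset_rfl fun t ht h0 =>
    ht (by rw [prj_coeff, h0, ite_self]), prj_coeff, coeff_mul]
  have key : ∀ ij ∈ Finset.antidiagonal x.isPWO_support y.isPWO_support r,
      ((∃ n : ℤ, ij.2 = n) ↔ ∃ n : ℤ, r = n) := fun ij hij => by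
    rw [Finset.mem_antidiagonal] at hij
    obtain ⟨m, hm⟩ := hx _ hij.1
    rw [← hij.2.2, hm]
    exact ⟨fun ⟨n, hn⟩ => ⟨m + n, by rw [hn]; push_cast; rfl⟩,
      fun ⟨n, hn⟩ => ⟨n - m, by push_cast; rw [← hn]; ring⟩⟩
  split_ifs with h
  · exact Finset.sum_congr rfl fun ij hij => by rw [prj_coeff, if_pos ((key ij hij).2 h)]
  · exact (Finset.sum_eq_zero fun ij hij => by
      rw [prj_coeff, if_neg fun h' => h ((key ij hij).1 h'), mul_zero]).symm

lemma intE_C (c : K) : IntE (C c : HS K) := fun r hr => by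
  rw [C_apply, coeff_single] at hr
  split_ifs at hr with h
  · exact ⟨0, by simpa using h⟩
  · exact absurd rfl hr

lemma unS_single (t : ℚ) : UnS v (single t 1 : HS K) :=
  ⟨fun g => by rw [coeff_single]; split_ifs <;> simp, t, by simp⟩

lemma UnS.of_mul {a b : HS K} (ha : IntS v a) (hb : IntS v b) (h : UnS v (a * b)) : UnS v a := by
  obtain ⟨r, hr, -⟩ := exists_isRes v
  rw [unS_iff hr] at h ⊢
  exact ⟨ha, left_ne_zero_of_mul (by rw [← rd_mul hr ha hb]; exact h.2)⟩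

/-- numerator and denominator with integral exponents -/
lemma Rep.int {x : HS K} (h : Rep v x) (hx : IntE x) :
    ∃ (c : K) (a b : HS K), c ≠ 0 ∧ UnS v a ∧ UnS v b ∧ IntE a ∧ IntE b ∧ x * b = C c * a := by
  obtain ⟨c, a, b, hc, ha, hb, e⟩ := h
  obtain ⟨t, ht⟩ := hb.2
  have ha1 := (unS_single (-t)).mul ha
  have hb1 := (unS_single (-t)).mul hb
  have e1 : x * (single (-t) 1 * b) = C c * (single (-t) 1 * a) := by
    linear_combination single (-t) 1 * e
  have e2 := congrArg prj e1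
  rw [prj_mul hx, prj_mul (intE_C c)] at e2
  have hb2 : UnS v (prj (single (-t) 1 * b)) := ⟨hb1.1.prj, 0, by
    have := coeff_single_mul_add (r := (1 : K)) (x := b) (a := t) (b := -t)
    rw [add_neg_cancel, one_mul] at this
    rw [prj_coeff, if_pos ⟨0, by simp⟩, this, ht]⟩
  refine ⟨c, _, _, hc, UnS.of_mul ha1.1.prj hb1.1 ?_, hb2, intE_prj _, intE_prj _, e2⟩
  have hC : (C c : HS K) ≠ 0 := by simpa using hc
  have e3 : prj (single (-t) 1 * a) * (single (-t) 1 * b) =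
      (single (-t) 1 * a) * prj (single (-t) 1 * b) := by
    apply mul_left_cancel₀ hC
    linear_combination prj (single (-t) 1 * b) * e1 - (single (-t) 1 * b) * e2
  rw [e3]
  exact ha1.mul hb2

lemma root_sub_one {l : ℕ} (hl : l.Prime) (hv : v (l : K) < 1) {z : K} (hz : z ^ l = 1) :
    v (z - 1) < 1 := by
  obtain ⟨r, h, -⟩ := exists_isRes v
  have := charP_res h hl hv
  have : Fact l.Prime := ⟨hl⟩
  have h1 : v z = 1 := by
    have := congrArg v hz
    rwa [map_pow, map_one, pow_eq_one_iff_left hl.ne_zero] at this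
  refine (h.eq_iff h1.le (by simp)).1 ?_
  have h2 : (r z - 1) ^ l = 0 := by rw [sub_pow_char, ← h.pow h1.le, hz, h.one, one_pow, sub_self]
  rw [h.one, ← sub_eq_zero]
  exact pow_eq_zero_iff hl.ne_zero |>.1 h2

end rep

variable {v : Valuation ℂ ℝ≥0}

lemma ex_pow {l : ℕ} (hl : l ≠ 0) (n m : ℤ) : ex (n : ℚ) (((m : ℚ) / l : ℚ) : ℂ) ^ l = 1 := by
  have : (l : ℂ) ≠ 0 := Nat.cast_ne_zero.2 hl
  rw [ex, ← Complex.exp_nat_mul, ← Complex.exp_int_mul_two_pi_mul_I (n * m)]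
  congr 1
  push_cast
  field_simp

/-- invariance under `z ↦ z + 1` means integral exponents -/
lemma intE_qx {f : FF} (hf : ModularGroup.T • f = f) : IntE (qx f) := fun r hr => by
  have h1 : (sq ModularGroup.T)⁻¹ • f = f := by rw [inv_smul_eq_iff, ← sl_smul, hf]
  have h2 := qx_upper (g := sq ModularGroup.T) (by rw [sq_apply]; simp [ModularGroup.T]) f
  rw [h1] at h2
  simp only [sq_apply] at h2
  simp only [ModularGroup.T, Matrix.SpecialLinearGroup.coe_mk, Matrix.of_apply, Matrix.cons_val',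
    Matrix.cons_val_zero, Matrix.cons_val_one, Matrix.cons_val_fin_one, Int.cast_one, div_one,
    sc_one] at h2
  have h3 := congrArg (fun z : HS ℂ => z.coeff r) h2
  simp only [coeff_tw, ee_apply] at h3
  have h4 : ex r ((1 : ℚ) : ℂ) = 1 := mul_right_cancel₀ hr (by rw [← h3, one_mul])
  rw [ex, Complex.exp_eq_one_iff] at h4
  obtain ⟨n, hn⟩ := h4
  refine ⟨n, ?_⟩
  have h5 : ((r : ℚ) : ℂ) = n := by
    apply mul_left_cancel₀ Complex.two_pi_I_ne_zero
    rw [mul_comm _ (n : ℂ), ← hn]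
    simp
  exact_mod_cast h5

/-- `∏ f((z+i)/l) ~ σ f` -/
theorem pr_up {l : ℕ} (hl : l.Prime) (hv : v (l : ℂ) < 1) {σ : ℂ ≃+* ℂ}
    (hσv : ∀ c, v (σ c) = v c) (hσ : ∀ c, v c ≤ 1 → v (σ c - c ^ l) < 1)
    {ι : Type*} [Fintype ι] (hι : Fintype.card ι = l) {α : ι → GQ}
    (h10 : ∀ i, (α i : GL (Fin 2) ℚ) 1 0 = 0)
    (h00 : ∀ i, (α i : GL (Fin 2) ℚ) 0 0 / (α i : GL (Fin 2) ℚ) 1 1 = 1 / l)
    (h01 : ∀ i, ∃ m : ℤ, (α i : GL (Fin 2) ℚ) 0 1 / (α i : GL (Fin 2) ℚ) 1 1 = m / l)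
    {f : FF} (hf : Rep v (qx f)) (hT : ModularGroup.T • f = f) :
    Pr v (qx ((∏ i, (α i)⁻¹ • f) / σ • f)) := by
  obtain ⟨c, a, b, hc, ha, hb, hia, hib, e⟩ := hf.int (intE_qx hT)
  choose m hm using h01
  have hp := inv_pos' hl.ne_zero
  have key : ∀ {y : HS ℂ}, IntS v y → IntE y → ∀ i g,
      v ((sc (1 / l) (tw (ee (m i / l)) y)).coeff g - y.coeff (l * g)) < 1 := by
    intro y hy hi i g
    rw [coeff_sc hp, coeff_tw, ee_apply, div_div_eq_mul_div, div_one, mul_comm g]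
    by_cases h0 : y.coeff (l * g) = 0
    · simp [h0]
    obtain ⟨n, hn⟩ := hi _ h0
    rw [← sub_one_mul, map_mul]
    refine mul_lt_one_of_lt_of_le ?_ (hy _)
    rw [hn]
    exact root_sub_one hl hv (ex_pow hl.ne_zero n (m i))
  rw [map_div₀, map_prod]
  refine pr_T hl hv hι hσv hσ ha hb (key ha.1 hia) (key hb.1 hib)
    (a' := Hs.hm (σ : ℂ →+* ℂ) a) (b' := Hs.hm (σ : ℂ →+* ℂ) b) (fun _ => rfl) (fun _ => rfl) hc
    (c' := σ c) (by simpa using hc) (fun i => ?_) ?_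
  · rw [qx_upper (h10 i), h00, hm, ← map_mul, ← map_mul, e, map_mul, map_mul, tw_C, sc_C hp]
  · rw [qx_aut, ← map_mul, e, map_mul, hm_C]
    rfl

/-- `f(lz) ~ (σ⁻¹ f)^l` -/
theorem pr_dg {l : ℕ} (hl : l.Prime) (hv : v (l : ℂ) < 1) {σ : ℂ ≃+* ℂ}
    (hσv : ∀ c, v (σ c) = v c) (hσ : ∀ c, v c ≤ 1 → v (σ c - c ^ l) < 1) {β : GQ}
    (h10 : (β : GL (Fin 2) ℚ) 1 0 = 0)
    (h00 : (β : GL (Fin 2) ℚ) 0 0 / (β : GL (Fin 2) ℚ) 1 1 = l)
    (h01 : (β : GL (Fin 2) ℚ) 0 1 = 0) {f : FF} (hf : Rep v (qx f)) :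
    Pr v (qx (β⁻¹ • f / (σ⁻¹ • f) ^ l)) := by
  obtain ⟨c, a, b, hc, ha, hb, e⟩ := hf
  have hp : (0 : ℚ) < l := Nat.cast_pos.2 hl.pos
  have ht : ∀ y : HS ℂ, tw (ee 0) y = y := fun y => by
    ext g
    rw [coeff_tw, ee_zero, MonoidHom.one_apply, one_mul]
  rw [map_div₀, map_pow]
  refine pr_V hl hv hσv hσ ha hb (coeff_sc hp a) (coeff_sc hp b)
    (a' := Hs.hm ((σ⁻¹ : ℂ ≃+* ℂ) : ℂ →+* ℂ) a) (b' := Hs.hm ((σ⁻¹ : ℂ ≃+* ℂ) : ℂ →+* ℂ) b)
    (fun g => σ.apply_symm_apply _) (fun g => σ.apply_symm_apply _) hc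
    (c' := σ⁻¹ c) (by simpa using hc) ?_ ?_
  · rw [qx_upper h10, h00, h01, zero_div, ht, ← map_mul, e, map_mul, sc_C hp]
  · rw [qx_aut, ← map_mul, e, map_mul, hm_C]
    rfl

/-- **the congruence relation** -/
theorem pr_hecke {l : ℕ} (hl : l.Prime) (hv : v (l : ℂ) < 1) {σ : ℂ ≃+* ℂ}
    (hσv : ∀ c, v (σ c) = v c) (hσ : ∀ c, v c ≤ 1 → v (σ c - c ^ l) < 1)
    {ι : Type*} [Fintype ι] (hι : Fintype.card ι = l) {α : ι → GQ}
    (h10 : ∀ i, (α i : GL (Fin 2) ℚ) 1 0 = 0)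
    (h00 : ∀ i, (α i : GL (Fin 2) ℚ) 0 0 / (α i : GL (Fin 2) ℚ) 1 1 = 1 / l)
    (h01 : ∀ i, ∃ m : ℤ, (α i : GL (Fin 2) ℚ) 0 1 / (α i : GL (Fin 2) ℚ) 1 1 = m / l) {β : GQ}
    (k10 : (β : GL (Fin 2) ℚ) 1 0 = 0)
    (k00 : (β : GL (Fin 2) ℚ) 0 0 / (β : GL (Fin 2) ℚ) 1 1 = l)
    (k01 : (β : GL (Fin 2) ℚ) 0 1 = 0) {f f' : FF} (hf : Rep v (qx f))
    (hT : ModularGroup.T • f = f) (hf' : Rep v (qx f')) :
    Pr v (qx ((∏ i, (α i)⁻¹ • f) * β⁻¹ • f' / (σ • f * (σ⁻¹ • f') ^ l))) := by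
  rw [mul_div_mul_comm, map_mul]
  exact (pr_up hl hv hσv hσ hι h10 h00 h01 hf hT).mul (pr_dg hl hv hσv hσ k10 k00 k01 hf')

/-- inertia acts trivially on the reduction -/
theorem pr_inertia {τ : ℂ ≃+* ℂ} (hτ : ∀ c, v c ≤ 1 → v (τ c - c) < 1) {f : FF}
    (hf : Rep v (qx f)) : Pr v (qx (τ • f / f)) := by
  obtain ⟨c, a, b, hc, ha, hb, e⟩ := hf
  rw [map_div₀]
  refine pr_I hτ ha hb (a' := Hs.hm (τ : ℂ →+* ℂ) a) (b' := Hs.hm (τ : ℂ →+* ℂ) b)
    (fun _ => rfl) (fun _ => rfl) hc (c' := τ c) (by simpa using hc) e ?_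
  rw [qx_aut, ← map_mul, e, map_mul, hm_C]
  rfl

end Crest.Agent.T15.Cg

end
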