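import Crest.Agent.T15.TDef_10
import Crest.Agent.T15.Par_12
import Mathlib
import Crest.Agent.T15.TwiB_21
import Crest.Agent.T15.CgD_84
import Crest.Agent.T15.Lv_10
import Crest.Agent.T15.CgI_84
import Crest.Agent.T15.BetCus_91
import Crest.Agent.T15.HkTw_62
import Crest.Agent.T15.CDef_7
import Crest.Agent.R018.TameP_31

-- ▼ part T15/TG_10
section

/-!
# Row 15, block T (helper10): the Galois half from its leaves
-/

set_option autoImplicit false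
set_option linter.unusedSectionVars false

noncomputable section

namespace Crest.Agent.T15.TD

open Function CongruenceSubgroup WithZero Finset
open scoped NNReal MatrixGroups UpperHalfPlane
open Crest.Agent.T15.Mf Crest.Agent.T15.Lv Crest.Agent.T15.Bet Crest.Agent.T15.Hk
open Crest.Agent.T15.Cg
open Crest.Agent.T15.C (Gam Om In)
open Crest.Agent.T15.Top (Lc Plc IsFr)
open Crest.Agent.T15.R (Gd)

/-- restriction of an action to a stable submodule -/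
theorem exists_restrict {G O C V W : Type*} [Monoid G] [CommRing O] [CommRing C] [Algebra O C]
    [AddCommGroup V] [Module O V] [AddCommGroup W] [Module O W] [Module C W] [IsScalarTower O C W]
    (j : V →ₗ[O] W) (hj : Injective j) (ρ : G →* Module.End C W)
    (h : ∀ g x, ∃ y, j y = ρ g (j x)) :
    ∃ ρ' : G →* Module.End O V, ∀ g x, j (ρ' g x) = ρ g (j x) := by
  choose f hf using h
  let F : G → Module.End O V := fun g =>
    { toFun := f g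
      map_add' := fun x y => hj (by rw [map_add, hf, hf, hf, map_add, map_add])
      map_smul' := fun c x => hj (by
        rw [RingHom.id_apply, map_smul, hf, hf, map_smul, LinearMap.map_smul_of_tower]) }
  exact ⟨⟨⟨F, LinearMap.ext fun x => hj (by
      change j (f 1 x) = j x
      rw [hf, map_one]; rfl)⟩, fun g g' => LinearMap.ext fun x => hj (by
      change j (f (g * g') x) = j (f g (f g' x))
      rw [hf, hf, hf, map_mul]; rfl)⟩, hf⟩

section par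

variable {O A : Type*} [CommRing O] [AddCommGroup A] [Module O A]

/-- non-Eisenstein localisations are parabolic -/
theorem parS_EL {M : ℕ} {H : Subgroup (ZMod M)ˣ} {P : ℕ → Prop} {a : ℕ → O} {p : ℕ} (hP : P p)
    (hp : p.Prime) (hM : (M : ℤ) ∣ (p : ℤ) - 1) (ha : IsUnit (a p - (p + 1)))
    {x : HH (Gq M H) A} (hx : x ∈ EL A P a M H) : ParS (GH M H) x := fun γ hγ ht => by
  obtain ⟨k, hk⟩ := mem_EL.1 hx p hP
  rw [TT_eq hp, ← Algebra.algebraMap_eq_smul_one] at hk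
  exact Par.parabolic_of_nil hp hM _ ha hk hγ ht

variable {r L m : ℕ} {q : Fin r → ℕ}

lemma chi_neg (hm : Odd m) (u : (ZMod (LQ L q))ˣ) : chi L q m (-u) = chi L q m u := by
  obtain ⟨k, hk⟩ := hm
  have h1 : chi L q m (-1) ^ m = 1 := funext fun i => by
    rw [Pi.pow_apply, Pi.one_apply, ← ofAdd_toAdd (chi L q m (-1) i), ← ofAdd_nsmul, nsmul_eq_mul,
      ZMod.natCast_self, zero_mul, ofAdd_zero]
  have h2 : chi L q m (-1) ^ 2 = 1 := by rw [← map_pow, neg_one_sq, map_one]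
  have h3 : chi L q m (-1) ^ (2 * k + 1) = 1 := hk ▸ h1
  rw [pow_succ, pow_mul, h2, one_pow, one_mul] at h3
  rw [← neg_one_mul, map_mul, h3, one_mul]

/-- the diamond operator of an arbitrary unit -/
theorem dia_chi [NeZero m] (h : Aux L q m) (hm : Odd m) {l : ℤ} (hl : IsCoprime l (LQ L q))
    {u : (ZMod (LQ L q))ˣ} (hu : (u : ZMod (LQ L q)) = l) :
    h.dia O A (chi L q m u) = DD O A (LQ L q) (H1 L q m) l := by
  have e : dU (LQ L q) (sg (LQ L q) l) = u := Units.ext (by rw [dU_sg hl, hu])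
  rcases mem_or_neg_mem_H0 h.four' u with h0 | h0
  · rw [← e] at h0 ⊢
    exact h.dia_eq A h0
  · have h1 := gm_mem_top (L := LQ L q) (a := -1) (b := 0) (c := 0) (d := -1) (by simp) (by simp)
    have e' : dU (LQ L q) (sg (LQ L q) l * gm (-1) 0 0 (-1)) = -u := Units.ext (by
      rw [dU_mul (sg_mem _ l) h1.1, Units.val_mul, e, h1.2]; simp)
    refine LinearMap.ext fun φ => HH.ext fun γ hγ => ?_
    have hmem : sg (LQ L q) l * gm (-1) 0 0 (-1) ∈ Gq (LQ L q) (H0 (LQ L q)) :=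
      mem_Gq_iff.2 ⟨mul_mem (sg_mem _ l) h1.1, e' ▸ h0⟩
    have := h.cov.val_dia (O := O) (A := A) ⟨_, hmem⟩ φ hγ
    rw [MonoidHom.comp_apply, dch_apply, Subtype.coe_mk, e', chi_neg hm] at this
    refine this.trans ?_
    rw [DD_eq]
    refine Eq.trans ?_ (val_T_e (Dia_corr l) φ hγ (conj_mem (sg_mem _ l) hγ)).symm
    rw [mul_assoc (sg _ l) (gm _ _ _ _), ← Subgroup.mem_center_iff.1 (gm_center (c := -1) (by simp)) γ]
    congr 1; group

end par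

namespace Dat

variable {O C : Type} [CommRing O] [CommRing C] [Algebra O C] {n r L : ℕ} {q : Fin r → ℕ}
  {h : Aux L q (3 ^ (n + 1))} {a α : ℕ → C} {H : Type} [AddCommGroup H] [Module O H]
  {j : H →ₗ[O] HH (Gq (LQ L q) (H1 L q (3 ^ (n + 1)))) C} {Tp : ℕ → Module.End O H}
  {dia : Dl (3 ^ (n + 1)) r →* Module.End O H} (D : Dat h a α j Tp dia)

include D

/-- the localisations at all the levels dividing `LQ` are parabolic -/
theorem parS {M : ℕ} (hM : M ∣ LQ L q) {K : Subgroup (ZMod M)ˣ} {S : Finset ℕ}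
    (hS : S ⊆ univ.image q) {x : HH (Gq M K) C} (hx : x ∈ EL C (Gd L) (aS S a α) M K) :
    ParS (GH M K) x := by
  obtain ⟨p, h1, h2, h3⟩ := D.par
  refine parS_EL h1 h1.1 ((Int.natCast_dvd_natCast.2 hM).trans h2) ?_ hx
  rwa [aS, if_neg]
  intro hp
  obtain ⟨i, -, rfl⟩ := mem_image.1 (hS hp)
  have := (Int.natCast_dvd_natCast.2 (q_dvd_LQ L q i)).trans h2
  rw [dvd_sub_right dvd_rfl] at this
  exact h1.1.one_lt.ne' (Nat.dvd_one.1 (by exact_mod_cast this))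

theorem mem (x : H) : j x ∈ EQ C L q (3 ^ (n + 1)) (Gd L) a α := (D.rng _).2 ⟨x, rfl⟩

theorem parS_j (x : H) : ParS (GH _ _) (j x) := D.parS dvd_rfl subset_rfl (D.mem x)

theorem three' : ¬ 3 ∣ LQ L q := fun h3 => by
  rcases (Nat.prime_three.dvd_mul).1 h3 with h3 | h3
  · exact D.three h3
  · obtain ⟨i, -, hi⟩ := (Nat.prime_three.prime.dvd_finset_prod_iff _).1 h3
    exact (D.sy.hq i).2 (((Nat.prime_dvd_prime_iff_eq Nat.prime_three (h.prime i)).1 hi) ▸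
      dvd_mul_right _ _)

end Dat

lemma not_dvd_LQ {r L : ℕ} {q : Fin r → ℕ} {m : ℕ} (h : Aux L q m) {p : ℕ} (hp : Gd L p)
    (hq : ∀ i, p ≠ q i) : ¬ p ∣ LQ L q := fun hd => by
  rcases (hp.1.dvd_mul).1 hd with hd | hd
  · exact hp.2 (hd.mul_left _)
  · obtain ⟨i, -, hi⟩ := (hp.1.prime.dvd_finset_prod_iff _).1 hd
    exact hq i ((Nat.prime_dvd_prime_iff_eq hp.1 (h.prime i)).1 hi)

/-- **the Galois half** -/
theorem galStmt (hA : ActStmt) (hI : InjStmt) (hF : FlatStmt) (hC : CyStmt) (hW : TwStmt)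
    (ι : Om →+* ℂ) (P : Plc) (h3 : P.rchar = 3) (Λ : Fl.Loc3 ι P) : GalStmt (Lc.of h3 Λ) := by
  intro O C _ _ _ _ _ n r L q h a α H _ _ j Tp dia D
  have hM := h.neZero.ne
  have hH : ∀ u ∈ H1 L q (3 ^ (n + 1)), ZMod.unitsMap h.four' u = 1 := fun u hu =>
    (mem_H0 h.four').1 (H1_le L q _ hu)
  have hex := hex_Gq (n := 3 ^ (n + 1)) hM h.four' hH
  obtain ⟨ρ₀, h1, h2⟩ := hA ι _ _ hM h.four' (H1_le L q (3 ^ (n + 1))) (3 ^ (n + 1)) C C D.hm
  obtain ⟨ρ, hρ⟩ := exists_restrict j D.inj ρ₀ fun g x => (D.rng _).1 (EL_comm (D.mem x)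
    fun p hp => gal_Tp D.hm injective_id hex h1 hM hp.1 (fun _ => rfl) g)
  have hK : ∀ σ, ActK (3 ^ (n + 1)) j.toAddMonoidHom σ (ρ (resA ι σ)) := fun σ l x f hf => by
    have := h1 σ l (j x) f hf
    rwa [AddMonoidHom.id_apply, ← hρ] at this
  obtain ⟨δ, d1, d2, d3, d4⟩ := hC L r _ q h
  have hT : ∀ p, p.Prime → ∀ x, j.toAddMonoidHom (Tp p x) = TT O C _ _ p (j.toAddMonoidHom x) :=
    fun p hp x => (D.hT p hp x).trans ((TT_int hp _).trans (TT_int hp _).symm)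
  have hE : ∀ (l : C →+ ZMod (3 ^ (n + 1))) x, l.comp (j.toAddMonoidHom x) ∈
      {φ | ParS (GH (LQ L q) (H1 L q (3 ^ (n + 1)))) φ} := fun l x => (D.parS_j x).comp l
  have hJ : ∀ P : Plc, Gd L P.rchar → (∀ i, P.rchar ≠ q i) → Inj (vC ι P) (3 ^ (n + 1)) _ _ :=
    fun P hP hq => hI ι _ _ hM h.four' (H1_le L q (3 ^ (n + 1))) _ P fun hd => by
      rcases (hP.1.dvd_mul).1 hd with hd | hd
      · exact hP.2 ((hP.1.dvd_of_dvd_pow hd).mul_right _)
      · exact not_dvd_LQ h hP hq hd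
  refine ⟨δ, ρ, fun g p hp _ => gal_Tp D.hm D.inj hex hK hM hp.1 (hT p hp.1) g, fun g y => ?_,
    Subgroup.isOpen_mono (fun g hg => LinearMap.ext fun x => D.inj ?_) h2, d2,
    fun P hP hq => gal_unr D.hm D.inj hex hK hE P (hJ P hP hq), d3, fun P s hP hq hs => ?_,
    hW ι O C n r L q h a α H j Tp dia D δ ρ d1 hK,
    hF ι P h3 Λ _ _ hM h.four' (H1_le L q _) D.three' _ C H j.toAddMonoidHom _ D.hm D.inj
      D.parS_j hK⟩
  · obtain ⟨s, rfl⟩ := h.cov.surj y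
    exact gal_conj D.hm D.inj hex hK hM (Gq_mono le_top s.2) (fun x γ hγ =>
      (congrArg (val · γ) (D.hD _ x)).trans (h.cov.val_dia s _ hγ)) g
  · rw [hρ, MonoidHom.mem_ker.1 hg]; rfl
  · have hd := not_dvd_LQ h hP hq
    have hc := (Nat.Prime.coprime_iff_not_dvd hP.1).2 hd
    refine gal_es D.hm D.inj hex hK hE P (hJ P hP hq) hM hd hs (hT _ hP.1) fun x => ?_
    rw [d4 P s (ZMod.unitOfCoprime _ hc) hs rfl]
    refine (D.hD _ x).trans ?_
    rw [dia_chi h (Odd.pow (by decide)) (cop hP.1 hd) (by simp)]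
    exact (DD_int _ _).trans (DD_int _ _).symm

end Crest.Agent.T15.TD

end
end

-- ▼ part T15/TwiC_21
section

/-!
# T15 / TwiC (helper21): the Gauss norm on modular functions, invariance properties

`W` is any valuation of `FF` with `IsG v qx W`.
-/

set_option autoImplicit false
set_option linter.all false

noncomputable section

namespace Crest.Agent.T15.Twi

open scoped NNReal MatrixGroups
open UpperHalfPlane ModularForm CongruenceSubgroup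
open Crest.Agent.T15.Mf Crest.Agent.T15.Hs Crest.Agent.T15.Cg Crest.Agent.R007 Crest.Agent.R007.Rat

variable {v : Valuation ℂ ℝ≥0} {W : Valuation FF ℝ≥0}

theorem v_le_of {c c' : ℂ} {a a' : HS ℂ} (ha : UnS v a) (ha' : IntS v a')
    (e : HahnSeries.C c * a = HahnSeries.C c' * a') : v c ≤ v c' := by
  obtain ⟨g, hg⟩ := ha.2
  have h := congrArg (fun z : HS ℂ => v (z.coeff g)) e
  simp only [HahnSeries.C_mul_eq_smul, HahnSeries.coeff_smul, smul_eq_mul, map_mul, hg,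
    mul_one] at h
  rw [h]
  exact mul_le_of_le_one_right zero_le (ha' g)

theorem isG_val (h : IsG v qx W) {f : FF} {c : ℂ} {a b : HS ℂ} (ha : UnS v a) (hb : UnS v b)
    (e : qx f * b = HahnSeries.C c * a) : W f = v c := by
  by_cases hf : f = 0
  · subst hf
    rw [map_zero, zero_mul, eq_comm, mul_eq_zero, or_iff_left ha.ne_zero] at e
    have : c = 0 := by simpa using e
    rw [this, map_zero, map_zero]
  obtain ⟨c', a', b', ha', hb', e', hw⟩ := h f hf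
  have h1 : HahnSeries.C c * (a * b') = HahnSeries.C c' * (a' * b) := by
    linear_combination b * e' - b' * e
  rw [hw]
  exact le_antisymm (v_le_of (ha'.mul hb) (ha.mul hb').1 h1.symm)
    (v_le_of (ha.mul hb') (ha'.mul hb).1 h1)

theorem W_const (h : IsG v qx W) (c : ℂ) : W (algebraMap ℂ FF c) = v c :=
  isG_val h UnS.one UnS.one (by rw [qx_algebraMap])

theorem W_gal (h : IsG v qx W) {σ : ℂ →+* ℂ} (hσ : ∀ c, v (σ c) = v c) (f : FF) :
    W (gal σ f) = W f := by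
  by_cases hf : f = 0
  · rw [hf, map_zero]
  obtain ⟨c, a, b, ha, hb, e, hw⟩ := h f hf
  rw [hw, ← hσ c]
  refine isG_val h (a := hm σ a) (b := hm σ b) (ha.of_eq fun g => by rw [coeff_hm, hσ])
    (hb.of_eq fun g => by rw [coeff_hm, hσ]) ?_
  rw [qx_gal, ← map_mul, e, map_mul, hm_C]

theorem v_ex (r b : ℚ) : v (ex r b) = 1 := by
  have h : ex r b ^ (r * b).den = 1 := by
    rw [ex, ← Complex.exp_nat_mul, ← Complex.exp_int_mul_two_pi_mul_I (r * b).num]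
    congr 1
    have h1 : (((r * b).den : ℚ) : ℂ) * ((r * b : ℚ) : ℂ) = (((r * b).num : ℚ) : ℂ) := by
      rw [← Rat.cast_mul, Rat.den_mul_eq_num]
    push_cast at h1
    linear_combination (2 * Real.pi * Complex.I) * h1
  have := congrArg v h
  rwa [map_pow, map_one, pow_eq_one_iff_left (r * b).den_ne_zero] at this

theorem unS_upper {a : HS ℂ} (ha : UnS v a) {s : ℚ} (hs : 0 < s) (b : ℚ) :
    UnS v (sc s (tw (ee b) a)) := by
  have h : ∀ g, v ((sc s (tw (ee b) a)).coeff g) = v (a.coeff (g / s)) := fun g => by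
    rw [coeff_sc hs, coeff_tw, ee_apply, map_mul, v_ex, one_mul]
  obtain ⟨g, hg⟩ := ha.2
  exact ⟨fun g => (h g).trans_le (ha.1 _), s * g, by rw [h, mul_div_cancel_left₀ _ hs.ne', hg]⟩

theorem W_upper (h : IsG v qx W) {g : GQ} (hg : (g : GL (Fin 2) ℚ) 1 0 = 0) (f : FF) :
    W (g⁻¹ • f) = W f := by
  by_cases hf : f = 0
  · rw [hf, smul_zero]
  obtain ⟨c, a, b, ha, hb, e, hw⟩ := h f hf
  rw [hw]
  refine isG_val h (unS_upper ha (upper_pos hg) ((g : GL (Fin 2) ℚ) 0 1 / (g : GL (Fin 2) ℚ) 1 1))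
    (unS_upper hb (upper_pos hg) ((g : GL (Fin 2) ℚ) 0 1 / (g : GL (Fin 2) ℚ) 1 1)) ?_
  rw [qx_upper hg, ← map_mul, ← map_mul, e, map_mul, map_mul, tw_C, sc_C (upper_pos hg)]

theorem tw_zero (y : HS ℂ) : tw (ee 0) y = y := by
  ext g
  rw [coeff_tw, ee_zero, MonoidHom.one_apply, one_mul]

theorem gal_diag (σ : ℂ →+* ℂ) {g : GQ} (h10 : (g : GL (Fin 2) ℚ) 1 0 = 0)
    (h01 : (g : GL (Fin 2) ℚ) 0 1 = 0) (f : FF) : gal σ (g⁻¹ • f) = g⁻¹ • gal σ f :=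
  qx_injective (by
    rw [qx_gal, qx_upper h10, qx_upper h10, h01, zero_div, tw_zero, tw_zero,
      hm_sc _ (upper_pos h10), qx_gal])

theorem scal_smul {g : GQ} (h10 : (g : GL (Fin 2) ℚ) 1 0 = 0) (h01 : (g : GL (Fin 2) ℚ) 0 1 = 0)
    (h : (g : GL (Fin 2) ℚ) 0 0 = (g : GL (Fin 2) ℚ) 1 1) (f : FF) : g⁻¹ • f = f :=
  qx_injective (by rw [qx_upper h10, h01, zero_div, tw_zero, h, div_self (upper_ne h10), sc_one])

theorem v_nat_le (n : ℕ) : v (n : ℂ) ≤ 1 := by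
  induction n with
  | zero => simp
  | succ n ih =>
    rw [Nat.cast_succ]
    exact (Valuation.map_add _ _ _).trans (max_le ih (by simp))

theorem v_int_le (n : ℤ) : v (n : ℂ) ≤ 1 := by
  obtain ⟨m, rfl | rfl⟩ := n.eq_nat_or_neg
  · exact_mod_cast v_nat_le m
  · rw [Int.cast_neg, Valuation.map_neg]; exact_mod_cast v_nat_le m

theorem v_nat_eq {q m : ℕ} (hv : v (q : ℂ) < 1) (h : Nat.Coprime m q) : v (m : ℂ) = 1 := by
  refine le_antisymm (v_nat_le m) (not_lt.mp fun hm => ?_)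
  obtain ⟨a, b, e⟩ := Nat.isCoprime_iff_coprime.mpr h
  have e' : (a : ℂ) * m + (b : ℂ) * q = 1 := by exact_mod_cast congrArg (Int.cast : ℤ → ℂ) e
  have : v ((a : ℂ) * m + (b : ℂ) * q) < 1 := Valuation.map_add_lt _
    (by rw [map_mul]; exact mul_lt_one_of_nonneg_of_lt_one_right (v_int_le a) zero_le hm)
    (by rw [map_mul]; exact mul_lt_one_of_nonneg_of_lt_one_right (v_int_le b) zero_le hv)
  rw [e', map_one] at this
  exact lt_irrefl _ this

theorem unS_e4 : UnS v (qf e4) := by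
  have h : ∀ n : ℕ, (qf e4).coeff ((n : ℚ) / (1 : ℕ)) =
      (if n = 0 then 1 else 0) + ((240 * ArithmeticFunction.sigma 3 n : ℕ) : ℂ) := fun n => by
    rw [coeff_qf one_ne_zero isF_e4, qe_e4, map_add, PowerSeries.coeff_smul, psA,
      PowerSeries.coeff_mk, PowerSeries.coeff_one, smul_eq_mul]
    push_cast
    rfl
  refine ⟨fun g => ?_, ((0 : ℕ) : ℚ) / (1 : ℕ), by rw [h]; simp⟩
  by_cases h0 : (qf e4).coeff g = 0
  · rw [h0, map_zero]; exact zero_le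
  obtain ⟨n, rfl⟩ := lev_qf one_ne_zero isF_e4 g h0
  rw [h]
  refine (Valuation.map_add _ _ _).trans (max_le ?_ (v_nat_le _))
  split_ifs <;> simp

theorem W_quo_e4 (h : IsG v qx W) {g g' : GQ} (hg : (g : GL (Fin 2) ℚ) 1 0 = 0)
    (hg' : (g' : GL (Fin 2) ℚ) 1 0 = 0) :
    W (quo (e4 ∣[(4 : ℤ)] rr g) (e4 ∣[(4 : ℤ)] rr g')) =
      v (jf 4 g UpperHalfPlane.I / jf 4 g' UpperHalfPlane.I) := by
  obtain ⟨M, hM, h1⟩ := exists_level 1 one_ne_zero g
  obtain ⟨M', hM', h2⟩ := exists_level 1 one_ne_zero g'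
  have u2 := unS_upper (v := v) unS_e4 (upper_pos hg')
    ((g' : GL (Fin 2) ℚ) 0 1 / (g' : GL (Fin 2) ℚ) 1 1)
  refine isG_val h (unS_upper unS_e4 (upper_pos hg)
    ((g : GL (Fin 2) ℚ) 0 1 / (g : GL (Fin 2) ℚ) 1 1)) u2 ?_
  have hC : (HahnSeries.C (jf 4 g' UpperHalfPlane.I) : HS ℂ) ≠ 0 := by simpa using jf_ne 4 g' _
  have h0 := u2.ne_zero
  rw [qx_quo (mul_ne_zero hM hM') (level_mul_left (h1 4 _ isF_e4))
    (level_mul_right (h2 4 _ isF_e4)), qf_slash_upper hg one_ne_zero isF_e4,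
    qf_slash_upper hg' one_ne_zero isF_e4, map_div₀]
  field_simp

theorem jf_val {g : GQ} (h10 : (g : GL (Fin 2) ℚ) 1 0 = 0) :
    jf 4 g UpperHalfPlane.I =
      (((g : GL (Fin 2) ℚ) 0 0 : ℚ) : ℂ) ^ 3 / (((g : GL (Fin 2) ℚ) 1 1 : ℚ) : ℂ) := by
  have h0 : (((g : GL (Fin 2) ℚ) 1 1 : ℚ) : ℂ) ≠ 0 := by exact_mod_cast upper_ne h10
  unfold jf
  rw [abs_of_pos (rr_pos g), rr_det, Matrix.GeneralLinearGroup.val_det_apply, Matrix.det_fin_two,
    denom, rr_apply, rr_apply, h10]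
  push_cast
  norm_num
  field_simp

/-- the constants -/
def CC : Subfield FF := (algebraMap ℂ FF).fieldRange

theorem cst (h : IsG v qx W) {q : ℕ} (hq : q ≠ 0) (hv : v (q : ℂ) < 1) : Cst GQ W CC where
  fix := by rintro _ ⟨c, rfl⟩ g; exact smul_algebraMap_FF g c
  val f hf := by
    obtain ⟨c, -, -, -, -, -, hw⟩ := h f hf
    exact ⟨_, ⟨c, rfl⟩, by rw [W_const h, hw]⟩
  nt := ⟨_, ⟨q, rfl⟩, by rw [W_const h]; exact pos_iff_ne_zero.mpr (by simpa using hq),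
    by rwa [W_const h]⟩

theorem np_of_pr (h : IsG v qx W) {n : ℕ} (hn : 0 < n) (Γ : Subgroup GQ) {f : FF}
    (hf : Pr v (qx f)) : NP W Γ n f := by
  obtain ⟨c, hc, hw⟩ := h.of_pr qx_algebraMap hf
  obtain ⟨e, he⟩ := IsAlgClosed.exists_pow_nat_eq c hn
  refine ⟨algebraMap ℂ FF e, fun γ _ => smul_algebraMap_FF γ e, ?_⟩
  rw [← map_pow, he, div_eq_mul_inv, ← map_inv₀]
  exact hw

end Crest.Agent.T15.Twi
end
end

-- ▼ part T15/TwiD_21
section

/-!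
# T15 / TwiD (helper21): the data `Geo` for modular functions

`Lv3 L q Γ₁ Γ₀ Γ` : `Γ` has level `L`, `Γ₀ = Γ ∩ Γ₀(q)`, `Γ₁(L q) ≤ Γ₁ ≤ Γ₀` stable under `W_q`.
`geo` : the hypotheses of `twi` on the function side hold for `FF` with its Gauss norm.
-/

set_option autoImplicit false
set_option linter.all false
set_option maxHeartbeats 400000

noncomputable section

namespace Crest.Agent.T15.Twi

open scoped NNReal MatrixGroups
open UpperHalfPlane ModularForm CongruenceSubgroup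
open Crest.Agent.T15.Mf Crest.Agent.T15.Hs Crest.Agent.T15.Cg Crest.Agent.R007 Crest.Agent.R007.Rat
open Crest.Agent.T15.Lv

/-- three levels -/
structure Lv3 (L q : ℕ) (Γ₁ Γ₀ Γ : Subgroup SL(2, ℤ)) : Prop where
  dvd : ∀ γ ∈ Γ, ((γ 1 0 : ℤ) : ZMod L) = 0
  one : ∀ γ : SL(2, ℤ), ((γ 1 0 : ℤ) : ZMod L) = 0 → ((γ 1 1 : ℤ) : ZMod L) = 1 → γ ∈ Γ
  zero : ∀ γ, γ ∈ Γ₀ ↔ γ ∈ Γ ∧ ((γ 1 0 : ℤ) : ZMod q) = 0
  le : Γ₁ ≤ Γ₀
  one₁ : ∀ γ ∈ Γ₀, ((γ 1 1 : ℤ) : ZMod L) = 1 → ((γ 1 1 : ℤ) : ZMod q) = 1 → γ ∈ Γ₁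
  flip : ∀ γ ∈ Γ₁, ∀ δ ∈ Γ₀, ((δ 1 1 : ℤ) : ZMod L) = (γ 1 1 : ℤ) →
    ((δ 1 1 : ℤ) : ZMod q) = (γ 0 0 : ℤ) → δ ∈ Γ₁

theorem lv3_GH {L q M : ℕ} (hc : Nat.Coprime L q) (hM : M = L * q) {H : Subgroup (ZMod L)ˣ}
    {H₀ H₁ : Subgroup (ZMod M)ˣ}
    (h0 : ∀ u, u ∈ H₀ ↔ ZMod.unitsMap (hM ▸ dvd_mul_right L q : L ∣ M) u ∈ H) (hle : H₁ ≤ H₀)
    (h1 : ∀ u ∈ H₁, ∀ u', ZMod.unitsMap (hM ▸ dvd_mul_right L q : L ∣ M) u' =
      ZMod.unitsMap (hM ▸ dvd_mul_right L q : L ∣ M) u →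
      ZMod.unitsMap (hM ▸ dvd_mul_left q L : q ∣ M) (u' * u) = 1 → u' ∈ H₁) :
    Lv3 L q (GH M H₁) (GH M H₀) (GH L H) := by
  subst hM
  refine ⟨fun γ h => h.1, fun γ a b => GH_mono bot_le (mem_GH_bot.2 ⟨a, b⟩), fun γ => ⟨fun h =>
    ⟨GH_le _ (fun u hu => (h0 u).1 hu) h, ?_⟩, fun h => ?_⟩, GH_mono hle, ?_, ?_⟩
  · simpa using congrArg (ZMod.castHom (dvd_mul_left q L) (ZMod q)) h.1
  · obtain ⟨⟨a, u, hu, hu'⟩, b⟩ := h
    have c : ((γ 1 0 : ℤ) : ZMod (L * q)) = 0 := by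
      rw [ZMod.intCast_zmod_eq_zero_iff_dvd] at a b ⊢
      push_cast
      exact (Nat.isCoprime_iff_coprime.mpr hc).mul_dvd a b
    obtain ⟨-, w, -, hw⟩ := mem_GH_top.2 c
    refine ⟨c, w, (h0 w).2 ?_, hw⟩
    rwa [show ZMod.unitsMap (dvd_mul_right L q) w = u from Units.ext (by
      rw [ZMod.unitsMap_val, hw, ZMod.cast_intCast (dvd_mul_right L q), hu'])]
  · rintro γ ⟨a, u, hu, hu'⟩ b c
    refine ⟨a, u, h1 1 (one_mem _) u (Units.ext ?_) (Units.ext ?_), hu'⟩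
    · rw [map_one, ZMod.unitsMap_val, hu', ZMod.cast_intCast (dvd_mul_right L q), b, Units.val_one]
    · rw [mul_one, ZMod.unitsMap_val, hu', ZMod.cast_intCast (dvd_mul_left q L), c, Units.val_one]
  · rintro γ ⟨a, u, hu, hu'⟩ δ ⟨a', u', -, hu''⟩ b c
    refine ⟨a', u', h1 u hu u' (Units.ext ?_) (Units.ext ?_), hu''⟩
    · rw [ZMod.unitsMap_val, ZMod.unitsMap_val, hu', hu'', ZMod.cast_intCast (dvd_mul_right L q),
        ZMod.cast_intCast (dvd_mul_right L q), b]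
    · rw [map_mul, Units.val_mul, ZMod.unitsMap_val, ZMod.unitsMap_val, hu', hu'',
        ZMod.cast_intCast (dvd_mul_left q L), ZMod.cast_intCast (dvd_mul_left q L), c,
        Units.val_one]
      exact a_mul_d (by simpa using congrArg (ZMod.castHom (dvd_mul_left q L) (ZMod q)) a)

theorem mem_Fx_map {Γ : Subgroup SL(2, ℤ)} {f : FF} :
    f ∈ Fx FF (Γ.map sq) ↔ ∀ γ ∈ Γ, γ • f = f :=
  ⟨fun h γ hγ => h _ ⟨γ, hγ, rfl⟩, fun h => by rintro _ ⟨γ, hγ, rfl⟩; exact h γ hγ⟩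

theorem smul_congr {Γ : Subgroup SL(2, ℤ)} {f : FF} (hf : f ∈ Fx FF (Γ.map sq)) {γ δ : SL(2, ℤ)}
    (h : γ * δ ∈ Γ) : γ⁻¹ • f = δ • f := by
  rw [inv_smul_eq_iff, ← mul_smul, mem_Fx_map.1 hf _ h]

theorem cast_of {M N : ℕ} (h : N ∣ M) {a b : ℤ} (e : (a : ZMod M) = b) : (a : ZMod N) = b := by
  simpa using congrArg (ZMod.castHom h (ZMod N)) e

theorem tw_dvd {M N : ℕ} (h : N ∣ M) {s : ℤ} {γ δ : SL(2, ℤ)} (e : Tw s M γ δ) : Tw s N γ δ := by
  obtain ⟨a, b, c, d⟩ := e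
  refine ⟨cast_of h a, ?_, ?_, cast_of h d⟩
  · exact_mod_cast cast_of h (a := δ 0 1) (b := s * γ 0 1) (by exact_mod_cast b)
  · exact_mod_cast cast_of h (a := s * δ 1 0) (b := γ 1 0) (by exact_mod_cast c)

theorem dg_val {q : ℕ} (hq : 0 < q) : (dg q : GL (Fin 2) ℚ) 0 0 = q ∧ (dg q : GL (Fin 2) ℚ) 0 1 = 0 ∧
    (dg q : GL (Fin 2) ℚ) 1 0 = 0 ∧ (dg q : GL (Fin 2) ℚ) 1 1 = 1 := by
  have h := gm_val (a := q) (b := 0) (c := 0) (d := 1) (by simpa using hq)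
  refine ⟨?_, ?_, ?_, ?_⟩ <;> · rw [dg, h]; simp

theorem dg_conj {q : ℕ} (hq : 0 < q) {γ : SL(2, ℤ)} (h : ((γ 1 0 : ℤ) : ZMod q) = 0) :
    ∃ δ : SL(2, ℤ), dg q * Mf.sq γ = Mf.sq δ * dg q ∧ δ 0 0 = γ 0 0 ∧ δ 0 1 = q * γ 0 1 ∧
      q * δ 1 0 = γ 1 0 ∧ δ 1 1 = γ 1 1 := by
  obtain ⟨c, hc⟩ := (ZMod.intCast_zmod_eq_zero_iff_dvd _ _).1 h
  have hd := det_eq γ
  have h1 : γ 0 0 * γ 1 1 - q * γ 0 1 * c = 1 := by rw [hc] at hd; linear_combination hd
  refine ⟨⟨!![γ 0 0, q * γ 0 1; c, γ 1 1], by rw [Matrix.det_fin_two_of]; exact h1⟩, ?_, rfl, rfl,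
    hc.symm, rfl⟩
  have h2 : (0 : ℤ) < q * 1 - 0 * 0 := by simpa using hq
  rw [sq_eq_gm, sq_eq_gm, dg, gm_mul h2 (by rw [hd]; exact one_pos)]
  change _ = gm (γ 0 0) (q * γ 0 1) c (γ 1 1) * _
  rw [gm_mul (by rw [h1]; exact one_pos) h2, hc]
  congr 1 <;> ring

namespace Lv3

variable {L q : ℕ} {Γ₁ Γ₀ Γ : Subgroup SL(2, ℤ)} (h : Lv3 L q Γ₁ Γ₀ Γ)
include h

theorem le₀ : Γ₀ ≤ Γ := fun γ hγ => ((h.zero γ).1 hγ).1

theorem sat {γ δ : SL(2, ℤ)} (hγ : γ ∈ Γ) (hc : ((δ 1 0 : ℤ) : ZMod L) = 0)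
    (hd : ((δ 1 1 : ℤ) : ZMod L) = (γ 1 1 : ℤ)) : δ ∈ Γ := by
  have h1 := h.dvd γ hγ
  have h2 := a_mul_d h1
  obtain ⟨i1, i2, i3, i4⟩ := inv_apply γ
  have : δ * γ⁻¹ ∈ Γ := h.one _ (by rw [mul_apply, i1, i3]; push_cast; rw [hc, h1]; ring)
    (by rw [mul_apply, i2, i4]; push_cast; rw [hc, hd]; linear_combination h2)
  simpa using mul_mem this hγ

theorem sat₁ {γ δ : SL(2, ℤ)} (hγ : γ ∈ Γ₁) (hδ : δ ∈ Γ₀)
    (hd' : ((δ 1 1 : ℤ) : ZMod L) = (γ 1 1 : ℤ))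
    (hd : ((δ 1 1 : ℤ) : ZMod q) = (γ 1 1 : ℤ)) : δ ∈ Γ₁ := by
  obtain ⟨g1, h1⟩ := (h.zero γ).1 (h.le hγ)
  obtain ⟨g2, hc⟩ := (h.zero δ).1 hδ
  have h2 := a_mul_d h1
  have h3 := a_mul_d (h.dvd γ g1)
  obtain ⟨i1, i2, i3, i4⟩ := inv_apply γ
  have : δ * γ⁻¹ ∈ Γ₁ := h.one₁ _ (mul_mem hδ (inv_mem (h.le hγ)))
    (by rw [mul_apply, i2, i4]; push_cast; rw [h.dvd δ g2, hd']; linear_combination h3)
    (by rw [mul_apply, i2, i4]; push_cast; rw [hc, hd]; linear_combination h2)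
  simpa using mul_mem this hγ

theorem norm {γ δ : SL(2, ℤ)} (hγ : γ ∈ Γ₀) (hδ : δ ∈ Γ₁) : γ⁻¹ * δ * γ ∈ Γ₁ := by
  obtain ⟨g1, c1⟩ := (h.zero _).1 hγ
  obtain ⟨g2, c2⟩ := (h.zero _).1 (h.le hδ)
  obtain ⟨i1, i2, i3, i4⟩ := inv_apply γ
  refine h.sat₁ hδ (mul_mem (mul_mem (inv_mem hγ) (h.le hδ)) hγ) ?_ ?_
  · rw [mul_apply, mul_apply, mul_apply, i3, i4]
    push_cast
    rw [h.dvd γ g1, h.dvd δ g2]
    linear_combination ((δ 1 1 : ℤ) : ZMod L) * a_mul_d (h.dvd γ g1)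
  · rw [mul_apply, mul_apply, mul_apply, i3, i4]
    push_cast
    rw [c1, c2]
    linear_combination ((δ 1 1 : ℤ) : ZMod q) * a_mul_d c1

theorem gamma_le : Gamma (L * q) ≤ Γ₁ := fun γ hγ => by
  obtain ⟨-, -, c, d⟩ := Gamma_mem.1 hγ
  have c' : ((γ 1 0 : ℤ) : ZMod (L * q)) = (0 : ℤ) := by simpa using c
  have d' : ((γ 1 1 : ℤ) : ZMod (L * q)) = (1 : ℤ) := by simpa using d
  refine h.one₁ _ ((h.zero γ).2 ⟨h.one _ ?_ ?_, ?_⟩) ?_ ?_
  · simpa using cast_of (dvd_mul_right L q) c'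
  · simpa using cast_of (dvd_mul_right L q) d'
  · simpa using cast_of (dvd_mul_left q L) c'
  · simpa using cast_of (dvd_mul_right L q) d'
  · simpa using cast_of (dvd_mul_left q L) d'

theorem tw_mem {s : ℤ} {γ δ : SL(2, ℤ)} (e : Tw s (L * q) γ δ) (hδ : δ ∈ Γ) : γ ∈ Γ := by
  obtain ⟨-, -, c, d⟩ := tw_dvd (dvd_mul_right L q) e
  exact h.sat hδ (by rw [← c, h.dvd δ hδ, mul_zero]) d.symm

theorem gal_mem (hM : 3 ≤ L * q) (σ : ℂ →+* ℂ) {f : FF} (hf : f ∈ Fx FF (Γ.map sq)) :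
    gal σ f ∈ Fx FF (Γ.map sq) := mem_Fx_map.2 fun γ hγ => by
  haveI : NeZero (L * q) := ⟨by omega⟩
  obtain ⟨s, hs⟩ := exists_zpow_zeta σ (L * q)
  obtain ⟨δ, e⟩ := exists_tw (isUnit_of_map_zeta hs) γ⁻¹
  have := gal_inv_smul hM hs (fun g hg => mem_Fx_map.1 hf g (h.le₀ (h.le (h.gamma_le hg)))) e
  rw [inv_inv, mem_Fx_map.1 hf _ (inv_mem (h.tw_mem e (inv_mem hγ)))] at this
  exact this.symm

theorem gal_comm (hM : 3 ≤ L * q) (σ : ℂ →+* ℂ) {γ : SL(2, ℤ)} (hγ : γ ∈ Γ₀) {f : FF}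
    (hf : f ∈ Fx FF (Γ₁.map sq)) : gal σ (γ • f) = γ • gal σ f := by
  haveI : NeZero (L * q) := ⟨by omega⟩
  obtain ⟨s, hs⟩ := exists_zpow_zeta σ (L * q)
  obtain ⟨δ, e⟩ := exists_tw (isUnit_of_map_zeta hs) γ⁻¹
  have := gal_inv_smul hM hs (fun g hg => mem_Fx_map.1 hf g (h.gamma_le hg)) e
  rw [inv_inv] at this
  rw [← this]
  congr 1
  obtain ⟨-, -, c, d⟩ := tw_dvd (dvd_mul_left q L) e
  have h1 := ((h.zero γ).1 hγ).2
  have h2 := a_mul_d h1
  obtain ⟨i1, i2, i3, i4⟩ := inv_apply γ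
  have c' : ((δ 1 0 : ℤ) : ZMod q) = 0 := by rw [← c, i3]; push_cast; rw [h1]; ring
  refine (smul_congr hf (h.one₁ _ (mul_mem ((h.zero δ).2
    ⟨h.tw_mem e (inv_mem (h.le₀ hγ)), c'⟩) hγ) ?_ ?_)).symm
  · obtain ⟨-, -, -, d'⟩ := tw_dvd (dvd_mul_right L q) e
    rw [mul_apply]; push_cast
    rw [h.dvd _ (h.tw_mem e (inv_mem (h.le₀ hγ))), ← d', i4]
    linear_combination a_mul_d (h.dvd _ (h.le₀ hγ))
  · rw [mul_apply]; push_cast; rw [c', ← d, i4]; linear_combination h2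

theorem idx₀ (hM : L * q ≠ 0) : (Γ₀.map sq).relIndex (Γ.map sq) ≠ 0 := by
  rw [Subgroup.relIndex_map_map_of_injective _ _ sq_injective]
  haveI : NeZero (L * q) := ⟨hM⟩
  haveI : Γ₀.FiniteIndex := Subgroup.finiteIndex_of_le (h.gamma_le.trans h.le)
  exact Subgroup.FiniteIndex.index_ne_zero (H := Γ₀.subgroupOf Γ)

theorem idx₁ (hM : L * q ≠ 0) : (Γ₁.map sq).relIndex (Γ₀.map sq) ≠ 0 := by
  rw [Subgroup.relIndex_map_map_of_injective _ _ sq_injective]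
  haveI : NeZero (L * q) := ⟨hM⟩
  haveI : Γ₁.FiniteIndex := Subgroup.finiteIndex_of_le h.gamma_le
  exact Subgroup.FiniteIndex.index_ne_zero (H := Γ₁.subgroupOf Γ₀)

end Lv3

theorem exists_W {L q : ℕ} (hc : Nat.Coprime L q) : ∃ w w' : SL(2, ℤ), ∃ u t : ℤ,
    u * q - t * L = 1 ∧ (w 0 0 = 1 ∧ w 0 1 = t ∧ w 1 0 = L ∧ w 1 1 = u * q) ∧
      (w' 0 0 = q ∧ w' 0 1 = t ∧ w' 1 0 = L ∧ w' 1 1 = u) := by
  obtain ⟨a, b, e⟩ := Nat.isCoprime_iff_coprime.mpr hc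
  exact ⟨⟨!![1, -a; L, b * q], by rw [Matrix.det_fin_two_of]; linear_combination e⟩,
    ⟨!![q, -a; L, b], by rw [Matrix.det_fin_two_of]; linear_combination e⟩, b, -a,
    by linear_combination e, ⟨rfl, rfl, rfl, rfl⟩, rfl, rfl, rfl, rfl⟩

theorem cast_L {L q : ℕ} {u t : ℤ} (e : u * q - t * L = 1) : (u : ZMod L) * q = 1 := by
  have := congrArg (Int.cast : ℤ → ZMod L) e
  push_cast at this
  rwa [ZMod.natCast_self, mul_zero, sub_zero] at this

theorem cast_q {L q : ℕ} {u t : ℤ} (e : u * q - t * L = 1) : (t : ZMod q) * L = -1 := by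
  have := congrArg (Int.cast : ℤ → ZMod q) e
  push_cast at this
  rw [ZMod.natCast_self, mul_zero] at this
  linear_combination -this

theorem zeta_dvd {L q : ℕ} (hL : L ≠ 0) (hq : q ≠ 0) : Wp.zeta (L * q) ^ L = Wp.zeta q := by
  have h1 : (L : ℂ) ≠ 0 := Nat.cast_ne_zero.2 hL
  have h2 : (q : ℂ) ≠ 0 := Nat.cast_ne_zero.2 hq
  rw [Wp.zeta, Wp.zeta, ← Complex.exp_nat_mul]
  congr 1
  push_cast
  field_simp

variable {v : Valuation ℂ ℝ≥0} {W : Valuation FF ℝ≥0}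

theorem root_eq_one {L : ℕ} (hL : v (L : ℂ) = 1) {z : ℂ} (hz : z ^ L = 1) (h : v (z - 1) < 1) :
    z = 1 := by
  by_contra h1
  have h2 : ∑ i ∈ Finset.range L, z ^ i = 0 := by
    have := mul_geom_sum z L
    rw [hz, sub_self, mul_eq_zero] at this
    exact this.resolve_left (sub_ne_zero.2 h1)
  have h3 : v (∑ i ∈ Finset.range L, (z ^ i - 1)) < 1 :=
    Valuation.map_sum_lt _ one_ne_zero fun i _ => P1.pow (W := v) h i
  rw [Finset.sum_sub_distrib, h2, Finset.sum_const, Finset.card_range, nsmul_one, zero_sub,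
    Valuation.map_neg, hL] at h3
  exact lt_irrefl _ h3

/-- inertia at `q` fixes the roots of unity of order prime to `q` -/
theorem exp_one {L q : ℕ} (hL : L ≠ 0) (hq : q ≠ 0) (hv : v (L : ℂ) = 1) {τ : ℂ →+* ℂ}
    (hτ : ∀ c, v c ≤ 1 → v (τ c - c) < 1) {s : ℤ}
    (hs : τ (Wp.zeta (L * q)) = Wp.zeta (L * q) ^ s) : (s : ZMod L) = 1 := by
  have h0 := Wp.zeta_ne_zero L
  have h1 : τ (Wp.zeta L) = Wp.zeta L ^ s := by
    rw [← zeta_dvd hq hL, mul_comm q, map_pow, hs, ← zpow_natCast, ← zpow_natCast, ← zpow_mul,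
      ← zpow_mul, mul_comm s]
  have h2 : v (Wp.zeta L) = 1 := val_root (Nat.pos_of_ne_zero hL) (by rw [Wp.zeta_pow L hL, map_one])
  have h3 : Wp.zeta L ^ (s - 1) = 1 := root_eq_one hv
    (by rw [← zpow_natCast, ← zpow_mul, mul_comm, zpow_mul, zpow_natCast, Wp.zeta_pow L hL, one_zpow])
    (by rw [zpow_sub₀ h0, zpow_one, ← h1]; exact P1.of_sub h2 (hτ _ h2.le))
  have := (ZMod.intCast_eq_intCast_iff_dvd_sub 1 s L).2
    (((Wp.isPrimitiveRoot_zeta hL).zpow_eq_one_iff_dvd _).1 h3)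
  rw [← this, Int.cast_one]

/-- the decomposition group of the Gauss norm lies in `Γ₀(q)` -/
theorem borel (hG : IsG v qx W) {L q : ℕ} {Γ₁ Γ₀ Γ : Subgroup SL(2, ℤ)} (h : Lv3 L q Γ₁ Γ₀ Γ)
    (hq : q.Prime) (hc : Nat.Coprime L q) (hv : v (q : ℂ) < 1) {γ : SL(2, ℤ)} (hγ : γ ∈ Γ)
    (hd : Dec W (Γ₀.map Mf.sq) (Mf.sq γ)) : γ ∈ Γ₀ := by
  haveI : Fact q.Prime := ⟨hq⟩
  by_contra hn
  have hc0 : ((γ 1 0 : ℤ) : ZMod q) ≠ 0 := fun h0 => hn ((h.zero γ).2 ⟨hγ, h0⟩)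
  obtain ⟨w, w', u, t, e, ⟨a1, a2, a3, a4⟩, b1, b2, b3, b4⟩ := exists_W hc
  obtain ⟨d1, d2, d3, d4⟩ := dg_val hq.pos
  obtain ⟨N, hN, hl⟩ := exists_level 1 one_ne_zero (dg q)
  have hF := hl 4 _ isF_e4
  have hE : IsF N 4 e4 := isF_e4.mono (one_dvd _)
  have hq0 : (q : ℂ) ≠ 0 := Nat.cast_ne_zero.2 hq.ne_zero
  have hvq : 0 < v (q : ℂ) := pos_iff_ne_zero.2 (by simpa using hq.ne_zero)
  set x := quo (e4 ∣[(4 : ℤ)] rr (dg q)) e4 with hx
  have hxm : x ∈ Fx FF (Γ₀.map Mf.sq) := mem_Fx_map.2 fun δ hδ => by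
    obtain ⟨δ', e1, -⟩ := dg_conj hq.pos ((h.zero _).1 (inv_mem hδ)).2
    rw [← inv_inv δ, hx, inv_sl_smul_quo hN hF hE, isF_e4.slash_one_level, ← slash_sq,
      ← SlashAction.slash_mul, ← map_mul, e1, map_mul, SlashAction.slash_mul, slash_sq,
      isF_e4.slash_one_level]
  have hW1 : W x < 1 := by
    have := W_quo_e4 hG d3 (g' := 1) rfl
    rw [map_one, SlashAction.slash_one, jf_val d3, jf_val (g := 1) rfl, d1, d4] at this
    rw [hx, this]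
    simp only [OneMemClass.coe_one, Units.val_one, Matrix.one_apply_eq, Rat.cast_one,
      Rat.cast_natCast, one_pow, div_one, map_pow]
    exact pow_lt_one₀ zero_le hv three_ne_zero
  have hqq : (0 : ℤ) < q * q - 0 * 0 := by simpa using hq.ne_zero
  have hz := gm_val hqq
  have hz10 : ((gm q 0 0 q : GQ) : GL (Fin 2) ℚ) 1 0 = 0 := by rw [hz]; simp
  have e2 : dg q * (Mf.sq w * dg q) = Mf.sq w' * gm q 0 0 q := by
    have h2 : (0 : ℤ) < q * 1 - 0 * 0 := by simpa using hq.pos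
    have h3 : (0 : ℤ) < 1 * (u * q) - t * L := by rw [one_mul, e]; exact one_pos
    rw [sq_eq_gm, sq_eq_gm, a1, a2, a3, a4, b1, b2, b3, b4, dg, ← mul_assoc, gm_mul h2 h3,
      gm_mul (by nlinarith [hq.pos]) h2, gm_mul (by rw [mul_comm, e]; exact one_pos) hqq]
    congr 1 <;> ring
  have hW2 : 1 < W (w⁻¹ • x) := by
    rw [← W_upper hG d3, sl_smul, map_inv, ← mul_smul, ← mul_inv_rev, hx, inv_smul_quo hN hF hE,
      ← SlashAction.slash_mul, ← map_mul, e2, map_mul, map_mul, SlashAction.slash_mul,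
      SlashAction.slash_mul, slash_sq, slash_sq, isF_e4.slash_one_level, isF_e4.slash_one_level,
      W_quo_e4 hG hz10 d3, jf_val hz10, jf_val d3, d1, d4, hz]
    simp only [Matrix.of_apply, Matrix.cons_val', Matrix.cons_val_zero, Matrix.cons_val_one,
      Matrix.cons_val_fin_one, Int.cast_natCast, Rat.cast_natCast, Rat.cast_one, div_one]
    rw [show (q : ℂ) ^ 3 / q / q ^ 3 = (q : ℂ)⁻¹ by field_simp, map_inv₀]
    exact (one_lt_inv₀ hvq).2 hv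
  obtain ⟨k, hk⟩ := ZMod.intCast_surjective (((γ 0 0 : ℤ) : ZMod q) / ((γ 1 0 : ℤ) : ZMod q))
  let T : SL(2, ℤ) := ⟨!![1, k; 0, 1], by rw [Matrix.det_fin_two_of]; ring⟩
  have hT : T ∈ Γ := h.one _ (by simp [T]) (by simp [T])
  have hw : w ∈ Γ := h.one _ (by rw [a3]; simp) (by rw [a4]; push_cast; exact cast_L e)
  have hδ : w * T⁻¹ * γ ∈ Γ₀ := by
    refine (h.zero _).2 ⟨mul_mem (mul_mem hw (inv_mem hT)) hγ, ?_⟩
    obtain ⟨i1, i2, i3, i4⟩ := inv_apply T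
    rw [mul_apply, mul_apply, mul_apply, i1, i2, i3, i4, a3, a4]
    simp only [T, Matrix.SpecialLinearGroup.coe_mk, Matrix.of_apply, Matrix.cons_val',
      Matrix.cons_val_zero, Matrix.cons_val_one, Matrix.cons_val_fin_one]
    push_cast
    rw [ZMod.natCast_self, hk]
    field_simp
    ring
  have h5 := hd x hxm
  rw [← sl_smul, ← smul_congr hxm (γ := w * T⁻¹) hδ, mul_inv_rev, inv_inv, mul_smul, sl_smul,
    ← inv_inv (Mf.sq T), W_upper hG (by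
      rw [← map_inv, sq_apply, (inv_apply T).2.2.1]; simp [T])] at h5
  rw [h5] at hW2
  exact lt_asymm hW1 hW2

/-- **the function side of the local statement at `q`** -/
theorem geo (hG : IsG v qx W) {L q : ℕ} {Γ₁ Γ₀ Γ : Subgroup SL(2, ℤ)} (h : Lv3 L q Γ₁ Γ₀ Γ)
    (hq : q.Prime) (hc : Nat.Coprime L q) (hM : 3 ≤ L * q) (hv : v (q : ℂ) < 1) {n : ℕ}
    (hn : 0 < n) {σ τ : ℂ ≃+* ℂ} (hσv : ∀ c, v (σ c) = v c)
    (hσ : ∀ c, v c ≤ 1 → v (σ c - c ^ q) < 1) (hτ : ∀ c, v c ≤ 1 → v (τ c - c) < 1) {s : ℤ}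
    (hs : τ (Wp.zeta (L * q)) = Wp.zeta (L * q) ^ s) {χ d : SL(2, ℤ)}
    (hχ0 : ((χ 1 0 : ℤ) : ZMod (L * q)) = 0) (hχ1 : ((χ 1 1 : ℤ) : ZMod (L * q)) = s)
    (hd : ((d 1 0 : ℤ) : ZMod L) = 0) (hd' : ((d 1 1 : ℤ) : ZMod L) = q)
    (hidx : Nat.Coprime ((Γ₁.map Mf.sq).relIndex (Γ₀.map Mf.sq)) q) :
    ∃ ω : GQ, Geo W CC n q (gal σ) (gal τ) (Γ₁.map Mf.sq) (Γ₀.map Mf.sq) (Γ.map Mf.sq) ω
      (dg q)⁻¹ (Mf.sq d) (Mf.sq χ)⁻¹ := by
  have hM0 : L * q ≠ 0 := by omega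
  haveI : NeZero (L * q) := ⟨hM0⟩
  obtain ⟨w, w', u, t, e, ⟨a1, a2, a3, a4⟩, b1, b2, b3, b4⟩ := exists_W hc
  obtain ⟨d1, d2, d3, d4⟩ := dg_val hq.pos
  have eL := cast_L e
  have eq := cast_q e
  have hw : w ∈ Γ := h.one _ (by rw [a3]; simp) (by rw [a4]; push_cast; exact eL)
  have hs1 : (s : ZMod L) = 1 :=
    exp_one (left_ne_zero_of_mul hM0) hq.ne_zero (v_nat_eq hv hc) (τ := (τ : ℂ →+* ℂ)) hτ hs
  have hχ0' : ((χ 1 0 : ℤ) : ZMod (L * q)) = (0 : ℤ) := by simpa using hχ0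
  have hχL : ((χ 1 1 : ℤ) : ZMod L) = 1 := (cast_of (dvd_mul_right L q) hχ1).trans hs1
  have hχ' : ((χ 1 1 : ℤ) : ZMod q) = s := cast_of (dvd_mul_left q L) hχ1
  have hχ : χ ∈ Γ₀ := (h.zero _).2 ⟨h.one _ (by simpa using cast_of (dvd_mul_right L q) hχ0') hχL,
    by simpa using cast_of (dvd_mul_left q L) hχ0'⟩
  have hnorm : ∀ γ ∈ Γ₀.map Mf.sq, ∀ δ ∈ Γ₁.map Mf.sq, γ⁻¹ * δ * γ ∈ Γ₁.map Mf.sq := by
    rintro _ ⟨γ, hγ, rfl⟩ _ ⟨δ, hδ, rfl⟩
    exact ⟨_, h.norm hγ hδ, by simp⟩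
  refine ⟨(Mf.sq w * dg q)⁻¹,
    { cst := cst hG hq.ne_zero hv
      pos := hn
      prim := ⟨algebraMap ℂ FF (Wp.zeta n),
        (Wp.isPrimitiveRoot_zeta hn.ne').map_of_injective (algebraMap ℂ FF).injective, ?_⟩
      le₁ := Subgroup.map_mono h.le
      le₀ := Subgroup.map_mono h.le₀
      fin₁ := h.idx₁ hM0
      fin₀ := h.idx₀ hM0
      norm := hnorm
      unit := fun m hm => ?_
      borel := ?_
      iso := W_gal hG hσv
      mem := fun f hf => h.gal_mem hM _ hf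
      comm := ?_
      inert := fun f hf => np_of_pr hG hn _ (pr_inertia hτ (hG.rep hf))
      τmem := fun f hf => mem_Fx_map.2 fun γ hγ => by
        rw [← h.gal_comm hM _ (h.le hγ) hf, mem_Fx_map.1 hf γ hγ]
      τχ := fun f hf => by
        rw [← map_inv, ← sl_smul, ← sl_smul, h.gal_comm hM _ (inv_mem hχ) hf]
      χmem := fun f hf => smul_mem_Fx (hnorm _ (inv_mem ⟨χ, hχ, rfl⟩)) hf
      ωmem := fun f hf => smul_mem_Fx ?_ hf
      τω := fun f hf => ?_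
      dmem := fun f hf => smul_mem_Fx ?_ hf
      ωα := fun f hf => by
        rw [mul_inv_rev, mul_smul, ← map_inv, ← sl_smul, mem_Fx_map.1 hf _ (inv_mem hw)]
      ωβ := fun f hf => ?_
      frob := fun f hf => ?_ }⟩
  · rw [gal_algebraMap, ← map_pow, ← map_sub, W_const hG]
    refine hσ _ (le_of_eq ?_)
    have := congrArg v (Wp.zeta_pow n hn.ne')
    rwa [map_pow, map_one, pow_eq_one_iff_left hn.ne'] at this
  · rw [← map_natCast (algebraMap ℂ FF), W_const hG]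
    exact v_nat_eq hv (Nat.Coprime.coprime_dvd_left hm hidx)
  · rintro _ ⟨γ, hγ, rfl⟩ hd
    exact ⟨γ, borel hG h hq hc hv hγ hd, rfl⟩
  · rintro _ ⟨γ, hγ, rfl⟩ f hf
    exact h.gal_comm hM _ hγ hf
  · rintro _ ⟨γ, hγ, rfl⟩
    obtain ⟨hγ1, hγ2⟩ := (h.zero _).1 (h.le hγ)
    obtain ⟨δ, e1, f1, f2, f3, f4⟩ := dg_conj hq.pos hγ2
    have hδ : δ ∈ Γ := h.sat hγ1 (by
      have := h.dvd γ hγ1
      rw [← f3] at this
      push_cast at this
      linear_combination (u : ZMod L) * this - ((δ 1 0 : ℤ) : ZMod L) * eL) (by rw [f4])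
    obtain ⟨i1, i2, i3, i4⟩ := inv_apply w
    refine ⟨w * δ * w⁻¹, h.flip γ hγ _ ((h.zero _).2
      ⟨mul_mem (mul_mem hw hδ) (inv_mem hw), ?_⟩) ?_ ?_, ?_⟩
    · rw [mul_apply, mul_apply, mul_apply, i1, i3, a3, a4, f2]
      push_cast
      rw [ZMod.natCast_self]; ring
    · rw [mul_apply, mul_apply, mul_apply, i2, i4, a1, a2, a3, a4, f4]
      push_cast
      rw [ZMod.natCast_self, h.dvd δ hδ]
      linear_combination ((γ 1 1 : ℤ) : ZMod L) * eL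
    · rw [mul_apply, mul_apply, mul_apply, i2, i4, a1, a2, a3, a4, f1, f2]
      push_cast
      rw [ZMod.natCast_self]
      linear_combination -((γ 0 0 : ℤ) : ZMod q) * eq
    · rw [inv_inv, mul_assoc (Mf.sq w), e1, map_mul, map_mul, map_inv]; group
  · have hs' : (τ : ℂ →+* ℂ) (Wp.zeta (L * q)) = Wp.zeta (L * q) ^ s := hs
    obtain ⟨δ, e1⟩ := exists_tw (isUnit_of_map_zeta hs') w
    have h1 := gal_inv_smul hM hs' (fun g hg => mem_Fx_map.1 hf g (h.gamma_le hg)) e1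
    rw [mul_inv_rev, mul_smul, mul_smul, gal_diag _ d3 d2, ← map_inv, ← map_inv, ← sl_smul,
      ← sl_smul, ← sl_smul, ← h1, ← mul_smul, ← mul_inv_rev]
    refine congrArg (fun y : FF => (dg q)⁻¹ • gal (τ : ℂ →+* ℂ) y) ?_
    obtain ⟨-, t2, t3, t4⟩ := tw_dvd (dvd_mul_left q L) e1
    obtain ⟨i1, i2, i3, i4⟩ := inv_apply δ
    have c1 := ((h.zero _).1 hχ).2
    obtain ⟨t5, -⟩ := tw_dvd (dvd_mul_right L q) e1
    rw [a1] at t5
    rw [a4] at t4
    rw [a2] at t2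
    push_cast at t4
    rw [ZMod.natCast_self, mul_zero] at t4
    refine smul_congr hf (h.one₁ _ ((h.zero _).2 ⟨mul_mem (mul_mem (h.le₀ hχ) hw)
      (inv_mem (h.tw_mem e1 hw)), ?_⟩) ?_ ?_)
    · rw [mul_apply, mul_apply, mul_apply, i1, i3, a4]
      push_cast
      rw [ZMod.natCast_self, c1, ← t4]; ring
    · rw [mul_apply, mul_apply, mul_apply, i2, i4, a3, a4]
      push_cast
      rw [ZMod.natCast_self, h.dvd _ (h.le₀ hχ), hχL, ← t5]
      push_cast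
      linear_combination eL
    · rw [mul_apply, mul_apply, mul_apply, i2, i4, a3, a4]
      push_cast
      rw [ZMod.natCast_self, c1, hχ']
      linear_combination (L : ZMod q) * t2 - eq
  · rintro _ ⟨γ, hγ, rfl⟩
    obtain ⟨i1, i2, i3, i4⟩ := inv_apply d
    have c1 := h.dvd γ hγ
    refine ⟨d⁻¹ * γ * d, h.sat hγ ?_ ?_, by simp⟩
    · rw [mul_apply, mul_apply, mul_apply, i3, i4]
      push_cast
      rw [hd, c1]; ring
    · rw [mul_apply, mul_apply, mul_apply, i3, i4]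
      push_cast
      rw [hd, c1]
      linear_combination ((γ 1 1 : ℤ) : ZMod L) * a_mul_d hd
  · have hqq : (0 : ℤ) < q * q - 0 * 0 := by simpa using hq.ne_zero
    have hz := gm_val hqq
    have e2 : dg q * (Mf.sq w * dg q) = Mf.sq w' * gm q 0 0 q := by
      have h2 : (0 : ℤ) < q * 1 - 0 * 0 := by simpa using hq.pos
      have h3 : (0 : ℤ) < 1 * (u * q) - t * L := by rw [one_mul, e]; exact one_pos
      rw [sq_eq_gm, sq_eq_gm, a1, a2, a3, a4, b1, b2, b3, b4, dg, ← mul_assoc, gm_mul h2 h3,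
        gm_mul (by nlinarith [hq.pos]) h2, gm_mul (by rw [mul_comm, e]; exact one_pos) hqq]
      congr 1 <;> ring
    rw [← mul_smul, ← mul_inv_rev, e2, mul_inv_rev, mul_smul,
      scal_smul (by rw [hz]; simp) (by rw [hz]; simp) (by rw [hz]; simp), ← map_inv, ← sl_smul,
      ← sl_smul]
    refine smul_congr hf (h.one _ ?_ ?_)
    · rw [mul_apply, b3]
      push_cast
      rw [ZMod.natCast_self, hd]; ring
    · rw [mul_apply, b3, b4]
      push_cast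
      rw [ZMod.natCast_self, hd']; linear_combination eL
  · have := pr_dg hq hv hσv hσ d3 (by rw [d1, d4, div_one]) d2 (f := σ • f)
      (hG.rep (by rw [aut_smul]; simpa using hf))
    rw [inv_smul_smul, aut_smul, ← gal_diag _ d3 d2] at this
    exact np_of_pr hG hn _ this

end Crest.Agent.T15.Twi
end
end

-- ▼ part T15/TwiE_21
section

/-!
# T15 / TwiE (helper21): inertia at an auxiliary prime on the localised cohomology

`twi_K` (any step `Stp` and covering `Cov`), `tw_EQ` (the Taylor-Wiles level of `Aux`).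
-/

set_option autoImplicit false
set_option linter.all false
set_option maxHeartbeats 400000

noncomputable section

namespace Crest.Agent.T15.Twi

open scoped NNReal MatrixGroups
open CongruenceSubgroup
open Crest.Agent.T15.Mf Crest.Agent.T15.Hs Crest.Agent.T15.Cg Crest.Agent.T15.Lv
open Crest.Agent.T15.Bet Crest.Agent.T15.Hk Crest.Agent.R007

variable {n : ℕ} [NeZero n] {v : Valuation ℂ ℝ≥0}

theorem isK_conj {Γ Γ' : Subgroup GQ} {x : FF} {φ : HH Γ (ZMod n)} (h : IsK n Γ x φ) {g : GQ}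
    (hg : ∀ γ ∈ Γ', g * γ * g⁻¹ ∈ Γ) {ψ : HH Γ' (ZMod n)}
    (hψ : ∀ γ ∈ Γ', val ψ γ = val φ (g * γ * g⁻¹)) : IsK n Γ' (g⁻¹ • x) ψ := by
  have := h.corr_e (e_mem_corr (O := ℤ) hg)
  rwa [show T (ZMod n) ⟨_, e_mem_corr (O := ℤ) hg⟩ φ = ψ from HH.ext fun γ hγ => by
    rw [val_T_e _ _ hγ (hg γ hγ), hψ γ hγ]] at this

theorem pr_of_P1 {W : Valuation FF ℝ≥0} (h : IsG v qx W) {u : FF} (hu : P1 W u) : Pr v (qx u) := by
  by_cases h0 : u - 1 = 0
  · rw [sub_eq_zero.1 h0, map_one]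
    exact ⟨1, 1, 1, one_ne_zero, UnS.one, fun g => by simp, by simp⟩
  obtain ⟨c, a, b, ha, hb, e, hw⟩ := h _ h0
  refine ⟨1, b + HahnSeries.C c * a, b, one_ne_zero, hb, fun g => ?_, ?_⟩
  · rw [HahnSeries.coeff_add, add_sub_cancel_left, HahnSeries.C_mul_eq_smul, HahnSeries.coeff_smul,
      smul_eq_mul, map_mul, ← hw]
    exact mul_lt_one_of_nonneg_of_lt_one_left zero_le hu (ha.1 g)
  · rw [map_sub, map_one] at e
    rw [map_one]
    linear_combination e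

theorem pow_of_inj {L : ℕ} {H : Subgroup (ZMod L)ˣ} (hL : L ≠ 0)
    {E : Set (HH (Gq L H) (ZMod n))} (hI : Inj v n _ E) {φ : HH (Gq L H) (ZMod n)} (hφ : φ ∈ E)
    {f : FF} (hf : IsK n _ f φ) (hp : NP (gw v) (Gq L H) n f) :
    ∃ g ∈ Fx FF (Gq L H), f = g ^ n := by
  obtain ⟨g, hg, hp⟩ := hp
  have hg0 : g ≠ 0 := by
    rintro rfl
    exact hp.ne (by rw [zero_pow (NeZero.ne n), div_zero])
  have h1 := hf.div (IsK.of_fixed hg0 hg)
  rw [sub_zero] at h1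
  obtain rfl := hI _ _ hφ h1 (pr_of_P1 (isG v) hp)
  obtain ⟨y, hy, e⟩ := hf.exists_pow hL fun γ hγ => sq_mem.2 (Gamma_le_GH hγ)
  exact ⟨y, hy, e.symm⟩

variable {O : Type*} [CommRing O]

theorem eq_zero_of_LN {M : Type*} [AddCommGroup M] [Module O M] {f : Module.End O M} {a b : O}
    {x : M} (h : LN (f - a • 1) x) (e : f x = b • x) (hu : IsUnit (a - b)) : x = 0 := by
  have h1 : LN ((b - a) • (1 : Module.End O M)) x := h.of_eq
    ((Commute.one_right _).smul_right _) (by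
      rw [LinearMap.sub_apply, e, LinearMap.smul_apply, LinearMap.smul_apply, sub_smul]; rfl)
  obtain ⟨k, hk⟩ := h1.of_smul (by rw [← neg_sub]; exact hu.neg)
  simpa using hk

theorem unit_of_Un {q s α : O} (h : Lev.Un q s α) (hq : IsNilpotent (q - 1)) :
    IsUnit (s ^ 2 - (q + 1) ^ 2) := by
  have h1 : IsNilpotent (-(4 * (α ^ 2 - s * α + q)) - (q - 1) * (q - 1)) :=
    (Commute.all _ _).isNilpotent_sub ((Commute.all _ _).isNilpotent_mul_left h.h0).neg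
      ((Commute.all _ _).isNilpotent_mul_left hq)
  have := h1.isUnit_add_left_of_commute (h.h1.pow 2) (Commute.all _ _)
  rwa [show (s - 2 * α) ^ 2 + (-(4 * (α ^ 2 - s * α + q)) - (q - 1) * (q - 1)) =
    s ^ 2 - (q + 1) ^ 2 by ring] at this

variable {A : Type*} [AddCommGroup A] [Module O A] [Finite A]

/-- **inertia at the auxiliary prime `q`** -/
theorem twi_K {L M q : ℕ} {H : Subgroup (ZMod L)ˣ} {H₀ H₁ : Subgroup (ZMod M)ˣ} (h : Stp q H H₀)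
    (hL : L ≠ 0) (h4 : 4 ∣ L) (hH : ∀ u ∈ H, ZMod.unitsMap h4 u = 1) (hle : H₁ ≤ H₀)
    (hfl : ∀ u ∈ H₁, ∀ u', ZMod.unitsMap h.dvd u' = ZMod.unitsMap h.dvd u →
      ZMod.unitsMap h.dvd' (u' * u) = 1 → u' ∈ H₁)
    {Δ : Type*} [CommGroup Δ] [Fintype Δ] {π : Gq M H₀ →* Δ} (hc : Cov π (Gq M H₁))
    {p k : ℕ} (hp : p.Prime) (hΔ : IsPGroup p Δ) (hpq : p ≠ q) (hm : ∀ c : A, n • c = 0)
    (hn : n ∣ p ^ k) [Finite (HH (Gq M H₁) A)] (hv : v (q : ℂ) < 1) {σ τ : ℂ ≃+* ℂ}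
    (hσv : ∀ c, v (σ c) = v c) (hσ : ∀ c, v c ≤ 1 → v (σ c - c ^ q) < 1)
    (hτ : ∀ c, v c ≤ 1 → v (τ c - c) < 1) {s : ℤ} (hs : τ (Wp.zeta M) = Wp.zeta M ^ s)
    (g : Gq M H₀) (hg : (dU M g.1 : ZMod M) = s) {t : Module.End O (HH (Gq M H₁) A)}
    (ht : ActK n (AddMonoidHom.id _) τ t) {S : Module.End O (HH (Gq L H) A)}
    (hS : ActK n (AddMonoidHom.id _) σ S)
    (E₁ : Submodule O (HH (Gq M H₁) A)) (E : Submodule O (HH (Gq L H) A))
    (tE : ∀ x ∈ E₁, t x ∈ E₁) (dE : ∀ δ, ∀ x ∈ E₁, hc.dia O A δ x ∈ E₁)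
    (SE : ∀ x ∈ E, S x ∈ E) (TE : ∀ x ∈ E, TT O A L H q x ∈ E)
    (old : ∀ x ∈ E₁, (∀ δ, hc.dia O A δ x = x) → ∃ y ∈ E, ∃ z ∈ E,
      x = res O A hc.le (res O A h.le y) + res O A hc.le (h.dgn O A z))
    {E' : Set (HH (Gq L H) (ZMod n))} (hI : Inj v n _ E')
    (hE : ∀ (l : A →+ ZMod n), ∀ x ∈ E, l.comp x ∈ E') (hq : IsUnit (q : O)) {a : O}
    (hu : IsUnit (a ^ 2 - (q + 1) ^ 2)) (hN : ∀ x ∈ E, LN (TT O A L H q - a • 1) x) :
    ∀ x ∈ E₁, t (t x - hc.dia O A (π g) x) = t x - hc.dia O A (π g) x := by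
  haveI : Fact p.Prime := ⟨hp⟩
  obtain rfl := h.eq
  have hq' := h.prime
  have hM : L * q ≠ 0 := mul_ne_zero hL hq'.ne_zero
  have hcop : Nat.Coprime L q := ((Nat.Prime.coprime_iff_not_dvd hq').2 h.ndvd).symm
  have h4' : 4 ∣ L * q := h4.mul_right q
  have hH₁ : ∀ u ∈ H₁, ZMod.unitsMap h4' u = 1 := fun u hu => by
    rw [← hH _ ((h.mem h.dvd u).1 (hle hu)), ← MonoidHom.comp_apply, ZMod.unitsMap_comp]
  have hex₁ := hex_Gq (n := n) hM h4' hH₁
  have hex := hex_Gq (n := n) hL h4 hH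
  obtain ⟨g, χ, hχ, rfl⟩ := g
  have hidx : Nat.Coprime ((Gq (L * q) H₁).relIndex (Gq (L * q) H₀)) q := by
    have e : (Gq (L * q) H₁).subgroupOf (Gq (L * q) H₀) = π.ker := by
      ext γ; rw [Subgroup.mem_subgroupOf, MonoidHom.mem_ker, hc.ker]
    obtain ⟨j, hj⟩ := hΔ.exists_card_eq
    rw [Subgroup.relIndex, e, Subgroup.index_ker, MonoidHom.range_eq_top.2 hc.surj,
      Subgroup.card_top, hj]
    exact Nat.Coprime.pow_left _ ((Nat.coprime_primes hp hq').2 hpq)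
  obtain ⟨ω, hG⟩ := geo (isG v) (lv3_GH hcop rfl (h.mem _) hle hfl) hq' hcop
    (le_trans (by norm_num) (Nat.le_of_dvd (Nat.pos_of_ne_zero hM) h4')) hv (NeZero.pos n) hσv hσ
    hτ hs (χ := χ) (d := sgZ L q) hχ.1 (by rw [← hg]; exact (dU_sq (GH_mono le_top hχ)).symm)
    (sgZ_mem L q).1 (by rw [sgZ_d h.cop, Int.cast_natCast]) hidx
  have hdia : ∀ (γ : Gq (L * q) H₀) (l : A →+ ZMod n) x f, IsK n (Gq (L * q) H₁) f (l.comp x) →
      IsK n (Gq (L * q) H₁) (γ.1⁻¹ • f) (l.comp (hc.dia O A (π γ) x)) := fun γ l x f hf =>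
    isK_conj hf (fun δ hδ => hc.conj_mem γ hδ) fun δ hδ => by
      rw [val_comp, val_comp, hc.val_dia γ x hδ]
  have hqx : ∀ x : HH (Gq L H) A, q • x = 0 → x = 0 := fun x hx => by
    rwa [← Nat.cast_smul_eq_nsmul O, hq.smul_eq_zero] at hx
  have hTS : ∀ x, TT O A L H q (S x) = S (TT O A L H q x) := fun x =>
    (comm_V hm Function.injective_id hex hS ⟨Tp ℤ L q, Tp_corr hq'⟩
      (fun _ h0 hf => aut_Tp hL hq'.ne_zero σ h0 hf) (fun x => TT_int hq' x) x).symm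
  have hES : ∀ x ∈ E, S (S x) - TT O A L H q (S x) + q • x = 0 := fun x hx => by
    have : TT O A L H q (S x) = S (S x) + q • x := Bc.HH_sep hm fun l => by
      obtain ⟨f, hf⟩ := hex (l.comp x)
      have e : l.comp (S (S x) + q • x) = l.comp (S (S x)) + q • l.comp x := by
        rw [AddMonoidHom.comp_add]
        exact congrArg _ (AddMonoidHom.ext fun γ => map_nsmul l q _)
      have h1 := hS l x f hf
      rw [e]
      refine es_K hI (isG v) hq' h.ndvd hv hσv hσ h1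
        (by rw [TT_int hq', ← Bc.comp_T]; exact h1.corr ⟨Tp ℤ L q, Tp_corr hq'⟩) (hS l _ _ h1) ?_ ?_
      · rw [← aut_Dia hL σ _ hf.fixed, inv_smul_smul, Dia, nrm_e]
        exact isK_conj hf (fun γ hγ => conj_mem (sg_mem L q) hγ) fun γ hγ =>
          (h.val_sg _ _ hγ).symm
      · rw [← e, ← AddMonoidHom.comp_sub]
        exact hE l _ (sub_mem (TE _ (SE x hx)) (add_mem (SE _ (SE x hx)) (nsmul_mem hx q)))
    rw [this]; abel
  have hu' : IsUnit (a - (q + 1)) ∧ IsUnit (a - -(q + 1)) := by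
    rw [← IsUnit.mul_iff]
    rwa [show (a - (q + 1)) * (a - -(q + 1)) = a ^ 2 - (q + 1) ^ 2 by ring]
  have u1 : ∀ x ∈ E, TT O A L H q x - q • x - x = 0 → x = 0 := fun x hx e =>
    eq_zero_of_LN (hN x hx) (by
      rw [add_smul, one_smul, Nat.cast_smul_eq_nsmul, ← sub_eq_zero, ← e]; abel) hu'.1
  have u2 : ∀ x ∈ E, TT O A L H q (TT O A L H q x) - (q + 1) ^ 2 • x = 0 → x = 0 := fun x hx e => by
    refine u1 x hx (eq_zero_of_LN (hN _ (sub_mem (sub_mem (TE x hx) (nsmul_mem hx q)) hx)) ?_ hu'.2)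
    rw [map_sub, map_sub, sub_eq_zero.1 e, map_nsmul, neg_smul, ← Nat.cast_succ,
      Nat.cast_smul_eq_nsmul]
    generalize TT O A L H q x = y
    module
  have r₁ : Rel (Gq (L * q) H₁) n fun (l : A →+ ZMod n) (x : HH (Gq (L * q) H₁) A) (f : FF) =>
      IsK n (Gq (L * q) H₁) f (l.comp x) :=
    rel hM Gamma_le_GH (.inr (neg_one_notMem h4' hH₁)) hm (AddMonoidHom.id _) Function.injective_id
  have r : Rel (Gq L H) n fun (l : A →+ ZMod n) (x : HH (Gq L H) A) (f : FF) =>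
      IsK n (Gq L H) f (l.comp x) :=
    rel hL Gamma_le_GH (.inr (neg_one_notMem h4 hH)) hm (AddMonoidHom.id _) Function.injective_id
  exact twi (Γ₁ := Gq (L * q) H₁) (Γ₀ := Gq (L * q) H₀) (Γ := Gq L H) hG r₁ r hΔ (fun δ => (hc.dia O A δ).toAddMonoidHom) (fun x => by rw [map_one]; rfl)
    (fun a b x => by rw [map_mul]; rfl)
    (fun x => ⟨k, by
      obtain ⟨c, hc'⟩ := hn
      rw [hc', mul_comm n c, mul_smul, show n • x = 0 from AddMonoidHom.ext fun γ => hm _, smul_zero]⟩)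
    t.toAddMonoidHom (hc.dia O A (π ⟨_, χ, hχ, rfl⟩)).toAddMonoidHom S.toAddMonoidHom
    (AddMonoidHom.id _) ((res O A hc.le).comp (res O A h.le)).toAddMonoidHom
    ((res O A hc.le).comp (h.dgn O A)).toAddMonoidHom
    (fun {l x f} hf => ht l x f hf) (fun {l x f} hf => hdia ⟨_, χ, hχ, rfl⟩ l x f hf)
    (fun {l x f} hf => hS l x f hf)
    (fun {l x f} hf => by
      rw [← inv_inv (Mf.sq (sgZ L q))]
      refine isK_conj hf (fun γ hγ => conj_mem (inv_mem (sg_mem L q)) hγ) fun γ hγ => ?_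
      refine Eq.trans ?_ (h.val_sg _ _ (conj_mem (inv_mem (sg_mem L q)) hγ))
      congr 1
      group)
    (fun {l x f} hf => IsK.of_val hf (hc.le.trans h.le) fun γ hγ => by
      rw [val_comp, val_comp]
      exact congrArg l ((val_res hc.le _ hγ).trans (val_res h.le _ (hc.le hγ))))
    (fun {l x f} hf => isK_conj hf (fun γ hγ => h.dg_mem (hc.le hγ)) fun γ hγ => by
      rw [val_comp, val_comp]
      exact congrArg l ((val_res hc.le _ hγ).trans (h.val_dgn O A _ (hc.le hγ))))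
    (fun δ x => Bc.HH_sep hm fun l => by
      obtain ⟨f, hf⟩ := hex₁ (l.comp x)
      obtain ⟨γ, rfl⟩ := hc.surj δ
      have h1 := hdia γ l _ _ (ht l x f hf)
      have h2 := ht l _ _ (hdia γ l x f hf)
      rw [aut_comm0 hM τ (fun g hg => hf.fixed g (Gq_mono bot_le hg)) (Gq_mono le_top γ.2)] at h2
      exact h1.unique h2)
    (fun δ x => by
      change (hc.dia O A δ * hc.dia O A _) x = (hc.dia O A _ * hc.dia O A δ) x
      rw [← map_mul, ← map_mul, mul_comm δ])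
    E₁.toAddSubgroup E.toAddSubgroup tE (dE _) dE SE (fun x hx => hx) old
    (fun {l x f} hx hf hp => pow_of_inj hL hI (hE l x hx) hf hp)
    (es_inj₁ E.toAddSubgroup S.toAddMonoidHom (TT O A L H q).toAddMonoidHom (AddMonoidHom.id _) q
      hES hqx u1)
    (es_inj₂ E.toAddSubgroup S.toAddMonoidHom (TT O A L H q).toAddMonoidHom (AddMonoidHom.id _)
      (AddMonoidHom.id _) q hES hqx (fun x hx => hx) (fun _ => rfl) hTS (fun _ => rfl)
      (fun _ => rfl) u2)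

section EQ

open Finset

variable {r L m : ℕ} {q : Fin r → ℕ} [NeZero m] {P : ℕ → Prop} {a α : ℕ → O}

theorem flip_H1 (h : Aux L q m) (i : Fin r) : ∀ u ∈ H1 L q m, ∀ u',
    ZMod.unitsMap (h.stp i).dvd u' = ZMod.unitsMap (h.stp i).dvd u →
      ZMod.unitsMap (h.stp i).dvd' (u' * u) = 1 → u' ∈ H1 L q m := fun u hu u' h1 h2 => by
  obtain ⟨h3, h4⟩ := h.chi_single i (u := u' * u⁻¹) (by rw [map_mul, map_inv, h1, mul_inv_cancel])
  have h5 : chi L q m u = 1 := hu.2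
  refine ⟨by simpa using mul_mem h3 hu.1, ?_⟩
  have h6 : chi1 (q i) m (ZMod.unitsMap (q_dvd_LQ L q i) u) = 1 := congrFun h5 i
  have h7 : ZMod.unitsMap (q_dvd_LQ L q i) u' = (ZMod.unitsMap (q_dvd_LQ L q i) u)⁻¹ :=
    eq_inv_of_mul_eq_one_left (by rw [← map_mul]; exact h2)
  rw [map_mul, map_inv, h5, inv_one, mul_one, map_mul, map_inv, h7, map_mul, map_inv, h6, inv_one,
    mul_one, Pi.mulSingle_one] at h4
  exact h4

/-- **the local identity on the Taylor-Wiles module** -/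
theorem tw_EQ (h : Aux L q m) (s : Sy L q P a α) (i : Fin r) {p k : ℕ} (hp : p.Prime)
    (hΔ : IsPGroup p (Dl m r)) (hpq : p ≠ q i) (hm : ∀ c : A, n • c = 0) (hn : n ∣ p ^ k)
    (hu : IsUnit (a (q i) ^ 2 - (q i + 1) ^ 2)) (hv : v (q i : ℂ) < 1) {σ τ : ℂ ≃+* ℂ}
    (hσv : ∀ c, v (σ c) = v c) (hσ : ∀ c, v c ≤ 1 → v (σ c - c ^ q i) < 1)
    (hτ : ∀ c, v c ≤ 1 → v (τ c - c) < 1) {e : ℤ}
    (he : τ (Wp.zeta (LQ L q)) = Wp.zeta (LQ L q) ^ e) {c : (ZMod (LQ L q))ˣ}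
    (hc : (c : ZMod (LQ L q)) = e) {t : Module.End O (HH (Gq (LQ L q) (H1 L q m)) A)}
    (ht : ActK n (AddMonoidHom.id _) τ t)
    {S : Module.End O (HH (Gq (LQ' L q i) (H0 (LQ' L q i))) A)}
    (hS : ActK n (AddMonoidHom.id _) σ S)
    {E : Set (HH (Gq (LQ' L q i) (H0 (LQ' L q i))) (ZMod n))} (hI : Inj v n _ E)
    (hE : ∀ (l : A →+ ZMod n), ∀ x ∈ EL A P (aS ((univ.image q).erase (q i)) a α) (LQ' L q i)
      (H0 (LQ' L q i)), l.comp x ∈ E) :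
    ∀ x ∈ EQ A L q m P a α,
      t (t x - h.dia O A (chi L q m c) x) = t x - h.dia O A (chi L q m c) x := by
  have h0 := (h.neZero' i).ne
  have h1 := h.neZero.ne
  have h4 : 4 ∣ LQ' L q i := h.four.trans (dvd_LQ' L q i)
  have hst := h.stp i
  have hcop : Nat.Coprime (LQ' L q i) (q i) :=
    ((Nat.Prime.coprime_iff_not_dvd hst.prime).2 hst.ndvd).symm
  have he1 : (e : ZMod (LQ' L q i)) = 1 :=
    exp_one h0 hst.prime.ne_zero (v_nat_eq hv hcop) (τ := (τ : ℂ →+* ℂ)) hτ (hst.eq ▸ he)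
  have hc0 : c ∈ H0 (LQ L q) := (h.chi_single i (Units.ext (by
    rw [ZMod.unitsMap_val, hc, ZMod.cast_intCast hst.dvd, he1, Units.val_one]))).1
  obtain ⟨g, hg, rfl⟩ := dU_surj c
  haveI := h.fin₁ A
  have hex₁ := hex_Gq (n := n) h1 h.four' fun u (hu : u ∈ H1 L q m) => (mem_H0 h.four').1 hu.1
  have hex := hex_Gq (n := n) h0 h4 fun u (hu : u ∈ H0 _) => (mem_H0 h4).1 hu
  exact twi_K hst h0 h4 (fun u hu => (mem_H0 h4).1 hu) (H1_le L q m) (flip_H1 h i) h.cov hp hΔ hpq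
    hm hn hv hσv hσ hτ he ⟨g, mem_Gq_iff.2 ⟨hg, hc0⟩⟩ hc ht hS (EQ A L q m P a α) _
    (fun x hx => EL_comm hx fun l hl => LinearMap.ext fun y =>
      comm_V hm Function.injective_id hex₁ ht ⟨Tp ℤ _ l, Tp_corr (s.prime l hl)⟩
        (fun _ f0 hf => aut_Tp h1 (s.prime l hl).ne_zero τ f0 hf)
        (fun x => TT_int (s.prime l hl) x) y)
    (fun δ x hx => h.dia_mem A δ hx)
    (fun x hx => EL_comm hx fun l hl => LinearMap.ext fun y =>
      comm_V hm Function.injective_id hex hS ⟨Tp ℤ _ l, Tp_corr (s.prime l hl)⟩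
        (fun _ f0 hf => aut_Tp h0 (s.prime l hl).ne_zero σ f0 hf)
        (fun x => TT_int (s.prime l hl) x) y)
    (fun x hx => EL_TT hx _) (fun x hx hd => h.old A s i hx hd) hI hE (s.un i).hq hu
    (fun x hx => by
      have := mem_EL.1 hx (q i) (s.hq i)
      rwa [aS, if_neg (notMem_erase _ _)] at this)

end EQ

end Crest.Agent.T15.Twi
end
end

-- ▼ part T15/Tau_73
section

/-!
# Row 15, block T (helper73): inertia elements with prescribed cyclotomic character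
-/

set_option autoImplicit false

namespace Crest.Agent.T15.Tw73

open NumberField Crest.Agent.R018.Placesx484
open Crest.Agent.T15.C (Om Gam In)

theorem exists_root (n : ℕ) (hn : n ≠ 0) : ∃ ζ : Om, IsPrimitiveRoot ζ n := by
  have : NeZero ((n : ℕ) : Om) := ⟨by exact_mod_cast hn⟩
  exact HasEnoughRootsOfUnity.exists_primitiveRoot Om n

/-- `ℚ(ζ_q)` is totally ramified at `q` -/
theorem exists_tau_q (P : Place Om) {q : ℕ} (hP : P.rchar = q) (v : (ZMod q)ˣ) :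
    ∃ τ ∈ In P, ∀ ζ : Om, ζ ^ q = 1 → τ ζ = ζ ^ (v : ZMod q).val := by
  have hq : q.Prime := hP ▸ P.rchar_prime
  have : NeZero q := ⟨hq.ne_zero⟩
  obtain ⟨z, hz⟩ := exists_root q hq.ne_zero
  let K : IntermediateField ℚ Om := IntermediateField.adjoin ℚ {z}
  have hK : IsCyclotomicExtension {q} ℚ K := hz.intermediateField_adjoin_isCyclotomicExtension ℚ
  have : NumberField K := IsCyclotomicExtension.numberField {q} ℚ K
  have : IsGalois ℚ K := IsCyclotomicExtension.isGalois {q} ℚ K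
  let y : K := ⟨z, IntermediateField.mem_adjoin_simple_self ℚ z⟩
  have hy : IsPrimitiveRoot y q := IsPrimitiveRoot.coe_submonoidClass_iff.1 hz
  let σ := (IsCyclotomicExtension.Rat.galEquivZMod q K).symm v
  have h1 : ∀ x : 𝓞 K, x ^ q = 1 → x - 1 ∈ (P.res K).ideal := fun x hx => by
    have hm : ((q : ℕ) : 𝓞 K) ∈ (P.res K).ideal :=
      ((P.res K).natCast_mem_iff q).2 (by rw [Place.rchar_res, hP])
    have := (P.res K).isPrime
    have := Fact.mk hq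
    have hc : CharP (𝓞 K ⧸ (P.res K).ideal) q :=
      (CharP.charP_iff_prime_eq_zero hq).2 (by
        rw [← map_natCast (Ideal.Quotient.mk (P.res K).ideal), Ideal.Quotient.eq_zero_iff_mem]
        exact hm)
    rw [← Ideal.Quotient.eq_zero_iff_mem, map_sub, map_one, ← pow_eq_zero_iff hq.ne_zero,
      sub_pow_char, ← map_pow, hx, map_one, one_pow, sub_self]
  have hσ : σ ∈ (P.res K).ideal.inertia (K ≃ₐ[ℚ] K) := fun x => by
    have hx : x ∈ Algebra.adjoin ℤ {hy.toInteger} := by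
      rw [IsCyclotomicExtension.Rat.adjoin_singleton_eq_top hy]; trivial
    have hyq : hy.toInteger ^ q = 1 := hy.toInteger_isPrimitiveRoot.pow_eq_one
    induction hx using Algebra.adjoin_induction with
    | mem x hx =>
      rw [Set.mem_singleton_iff.1 hx]
      have := sub_mem (h1 (σ • hy.toInteger) (by rw [← smul_pow', hyq, smul_one])) (h1 _ hyq)
      rwa [sub_sub_sub_cancel_right] at this
    | algebraMap r =>
      rw [eq_intCast, show σ • (r : 𝓞 K) = r from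
        map_intCast (MulSemiringAction.toRingHom _ (𝓞 K) σ) r, sub_self]
      exact zero_mem _
    | add x y _ _ hx hy =>
      have := add_mem hx hy
      rwa [← add_sub_add_comm, ← smul_add] at this
    | mul x y _ _ hx hy =>
      have := add_mem (Ideal.mul_mem_right (σ • y) _ hx) (Ideal.mul_mem_left _ x hy)
      rwa [show (σ • x - x) * σ • y + x * (σ • y - y) = σ • (x * y) - x * y by
        rw [smul_mul']; ring] at this
  obtain ⟨τ, hτ, e⟩ := R018.Tamex31.exists_inertia_lift P σ hσ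
  refine ⟨τ, hτ, fun ζ hζ => ?_⟩
  obtain ⟨i, -, rfl⟩ := hz.eq_pow_of_pow_eq_one hζ
  have h2 := e y
  rw [IsCyclotomicExtension.Rat.galEquivZMod_apply_of_pow_eq q K σ hy.pow_eq_one,
    MulEquiv.apply_symm_apply, map_pow] at h2
  rw [map_pow, pow_right_comm]
  exact congrArg (· ^ i) h2

/-- an inertia element at `q` which acts on the roots of unity of order `M q` by a given unit
congruent to `1` modulo `M` -/
theorem exists_tau (P : Place Om) {q M N : ℕ} (hP : P.rchar = q) (hM : ¬ q ∣ M) (e : N = M * q)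
    (hd : M ∣ N) (u : (ZMod N)ˣ) (hu : ZMod.unitsMap hd u = 1) :
    ∃ τ ∈ In P, ∀ ζ : Om, ζ ^ N = 1 → τ ζ = ζ ^ (u : ZMod N).val := by
  have hq : q.Prime := hP ▸ P.rchar_prime
  have hM0 : M ≠ 0 := by rintro rfl; exact hM (dvd_zero _)
  have : NeZero q := ⟨hq.ne_zero⟩
  have : NeZero M := ⟨hM0⟩
  have : NeZero N := ⟨e ▸ mul_ne_zero hM0 hq.ne_zero⟩
  have hqd : q ∣ N := e ▸ dvd_mul_left _ _
  obtain ⟨τ, hτ, h⟩ := exists_tau_q P hP (ZMod.unitsMap hqd u)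
  refine ⟨τ, hτ, fun ζ hζ => ?_⟩
  have h0 : ζ ≠ 0 := by rintro rfl; simp [NeZero.ne N] at hζ
  have a1 : (ζ ^ q) ^ M = 1 := by rw [← pow_mul, mul_comm, ← e, hζ]
  have a2 : (ζ ^ M) ^ q = 1 := by rw [← pow_mul, ← e, hζ]
  have b1 : τ ζ ^ q = (ζ ^ (u : ZMod N).val) ^ q := by
    have h1 : τ (ζ ^ q) = ζ ^ q := P.inertia_root hτ (hP ▸ hM) a1
    have h2 : (u : ZMod N).val ≡ 1 [MOD M] := by
      have := congrArg (fun x : (ZMod M)ˣ => (x : ZMod M)) hu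
      rw [← ZMod.natCast_eq_natCast_iff, Nat.cast_one, ZMod.natCast_val]
      simpa only [ZMod.unitsMap_val, Units.val_one] using this
    rw [← map_pow, h1, pow_right_comm, pow_eq_pow_of_modEq h2 a1, pow_one]
  have b2 : τ ζ ^ M = (ζ ^ (u : ZMod N).val) ^ M := by
    rw [← map_pow, h _ a2, pow_right_comm ζ _ M]
    refine pow_eq_pow_of_modEq ?_ a2
    rw [← ZMod.natCast_eq_natCast_iff, ZMod.natCast_val, ZMod.natCast_val, ZMod.cast_id',
      ZMod.unitsMap_val, id]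
  have h1 : ζ ^ (u : ZMod N).val ≠ 0 := pow_ne_zero _ h0
  rw [← div_eq_one_iff_eq h1]
  rw [← div_eq_one_iff_eq (pow_ne_zero _ h1), ← div_pow] at b1 b2
  have := pow_gcd_eq_one.2 ⟨b1, b2⟩
  rwa [(Nat.Prime.coprime_iff_not_dvd hq).2 hM, pow_one] at this

end Crest.Agent.T15.Tw73
end

-- ▼ part T15/TwW_73

/-!
# Row 15, block T (helper73): the local identity at an auxiliary prime for a Galois element
-/

set_option autoImplicit false

noncomputable section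

namespace Crest.Agent.T15.Tw73

open Function Finset NumberField Crest.Agent.R018.Placesx484
open Crest.Agent.T15.Mf Crest.Agent.T15.Lv Crest.Agent.T15.Bet Crest.Agent.T15.Hk
open Crest.Agent.T15.Cg Crest.Agent.R007
open Crest.Agent.T15.C (Gam Om In)

theorem exists_plc {l : ℕ} (hl : l.Prime) : ∃ P : Place Om, P.rchar = l := by
  have hp : Prime ((l : ℕ) : 𝓞 ℚ) := by
    have := (MulEquiv.prime_iff Rat.ringOfIntegersEquiv.symm).2 (Nat.prime_iff_prime_int.1 hl)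
    rwa [map_natCast] at this
  obtain ⟨P, hP⟩ := Place.exists_res_eq (E := Om) ℚ ⟨Ideal.span {((l : ℕ) : 𝓞 ℚ)},
    (Ideal.span_singleton_prime hp.ne_zero).2 hp, by simpa using hp.ne_zero⟩
  refine ⟨P, ?_⟩
  rw [← Place.rchar_res ℚ P, hP]
  exact Place.rchar_eq_of_mem _ hl (Ideal.mem_span_singleton_self _)

theorem lft_zeta (ι : Om →+* ℂ) (P : Place Om) (g : MulAction.stabilizer Gam P) {M c : ℕ}
    (hM : M ≠ 0) (h : ∀ ζ : Om, ζ ^ M = 1 → g.1 ζ = ζ ^ c) :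
    lft ι P g (Wp.zeta M) = Wp.zeta M ^ (c : ℤ) := by
  have : NeZero M := ⟨hM⟩
  obtain ⟨z, hz⟩ := exists_root M hM
  obtain ⟨k, -, e⟩ := (hz.map_of_injective ι.injective).eq_pow_of_pow_eq_one (Wp.zeta_pow M hM)
  rw [← e, ← map_pow, lft_iota, h _ (by rw [← pow_mul, mul_comm, pow_mul, hz.pow_eq_one, one_pow]),
    map_pow, zpow_natCast]

variable {C : Type*} [CommRing C] [Finite C] {n r L : ℕ} {q : Fin r → ℕ} {Pr : ℕ → Prop}
  {a α : ℕ → C}

/-- **inertia at `q i`** on the localisation, for a Galois element with prescribed character -/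
theorem tw_gal (ι : Om →+* ℂ) (h : Aux L q (3 ^ (n + 1))) (s : Sy L q Pr a α) (i : Fin r)
    (hm : ∀ c : C, 3 ^ (n + 1) • c = 0)
    {ρ₁ : Gam →* Module.End C (HH (Gq (LQ L q) (H1 L q (3 ^ (n + 1)))) C)}
    (a₁ : ∀ σ, ActK (3 ^ (n + 1)) (AddMonoidHom.id _) σ (ρ₁ (resA ι σ)))
    {ρ₀ : Gam →* Module.End C (HH (Gq (LQ' L q i) (H0 (LQ' L q i))) C)}
    (a₀ : ∀ σ, ActK (3 ^ (n + 1)) (AddMonoidHom.id _) σ (ρ₀ (resA ι σ)))
    (hI : ∀ P : Place Om, ¬ P.rchar ∣ 3 ^ (n + 1) * LQ' L q i →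
      Inj (vC ι P) (3 ^ (n + 1)) (Gq (LQ' L q i) (H0 _)) {φ | ParS (GH (LQ' L q i) (H0 _)) φ})
    (hE : ∀ x ∈ EL C Pr (aS ((univ.image q).erase (q i)) a α) (LQ' L q i) (H0 (LQ' L q i)),
      ParS (GH (LQ' L q i) (H0 _)) x) :
    ∃ P : Place Om, P.rchar = q i ∧ ∃ τ ∈ In P, ∃ u : (ZMod (LQ L q))ˣ,
      chi L q (3 ^ (n + 1)) u = del _ i ∧
      (∀ ζ : Om, ζ ^ LQ L q = 1 → τ ζ = ζ ^ (u : ZMod (LQ L q)).val) ∧
      ∀ x ∈ EQ C L q (3 ^ (n + 1)) Pr a α,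
        ρ₁ τ (ρ₁ τ x - h.dia C C (del _ i) x) = ρ₁ τ x - h.dia C C (del _ i) x := by
  have hq := h.prime i
  have hst := h.stp i
  have := h.neZero
  obtain ⟨P, hP⟩ := exists_plc hq
  obtain ⟨v, hv⟩ := chi1_surj hq (h.dvd i) (Multiplicative.ofAdd 1)
  obtain ⟨u, u1, u2⟩ := h.exists_unit i v
  have hu : chi L q (3 ^ (n + 1)) u = del _ i := by rw [(h.chi_single i u2).2, u1, hv, del]
  obtain ⟨τ, hτ, hz⟩ := exists_tau P hP hst.ndvd hst.eq hst.dvd u u2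
  obtain ⟨φ, -, hφ⟩ := Place.exists_frob (F := ℚ) P
  rw [R018.FDEx389.qv_rat, hP] at hφ
  have t1 : τ ∈ MulAction.stabilizer Gam P :=
    frob_mem P one_ne_zero fun x => by rw [pow_one]; exact hτ x
  have f1 : φ ∈ MulAction.stabilizer Gam P := frob_mem P hq.ne_zero hφ
  have h3 : 3 ≠ q i := fun e => by
    have := (dvd_pow_self 3 n.succ_ne_zero).trans (h.dvd i)
    rw [← e] at this
    omega
  have h1 : (q i : C) - 1 = 0 := by
    obtain ⟨c, hc⟩ := h.dvd i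
    rw [← Nat.cast_pred hq.pos, hc, Nat.cast_mul, ← nsmul_eq_mul, hm]
  have key := Twi.tw_EQ (v := vC ι P) h s i Nat.prime_three (isPGroup_Dl 3 (n + 1) r) h3 hm dvd_rfl
    (Twi.unit_of_Un (s.un i) (h1 ▸ IsNilpotent.zero)) (hP ▸ vC_rchar_lt_one ι P)
    (vC_lft ι P ⟨φ, f1⟩) (fun c hc => vC_lft_sub_pow ι P ⟨φ, f1⟩ _ hφ hc)
    (fun c hc => vC_lft_sub ι P ⟨τ, t1⟩ hτ hc) (lft_zeta ι P ⟨τ, t1⟩ (NeZero.ne _) hz) (c := u)
    (by rw [Int.cast_natCast, ZMod.natCast_zmod_val]) (a₁ _) (a₀ _)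
    (hI P fun hd => by
      rw [hP] at hd
      rcases hq.dvd_mul.1 hd with hd | hd
      · exact h3 ((Nat.prime_dvd_prime_iff_eq hq Nat.prime_three).1 (hq.dvd_of_dvd_pow hd)).symm
      · exact hst.ndvd hd)
    fun l x hx => (hE x hx).comp l
  rw [resA_lft, hu] at key
  exact ⟨P, hP, τ, hτ, u, hu, hz, key⟩

/-- two actions on Kummer classes agree -/
theorem act_eq {N : ℕ} [NeZero N] {A V : Type*} [AddCommGroup A] [Finite A] [AddCommGroup V]
    {Γ : Subgroup GQ} {j : V →+ HH Γ A} (hm : ∀ c : A, N • c = 0)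
    (hex : ∀ φ : HH Γ (ZMod N), ∃ f, IsK N Γ f φ) {σ : ℂ ≃+* ℂ} {u : V → V} {t : HH Γ A → HH Γ A}
    (hu : ActK N j σ u) (ht : ActK N (AddMonoidHom.id _) σ t) (x : V) : j (u x) = t (j x) :=
  Bc.HH_sep hm fun l => by
    obtain ⟨f, hf⟩ := hex (l.comp (j x))
    exact (hu l x f hf).unique (ht l (j x) f hf)

end Crest.Agent.T15.Tw73

end
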