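import Crest.Agent.T15.StabB_17
import Crest.Agent.T15.HtDef_95
import Crest.Agent.T15.TwW_73_Mg
import Crest.Agent.T15.VsDef_48
import Crest.Agent.T15.HonA_54
import Crest.Agent.T15.HonF_74
import Crest.Agent.T15.VsG1_93_Mg
import Mathlib
import Crest.Agent.T15.HonD_54
import Crest.Agent.T15.Inj_71
import Crest.Agent.T15.RbA_67
import Crest.Agent.T15.CgB_84
import Crest.Agent.T15.HonH_54
import Crest.Agent.T15.RatB_42
import Crest.Agent.T15.Int_42

-- ▼ part T15/StabC_17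
section

/-!
# Row 15, block Ht: the leaf STAB (helper17)
-/

set_option autoImplicit false

namespace Crest.Agent.T15.Stab

/-- **leaf STAB** -/
theorem stabStmt : Ht.StabStmt := fun _ _ _ _ _ s _ _ _ _ lt hF hT hL hh hs ht =>
  stab lt.cls lt.exp s hF hT hL.ne' hh hs ht

end Crest.Agent.T15.Stab
end

-- ▼ part T15/Tw_73
section

/-!
# Row 15, block T (helper73): the leaf `TwStmt`
-/

set_option autoImplicit false

noncomputable section

namespace Crest.Agent.T15.TD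

open Function Finset
open Crest.Agent.T15.Mf Crest.Agent.T15.Lv Crest.Agent.T15.Bet Crest.Agent.T15.Hk
open Crest.Agent.T15.Cg

theorem twStmt (hA : ActStmt) (hI : InjStmt) : TwStmt := by
  intro ι O C _ _ _ _ _ n r L q h a α H _ _ j Tp dia D δ ρ hδ hρ i
  have hM := h.neZero.ne
  have hM' := (h.neZero' i).ne
  have h4 : 4 ∣ LQ' L q i := h.four.trans (dvd_LQ' L q i)
  obtain ⟨ρ₁, a₁, -⟩ := hA ι _ _ hM h.four' (H1_le L q (3 ^ (n + 1))) (3 ^ (n + 1)) C C D.hm
  obtain ⟨ρ₀, a₀, -⟩ := hA ι _ (H0 (LQ' L q i)) hM' h4 le_rfl (3 ^ (n + 1)) C C D.hm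
  obtain ⟨P, hP, τ, hτ, u, hu, hz, key⟩ := Tw73.tw_gal ι h D.sy i D.hm a₁ a₀
    (hI ι _ _ hM' h4 le_rfl _) fun x hx => D.parS (h.stp i).dvd (erase_subset _ _) hx
  obtain ⟨ζ, hζ⟩ := Tw73.exists_root _ hM
  have hc : ∀ x, j (ρ τ x) = ρ₁ τ (j x) := by
    obtain ⟨σ, rfl⟩ := resA_surjective ι τ
    exact Tw73.act_eq D.hm (hex_Gq hM h.four' fun u hu => (mem_H0 h.four').1 (H1_le L q _ hu))
      (hρ σ) (a₁ σ)
  refine ⟨P, hP, τ, hτ, (hδ τ u ζ hζ (hz ζ hζ.pow_eq_one)).trans hu,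
    LinearMap.ext fun x => D.inj ?_⟩
  rw [Module.End.mul_apply, LinearMap.sub_apply, Module.End.one_apply, map_sub, hc,
    LinearMap.sub_apply, map_sub j, hc, D.hD, key _ (D.mem x), sub_self, LinearMap.zero_apply,
    map_zero]

end Crest.Agent.T15.TD

end
end

-- ▼ part T15/VsG2_82
section

/-!
# Row 15, block Ht (helper82): the Frobenius lift on the Gauss field (leaf `G2`)
-/

set_option autoImplicit false

noncomputable section

namespace Crest.Agent.T15.Vs

open scoped NNReal PowerSeries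
open Crest.Agent.T15.Hon

variable {K0 : Type} [Field K0] {v0 : Valuation K0 ℝ≥0} {p : ℕ} {σ : K0 →+* K0}

/-- `fr` on the bounded series -/
def phi82 (U : Un v0 p σ) (hp : p ≠ 0) : Bd v0 →+* Bd v0 :=
  (fr σ p hp).restrict (Bd v0) (Bd v0) fun _ ⟨c, hc⟩ => ⟨c, hc.fr U.iso hp⟩

theorem w_phi82 (U : Un v0 p σ) (hp : p ≠ 0) {w : Valuation (E v0) ℝ≥0} (h : Gv v0 w)
    (f : Bd v0) : w (iE v0 (phi82 U hp f)) = w (iE v0 f) := by
  apply le_antisymm
  · exact h.w_le _ (PI.fr U.iso hp fun n => h.le_w f n)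
  · obtain ⟨n, hn⟩ := h.att f
    have := h.le_w (phi82 U hp f) (p * n)
    rw [show (phi82 U hp f).1 = fr σ p hp f.1 from rfl, coeff_fr, if_pos (dvd_mul_right p n),
      Nat.mul_div_cancel_left _ (Nat.pos_of_ne_zero hp), U.iso] at this
    exact hn.trans_le this

/-- every element is a fraction with a denominator of norm one -/
theorem Gv.nf82 {w : Valuation (E v0) ℝ≥0} (h : Gv v0 w) (a : E v0) :
    ∃ f g : Bd v0, w (iE v0 g) = 1 ∧ a = iE v0 f / iE v0 g := by
  obtain ⟨f, g, hg, rfl⟩ := IsFractionRing.div_surjective (A := Bd v0) a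
  have hg0 : iE v0 g ≠ 0 := IsFractionRing.to_map_ne_zero_of_mem_nonZeroDivisors hg
  obtain ⟨n, hn⟩ := h.att g
  set c := PowerSeries.coeff n g.1
  have hc : v0 c ≠ 0 := by rw [← hn]; exact (Valuation.ne_zero_iff w).mpr hg0
  let k : Bd v0 := ⟨PowerSeries.C c⁻¹, _, PI.const c⁻¹⟩
  have hk : w (iE v0 k) = (v0 c)⁻¹ := by
    apply le_antisymm
    · exact (h.w_le k (PI.const c⁻¹)).trans_eq (map_inv₀ v0 c)
    · have := h.le_w k 0
      rwa [show k.1 = PowerSeries.C c⁻¹ from rfl, PowerSeries.coeff_zero_C, map_inv₀] at this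
  have hk0 : iE v0 k ≠ 0 := (Valuation.ne_zero_iff w).mp (by rw [hk]; exact inv_ne_zero hc)
  refine ⟨k * f, k * g, ?_, ?_⟩
  · rw [map_mul, map_mul, hk, hn, inv_mul_cancel₀ hc]
  · rw [map_mul, map_mul, mul_div_mul_left _ _ hk0]

/-- **leaf G2** -/
theorem g2 : G2 := by
  intro K0 _ _ v0 p hp σ U w h
  have hinj : Function.Injective ((iE v0).comp (phi82 U hp)) := by
    rw [injective_iff_map_eq_zero]
    intro f hf
    have h1 := w_phi82 U hp h f
    rw [show iE v0 (phi82 U hp f) = 0 from hf, map_zero] at h1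
    exact IsFractionRing.injective (Bd v0) (E v0)
      (((Valuation.zero_iff w).mp h1.symm).trans (map_zero _).symm)
  have hφ : ∀ f, IsFractionRing.lift hinj (iE v0 f) = iE v0 (phi82 U hp f) := fun f =>
    IsFractionRing.lift_algebraMap hinj f
  refine ⟨phi82 U hp, IsFractionRing.lift hinj, fun _ => rfl, hφ, fun a => ?_, fun a ha => ?_⟩
  · obtain ⟨f, g, -, rfl⟩ := h.nf82 a
    rw [map_div₀, hφ, hφ, map_div₀, map_div₀, w_phi82 U hp h, w_phi82 U hp h]
  · obtain ⟨f, g, hg, rfl⟩ := h.nf82 a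
    rw [map_div₀, hg, div_one] at ha
    have key : ∀ u : Bd v0, w (iE v0 u) ≤ 1 → w (iE v0 (phi82 U hp u) - iE v0 u ^ p) < 1 := by
      intro u hu
      rw [← map_pow, ← map_sub]
      exact (h.w_le _ (U.fr_one hp fun n => (h.le_w u n).trans hu)).trans_lt U.lt
    have hg' : w (iE v0 (phi82 U hp g)) = 1 := by rw [w_phi82 U hp h, hg]
    have h1 : iE v0 g ≠ 0 := (Valuation.ne_zero_iff w).mp (by rw [hg]; exact one_ne_zero)
    have h2 : iE v0 (phi82 U hp g) ≠ 0 :=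
      (Valuation.ne_zero_iff w).mp (by rw [hg']; exact one_ne_zero)
    have k1 := key f ha
    have k2 := key g hg.le
    rw [map_div₀, hφ, hφ]
    generalize iE v0 (phi82 U hp g) = G at *
    generalize iE v0 (phi82 U hp f) = F at *
    generalize iE v0 g = y at *
    generalize iE v0 f = x at *
    have e : F / G - (x / y) ^ p =
        ((F - x ^ p) * y ^ p - x ^ p * (G - y ^ p)) / (G * y ^ p) := by
      rw [div_pow]; field_simp; ring
    rw [e, map_div₀, map_mul, map_pow, hg, hg', one_pow, one_mul, div_one]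
    refine (w.map_sub _ _).trans_lt (max_lt ?_ ?_)
    · rwa [map_mul, map_pow, hg, one_pow, mul_one]
    · rw [map_mul, map_pow]
      exact (mul_le_of_le_one_left' (pow_le_one' ha p)).trans_lt k2

end Crest.Agent.T15.Vs

end
end

-- ▼ part T15/VsG3_6
section

/-!
# Row 15, block Ht (helper6): the leaf `G3` (the derivation of the Gauss field)
-/

set_option autoImplicit false

noncomputable section

namespace Crest.Agent.T15.Vs

open scoped NNReal PowerSeries
open Crest.Agent.T15.Hon PowerSeries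

variable {K0 : Type} [Field K0] {v0 : Valuation K0 ℝ≥0}

theorem coeff_th6 (f : K0⟦X⟧) (n : ℕ) : coeff n (th f) = n * coeff n f := by
  cases n with
  | zero => simp [th]
  | succ n => rw [th, coeff_succ_X_mul, coeff_derivative, mul_comm, Nat.cast_succ]

theorem pi_th6 {c : ℝ≥0} {f : K0⟦X⟧} (h : PI v0 c f) : PI v0 c (th f) := fun n => by
  rw [coeff_th6, map_mul]
  exact (mul_le_of_le_one_left' (v_natCast_le v0 n)).trans (h n)

variable (v0) in
/-- `X d/dX` on the bounded series -/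
def dB6 : Bd v0 →+ Bd v0 where
  toFun f := ⟨th f.1, f.2.imp fun _ h => pi_th6 h⟩
  map_zero' := Subtype.ext (by simp [th])
  map_add' f g := Subtype.ext (by simp [th, mul_add])

theorem dB_mul6 (f g : Bd v0) : dB6 v0 (f * g) = f * dB6 v0 g + g * dB6 v0 f := Subtype.ext (by
  change th (f.1 * g.1) = f.1 * th g.1 + g.1 * th f.1
  simp only [th, Derivation.leibniz, smul_eq_mul]
  ring)

theorem exists_der6 {A B : Type*} [CommRing A] [CommRing B] [Algebra A B]
    [Algebra.FormallySmooth A B] (d : A →+ A) (hd : ∀ f g, d (f * g) = f * d g + g * d f) :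
    ∃ D : B →+ B, (∀ f, D (algebraMap A B f) = algebraMap A B (d f)) ∧
      ∀ a b, D (a * b) = a * D b + b * D a := by
  obtain ⟨D, hD⟩ := R013.CE6_280.exists_extend (R := ℤ) (A := A) (B := B)
    (Derivation.mk' ((algebraMap A B).toAddMonoidHom.comp d).toIntLinearMap fun f g => by
      change algebraMap A B (d (f * g)) = f • algebraMap A B (d g) + g • algebraMap A B (d f)
      rw [hd, map_add, map_mul, map_mul, Algebra.smul_def, Algebra.smul_def])
  exact ⟨D.toLinearMap.toAddMonoidHom, hD, fun a b => D.leibniz a b⟩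

theorem exists_dE6 : ∃ D : E v0 →+ E v0, (∀ f, D (iE v0 f) = iE v0 (dB6 v0 f)) ∧
    ∀ a b, D (a * b) = a * D b + b * D a :=
  have : Algebra.FormallySmooth (Bd v0) (E v0) :=
    Algebra.FormallySmooth.of_isLocalization (nonZeroDivisors (Bd v0))
  exists_der6 (dB6 v0) dB_mul6

variable (v0) in
/-- the variable -/
def xB6 : Bd v0 := ⟨X, 1, PI.X'⟩

variable {w : Valuation (E v0) ℝ≥0}

theorem Gv.pi6 (h : Gv v0 w) (f : Bd v0) : PI v0 (w (iE v0 f)) f.1 := h.le_w f

theorem Gv.w_C6 (h : Gv v0 w) (a : K0) : w (iE v0 ⟨C a, _, PI.const a⟩) = v0 a :=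
  (h.w_le _ (PI.const a)).antisymm (by simpa using h.le_w ⟨C a, _, PI.const a⟩ 0)

theorem Gv.w_X6 (h : Gv v0 w) : w (iE v0 (xB6 v0)) = 1 :=
  (h.w_le _ PI.X').antisymm (by simpa [xB6] using h.le_w (xB6 v0) 1)

/-- normal form of a fraction -/
theorem Gv.exists_div6 (h : Gv v0 w) (y : E v0) :
    ∃ a b : Bd v0, w (iE v0 b) = 1 ∧ y * iE v0 b = iE v0 a := by
  obtain ⟨a, b, hb, rfl⟩ := IsFractionRing.div_surjective (A := Bd v0) y
  have h0 : iE v0 b ≠ 0 := IsFractionRing.to_map_ne_zero_of_mem_nonZeroDivisors hb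
  obtain ⟨n, hn⟩ := h.att b
  have h1 : v0 (coeff n b.1) ≠ 0 := hn ▸ (Valuation.ne_zero_iff w).2 h0
  refine ⟨a * ⟨C (coeff n b.1)⁻¹, _, PI.const _⟩, b * ⟨C (coeff n b.1)⁻¹, _, PI.const _⟩, ?_, ?_⟩
  · rw [map_mul, map_mul, h.w_C6, hn, map_inv₀, mul_inv_cancel₀ h1]
  · rw [map_mul, map_mul, ← mul_assoc, div_mul_cancel₀ _ h0]

theorem Gv.w_D6 (h : Gv v0 w) {D : E v0 →+ E v0} (hD : ∀ f, D (iE v0 f) = iE v0 (dB6 v0 f))
    (hL : ∀ a b, D (a * b) = a * D b + b * D a) (y : E v0) : w (D y) ≤ w y := by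
  obtain ⟨a, b, hb, e⟩ := h.exists_div6 y
  have k : ∀ f, w (D (iE v0 f)) ≤ w (iE v0 f) := fun f => by
    rw [hD]; exact h.w_le _ (pi_th6 (h.pi6 f))
  have e1 := congrArg D e
  rw [hL] at e1
  have e2 : iE v0 b * D y = D (iE v0 a) - y * D (iE v0 b) := by rw [← e1]; ring
  have e3 := congrArg w e2
  rw [map_mul, hb, one_mul] at e3
  rw [e3]
  refine w.map_sub_le ((k a).trans_eq ?_) ?_
  · rw [← e, map_mul, hb, mul_one]
  · rw [map_mul]
    exact mul_le_of_le_one_right' ((k b).trans_eq hb)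

/-- density of the bounded Laurent series -/
theorem Gv.dense6 (h : Gv v0 w) {q : ℝ≥0} (hq : ∀ a, v0 a < 1 → v0 a ≤ q) (y : E v0) (N : ℕ) :
    ∃ (M : ℕ) (g : Bd v0), w (iE v0 g) ≤ w y ∧
      w (iE v0 (xB6 v0) ^ M * y - iE v0 g) ≤ q ^ N * w y := by
  classical
  obtain ⟨a, b, hb, e⟩ := h.exists_div6 y
  have hb1 : PI v0 1 b.1 := hb ▸ h.pi6 b
  have hex : ∃ n, v0 (coeff n b.1) = 1 := (h.att b).imp fun n hn => hn.symm.trans hb
  obtain ⟨u, hu, hu0⟩ := sub_trunc b.1 (Nat.find hex)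
  set m := Nat.find hex
  have hc : PI v0 q (trunc m b.1 : K0⟦X⟧) :=
    PI.trunc fun n hn => hq _ ((hb1 n).lt_of_ne (Nat.find_min hex hn))
  have hc1 : PI v0 1 (trunc m b.1 : K0⟦X⟧) := PI.trunc fun n _ => hb1 n
  have hu1 : PI v0 1 u := fun n => by
    rw [← coeff_X_pow_mul u m n, ← hu]
    exact hb1.sub hc1 _
  have hu2 : v0 (constantCoeff u) = 1 := by rw [hu0]; exact Nat.find_spec hex
  have hi := hu1.inv hu2
  let c : Bd v0 := ⟨_, _, hc⟩
  let U : Bd v0 := ⟨u, _, hu1⟩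
  let V : Bd v0 := ⟨u⁻¹, _, hi⟩
  have hUV : U * V = 1 := Subtype.ext (PowerSeries.mul_inv_cancel u fun h0 => by simp [h0] at hu2)
  have hz : xB6 v0 ^ m * U - -c = b := Subtype.ext (by
    change X ^ m * u - -(trunc m b.1 : K0⟦X⟧) = b.1
    rw [← hu]; ring)
  have hV : w (iE v0 V) ≤ 1 := h.w_le _ hi
  have hU : w (iE v0 U) ≤ 1 := h.w_le _ hu1
  have hcw : w (iE v0 c) ≤ q := h.w_le _ hc
  have hcw1 : w (iE v0 c) ≤ 1 := h.w_le _ hc1
  obtain ⟨G, hG⟩ : ∃ G, G = ∑ i ∈ Finset.range N, (xB6 v0 ^ m * U) ^ i * (-c) ^ (N - 1 - i) := ⟨_, rfl⟩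
  have hG1 : G * b = (xB6 v0 ^ m * U) ^ N - (-c) ^ N := by
    rw [← hz, hG]; exact (Commute.all _ _).geom_sum₂_mul N
  have hG2 : w (iE v0 G) ≤ 1 := by
    rw [hG, map_sum]
    refine w.map_sum_le fun i _ => ?_
    simp only [map_mul, map_pow, map_neg, Valuation.map_neg, h.w_X6, one_pow, one_mul]
    exact mul_le_one' (pow_le_one' hU _) (pow_le_one' hcw1 _)
  have ha : w (iE v0 a) = w y := by rw [← e, map_mul, hb, mul_one]
  refine ⟨m * N, V ^ N * G * a, ?_, ?_⟩
  · rw [map_mul, map_mul, map_mul, map_mul, map_pow, map_pow, ha]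
    exact mul_le_of_le_one_left' (mul_le_one' (pow_le_one' hV _) hG2)
  · have e1 : iE v0 (xB6 v0) ^ (m * N) * y - iE v0 (V ^ N * G * a) =
        iE v0 V ^ N * (-iE v0 c) ^ N * y := by
      have e2 := congrArg (iE v0) hG1
      have e3 := congrArg (fun z => iE v0 z ^ N) hUV
      simp only [map_mul, map_pow, map_sub, map_neg, map_one, mul_pow, one_pow] at e2 e3 ⊢
      rw [← e, pow_mul]
      linear_combination -(iE v0 V ^ N * y) * e2 - (iE v0 (xB6 v0) ^ m) ^ N * y * e3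
    rw [e1, map_mul, map_mul, map_pow, map_pow, Valuation.map_neg]
    exact mul_le_mul_left ((mul_le_of_le_one_left' (pow_le_one' hV _)).trans
      (pow_le_pow_left' hcw _)) _

theorem Gv.coef6 (h : Gv v0 w) {q : ℝ≥0} (hq : ∀ a, v0 a < 1 → v0 a ≤ q) (hq1 : q ≤ 1)
    {D : E v0 →+ E v0} (hD : ∀ f, D (iE v0 f) = iE v0 (dB6 v0 f))
    (hL : ∀ a b, D (a * b) = a * D b + b * D a) (f : Bd v0) (N : ℕ)
    {H : E v0} (h1 : w H ≤ q) (h2 : w (iE v0 f - D H) ≤ q ^ N) (n : ℕ) :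
    v0 (coeff n f.1) ≤ max (q ^ N) (q * v0 n) := by
  obtain ⟨M, g, hg, he⟩ := h.dense6 hq H N
  obtain ⟨e, hee⟩ : ∃ e, e = iE v0 (xB6 v0) ^ M * H - iE v0 g := ⟨_, rfl⟩
  rw [← hee] at he
  have he1 : w e ≤ q ^ N := he.trans (mul_le_of_le_one_right' (h1.trans hq1))
  have hx : D (iE v0 (xB6 v0)) = iE v0 (xB6 v0) := by
    rw [hD]; exact congrArg _ (Subtype.ext (by simp [dB6, xB6, th]))
  have hxM : ∀ M : ℕ, D (iE v0 (xB6 v0) ^ M) = M * iE v0 (xB6 v0) ^ M := fun M => by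
    induction M with
    | zero => simpa using hL 1 1
    | succ M ih => rw [pow_succ, hL, ih, hx]; push_cast; ring
  have e1 : iE v0 (xB6 v0 ^ M * f - (dB6 v0 g - M * g)) =
      iE v0 (xB6 v0) ^ M * (iE v0 f - D H) + D e - M * e := by
    rw [hee, map_sub D, hL, hxM, hD]
    simp only [map_sub, map_mul, map_pow, map_natCast]
    ring
  have e2 : w (iE v0 (xB6 v0 ^ M * f - (dB6 v0 g - M * g))) ≤ q ^ N := by
    rw [e1]
    refine w.map_sub_le (w.map_add_le ?_ ((h.w_D6 hD hL e).trans he1)) ?_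
    · rwa [map_mul, map_pow, h.w_X6, one_pow, one_mul]
    · rw [map_mul]
      exact (mul_le_of_le_one_left' (v_natCast_le w M)).trans he1
  have e3 := (h.le_w _ (n + M)).trans e2
  have e4 : coeff (n + M) (xB6 v0 ^ M * f - (dB6 v0 g - M * g) : Bd v0).1 =
      coeff n f.1 - n * coeff (n + M) g.1 := by
    change coeff (n + M) (X ^ M * f.1 - (th g.1 - (M : K0⟦X⟧) * g.1)) = _
    rw [map_sub, map_sub, coeff_X_pow_mul, coeff_th6, ← nsmul_eq_mul M, map_nsmul,
      nsmul_eq_mul]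
    push_cast
    ring
  rw [e4] at e3
  rw [← sub_add_cancel (coeff n f.1) (n * coeff (n + M) g.1)]
  refine (v0.map_add _ _).trans (max_le_max e3 ?_)
  rw [map_mul, mul_comm]
  exact mul_le_mul_left ((h.le_w g _).trans (hg.trans h1)) _

theorem g3 : G3 := by
  intro K0 _ _ v0 p σ U w h
  obtain ⟨D, hD, hL⟩ := exists_dE6 (v0 := v0)
  refine ⟨dB6 v0, D, fun _ => rfl, hD, hL, h.w_D6 hD hL, fun f hf n => ?_⟩
  by_contra hlt
  rw [not_le] at hlt
  obtain ⟨N, hN⟩ := exists_pow_lt_of_lt_one (zero_le.trans_lt hlt) U.lt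
  obtain ⟨H, h1, h2⟩ := hf N
  exact (h.coef6 U.disc U.lt.le hD hL f N h1 h2 n).not_gt (max_lt hN hlt)

end Crest.Agent.T15.Vs

end
end

-- ▼ part T15/VsC_48
section

/-!
# Row 15, block Ht (helper48): the valued set-up exists
-/

set_option autoImplicit false

noncomputable section

namespace Crest.Agent.T15.Vs

open scoped NNReal PowerSeries
open Polynomial Crest.Agent.R013.GR4_921 Crest.Agent.T15.Hon

/-- polynomials are bounded series -/
def pol {K0 : Type} [Field K0] (v0 : Valuation K0 ℝ≥0) : K0[X] →+* Bd v0 :=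
  (Polynomial.coeToPowerSeries.ringHom).codRestrict (Bd v0) fun P => by
    induction P using Polynomial.induction_on with
    | C c => exact ⟨v0 c, fun n => by
        simp only [coeToPowerSeries.ringHom_apply, coe_C, PowerSeries.coeff_C]
        split_ifs <;> simp⟩
    | add P Q hP hQ => rw [map_add]; exact add_mem hP hQ
    | monomial n c h =>
      rw [pow_succ, ← mul_assoc, map_mul]
      exact mul_mem h ⟨1, fun n => by
        simp only [coeToPowerSeries.ringHom_apply, coe_X, PowerSeries.coeff_X]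
        split_ifs <;> simp⟩

theorem pol_val {K0 : Type} [Field K0] (v0 : Valuation K0 ℝ≥0) (P : K0[X]) :
    (pol v0 P).1 = (P : K0⟦X⟧) := rfl

theorem pol_inj {K0 : Type} [Field K0] (v0 : Valuation K0 ℝ≥0) : Function.Injective (pol v0) :=
  fun _ _ h => Polynomial.coe_injective K0 (congrArg Subtype.val h)

theorem fr_coe {K0 : Type} [Field K0] (σ : K0 →+* K0) {p : ℕ} (hp : p ≠ 0) (P : K0[X]) :
    fr σ p hp (P : K0⟦X⟧) = (frP σ p P : K0[X]) := by
  have : (fr σ p hp).comp coeToPowerSeries.ringHom = coeToPowerSeries.ringHom.comp (frP σ p) := by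
    refine Polynomial.ringHom_ext (fun a => ?_) ?_ <;>
      simp [fr, frP, PowerSeries.expand_C, PowerSeries.expand_X]
  exact RingHom.congr_fun this P

theorem th_coe {K0 : Type} [Field K0] (P : K0[X]) : th (P : K0⟦X⟧) = (thP P : K0[X]) := by
  simp [th, thP, PowerSeries.derivative_coe]

/-- the algebraic part of a valued field with Frobenius and derivation -/
theorem descend {K0 M : Type} [Field K0] [Field M] [CharZero M] (σ : K0 →+* K0)
    (hσ : Function.Surjective σ) (w : Valuation M ℝ≥0) {p : ℕ} (hp : p.Prime) (hw : w p < 1)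
    (φ : M →+* M) (hφ : ∀ a, w (φ a) = w a) (hf : ∀ a, w a ≤ 1 → w (φ a - a ^ p) < 1)
    (D : M →+ M) (hD : ∀ a b, D (a * b) = a * D b + b * D a) (e : K0[X] →+* M)
    (he : Function.Injective e) (eφ : ∀ P, φ (e P) = e (frP σ p P))
    (eD : ∀ P, D (e P) = e (thP P)) :
    ∃ (Ω : Type) (_ : Field Ω) (_ : IsAlgClosed Ω) (_ : CharZero Ω) (M0 : Subfield M)
      (j : M0 →+* Ω) (v : Valuation Ω ℝ≥0) (S : Ω ≃+* Ω) (d : Ω →+ Ω) (ε : K0[X] →+* Ω),
      (∀ a, a ∈ M0 ↔ Al e a) ∧ (∀ a, v (j a) = w a) ∧ (∀ a, v (S a) = v a) ∧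
      (∀ a, v a ≤ 1 → v (S a - a ^ p) < 1) ∧ Lb (RingHom.id Ω) d ∧ (∀ a, d (S a) = p * S (d a)) ∧
      (∀ a : M0, ∃ b : M0, (b : M) = φ a ∧ S (j a) = j b) ∧
      (∀ a : M0, ∃ b : M0, (b : M) = D a ∧ d (j a) = j b) ∧
      (∀ P, ∃ b : M0, (b : M) = e P ∧ ε P = j b) ∧ ∀ a, Al ε a := by
  obtain ⟨H, _, _, J, W, T, h1, h2, h3, h4⟩ := exists_frob w hp hw φ hφ hf
  have : CharZero H := charZero_of_injective_ringHom J.injective
  have : CharZero K0[X] := e.charZero
  have hJe : Function.Injective (J.comp e) := J.injective.comp he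
  obtain ⟨Ω, hΩ, _⟩ := exists_sub (J.comp e) hJe
  let M0 := Ω.comap J
  let j : M0 →+* Ω := J.restrict M0 Ω fun _ h => h
  let ε : K0[X] →+* Ω := (J.comp e).codRestrict Ω fun P => (hΩ _).2 (Al.self _ P)
  have hε : Function.Injective ε := fun a b h => hJe (congrArg Subtype.val h)
  have hal : ∀ a, Al ε a := fun a =>
    Al.of_map Ω.subtype Subtype.val_injective (fun _ => rfl) ((hΩ _).1 a.2)
  let S₀ : Ω →+* Ω := T.restrict Ω Ω fun a ha => (hΩ _).2 (((hΩ _).1 ha).map (frP σ p)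
    (frP_inj σ hp.ne_zero) T fun P => (h2 _).trans (congrArg J (eφ P)))
  have hS : ∀ P, S₀ (ε P) = ε (frP σ p P) := fun P =>
    Subtype.ext ((h2 _).trans (congrArg J (eφ P)))
  have hX : ε X ∈ Set.range S₀ := Al.mem_range ⟨X ^ p - C (ε X),
    X_pow_sub_C_ne_zero hp.pos _, by simp [eval₂_sub, hS, frP]⟩
  have hr : ∀ P, ε P ∈ S₀.range := fun P => by
    induction P using Polynomial.induction_on with
    | C c =>
      obtain ⟨c, rfl⟩ := hσ c
      exact ⟨ε (C c), by simp [hS, frP]⟩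
    | add P Q hP hQ => rw [map_add]; exact add_mem hP hQ
    | monomial n c h => rw [pow_succ, ← mul_assoc, map_mul]; exact mul_mem h hX
  let S := RingEquiv.ofBijective S₀ ⟨S₀.injective, fun a => ((hal a).tr hε hr).mem_range⟩
  obtain ⟨d, hd, hdε⟩ := ext_der_alg ε hε hal (ε.toAddMonoidHom.comp thP) fun a b => by
    simp [thP_mul]
  have hdε' : ∀ P, d (ε P) = ε (thP P) := hdε
  have hd' : ∀ a b, d (a * b) = a * d b + b * d a := hd
  have hM : ∀ a, a ∈ M0 ↔ Al e a := fun a => (hΩ _).trans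
    ⟨Al.of_map J J.injective fun _ => rfl,
      Al.map (e := e) (RingHom.id _) Function.injective_id J fun _ => rfl⟩
  let e0 : K0[X] →+* M0 := e.codRestrict M0 fun P => (hM _).2 (Al.self _ P)
  have hdj : ∀ a : M0, (d (j a) : H) = J (D a) := fun a => by
    let δ : M0 →+ H := Ω.subtype.toAddMonoidHom.comp (d.comp j.toAddMonoidHom) -
      J.toAddMonoidHom.comp (D.comp M0.subtype.toAddMonoidHom)
    have hδ : ∀ a, δ a = (d (j a) : H) - J (D a) := fun _ => rfl
    obtain ⟨P, h0, hP⟩ : Al e0 a :=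
      Al.of_map M0.subtype Subtype.val_injective (fun _ => rfl) ((hM _).1 a.2)
    refine sub_eq_zero.1 ((hδ a).symm.trans (Lb.zero_of_alg (i := J.comp M0.subtype) (fun a b => ?_)
      e0 (fun a b h => he (congrArg Subtype.val h)) (fun P => ?_) h0 hP))
    · have : ∀ a : M0, (j a : H) = J a := fun _ => rfl
      simp only [hδ, map_mul, hd', Subfield.coe_mul, Subfield.coe_add, hD, map_add, this,
        RingHom.comp_apply, Subfield.coe_subtype]
      ring
    · rw [hδ, show j (e0 P) = ε P from rfl, hdε', show (e0 P : M) = e P from rfl, eD]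
      exact sub_self _
  refine ⟨Ω, inferInstance, inferInstance, inferInstance, M0, j, W.comap Ω.subtype, S, d, ε, hM,
    fun a => h1 a, fun a => h3 a, fun a ha => h4 a ha, hd, fun a => ?_, fun a => ?_, fun a => ?_,
    fun P => ⟨e0 P, rfl, rfl⟩, hal⟩
  · let δ : Ω →+ Ω := d.comp S₀.toAddMonoidHom -
      (AddMonoidHom.mulLeft (p : Ω)).comp (S₀.toAddMonoidHom.comp d)
    have hδ : ∀ a, δ a = d (S₀ a) - p * S₀ (d a) := fun _ => rfl
    obtain ⟨P, h0, hP⟩ := hal a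
    refine sub_eq_zero.1 ((hδ a).symm.trans (Lb.zero_of_alg (i := S₀) (fun a b => ?_)
      ε hε (fun P => ?_) h0 hP))
    · simp only [hδ, map_mul, hd', map_add]; ring
    · rw [hδ, hS, hdε', hdε', hS, thP_frP σ hp.ne_zero, map_mul, map_natCast, sub_self]
  · have : φ a ∈ M0 := by
      change J (φ a) ∈ Ω
      rw [← h2]; exact (S₀ (j a)).2
    exact ⟨⟨_, this⟩, rfl, Subtype.ext (h2 a)⟩
  · have : D a ∈ M0 := by
      change J (D a) ∈ Ω
      rw [← hdj]; exact (d (j a)).2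
    exact ⟨⟨_, this⟩, rfl, Subtype.ext (hdj a)⟩

set_option maxHeartbeats 400000 in
theorem vs_of (g1 : G1) (g2 : G2) (g3 : G3) : VsStmt := by
  intro C _ _ _ _ K0 v0 p hp σ hu
  classical
  obtain ⟨w, hw, hdisc⟩ := g1 K0 v0 p σ hu
  obtain ⟨φ0, φ, a1, a2, a3, a4⟩ := g2 K0 v0 p hp σ hu w hw
  obtain ⟨D0, D, b1, b2, b3, b4, b5⟩ := g3 K0 v0 p σ hu w hw
  have hi : Function.Injective (iE v0) := IsFractionRing.injective _ _
  let e : K0[X] →+* E v0 := (iE v0).comp (pol v0)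
  have he : Function.Injective e := hi.comp (pol_inj v0)
  have : CharZero (E v0) := charZero_of_injective_ringHom he
  have wC : ∀ a : K0, w (e (Polynomial.C a)) = v0 a := fun a => le_antisymm
    (hw.w_le (pol v0 (Polynomial.C a)) fun n => by
      rw [pol_val, coe_C, PowerSeries.coeff_C]; split_ifs <;> simp)
    (le_of_eq_of_le (by simp [pol_val]) (hw.le_w (pol v0 (Polynomial.C a)) 0))
  have eφ : ∀ P, φ (e P) = e (frP σ p P) := fun P =>
    (a2 (pol v0 P)).trans (congrArg (iE v0) (Subtype.ext ((a1 _).trans (fr_coe σ hp P))))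
  have : Algebra.IsAlgebraic ℚ K0 :=
    Algebra.IsAlgebraic.of_injective K0.subtype.toRatAlgHom Subtype.val_injective
  obtain ⟨Ω, _, _, _, M0, j, v, S, d, ε, c1, c2, c3, c4, c5, c6, c7, c8, c9, c10⟩ :=
    descend σ (Algebra.IsAlgebraic.algHom_bijective σ.toRatAlgHom).2 w hu.prime
      (by have := wC p; rw [map_natCast, map_natCast] at this; exact this.trans_lt hu.lt) φ a3 a4 D b3
      e he eφ
      (fun P => (b2 _).trans (congrArg (iE v0) (Subtype.ext ((b1 _).trans (th_coe P)))))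
  let e0 : K0[X] →+* M0 := e.codRestrict M0 fun P => (c1 _).2 (Al.self _ P)
  have hε : ∀ P, ε P = j (e0 P) := fun P => by
    obtain ⟨b, h1, h2⟩ := c9 P
    exact h2.trans (congrArg j (Subtype.ext h1))
  have hεi : Function.Injective ε := fun a b h => by
    rw [hε, hε] at h
    exact he (congrArg Subtype.val (j.injective h))
  have hS : ∀ a b : M0, (b : E v0) = φ a → S (j a) = j b := fun a b h => by
    obtain ⟨b', h1, h2⟩ := c7 a
    exact h2.trans (congrArg j (Subtype.ext (h1.trans h.symm)))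
  have hd : ∀ a b : M0, (b : E v0) = D a → d (j a) = j b := fun a b h => by
    obtain ⟨b', h1, h2⟩ := c8 a
    exact h2.trans (congrArg j (Subtype.ext (h1.trans h.symm)))
  have : Algebra.IsAlgebraic K0 C := Algebra.IsAlgebraic.tower_top (K := ℚ) K0
  obtain ⟨κ, hκ⟩ := exists_lift (Ω := C) (ε.comp Polynomial.C)
  have hκ' : ∀ a : K0, κ a = ε (Polynomial.C a) := hκ
  have hκa : ∀ c, Al (ε.comp Polynomial.C) (κ c) := fun c =>
    Al.map (e := algebraMap K0 C) (RingHom.id _) Function.injective_id κ hκ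
      (Algebra.IsAlgebraic.isAlgebraic c)
  let := κ.toAlgebra
  have dκ : ∀ c, d (κ c) = 0 := fun c => by
    obtain ⟨P, h0, hP⟩ := hκa c
    refine c5.zero_of_alg _ (RingHom.injective _) (fun a => ?_) h0 hP
    rw [RingHom.comp_apply, hε, hd _ 0, map_zero]
    refine ((b2 (pol v0 (Polynomial.C a))).trans ?_).symm
    rw [show D0 (pol v0 (Polynomial.C a)) = 0 from
      Subtype.ext ((b1 _).trans ((th_coe _).trans (by simp [thP]))), map_zero]
    rfl
  obtain ⟨s, hs⟩ := exists_restr κ (S : Ω →+* Ω)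
  obtain ⟨ρ, hρ, -⟩ := exists_isRes v
  obtain ⟨ρC, hρC, -⟩ := exists_isRes (v.comap κ)
  have := closed_res v.valuationSubring
  have := closed_res (v.comap κ).valuationSubring
  obtain ⟨θ, hθ⟩ := exists_resmap κ hρ hρC
  let em : K0⟦X⟧ → Ω := fun f =>
    if h : ∃ g : Bd v0, g.1 = f ∧ iE v0 g ∈ M0 then j ⟨_, h.choose_spec.2⟩ else 0
  have em1 : ∀ (g : Bd v0) (b : M0), (b : E v0) = iE v0 g → em g.1 = j b := fun g b h => by
    have h' : ∃ g' : Bd v0, g'.1 = g.1 ∧ iE v0 g' ∈ M0 := ⟨g, rfl, h ▸ b.2⟩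
    simp only [em, dif_pos h']
    exact congrArg j (Subtype.ext ((congrArg (iE v0) (Subtype.ext h'.choose_spec.1)).trans h.symm))
  have em2 : ∀ f, AI v0 f → ∃ (g : Bd v0) (b : M0), g.1 = f ∧ (b : E v0) = iE v0 g ∧ em f = j b :=
    fun f hf => by
      let g : Bd v0 := ⟨f, 1, hf.1⟩
      have h1 : Al (pol v0) g := Al.of_map (e' := algebraMap K0[X] K0⟦X⟧) (Bd v0).subtype
        Subtype.val_injective (fun P => by simp [pol_val, PowerSeries.algebraMap_apply']) hf.2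
      have h2 : iE v0 g ∈ M0 :=
        (c1 _).2 (h1.map (e' := e) (RingHom.id K0[X]) Function.injective_id (iE v0) fun _ => rfl)
      exact ⟨g, ⟨_, h2⟩, rfl, rfl, em1 g _ rfl⟩
  have emP : ∀ P : K0[X], em P = ε P := fun P => (em1 (pol v0 P) (e0 P) rfl).trans (hε P).symm
  have emX : em PowerSeries.X = ε X := by rw [← emP, coe_X]
  have vp : ∀ (P : K0[X]) n, v0 (P.coeff n) ≤ v (ε P) := fun P n => by
    rw [hε, c2, ← coeff_coe]; exact hw.le_w (pol v0 P) n
  have vK : ∀ a : K0, v (κ a) = v0 a := fun a => by rw [hκ', hε, c2]; exact wC a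
  have vX : v (ε X) ≤ 1 := by
    rw [hε, c2]
    exact hw.w_le (pol v0 X) fun n => by
      rw [pol_val, coe_X, PowerSeries.coeff_X]; split_ifs <;> simp
  let := θ.toAlgebra
  refine ⟨{ Ω := Ω, k := _, k' := _, v := v, ρ := ρ, ρC := ρC, res := hρ, resC := hρC, comp := hθ
            v_K0 := vK, em := em, em_add := fun f g hf hg => ?_, em_mul := fun f g hf hg => ?_
            em_C := fun a _ => ?_, v_em := fun f c hf hc => ?_, le_v_em := fun f n hf => ?_
            tr := fun h => ?_, alg := fun a => ?_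
            d := Derivation.mk' { toFun := d, map_add' := d.map_add, map_smul' := fun c a => ?_ }
              fun a b => c5 a b
            d_em := fun f hf => ?_, S := S, s := s, S_C := hs, s_K0 := fun a => ?_
            S_em := fun f hf => ?_, S_iso := c3, S_res := c4, d_S := c6, L0 := j.fieldRange
            em_mem := fun f hf => ?_, K0_mem := fun a => ⟨_, ((hκ' a).trans (hε _)).symm⟩
            fixed := fun a ha => ?_, disc := ?_, v_d := ?_, coef := fun f hf h => ?_ }⟩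
  · obtain ⟨f, a, rfl, h1, h2⟩ := em2 f hf
    obtain ⟨g, b, rfl, h3, h4⟩ := em2 g hg
    rw [h2, h4, ← map_add]
    exact em1 (f + g) _ (by rw [map_add, ← h1, ← h3]; rfl)
  · obtain ⟨f, a, rfl, h1, h2⟩ := em2 f hf
    obtain ⟨g, b, rfl, h3, h4⟩ := em2 g hg
    rw [h2, h4, ← map_mul]
    exact em1 (f * g) _ (by rw [map_mul, ← h1, ← h3]; rfl)
  · rw [← coe_C, emP]; exact (hκ' a).symm
  · obtain ⟨f, a, rfl, h1, h2⟩ := em2 f hf
    rw [h2, c2, h1]; exact hw.w_le f hc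
  · obtain ⟨f, a, rfl, h1, h2⟩ := em2 f hf
    rw [h2, c2, h1]; exact hw.le_w f n
  · obtain ⟨y, hy⟩ := Al.mem_range (f := θ) h
    obtain ⟨c, hc, rfl⟩ := hρC.surj y
    rw [← hθ c hc, emX] at hy
    refine not_near v (ε.comp Polynomial.C) vX (fun P n => ?_) (hκa c) ((hρ.eq_iff vX hc).1 hy.symm)
    rw [show P.eval₂ (ε.comp Polynomial.C) (ε X) = ε P by rw [← hom_eval₂, eval₂_C_X],
      RingHom.comp_apply, ← hκ', vK]
    exact vp P n
  · refine (c10 a).tr (f := algebraMap (IntermediateField.adjoin C {em PowerSeries.X}) Ω) hεi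
      fun P => ?_
    suffices h : ε P ∈ IntermediateField.adjoin C {em PowerSeries.X} from ⟨⟨_, h⟩, rfl⟩
    induction P using Polynomial.induction_on with
    | C c => rw [← hκ']; exact IntermediateField.algebraMap_mem _ _
    | add P Q hP hQ => rw [map_add]; exact add_mem hP hQ
    | monomial n c h =>
      rw [pow_succ, ← mul_assoc, map_mul]
      exact mul_mem h (emX ▸ IntermediateField.mem_adjoin_simple_self _ _)
  · change d (κ c * a) = κ c * d a
    rw [c5, dκ]; simp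
  · obtain ⟨f, a, rfl, h1, h2⟩ := em2 f hf
    obtain ⟨b, h3, h4⟩ := c8 a
    rw [h2, ← b1, em1 (D0 f) b (by rw [h3, h1, b2])]
    exact h4
  · refine κ.injective ((hs _).symm.trans ?_)
    rw [hκ', hκ', hε, hε]
    refine hS _ _ ?_
    rw [show Polynomial.C (σ a) = frP σ p (Polynomial.C a) by simp [frP]]
    exact (eφ _).symm
  · obtain ⟨f, a, rfl, h1, h2⟩ := em2 f hf
    obtain ⟨b, h3, h4⟩ := c7 a
    rw [h2, ← a1, em1 (φ0 f) b (by rw [h3, h1, a2])]
    exact h4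
  · obtain ⟨f, a, rfl, h1, h2⟩ := em2 f hf
    exact ⟨a, h2.symm⟩
  · have : Algebra.IsAlgebraic j.fieldRange Ω := ⟨fun a => (c10 a).tr
      (f := algebraMap j.fieldRange Ω) hεi fun P => ⟨⟨_, _, (hε P).symm⟩, rfl⟩⟩
    have : IsAlgClosure j.fieldRange Ω := ⟨inferInstance, this⟩
    obtain ⟨y, rfl⟩ := (InfiniteGalois.mem_range_algebraMap_iff_fixed (k := j.fieldRange) a).2
      fun g => ha g.toRingEquiv fun y hy => g.commutes ⟨y, hy⟩
    exact y.2
  · rintro _ ⟨a, rfl⟩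
    rw [c2]; exact hdisc a
  · rintro _ ⟨a, rfl⟩
    obtain ⟨b, h3, h4⟩ := c8 a
    change v (d (j a)) ≤ _
    rw [h4, c2, c2, h3]; exact b4 a
  · obtain ⟨f, a, rfl, h1, h2⟩ := em2 f hf
    refine b5 f fun N => ?_
    obtain ⟨_, ⟨H, rfl⟩, h5, h6⟩ := h N
    obtain ⟨b, h3, h4⟩ := c8 H
    change v (_ - d (j H)) ≤ _ at h6
    rw [h2, h4, ← map_sub, c2] at h6
    exact ⟨H, (c2 H).symm.trans_le h5, by rw [← h1, ← h3]; exact h6⟩

theorem vsStmt : VsStmt := vs_of g1 g2 g3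

end Crest.Agent.T15.Vs

end
end

-- ▼ part T15/HonB_54
section

/-!
# Row 15, block Ht (helper54): approximate integration of an Abel sum
-/

set_option autoImplicit false
set_option linter.all false

noncomputable section

namespace Crest.Agent.T15.Hon

open scoped NNReal PowerSeries
open Polynomial

section val

variable {Ω : Type*} [Field Ω] {v : Valuation Ω ℝ≥0}

theorem v_pow_sub [CharZero Ω] {p : ℕ} (hp : p.Prime) (h : v p < 1) {a b : Ω} (ha : v a ≤ 1)
    (hb : v b ≤ 1) (hab : v (a - b) ≤ v p) (n : ℕ) : v (a ^ n - b ^ n) ≤ v p * v n := by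
  have := pow_congr hp h (PI.const_le ha) (PI.const_le hb)
    (by rw [← map_sub]; exact PI.const_le hab) n 0
  rw [← map_pow, ← map_pow, ← map_sub] at this
  simpa using this

theorem v_le_one_of_sub {a b : Ω} (hb : v b ≤ 1) (h : v (a - b) < 1) : v a ≤ 1 := by
  have := v.map_add (a - b) b
  rw [sub_add_cancel] at this
  exact this.trans (max_le h.le hb)

theorem v_eq_one_of_sub {a b : Ω} (hb : v b = 1) (h : v (a - b) < 1) : v a = 1 := by
  have := v.map_add_eq_of_lt_right (x := a - b) (y := b) (by rwa [hb])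
  rwa [sub_add_cancel, hb] at this

theorem v_prod_le_one {ι : Type*} (s : Finset ι) {f : ι → Ω} (h : ∀ i ∈ s, v (f i) ≤ 1) :
    v (∏ i ∈ s, f i) ≤ 1 := by
  rw [map_prod]; exact Finset.prod_le_one' h

theorem v_aeval_sub (O : Subring Ω) (hO : ∀ a ∈ O, v a ≤ 1) (R : O[X]) {a b : Ω} (ha : v a ≤ 1)
    (hb : v b ≤ 1) : v (aeval a R - aeval b R) ≤ v (a - b) := by
  rw [aeval_eq_sum_range, aeval_eq_sum_range, ← Finset.sum_sub_distrib]
  refine v.map_sum_le fun n _ => ?_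
  rw [← smul_sub, Algebra.smul_def, map_mul, ← (Commute.all a b).mul_geom_sum₂, map_mul]
  refine mul_le_of_le_one_left' (hO _ (R.coeff n).2) |>.trans (mul_le_of_le_one_right' ?_)
  refine v.map_sum_le fun i _ => ?_
  rw [map_mul, map_pow, map_pow]
  exact mul_le_one' (pow_le_one' ha _) (pow_le_one' hb _)

theorem v_aeval_le (O : Subring Ω) (hO : ∀ a ∈ O, v a ≤ 1) (R : O[X]) {a : Ω} (ha : v a ≤ 1) :
    v (aeval a R) ≤ 1 := by
  rw [aeval_eq_sum_range]
  refine v.map_sum_le fun n _ => ?_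
  rw [Algebra.smul_def, map_mul, map_pow]
  exact mul_le_one' (hO _ (R.coeff n).2) (pow_le_one' ha _)

/-- Newton's iteration for `1 / y` -/
theorem exists_inv (O : Subring Ω) (hO : ∀ a ∈ O, v a ≤ 1)
    (hO' : ∀ a ∈ O, v a = 1 → a⁻¹ ∈ O) (h2 : v 2 = 1) {ι : Type*} [Fintype ι] (F : O[X])
    {a b x y : ι → Ω} (haO : ∀ i, a i ∈ O) (hbO : ∀ i, b i ∈ O)
    (hab : ∀ i j, i ≠ j → v (a i - a j) = 1) (hb : ∀ i, v (b i) = 1)
    (hxy : ∀ i, y i ^ 2 = aeval (x i) F) {c : ℝ≥0} (hc : c ≤ 1) (hx : ∀ i, v (x i - a i) ≤ c)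
    (hy : ∀ i, v (y i - b i) ≤ c) (N : ℕ) :
    ∃ R : O[X], ∀ i, v (1 - aeval (x i) R * y i) ≤ c ^ (N + 1) := by
  classical
  have hx1 : ∀ i, v (x i) ≤ 1 := fun i => by
    have := v.map_add (x i - a i) (a i)
    rw [sub_add_cancel] at this
    exact this.trans (max_le ((hx i).trans hc) (hO _ (haO i)))
  have hy1 : ∀ i, v (y i) ≤ 1 := fun i => by
    have := v.map_add (y i - b i) (b i)
    rw [sub_add_cancel] at this
    exact this.trans (max_le ((hy i).trans hc) (hO _ (hbO i)))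
  induction N with
  | zero =>
    let u : ι → Ω := fun i => b i * ∏ j ∈ Finset.univ.erase i, (a i - a j)
    have hu : ∀ i, v (u i) = 1 := fun i => by
      simp only [u, map_mul, map_prod, hb, one_mul]
      exact Finset.prod_eq_one fun j hj => hab i j (Finset.ne_of_mem_erase hj).symm
    have huO : ∀ i, (u i)⁻¹ ∈ O := fun i =>
      hO' _ (mul_mem (hbO i) (prod_mem fun j _ => sub_mem (haO i) (haO j))) (hu i)
    let R : O[X] := ∑ i, C ⟨_, huO i⟩ * ∏ j ∈ Finset.univ.erase i, (X - C ⟨a j, haO j⟩)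
    refine ⟨R, fun i => ?_⟩
    have h1 : aeval (a i) R * b i = 1 := by
      simp only [R, map_sum, map_mul, map_prod, map_sub, aeval_X, aeval_C]
      rw [Finset.sum_eq_single i]
      · have h0 : u i ≠ 0 := by intro h0; have := hu i; rw [h0] at this; simp at this
        change (u i)⁻¹ * (∏ j ∈ Finset.univ.erase i, (a i - a j)) * b i = 1
        rw [mul_assoc, mul_comm _ (b i)]
        exact inv_mul_cancel₀ h0
      · intro j _ hj
        rw [Finset.prod_eq_zero (Finset.mem_erase.mpr ⟨hj.symm, Finset.mem_univ i⟩)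
          (show a i - algebraMap O Ω ⟨a i, haO i⟩ = 0 from sub_self _), mul_zero]
      · simp
    have h3 : 1 - aeval (x i) R * y i =
        -((aeval (x i) R - aeval (a i) R) * y i + aeval (a i) R * (y i - b i)) := by
      rw [← h1]; ring
    rw [h3, Valuation.map_neg, zero_add, pow_one]
    refine (v.map_add _ _).trans (max_le ?_ ?_) <;> rw [map_mul]
    · exact (mul_le_of_le_one_right' (hy1 i)).trans
        ((v_aeval_sub O hO R (hx1 i) (hO _ (haO i))).trans (hx i))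
    · exact (mul_le_of_le_one_left' (v_aeval_le O hO R (hO _ (haO i)))).trans (hy i)
  | succ N ih =>
    obtain ⟨R, hR⟩ := ih
    have h2O : (2 : Ω)⁻¹ ∈ O := hO' _ (by exact_mod_cast natCast_mem O 2) h2
    have h20 : (2 : Ω) ≠ 0 := by intro h0; rw [h0] at h2; simp at h2
    refine ⟨C ⟨_, h2O⟩ * R * (3 - F * R ^ 2), fun i => ?_⟩
    have h3 : 1 - aeval (x i) (C ⟨_, h2O⟩ * R * (3 - F * R ^ 2)) * y i =
        (1 - aeval (x i) R * y i) ^ 2 * (2⁻¹ * (2 + aeval (x i) R * y i)) := by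
      simp only [map_mul, map_sub, map_pow, aeval_C, ← hxy i, map_ofNat]
      change 1 - 2⁻¹ * _ * _ * _ = _
      field_simp
      ring
    have h4 : v (2⁻¹ * (2 + aeval (x i) R * y i)) ≤ 1 := by
      rw [map_mul, map_inv₀, h2, inv_one, one_mul]
      refine (v.map_add _ _).trans (max_le h2.le ?_)
      rw [map_mul]
      exact mul_le_one' (v_aeval_le O hO R (hx1 i)) (hy1 i)
    rw [h3, map_mul, map_pow]
    refine (mul_le_of_le_one_right' h4).trans ((pow_le_pow_left' (hR i) 2).trans ?_)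
    rw [← pow_mul]
    exact pow_le_pow_right_of_le_one' hc (by omega)

theorem d_prod {C : Type*} [Field C] [Algebra C Ω] (d : Derivation C Ω Ω) {ι : Type*}
    [DecidableEq ι] (s : Finset ι) (f : ι → Ω) :
    d (∏ i ∈ s, f i) = ∑ i ∈ s, (∏ j ∈ s.erase i, f j) * d (f i) := by
  induction s using Finset.induction_on with
  | empty => simp
  | insert a s ha ih =>
    rw [Finset.prod_insert ha, Finset.sum_insert ha, Derivation.leibniz, ih, Finset.erase_insert ha,
      smul_eq_mul, smul_eq_mul, add_comm, Finset.mul_sum]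
    congr 1
    refine Finset.sum_congr rfl fun i hi => ?_
    rw [Finset.erase_insert_of_ne (by rintro rfl; exact ha hi),
      Finset.prod_insert (fun h => ha (Finset.mem_of_mem_erase h)), mul_assoc]

end val

namespace Vs

variable {C : Type} [Field C] {K0 : Subfield C} {v0 : Valuation K0 ℝ≥0} {p : ℕ} {hp : p ≠ 0}
  {σ : K0 →+* K0} (X : Vs C K0 v0 p hp σ)

theorem v_nat (n : ℕ) : X.v n = v0 n := by
  have := X.v_K0 n
  simpa using this

/-- the integral constants of `L0` -/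
def O : Subring X.Ω where
  carrier := {y | y ∈ X.L0 ∧ X.v y ≤ 1 ∧ X.d y = 0}
  mul_mem' := fun h h' => ⟨mul_mem h.1 h'.1, by rw [map_mul]; exact mul_le_one' h.2.1 h'.2.1,
    by rw [Derivation.leibniz, h.2.2, h'.2.2]; simp⟩
  one_mem' := ⟨one_mem _, by simp, by simp⟩
  add_mem' := fun h h' => ⟨add_mem h.1 h'.1, (X.v.map_add _ _).trans (max_le h.2.1 h'.2.1),
    by rw [map_add, h.2.2, h'.2.2, add_zero]⟩
  zero_mem' := ⟨zero_mem _, by simp, by simp⟩
  neg_mem' := fun h => ⟨neg_mem h.1, by rw [Valuation.map_neg]; exact h.2.1,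
    by rw [map_neg, h.2.2, neg_zero]⟩

theorem O_le (a : X.Ω) (h : a ∈ X.O) : X.v a ≤ 1 := h.2.1

theorem O_inv (a : X.Ω) (h : a ∈ X.O) (h1 : X.v a = 1) : a⁻¹ ∈ X.O :=
  ⟨inv_mem h.1, by rw [map_inv₀, h1, inv_one], by rw [Derivation.leibniz_inv, h.2.2, smul_zero]⟩

theorem K0_mem_O (a : K0) (h : v0 a ≤ 1) : algebraMap C X.Ω a ∈ X.O :=
  ⟨X.K0_mem a, by rwa [X.v_K0], X.d.map_algebraMap _⟩

/-- approximate integration -/
theorem integ (U : Un v0 p σ) (h2 : v0 2 = 1) {ι : Type*} [Fintype ι] (F : X.O[X])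
    {a b x y : ι → X.Ω} (haO : ∀ i, a i ∈ X.O) (hbO : ∀ i, b i ∈ X.O)
    (hab : ∀ i j, i ≠ j → X.v (a i - a j) = 1) (hb : ∀ i, X.v (b i) = 1)
    (hF : ∀ i, b i ^ 2 = aeval (a i) F) (hxy : ∀ i, y i ^ 2 = aeval (x i) F)
    (hx : ∀ i, X.v (x i - a i) < 1) (hy : ∀ i, X.v (y i - b i) < 1)
    (hg : ∀ g : X.Ω ≃+* X.Ω, (∀ u ∈ X.L0, g u = u) → ∃ π : Equiv.Perm ι, ∀ i, g (x i) = x (π i))
    (m N : ℕ) : ∃ H ∈ X.L0, X.v H ≤ v0 p ∧
      X.v (∑ i, x i ^ m / y i * X.d (x i) - X.d H) ≤ v0 p ^ N := by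
  classical
  have hv2 : X.v 2 = 1 := by have := X.v_nat 2; rw [← h2]; simpa using this
  have hx1 : ∀ i, X.v (x i) ≤ 1 := fun i => v_le_one_of_sub (X.O_le _ (haO i)) (hx i)
  have hy1 : ∀ i, X.v (y i) = 1 := fun i => v_eq_one_of_sub (hb i) (hy i)
  have hxa : ∀ i j, i ≠ j → X.v (x i - a j) = 1 := fun i j hij =>
    v_eq_one_of_sub (hab i j hij) (by rw [sub_sub_sub_cancel_right]; exact hx i)
  -- symmetric functions
  have hu : ∀ j, ∏ i, (x i - a j) ∈ X.L0 := fun j => X.fixed _ fun g hg' => by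
    obtain ⟨π, hπ⟩ := hg g hg'
    simp only [map_prod, map_sub, hπ, hg' _ (haO j).1]
    exact Equiv.prod_comp π fun i => x i - a j
  have hs : ∀ n : ℕ, ∑ i, x i ^ n ∈ X.L0 := fun n => X.fixed _ fun g hg' => by
    obtain ⟨π, hπ⟩ := hg g hg'
    simp only [map_sum, map_pow, hπ]
    exact Equiv.sum_comp π fun i => x i ^ n
  have hvu : ∀ j, X.v (∏ i, (x i - a j)) = X.v (x j - a j) := fun j => by
    rw [map_prod, Finset.prod_eq_single j (fun i _ hi => hxa i j hi) (by simp)]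
  have hxp : ∀ j, X.v (x j - a j) ≤ v0 p := fun j => by
    rw [← hvu]; exact X.disc _ (hu j) (by rw [hvu]; exact hx j)
  have hyp : ∀ j, X.v (y j - b j) ≤ v0 p := fun j => by
    have h1 : X.v (y j + b j) = 1 := v_eq_one_of_sub (b := 2 * b j) (by rw [map_mul, hv2, hb, one_mul])
      (by rw [show y j + b j - 2 * b j = y j - b j by ring]; exact hy j)
    have h3 := (v_aeval_sub X.O X.O_le F (hx1 j) (X.O_le _ (haO j))).trans (hxp j)
    rwa [← hF, ← hxy, sq_sub_sq, map_mul, h1, one_mul] at h3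
  -- the derivatives are integral
  have hd : ∀ j, X.v (X.d (x j)) ≤ 1 := by
    intro j0
    obtain ⟨j, -, hj⟩ := Finset.exists_max_image Finset.univ (fun j => X.v (X.d (x j)))
      ⟨j0, Finset.mem_univ _⟩
    refine (hj j0 (Finset.mem_univ _)).trans (not_lt.mp fun hlt => ?_)
    have h1 := (X.v_d _ (hu j)).trans (v_prod_le_one _ fun i _ =>
      (X.v.map_sub _ _).trans (max_le (hx1 i) (X.O_le _ (haO j))))
    rw [d_prod, ← Finset.add_sum_erase _ _ (Finset.mem_univ j)] at h1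
    simp only [map_sub, (haO j).2.2, sub_zero] at h1
    have h3 : X.v ((∏ i ∈ Finset.univ.erase j, (x i - a j)) * X.d (x j)) = X.v (X.d (x j)) := by
      rw [map_mul, map_prod, Finset.prod_eq_one fun i hi => hxa i j (Finset.ne_of_mem_erase hi),
        one_mul]
    rw [X.v.map_add_eq_of_lt_left, h3] at h1
    · exact absurd hlt (not_lt.mpr h1)
    · rw [h3]
      refine X.v.map_sum_lt (ne_of_gt (lt_trans zero_lt_one hlt)) fun i hi => ?_
      rw [map_mul, ← Finset.mul_prod_erase _ _ (Finset.mem_erase.mpr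
        ⟨(Finset.ne_of_mem_erase hi).symm, Finset.mem_univ j⟩), map_mul]
      refine lt_of_le_of_lt (mul_le_mul' (mul_le_of_le_one_right' (v_prod_le_one _ fun i _ =>
        (X.v.map_sub _ _).trans (max_le (hx1 i) (X.O_le _ (haO j))))) (hj i (Finset.mem_univ _))) ?_
      exact mul_lt_of_lt_one_left (lt_trans zero_lt_one hlt) (hx j)
  obtain ⟨R, hR⟩ := exists_inv X.O X.O_le X.O_inv hv2 F haO hbO hab hb hxy U.lt.le hxp hyp N
  set G : X.O[X] := Polynomial.X ^ m * R with hG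
  refine ⟨∑ n ∈ Finset.range (G.natDegree + 1), (G.coeff n : X.Ω) / (n + 1 : ℕ) *
    (∑ i, x i ^ (n + 1) - ∑ i, a i ^ (n + 1)), ?_, ?_, ?_⟩
  · exact sum_mem fun n _ => mul_mem (div_mem (G.coeff n).2.1 (natCast_mem _ _))
      (sub_mem (hs _) (sum_mem fun i _ => pow_mem (haO i).1 _))
  · refine X.v.map_sum_le fun n _ => ?_
    rw [← Finset.sum_sub_distrib, Finset.mul_sum]
    refine X.v.map_sum_le fun i _ => ?_
    have h0 : X.v (n + 1 : ℕ) ≠ 0 := (Valuation.ne_zero_iff _).2 (Nat.cast_ne_zero.2 n.succ_ne_zero)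
    have h1 := v_pow_sub U.prime (by rw [X.v_nat]; exact U.lt) (hx1 i) (X.O_le _ (haO i))
      (by rw [X.v_nat]; exact hxp i) (n + 1)
    rw [map_mul, map_div₀, X.v_nat p] at *
    calc _ ≤ 1 / X.v (n + 1 : ℕ) * (v0 p * X.v (n + 1 : ℕ)) :=
          mul_le_mul' (div_le_div_of_nonneg_right (G.coeff n).2.2.1 zero_le') h1
      _ = _ := by field_simp
  · have h1 : X.d (∑ n ∈ Finset.range (G.natDegree + 1), (G.coeff n : X.Ω) / (n + 1 : ℕ) *
        (∑ i, x i ^ (n + 1) - ∑ i, a i ^ (n + 1))) = ∑ i, aeval (x i) G * X.d (x i) := by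
      simp only [aeval_eq_sum_range, Finset.sum_mul]
      rw [Finset.sum_comm, map_sum]
      refine Finset.sum_congr rfl fun n _ => ?_
      have h0 : ((n + 1 : ℕ) : X.Ω) ≠ 0 := Nat.cast_ne_zero.2 n.succ_ne_zero
      have h3 : X.d ((G.coeff n : X.Ω) / (n + 1 : ℕ)) = 0 := by
        rw [Derivation.leibniz_div, (G.coeff n).2.2.2, Derivation.map_natCast]; simp
      rw [Derivation.leibniz, h3, smul_zero, add_zero, map_sub, map_sum, map_sum]
      simp only [Derivation.leibniz_pow, (haO _).2.2, smul_zero, Finset.sum_const_zero, sub_zero]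
      simp only [smul_eq_mul, Finset.mul_sum, nsmul_eq_mul, Nat.add_sub_cancel]
      refine Finset.sum_congr rfl fun i _ => ?_
      change _ = (G.coeff n : X.Ω) * _ * _
      field_simp
    rw [h1, ← Finset.sum_sub_distrib]
    refine X.v.map_sum_le fun i _ => ?_
    have h0 : y i ≠ 0 := by intro h0; have := hy1 i; rw [h0] at this; simp at this
    have h3 : x i ^ m / y i * X.d (x i) - aeval (x i) G * X.d (x i) =
        (1 - aeval (x i) R * y i) * (x i ^ m / y i * X.d (x i)) := by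
      rw [hG, map_mul, map_pow, aeval_X]; field_simp
    rw [h3, map_mul]
    refine (mul_le_of_le_one_right' ?_).trans ((hR i).trans
      (pow_le_pow_right_of_le_one' U.lt.le (by omega)))
    rw [map_mul, map_div₀, hy1, div_one, map_pow]
    exact mul_le_one' (pow_le_one' (hx1 i) _) (hd i)

end Vs

end Crest.Agent.T15.Hon
end
end

-- ▼ part T15/HonC_54
section

/-!
# Row 15, block Ht (helper54): classes with trivial reduction, the congruence
-/

set_option autoImplicit false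
set_option linter.all false

noncomputable section

namespace Crest.Agent.T15.Hon

open scoped NNReal PowerSeries
open Polynomial WithZero
open Crest.Agent.R013.RR7_948 Crest.Agent.R013.RR8_948 Crest.Agent.R013.RR9_948
open Crest.Agent.R013.RR11_948 Crest.Agent.R013.RR12_948 Crest.Agent.R013.PicD_398
open Crest.Agent.R013.GR2_921 Crest.Agent.R013.GR4_921 Crest.Agent.R013.Frob1_914
open Crest.Agent.T15.Disc Crest.Agent.T15.Hy

section ell

variable {k K : Type*} [Field k] [Field K] [Algebra k K] [Algebra (RatFunc k) K]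
  [IsScalarTower k (RatFunc k) K] [FiniteDimensional (RatFunc k) K]
  [Algebra.IsSeparable (RatFunc k) K] [IsAlgClosed k]

/-- the divisor of a family of places -/
def sm {ι : Type*} [Fintype ι] {A : Type*} (P : ι → A) : A →₀ ℤ := ∑ i, Finsupp.single (P i) 1

theorem sm_nonneg {ι : Type*} [Fintype ι] {A : Type*} (P : ι → A) : 0 ≤ sm P :=
  Finset.sum_nonneg fun i _ => Finsupp.single_nonneg.mpr zero_le_one

theorem sm_pos {ι : Type*} [Fintype ι] {A : Type*} (P : ι → A) (i : ι) : 1 ≤ sm P (P i) := by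
  have := Finset.single_le_sum (f := fun i => Finsupp.single (P i) (1 : ℤ))
    (fun i _ => Finsupp.single_nonneg.mpr zero_le_one) (Finset.mem_univ i) (P i)
  simpa [sm] using this

theorem sm_ne {ι : Type*} [Fintype ι] {A : Type*} {P : ι → A} {Q : A} (h : sm P Q ≠ 0) :
    ∃ i, P i = Q := by
  by_contra h1
  push Not at h1
  apply h
  rw [sm, Finsupp.finset_sum_apply]
  exact Finset.sum_eq_zero fun i _ => Finsupp.single_eq_of_ne (h1 i).symm

theorem sm_eq {ι : Type*} [Fintype ι] {A : Type*} {P : ι → A} (h : Function.Injective P) (i : ι) :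
    sm P (P i) = 1 := by
  rw [sm, Finsupp.finset_sum_apply, Finset.sum_eq_single i, Finsupp.single_eq_same]
  · exact fun j _ hj => Finsupp.single_eq_of_ne fun e => hj (h e).symm
  · simp

theorem sm_map {ι : Type*} [Fintype ι] {A B : Type*} (P : ι → A) (f : A → B) :
    (sm P).mapDomain f = sm fun i => f (P i) := by
  simp only [sm, Finsupp.mapDomain_finset_sum, Finsupp.mapDomain_single]

theorem sumD_image {ι : Type*} [Fintype ι] [DecidableEq (Pl k K)] {P : ι → Pl k K}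
    (h : Function.Injective P) : sumD (Finset.univ.image P) = sm P := by
  rw [sumD, Finset.sum_image fun i _ j _ e => h e, sm]

theorem ell_pts {F : k[X]} {z w : K} (H : Hyp F z w) {ι : Type*} [Fintype ι]
    (hg : 2 * Fintype.card ι < F.natDegree) {a b : ι → k} (ha : Function.Injective a)
    (hF : ∀ i, b i ^ 2 = F.eval (a i)) : ell (sm fun i => pt z w (a i) (b i)) ≤ 1 := by
  classical
  set D := sm fun i => pt z w (a i) (b i) with hD
  have h1 : (1 : K) ∈ LD D := by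
    rw [mem_LD_iff one_ne_zero, divf_one, add_zero]; exact sm_nonneg _
  refine finrank_le_one (⟨1, h1⟩ : LD D) fun ⟨f, hf⟩ => ?_
  by_cases hf0 : f = 0
  · exact ⟨0, Subtype.ext (by simp [hf0])⟩
  set U : k[X] := ∏ i, (X - C (a i)) with hU
  have hUm : U.Monic := monic_prod_of_monic _ _ fun i _ => monic_X_sub_C _
  have hUd : U.natDegree = Fintype.card ι := by
    rw [hU, natDegree_prod_of_monic _ _ fun i _ => monic_X_sub_C _]; simp
  have hU0 := H.aeval_ne hUm.ne_zero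
  have hdiv : ∀ s : Finset ι, divf (k := k) (∏ i ∈ s, (z - algebraMap k K (a i))) =
      ∑ i ∈ s, (Finsupp.single (pt z w (a i) (b i)) 1 + Finsupp.single (pt z w (a i) (-b i)) 1 -
        Dinf k z) := by
    intro s
    induction s using Finset.induction_on with
    | empty => simp [divf_one]
    | insert i s hi ih =>
      rw [Finset.prod_insert hi, Finset.sum_insert hi, divf_mul (H.x_sub_ne _)
        (Finset.prod_ne_zero_iff.mpr fun j _ => H.x_sub_ne _), ih, H.div_x (hF i)]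
  have h2 : Fintype.card ι • Dinf k z + divf (k := k) (f * aeval z U) =
      (D + divf f) + sm fun i => pt z w (a i) (-b i) := by
    rw [divf_mul hf0 hU0, hU, map_prod]
    simp only [map_sub, aeval_X, aeval_C]
    rw [hdiv, Finset.sum_sub_distrib, Finset.sum_add_distrib, Finset.sum_const, Finset.card_univ,
      hD, sm, sm]
    abel
  have h3 := (mem_LD_iff hf0).mp hf
  obtain ⟨A, B, he, hA, hB⟩ := H.of_mem_LD (f := f * aeval z U) (m := Fintype.card ι) (by
    rw [mem_LD_iff (mul_ne_zero hf0 hU0), h2]; exact add_nonneg h3 (sm_nonneg _))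
  obtain rfl : B = 0 := hB.resolve_right (by omega)
  rw [el_zero] at he
  have h4 : U ∣ A := by
    refine Fintype.prod_dvd_of_coprime (pairwise_coprime_X_sub_C ha) fun i => dvd_iff_isRoot.mpr ?_
    have hP := H.at_pt (a := a i) (b := -b i) (by rw [neg_sq, hF])
    apply hP.aeval_lt_iff.mp
    rw [← he, v_lt_one_iff (mul_ne_zero hf0 hU0)]
    have h5 := DFunLike.congr_fun h2 (pt z w (a i) (-b i))
    have h6 := sm_pos (fun i => pt z w (a i) (-b i)) i
    have h7 := h3 (pt z w (a i) (-b i))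
    simp only [Finsupp.add_apply, Finsupp.smul_apply, Dinf_of_le H.x_ne hP.x_le, smul_zero,
      Finsupp.coe_zero, Pi.zero_apply] at h5 h7
    omega
  obtain ⟨c, rfl⟩ := h4
  have hc0 : c ≠ 0 := by
    rintro rfl; rw [mul_zero, map_zero] at he; exact mul_ne_zero hf0 hU0 he
  rw [hUm.natDegree_mul' hc0, hUd] at hA
  obtain ⟨s, rfl⟩ := natDegree_eq_zero.mp (show c.natDegree = 0 by omega)
  refine ⟨s, Subtype.ext ?_⟩
  apply mul_right_cancel₀ hU0
  rw [he]
  simp [Algebra.smul_def, mul_comm]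

end ell

section rep

variable {C : Type*} [Field C] [IsAlgClosed C] [CharZero C] {L : Type*} [Field L] [Algebra C L]
  [Algebra (RatFunc C) L] [IsScalarTower C (RatFunc C) L] [FiniteDimensional (RatFunc C) L]
  [Algebra.IsSeparable (RatFunc C) L]
  {k κ : Type*} [Field k] [IsAlgClosed k] [Field κ] [Algebra k κ]
  [Algebra (RatFunc k) κ] [IsScalarTower k (RatFunc k) κ] [FiniteDimensional (RatFunc k) κ]
  [Algebra.IsSeparable (RatFunc k) κ]
  {v : Valuation C ℝ≥0} {ρ : C → k} {F : C[X]} {z w : L} {Fb : k[X]} {xb wb : κ}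
  {W : Valuation L ℝ≥0} {res : L → κ} {sp : Pl C L → Pl k κ}

/-- a class with trivial reduction is a difference of points in the discs of the base points -/
theorem exists_rep (h : Ng.NG v ρ F z w Fb xb wb W res sp) {g : ℕ} (hg : Fb.natDegree = 2 * g + 1)
    {a b : Fin g → C} (hF : ∀ i, b i ^ 2 = F.eval (a i)) (ha1 : ∀ i, v (a i) ≤ 1)
    (ha : ∀ i j, i ≠ j → v (a i - a j) = 1) {c : Pic C L} (hc : h.disc.spPic c = 0) :
    ∃ x y : Fin g → C, (∀ i, y i ^ 2 = F.eval (x i)) ∧ (∀ i, v (x i - a i) < 1) ∧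
      (∀ i, v (y i - b i) < 1) ∧
      c = cls (sm (fun i => pt z w (x i) (y i)) - sm fun i => pt z w (a i) (b i)) ∧
      ∀ e : SI C L C L, e.f z = z → e.f w = w → (∀ i, e.s (a i) = a i) → (∀ i, e.s (b i) = b i) →
        e.pic c = c → ∃ π : Equiv.Perm (Fin g), ∀ i, e.s (x i) = x (π i) := by
  classical
  have H := h.nr.hyp
  have Hb := h.nr.hyb
  have hG := h.disc
  have hr := h.nr.rd.resC
  obtain ⟨D, rfl⟩ := cls_surjective c
  rw [Good.spPic_cls] at hc
  obtain ⟨u, hu, hD⟩ := cls_eq_zero_iff.mp hc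
  have hat := fun i => h.at_ _ _ _ (H.at_pt (hF i)) (ha1 i)
  have hFb : ∀ i, ρ (b i) ^ 2 = Fb.eval (ρ (a i)) := fun i => (hat i).2.sq Hb.sq
  have hinj : Function.Injective fun i => ρ (a i) := fun i j e => by
    by_contra hij
    exact absurd ((hr.eq_iff (ha1 i) (ha1 j)).mp e) (by rw [ha i j hij]; exact lt_irrefl _)
  set Pb : Fin g → Pl k κ := fun i => pt xb wb (ρ (a i)) (ρ (b i)) with hPb
  have hPi : Function.Injective Pb := fun i j e =>
    hinj ((Hb.at_pt (hFb i)).eq (show At (Pb i) _ _ _ _ by rw [e]; exact Hb.at_pt (hFb j))).1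
  have hT : sumD (Finset.univ.image Pb) = sm Pb := sumD_image hPi
  have hell : ell (sm Pb) ≤ 1 := ell_pts Hb (by simp; omega) hinj hFb
  have hQ : (sm fun i => pt z w (a i) (b i)).mapDomain sp = sm Pb := by
    rw [sm_map]; congr 1; funext i; exact (Hb.pt_eq (hat i).2).symm
  obtain ⟨f, hf, hE, hE'⟩ := hG.exists_move (T := Finset.univ.image Pb) (by
    rw [Finset.card_image_of_injective _ hPi, Ng.gen_eq Hb (g := g) (by omega) (by omega)]; simp)
    (by rwa [hT]) (hQ.trans hT.symm) hu hD.symm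
  rw [hT] at hE'
  set E := D + (sm fun i => pt z w (a i) (b i)) + divf (k := C) f with hEdef
  choose Q hQ1 hQ2 using fun i => fibre_single hE sp (b := Pb i) (by rw [hE', sm_eq hPi])
  have hQi : Function.Injective Q := fun i j e => hPi (by rw [← hQ1, e, hQ1])
  have hEQ : E = sm Q := by
    ext R
    by_cases h1 : ∃ i, Pb i = sp R
    · obtain ⟨i, hi⟩ := h1
      rw [hQ2 i R hi.symm]
      split_ifs with h2
      · rw [h2, sm_eq hQi]
      · by_contra h3
        obtain ⟨j, rfl⟩ := sm_ne (Ne.symm h3)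
        exact h2 (congrArg Q (hPi (by rw [← hQ1 j, hi])))
    · rw [fibre_zero hE sp (b := sp R) (by rw [hE']; by_contra h3; exact h1 (sm_ne h3)) rfl]
      by_contra h3
      obtain ⟨j, rfl⟩ := sm_ne (Ne.symm h3)
      exact h1 ⟨j, (hQ1 j).symm⟩
  have hfin : ∀ i, (Q i).v z ≤ 1 ∧ v (ev (Q i) z) ≤ 1 := fun i => by
    by_contra h1
    have h2 := h.inf _ h1
    rw [hQ1] at h2
    exact absurd (Hb.at_pt (hFb i)).x_le (not_le.mpr h2)
  have hA := fun i => H.at_ev (hfin i).1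
  have hA' := fun i => h.at_ _ _ _ (hA i) (hfin i).2
  have hab := fun i => ((hA' i).2.eq (show At (sp (Q i)) _ _ _ _ by
    rw [hQ1]; exact Hb.at_pt (hFb i)))
  have hQp : (fun i => pt z w (ev (Q i) z) (ev (Q i) w)) = Q := funext fun i => H.pt_eq (hA i)
  have hcl : cls E = cls D + cls (sm fun i => pt z w (a i) (b i)) := by
    rw [hEdef, map_add, map_add, cls_divf hf, add_zero]
  refine ⟨fun i => ev (Q i) z, fun i => ev (Q i) w, fun i => (hA i).sq H.sq,
    fun i => (hr.eq_iff (hfin i).2 (ha1 i)).mp (hab i).1,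
    fun i => (hr.eq_iff (hA' i).1 (hat i).1).mp (hab i).2, ?_, ?_⟩
  · rw [hQp, ← hEQ, map_sub, hcl, add_sub_cancel_right]
  intro e hz hw hea heb he
  have h1 : e.D (sm fun i => pt z w (a i) (b i)) = sm fun i => pt z w (a i) (b i) := by
    rw [D_eq_mapDomain, sm_map]
    congr 1; funext i
    have := (H.at_pt (hF i)).SI e
    rw [hz, hw, hea, heb] at this
    exact (H.pt_eq this).symm
  have h2 : cls (e.D E - E) = 0 := by
    rw [map_sub, ← SI.pic_cls, hcl, map_add, he, SI.pic_cls, h1, sub_self]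
  obtain ⟨f', hf', h3⟩ := cls_eq_zero_iff.mp h2
  obtain ⟨s, rfl⟩ := mem_range_of_LD hE ((hG.ell_le E).trans (by rwa [hE'])) (z := f') (by
    rw [mem_LD_iff hf', h3, add_sub_cancel]; exact e.D_nonneg hE)
  rw [divf_const (by rintro rfl; simp at hf'), eq_comm, sub_eq_zero] at h3
  choose π hπ using fun i => sm_ne (P := Q) (Q := e.pl (Q i)) (by
    rw [← hEQ, ← h3, SI.D_pl, hEQ, sm_eq hQi]; exact one_ne_zero)
  have hπi : Function.Injective π := fun i j hij =>
    hQi (e.pl_injective (by rw [← hπ, ← hπ, hij]))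
  refine ⟨Equiv.ofBijective π (Finite.injective_iff_bijective.mp hπi), fun i => ?_⟩
  have h4 := (hA i).SI e
  rw [hz, hw, ← hπ] at h4
  exact (h4.eq (hA (π i))).1

end rep

section gen

theorem op_mem {A B : Type*} [AddCommGroup A] [AddCommGroup B] (R : AddSubgroup (A × B))
    {j e : A →+ A} {j' e' : B →+ B} (hj : ∀ a b, (a, b) ∈ R → (j a, j' b) ∈ R)
    (he : ∀ a b, (a, b) ∈ R → (e a, e' b) ∈ R) (Ψ : Fin 3 → ℤ[X]) {a : A} {b : B}
    (h : (a, b) ∈ R) : (op j e Ψ a, op j' e' Ψ b) ∈ R := by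
  have h1 : ∀ {f : A →+ A} {f' : B →+ B}, (∀ a b, (a, b) ∈ R → (f a, f' b) ∈ R) →
      ∀ (n : ℕ) a b, (a, b) ∈ R → (f^[n] a, f'^[n] b) ∈ R := by
    intro f f' hf n
    induction n with
    | zero => exact fun a b h => h
    | succ n ih => exact fun a b h => ih _ _ (hf a b h)
  rw [op, op, prod_mk_sum]
  refine sum_mem fun i _ => ?_
  rw [aeval_eq_sum_range, aeval_eq_sum_range, LinearMap.sum_apply, LinearMap.sum_apply,
    prod_mk_sum]
  refine sum_mem fun n _ => ?_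
  rw [LinearMap.smul_apply, LinearMap.smul_apply, ← Prod.smul_mk, Module.End.pow_apply,
    Module.End.pow_apply]
  exact zsmul_mem (h1 hj n _ _ (h1 he i _ _ h)) _

theorem exists_period {C : Type*} [Field C] [CharZero C] [Algebra.IsAlgebraic ℚ C] (s : C ≃+* C)
    (T : Finset C) : ∃ n : ℕ, ∀ a ∈ T, s^[n + 1] a = a := by
  classical
  have h1 : ∀ a : C, a ∈ Function.periodicPts s := fun a => by
    have hfin : (Set.range fun n : ℕ => s^[n] a).Finite := by
      refine ((minpoly ℚ a).rootSet_finite C).subset ?_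
      rintro _ ⟨n, rfl⟩
      rw [mem_rootSet]
      refine ⟨minpoly.ne_zero (Algebra.IsIntegral.isIntegral a), ?_⟩
      induction n with
      | zero => exact minpoly.aeval ℚ a
      | succ n ih =>
        dsimp only at ih ⊢
        rw [Function.iterate_succ_apply']
        have := aeval_algHom_apply (s.toRingHom.toRatAlgHom) (s^[n] a) (minpoly ℚ a)
        rw [ih, map_zero] at this
        exact this
    obtain ⟨m, n, hmn, he⟩ : ∃ m n : ℕ, m < n ∧ s^[m] a = s^[n] a := by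
      obtain ⟨m, n, h2, h3⟩ := Function.not_injective_iff.mp fun h =>
        Set.infinite_range_of_injective h hfin
      rcases lt_or_gt_of_ne h3 with h4 | h4
      · exact ⟨m, n, h4, h2⟩
      · exact ⟨n, m, h4, h2.symm⟩
    obtain ⟨d, rfl⟩ := Nat.exists_eq_add_of_lt hmn
    rw [add_assoc, Function.iterate_add_apply] at he
    exact ⟨d + 1, d.succ_pos, ((s.injective.iterate m) he).symm⟩
  choose n hn h2 using h1
  obtain ⟨m, hm⟩ := Nat.exists_eq_succ_of_ne_zero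
    (Finset.prod_ne_zero_iff.mpr fun a (_ : a ∈ T) => (hn a).ne')
  exact ⟨m, fun a ha => by
    have := (h2 a).trans_dvd (Finset.dvd_prod_of_mem n ha)
    rwa [hm] at this⟩

variable {K0 : Type*} [Field K0] {v0 : Valuation K0 ℝ≥0} {p : ℕ} {σ : K0 →+* K0}

theorem coeff_th (f : K0⟦X⟧) (n : ℕ) :
    PowerSeries.coeff n (th f) = n * PowerSeries.coeff n f := by
  cases n with
  | zero => simp [th]
  | succ n => rw [th, PowerSeries.coeff_succ_X_mul, PowerSeries.coeff_derivative]; push_cast; ring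

theorem th_fr (hp : p ≠ 0) (f : K0⟦X⟧) : th (fr σ p hp f) = (p : ℤ) • fr σ p hp (th f) := by
  ext n
  rw [coeff_th, map_zsmul, coeff_fr, coeff_fr, coeff_th]
  split_ifs with h
  · obtain ⟨m, rfl⟩ := h
    rw [Nat.mul_div_cancel_left _ (Nat.pos_of_ne_zero hp)]
    simp [mul_assoc]
  · simp

theorem th_add (f g : K0⟦X⟧) : th (f + g) = th f + th g := by simp [th, mul_add]

theorem th_zsmul (n : ℤ) (f : K0⟦X⟧) : th (n • f) = n • th f := by
  ext m; rw [coeff_th, map_zsmul, map_zsmul, coeff_th]; simp; ring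

theorem th_sum {ι : Type*} (s : Finset ι) (f : ι → K0⟦X⟧) : th (∑ i ∈ s, f i) = ∑ i ∈ s, th (f i) := by
  simp [th, Finset.mul_sum]

theorem AI.zsmul {f : K0⟦X⟧} (h : AI v0 f) (n : ℤ) : AI v0 (n • f) := by
  have := (AI.const (v_intCast_le v0 n)).mul h
  rwa [map_intCast, ← zsmul_eq_mul] at this

theorem AI.fr (U : Un v0 p σ) (hp : p ≠ 0) {f : K0⟦X⟧} (h : AI v0 f) : AI v0 (fr σ p hp f) := by
  refine ⟨h.1.fr U.iso hp, h.2.ringHom_of_comp_eq
    ((Polynomial.expand K0 p).toRingHom.comp (mapRingHom σ)) (Hon.fr σ p hp) ?_ ?_⟩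
  · exact (expand_injective (Nat.pos_of_ne_zero hp)).comp (map_injective σ σ.injective)
  · apply Polynomial.ringHom_ext
    · intro a
      simp only [RingHom.comp_apply, coe_mapRingHom, map_C, PowerSeries.algebraMap_apply']
      simp [fr_C]
    · simp only [RingHom.comp_apply, coe_mapRingHom, map_X, PowerSeries.algebraMap_apply']
      simp [fr_X]

theorem eS_iter {g : ℕ} (hp : p ≠ 0) (r : ℕ) (ψ : Fin g → K0⟦X⟧) (m : Fin g) :
    (eS g σ p hp)^[r] ψ m = (fr σ p hp ^ r) (ψ m) := by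
  induction r with
  | zero => rfl
  | succ r ih =>
    rw [Function.iterate_succ_apply', pow_succ', RingHom.mul_def, RingHom.comp_apply, ← ih]; rfl

theorem Un.of_sub_fr (U : Un v0 p σ) (hp : p ≠ 0) {f : K0⟦X⟧} (r : ℕ) {c : ℝ≥0}
    (h0 : PowerSeries.constantCoeff f = 0) (h : PI v0 c (f - (fr σ p hp ^ (r + 1)) f)) :
    PI v0 c f := by
  intro n
  induction n using Nat.strong_induction_on with
  | _ n ih =>
    rcases Nat.eq_zero_or_pos n with rfl | hn
    · simp [h0]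
    have h1 := h n
    have h2 : v0 (PowerSeries.coeff n ((fr σ p hp ^ (r + 1)) f)) ≤ c := by
      rw [fr_pow, coeff_fr]
      split_ifs
      · rw [U.iso_pow]
        exact ih _ (Nat.div_lt_self hn (Nat.one_lt_pow r.succ_ne_zero U.prime.one_lt))
      · simp
    have h3 := (v0.map_add _ _).trans (max_le h1 h2)
    rwa [map_sub, sub_add_cancel] at h3

end gen

theorem ev_at {k K : Type*} [Field k] [Field K] [Algebra k K] [Algebra (RatFunc k) K]
    [IsScalarTower k (RatFunc k) K] [FiniteDimensional (RatFunc k) K]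
    [Algebra.IsSeparable (RatFunc k) K] [IsAlgClosed k] {P : Pl k K} {z w : K} {a b : k}
    (h : At P z w a b) (hb : b ≠ 0) (m : ℕ) : ev P (z ^ m / w) = a ^ m / b := by
  have h1 : P.v w = 1 := Hy.v_eq_one_of_sub P h.2 hb
  have h0 : w ≠ 0 := by rintro rfl; simp at h1
  have h2 : P.v (z ^ m / w) ≤ 1 := by
    rw [map_div₀, h1, div_one, map_pow]; exact pow_le_one' h.x_le m
  have h3 := ev_mul P h2 h1.le
  rw [div_mul_cancel₀ _ h0, ev_pow P h.x_le, ev_eq P h.1, ev_eq P h.2] at h3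
  rw [h3, mul_div_cancel_right₀ _ hb]

namespace Vs

variable {C : Type} [Field C] {K0 : Subfield C} {v0 : Valuation K0 ℝ≥0} {p : ℕ} {hp : p ≠ 0}
  {σ : K0 →+* K0} (X : Vs C K0 v0 p hp σ)

theorem em_zero : X.em 0 = 0 := by simpa using X.em_C 0 (by simp)

theorem em_one : X.em 1 = 1 := by simpa using X.em_C 1 (by simp)

theorem em_zsmul {f : K0⟦X⟧} (h : AI v0 f) (n : ℤ) : X.em (n • f) = n • X.em f := by
  have := X.em_mul _ _ (AI.const (v_intCast_le v0 n)) h
  rw [X.em_C _ (v_intCast_le v0 n), map_intCast, ← zsmul_eq_mul] at this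
  rw [this, zsmul_eq_mul]; simp

theorem em_sum {ι : Type*} (s : Finset ι) {f : ι → K0⟦X⟧} (h : ∀ i ∈ s, AI v0 (f i)) :
    X.em (∑ i ∈ s, f i) = ∑ i ∈ s, X.em (f i) := by
  classical
  induction s using Finset.induction_on with
  | empty => simpa using X.em_zero
  | insert a s ha ih =>
    rw [Finset.sum_insert ha, Finset.sum_insert ha, X.em_add _ _ (h a (Finset.mem_insert_self _ _))
      (AI.sum _ fun i hi => h i (Finset.mem_insert_of_mem hi)),
      ih fun i hi => h i (Finset.mem_insert_of_mem hi)]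

theorem em_pow {f : K0⟦X⟧} (h : AI v0 f) (n : ℕ) : X.em (f ^ n) = X.em f ^ n := by
  induction n with
  | zero => simpa using X.em_one
  | succ n ih => rw [pow_succ, X.em_mul _ _ (h.pow n) h, ih, pow_succ]

theorem em_aeval {f : K0⟦X⟧} (h : AI v0 f) {F : K0[X]} (hF : ∀ n, v0 (F.coeff n) ≤ 1) :
    X.em (aeval f F) = (F.map ((algebraMap C X.Ω).comp K0.subtype)).eval (X.em f) := by
  rw [aeval_eq_sum_range, eval_map, eval₂_eq_sum_range]
  simp only [PowerSeries.smul_eq_C_mul]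
  rw [X.em_sum _ fun n _ => (AI.const (hF n)).mul (h.pow n)]
  refine Finset.sum_congr rfl fun n _ => ?_
  rw [X.em_mul _ _ (AI.const (hF n)) (h.pow n), X.em_C _ (hF n), X.em_pow h]
  rfl

/-- automorphisms which fix the integral series and `K0` -/
def G1 (s : X.Ω ≃+* X.Ω) : Prop :=
  (∀ f, AI v0 f → s (X.em f) = X.em f) ∧ ∀ a : K0, s (algebraMap C X.Ω a) = algebraMap C X.Ω a

theorem S_K0 (a : K0) : X.S (algebraMap C X.Ω a) = algebraMap C X.Ω (σ a) := by
  rw [X.S_C, X.s_K0]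

end Vs

namespace Fm

variable {C : Type} [Field C] {K0 : Subfield C} {v0 : Valuation K0 ℝ≥0} {p : ℕ} {hp : p ≠ 0}
  {σ : K0 →+* K0} {X : Vs C K0 v0 p hp σ} {g : ℕ} {F : K0[X]} {N : Fin g → Fin g → K0}
  {J : Matrix (Fin g) (Fin g) ℤ} (Y : Fm X g F N J)

/-- invariant classes -/
def Inv (c : Pic X.Ω Y.L) : Prop := ∀ e, Y.Fx e → X.G1 e.s → e.pic c = c

/-- classes and their logarithms -/
def R : AddSubgroup (Pic X.Ω Y.L × (Fin g → K0⟦X⟧)) where
  carrier := {q | Y.Inv q.1 ∧ ∀ m, AI v0 (th (q.2 m)) ∧ PowerSeries.constantCoeff (q.2 m) = 0 ∧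
    Y.Λ q.1 m = X.em (th (q.2 m))}
  add_mem' := fun {q q'} h h' => ⟨fun e he hs => by
      rw [Prod.fst_add, map_add, h.1 e he hs, h'.1 e he hs], fun m => by
    rw [Prod.snd_add, Prod.fst_add, Pi.add_apply, th_add, map_add, map_add, Pi.add_apply,
      (h.2 m).2.1, (h'.2 m).2.1, (h.2 m).2.2, (h'.2 m).2.2, X.em_add _ _ (h.2 m).1 (h'.2 m).1]
    exact ⟨(h.2 m).1.add (h'.2 m).1, add_zero _, rfl⟩⟩
  zero_mem' := ⟨fun e _ _ => map_zero _, fun m => by
    simp [th, X.em_zero, AI.zero]⟩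
  neg_mem' := fun {q} h => ⟨fun e he hs => by rw [Prod.fst_neg, map_neg, h.1 e he hs], fun m => by
    rw [Prod.snd_neg, Prod.fst_neg, Pi.neg_apply, map_neg, map_neg, Pi.neg_apply, (h.2 m).2.1,
      (h.2 m).2.2, ← neg_one_zsmul (q.2 m), th_zsmul, X.em_zsmul (h.2 m).1]
    exact ⟨(h.2 m).1.zsmul _, neg_zero, (neg_one_zsmul _).symm⟩⟩

theorem R_j (c : Pic X.Ω Y.L) (ψ : Fin g → K0⟦X⟧) (h : (c, ψ) ∈ Y.R) : (Y.j c, jS K0 J ψ) ∈ Y.R := by
  refine ⟨fun e he hs => ?_, fun m => ?_⟩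
  · exact (Y.j_comm e he c).trans (congrArg Y.j (h.1 e he hs))
  · have h1 : jS K0 J ψ m = ∑ m', J m m' • ψ m' := rfl
    dsimp only
    rw [h1, th_sum, map_sum, Y.Λ_j]
    simp only [th_zsmul]
    refine ⟨AI.sum _ fun i _ => (h.2 i).1.zsmul _, Finset.sum_eq_zero fun i _ => ?_, ?_⟩
    · rw [map_zsmul, (h.2 i).2.1, smul_zero]
    · rw [X.em_sum _ fun i _ => (h.2 i).1.zsmul _]
      exact Finset.sum_congr rfl fun i _ => by rw [X.em_zsmul (h.2 i).1, ← (h.2 i).2.2]

theorem R_e (U : Un v0 p σ) (c : Pic X.Ω Y.L) (ψ : Fin g → K0⟦X⟧) (h : (c, ψ) ∈ Y.R) :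
    (Y.e.pic.toAddMonoidHom c, eS g σ p hp ψ) ∈ Y.R := by
  refine ⟨fun e he hs => ?_, fun m => ?_⟩
  · have h1 := h.1 _ (Y.Fx_trans _ _ (Y.Fx_trans _ _ Y.e_Fx he) (Y.Fx_symm _ Y.e_Fx)) ⟨?_, ?_⟩
    · rw [SI.pic_trans, SI.pic_trans] at h1
      exact (Y.e.pic.symm_apply_eq).mp h1
    · intro f hf
      simp only [SI.trans_s, SI.symm_s, RingEquiv.trans_apply, Y.e_s]
      rw [RingEquiv.symm_apply_eq, X.S_em f hf, hs.1 _ (hf.fr U hp)]
    · intro a
      simp only [SI.trans_s, SI.symm_s, RingEquiv.trans_apply, Y.e_s]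
      rw [RingEquiv.symm_apply_eq, X.S_K0, hs.2]
  · have h1 : eS g σ p hp ψ m = fr σ p hp (ψ m) := rfl
    have h2 := (h.2 m).1.fr U hp
    dsimp only
    rw [h1, th_fr, constantCoeff_fr, (h.2 m).2.1, map_zero, X.em_zsmul h2, ← X.S_em _ (h.2 m).1,
      ← (h.2 m).2.2]
    exact ⟨h2.zsmul _, rfl, (Y.Λ_e c m).trans (by simp)⟩

theorem on_base {a b : K0} (h : GdP v0 F a b) : algebraMap C X.Ω b ^ 2 =
    (F.map ((algebraMap C X.Ω).comp K0.subtype)).eval (algebraMap C X.Ω a) := by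
  have := eval_map_apply (p := F) ((algebraMap C X.Ω).comp K0.subtype) a
  rw [← h.on, map_pow] at this
  exact this.symm

theorem R_x [CharZero K0] (hN : ∀ m k, v0 (N m k) ≤ 1) {a b : K0} (h : GdP v0 F a b) :
    (Y.x a b, lgN N F a b) ∈ Y.R := by
  have H := Y.ng.nr.hyp
  have hs := wt_spec h.two_ne h.b_ne h.on
  have h1 : X.em (wt F a b) ^ 2 = (F.map ((algebraMap C X.Ω).comp K0.subtype)).eval
      (X.em (PowerSeries.C a + PowerSeries.X)) := by
    rw [← X.em_pow h.ai_wt, hs.1, X.em_aeval h.ai_x h.cF]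
  have h2 := on_base (X := X) h
  have h3 : X.em (wt F a b) * X.em (wt F a b)⁻¹ = 1 := by
    rw [← X.em_mul _ _ h.ai_wt h.ai_wt_inv, PowerSeries.mul_inv_cancel _ (by
      rw [hs.2]; exact h.b_ne), X.em_one]
  have h4 : X.em (wt F a b) ≠ 0 := left_ne_zero_of_mul_eq_one h3
  refine ⟨fun e he hs => ?_, fun m => ⟨h.ai_th_lgN hN m, constantCoeff_lgN N m, ?_⟩⟩
  · obtain ⟨hz, hw⟩ := Y.Fx_zw e he fun a _ => hs.2 a
    have h5 := (H.at_pt h1).SI e
    have h6 := (H.at_pt h2).SI e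
    rw [hz, hw, hs.1 _ h.ai_x, hs.1 _ h.ai_wt] at h5
    rw [hz, hw, hs.2, hs.2] at h6
    dsimp only
    rw [x, map_sub, SI.pic_cls, SI.pic_cls, SI.D_single, SI.D_single, ← H.pt_eq h5, ← H.pt_eq h6]
  · dsimp only
    have h5 : th (PowerSeries.C a + PowerSeries.X : K0⟦X⟧) = PowerSeries.X := by simp [th]
    rw [x, map_sub, Pi.sub_apply, Y.Λ_cls, Y.Λ_cls]
    simp only [lam_single, ev_at (H.at_pt h1) h4, ev_eq _ (H.at_pt h1).1, ev_eq _ (H.at_pt h2).1,
      Derivation.map_algebraMap, mul_zero, Finset.sum_const_zero, sub_zero, X.d_em _ h.ai_x, h5]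
    have h6 : ∀ k : Fin g, AI v0 (PowerSeries.C (N m k) * (PowerSeries.C a + PowerSeries.X) ^ (k : ℕ)) :=
      fun k => (AI.const (hN m k)).mul (h.ai_x.pow k)
    rw [th, derivative_lgN, X.em_mul _ _ AI.X' ((AI.sum _ fun k _ => h6 k).mul h.ai_wt_inv),
      X.em_mul _ _ (AI.sum _ fun k _ => h6 k) h.ai_wt_inv, X.em_sum _ fun k _ => h6 k,
      eq_inv_of_mul_eq_one_right h3, Finset.sum_mul, Finset.mul_sum]
    refine Finset.sum_congr rfl fun k _ => ?_
    rw [X.em_mul _ _ (AI.const (hN m k)) (h.ai_x.pow k), X.em_C _ (hN m k), X.em_pow h.ai_x]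
    push_cast
    ring

/-- FIN -/
theorem fin (U : Un v0 p σ) (hN : ∀ m k, v0 (N m k) ≤ 1) {a b : Fin g → K0}
    (h : ∀ i, GdP v0 F (a i) (b i)) (hab : ∀ i i', i ≠ i' → v0 (a i - a i') = 1)
    {c : Pic X.Ω Y.L} (hc : Y.Inv c) (h0 : Y.spc c = 0) (m : Fin g) (n : ℕ) :
    ∃ H ∈ X.L0, X.v H ≤ v0 p ∧ X.v (Y.Λ c m - X.d H) ≤ v0 p ^ n := by
  have H := Y.ng.nr.hyp
  have hab' : ∀ i i', i ≠ i' → X.v (algebraMap C X.Ω (a i) - algebraMap C X.Ω (a i')) = 1 :=
    fun i i' hi => by rw [← map_sub, ← hab i i' hi, ← X.v_K0]; rfl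
  have hb : ∀ i, X.v (algebraMap C X.Ω (b i)) = 1 := fun i => by rw [X.v_K0, (h i).vb]
  obtain ⟨x, y, hxy, hx, hy, hc', hπ⟩ := exists_rep Y.ng Y.degb (fun i => on_base (h i))
    (fun i => by rw [X.v_K0]; exact (h i).va) hab' h0
  set F' := F.map ((algebraMap C X.Ω).comp K0.subtype) with hF'
  have hO : (F'.coeffs : Set X.Ω) ⊆ X.O := by
    intro u hu
    obtain ⟨i, -, rfl⟩ := mem_coeffs_iff.mp hu
    rw [hF', coeff_map]
    exact X.K0_mem_O _ ((h m).cF i)
  have hev : ∀ u, aeval u (F'.toSubring X.O hO) = F'.eval u := fun u => by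
    conv_rhs => rw [← map_toSubring F' X.O hO]
    exact (eval_map_algebraMap _ _).symm
  choose G hG1 hG2 hG3 using fun k : Fin g => X.integ U (h m).two (F'.toSubring X.O hO)
    (fun i => X.K0_mem_O _ (h i).va) (fun i => X.K0_mem_O _ (h i).vb.le) hab' hb
    (fun i => by rw [hev]; exact on_base (h i)) (fun i => by rw [hev]; exact hxy i) hx hy
    (fun s hs => by
      obtain ⟨e, he, rfl⟩ := Y.Fx_ex s
      have h1 : X.G1 e.s := ⟨fun f hf => hs _ (X.em_mem f hf), fun a => hs _ (X.K0_mem a)⟩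
      obtain ⟨hz, hw⟩ := Y.Fx_zw e he fun a _ => h1.2 a
      exact hπ e hz hw (fun i => h1.2 _) (fun i => h1.2 _) (hc e he h1)) k n
  have hN' : ∀ k, X.v (algebraMap C X.Ω (N m k)) ≤ 1 := fun k => by rw [X.v_K0]; exact hN m k
  refine ⟨∑ k, algebraMap C X.Ω (N m k) * G k, sum_mem fun k _ => mul_mem (X.K0_mem _) (hG1 k),
    X.v.map_sum_le fun k _ => ?_, ?_⟩
  · rw [map_mul]; exact (mul_le_of_le_one_left' (hN' k)).trans (hG2 k)
  · rw [hc', Y.Λ_cls, map_sum X.d, ← Finset.sum_sub_distrib]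
    refine X.v.map_sum_le fun k _ => ?_
    have h1 : ∀ i, y i ≠ 0 := fun i h1 => by
      have := v_eq_one_of_sub (hb i) (hy i); rw [h1] at this; simp at this
    rw [Derivation.leibniz, Derivation.map_algebraMap, smul_zero, add_zero, smul_eq_mul, ← mul_sub,
      map_mul, AddMonoidHom.map_sub, sm, sm, map_sum, map_sum]
    simp only [lam_single, fun i => ev_at (H.at_pt (hxy i)) (h1 i), fun i => ev_eq _ (H.at_pt (hxy i)).1,
      fun i => ev_eq _ (H.at_pt (on_base (X := X) (h i))).1, Derivation.map_algebraMap, mul_zero,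
      Finset.sum_const_zero, sub_zero, Int.cast_one, one_mul]
    exact (mul_le_of_le_one_left' (hN' k)).trans (hG3 k)

/-- the powers of the Frobenius lift -/
def E : ℕ → SI X.Ω Y.L X.Ω Y.L
  | 0 => Y.e
  | n + 1 => (E n).trans Y.e

theorem E_spec (n : ℕ) : Y.Fx (Y.E n) ∧ (∀ u, Y.W ((Y.E n).f u) = Y.W u) ∧
    (∀ a : C, (Y.E n).s (algebraMap C X.Ω a) = algebraMap C X.Ω (X.s^[n + 1] a)) ∧
    ∀ c, (Y.E n).pic c = (Y.e.pic.toAddMonoidHom)^[n + 1] c := by
  induction n with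
  | zero => exact ⟨Y.e_Fx, Y.e_iso, fun a => by rw [E, Y.e_s, X.S_C]; rfl, fun c => rfl⟩
  | succ n ih =>
    refine ⟨Y.Fx_trans _ _ ih.1 Y.e_Fx, fun u => (Y.e_iso _).trans (ih.2.1 u), fun a => ?_,
      fun c => ?_⟩
    · rw [E, SI.trans_s, RingEquiv.trans_apply, ih.2.2.1, Y.e_s, X.S_C,
        ← Function.iterate_succ_apply' X.s]
    · rw [E, SI.pic_trans, ih.2.2.2, Function.iterate_succ_apply' _ (n + 1)]; rfl

theorem per [CharZero C] [Algebra.IsAlgebraic ℚ C] {c : Pic X.Ω Y.L}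
    (h : Fa.ConC X.k Y.xb Y.wb (Y.spc c)) :
    ∃ r, Y.spc (c - (Y.e.pic.toAddMonoidHom)^[r + 1] c) = 0 := by
  classical
  obtain ⟨D, hD, hc⟩ := h
  have Hb := Y.ng.nr.hyb
  have h1 : ∀ P : Pl X.k' Y.κ, ∃ a b : C, D P ≠ 0 → 1 < P.v Y.xb ∨
      (X.v (algebraMap C X.Ω a) ≤ 1 ∧ X.v (algebraMap C X.Ω b) ≤ 1 ∧
        At P Y.xb Y.wb (X.ρ (algebraMap C X.Ω a)) (X.ρ (algebraMap C X.Ω b))) := fun P => by
    by_cases h0 : D P = 0
    · exact ⟨0, 0, fun h => absurd h0 h⟩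
    rcases hc P h0 with h2 | ⟨a, b, h2⟩
    · exact ⟨0, 0, fun _ => Or.inl h2⟩
    · obtain ⟨a, ha, rfl⟩ := X.resC.surj a
      obtain ⟨b, hb, rfl⟩ := X.resC.surj b
      exact ⟨a, b, fun _ => Or.inr ⟨ha, hb, by rwa [X.comp a ha, X.comp b hb]⟩⟩
  choose a b hab using h1
  obtain ⟨n, hn⟩ := exists_period X.s (Y.T.image (↑) ∪ (D.support.image a ∪ D.support.image b))
  obtain ⟨e1, e2, e3, e4⟩ := Y.E_spec n
  obtain ⟨hz, hw⟩ := Y.Fx_zw _ e1 fun t ht => by
    rw [e3, hn _ (Finset.mem_union_left _ (Finset.mem_image_of_mem _ ht))]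
  obtain ⟨eb, b1, b2, b3⟩ := Y.ng.disc.exists_bar _ e2
  have hxb : eb.f Y.xb = Y.xb := by rw [← Y.ng.nr.rx, ← b1 _ Y.ng.nr.wx, hz]
  have hwb : eb.f Y.wb = Y.wb := by rw [← Y.ng.rw, ← b1 _ Y.ng.nr.W_w.le, hw]
  refine ⟨n, ?_⟩
  rw [map_sub, ← e4, sub_eq_zero]
  refine Eq.trans ?_ (Y.ng.disc.spPic_pic _ b3 c).symm
  change _ = eb.pic (Y.spc c)
  rw [← hD, SI.pic_cls, D_eq_mapDomain]
  congr 1
  conv_lhs => rw [← Finsupp.mapDomain_id (v := D)]
  refine Finsupp.mapDomain_congr fun P hP => ?_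
  rcases hab P (Finsupp.mem_support_iff.mp hP) with h2 | ⟨h2, h3, h4⟩
  · exact Hb.inf_unique ⟨g, Y.degb⟩ h2 (by rw [← hxb, SI.pl_v_apply]; exact h2)
  · have h5 := h4.SI eb
    rw [hxb, hwb, ← b2 _ h2, ← b2 _ h3, e3, e3,
      hn _ (Finset.mem_union_right _ (Finset.mem_union_left _ (Finset.mem_image_of_mem _ hP))),
      hn _ (Finset.mem_union_right _ (Finset.mem_union_right _ (Finset.mem_image_of_mem _ hP)))] at h5
    exact Hb.at_unique h4 h5

theorem cong [CharZero C] [Algebra.IsAlgebraic ℚ C] (U : Un v0 p σ) (hN : ∀ m k, v0 (N m k) ≤ 1)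
    {a b : Fin g → K0} (h : ∀ i, GdP v0 F (a i) (b i)) (hab : ∀ i i', i ≠ i' → v0 (a i - a i') = 1)
    {c : Pic X.Ω Y.L} {ψ : Fin g → K0⟦X⟧} (hR : (c, ψ) ∈ Y.R)
    (hc : Fa.ConC X.k Y.xb Y.wb (Y.spc c)) (m : Fin g) : PI v0 (v0 p) (ψ m) := by
  obtain ⟨r, hr⟩ := Y.per hc
  have h1 : ∀ n : ℕ, ((Y.e.pic.toAddMonoidHom)^[n] c, (eS g σ p hp)^[n] ψ) ∈ Y.R := fun n => by
    induction n with
    | zero => exact hR
    | succ n ih =>
      rw [Function.iterate_succ_apply', Function.iterate_succ_apply']; exact Y.R_e U _ _ ih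
  have h2 := sub_mem hR (h1 (r + 1))
  have h3 := X.coef _ (h2.2 m).1 fun n => by
    rw [← (h2.2 m).2.2]; exact Y.fin U hN h hab h2.1 hr m n
  refine U.of_sub_fr hp r (hR.2 m).2.1 fun n => ?_
  rw [← eS_iter]
  rcases Nat.eq_zero_or_pos n with rfl | hn
  · have := (h2.2 m).2.1
    rw [PowerSeries.coeff_zero_eq_constantCoeff_apply]
    exact (congrArg v0 this).trans_le (by simp)
  · have h4 := h3 n
    rw [coeff_th, map_mul, mul_comm] at h4
    exact le_of_mul_le_mul_right h4 ((Valuation.pos_iff _).mpr (Nat.cast_ne_zero.mpr hn.ne'))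

end Fm

theorem congStmt : CongStmt := fun C _ _ _ _ K0 v0 p hp σ U X g F N J Y hN a0 b0 h0 hab a b h Ψ hc m =>
  Y.cong U hN h0 hab (op_mem Y.R Y.R_j (Y.R_e U) Ψ (Y.R_x hN h)) hc m

end Crest.Agent.T15.Hon
end
private theorem rz_9cd0e045d4 : type_of% @_root_.Crest.Agent.T15.Hon.Fm.E.eq_def := @_root_.Crest.Agent.T15.Hon.Fm.E.eq_def -- L544
private theorem rz_4866292f39 : type_of% @_root_.Crest.Agent.T15.Hon.Fm.E.eq_1 := @_root_.Crest.Agent.T15.Hon.Fm.E.eq_1 -- L544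
end

-- ▼ part T15/HonGl_74
section

/-!
# Row 15, block Ht (helper74): the inertia field, globalisation of the Honda integrality
-/

set_option autoImplicit false
set_option linter.all false

noncomputable section

namespace Crest.Agent.T15.Hon

open scoped NNReal PowerSeries
open PowerSeries NumberField Crest.Agent.R018.Placesx484
open Crest.Agent.T15.C (Om Gam In IsFr)

/-! ## the norm of a place -/

/-- the normalised norm of a place of `ℚ̄` -/
def vO (P : Place Om) : Valuation Om ℝ≥0 :=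
  (NormedField.valuation (K := Cg.CP P)).comap (Cg.emb P)

section place

variable (P : Place Om)

theorem coe_vO (x : Om) : (vO P x : ℝ) = Cg.av P x := Cg.norm_emb P x

theorem vO_le_one (x : Om) : vO P x ≤ 1 ↔ P.v x ≤ 1 := by
  rw [← NNReal.coe_le_coe, coe_vO, ← Cg.av_le_one_iff']; rfl

theorem vO_lt_one (x : Om) : vO P x < 1 ↔ P.v x < 1 := by
  rw [← NNReal.coe_lt_coe, coe_vO, ← Cg.av_lt_one_iff]; rfl

theorem vO_eq_one (x : Om) : vO P x = 1 ↔ P.v x = 1 := by
  rw [le_antisymm_iff, le_antisymm_iff, vO_le_one, ← not_lt (a := vO P x), ← not_lt (a := P.v x),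
    vO_lt_one]

theorem vO_int (x : 𝓞 Om) : vO P (algebraMap _ _ x) ≤ 1 := (vO_le_one P _).2 (P.v_int_le_one x)

theorem vO_int_lt (x : 𝓞 Om) : vO P (algebraMap _ _ x) < 1 ↔ x ∈ P.ideal :=
  (vO_lt_one P _).trans (P.v_int_lt_one_iff x)

theorem vO_of_isIntegral {x : Om} (h : IsIntegral ℤ x) : vO P x ≤ 1 := vO_int P ⟨x, h⟩

theorem vO_smul {g : Gam} (hg : g • P = P) (x : Om) : vO P (g x) = vO P x := by
  ext; rw [coe_vO, coe_vO, Cg.av_smul P hg]

theorem vO_natCast_eq_one (n : ℕ) : vO P n = 1 ↔ ¬ P.rchar ∣ n :=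
  (vO_eq_one P _).trans (P.v_natCast_eq_one_iff n)

theorem vO_natCast_lt_one (n : ℕ) : vO P n < 1 ↔ P.rchar ∣ n := by
  rw [(v_natCast_le (vO P) n).lt_iff_ne, ne_eq, vO_natCast_eq_one, not_not]

theorem vO_rchar_lt : vO P P.rchar < 1 := (vO_natCast_lt_one P _).2 dvd_rfl

theorem vO_rchar_ne : vO P P.rchar ≠ 0 := by simpa using P.rchar_prime.ne_zero

variable {P}

theorem isFr_smul {φ : Gam} (h : IsFr P P.rchar φ) : φ • P = P :=
  Cg.frob_mem P P.rchar_prime.ne_zero h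

theorem vO_frob {φ : Gam} {q : ℕ} (h0 : φ • P = P) (h : IsFr P q φ) {x : Om} (hx : vO P x ≤ 1) :
    vO P (φ x - x ^ q) < 1 := by
  obtain ⟨a, s, hs, e⟩ := (P.mem_val x).1 ((P.v_le_one_iff x).1 ((vO_le_one P x).1 hx))
  have h1 : vO P (algebraMap _ _ s) = 1 :=
    le_antisymm (vO_int P s) (not_lt.1 fun h => hs ((vO_int_lt P s).1 h))
  have hf : ∀ y : 𝓞 Om, vO P (φ (algebraMap _ _ y) - algebraMap _ _ y ^ q) < 1 := fun y => by
    have := (vO_int_lt P _).2 (h y)
    rwa [map_sub, map_pow, Place.smul_coe] at this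
  have e2 : (φ x - x ^ q) * (φ (algebraMap _ _ s) * algebraMap _ _ s ^ q) =
      (φ (algebraMap _ _ a) - algebraMap _ _ a ^ q) * algebraMap _ _ s ^ q -
        algebraMap _ _ a ^ q * (φ (algebraMap _ _ s) - algebraMap _ _ s ^ q) := by
    rw [← e, map_mul]; ring
  have e3 := congrArg (vO P) e2
  rw [map_mul, map_mul, vO_smul P h0, map_pow, h1, one_pow, mul_one, mul_one] at e3
  rw [e3]
  refine (vO P).map_sub_lt ?_ ?_ <;> rw [map_mul, map_pow]
  · rw [h1, one_pow, mul_one]; exact hf a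
  · exact mul_lt_one_of_nonneg_of_lt_one_right (pow_le_one' (vO_int P a) _) zero_le (hf s)

theorem vO_inertia {g : Gam} (hg : g ∈ In P) {x : Om} (hx : vO P x ≤ 1) : vO P (g x - x) < 1 :=
  (vO_lt_one P _).2 (P.v_smul_sub_lt_one hg x ((vO_le_one P x).1 hx))

end place

/-- an element which is integral at every place is an algebraic integer -/
theorem isIntegral_of_forall {x : Om} (h : ∀ P : Place Om, vO P x ≤ 1) : IsIntegral ℤ x := by
  let J : Ideal (𝓞 Om) :=
    { carrier := {s | IsIntegral ℤ (x * algebraMap _ _ s)}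
      add_mem' := fun {s t} hs ht => by
        simpa only [Set.mem_setOf_eq, map_add, mul_add] using IsIntegral.add hs ht
      zero_mem' := by simpa using isIntegral_zero
      smul_mem' := fun c s hs => by
        simp only [Set.mem_setOf_eq, smul_eq_mul, map_mul, mul_left_comm x]
        exact IsIntegral.mul c.2 hs }
  by_cases hJ : J = ⊤
  · have : (1 : 𝓞 Om) ∈ J := hJ ▸ Submodule.mem_top
    simpa [J] using this
  obtain ⟨m, hm, hle⟩ := Ideal.exists_le_maximal J hJ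
  obtain ⟨a, b, hb, e⟩ := Place.exists_div x
  have hb' : b ∈ J := by
    change IsIntegral ℤ (x * algebraMap _ _ b)
    rw [e]; exact a.2
  obtain ⟨a', s, hs, e'⟩ := (Place.mem_val _ x).1 ((Place.v_le_one_iff _ x).1 ((vO_le_one _ x).1
    (h ⟨m, hm.isPrime, fun h0 => hb (by simpa [h0] using hle hb')⟩)))
  refine absurd (hle ?_) hs
  change IsIntegral ℤ (x * algebraMap _ _ s)
  rw [e']; exact a'.2

/-! ## the inertia field -/

/-- the inertia field -/
def KI (P : Place Om) : Subfield Om := (IntermediateField.fixedField (In P)).toSubfield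

theorem mem_KI {P : Place Om} {x : Om} : x ∈ KI P ↔ ∀ g ∈ In P, g x = x :=
  IntermediateField.mem_fixedField_iff (In P) x

/-- the norm of the inertia field -/
def vI (P : Place Om) : Valuation (KI P) ℝ≥0 := (vO P).comap (KI P).subtype

theorem vI_apply (P : Place Om) (a : KI P) : vI P a = vO P a := rfl

theorem vI_natCast (P : Place Om) (n : ℕ) : vI P n = vO P n := by rw [vI_apply]; simp

theorem smul_mem_KI {P : Place Om} {φ : Gam} (h : φ • P = P) {x : Om} (hx : x ∈ KI P) :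
    φ x ∈ KI P := by
  refine mem_KI.2 fun g hg => ?_
  have h1 : φ⁻¹ * g * φ ∈ In P := by
    intro y
    have h2 := hg (φ • y)
    change _ ∈ P.ideal at h2
    rw [← h, Place.mem_smul_ideal, smul_sub, inv_smul_smul] at h2
    rw [mul_smul, mul_smul]
    exact h2
  have := congrArg φ (mem_KI.1 hx _ h1)
  simpa using this

/-- the Frobenius of the inertia field -/
def sg {P : Place Om} {φ : Gam} (h : IsFr P P.rchar φ) : KI P →+* KI P :=
  (φ : Om →+* Om).restrict (KI P) (KI P) fun _ hx => smul_mem_KI (isFr_smul h) hx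


theorem un {P : Place Om} {φ : Gam} (h : IsFr P P.rchar φ) : Un (vI P) P.rchar (sg h) where
  prime := P.rchar_prime
  lt := by rw [vI_natCast]; exact vO_rchar_lt P
  disc a ha := by
    rw [vI_natCast]
    rw [vI_apply] at ha ⊢
    by_cases h0 : (a : Om) = 0
    · simp [h0]
    obtain ⟨m, hm⟩ := Rb.val_fixed P h0 (mem_KI.1 a.2)
    rw [← vO_eq_one, map_mul, map_zpow₀] at hm
    have hp := vO_rchar_ne P
    have e : vO P a = vO P P.rchar ^ (-m) := by
      rw [zpow_neg]; exact eq_inv_of_mul_eq_one_left hm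
    rw [e] at ha ⊢
    have h1 : 0 < -m := (zpow_lt_one_iff_right_of_lt_one₀ (pos_iff_ne_zero.2 hp)
      (vO_rchar_lt P)).1 ha
    simpa using zpow_le_zpow_right_of_le_one₀ (pos_iff_ne_zero.2 hp) (vO_rchar_lt P).le
      (show (1 : ℤ) ≤ -m from h1)
  iso a := vO_smul P (isFr_smul h) a
  frob a ha := vO_frob (isFr_smul h) h ha




/-! ## almost all places -/

/-- at the places off a finite set of primes -/
def Ae (Q : Place Om → Prop) : Prop := ∃ B : ℕ, B ≠ 0 ∧ ∀ P : Place Om, ¬ P.rchar ∣ B → Q P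

namespace Ae

variable {Q Q' : Place Om → Prop}

theorem of_forall (h : ∀ P, Q P) : Ae Q := ⟨1, one_ne_zero, fun P _ => h P⟩

theorem mono (h : Ae Q) (h' : ∀ P, Q P → Q' P) : Ae Q' :=
  let ⟨B, h0, hB⟩ := h; ⟨B, h0, fun P hP => h' P (hB P hP)⟩

theorem and (h : Ae Q) (h' : Ae Q') : Ae fun P => Q P ∧ Q' P :=
  let ⟨B, h0, hB⟩ := h
  let ⟨B', h0', hB'⟩ := h'
  ⟨B * B', mul_ne_zero h0 h0', fun P hP =>
    ⟨hB P fun e => hP (e.mul_right _), hB' P fun e => hP (e.mul_left _)⟩⟩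

theorem all {ι : Type*} [Finite ι] {Q : ι → Place Om → Prop} (h : ∀ i, Ae (Q i)) :
    Ae fun P => ∀ i, Q i P := by
  haveI := Fintype.ofFinite ι
  choose B h0 hB using h
  exact ⟨∏ i, B i, Finset.prod_ne_zero_iff.2 fun i _ => h0 i, fun P hP i =>
    hB i P fun e => hP (e.trans (Finset.dvd_prod_of_mem _ (Finset.mem_univ i)))⟩

theorem not_dvd {B : ℕ} (h : B ≠ 0) : Ae fun P => ¬ P.rchar ∣ B := ⟨B, h, fun _ hP => hP⟩

end Ae

theorem ae_int {y : 𝓞 Om} (hy : y ≠ 0) : Ae fun P => vO P (algebraMap _ _ y) = 1 := by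
  obtain ⟨z, d, hd, e⟩ := Algebra.IsAlgebraic.exists_smul_eq_mul ℤ (1 : 𝓞 Om) hy
  refine ⟨d.natAbs, by simpa using hd, fun P hP => le_antisymm (vO_int P y) ?_⟩
  have h1 : vO P (d : Om) = 1 := by
    rw [← vO_natCast_eq_one, Nat.cast_natAbs] at hP
    rcases abs_choice d with h | h <;> simpa [h] using hP
  have e' : (d : Om) = algebraMap _ _ y * algebraMap _ _ z := by
    rw [← map_mul, ← e]; simp
  rw [e', map_mul] at h1
  rw [← h1]
  exact mul_le_of_le_one_right' (vO_int P z)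

theorem ae_unit {x : Om} (hx : x ≠ 0) : Ae fun P => vO P x = 1 := by
  obtain ⟨a, b, hb, e⟩ := Place.exists_div x
  have ha : a ≠ 0 := by
    rintro rfl
    simp [hx, hb] at e
  refine ((ae_int ha).and (ae_int hb)).mono fun P ⟨h1, h2⟩ => ?_
  rwa [← e, map_mul, h2, mul_one] at h1

theorem ae_le (x : Om) : Ae fun P => vO P x ≤ 1 := by
  by_cases hx : x = 0
  · exact Ae.of_forall fun P => by simp [hx]
  · exact (ae_unit hx).mono fun P h => h.le

theorem ae_mem (x : Om) : Ae fun P => x ∈ KI P := by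
  classical
  have hi : IsIntegral ℚ x := Algebra.IsIntegral.isIntegral x
  have h1 : Ae fun P => ∀ c : (minpoly ℚ x).rootSet Om, c.1 ≠ x → vO P (c.1 - x) = 1 :=
    Ae.all fun c => by
      by_cases hc : c.1 = x
      · exact Ae.of_forall fun P h => absurd hc h
      · exact (ae_unit (sub_ne_zero.2 hc)).mono fun P h _ => h
  refine (h1.and (ae_le x)).mono fun P ⟨h2, h3⟩ => mem_KI.2 fun g hg => ?_
  by_contra hne
  have hm : g x ∈ (minpoly ℚ x).rootSet Om := by
    rw [Polynomial.mem_rootSet]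
    exact ⟨minpoly.ne_zero hi, by rw [Polynomial.aeval_algHom_apply, minpoly.aeval, map_zero]⟩
  exact (vO_inertia hg h3).ne (h2 ⟨_, hm⟩ hne)

theorem ae_coeff {Q : Om → Place Om → Prop} (h0 : ∀ P, Q 0 P) (h : ∀ x, Ae (Q x))
    (F : Polynomial Om) : Ae fun P => ∀ n, Q (F.coeff n) P :=
  (Ae.all fun n : F.support => h (F.coeff n)).mono fun P hP n => by
    by_cases hn : n ∈ F.support
    · exact hP ⟨n, hn⟩
    · rw [Polynomial.notMem_support_iff.1 hn]; exact h0 P

theorem exists_den {ι : Type*} [Finite ι] (x : ι → Om) :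
    ∃ d : ℕ, d ≠ 0 ∧ ∀ i (P : Place Om), vO P (d * x i) ≤ 1 := by
  classical
  haveI := Fintype.ofFinite ι
  haveI : Algebra.IsAlgebraic ℤ Om := (IsFractionRing.comap_isAlgebraic_iff (A := ℤ) (K := ℚ)).2
    inferInstance
  obtain ⟨y, hy, h⟩ := Algebra.IsAlgebraic.exists_integral_multiples ℤ (Finset.univ.image x)
  refine ⟨y.natAbs, by simpa using hy, fun i P => ?_⟩
  have := vO_of_isIntegral P (h (x i) (by simp))
  rw [Nat.cast_natAbs]
  rcases abs_choice y with h | h <;> simpa [h] using this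

/-! ## descent -/

theorem exists_map {K : Type*} [Field K] (S : Subfield K) {f : K⟦X⟧} (h : ∀ n, coeff n f ∈ S) :
    ∃ f0 : S⟦X⟧, PowerSeries.map S.subtype f0 = f :=
  ⟨mk fun n => ⟨_, h n⟩, by ext n; simp⟩

theorem exists_pmap {K : Type*} [Field K] (S : Subfield K) {F : Polynomial K}
    (h : ∀ n, F.coeff n ∈ S) : ∃ F0 : Polynomial S, F0.map S.subtype = F :=
  (Polynomial.mem_lifts _).1 ((Polynomial.lifts_iff_coeff_lifts _).2 fun n => ⟨⟨_, h n⟩, rfl⟩)

theorem solve_lin {K : Type*} [Field K] {g : ℕ} {N : Matrix (Fin g) (Fin g) K} (hN : N.det ≠ 0)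
    (y : Fin g → K) (k : Fin g) : y k = ∑ m, N⁻¹ k m * ∑ j, N m j * y j := by
  have : N⁻¹.mulVec (N.mulVec y) = y := by
    rw [Matrix.mulVec_mulVec, Matrix.nonsing_inv_mul _ (Ne.isUnit hN), Matrix.one_mulVec]
  exact (congrFun this k).symm

/-- a formal solution whose data are fixed by `s` is fixed by `s` -/
theorem Sol.fixed {K : Type*} [Field K] [CharZero K] {g : ℕ} {F : Polynomial K} {a b : Fin g → K}
    {Φ x w η : Fin g → K⟦X⟧} (h : Sol F a b Φ x w η) (ha : Function.Injective a)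
    (hb : ∀ i, b i ≠ 0) (s : K →+* K) (sF : F.map s = F) (sa : ∀ i, s (a i) = a i)
    (sb : ∀ i, s (b i) = b i) (sΦ : ∀ m, PowerSeries.map s (Φ m) = Φ m) (i : Fin g) (n : ℕ) :
    s (coeff n (x i)) = coeff n (x i) ∧ s (coeff n (w i)) = coeff n (w i) ∧
      s (coeff n (η i)) = coeff n (η i) := by
  have h1 := (sol_map_iff s).2 h
  simp only [sF, sa, sb, sΦ] at h1
  obtain ⟨e1, e2, e3⟩ := h1.unique h ha hb
  refine ⟨?_, ?_, ?_⟩ <;> rw [← coeff_map]
  · rw [congrFun e1 i]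
  · rw [congrFun e2 i]
  · rw [congrFun e3 i]

/-! ## globalisation -/

variable {g : ℕ}

/-- depletion -/
def dep (B : ℕ) (V : ℕ → Fin g → ℤ) : ℕ → Fin g → ℤ := fun n => if n.Coprime B then V n else 0

theorem Rec.dep {K : Type*} [Field K] {p B' : ℕ} (hp : p.Prime) (h' : ¬ p ∣ B')
    {B : ℕ → Fin g → Fin g → K} {V : ℕ → Fin g → ℤ} (h : Rec p B V) : Rec p B (dep B' V) := by
  have hc : ∀ n, (p * n).Coprime B' ↔ n.Coprime B' := fun n => by
    rw [Nat.coprime_mul_iff_left]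
    exact and_iff_right ((Nat.Prime.coprime_iff_not_dvd hp).2 h')
  intro n m
  have e := h n m
  by_cases hd : p ∣ n
  · obtain ⟨n, rfl⟩ := hd
    rw [Nat.mul_div_cancel_left n hp.pos] at e ⊢
    by_cases hn : n.Coprime B'
    · simpa only [Hon.dep, hc, if_pos hn] using e
    · simp [Hon.dep, hc, if_neg hn]
  · by_cases hn : n.Coprime B'
    · simpa only [Hon.dep, hc, if_pos hn, hd, if_false] using e
    · simp [Hon.dep, hc, if_neg hn, hd]

/-- the Honda congruence at `P` -/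
def CongAt (F : Polynomial Om) (a b : Fin g → Om) (N : Matrix (Fin g) (Fin g) Om)
    (V : ℕ → Fin g → ℤ) (P : Place Om) : Prop :=
  ∀ (φ : Gam) (hφ : IsFr P P.rchar φ) (F0 : Polynomial (KI P)) (a0 b0 : Fin g → KI P)
    (N0 : Fin g → Fin g → KI P), F0.map (KI P).subtype = F → (∀ i, (a0 i : Om) = a i) →
    (∀ i, (b0 i : Om) = b i) → (∀ m k, (N0 m k : Om) = N m k) →
    (∀ i, GdP (vI P) F0 (a0 i) (b0 i)) → (∀ m k, vI P (N0 m k) ≤ 1) →
    (∀ y : Fin g → KI P, (∀ m, vI P (∑ k, N0 m k * y k) ≤ 1) → ∀ k, vI P (y k) ≤ 1) →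
    ∃ B : ℕ → Fin g → Fin g → KI P, (∀ k m m', vI P (B k m m') ≤ 1) ∧ Rec P.rchar B V ∧
      ∀ i m, PI (vI P) (vI P P.rchar)
        (uop (sg hφ) P.rchar P.rchar_prime.ne_zero 2 B (lgN N0 F0 (a0 i) (b0 i)) m)

theorem exists_isFr (P : Place Om) : ∃ s : Gam, IsFr P P.rchar s := by
  obtain ⟨s, -, h⟩ := Place.exists_frob (F := ℚ) P
  exact ⟨s, by rwa [R018.FDEx389.qv_rat] at h⟩

theorem good {F : Polynomial Om} {a b : Fin g → Om} {N : Matrix (Fin g) (Fin g) Om}
    {V : ℕ → Fin g → ℤ} (ha : Function.Injective a) (hb : ∀ i, b i ≠ 0) (hN : N.det ≠ 0)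
    (hC : Ae (CongAt F a b N V)) : Ae fun P => ∀ (B' M : ℕ), ¬ P.rchar ∣ B' →
      ∀ Φ x w η : Fin g → Om⟦X⟧, (∀ m, ∑ k, C (N m k) * Φ k = eich Om M (dep B' V) m) →
        Sol F a b Φ x w η → ∀ i, PI (vO P) 1 (x i) ∧ PI (vO P) 1 (w i) := by
  have h1 := (ae_coeff (Q := fun x P => x ∈ KI P ∧ vO P x ≤ 1) (fun P => ⟨zero_mem _, by simp⟩)
    (fun x => (ae_mem x).and (ae_le x)) F)
  have h2 := Ae.all fun i => ((ae_mem (a i)).and (ae_le (a i))).and
    ((ae_mem (b i)).and (ae_unit (hb i)))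
  have h3 := Ae.all fun m => Ae.all fun k => ((ae_mem (N m k)).and (ae_le (N m k))).and
    (ae_le (N⁻¹ m k))
  have h4 : Ae fun P => ∀ i j, i ≠ j → vO P (a i - a j) = 1 := Ae.all fun i => Ae.all fun j => by
    by_cases hij : i = j
    · exact Ae.of_forall fun P h => absurd hij h
    · exact (ae_unit (sub_ne_zero.2 (ha.ne hij))).mono fun P h _ => h
  refine ((((hC.and h1).and h2).and h3).and (h4.and (ae_unit two_ne_zero))).mono ?_
  rintro P ⟨⟨⟨⟨hC, h1⟩, h2⟩, h3⟩, h4, h5⟩ B' M hB' Φ x w η hΦ hS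
  obtain ⟨φ, hφ⟩ := exists_isFr P
  obtain ⟨F0, hF0⟩ := exists_pmap (KI P) fun n => (h1 n).1
  let a0 : Fin g → KI P := fun i => ⟨a i, (h2 i).1.1⟩
  let b0 : Fin g → KI P := fun i => ⟨b i, (h2 i).2.1⟩
  let N0 : Fin g → Fin g → KI P := fun m k => ⟨N m k, (h3 m k).1.1⟩
  have fΦ : ∀ s ∈ In P, ∀ k n, s (coeff n (Φ k)) = coeff n (Φ k) := fun s hs k n => by
    have e : ∀ m, ∑ j, N m j * coeff n (Φ j) = (M : Om) * dep B' V n m / n := fun m => by
      simpa [eich] using congrArg (coeff n) (hΦ m)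
    rw [solve_lin hN (fun j => s (coeff n (Φ j))) k, solve_lin hN (fun j => coeff n (Φ j)) k]
    refine Finset.sum_congr rfl fun m _ => ?_
    have e2 := congrArg s (e m)
    simp only [map_sum, map_mul, map_div₀, map_natCast, map_intCast,
      mem_KI.1 (h3 _ _).1.1 s hs] at e2
    rw [e2, e]
  have fS := fun (s : Gam) (hs : s ∈ In P) => hS.fixed ha hb (s : Om →+* Om)
    (by ext n; simpa using mem_KI.1 (h1 n).1 s hs) (fun i => mem_KI.1 (h2 i).1.1 s hs)
    (fun i => mem_KI.1 (h2 i).2.1 s hs) (fun m => by ext n; simpa using fΦ s hs m n)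
  choose Φ0 eΦ using fun k => exists_map (KI P) fun n => mem_KI.2 fun s hs => fΦ s hs k n
  choose x0 ex using fun i => exists_map (KI P) fun n => mem_KI.2 fun s hs => (fS s hs i n).1
  choose w0 ew using fun i => exists_map (KI P) fun n => mem_KI.2 fun s hs => (fS s hs i n).2.1
  choose η0 eη using fun i => exists_map (KI P) fun n => mem_KI.2 fun s hs => (fS s hs i n).2.2
  have hS0 : Sol F0 a0 b0 Φ0 x0 w0 η0 := (sol_map_iff (KI P).subtype).1 (by
    simp only [hF0, eΦ, ex, ew, eη]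
    exact hS)
  have hG : ∀ i, GdP (vI P) F0 (a0 i) (b0 i) := fun i =>
    ⟨h5, fun n => by have := (h1 n).2; rwa [← hF0, Polynomial.coeff_map] at this, (h2 i).1.2,
      (h2 i).2.2, hS0.on i⟩
  have hN' : ∀ y : Fin g → KI P, (∀ m, vI P (∑ k, N0 m k * y k) ≤ 1) → ∀ k, vI P (y k) ≤ 1 :=
    fun y hy k => by
      rw [vI_apply, solve_lin hN (fun j => (y j : Om)) k]
      refine (vO P).map_sum_le fun m _ => ?_
      rw [map_mul]
      refine mul_le_one' (h3 k m).2 ?_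
      have := hy m
      rw [vI_apply] at this
      simpa [N0] using this
  obtain ⟨B, hB, hR, hu⟩ := hC φ hφ F0 a0 b0 N0 hF0 (fun _ => rfl) (fun _ => rfl) (fun _ _ => rfl)
    hG (fun m k => (h3 m k).1.2) hN'
  intro i
  have key := (un hφ).fe_sol P.rchar_prime.ne_zero hB hG (fun i j hij => h4 i j hij)
    (fun m k => (h3 m k).1.2) hN' hu (Ψ := eich (KI P) M (dep B' V)) (Φ := Φ0)
    (fun m => PowerSeries.map_injective _ (KI P).subtype.injective (by
      simp only [map_sum, map_mul, map_C, eΦ]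
      refine (hΦ m).trans ?_
      ext n; simp [eich]))
    (constantCoeff_eich M _) ((un hφ).hecke _ (hR.dep P.rchar_prime hB') M) hS0 i
  exact ⟨fun n => by rw [← ex, coeff_map]; exact key.1 n, fun n => by
    rw [← ew, coeff_map]; exact key.2 n⟩

/-- **integrality of the formal solution** -/
theorem glob (hBad : BadStmt) {F : Polynomial Om} {a b : Fin g → Om}
    {N : Matrix (Fin g) (Fin g) Om} {V : ℕ → Fin g → ℤ} (ha : Function.Injective a)
    (hb : ∀ i, b i ≠ 0) (hN : N.det ≠ 0) (hC : Ae (CongAt F a b N V)) :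
    ∃ B : ℕ, B ≠ 0 ∧ ∀ B' : ℕ, B' ≠ 0 → B ∣ B' → ∃ M : ℕ, M ≠ 0 ∧
      ∀ Φ x w η : Fin g → Om⟦X⟧, (∀ m, ∑ k, C (N m k) * Φ k = eich Om M (dep B' V) m) →
        Sol F a b Φ x w η → ∀ i n, 0 < n →
          IsIntegral ℤ (coeff n (x i)) ∧ IsIntegral ℤ (coeff n (w i)) := by
  obtain ⟨B, h0, hB⟩ := good ha hb hN hC
  refine ⟨B, h0, fun B' h0' hd => ?_⟩
  obtain ⟨M, hM, hbad⟩ := hBad Om g F a b ha hb B' h0'
  obtain ⟨d, hd0, hden⟩ := exists_den fun km : Fin g × Fin g => N⁻¹ km.1 km.2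
  refine ⟨M * d, mul_ne_zero hM hd0, fun Φ x w η hΦ hS i n hn => ?_⟩
  have key : ∀ P : Place Om, vO P (coeff n (x i)) ≤ 1 ∧ vO P (coeff n (w i)) ≤ 1 := fun P => by
    by_cases hP : P.rchar ∣ B'
    · refine hbad (vO P) ((vO_natCast_lt_one P _).2 hP) Φ x w η (fun k j => ?_) hS i n hn
      rw [solve_lin hN (fun k => coeff j (Φ k)) k]
      refine (vO P).map_sum_le fun m _ => ?_
      have e : ∑ k, N m k * coeff j (Φ k) = ((M * d : ℕ) : Om) * dep B' V j m / j := by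
        simpa [eich] using congrArg (coeff j) (hΦ m)
      have e2 : N⁻¹ k m * (((M * d : ℕ) : Om) * dep B' V j m / j) =
          M * ((d * N⁻¹ k m) * (dep B' V j m / j)) := by push_cast; ring
      rw [e, e2, map_mul, map_mul]
      refine mul_le_of_le_one_right' (mul_le_one' (hden (k, m) P) ?_)
      by_cases hc : j.Coprime B'
      · have : ¬ P.rchar ∣ j := fun h =>
          P.rchar_prime.ne_one (Nat.eq_one_of_dvd_coprimes hc h hP)
        rw [map_div₀, (vO_natCast_eq_one P j).2 this, div_one]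
        exact v_intCast_le _ _
      · simp [dep, hc]
    · have := hB P (fun h => hP (h.trans hd)) B' (M * d) hP Φ x w η hΦ hS i
      exact ⟨this.1 n, this.2 n⟩
  exact ⟨isIntegral_of_forall fun P => (key P).1, isIntegral_of_forall fun P => (key P).2⟩

end Crest.Agent.T15.Hon
end
end

-- ▼ part T15/HonT_74
section

/-!
# Row 15, block Ht (helper74): the statement `TriStmt` (input of `HondaStmt` and `RatStmt`)
-/

set_option autoImplicit false
set_option linter.all false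

noncomputable section

namespace Crest.Agent.T15.Hon

open scoped NNReal PowerSeries
open Matrix Crest.Agent.R018.Placesx484
open Crest.Agent.T15.C (Om Gam In IsFr)
open Crest.Agent.T15.Mo (Par)
open Crest.Agent.R013.PicD_398 Crest.Agent.R013.Frob1_914

/-- pairing, torsion and congruence at the place `Q0` -/
def TriAt {P : Par Om} (M : Ht.Mdl P) (N : Matrix (Fin 3) (Fin 3) Om) (Q0 : Place Om) : Prop :=
  ∀ (φ : Gam) (hφ : IsFr Q0 Q0.rchar φ) (F0 : Polynomial (KI Q0)) (N0 : Fin 3 → Fin 3 → KI Q0),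
    F0.map (KI Q0).subtype = P.F → (∀ m k, (N0 m k : Om) = N m k) →
    ∃ (Q : Place Om) (e : SI Om M.Y Om M.Y), Q.rchar = Q0.rchar ∧ Ht.Fr M Q e ∧
      ∀ a b : KI Q0, GdP (vI Q0) F0 a b →
        Rat.Tri 3 Q0.rchar (Kill M.j e.pic.toAddMonoidHom)
          (Cong (vI Q0) Q0.rchar Q0.rchar_prime.ne_zero (sg hφ) F0 N0 Ht.J3 a b)

/-- TRI -/
def TriStmt : Prop :=
  ∀ (p1 p2 p3 t : ℤ) (P : Par Om) (M : Ht.Mdl P) (N : Matrix (Fin 3) (Fin 3) Om),
    Ht.Is P p1 p2 p3 t → Ht.IsOm M N → Ae (TriAt M N)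


/-- descent of a point -/
theorem ae_pt {F : Polynomial Om} {a b : Om} (hb : b ≠ 0) (h : b ^ 2 = F.eval a) :
    Ae fun Q => ∃ a0 b0 : KI Q, (a0 : Om) = a ∧ (b0 : Om) = b ∧
      ∀ F0 : Polynomial (KI Q), F0.map (KI Q).subtype = F → GdP (vI Q) F0 a0 b0 := by
  refine (((ae_coeff (Q := fun x P => vO P x ≤ 1) (fun P => by simp) ae_le F).and
    (ae_unit two_ne_zero)).and (((ae_mem a).and (ae_le a)).and
      ((ae_mem b).and (ae_unit hb)))).mono ?_
  rintro Q ⟨⟨h1, h2⟩, ⟨h3, h4⟩, h5, h6⟩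
  refine ⟨⟨a, h3⟩, ⟨b, h5⟩, rfl, rfl, fun F0 hF0 => ⟨h2, fun n => ?_, h4, h6, ?_⟩⟩
  · have := h1 n
    rwa [← hF0, Polynomial.coeff_map] at this
  · apply (KI Q).subtype.injective
    rw [← Polynomial.eval₂_at_apply, Polynomial.eval₂_eq_eval_map, hF0, map_pow]
    exact h

/-- the logarithm of a primitive differential is not small -/
theorem nz {K0 : Type*} [Field K0] [CharZero K0] {v0 : Valuation K0 ℝ≥0} {g : ℕ}
    {F : Polynomial K0} {a b : K0} (h : GdP v0 F a b) (N : Fin g → Fin g → K0) (m : Fin g)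
    {c : ℝ≥0} (hc : ∀ n, 0 < n → n ≤ g → v0 (PowerSeries.coeff n (lgN N F a b m)) ≤ c)
    (k : Fin g) : v0 (N m k) ≤ c := by
  set S : Polynomial K0 :=
    ∑ k, Polynomial.C (N m k) * (Polynomial.X + Polynomial.C a) ^ (k : ℕ) with hS
  have e : PowerSeries.derivative K0 (lgN N F a b m) * wt F a b = (S : K0⟦X⟧) := by
    rw [derivative_lgN, mul_assoc, PowerSeries.inv_mul_cancel, mul_one, hS,
      ← Polynomial.coeToPowerSeries.ringHom_apply, map_sum]
    · simp [add_comm]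
    · rw [(wt_spec h.two_ne h.b_ne h.on).2]; exact h.b_ne
  have h1 : ∀ n, v0 (S.coeff n) ≤ c := fun n => by
    by_cases hn : n < g
    · rw [← Polynomial.coeff_coe, ← e, PowerSeries.coeff_mul]
      refine v0.map_sum_le fun ij hij => ?_
      have hi : ij.1 + 1 ≤ g := by have := Finset.HasAntidiagonal.mem_antidiagonal.1 hij; omega
      rw [map_mul, PowerSeries.coeff_derivative, map_mul]
      have := v_natCast_le v0 (ij.1 + 1)
      push_cast at this
      simpa using mul_le_mul' (mul_le_mul' (hc _ (Nat.succ_pos _) hi) this) (h.ai_wt.1 ij.2)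
    · rw [hS, Polynomial.finset_sum_coeff, Finset.sum_eq_zero, map_zero]
      · exact zero_le
      · intro j _
        rw [Polynomial.coeff_C_mul, Polynomial.coeff_eq_zero_of_natDegree_lt, mul_zero]
        rw [Polynomial.natDegree_pow, Polynomial.natDegree_X_add_C]
        have := j.2; omega
  have h2 : PI v0 c (Polynomial.aeval (PowerSeries.X - PowerSeries.C a : K0⟦X⟧) S) := by
    rw [Polynomial.aeval_eq_sum_range]
    refine PI.sum _ fun i _ => ?_
    rw [PowerSeries.smul_eq_C_mul]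
    exact (PI.const_le (h1 i)).mul_right ((PI.X'.sub (PI.const_le h.va)).pow i)
  have h3 := h2 k
  simp only [hS, map_sum, map_mul, map_pow, map_add, Polynomial.aeval_C, Polynomial.aeval_X,
    ← PowerSeries.C_eq_algebraMap, sub_add_cancel, PowerSeries.coeff_C_mul,
    PowerSeries.coeff_X_pow] at h3
  rw [Finset.sum_eq_single k] at h3
  · simpa using h3
  · intro j _ hj
    rw [if_neg (fun e => hj (Fin.ext e).symm), mul_zero]
  · simp

theorem exists_base {F : Polynomial Om} (hF : F ≠ 0) (g : ℕ) : ∃ a b : Fin g → Om,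
    Function.Injective a ∧ (∀ i, b i ≠ 0) ∧ ∀ i, b i ^ 2 = F.eval (a i) := by
  classical
  have h := (F.roots.toFinset.finite_toSet).infinite_compl
  let a : Fin g → Om := fun i => h.natEmbedding _ i
  choose b hb using fun i => IsAlgClosed.exists_pow_nat_eq (F.eval (a i)) two_pos
  refine ⟨a, b, fun i j e => Fin.ext ((h.natEmbedding _).injective (Subtype.ext e)),
    fun i e => ?_, hb⟩
  have h1 := (h.natEmbedding _ i).2
  have h2 := hb i
  rw [e] at h2
  exact h1 (by simpa [hF, a] using h2.symm)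

theorem F_ne (P : Par Om) : P.F ≠ 0 := by
  have h : ∀ a : Om, (Polynomial.X ^ 2 - Polynomial.C a : Polynomial Om) ≠ 0 := fun a =>
    (Polynomial.monic_X_pow_sub_C a two_ne_zero).ne_zero
  simp [Par.F, Mo.Fm, h, P.c_ne]

theorem ae_sep {g : ℕ} {a : Fin g → Om} (ha : Function.Injective a) :
    Ae fun P => ∀ i j, i ≠ j → vO P (a i - a j) = 1 := Ae.all fun i => Ae.all fun j => by
  by_cases hij : i = j
  · exact Ae.of_forall fun P h => absurd hij h
  · exact (ae_unit (sub_ne_zero.2 (ha.ne hij))).mono fun P h _ => h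

theorem ae_ne {l : ℕ} (hl : l.Prime) : Ae fun P => P.rchar ≠ l :=
  (Ae.not_dvd hl.ne_zero).mono fun P h e => h (e ▸ dvd_rfl)

theorem tri_of (hV : VsStmt) (hF : Ht.FrmStmt) (hC : CongStmt) : TriStmt := by
  intro p1 p2 p3 t P M N hI hN
  obtain ⟨S, hS0, hS⟩ := hF p1 p2 p3 t P M N hI hN
  obtain ⟨a, b, ha, hb, hab⟩ := exists_base (F_ne P) 3
  have h1 : Ae fun Q => ∀ s : S, s.1 ∈ KI Q ∧ vO Q s = 1 := Ae.all fun s =>
    (ae_mem s.1).and (ae_unit fun e => hS0 (e ▸ s.2))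
  refine (((h1.and (ae_ne Nat.prime_three)).and (Ae.all fun i => ae_pt (hb i) (hab i))).and
    ((ae_sep ha).and (Ae.all fun m => Ae.all fun k => ae_le (N m k)))).mono ?_
  rintro Q0 ⟨⟨⟨h1, h3⟩, h2⟩, h4, h5⟩ φ hφ F0 N0 eF eN
  choose a0 b0 ea eb hG using h2
  obtain ⟨X⟩ := hV Om (KI Q0) (vI Q0) _ Q0.rchar_prime.ne_zero _ (un hφ)
  obtain ⟨Q, e, hQ, he, Y, hY⟩ := hS (KI Q0) (vI Q0) _ _ _ (un hφ) h3
    (fun s hs => ⟨(h1 ⟨s, hs⟩).1, (h1 ⟨s, hs⟩).2⟩) X F0 N0 eF eN
  refine ⟨Q, e, hQ, he, fun a' b' hG' => (hY a' b' hG').mono (fun _ _ h => h) fun Ψ h => ?_⟩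
  refine hC Om _ _ _ _ _ (un hφ) X 3 F0 N0 _ Y (fun m k => ?_) a0 b0 (fun i => hG i F0 eF)
    (fun i j hij => ?_) a' b' hG' Ψ h
  · rw [vI_apply, eN]; exact h5 m k
  · have := h4 i j hij
    rwa [← ea, ← ea] at this

end Crest.Agent.T15.Hon
end
end

-- ▼ part T15/HonZ_74
section

/-!
# Row 15, block Ht (helper74): `HondaStmt` from `TriStmt`
-/

set_option autoImplicit false
set_option linter.all false

noncomputable section

namespace Crest.Agent.T15.Hon

open scoped NNReal PowerSeries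
open Matrix Crest.Agent.R018.Placesx484
open Crest.Agent.T15.C (Om Gam In IsFr)
open Crest.Agent.T15.Mo (Par)
open Crest.Agent.R013.PicD_398 Crest.Agent.R013.Frob1_914
open Crest.Agent.T15.Ht (J3 ep pc)

/-! ## words -/

section words

open Polynomial

/-- `j² (e² - n j^ε e + p)` -/
def wA (ε : ℕ) (n : ℤ) (p : ℕ) : Fin 3 → ℤ[X] := ![C (p : ℤ) * X ^ 2, -(C n * X ^ (2 + ε)), X ^ 2]

/-- `(j² - 3) (e² + p)` -/
def wEa (p : ℕ) : Fin 3 → ℤ[X] := ![C (p : ℤ) * (X ^ 2 - C 3), 0, X ^ 2 - C 3]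

/-- `(j² - 3) e` -/
def wEb : Fin 3 → ℤ[X] := ![0, X ^ 2 - C 3, 0]

variable {A : Type*} [AddCommGroup A] (j e : A →+ A)

theorem op_three (Ψ : Fin 3 → ℤ[X]) (c : A) : op j e Ψ c =
    aeval (j.toIntLinearMap : Module.End ℤ A) (Ψ 0) c +
      aeval (j.toIntLinearMap : Module.End ℤ A) (Ψ 1) (e c) +
      aeval (j.toIntLinearMap : Module.End ℤ A) (Ψ 2) (e (e c)) := by
  simp only [op, Fin.sum_univ_three]
  rfl

theorem pow_apply' (n : ℕ) (c : A) : ((j.toIntLinearMap : Module.End ℤ A) ^ n) c = j^[n] c := by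
  rw [Module.End.pow_apply]; rfl

theorem op_A (ε : ℕ) (n : ℤ) (p : ℕ) (c : A) :
    op j e (wA ε n p) c = j (j (e (e c) - n • j^[ε] (e c) + p • c)) := by
  have h : j^[2 + ε] (e c) = j (j (j^[ε] (e c))) := by rw [Function.iterate_add_apply]; rfl
  rw [op_three]
  simp only [wA, cons_val_zero, cons_val_one, cons_val, map_mul, map_neg, map_pow, aeval_X, aeval_C,
    Module.End.mul_apply, LinearMap.neg_apply, pow_apply', h, Module.algebraMap_end_apply,
    map_add, map_sub, map_zsmul, map_nsmul, natCast_zsmul]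
  simp only [Function.iterate_succ, Function.iterate_zero, Function.comp_apply, id_eq]
  abel

theorem op_E (v u : ℤ) (p : ℕ) (c : A) :
    op j e (v • wEa p - u • wEb) c =
      j (j (v • (e (e c) + p • c) - u • e c)) - 3 • (v • (e (e c) + p • c) - u • e c) := by
  rw [op_three]
  simp only [wEa, wEb, Pi.sub_apply, Pi.smul_apply, cons_val_zero, cons_val_one, cons_val, map_mul,
    map_pow, aeval_X, aeval_C, Module.End.mul_apply, pow_apply', Module.algebraMap_end_apply,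
    map_add, map_sub, map_zsmul, map_nsmul, natCast_zsmul, smul_zero, sub_zero, zero_sub, map_neg,
    LinearMap.sub_apply, LinearMap.smul_apply, LinearMap.neg_apply]
  simp only [Function.iterate_succ, Function.iterate_zero, Function.comp_apply, id_eq]
  module

end words

section series

open PowerSeries

variable {K0 : Type*} [Field K0] {v0 : Valuation K0 ℝ≥0}

theorem jS_J3 (ψ : Fin 3 → K0⟦X⟧) : jS K0 J3 ψ = ![(3 : ℤ) • ψ 1, ψ 0, 0] := by
  funext m
  change ∑ m', J3 m m' • ψ m' = _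
  fin_cases m <;> simp [J3, Fin.sum_univ_three]

theorem jS_jS (ψ : Fin 3 → K0⟦X⟧) :
    jS K0 J3 (jS K0 J3 ψ) = ![(3 : ℤ) • ψ 0, (3 : ℤ) • ψ 1, 0] := by
  rw [jS_J3, jS_J3]; simp

theorem eS_apply {g p : ℕ} (σ : K0 →+* K0) (hp : p ≠ 0) (ψ : Fin g → K0⟦X⟧) (m : Fin g) :
    eS g σ p hp ψ m = fr σ p hp (ψ m) := rfl

theorem PI.of_C_mul {c : ℝ≥0} {a : K0} {f : K0⟦X⟧} (ha : v0 a = 1) (h : PI v0 c (C a * f)) :
    PI v0 c f := fun n => by
  have := h n
  rwa [coeff_C_mul, map_mul, ha, one_mul] at this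

variable [CharZero K0] {p : ℕ} {σ : K0 →+* K0}

/-- the matrices of the functional equation -/
def Bm (p : ℕ) (n : ℤ) (t : K0) : ℕ → Fin 3 → Fin 3 → K0 := fun k =>
  if k = 0 then
    (if p % 4 = 3 then !![0, -3 * (n : K0), 0; -(n : K0), 0, 0; 0, 0, -t]
      else !![-(n : K0), 0, 0; 0, -(n : K0), 0; 0, 0, -t])
  else !![1, 0, 0; 0, 1, 0; 0, 0, 1]

theorem v_Bm (p : ℕ) (n : ℤ) {t : K0} (ht : v0 t ≤ 1) (k : ℕ) (m m' : Fin 3) :
    v0 (Bm p n t k m m') ≤ 1 := by
  have h1 := v_intCast_le v0 n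
  have h3 : v0 3 * v0 n ≤ 1 := mul_le_one' (by simpa using v_natCast_le v0 3) h1
  unfold Bm
  split_ifs <;> fin_cases m <;> fin_cases m' <;> simp [h1, h3, ht]

theorem Un.three (U : Un v0 p σ) (h3 : p ≠ 3) : v0 3 = 1 := by
  simpa using v_natCast_eq U.prime U.lt (n := 3) fun h =>
    h3 ((Nat.prime_dvd_prime_iff_eq U.prime Nat.prime_three).1 h)

/-- the congruence on the `E`-block -/
theorem Un.cong_E (U : Un v0 p σ) (hp : p ≠ 0) (h3 : p ≠ 3) {F : Polynomial K0}
    {N : Fin 3 → Fin 3 → K0} {a b : K0} {v u : ℤ}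
    (h : Cong v0 p hp σ F N J3 a b (v • wEa p - u • wEb)) :
    PI v0 (v0 p) (C (v : K0) * (fr σ p hp (fr σ p hp (lgN N F a b 2)) + C (p : K0) * lgN N F a b 2) -
      C (u : K0) * fr σ p hp (lgN N F a b 2)) := by
  have h1 := (h 2).neg
  rw [op_E, jS_jS] at h1
  refine PI.of_C_mul (U.three h3) ?_
  convert h1 using 1
  simp [eS_apply, map_ofNat, mul_add]

/-- the denominator is prime to `p` -/
theorem Un.not_dvd (U : Un v0 p σ) (hp : p ≠ 0) (h3 : p ≠ 3) {F : Polynomial K0}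
    {N : Fin 3 → Fin 3 → K0} {a b : K0} (hG : GdP v0 F a b) (hN : ∀ m k, v0 (N m k) ≤ 1)
    {k : Fin 3} (hk : v0 (N 2 k) = 1) {v u : ℤ} (huv : IsCoprime u v)
    (h : Cong v0 p hp σ F N J3 a b (v • wEa p - u • wEb)) : ¬ (p : ℤ) ∣ v := by
  intro hv
  have h2 : p ≠ 2 := by
    rintro rfl
    have := U.lt
    simp [hG.two] at this
  have h4 : 3 < p := by
    have := U.prime.two_le
    omega
  have hvz : ∀ z : ℤ, v0 z = v0 z.natAbs := fun z => by
    rw [Nat.cast_natAbs]; rcases abs_choice z with h | h <;> simp [h]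
  have hu : v0 u = 1 := by
    rw [hvz]
    refine v_natCast_eq U.prime U.lt fun hu => U.prime.ne_one ?_
    have := huv.isUnit_of_dvd' (Int.natCast_dvd.2 hu) hv
    simpa [Int.isUnit_iff_natAbs_eq] using this
  have hv' : v0 v ≤ v0 p := by
    obtain ⟨c, rfl⟩ := hv
    push_cast
    rw [map_mul]
    exact mul_le_of_le_one_right' (v_intCast_le v0 c)
  refine absurd (nz hG N 2 (c := v0 p) (fun n hn hn3 => ?_) k) (by rw [hk]; exact not_le.2 U.lt)
  have hpn : ¬ p ∣ n := fun h => by have := Nat.le_of_dvd hn h; omega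
  have h1 := U.cong_E hp h3 h (p * n)
  simp only [map_sub, map_add, coeff_C_mul, coeff_fr, dvd_mul_right, if_true,
    Nat.mul_div_cancel_left n U.prime.pos, hpn, if_false, map_zero, zero_add] at h1
  have h5 : v0 ((v : K0) * (p * coeff (p * n) (lgN N F a b 2))) ≤ v0 p := by
    have := hG.li_lgN hN 2 (p * n)
    push_cast at this
    rw [mul_right_comm, map_mul, v_natCast_eq U.prime U.lt hpn, mul_one] at this
    rw [map_mul]
    simpa using mul_le_mul' hv' this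
  have h6 := v0.map_sub_le h5 h1
  rwa [sub_sub_cancel, map_mul, hu, one_mul, U.iso] at h6

/-- both blocks together -/
theorem Un.uop_Bm (U : Un v0 p σ) (hp : p ≠ 0) (h3 : p ≠ 3) {F : Polynomial K0}
    {N : Fin 3 → Fin 3 → K0} {a b : K0} {n v u : ℤ} (hv : v0 v = 1)
    (hA : Cong v0 p hp σ F N J3 a b (wA (ep p) n p))
    (hE : Cong v0 p hp σ F N J3 a b (v • wEa p - u • wEb)) (m : Fin 3) :
    PI v0 (v0 p) (uop σ p hp 2 (Bm p n ((u : K0) / v)) (lgN N F a b) m) := by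
  have hv0 : (v : K0) ≠ 0 := fun e => by simp [e] at hv
  have e1 : ∀ f, (fr σ p hp ^ (0 + 1)) f = fr σ p hp f := fun f => by simp
  have e2 : ∀ f, (fr σ p hp ^ (1 + 1)) f = fr σ p hp (fr σ p hp f) := fun f => by
    simp [pow_succ]
  have hA0 := hA 0
  have hA1 := hA 1
  rw [op_A, jS_jS] at hA0 hA1
  simp only [uop, Finset.sum_range_succ, Finset.sum_range_zero, zero_add (M := K0⟦X⟧), e1, e2,
    Fin.sum_univ_three]
  fin_cases m
  · refine PI.of_C_mul (U.three h3) ?_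
    convert hA0 using 1
    by_cases h4 : p % 4 = 3 <;> simp [Bm, ep, h4, jS_J3, eS_apply, map_ofNat, vecHead, vecTail] <;> ring
  · refine PI.of_C_mul (U.three h3) ?_
    convert hA1 using 1
    by_cases h4 : p % 4 = 3 <;> simp [Bm, ep, h4, jS_J3, eS_apply, map_ofNat, vecHead, vecTail] <;> ring
  · refine PI.of_C_mul hv ?_
    convert U.cong_E hp h3 hE using 1
    have e : (C (v : K0) : K0⟦X⟧) * C ((u : K0) / v) = C (u : K0) := by
      rw [← map_mul, mul_div_cancel₀ _ hv0]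
    by_cases h4 : p % 4 = 3 <;> simp only [Bm, h4, if_true, if_false, one_ne_zero] <;>
      simp only [Fin.reduceFinMk, of_apply, cons_val', cons_val, cons_val_zero, cons_val_one,
        cons_val_fin_one, map_zero, map_neg, map_one] <;> linear_combination (-fr σ p hp (lgN N F a b 2)) * e

end series

/-- the coefficient vectors in the rational basis -/
def Vq (g : ℕ → ℤ) (n : ℕ) : Fin 3 → ℤ := ![pc 1 g n, pc 3 g n, 0]

theorem rec_Bm {K : Type*} [Field K] {L p : ℕ} {g : ℕ → ℤ} (h : Ht.Hk L g) (hp : p.Prime)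
    (hL : ¬ p ∣ L) (t : K) : Rec p (Bm p (g p) t) (Vq g) := by
  have h2 : p % 2 = 1 := hp.eq_two_or_odd.resolve_left (by
    rintro rfl
    exact hL ((by norm_num : 2 ∣ 16).trans h.dvd))
  intro n m
  have e := congrArg (Int.cast : ℤ → K) (h.hrec p hp hL n)
  have hm : ∀ n, p * n % 4 = p % 4 * (n % 4) % 4 := fun n => Nat.mul_mod p n 4
  by_cases hd : p ∣ n
  · obtain ⟨k, rfl⟩ := hd
    have h1 := hm k
    have h3 := hm (p * k)
    rw [h1] at h3
    simp only [dvd_mul_right, if_true, Nat.mul_div_cancel_left k hp.pos] at e ⊢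
    have h4 : p % 4 = 1 ∨ p % 4 = 3 := by omega
    have h5 : k % 4 = 0 ∨ k % 4 = 1 ∨ k % 4 = 2 ∨ k % 4 = 3 := by omega
    rcases h4 with h4 | h4 <;> rcases h5 with h5 | h5 | h5 | h5 <;>
      simp only [h4, h5] at h1 h3 <;> fin_cases m <;>
      simp [Bm, Vq, pc, ep, Fin.sum_univ_three, h1, h3, h4, h5] at e ⊢ <;> linear_combination e
  · have h1 := hm n
    simp only [hd, if_false] at e ⊢
    have h4 : p % 4 = 1 ∨ p % 4 = 3 := by omega
    have h5 : n % 4 = 0 ∨ n % 4 = 1 ∨ n % 4 = 2 ∨ n % 4 = 3 := by omega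
    rcases h4 with h4 | h4 <;> rcases h5 with h5 | h5 | h5 | h5 <;>
      simp only [h4, h5] at h1 <;> fin_cases m <;>
      simp [Bm, Vq, pc, ep, Fin.sum_univ_three, h1, h4, h5] at e ⊢ <;> linear_combination e

theorem mulVec_cv {P : Par Om} {M : Ht.Mdl P} {N : Matrix (Fin 3) (Fin 3) Om} (h : Ht.IsOm M N)
    (g : ℕ → ℤ) (n : ℕ) : N *ᵥ Ht.cv P g n = fun m => (Vq g n m : Om) := by
  have h3 : N *ᵥ Ht.v3 P = ![0, 1, 0] := by
    rw [Ht.v3, mulVec_mulVec, h.mx, ← mulVec_mulVec, h.v1]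
    ext m; fin_cases m <;> simp [J3, mulVec, dotProduct, Fin.sum_univ_three]
  change N *ᵥ (_ • Ht.v1 P + _ • Ht.v3 P) = _
  rw [mulVec_add, mulVec_smul, mulVec_smul, h3, h.v1]
  ext m; fin_cases m <;> simp [Vq]

theorem Vq_dep (B : ℕ) (g : ℕ → ℤ) (n : ℕ) : Vq (Ht.dep B g) n = dep B (Vq g) n := by
  by_cases h : n.Coprime B
  · simp [Vq, pc, Ht.dep, dep, if_pos h]
  · ext m; fin_cases m <;> simp [Vq, pc, Ht.dep, dep, if_neg h]

theorem eq_of_three_pow {x : ℤ} (h : ∀ m : ℕ, (3 : ℤ) ^ m ∣ x) : x = 0 := by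
  by_contra h0
  have h1 := Int.le_of_dvd (abs_pos.2 h0) ((dvd_abs _ _).2 (h x.natAbs))
  have h2 : (x.natAbs : ℤ) < 3 ^ x.natAbs := by
    exact_mod_cast Nat.lt_pow_self (by norm_num : 1 < 3)
  rw [Int.natCast_natAbs] at h2
  omega

/-- **HONDA** -/
theorem hondaStmt_of (hBad : BadStmt) (hO : Ht.OmStmt) (hT : TriStmt)
    (hE : ∀ (p1 p2 p3 t : ℤ) (P : Par Om) (M : Ht.Mdl P) (Q : Top.Plc) (e : SI Om M.Y Om M.Y),
      Ht.Is P p1 p2 p3 t → Q.rchar ≠ 3 → Ht.Fr M Q e → ∃ τ : ℕ → ℤ, M.RelE e Q.rchar τ) :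
    Ht.HondaStmt := by
  intro p1 p2 p3 t P M L B0 g a b hI hH hB0 hb hR
  obtain ⟨N, hN⟩ := hO p1 p2 p3 t P M hI
  obtain ⟨k, hk⟩ : ∃ k, N 2 k ≠ 0 := by
    by_contra h
    push Not at h
    exact hN.det (det_eq_zero_of_row_eq_zero 2 h)
  have hC : Ae (CongAt P.F a b N (Vq g)) := by
    refine (((hT p1 p2 p3 t P M N hI hN).and (ae_ne Nat.prime_three)).and
      (((Ae.not_dvd hB0.ne').and (Ae.not_dvd hH.pos.ne')).and (ae_unit hk))).mono ?_
    rintro Q0 ⟨⟨h1, h3⟩, ⟨h4, h5⟩, h6⟩ φ hφ F0 a0 b0 N0 eF ea eb eN hG hN0 -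
    obtain ⟨Q, e, hQ, he, hTri⟩ := h1 φ hφ F0 N0 eF eN
    have U := un hφ
    have hc : Nat.Coprime 3 Q0.rchar :=
      (Nat.coprime_primes Nat.prime_three Q0.rchar_prime).2 h3.symm
    have hk0 : vI Q0 (N0 2 k) = 1 := by rw [vI_apply, eN]; exact h6
    have hA := hR Q e (by rwa [hQ]) he
    obtain ⟨τ, hτ⟩ := hE p1 p2 p3 t P M Q e hI (by rwa [hQ]) he
    rw [hQ] at hA hτ
    have kA : ∀ m, Kill M.j e.pic.toAddMonoidHom (wA (ep Q0.rchar) (g Q0.rchar) Q0.rchar) m :=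
      fun m c hc => by rw [op_A]; exact hA m c hc
    have kE : ∀ m, Kill M.j e.pic.toAddMonoidHom (wEa Q0.rchar - τ m • wEb) m := fun m c hc => by
      have := op_E M.j e.pic.toAddMonoidHom 1 (τ m) Q0.rchar c
      rw [one_smul, one_smul] at this
      rw [this, sub_eq_zero]
      have h7 := hτ m c hc
      rw [sub_add_eq_add_sub] at h7
      exact h7
    have hD := fun i => ((hTri _ _ (hG i)).di le_add_self hc kE).resolve_left fun h =>
      U.not_dvd _ h3 (hG i) hN0 hk0 (v := 0) (u := -1) isCoprime_one_left.neg_left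
        (by simpa using h.2) (dvd_zero _)
    choose u v hv hd hCg using hD
    obtain ⟨d, u', v', hd0, hcop, eu, ev⟩ := Int.exists_gcd_one' (Int.gcd_pos_of_ne_zero_right (u 0) (hv 0))
    have hE' : ∀ i, Cong (vI Q0) Q0.rchar Q0.rchar_prime.ne_zero (sg hφ) F0 N0 J3 (a0 i) (b0 i)
        (v' • wEa Q0.rchar - u' • wEb) := fun i => hCg i u' v' (by
      have h7 : u 0 * v i - u i * v 0 = 0 := eq_of_three_pow fun m => by
        have := ((hd 0 m).mul_right (v i)).sub ((hd i m).mul_right (v 0))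
        exact (by ring : (u 0 - τ m * v 0) * v i - (u i - τ m * v i) * v 0 =
          u 0 * v i - u i * v 0) ▸ this
      rw [eu, ev] at h7
      have h8 : (d : ℤ) ≠ 0 := by exact_mod_cast hd0.ne'
      exact mul_right_cancel₀ h8 (by linear_combination h7))
    have hv' : vI Q0 v' = 1 := by
      have h7 := U.not_dvd _ h3 (hG 0) hN0 hk0 (Int.isCoprime_iff_gcd_eq_one.2 hcop) (hE' 0)
      have := v_natCast_eq U.prime U.lt (n := v'.natAbs) fun h => h7 (Int.natCast_dvd.2 h)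
      rw [Nat.cast_natAbs] at this
      rcases abs_choice v' with h | h <;> simpa [h] using this
    refine ⟨Bm Q0.rchar (g Q0.rchar) ((u' : KI Q0) / v'), v_Bm _ _ ?_, rec_Bm hH U.prime h5 _,
      fun i => U.uop_Bm _ h3 hv' ((hTri _ _ (hG i)).cg_of_kill le_add_self hc kA) (hE' i)⟩
    rw [map_div₀, hv', div_one]
    exact v_intCast_le _ _
  obtain ⟨B, h0, hB⟩ := glob hBad hb.inj hb.ne hN.det hC
  obtain ⟨m, hm, hI⟩ := hB B h0 dvd_rfl
  refine ⟨B, m, Nat.pos_of_ne_zero h0, Nat.pos_of_ne_zero hm, fun x w η => hI _ x w η fun j => ?_⟩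
  ext n
  have e := congrFun (mulVec_cv hN (Ht.dep B g) n) j
  rw [Vq_dep] at e
  simp only [eich, map_sum, PowerSeries.coeff_C_mul, PowerSeries.coeff_mk, ← e, mulVec, dotProduct,
    Pi.smul_apply, smul_eq_mul, Finset.mul_sum, Finset.sum_div]
  exact Finset.sum_congr rfl fun _ _ => by ring

end Crest.Agent.T15.Hon
end
end

-- ▼ part T15/Lp_42
section

/-!
# Row 15, block Ht (helper42): operator words in `j` and the Frobenius, their logarithms

* `Wd`, `op j e Ψ = ∑ i, (Ψ i)(j) e ^ i`, `Kill`;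
* `ser` : the action of a word on a vector of power series, `Cgr` : the congruence;
* `lam_op` : `Λ (Ψ x) = em (th (ser Ψ l))`.
-/

set_option autoImplicit false
set_option linter.all false

noncomputable section

namespace Crest.Agent.T15.Lp

open scoped NNReal PowerSeries Polynomial
open PowerSeries Matrix Crest.Agent.R013.PicD_398
open Crest.Agent.T15.Hon hiding op Kill

/-- words -/
abbrev Wd : Type := Fin 3 → ℤ[X]

section op

variable {A : Type*} [AddCommGroup A]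

/-- the operator of a word -/
def op (j e : Module.End ℤ A) : Wd →+ Module.End ℤ A where
  toFun Ψ := ∑ i : Fin 3, Polynomial.aeval j (Ψ i) * e ^ (i : ℕ)
  map_zero' := by simp
  map_add' Ψ Ψ' := by simp [add_mul, Finset.sum_add_distrib]

theorem op_apply (j e : Module.End ℤ A) (Ψ : Wd) (x : A) :
    op j e Ψ x = ∑ i : Fin 3, Polynomial.aeval j (Ψ i) ((e ^ (i : ℕ)) x) := by
  show (∑ i : Fin 3, Polynomial.aeval j (Ψ i) * e ^ (i : ℕ)) x = _
  rw [LinearMap.sum_apply]; rfl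

theorem op_apply' (j e : Module.End ℤ A) (Ψ : Wd) (x : A) :
    op j e Ψ x = Polynomial.aeval j (Ψ 0) x + Polynomial.aeval j (Ψ 1) (e x) +
      Polynomial.aeval j (Ψ 2) (e (e x)) := by
  rw [op_apply, Fin.sum_univ_three]; simp [pow_two]



/-- the word kills the `3 ^ m`-torsion -/
def Kill (j e : Module.End ℤ A) (Ψ : Wd) (m : ℕ) : Prop := ∀ x : A, 3 ^ m • x = 0 → op j e Ψ x = 0

/-- `q (l + S ^ 2)` -/
def wa (q : ℤ[X]) (l : ℕ) : Wd := ![Polynomial.C (l : ℤ) * q, 0, q]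
/-- `q S` -/
def wb (q : ℤ[X]) : Wd := ![0, q, 0]

theorem op_wa (j e : Module.End ℤ A) (q : ℤ[X]) (l : ℕ) (x : A) :
    op j e (wa q l) x = Polynomial.aeval j q (e (e x) + l • x) := by
  rw [op_apply']
  simp [wa, add_comm]

theorem op_wb (j e : Module.End ℤ A) (q : ℤ[X]) (x : A) :
    op j e (wb q) x = Polynomial.aeval j q (e x) := by
  rw [op_apply']
  simp [wb]

/-- transport of polynomials along an intertwiner -/
theorem map_aeval {B : Type*} [AddCommGroup B] (f : A →+ B) {j : Module.End ℤ A}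
    {j' : Module.End ℤ B} (h : ∀ x, f (j x) = j' (f x)) (q : ℤ[X]) (x : A) :
    f (Polynomial.aeval j q x) = Polynomial.aeval j' q (f x) := by
  induction q using Polynomial.induction_on generalizing x with
  | C a => simp
  | add p q hp hq => simp [hp, hq]
  | monomial n a ih =>
    rw [pow_succ, ← mul_assoc, map_mul, map_mul (Polynomial.aeval j'), Polynomial.aeval_X,
      Polynomial.aeval_X, Module.End.mul_apply, Module.End.mul_apply, ih, h]

theorem map_pow' {B : Type*} [AddCommGroup B] (f : A →+ B) {e : Module.End ℤ A}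
    {e' : Module.End ℤ B} (h : ∀ x, f (e x) = e' (f x)) (i : ℕ) (x : A) :
    f ((e ^ i) x) = (e' ^ i) (f x) := by
  induction i generalizing x with
  | zero => simp
  | succ i ih => rw [pow_succ, pow_succ, Module.End.mul_apply, Module.End.mul_apply, ih, h]

theorem map_op {B : Type*} [AddCommGroup B] (f : A →+ B) {j e : Module.End ℤ A}
    {j' e' : Module.End ℤ B} (hj : ∀ x, f (j x) = j' (f x)) (he : ∀ x, f (e x) = e' (f x))
    (Ψ : Wd) (x : A) : f (op j e Ψ x) = op j' e' Ψ (f x) := by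
  rw [op_apply, op_apply, map_sum]
  exact Finset.sum_congr rfl fun i _ => by rw [map_aeval f hj, map_pow' f he]

/-- transport of `Kill` along a map which is onto on the torsion -/
theorem Kill.map {B : Type*} [AddCommGroup B] (f : A →+ B) {j e : Module.End ℤ A}
    {j' e' : Module.End ℤ B} (hj : ∀ x, f (j x) = j' (f x)) (he : ∀ x, f (e x) = e' (f x)) {m : ℕ}
    (hs : ∀ y : B, 3 ^ m • y = 0 → ∃ x, 3 ^ m • x = 0 ∧ f x = y) {Ψ : Wd} (h : Kill j e Ψ m) :
    Kill j' e' Ψ m := fun y hy => by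
  obtain ⟨x, hx, rfl⟩ := hs y hy
  rw [← map_op f hj he, h x hx, map_zero]

/-- an integral matrix acting on vectors -/
def mE {g : ℕ} (R : Type*) [Ring R] (J : Matrix (Fin g) (Fin g) ℤ) : Module.End ℤ (Fin g → R) where
  toFun y m := ∑ m', (J m m' : R) * y m'
  map_add' y y' := by ext m; simp [mul_add, Finset.sum_add_distrib]
  map_smul' c y := by
    ext m
    simp only [Pi.smul_apply, RingHom.id_apply, Finset.smul_sum, mul_smul_comm]

theorem mE_apply {g : ℕ} {R : Type*} [Ring R] (J : Matrix (Fin g) (Fin g) ℤ) (y : Fin g → R)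
    (m : Fin g) : mE R J y m = ∑ m', (J m m' : R) * y m' := rfl

theorem aeval_mE {g : ℕ} {R : Type*} [Ring R] (J : Matrix (Fin g) (Fin g) ℤ) (q : ℤ[X]) :
    Polynomial.aeval (mE R J) q = mE R (Polynomial.aeval J q) := by
  induction q using Polynomial.induction_on with
  | C a =>
    refine LinearMap.ext fun y => funext fun m => ?_
    simp [mE_apply, Matrix.algebraMap_matrix_apply, Matrix.intCast_apply, Matrix.diagonal_apply,
      Matrix.one_apply]
  | add p q hp hq =>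
    refine LinearMap.ext fun y => funext fun m => ?_
    simp [hp, hq, mE_apply, add_mul, Finset.sum_add_distrib]
  | monomial n a ih =>
    refine LinearMap.ext fun y => funext fun m => ?_
    rw [pow_succ, ← mul_assoc, map_mul, map_mul (Polynomial.aeval J), Polynomial.aeval_X,
      Polynomial.aeval_X, Module.End.mul_apply, ih]
    simp only [mE_apply, Matrix.mul_apply, Int.cast_sum, Int.cast_mul, Finset.sum_mul,
      Finset.mul_sum, mul_assoc]
    exact Finset.sum_comm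

end op

section ser

variable {K0 : Type*} [Field K0] {g : ℕ}

/-- the Frobenius on vectors of series -/
def fE (g : ℕ) (σ : K0 →+* K0) (p : ℕ) (hp : p ≠ 0) : Module.End ℤ (Fin g → K0⟦X⟧) where
  toFun l m := fr σ p hp (l m)
  map_add' y y' := by ext1 m; simp
  map_smul' c y := by ext1 m; simp

theorem fE_pow (σ : K0 →+* K0) (p : ℕ) (hp : p ≠ 0) (i : ℕ) (l : Fin g → K0⟦X⟧) (m : Fin g) :
    (fE g σ p hp ^ i) l m = (fr σ p hp ^ i) (l m) := by
  induction i with
  | zero => simp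
  | succ i ih => rw [pow_succ', pow_succ', Module.End.mul_apply, RingHom.mul_def,
      RingHom.comp_apply, ← ih]; rfl

/-- a word applied to a vector of series -/
def ser (σ : K0 →+* K0) (p : ℕ) (hp : p ≠ 0) (J : Matrix (Fin g) (Fin g) ℤ) (Ψ : Wd)
    (l : Fin g → K0⟦X⟧) : Fin g → K0⟦X⟧ := op (mE K0⟦X⟧ J) (fE g σ p hp) Ψ l

variable {σ : K0 →+* K0} {p : ℕ} {hp : p ≠ 0} {J : Matrix (Fin g) (Fin g) ℤ} {l : Fin g → K0⟦X⟧}
  {v0 : Valuation K0 ℝ≥0}

theorem ser_apply (Ψ : Wd) (m : Fin g) : ser σ p hp J Ψ l m =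
    ∑ i : Fin 3, ∑ m', ((Polynomial.aeval J (Ψ i) m m' : ℤ) : K0⟦X⟧) * (fr σ p hp ^ (i : ℕ)) (l m') := by
  rw [ser, op_apply, Finset.sum_apply]
  simp only [aeval_mE, mE_apply, fE_pow]

theorem ser_add (Ψ Ψ' : Wd) : ser σ p hp J (Ψ + Ψ') l = ser σ p hp J Ψ l + ser σ p hp J Ψ' l := by
  simp [ser]

theorem ser_sub (Ψ Ψ' : Wd) : ser σ p hp J (Ψ - Ψ') l = ser σ p hp J Ψ l - ser σ p hp J Ψ' l := by
  simp [ser]

theorem ser_smul (c : ℤ) (Ψ : Wd) : ser σ p hp J (c • Ψ) l = c • ser σ p hp J Ψ l := by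
  rw [ser, map_zsmul]; rfl


theorem ser_wb (q : ℤ[X]) (m : Fin g) : ser σ p hp J (wb q) l m =
    ∑ m', ((Polynomial.aeval J q m m' : ℤ) : K0⟦X⟧) * fr σ p hp (l m') := by
  rw [ser, op_wb, aeval_mE, mE_apply]
  simp [fE]


/-- the congruence -/
def Cgr (v0 : Valuation K0 ℝ≥0) (σ : K0 →+* K0) (p : ℕ) (hp : p ≠ 0) (J : Matrix (Fin g) (Fin g) ℤ)
    (l : Fin g → K0⟦X⟧) (Ψ : Wd) : Prop := ∀ m, PI v0 (v0 p) (ser σ p hp J Ψ l m)

theorem PI_int (v0 : Valuation K0 ℝ≥0) (c : ℤ) : PI v0 1 (c : K0⟦X⟧) := by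
  rw [← map_intCast (C : K0 →+* K0⟦X⟧)]; exact PI.const_le (v_intCast_le v0 c)

theorem AI_int (v0 : Valuation K0 ℝ≥0) (c : ℤ) : AI v0 (c : K0⟦X⟧) := by
  rw [← map_intCast (C : K0 →+* K0⟦X⟧)]; exact AI.const (v_intCast_le v0 c)

theorem Cgr.add {Ψ Ψ' : Wd} (h : Cgr v0 σ p hp J l Ψ) (h' : Cgr v0 σ p hp J l Ψ') :
    Cgr v0 σ p hp J l (Ψ + Ψ') := fun m => by rw [ser_add]; exact (h m).add (h' m)

theorem Cgr.sub {Ψ Ψ' : Wd} (h : Cgr v0 σ p hp J l Ψ) (h' : Cgr v0 σ p hp J l Ψ') :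
    Cgr v0 σ p hp J l (Ψ - Ψ') := fun m => by rw [ser_sub]; exact (h m).sub (h' m)

theorem Cgr.smul {Ψ : Wd} (h : Cgr v0 σ p hp J l Ψ) (c : ℤ) : Cgr v0 σ p hp J l (c • Ψ) :=
  fun m => by
    rw [ser_smul, Pi.smul_apply, zsmul_eq_mul]; exact (PI_int v0 c).mul_left (h m)

theorem coeff_th (f : K0⟦X⟧) (n : ℕ) : coeff n (th f) = n * coeff n f := by
  cases n with
  | zero => simp [th]
  | succ n => rw [th, coeff_succ_X_mul, coeff_derivative]; push_cast; ring


theorem th_sub (f f' : K0⟦X⟧) : th (f - f') = th f - th f' := by simp [th, mul_sub]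

theorem th_int (c : ℤ) (f : K0⟦X⟧) : th ((c : K0⟦X⟧) * f) = c * th f := by
  rw [← zsmul_eq_mul, ← zsmul_eq_mul, th, th, map_zsmul, mul_smul_comm]

theorem th_sum {ι : Type*} (s : Finset ι) (f : ι → K0⟦X⟧) : th (∑ i ∈ s, f i) = ∑ i ∈ s, th (f i) := by
  simp [th, Finset.mul_sum]

theorem th_fr (f : K0⟦X⟧) : th (fr σ p hp f) = (p : K0⟦X⟧) * fr σ p hp (th f) := by
  ext n
  rw [← map_natCast (C : K0 →+* K0⟦X⟧), coeff_C_mul, coeff_th, coeff_fr, coeff_fr]
  split_ifs with h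
  · obtain ⟨k, rfl⟩ := h
    rw [Nat.mul_div_cancel_left _ (Nat.pos_of_ne_zero hp), coeff_th]
    simp; ring
  · simp

theorem map_aeval_poly (s : K0 →+* K0) (a : K0[X]) :
    fr s p hp (algebraMap K0[X] K0⟦X⟧ a) =
      algebraMap K0[X] K0⟦X⟧ (Polynomial.expand K0 p (a.map s)) := by
  show fr s p hp (a : K0⟦X⟧) = ((Polynomial.expand K0 p (a.map s) : K0[X]) : K0⟦X⟧)
  ext n
  rw [coeff_fr, Polynomial.coeff_coe, Polynomial.coeff_coe,
    Polynomial.coeff_expand (Nat.pos_of_ne_zero hp), Polynomial.coeff_map]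

theorem AI_fr (hσ : ∀ a, v0 (σ a) = v0 a) {f : K0⟦X⟧} (hf : AI v0 f) : AI v0 (fr σ p hp f) := by
  refine ⟨hf.1.fr hσ hp, ?_⟩
  let φ : K0[X] →+* K0[X] := (Polynomial.expand K0 p).toRingHom.comp (Polynomial.mapRingHom σ)
  have hφ : Function.Injective φ :=
    (Polynomial.expand_injective (Nat.pos_of_ne_zero hp)).comp (Polynomial.map_injective σ σ.injective)
  exact hf.2.ringHom_of_comp_eq φ (fr σ p hp) hφ (RingHom.ext fun a => (map_aeval_poly (hp := hp) σ a).symm)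

theorem AI_th_fr (hσ : ∀ a, v0 (σ a) = v0 a) {f : K0⟦X⟧} (hf : AI v0 (th f)) :
    AI v0 (th (fr σ p hp f)) := by
  rw [th_fr]
  exact (by simpa using AI_int v0 p : AI v0 (p : K0⟦X⟧)).mul (AI_fr hσ hf)

theorem AI_th_fr_pow (hσ : ∀ a, v0 (σ a) = v0 a) {f : K0⟦X⟧} (hf : AI v0 (th f)) (i : ℕ) :
    AI v0 (th ((fr σ p hp ^ i) f)) := by
  induction i with
  | zero => simpa using hf
  | succ i ih => rw [pow_succ', RingHom.mul_def, RingHom.comp_apply]; exact AI_th_fr hσ ih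

theorem AI_th_ser (hσ : ∀ a, v0 (σ a) = v0 a) (hl : ∀ m, AI v0 (th (l m))) (Ψ : Wd) (m : Fin g) :
    AI v0 (th (ser σ p hp J Ψ l m)) := by
  rw [ser_apply, th_sum]
  refine AI.sum _ fun i _ => ?_
  rw [th_sum]
  refine AI.sum _ fun m' _ => ?_
  rw [th_int]
  exact (AI_int v0 _).mul (AI_th_fr_pow hσ (hl m') i)



end ser

section vs

variable {C : Type} [Field C] {K0 : Subfield C} {v0 : Valuation K0 ℝ≥0} {p : ℕ} {hp : p ≠ 0}
  {σ : K0 →+* K0} (V : Vs C K0 v0 p hp σ)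

theorem em_zero : V.em 0 = 0 := by
  have := V.em_add 0 0 AI.zero AI.zero
  rw [add_zero] at this
  exact left_eq_add.mp this

theorem em_int (c : ℤ) : V.em (c : K0⟦X⟧) = c := by
  rw [← map_intCast (PowerSeries.C : K0 →+* K0⟦X⟧), V.em_C _ (v_intCast_le v0 c)]
  simp

theorem em_sub {f f' : K0⟦X⟧} (h : AI v0 f) (h' : AI v0 f') : V.em (f - f') = V.em f - V.em f' := by
  have := V.em_add _ _ (h.sub h') h'
  rw [sub_add_cancel] at this
  rw [this, add_sub_cancel_right]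

theorem em_sum {ι : Type*} (s : Finset ι) {f : ι → K0⟦X⟧} (h : ∀ i ∈ s, AI v0 (f i)) :
    V.em (∑ i ∈ s, f i) = ∑ i ∈ s, V.em (f i) := by
  classical
  induction s using Finset.induction_on with
  | empty => simpa using em_zero V
  | insert a s ha ih =>
    rw [Finset.sum_insert ha, Finset.sum_insert ha, V.em_add _ _ (h a (Finset.mem_insert_self _ _))
      (AI.sum _ fun i hi => h i (Finset.mem_insert_of_mem hi)),
      ih fun i hi => h i (Finset.mem_insert_of_mem hi)]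

theorem em_th_fr (hσ : ∀ a, v0 (σ a) = v0 a) {f : K0⟦X⟧} (hf : AI v0 (th f)) :
    V.em (th (fr σ p hp f)) = p * V.S (V.em (th f)) := by
  rw [th_fr, V.em_mul _ _ (by simpa using AI_int v0 p) (AI_fr hσ hf), V.S_em _ hf]
  have := em_int V p
  simp only [Int.cast_natCast] at this
  rw [this]

variable {A : Type*} [AddCommGroup A] {g : ℕ} {Λ : Fin g → A →+ V.Ω} {j e : Module.End ℤ A}
  {J : Matrix (Fin g) (Fin g) ℤ}

/-- `l` is the logarithm of `x` -/
def Lg (Λ : Fin g → A →+ V.Ω) (x : A) (l : Fin g → K0⟦X⟧) : Prop :=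
  ∀ m, AI v0 (th (l m)) ∧ Λ m x = V.em (th (l m))

variable {V}

theorem Lg.sub {x x' : A} {l l' : Fin g → K0⟦X⟧} (h : Lg V Λ x l) (h' : Lg V Λ x' l') :
    Lg V Λ (x - x') (l - l') := fun m => by
  rw [Pi.sub_apply, th_sub, em_sub V (h m).1 (h' m).1, map_sub, (h m).2, (h' m).2]
  exact ⟨(h m).1.sub (h' m).1, rfl⟩

theorem Lg.frob (hσ : ∀ a, v0 (σ a) = v0 a) (he : ∀ m c, Λ m (e c) = p * V.S (Λ m c)) {x : A}
    {l : Fin g → K0⟦X⟧} (h : Lg V Λ x l) (i : ℕ) :
    Lg V Λ ((e ^ i) x) fun m => (fr σ p hp ^ i) (l m) := by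
  induction i with
  | zero => simpa using h
  | succ i ih =>
    intro m
    refine ⟨AI_th_fr_pow hσ (h m).1 _, ?_⟩
    beta_reduce
    rw [pow_succ', pow_succ', Module.End.mul_apply, he, (ih m).2, RingHom.mul_def,
      RingHom.comp_apply, em_th_fr V hσ (ih m).1]

/-- **(LAMPSI)** -/
theorem Lg.op (hσ : ∀ a, v0 (σ a) = v0 a) (hj : ∀ m c, Λ m (j c) = ∑ m', (J m m' : V.Ω) * Λ m' c)
    (he : ∀ m c, Λ m (e c) = p * V.S (Λ m c)) {x : A} {l : Fin g → K0⟦X⟧} (h : Lg V Λ x l)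
    (Ψ : Wd) : Lg V Λ (op j e Ψ x) (ser σ p hp J Ψ l) := fun m => by
  refine ⟨AI_th_ser hσ (fun m => (h m).1) Ψ m, ?_⟩
  have h1 : ∀ (q : ℤ[X]) (c : A), Λ m (Polynomial.aeval j q c) =
      ∑ m', ((Polynomial.aeval J q m m' : ℤ) : V.Ω) * Λ m' c := fun q c => by
    have := congrFun (map_aeval (AddMonoidHom.pi Λ) (j := j) (j' := mE V.Ω J)
      (fun c => funext fun m => hj m c) q c) m
    rw [aeval_mE] at this
    exact this
  have h2 : ∀ (i : ℕ) (c : ℤ) m', AI v0 (th ((c : K0⟦X⟧) * (fr σ p hp ^ i) (l m'))) := fun i c m' => by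
    rw [th_int]; exact (AI_int v0 _).mul (AI_th_fr_pow hσ (h m').1 i)
  rw [op_apply, ser_apply, map_sum, th_sum, em_sum V _ fun i _ => by
    rw [th_sum]; exact AI.sum _ fun m' _ => h2 _ _ _]
  refine Finset.sum_congr rfl fun i _ => ?_
  rw [h1, th_sum, em_sum V _ fun m' _ => h2 _ _ _]
  refine Finset.sum_congr rfl fun m' _ => ?_
  rw [th_int, V.em_mul _ _ (AI_int v0 _) (AI_th_fr_pow hσ (h m').1 i), em_int,
    (h.frob hσ he i m').2]


end vs

/-! ## bridge to the words of `HonD_54` -/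

theorem hon_op {A : Type*} [AddCommGroup A] (j e : A →+ A) (Ψ : Wd) (c : A) :
    Hon.op j e Ψ c = op j.toIntLinearMap e.toIntLinearMap Ψ c := by
  rw [op_apply, Hon.op]
  exact Finset.sum_congr rfl fun i _ => by rw [Module.End.pow_apply]; rfl


theorem hon_ser {K0 : Type*} [Field K0] {g : ℕ} (σ : K0 →+* K0) (p : ℕ) (hp : p ≠ 0)
    (J : Matrix (Fin g) (Fin g) ℤ) (Ψ : Wd) (l : Fin g → K0⟦X⟧) :
    Hon.op (jS K0 J) (eS g σ p hp) Ψ l = ser σ p hp J Ψ l := by
  have h : (jS K0 J).toIntLinearMap = mE K0⟦X⟧ J := by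
    refine LinearMap.ext fun y => funext fun m => ?_
    show ∑ m', J m m' • y m' = _
    simp [mE_apply]
  rw [hon_op, ser, h]
  rfl

theorem cong_iff {K0 : Type*} [Field K0] {g : ℕ} (v0 : Valuation K0 ℝ≥0) (p : ℕ) (hp : p ≠ 0)
    (σ : K0 →+* K0) (F : K0[X]) (N : Fin g → Fin g → K0) (J : Matrix (Fin g) (Fin g) ℤ) (a b : K0)
    (Ψ : Wd) : Cong v0 p hp σ F N J a b Ψ ↔ Cgr v0 σ p hp J (lgN N F a b) Ψ := by
  simp only [Cong, Cgr, hon_ser]


end Crest.Agent.T15.Lp
end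
end

-- ▼ part T15/RatZ_42

/-!
# Row 15, block Ht (helper42): the leaves `IntStmt` and `RatStmt`
-/

set_option autoImplicit false
set_option linter.all false

noncomputable section

namespace Crest.Agent.T15.RatZ

open scoped NNReal PowerSeries Polynomial
open Matrix NumberField Crest.Agent.R018.Placesx484 Crest.Agent.R013.PicD_398
open Crest.Agent.R013.Frob1_914
open Crest.Agent.T15.C (Om Gam)
open Crest.Agent.T15.Top (Plc)
open Crest.Agent.T15.Mo (Par)
open Crest.Agent.T15.Hon Crest.Agent.T15.Ht Crest.Agent.T15.Lp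


theorem exists_place {p : ℕ} (hp : p.Prime) : ∃ P : Place Om, P.rchar = p := by
  have h1 : Ideal.span {(p : 𝓞 Om)} ≠ ⊤ := fun h => by
    have hu := Ideal.span_singleton_eq_top.1 h
    have : IsUnit (algebraMap ℤ (𝓞 Om) p) := by simpa using hu
    have h2 := (isUnit_map_iff (algebraMap ℤ (𝓞 Om)) (p : ℤ)).1 this
    exact hp.ne_one (by simpa using Int.isUnit_iff_natAbs_eq.1 h2)
  obtain ⟨M, hM, hle⟩ := Ideal.exists_le_maximal _ h1
  have hm : (p : 𝓞 Om) ∈ M := hle (Ideal.mem_span_singleton_self _)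
  refine ⟨⟨M, hM.isPrime, fun h0 => ?_⟩, Place.rchar_eq_of_mem _ hp hm⟩
  rw [h0, Ideal.mem_bot] at hm
  exact hp.ne_zero (by exact_mod_cast hm)

section words

variable {A : Type*} [AddCommGroup A] (j e : A →+ A)

theorem aeval_X_pow (n : ℕ) (x : A) :
    Polynomial.aeval (j.toIntLinearMap : Module.End ℤ A) ((Polynomial.X : ℤ[X]) ^ n) x = j^[n] x := by
  rw [map_pow, Polynomial.aeval_X, Module.End.pow_apply]; rfl

theorem op_rel (l ε : ℕ) (c : ℤ) (x : A) :
    Hon.op j e (wa (Polynomial.X ^ 2) l - c • wb (Polynomial.X ^ (2 + ε))) x =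
      j (j (e (e x) - c • j^[ε] (e x) + l • x)) := by
  rw [hon_op, map_sub, map_zsmul, LinearMap.sub_apply, LinearMap.smul_apply, op_wa, op_wb,
    aeval_X_pow, aeval_X_pow, Function.iterate_add_apply]
  simp only [Function.iterate_succ, Function.iterate_zero, Function.comp, id, map_add, map_sub,
    map_zsmul, map_nsmul, AddMonoidHom.coe_toIntLinearMap]
  abel

end words

theorem rel_iff {C : Type} [Field C] [IsAlgClosed C] {P : Par C} (M : Mdl P) (e : SI C M.Y C M.Y)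
    (l : ℕ) (τ : ℕ → ℤ) : M.Rel e l τ ↔ ∀ m, Hon.Kill M.j e.pic.toAddMonoidHom
      (wa (Polynomial.X ^ 2) l - τ m • wb (Polynomial.X ^ (2 + ep l))) m := by
  simp only [Mdl.Rel, Hon.Kill, op_rel]
  rfl

theorem rel_of_dvd {C : Type} [Field C] [IsAlgClosed C] {P : Par C} (M : Mdl P)
    {e : SI C M.Y C M.Y} {l : ℕ} {τ : ℕ → ℤ} (h : M.Rel e l τ) {n : ℤ}
    (hn : ∀ m, (3 : ℤ) ^ m ∣ n - τ m) : M.Rel e l fun _ => n := fun m x hx => by
  obtain ⟨c, hc⟩ := hn m
  have h1 : (3 : ℤ) ^ m • M.j^[ep l] (e.pic x) = 0 := by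
    have h2 : (3 : ℤ) ^ m • x = 0 := by exact_mod_cast hx
    rw [← iterate_map_zsmul, ← map_zsmul, h2, map_zero, iterate_map_zero]
  have h3 : n • M.j^[ep l] (e.pic x) = τ m • M.j^[ep l] (e.pic x) := by
    rw [← sub_eq_zero, ← sub_smul, hc, mul_comm, mul_smul, h1, smul_zero]
  show M.j (M.j (e.pic (e.pic x) - n • _ + l • x)) = 0
  rw [h3]
  exact h m x hx

theorem coeff_one_lgN {K0 : Type*} [Field K0] [CharZero K0] {g : ℕ} (N : Fin g → Fin g → K0)
    {F : K0[X]} {a b : K0} (hb : b ≠ 0) (h : b ^ 2 = F.eval a) (m : Fin g) :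
    PowerSeries.coeff 1 (lgN N F a b m) = (∑ k, N m k * a ^ (k : ℕ)) / b := by
  simp only [lgN, map_sum, PowerSeries.coeff_C_mul, coeff_one_lg hb h, Finset.sum_div, mul_div_assoc]

/-- **NZ** : the word `j ^ (2 + ε) S` does not satisfy the congruence -/
theorem not_cong {K0 : Type*} [Field K0] [CharZero K0] {v0 : Valuation K0 ℝ≥0} {p : ℕ} (hp : p ≠ 0)
    {σ : K0 →+* K0} (U : Un v0 p σ) (h3 : v0 3 = 1) {F : K0[X]} {N : Fin 3 → Fin 3 → K0} {a b : K0}
    (h : GdP v0 F a b) (ha : v0 (∑ k, N 0 k * a ^ (k : ℕ)) = 1) {ε : ℕ} (hε : ε ≤ 1) :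
    ¬ Cong v0 p hp σ F N J3 a b (wb (Polynomial.X ^ (2 + ε))) := by
  rw [cong_iff]
  intro hc
  have key : ∃ m, ser σ p hp J3 (wb (Polynomial.X ^ (2 + ε))) (lgN N F a b) m =
      PowerSeries.C (3 : K0) * fr σ p hp (lgN N F a b 0) := by
    have e2 : J3 ^ 2 = !![3, 0, 0; 0, 3, 0; 0, 0, 0] := by decide
    have e3 : J3 ^ 3 = !![0, 9, 0; 3, 0, 0; 0, 0, 0] := by decide
    interval_cases ε
    · refine ⟨0, ?_⟩
      rw [ser_wb, map_pow, Polynomial.aeval_X, add_zero, e2, Fin.sum_univ_three]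
      simp [map_ofNat]
    · refine ⟨1, ?_⟩
      rw [ser_wb, map_pow, Polynomial.aeval_X, show 2 + 1 = 3 from rfl, e3, Fin.sum_univ_three]
      simp [map_ofNat]
  obtain ⟨m, hm⟩ := key
  have h1 := hc m p
  rw [hm, PowerSeries.coeff_C_mul, coeff_fr, if_pos dvd_rfl, Nat.div_self (Nat.pos_of_ne_zero hp),
    map_mul, h3, one_mul, U.iso, coeff_one_lgN N h.b_ne h.on, map_div₀, ha, h.vb, div_one] at h1
  exact absurd U.lt (not_lt.2 h1)

/-- a base divisor avoiding the zeros of `R` -/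
theorem exists_base {k : Type*} [Field k] [IsAlgClosed k] {F R : k[X]} (hF : F ≠ 0) (hR : R ≠ 0)
    (g : ℕ) : ∃ a b : Fin g → k, Function.Injective a ∧ (∀ i, b i ≠ 0) ∧
      (∀ i, b i ^ 2 = F.eval (a i)) ∧ ∀ i, R.eval (a i) ≠ 0 := by
  have h1 : {x : k | (F * R).IsRoot x}ᶜ.Infinite :=
    (Polynomial.finite_setOf_isRoot (mul_ne_zero hF hR)).infinite_compl
  let a : Fin g → k := fun i => (h1.natEmbedding _ i : k)
  have ha : ∀ i, F.eval (a i) ≠ 0 ∧ R.eval (a i) ≠ 0 := fun i => by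
    have := (h1.natEmbedding _ i).2
    simpa [not_or] using this
  choose b hb using fun i => IsAlgClosed.exists_pow_nat_eq (F.eval (a i)) two_pos
  refine ⟨a, b, fun i j h => Fin.ext ((h1.natEmbedding _).injective (Subtype.ext h)), fun i h0 => ?_,
    hb, fun i => (ha i).2⟩
  exact (ha i).1 (by rw [← hb, h0]; simp)

/-- **leaf RAT** -/
theorem ratStmt_of (hV : VsStmt) (hO : OmStmt) (hF : FrmStmt) (hC : CongStmt) : RatStmt := by
  intro p1 p2 p3 t P M hI
  obtain ⟨N, hN⟩ := hO p1 p2 p3 t P M hI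
  obtain ⟨S, hS0, hS⟩ := hF p1 p2 p3 t P M N hI hN
  have hF0 : P.F ≠ 0 := by
    have h : ∀ c : Om, (Polynomial.X ^ 2 - Polynomial.C c : Om[X]) ≠ 0 := fun c =>
      (Polynomial.monic_X_pow_sub_C c two_ne_zero).ne_zero
    exact mul_ne_zero (mul_ne_zero (mul_ne_zero (mul_ne_zero (Polynomial.C_ne_zero.2 P.c_ne)
      Polynomial.X_ne_zero) (h _)) (h _)) (h _)
  have hR : (∑ k : Fin 3, Polynomial.C (N 0 k) * Polynomial.X ^ (k : ℕ) : Om[X]) ≠ 0 := by
    intro h0
    have h1 : ∀ k : Fin 3, N 0 k = 0 := fun k => by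
      have := congrArg (fun q : Om[X] => q.coeff k) h0
      fin_cases k <;> simpa [Fin.sum_univ_three, Polynomial.coeff_X, Polynomial.coeff_one,
        Polynomial.coeff_X_pow] using this
    have h2 := congrFun hN.v1 0
    simp [Matrix.mulVec, dotProduct, h1] at h2
  obtain ⟨a, b, ha, hb, hon, hRa⟩ := exists_base hF0 hR 3
  have h1 := (ae_coeff (Q := fun x P => x ∈ KI P ∧ vO P x ≤ 1) (fun P => ⟨zero_mem _, by simp⟩)
    (fun x => (ae_mem x).and (ae_le x)) P.F)
  have h2 := Ae.all fun i => ((ae_mem (a i)).and (ae_le (a i))).and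
    ((ae_mem (b i)).and (ae_unit (hb i)))
  have h3 := Ae.all fun m => Ae.all fun k => (ae_mem (N m k)).and (ae_le (N m k))
  have h4 : Ae fun P => ∀ i j, i ≠ j → vO P (a i - a j) = 1 := Ae.all fun i => Ae.all fun j => by
    by_cases hij : i = j
    · exact Ae.of_forall fun P h => absurd hij h
    · exact (ae_unit (sub_ne_zero.2 (ha.ne hij))).mono fun P h _ => h
  have h5 := Ae.all fun s : S => (ae_mem s.1).and (ae_unit (x := s.1) fun h => hS0 (h ▸ s.2))
  have h6 := ((ae_unit (two_ne_zero (α := Om))).and (ae_unit (three_ne_zero (α := Om)))).and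
    (ae_unit (hRa 0))
  obtain ⟨B, hB0, hB⟩ := ((((h1.and h2).and h3).and h4).and h5).and h6
  refine ⟨B, Nat.pos_of_ne_zero hB0, fun l a' s3 hl hlB hs3 hint hrel => ?_⟩
  obtain ⟨P0, rfl⟩ := exists_place hl
  obtain ⟨⟨⟨⟨⟨h1, h2⟩, h3⟩, h4⟩, h5⟩, ⟨h6, h7⟩, h8⟩ := hB P0 hlB
  obtain ⟨φ, hφ⟩ := exists_isFr P0
  obtain ⟨F0, hF0'⟩ := exists_pmap (KI P0) fun n => (h1 n).1
  let a0 : Fin 3 → KI P0 := fun i => ⟨a i, (h2 i).1.1⟩
  let b0 : Fin 3 → KI P0 := fun i => ⟨b i, (h2 i).2.1⟩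
  let N0 : Fin 3 → Fin 3 → KI P0 := fun m k => ⟨N m k, (h3 m k).1⟩
  have hG : ∀ i, GdP (vI P0) F0 (a0 i) (b0 i) := fun i =>
    ⟨h6, fun n => by have := (h1 n).2; rwa [← hF0', Polynomial.coeff_map] at this, (h2 i).1.2,
      (h2 i).2.2, (KI P0).subtype.injective (by
        rw [map_pow, ← Polynomial.eval₂_at_apply, ← Polynomial.eval_map, hF0']; exact hon i)⟩
  have h3l : P0.rchar ≠ 3 := fun h => by
    have := vO_rchar_lt P0
    rw [h, Nat.cast_ofNat, h7] at this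
    exact lt_irrefl _ this
  obtain ⟨X⟩ := hV Om (KI P0) (vI P0) P0.rchar hl.ne_zero (sg hφ) (un hφ)
  obtain ⟨Q, e, hQ, hFr, Y, hT⟩ := hS (KI P0) (vI P0) P0.rchar hl.ne_zero (sg hφ) (un hφ) h3l
    (fun s hs => ⟨(h5 ⟨s, hs⟩).1, (h5 ⟨s, hs⟩).2⟩) X F0 N0 hF0' (fun _ _ => rfl)
  have hε : ep P0.rchar ≤ 1 := by unfold ep; split_ifs <;> simp
  obtain ⟨τ, hτ, hL⟩ := hrel Q e hQ hFr
  have hT' := (hT _ _ (hG 0)).mono (fun _ _ h => h) fun Ψ h =>
    hC Om (KI P0) (vI P0) P0.rchar hl.ne_zero (sg hφ) (un hφ) X 3 F0 N0 J3 Y (fun m k => (h3 m k).2)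
      a0 b0 hG (fun i j hij => h4 i j hij) _ _ (hG 0) Ψ h
  rcases hT'.di (by norm_num) ((Nat.coprime_primes Nat.prime_three hl).2 h3l.symm)
    ((rel_iff M e _ τ).1 hτ) with ⟨-, hc⟩ | ⟨u, v, hv, hd, -⟩
  · refine absurd hc (not_cong _ (un hφ) h7 (hG 0) ?_ hε)
    rw [← h8, vI_apply]
    simp [N0, a0, Polynomial.eval_finset_sum]
  · obtain ⟨n, hn, -⟩ := Rat.eq_int_mul hε hs3 hint hv ((hL u v).1 (by exact_mod_cast hd))
    refine ⟨n, hn, fun Q' e' hQ' hFr' => ?_⟩
    obtain ⟨τ', hτ', hL'⟩ := hrel Q' e' hQ' hFr'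
    exact rel_of_dvd M hτ' fun m => by simpa using (hL' n 1).2 (by simpa using hn) m

end Crest.Agent.T15.RatZ
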