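import Crest.Agent.T15.ArtDef_34
import Crest.Agent.T27.Split_52

-- ▼ part T15/ArtA_34
section

/-!
# Row 15, Artin reciprocity: Frobenius and inertia in towers (helper34)
-/

set_option autoImplicit false
set_option linter.unusedSectionVars false

open NumberField IsDedekindDomain
open scoped Pointwise
open Crest.Agent.R018.Selmerx380

namespace Crest.Agent.T15.Art

section tower

variable {K E M : Type*} [Field K] [Field E] [Field M] [Algebra K E] [Algebra E M] [Algebra K M]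
  [IsScalarTower K E M]

theorem coe_smul_int (g : M ≃ₐ[K] M) (x : 𝓞 M) : ((g • x : 𝓞 M) : M) = g (x : M) :=
  algebraMap.smul' _ _ M

variable (E) in
/-- restriction of automorphisms -/
noncomputable abbrev res [Normal K E] : (M ≃ₐ[K] M) →* (E ≃ₐ[K] E) :=
  AlgEquiv.restrictNormalHom E

theorem res_comm [Normal K E] (g : M ≃ₐ[K] M) (x : E) :
    algebraMap E M (res E g x) = g (algebraMap E M x) :=
  AlgEquiv.restrictNormal_commutes g E x

theorem res_int [Normal K E] (g : M ≃ₐ[K] M) (x : 𝓞 E) :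
    algebraMap (𝓞 E) (𝓞 M) (res E g • x) = g • algebraMap (𝓞 E) (𝓞 M) x := by
  apply RingOfIntegers.coe_injective
  change algebraMap E M ((res E g • x : 𝓞 E) : E) = ((g • algebraMap (𝓞 E) (𝓞 M) x : 𝓞 M) : M)
  rw [coe_smul_int, coe_smul_int, res_comm]
  rfl

theorem res_eq_iff [Normal K E] (g : M ≃ₐ[K] M) (σ : E ≃ₐ[K] E) :
    res E g = σ ↔ ∀ x, g (algebraMap E M x) = algebraMap E M (σ x) := by
  constructor
  · rintro rfl x; rw [res_comm]
  · intro h; ext x
    apply (algebraMap E M).injective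
    rw [res_comm, h]

theorem res_rs [Normal K E] (h : M ≃ₐ[E] M) : res E (h.restrictScalars K) = 1 :=
  (res_eq_iff _ _).2 fun x => h.commutes x

theorem frob_res [Normal K E] {g : M ≃ₐ[K] M} {P : Ideal (𝓞 M)} {q : ℕ}
    (h : ∀ x : 𝓞 M, g • x - x ^ q ∈ P) (x : 𝓞 E) : res E g • x - x ^ q ∈ P.under (𝓞 E) := by
  rw [Ideal.under, Ideal.mem_comap, map_sub, map_pow, res_int]
  exact h _

theorem inertia_res [Normal K E] {g : M ≃ₐ[K] M} {P : Ideal (𝓞 M)}
    (h : g ∈ P.inertia (M ≃ₐ[K] M)) : res E g ∈ (P.under (𝓞 E)).inertia (E ≃ₐ[K] E) := by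
  intro x
  have := frob_res (E := E) (q := 1) (g := g) (P := P) (fun x => by simpa using h x) x
  simpa using this

variable [NumberField K] [NumberField E] [NumberField M]

/-- inertia surjects onto inertia -/
theorem inertia_lift [Normal K E] [IsGalois K M] (P : Ideal (𝓞 M)) [P.IsPrime] (σ : E ≃ₐ[K] E)
    (hσ : σ ∈ (P.under (𝓞 E)).inertia (E ≃ₐ[K] E)) :
    ∃ s ∈ P.inertia (M ≃ₐ[K] M), res E s = σ := by
  have : IsGalois E M := IsGalois.tower_top_of_isGalois K E M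
  obtain ⟨s0, hs0⟩ := AlgEquiv.restrictNormalHom_surjective (F := K) (K₁ := E) M σ
  have hu : (s0 • P).under (𝓞 E) = P.under (𝓞 E) := by
    ext x
    rw [Ideal.under, Ideal.mem_comap, Ideal.mem_pointwise_smul_iff_inv_smul_mem, ← res_int,
      map_inv, hs0]
    have h1 : σ⁻¹ • x - x ∈ P.under (𝓞 E) := inv_mem hσ x
    change σ⁻¹ • x ∈ P.under (𝓞 E) ↔ _
    constructor
    · intro h; simpa using sub_mem h h1
    · intro h; simpa using add_mem h1 h
  obtain ⟨g, hg⟩ := Algebra.IsInvariant.exists_smul_of_under_eq (𝓞 E) (𝓞 M) (M ≃ₐ[E] M)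
    (s0 • P) P hu
  set s1 : M ≃ₐ[K] M := g.restrictScalars K * s0 with hs1
  have hr : res E s1 = σ := by rw [hs1, map_mul, res_rs, one_mul, hs0]
  have hP : s1 • P = P := by rw [hs1, mul_smul]; exact hg.symm
  let e0 : 𝓞 M ≃+* 𝓞 M := MulSemiringAction.toRingEquiv (M ≃ₐ[K] M) (𝓞 M) s1
  have he0 : P = P.map (e0 : 𝓞 M →+* 𝓞 M) := by
    conv_lhs => rw [← hP]
    rfl
  let e1 : 𝓞 M ⧸ P ≃+* 𝓞 M ⧸ P := Ideal.quotientEquiv P P e0 he0
  let e : (𝓞 M ⧸ P) ≃ₐ[𝓞 E ⧸ P.under (𝓞 E)] (𝓞 M ⧸ P) :=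
    AlgEquiv.ofRingEquiv (f := e1) (by
      intro r
      obtain ⟨x, rfl⟩ := Ideal.Quotient.mk_surjective r
      change Ideal.Quotient.mk P (s1 • algebraMap (𝓞 E) (𝓞 M) x) =
        Ideal.Quotient.mk P (algebraMap (𝓞 E) (𝓞 M) x)
      rw [← res_int, hr, Ideal.Quotient.eq, ← map_sub]
      exact hσ x)
  obtain ⟨⟨h, hh⟩, hh2⟩ := Ideal.Quotient.stabilizerHom_surjective (M ≃ₐ[E] M)
    (P.under (𝓞 E)) P e
  have key : ∀ x : 𝓞 M, h • x - s1 • x ∈ P := fun x =>
    (Ideal.Quotient.eq).1 (DFunLike.congr_fun hh2 (Ideal.Quotient.mk P x))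
  refine ⟨s1 * (h.restrictScalars K)⁻¹, fun x => ?_, by
    rw [map_mul, map_inv, res_rs, hr, inv_one, mul_one]⟩
  have h1 := P.neg_mem (key (h⁻¹ • x))
  rw [smul_inv_smul, neg_sub] at h1
  exact h1

end tower

section one

variable {K E : Type*} [Field K] [Field E] [Algebra K E] [NumberField K] [NumberField E]

theorem ne_bot_over (w : Pr K) (P : Ideal (𝓞 E)) [P.LiesOver w.asIdeal] : P ≠ ⊥ :=
  Ideal.ne_bot_of_liesOver_of_ne_bot w.ne_bot P

theorem exists_frob [IsGalois K E] (w : Pr K) (P : Ideal (𝓞 E)) [P.IsPrime]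
    [P.LiesOver w.asIdeal] :
    ∃ g : E ≃ₐ[K] E, ∀ x : 𝓞 E, g • x - x ^ Ideal.absNorm w.asIdeal ∈ P := by
  have : Finite (𝓞 E ⧸ P) := Ideal.finiteQuotientOfFreeOfNeBot P (ne_bot_over w P)
  obtain ⟨g, hg⟩ := IsArithFrobAt.exists_of_isInvariant (𝓞 K) (E ≃ₐ[K] E) P
  exact ⟨g, (frob_iff w P g).1 hg⟩

omit [NumberField K] [NumberField E] in
theorem frob_div {g g' : E ≃ₐ[K] E} {P : Ideal (𝓞 E)} {q : ℕ}
    (h : ∀ x : 𝓞 E, g • x - x ^ q ∈ P) (h' : ∀ x : 𝓞 E, g' • x - x ^ q ∈ P) :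
    g * g'⁻¹ ∈ P.inertia (E ≃ₐ[K] E) := by
  intro x
  simpa [mul_smul] using sub_mem (h (g'⁻¹ • x)) (h' (g'⁻¹ • x))

theorem frob_stab [IsGalois K E] {w : Pr K} {P : Ideal (𝓞 E)} [P.IsPrime] [P.LiesOver w.asIdeal]
    {g : E ≃ₐ[K] E} (h : ∀ x : 𝓞 E, g • x - x ^ Ideal.absNorm w.asIdeal ∈ P) : g • P = P :=
  ((frob_iff w P g).2 h).mem_stabilizer

omit [NumberField K] [NumberField E] in
theorem frob_pow {g : E ≃ₐ[K] E} {P : Ideal (𝓞 E)} {q : ℕ}
    (h : ∀ x : 𝓞 E, g • x - x ^ q ∈ P) (j : ℕ) (x : 𝓞 E) : (g ^ j) • x - x ^ q ^ j ∈ P := by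
  induction j generalizing x with
  | zero => simp
  | succ j ih =>
    have h1 : ((g ^ j) • x) ^ q - (x ^ q ^ j) ^ q ∈ P :=
      P.mem_of_dvd (sub_dvd_pow_sub_pow _ _ q) (ih x)
    have := add_mem (h ((g ^ j) • x)) h1
    rw [pow_succ', mul_smul, pow_succ, pow_mul]
    simpa using this

attribute [local instance] Ideal.Quotient.field in
/-- the decomposition group is generated by Frobenius and inertia -/
theorem stab_frob [IsGalois K E] {w : Pr K} {P : Ideal (𝓞 E)} [P.IsPrime] [P.LiesOver w.asIdeal]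
    {g : E ≃ₐ[K] E} (h : ∀ x : 𝓞 E, g • x - x ^ Ideal.absNorm w.asIdeal ∈ P)
    (s : E ≃ₐ[K] E) (hs : s • P = P) : ∃ j : ℕ, s * (g ^ j)⁻¹ ∈ P.inertia (E ≃ₐ[K] E) := by
  have hP := ne_bot_over w P
  have : P.IsMaximal := Ideal.IsPrime.isMaximal inferInstance hP
  have : Finite (𝓞 E ⧸ P) := Ideal.finiteQuotientOfFreeOfNeBot P hP
  have : Finite (𝓞 K ⧸ w.asIdeal) := Ideal.finiteQuotientOfFreeOfNeBot _ w.ne_bot
  have := Fintype.ofFinite (𝓞 K ⧸ w.asIdeal)
  have := w.isMaximal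
  obtain ⟨j, hj⟩ := (FiniteField.bijective_frobeniusAlgEquivOfAlgebraic_pow (𝓞 K ⧸ w.asIdeal)
    (𝓞 E ⧸ P)).2 (Ideal.Quotient.stabilizerHom P w.asIdeal (E ≃ₐ[K] E) ⟨s, hs⟩)
  refine ⟨j, frob_div (q := Ideal.absNorm w.asIdeal ^ (j : ℕ)) (fun x => ?_) (frob_pow h j)⟩
  have h1 := DFunLike.congr_fun hj (Ideal.Quotient.mk P x)
  simp only [AlgEquiv.coe_pow, FiniteField.coe_frobeniusAlgEquivOfAlgebraic_iterate] at h1
  rw [← Ideal.Quotient.eq, map_pow, Ideal.absNorm_apply, Submodule.cardQuot_apply,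
    Nat.card_eq_fintype_card]
  exact h1.symm

/-- the prime `P ∣ w` as a point of the height one spectrum -/
def upP (w : Pr K) (P : Ideal (𝓞 E)) [P.IsPrime] [P.LiesOver w.asIdeal] : Pr E :=
  ⟨P, inferInstance, ne_bot_over w P⟩

theorem val_unr [IsGalois K E] (w : Pr K) (P : Ideal (𝓞 E)) [P.IsPrime] [P.LiesOver w.asIdeal]
    (h : P.inertia (E ≃ₐ[K] E) = ⊥) (x : K) :
    (upP w P).valuation E (algebraMap K E x) = w.valuation K x := by
  have : (upP w P).asIdeal.LiesOver w.asIdeal := ‹P.LiesOver w.asIdeal›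
  have := w.isMaximal
  have h1 := Ideal.card_inertia_eq_ramificationIdxIn (G := E ≃ₐ[K] E) w.asIdeal P
  rw [h, Subgroup.card_bot, Ideal.ramificationIdxIn_eq_ramificationIdx w.asIdeal P (E ≃ₐ[K] E)]
    at h1
  rw [← HeightOneSpectrum.valuation_liesOver E w (upP w P)]
  change _ ^ w.asIdeal.ramificationIdx' P = _
  rw [Ideal.ramificationIdx'_eq_ramificationIdx _ _ w.ne_bot, ← h1, pow_one]

theorem val_lt_over (w : Pr K) (W : Pr E) [W.asIdeal.LiesOver w.asIdeal] {x y : K}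
    (h : w.valuation K x < w.valuation K y) :
    W.valuation E (algebraMap K E x) < W.valuation E (algebraMap K E y) := by
  rw [← HeightOneSpectrum.valuation_liesOver E w W, ← HeightOneSpectrum.valuation_liesOver E w W]
  exact pow_lt_pow_left₀ h zero_le
    (Ideal.IsDedekindDomain.ramificationIdx'_ne_zero_of_liesOver W.asIdeal w.ne_bot)

theorem val_one_over (w : Pr K) (W : Pr E) [W.asIdeal.LiesOver w.asIdeal] {x : K}
    (h : w.valuation K x = 1) : W.valuation E (algebraMap K E x) = 1 := by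
  rw [← HeightOneSpectrum.valuation_liesOver E w W, h, one_pow]

theorem val_smul (W : Pr E) (g : E ≃ₐ[K] E) (hg : g • W.asIdeal = W.asIdeal) (x : E) :
    W.valuation E (g x) = W.valuation E x := by
  have hi : ∀ x : 𝓞 E, W.intValuation (g • x) = W.intValuation x := by
    intro x
    by_cases hx : x = 0
    · rw [hx, smul_zero]
    have hx' : g • x ≠ 0 := fun h => hx (by rwa [smul_eq_zero_iff_eq] at h)
    have key : ∀ n : ℕ, W.intValuation (g • x) ≤ WithZero.exp (-(n : ℤ)) ↔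
        W.intValuation x ≤ WithZero.exp (-(n : ℤ)) := by
      intro n
      rw [HeightOneSpectrum.intValuation_le_pow_iff_mem,
        HeightOneSpectrum.intValuation_le_pow_iff_mem]
      conv_lhs => rw [← hg, ← smul_pow', Ideal.smul_mem_pointwise_smul_iff]
    have h1 := W.intValuation_if_neg hx'
    have h2 := W.intValuation_if_neg hx
    exact le_antisymm (h2 ▸ (key _).mpr h2.le) (h1 ▸ (key _).mp h1.le)
  obtain ⟨r, s, -, rfl⟩ := IsFractionRing.div_surjective (A := 𝓞 E) x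
  have h2 : g (algebraMap (𝓞 E) E r / algebraMap (𝓞 E) E s) =
      algebraMap (𝓞 E) E (g • r) / algebraMap (𝓞 E) E (g • s) := by
    rw [map_div₀]; rfl
  rw [h2, map_div₀, map_div₀]
  simp only [HeightOneSpectrum.valuation_of_algebraMap, hi]

end one

end Crest.Agent.T15.Art
end

-- ▼ part T15/ArtB_34
section

/-!
# Row 15, Artin reciprocity: the torus lemma and the core theorem (helper34)
-/

set_option autoImplicit false
set_option linter.unusedSectionVars false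

open NumberField IsDedekindDomain Finset
open scoped Pointwise
open Crest.Agent.R018.Selmerx380

namespace Crest.Agent.T15.Art

section op

variable {K E : Type*} [Field K] [Field E] [Algebra K E]

/-- the operator `x ↦ c * g x` -/
def op (c : E) (g : E ≃ₐ[K] E) : Module.End K E := LinearMap.mulLeft K c ∘ₗ g.toLinearMap

theorem op_apply (c : E) (g : E ≃ₐ[K] E) (x : E) : op c g x = c * g x := rfl

theorem op_mul (c d : E) (g h : E ≃ₐ[K] E) : op c g * op d h = op (c * g d) (g * h) := by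
  ext x
  simp [op_apply, mul_assoc]

theorem op_pow (c : E) (g : E ≃ₐ[K] E) (r : ℕ) :
    op c g ^ r = op (∏ k ∈ range r, (g ^ k) c) (g ^ r) := by
  induction r with
  | zero => ext x; simp [op_apply]
  | succ r ih => rw [pow_succ, ih, op_mul, prod_range_succ, pow_succ]

theorem op_alg (a : K) : op (algebraMap K E a) (1 : E ≃ₐ[K] E) = algebraMap K _ a := by
  ext x
  simp [op_apply, Algebra.smul_def]

theorem op_comm {s t : E ≃ₐ[K] E} (h : Commute s t) {c d : E} (hc : c ≠ 0) (hd : d ≠ 0)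
    (hcd : t c / c = s d / d) : Commute (op c s) (op d t) := by
  rw [div_eq_div_iff hc hd] at hcd
  rw [Commute, SemiconjBy, op_mul, op_mul, h.eq, mul_comm c, ← hcd, mul_comm d]

theorem prod_ne {c : E} (hc : c ≠ 0) (g : E ≃ₐ[K] E) (r : ℕ) : ∏ k ∈ range r, (g ^ k) c ≠ 0 :=
  prod_ne_zero_iff.2 fun _ _ => (map_ne_zero _).2 hc

theorem fixed_of_comm {b c : E} {s : E ≃ₐ[K] E} (hc : c ≠ 0) (h : Commute (op c s) (op b 1)) :
    s b = b := by
  have := DFunLike.congr_fun h.eq 1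
  simp only [Module.End.mul_apply, op_apply, map_one, mul_one, AlgEquiv.one_apply] at this
  exact mul_left_cancel₀ hc (this.trans (mul_comm _ _))

theorem norm_cyc [FiniteDimensional K E] [IsGalois K E] {s : E ≃ₐ[K] E}
    (hs : ∀ g, g ∈ Subgroup.zpowers s) (x : E) :
    algebraMap K E (Algebra.norm K x) = ∏ k ∈ range (orderOf s), (s ^ k) x := by
  classical
  rw [Algebra.norm_eq_prod_automorphisms]
  symm
  refine prod_bij (fun k _ => s ^ k) (fun _ _ => mem_univ _) (fun i hi j hj h => ?_)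
    (fun g _ => ?_) fun _ _ => rfl
  · exact pow_injOn_Iio_orderOf (by simpa using hi) (by simpa using hj) h
  · obtain ⟨k, hk, h⟩ := mem_image.1 ((mem_zpowers_iff_mem_range_orderOf).1 (hs g))
    exact ⟨k, hk, h⟩

end op

section core

variable {K E : Type*} [Field K] [Field E] [Algebra K E] [NumberField K] [NumberField E]
  [IsGalois K E]

/-- the torus lemma -/
theorem tor {s t : E ≃ₐ[K] E} (h : Commute s t) {N n : ℕ} (hs : s ^ N = 1) (ht : t ^ n = 1)
    {c d : E} (hc : c ≠ 0) (hd : d ≠ 0) (a b : Kˣ)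
    (ha : ∏ k ∈ range N, (s ^ k) c = algebraMap K E a) (hcd : t c / c = s d / d)
    (hb : ∏ k ∈ range n, (t ^ k) d = algebraMap K E b) {w : Pr K} {i j : ℕ}
    (hw : Fr w ⊥ (s ^ i * t ^ j)) :
    (N * n : ℤ) ∣ n * (i * ord (𝓞 K) w a) + N * (j * ord (𝓞 K) w b) := by
  obtain ⟨P, _, _, hf, hi⟩ := hw
  have hA : op c s ^ N = algebraMap K _ (a : K) := by rw [op_pow, ha, hs, op_alg]
  have hB : op d t ^ n = algebraMap K _ (b : K) := by rw [op_pow, hb, ht, op_alg]
  obtain ⟨e, he, hC⟩ : ∃ e : E, e ≠ 0 ∧ op c s ^ i * op d t ^ j = op e (s ^ i * t ^ j) :=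
    ⟨_, mul_ne_zero (prod_ne hc s i) ((map_ne_zero _).2 (prod_ne hd t j)), by
      rw [op_pow, op_pow, op_mul]⟩
  have h1 : op e (s ^ i * t ^ j) ^ (N * n) =
      algebraMap K _ ((a : K) ^ (n * i) * (b : K) ^ (N * j)) := by
    rw [← hC, ((op_comm h hc hd hcd).pow_pow i j).mul_pow, map_mul, map_pow, map_pow, ← hA, ← hB,
      ← pow_mul, ← pow_mul, ← pow_mul, ← pow_mul]
    congr 2 <;> ring
  have h2 := DFunLike.congr_fun h1 1
  rw [op_pow, op_apply, map_one, mul_one, Module.algebraMap_end_apply, Algebra.smul_def,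
    mul_one] at h2
  have h3 := congrArg ((upP w P).valuation E) h2
  have h4 : ∀ k : ℕ, (upP w P).valuation E (((s ^ i * t ^ j) ^ k) e) = (upP w P).valuation E e :=
    fun k => val_smul (upP w P) _ (MulAction.mem_stabilizer_iff.1 (pow_mem
      (MulAction.mem_stabilizer_iff.2 (frob_stab hf)) k)) e
  rw [val_unr w P (le_bot_iff.1 hi), map_prod, prod_congr rfl fun k _ => h4 k, prod_const,
    card_range, map_mul, map_pow, map_pow, valuation_eq_exp, valuation_eq_exp,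
    ← WithZero.exp_log (((upP w P).valuation E).ne_zero_iff.2 he), ← WithZero.exp_nsmul,
    ← WithZero.exp_nsmul, ← WithZero.exp_nsmul, ← WithZero.exp_add, WithZero.exp_inj] at h3
  refine ⟨-WithZero.log ((upP w P).valuation E e), ?_⟩
  simp only [nsmul_eq_mul] at h3
  push_cast at h3
  linear_combination h3

theorem exists_alg {s t : E ≃ₐ[K] E} (hgen : ∀ g : E ≃ₐ[K] E, ∃ i j : ℕ, g = s ^ i * t ^ j)
    {x : E} (hs : s x = x) (ht : t x = x) : ∃ b : K, algebraMap K E b = x := by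
  have hp : ∀ g : E ≃ₐ[K] E, g x = x → ∀ i : ℕ, (g ^ i) x = x := fun g hg i => by
    induction i with
    | zero => rfl
    | succ i ih => rw [pow_succ, AlgEquiv.mul_apply, hg, ih]
  refine (IsGalois.mem_range_algebraMap_iff_fixed x).2 fun g => ?_
  obtain ⟨i, j, rfl⟩ := hgen g
  rw [AlgEquiv.mul_apply, hp t ht, hp s hs]

theorem Fr.all {w : Pr K} {g : E ≃ₐ[K] E} (hc : ∀ x y : E ≃ₐ[K] E, Commute x y) (h : Fr w ⊥ g)
    (P : Ideal (𝓞 E)) [P.IsPrime] [P.LiesOver w.asIdeal] :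
    (∀ x : 𝓞 E, g • x - x ^ Ideal.absNorm w.asIdeal ∈ P) ∧ P.inertia (E ≃ₐ[K] E) = ⊥ := by
  obtain ⟨Q, _, _, hf, hi⟩ := h
  obtain ⟨u, rfl⟩ := Algebra.IsInvariant.exists_smul_of_under_eq (𝓞 K) (𝓞 E) (E ≃ₐ[K] E) Q P
    ((Ideal.over_def Q w.asIdeal).symm.trans (Ideal.over_def P w.asIdeal))
  refine ⟨fun x => ?_, eq_bot_iff.2 fun v hv => hi fun x => ?_⟩
  · rw [Ideal.mem_pointwise_smul_iff_inv_smul_mem, smul_sub, smul_pow', ← mul_smul,
      (hc _ g).eq, mul_smul]
    exact hf _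
  · have : v • u • x - u • x ∈ u • Q := hv (u • x)
    rwa [← mul_smul, (hc v u).eq, mul_smul, ← smul_sub, Ideal.smul_mem_pointwise_smul_iff] at this

end core

section mid

variable {K F E : Type*} [Field K] [Field F] [Field E] [Algebra K F] [Algebra F E] [Algebra K E]
  [IsScalarTower K F E]

theorem rs_pow (s : E ≃ₐ[F] E) (k : ℕ) :
    (s ^ k).restrictScalars K = s.restrictScalars K ^ k := by
  induction k with
  | zero => rfl
  | succ k ih => rw [pow_succ, pow_succ, ← ih]; rfl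

theorem rs_inj {u : E ≃ₐ[F] E} (hu : u.restrictScalars K = 1) : u = 1 :=
  AlgEquiv.ext fun x => DFunLike.congr_fun hu x

theorem rs_smul (u : E ≃ₐ[F] E) (x : 𝓞 E) : u.restrictScalars K • x = u • x := by
  apply RingOfIntegers.coe_injective
  change ((u.restrictScalars K • x : 𝓞 E) : E) = ((u • x : 𝓞 E) : E)
  rw [coe_smul_int, coe_smul_int]
  rfl

theorem rs_inertia {u : E ≃ₐ[F] E} {P : Ideal (𝓞 E)} (hu : u ∈ P.inertia (E ≃ₐ[F] E)) :
    u.restrictScalars K ∈ P.inertia (E ≃ₐ[K] E) := fun x => by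
  rw [rs_smul]; exact hu x

theorem rs_stab {u : E ≃ₐ[F] E} {P : Ideal (𝓞 E)} (hu : u • P = P) :
    u.restrictScalars K • P = P := by
  ext x
  conv_rhs => rw [← hu]
  simp only [Ideal.mem_pointwise_smul_iff_inv_smul_mem]
  rw [← rs_smul (K := K) u⁻¹]
  rfl

theorem norm_mid [FiniteDimensional F E] [IsGalois F E] {s : E ≃ₐ[F] E}
    (hs : ∀ g, g ∈ Subgroup.zpowers s) (x : E) : algebraMap F E (Algebra.norm F x) =
      ∏ k ∈ range (orderOf s), (s.restrictScalars K ^ k) x := by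
  rw [norm_cyc hs]
  exact prod_congr rfl fun k _ => by rw [← rs_pow]; rfl

end mid

theorem exists_mid {K E : Type} [Field K] [Field E] [Algebra K E] [NumberField K] [NumberField E]
    [IsGalois K E] (s : E ≃ₐ[K] E) :
    ∃ (F : Type) (_ : Field F) (_ : NumberField F) (_ : Algebra K F) (_ : Algebra F E)
      (_ : IsScalarTower K F E) (s' : E ≃ₐ[F] E), s'.restrictScalars K = s ∧
      (∀ g, g ∈ Subgroup.zpowers s') ∧ orderOf s' = orderOf s := by
  let F := IntermediateField.fixedField (Subgroup.zpowers s)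
  let e := IntermediateField.subgroupEquivAlgEquiv (Subgroup.zpowers s)
  refine ⟨F, inferInstance, inferInstance, inferInstance, inferInstance, inferInstance,
    e ⟨s, Subgroup.mem_zpowers s⟩, rfl, fun g => ?_, by rw [e.orderOf_eq, Subgroup.orderOf_mk]⟩
  obtain ⟨⟨x, k, hk⟩, rfl⟩ := e.surjective g
  refine ⟨k, ?_⟩
  beta_reduce
  rw [← map_zpow]
  exact congrArg e (Subtype.ext hk)

theorem comm_of_gen {G : Type*} [Group G] {s t : G} (h : Commute s t)
    (hgen : ∀ g : G, ∃ i j : ℕ, g = s ^ i * t ^ j) (x y : G) : Commute x y := by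
  obtain ⟨i, j, rfl⟩ := hgen x
  obtain ⟨i', j', rfl⟩ := hgen y
  exact (((Commute.refl s).pow_pow _ _).mul_right (h.pow_pow _ _)).mul_left
    ((h.symm.pow_pow _ _).mul_right ((Commute.refl t).pow_pow _ _))

theorem split_alg {G : Type*} [Group G] {s t : G} (h : Commute s t) {N : ℕ} (hN : 0 < N)
    (hsN : s ^ N = 1) (hind : ∀ i j : ℕ, s ^ i * t ^ j = 1 → s ^ i = 1 ∧ t ^ j = 1)
    {i j k r : ℕ} (hQ : N ∣ orderOf (t ^ j)) (hr : s ^ k = (s ^ i * t ^ j) ^ r) : s ^ k = 1 := by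
  have h5 : (t ^ j) ^ r = 1 := by
    rw [← pow_mul]
    refine (hind (i * r + k * (N - 1)) _ ?_).2
    have hN1 : s ^ (k * (N - 1)) * s ^ k = 1 := by
      rw [← pow_add, ← Nat.mul_succ, Nat.succ_eq_add_one, Nat.sub_add_cancel hN, mul_comm,
        pow_mul, hsN, one_pow]
    rw [← hN1, hr, (h.pow_pow _ _).mul_pow, ← pow_mul, ← pow_mul, ← mul_assoc, ← pow_add,
      add_comm]
  obtain ⟨r', rfl⟩ := hQ.trans (orderOf_dvd_of_pow_eq_one h5)
  rw [hr, (h.pow_pow _ _).mul_pow, h5, mul_one, ← pow_mul, mul_left_comm, pow_mul, hsN, one_pow]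

/-- step 1: `a` is an `s`-norm -/
theorem core1 (hH : HntStmt) (hU : UnrStmt) {K E : Type} [Field K] [Field E]
    [Algebra K E] [NumberField K] [NumberField E] [IsGalois K E] [IsTotallyComplex K]
    {s t : E ≃ₐ[K] E} (h : Commute s t) {N : ℕ} (hs : orderOf s = N)
    (hgen : ∀ g : E ≃ₐ[K] E, ∃ i j : ℕ, g = s ^ i * t ^ j)
    (hind : ∀ i j : ℕ, s ^ i * t ^ j = 1 → s ^ i = 1 ∧ t ^ j = 1)
    (T : Finset (Pr K)) (i j : Pr K → ℕ)
    (hfr : ∀ w, w ∉ T → Fr w ⊥ (s ^ i w * t ^ j w)) (a : Kˣ)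
    (hT : ∀ w ∈ T, ∃ (g : E) (a' : K), g ≠ 0 ∧ t g = g ∧
      ∏ k ∈ range N, (s ^ k) g = algebraMap K E a' ∧
      w.valuation K (a / a' - 1) < w.valuation K (N : K) ^ 2)
    (hQ : ∀ w, w ∉ T → ord (𝓞 K) w a ≠ 0 → N ∣ orderOf (t ^ j w)) :
    ∃ c d : E, c ≠ 0 ∧ d ≠ 0 ∧ ∏ k ∈ range N, (s ^ k) c = algebraMap K E a ∧
      t c / c = s d / d := by
  classical
  have hsN : s ^ N = 1 := hs ▸ pow_orderOf_eq_one s
  have hN0 : 0 < N := hs ▸ orderOf_pos s
  have hcom := comm_of_gen h hgen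
  obtain ⟨F, _, _, _, _, _, s', rfl, hs', ho⟩ := exists_mid s
  have : IsGalois F E := IsGalois.tower_top_of_isGalois K F E
  have : IsTotallyComplex F := isTotallyComplex_of_algebra K F
  rw [hs] at ho
  have hrk : Module.finrank F E = N := by
    rw [← IsGalois.card_aut_eq_finrank, ← ho, orderOf_eq_card_of_forall_mem_zpowers hs']
  have hnm := fun x => ho ▸ norm_mid (K := K) hs' x
  have ha0 : algebraMap K F a ≠ 0 := (map_ne_zero _).2 a.ne_zero
  obtain ⟨c, hc⟩ := hH F E s' (eq_top_iff.2 fun g _ => hs' g) (algebraMap K F a) ha0 fun W => by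
    let w : Pr K := W.under (𝓞 K)
    have : W.asIdeal.LiesOver w.asIdeal := ⟨rfl⟩
    rw [hrk]
    by_cases hw : w ∈ T
    · obtain ⟨g, a', h1, -, h2, h3⟩ := hT w hw
      refine ⟨g, h1, ?_⟩
      have h4 : Algebra.norm F g = algebraMap K F a' := (algebraMap F E).injective (by
        rw [hnm, h2, ← IsScalarTower.algebraMap_apply])
      have := val_lt_over w W (x := a / a' - 1) (y := (N : K) ^ 2) (by rwa [map_pow])
      rwa [map_sub, map_div₀, map_one, map_pow, map_natCast, map_pow, ← h4] at this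
    · have := W.isMaximal
      obtain ⟨⟨P, _, _⟩⟩ := (inferInstance : Nonempty (W.asIdeal.primesOver (𝓞 E)))
      have : P.LiesOver w.asIdeal := Ideal.LiesOver.trans P W.asIdeal _
      obtain ⟨hf, hi⟩ := (hfr w hw).all hcom P
      have hN : W.valuation F (N : F) ^ 2 ≠ 0 := pow_ne_zero _ ((Valuation.ne_zero_iff _).2
        (Nat.cast_ne_zero.2 hN0.ne'))
      refine hU F E W P _ ha0 ?_ _ hN
      by_cases h0 : ord (𝓞 K) w a = 0
      · refine Or.inl ⟨eq_bot_iff.2 fun u hu => rs_inj (K := K) ?_,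
          val_one_over w W ((ord_eq_zero_iff w a).1 h0)⟩
        have := rs_inertia (K := K) hu
        rwa [hi] at this
      · refine Or.inr (eq_bot_iff.2 fun u hu => rs_inj (K := K) ?_)
        obtain ⟨r, hr⟩ := stab_frob hf (u.restrictScalars K) (rs_stab hu)
        rw [hi, Subgroup.mem_bot, mul_inv_eq_one] at hr
        obtain ⟨k, -, rfl⟩ := mem_image.1 (mem_zpowers_iff_mem_range_orderOf.1 (hs' u))
        rw [rs_pow] at hr ⊢
        exact split_alg h hN0 hsN hind (hQ w hw h0) hr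
  have hca : ∏ k ∈ range N, (s'.restrictScalars K ^ k) c = algebraMap K E a := by
    rw [← hnm, hc, ← IsScalarTower.algebraMap_apply]
  have hc0 : c ≠ 0 := by
    rintro rfl
    rw [Algebra.norm_zero] at hc
    exact ha0 hc.symm
  have : IsCyclic (E ≃ₐ[F] E) := ⟨⟨s', hs'⟩⟩
  obtain ⟨y, hy⟩ := groupCohomology.exists_div_of_norm_eq_one hs' (x := t c / c)
    ((algebraMap F E).injective (by
      rw [hnm, map_one]
      have : ∀ k ∈ range N, (s'.restrictScalars K ^ k) (t c / c) =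
          t ((s'.restrictScalars K ^ k) c) / (s'.restrictScalars K ^ k) c := fun k _ => by
        rw [map_div₀, ← AlgEquiv.mul_apply, (hcom _ t).eq, AlgEquiv.mul_apply]
      rw [prod_congr rfl this, prod_div_distrib, ← map_prod, hca, AlgEquiv.commutes,
        div_self ((map_ne_zero _).2 a.ne_zero)]))
  refine ⟨c, (y : E)⁻¹, hc0, inv_ne_zero y.ne_zero, hca, ?_⟩
  rw [← hy, map_inv₀, inv_div_inv]
  rfl

theorem core (hH : HntStmt) (hU : UnrStmt) (hL : LocStmt) {K E : Type} [Field K] [Field E]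
    [Algebra K E] [NumberField K] [NumberField E] [IsGalois K E] [IsTotallyComplex K]
    {s t : E ≃ₐ[K] E} (h : Commute s t) {N n : ℕ} (hs : orderOf s = N) (ht : orderOf t = n)
    (hgen : ∀ g : E ≃ₐ[K] E, ∃ i j : ℕ, g = s ^ i * t ^ j)
    (hind : ∀ i j : ℕ, s ^ i * t ^ j = 1 → s ^ i = 1 ∧ t ^ j = 1)
    (T : Finset (Pr K)) (i j : Pr K → ℕ) (hT0 : ∀ w ∈ T, i w = 0 ∧ j w = 0)
    (hfr : ∀ w, w ∉ T → Fr w ⊥ (s ^ i w * t ^ j w)) (a : Kˣ)
    (hT : ∀ w ∈ T, ∃ (g : E) (a' : K), g ≠ 0 ∧ t g = g ∧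
      ∏ k ∈ range N, (s ^ k) g = algebraMap K E a' ∧
      w.valuation K (a / a' - 1) < w.valuation K (N : K) ^ 2)
    (hQ : ∀ w, w ∉ T → ord (𝓞 K) w a ≠ 0 → N ∣ orderOf (t ^ j w))
    (ε : WithZero (Multiplicative ℤ)) (hε : ε ≠ 0)
    (hcyc : ∀ β : Kˣ, (∀ w ∈ T, w.valuation K ((β : K) - 1) < ε) →
      (n : ℤ) ∣ (ev (fun w => Multiplicative.ofAdd (j w : ℤ)) β).toAdd) :
    (N : ℤ) ∣ (ev (fun w => Multiplicative.ofAdd (i w : ℤ)) a).toAdd := by
  classical
  have hsN : s ^ N = 1 := hs ▸ pow_orderOf_eq_one s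
  have htn : t ^ n = 1 := ht ▸ pow_orderOf_eq_one t
  have hn0 : 0 < n := ht ▸ orderOf_pos t
  obtain ⟨c, d, hc0, hd0, hca, hcd⟩ := core1 hH hU h hs hgen hind T i j hfr a hT hQ
  have hB : op d t ^ n = op (∏ k ∈ range n, (t ^ k) d) 1 := by rw [op_pow, htn]
  obtain ⟨b, hb⟩ := exists_alg hgen
    (fixed_of_comm hc0 (hB ▸ (op_comm h hc0 hd0 hcd).pow_right n))
    (fixed_of_comm hd0 (hB ▸ (Commute.refl (op d t)).pow_right n))
  have hb0 : b ≠ 0 := fun h0 => prod_ne hd0 t n (by rw [← hb, h0, map_zero])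
  obtain ⟨g, b', hg0, hg, hb', hT'⟩ := hL K E s t N n h hs ht hgen hind c d a b hc0 hd0 hca hcd
    hb.symm T hT ε hε
  have hb0' : b' ≠ 0 := fun h0 => prod_ne hg0 t n (by rw [hb', h0, map_zero])
  lift b to Kˣ using hb0.isUnit
  lift b' to Kˣ using hb0'.isUnit
  have h1 := hcyc (b / b') fun w hw => by
    rw [Units.val_div_eq_div_val]; exact hT' w hw
  obtain ⟨S1, hS1⟩ := exists_supp a
  obtain ⟨S2, hS2⟩ := exists_supp (b / b')
  rw [ev_eq _ _ (S1 ∪ S2) fun w hw => mem_union_right _ (hS2 w hw)] at h1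
  rw [ev_eq _ _ (S1 ∪ S2) fun w hw => mem_union_left _ (hS1 w hw)]
  simp only [toAdd_prod, toAdd_zpow, toAdd_ofAdd, smul_eq_mul] at h1 ⊢
  have h2 : (N * n : ℤ) ∣ ∑ w ∈ S1 ∪ S2,
      (n * (ord (𝓞 K) w a * i w) + N * (ord (𝓞 K) w (b / b') * j w)) := by
    refine dvd_sum fun w _ => ?_
    by_cases hw : w ∈ T
    · rw [(hT0 w hw).1, (hT0 w hw).2]; simp
    have h3 := tor h hsN htn hc0 hd0 a b hca hcd hb.symm (hfr w hw)
    have h4 := tor h hsN htn one_ne_zero hg0 1 b' (by simp) (by simp [hg, hg0]) hb' (hfr w hw)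
    rw [ord_one] at h4
    have h5 := dvd_sub h3 h4
    rw [ord_div]
    convert h5 using 1
    ring
  rw [sum_add_distrib, ← mul_sum, ← mul_sum,
    dvd_add_left (mul_dvd_mul_left _ h1), mul_comm] at h2
  exact (mul_dvd_mul_iff_left (by exact_mod_cast hn0.ne')).1 h2

end Crest.Agent.T15.Art
end

-- ▼ part T15/ArtC_34
section

/-!
# Row 15, Artin reciprocity: the cyclotomic part (helper34)
-/

set_option autoImplicit false
set_option linter.unusedSectionVars false

open NumberField IsDedekindDomain Finset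
open scoped Pointwise
open Crest.Agent.R018.Selmerx380

namespace Crest.Agent.T15.Art

theorem exists_prime_ord0 {y p : ℕ} (hy : 2 ≤ y) (hp : p.Prime) :
    ∃ l : ℕ, l.Prime ∧ ((y : ZMod l) ^ p) ^ p = 1 ∧ (y : ZMod l) ^ p ≠ 1 := by
  by_contra! hcon
  have := Fact.mk hp
  set b : ℕ := ∑ i ∈ range p, (y ^ p) ^ i with hb
  have hlt : p < b := by
    have h1 : ∑ _i ∈ range p, 1 < b := sum_lt_sum
      (fun i _ => Nat.one_le_pow _ _ (by positivity))
      ⟨1, mem_range.2 hp.one_lt, by rw [pow_one]; exact Nat.one_lt_pow hp.ne_zero hy⟩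
    simpa using h1
  have hz : ∀ l : ℕ, l.Prime → l ∣ b → (y : ZMod l) ^ p = 1 := fun l hl h => by
    refine hcon l hl ?_
    have h1 := geom_sum_mul ((y : ZMod l) ^ p) p
    have h2 : ((b : ℕ) : ZMod l) = 0 := (ZMod.natCast_eq_zero_iff _ _).2 h
    rw [hb] at h2
    push_cast at h2
    rw [h2, zero_mul] at h1
    exact sub_eq_zero.1 h1.symm
  have hd : ∀ l : ℕ, l ∣ b → (y : ZMod l) ^ p = 1 → l ∣ p := fun l h h1 => by
    have h2 : ((b : ℕ) : ZMod l) = 0 := (ZMod.natCast_eq_zero_iff _ _).2 h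
    rw [hb] at h2
    push_cast at h2
    rw [h1] at h2
    exact (ZMod.natCast_eq_zero_iff _ _).1 (by simpa using h2)
  have h3 := Nat.eq_prime_pow_of_unique_prime_dvd (n := b) (p := p) (by omega) fun {d} h1 h2 =>
    (Nat.prime_dvd_prime_iff_eq h1 hp).1 (hd d h2 (hz d h1 h2))
  have h4 : p ^ 2 ∣ b := by
    rw [h3] at hlt ⊢
    refine pow_dvd_pow _ ?_
    conv_lhs at hlt => rw [← pow_one p]
    exact (Nat.pow_lt_pow_iff_right hp.one_lt).1 hlt
  have h5 := hz p hp ((dvd_pow_self p two_ne_zero).trans h4)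
  rw [ZMod.pow_card] at h5
  have h6 : (p : ℤ) ∣ (y : ℤ) - 1 := by
    rw [← ZMod.intCast_zmod_eq_zero_iff_dvd]; push_cast; rw [h5, sub_self]
  have h7 := dvd_sub_pow_of_dvd_sub h6 1
  rw [pow_one, one_pow] at h7
  have h8 := hd (p ^ 2) h4 (by
    have := (ZMod.intCast_zmod_eq_zero_iff_dvd ((y : ℤ) ^ p - 1) (p ^ 2)).2 (by exact_mod_cast h7)
    push_cast at this
    exact sub_eq_zero.1 this)
  have := Nat.le_of_dvd hp.pos h8
  nlinarith [hp.two_le]

theorem exists_prime_ord34 {x p : ℕ} (hx : 2 ≤ x) (hp : p.Prime) (R : ℕ) :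
    ∃ l : ℕ, l.Prime ∧ R < l ∧ orderOf (x : ZMod l) = p ^ (R + 2) := by
  have := Fact.mk hp
  obtain ⟨l, hl, h1, h2⟩ := exists_prime_ord0 (y := x ^ p ^ R)
    (Nat.one_lt_pow (pow_ne_zero _ hp.ne_zero) hx) hp
  have := Fact.mk hl
  push_cast at h1 h2
  rw [← pow_mul (x : ZMod l), ← pow_succ] at h1 h2
  rw [← pow_mul, ← pow_succ] at h1
  have h3 := orderOf_eq_prime_pow h2 h1
  refine ⟨l, hl, ?_, h3⟩
  have h0 : (x : ZMod l) ≠ 0 := fun h => by
    rw [h, zero_pow (pow_ne_zero _ hp.ne_zero)] at h1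
    exact zero_ne_one h1
  have h4 := Nat.le_of_dvd (by have := hl.two_le; omega) (h3 ▸ ZMod.orderOf_dvd_card_sub_one h0)
  have := Nat.lt_pow_self (n := R + 1 + 1) hp.one_lt
  omega

theorem cover {G : Type*} [CommGroup G] [Finite G] {ι : Type*} (I : Finset ι) (y : ι → G)
    (h : ∀ i ∈ I, I.card < orderOf (y i)) : ∃ ψ : G →* ℂˣ, ∀ i ∈ I, ψ (y i) ≠ 1 := by
  by_contra! hcon
  let H : ι → Subgroup (G →* ℂˣ) := fun i => (MonoidHom.eval (y i) : (G →* ℂˣ) →* ℂˣ).ker
  obtain ⟨i, hi, h1, h2⟩ := Subgroup.exists_index_le_card_of_leftCoset_cover (H := H)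
    (g := fun _ => 1) (s := I) (by
      refine Set.eq_univ_of_forall fun ψ => ?_
      obtain ⟨i, hi, h⟩ := hcon ψ
      simp only [Set.mem_iUnion]
      exact ⟨i, hi, ψ, h, one_mul ψ⟩)
  have h3 : y i ^ (H i).index = 1 := by
    by_contra h3
    obtain ⟨ψ, hψ⟩ := CommGroup.exists_apply_ne_one_of_hasEnoughRootsOfUnity G ℂ h3
    exact hψ (by rw [map_pow]; exact (H i).pow_index_mem ψ)
  have := orderOf_le_of_pow_eq_one (Nat.pos_of_ne_zero h1.index_ne_zero) h3
  have := h i hi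
  omega

open Classical in
/-- the class of `x` in `(ZMod m)ˣ` -/
noncomputable def un (m x : ℕ) : (ZMod m)ˣ := if h : IsUnit (x : ZMod m) then h.unit else 1

theorem un_val {m x : ℕ} (h : IsUnit (x : ZMod m)) : (un m x : ZMod m) = x := by
  rw [un, dif_pos h, h.unit_spec]

theorem exists_char34 (X : Finset ℕ) (hX : ∀ x ∈ X, 2 ≤ x) {N : ℕ} (hN : N ≠ 0) (B : ℕ) :
    ∃ m : ℕ, m ≠ 0 ∧ (∀ l : ℕ, l.Prime → l ∣ m → B < l) ∧
      ∃ ψ : (ZMod m)ˣ →* ℂˣ, ∀ x ∈ X, N ∣ orderOf (ψ (un m x)) := by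
  classical
  set I := X ×ˢ N.primeFactors with hI
  set R := B + X.sup id + I.card with hR
  have h1 : ∀ i : ℕ × ℕ, ∃ l : ℕ, l.Prime ∧ R < l ∧ (i ∈ I →
      orderOf (i.1 : ZMod l) = i.2 ^ (N.factorization i.2 + R + 2)) := fun i => by
    by_cases hi : i ∈ I
    · obtain ⟨l, h1, h2, h3⟩ := exists_prime_ord34 (hX _ (mem_product.1 hi).1)
        (Nat.prime_of_mem_primeFactors (mem_product.1 hi).2) (N.factorization i.2 + R)
      exact ⟨l, h1, by omega, fun _ => h3⟩
    · obtain ⟨l, h1, h2⟩ := Nat.exists_infinite_primes (R + 1)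
      exact ⟨l, h2, h1, fun h => absurd h hi⟩
  choose l hl1 hl2 hl3 using h1
  set m := ∏ i ∈ I, l i with hm
  have hm0 : m ≠ 0 := prod_ne_zero_iff.2 fun i _ => (hl1 i).ne_zero
  have : NeZero m := ⟨hm0⟩
  have hbig : ∀ q : ℕ, q.Prime → q ∣ m → R < q := fun q hq h => by
    obtain ⟨i, -, h⟩ := (hq.prime.dvd_finsetProd_iff _).1 h
    rw [(Nat.prime_dvd_prime_iff_eq hq (hl1 i)).1 h]
    exact hl2 i
  have hu : ∀ x ∈ X, IsUnit (x : ZMod m) := fun x hx => by
    rw [ZMod.isUnit_iff_coprime]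
    refine Nat.coprime_of_dvd fun q hq h h' => ?_
    have h1 := Nat.le_of_dvd (by have := hX x hx; omega) h
    have h2 : x ≤ X.sup id := le_sup (f := id) hx
    have := hbig q hq h'
    omega
  set e := Nat.card (ZMod m)ˣ
  have he : e ≠ 0 := Nat.card_pos.ne'
  obtain ⟨ψ, hψ⟩ := cover I
    (fun i => un m i.1 ^ (ordCompl[i.2] e * i.2 ^ (N.factorization i.2 - 1))) fun i hi => by
    have hp := Nat.prime_of_mem_primeFactors (mem_product.1 hi).2
    generalize hr : orderOf (un m i.1 ^ (ordCompl[i.2] e * i.2 ^ (N.factorization i.2 - 1))) = r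
    have hr0 : 0 < r := hr ▸ orderOf_pos _
    have h2 : un m i.1 ^ (ordCompl[i.2] e * (i.2 ^ (N.factorization i.2 - 1) * r)) = 1 := by
      rw [← mul_assoc, pow_mul, ← hr, pow_orderOf_eq_one]
    have h3 := congrArg (fun u : (ZMod m)ˣ =>
      ZMod.castHom (dvd_prod_of_mem l hi) (ZMod (l i)) (u : ZMod m)) h2
    simp only [Units.val_pow_eq_pow_val, un_val (hu _ (mem_product.1 hi).1), map_pow,
      map_natCast, Units.val_one, map_one] at h3
    have h4 := orderOf_dvd_of_pow_eq_one h3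
    rw [hl3 i hi] at h4
    have h5 := Nat.le_of_dvd (by have := hp.pos; positivity)
      (((Nat.coprime_ordCompl hp he).pow_left _).dvd_of_dvd_mul_left h4)
    have h6 : i.2 ^ (N.factorization i.2 - 1) ≤ i.2 ^ N.factorization i.2 :=
      Nat.pow_le_pow_right hp.pos (Nat.sub_le _ _)
    rw [add_assoc, pow_add] at h5
    have h7 := Nat.le_of_mul_le_mul_left (h5.trans (Nat.mul_le_mul_right r h6))
      (pow_pos hp.pos _)
    have := Nat.lt_pow_self (n := R + 2) hp.one_lt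
    omega
  refine ⟨m, hm0, fun q hq h => by have := hbig q hq h; omega, ψ, fun x hx => ?_⟩
  have ho : orderOf (ψ (un m x)) ∣ e := (orderOf_map_dvd ψ _).trans (orderOf_dvd_natCard _)
  have ho0 : orderOf (ψ (un m x)) ≠ 0 := fun h => he (by rwa [h, zero_dvd_iff] at ho)
  refine (Nat.factorization_le_iff_dvd hN ho0).1 fun p => ?_
  by_contra! hlt
  have hp : p ∈ N.primeFactors := by
    rw [← Nat.support_factorization, Finsupp.mem_support_iff]; omega
  refine hψ (x, p) (mem_product.2 ⟨hx, hp⟩) ?_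
  rw [map_pow, ← orderOf_dvd_iff_pow_eq_one, ← Nat.ordProj_mul_ordCompl_eq_self (orderOf _) p,
    mul_comm]
  exact mul_dvd_mul (Nat.ordCompl_dvd_ordCompl_of_dvd ho p) (pow_dvd_pow _ (by dsimp only; omega))

section cyc

variable {K : Type*} [Field K] [NumberField K]

theorem ev_int34 {m : ℕ} (r : 𝓞 K) (a : Kˣ) (ha : (a : K) = r)
    (hu : IsUnit ((Ideal.absNorm (Ideal.span {r}) : ℕ) : ZMod m)) :
    ((ev (fun w : Pr K => un m (Ideal.absNorm w.asIdeal)) a : (ZMod m)ˣ) : ZMod m) =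
      Ideal.absNorm (Ideal.span {r}) := by
  classical
  have hr : r ≠ 0 := fun h => a.ne_zero (by rw [ha, h]; rfl)
  have hI : Ideal.span {r} ≠ 0 := by simpa using hr
  have hc : ∀ w : Pr K, ord (𝓞 K) w a =
      ((Associates.mk w.asIdeal).count (Associates.mk (Ideal.span {r})).factors : ℕ) := fun w => by
    rw [ord, ha, ← FractionalIdeal.count_coe K w hI, FractionalIdeal.coeIdeal_span_singleton]
  obtain ⟨S, hS⟩ := exists_supp a
  have h1 := Ideal.finprod_heightOneSpectrum_factorization hI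
  rw [finprod_eq_prod_of_mulSupport_subset (s := S) _ fun w hw => mem_coe.2 (hS w fun h => hw (by
    rw [hc, Nat.cast_eq_zero] at h
    simp only [HeightOneSpectrum.maxPowDividing, h, pow_zero]))] at h1
  rw [← h1, map_prod, Nat.cast_prod] at hu ⊢
  rw [ev_eq _ a S hS, Units.coe_prod]
  refine prod_congr rfl fun w hw => ?_
  have h2 := (IsUnit.prod_iff.1 hu) w hw
  rw [HeightOneSpectrum.maxPowDividing, map_pow, Nat.cast_pow] at h2 ⊢
  rw [hc, zpow_natCast, Units.val_pow_eq_pow_val]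
  generalize (Associates.mk w.asIdeal).count (Associates.mk (Ideal.span {r})).factors = c at h2 ⊢
  obtain rfl | hc0 := eq_or_ne c 0
  · simp
  · rw [un_val ((isUnit_pow_iff hc0).1 h2)]

/-- cyclotomic reciprocity -/
theorem cyc_rec [IsTotallyComplex K] {m : ℕ} (hm : m ≠ 0) (β : Kˣ)
    (h : ∀ w : Pr K, (m : 𝓞 K) ∈ w.asIdeal →
      w.valuation K ((β : K) - 1) ≤ w.valuation K (m : K)) :
    ev (fun w : Pr K => un m (Ideal.absNorm w.asIdeal)) β = 1 := by
  obtain rfl | hm1 := eq_or_ne m 1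
  · exact Subsingleton.elim _ _
  have hmK : (m : K) ≠ 0 := Nat.cast_ne_zero.2 hm
  have key : ∀ (r : 𝓞 K), r - 1 ∈ Ideal.span {(m : 𝓞 K)} → ∃ a : Kˣ, (a : K) = r ∧
      ev (fun w : Pr K => un m (Ideal.absNorm w.asIdeal)) a = 1 := fun r hr => by
    have h1 := T27.absNorm_congr_52 m hr
    rw [Ideal.span_singleton_one, Ideal.absNorm_top] at h1
    have h0 : (r : K) ≠ 0 := fun h => by
      have : r = 0 := RingOfIntegers.coe_eq_zero_iff.1 h
      rw [this, Set.singleton_zero, Ideal.span_zero, Ideal.absNorm_bot] at h1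
      exact hm1 (Nat.dvd_one.1 ((Nat.modEq_zero_iff_dvd).1 h1.symm))
    rw [← ZMod.natCast_eq_natCast_iff, Nat.cast_one] at h1
    refine ⟨Units.mk0 _ h0, rfl, Units.ext ?_⟩
    rw [ev_int34 r _ rfl (h1 ▸ isUnit_one), h1, Units.val_one]
  let D : Ideal (𝓞 K) :=
    { carrier := {s | ∃ n : 𝓞 K, ((β : K) - 1) / m * algebraMap _ K s = algebraMap _ K n}
      add_mem' := by
        rintro s s' ⟨n, hn⟩ ⟨n', hn'⟩
        exact ⟨n + n', by rw [map_add, map_add, mul_add, hn, hn']⟩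
      zero_mem' := ⟨0, by simp⟩
      smul_mem' := by
        rintro c s ⟨n, hn⟩
        exact ⟨c * n, by rw [smul_eq_mul, map_mul, map_mul, ← hn]; ring⟩ }
  have hD : D ⊔ Ideal.span {(m : 𝓞 K)} = ⊤ := by
    by_contra hne
    obtain ⟨Q, hQ, hle⟩ := Ideal.exists_le_maximal _ hne
    have hmQ : (m : 𝓞 K) ∈ Q := hle (Ideal.mem_sup_right (Ideal.mem_span_singleton_self _))
    let w : Pr K := ⟨Q, hQ.isPrime, fun h0 => hm (by simpa [h0] using hmQ)⟩
    obtain ⟨n, d, hd⟩ := w.exists_primeCompl_mul_eq_of_integer (((β : K) - 1) / m) (by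
      rw [map_div₀]
      exact div_le_one_of_le₀ (h w hmQ) zero_le)
    exact d.2 (hle (Ideal.mem_sup_left (show (d : 𝓞 K) ∈ D from ⟨n, hd⟩)))
  obtain ⟨s, ⟨n, hn⟩, z, hz, hsz⟩ := Submodule.mem_sup.1 ((Ideal.eq_top_iff_one _).1 hD)
  have hs : s - 1 ∈ Ideal.span {(m : 𝓞 K)} := by
    rw [← hsz, sub_add_cancel_left]; exact neg_mem hz
  obtain ⟨a, ha, h1⟩ := key s hs
  obtain ⟨b, hb, h2⟩ := key (s + m * n) (by
    rw [add_sub_right_comm]
    exact add_mem hs (Ideal.mul_mem_right _ _ (Ideal.mem_span_singleton_self _)))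
  have : b = β * a := Units.ext (by
    rw [Units.val_mul, ha, hb]
    change algebraMap _ K _ = _ * algebraMap _ K _
    rw [map_add, map_mul, map_natCast, ← hn]; field_simp; ring)
  rwa [this, map_mul, h1, mul_one] at h2

end cyc

end Crest.Agent.T15.Art
end

-- ▼ part T15/ArtD_34

/-!
# Row 15, Artin reciprocity: assembly (helper34)
-/

set_option autoImplicit false
set_option linter.unusedSectionVars false

open NumberField IsDedekindDomain Finset Polynomial
open scoped Pointwise IntermediateField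
open Crest.Agent.R018.Selmerx380

namespace Crest.Agent.T15.Art

/-- the fixed field of the kernel of a homomorphism -/
theorem exists_desc {K M : Type} [Field K] [Field M] [Algebra K M] [NumberField K] [NumberField M]
    [IsGalois K M] {C : Type*} [Group C] (Φ : (M ≃ₐ[K] M) →* C) :
    ∃ (E : Type) (_ : Field E) (_ : NumberField E) (_ : Algebra K E) (_ : Algebra E M)
      (_ : IsScalarTower K E M) (_ : IsGalois K E) (Φ' : (E ≃ₐ[K] E) →* C),
      Function.Injective Φ' ∧ (∀ g, Φ' (res E g) = Φ g) ∧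
      ∀ x : M, (∀ g, Φ g = 1 → g x = x) → ∃ y : E, algebraMap E M y = x := by
  let E := IntermediateField.fixedField Φ.ker
  have : IsGalois K E := IsGalois.of_fixedField_normal_subgroup Φ.ker
  have hk : (res E : (M ≃ₐ[K] M) →* _).ker = Φ.ker := by
    rw [IntermediateField.restrictNormalHom_ker, IntermediateField.fixingSubgroup_fixedField]
  have hs : Function.Surjective (res E : (M ≃ₐ[K] M) →* _) :=
    AlgEquiv.restrictNormalHom_surjective M
  have hΦ : ∀ g, MonoidHom.liftOfSurjective _ hs ⟨Φ, hk.le⟩ (res E g) = Φ g := fun g =>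
    MonoidHom.liftOfRightInverse_comp_apply _ _ _ _ g
  refine ⟨E, inferInstance, inferInstance, inferInstance, inferInstance, inferInstance, this,
    _, (injective_iff_map_eq_one _).2 fun σ hσ => ?_, hΦ, fun x hx => ⟨⟨x, ?_⟩, rfl⟩⟩
  · obtain ⟨g, rfl⟩ := hs σ
    rw [hΦ] at hσ
    exact hk.ge hσ
  · exact (IntermediateField.mem_fixedField_iff _ _).2 hx

theorem Fr.desc {K E M : Type*} [Field K] [Field E] [Field M] [Algebra K E] [Algebra E M]
    [Algebra K M] [IsScalarTower K E M] [NumberField K] [NumberField E] [NumberField M]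
    [Normal K E] [IsGalois K M] {w : Pr K} {H : Subgroup (M ≃ₐ[K] M)}
    {H' : Subgroup (E ≃ₐ[K] E)} (hH : ∀ g ∈ H, res E g ∈ H') {g : M ≃ₐ[K] M} (h : Fr w H g) :
    Fr w H' (res E g) := by
  obtain ⟨P, _, _, hf, hi⟩ := h
  refine ⟨P.under (𝓞 E), inferInstance, inferInstance, frob_res hf, fun σ hσ => ?_⟩
  obtain ⟨s, hs, rfl⟩ := inertia_lift P σ hσ
  exact hH s (hi hs)

theorem kappa_val {K M : Type*} [Field K] [Field M] [Algebra K M] [NumberField M] {m : ℕ}
    [NeZero m] {ζ : M} (hζ : IsPrimitiveRoot ζ m) (P : Ideal (𝓞 M)) [hP : P.IsPrime]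
    (hm : (m : 𝓞 M) ∉ P) (g : M ≃ₐ[K] M) (q : ℕ) (h : ∀ x : 𝓞 M, g • x - x ^ q ∈ P) :
    (hζ.autToPow K g : ZMod m) = q := by
  have hz : hζ.toInteger ^ m = 1 := hζ.toInteger_isPrimitiveRoot.pow_eq_one
  have h4 : g • hζ.toInteger = hζ.toInteger ^ q := T27.root_eq_of_sub_mem_79 P (q := m) (a := 1)
    (by rw [← smul_pow', hz, smul_one]) (by rw [pow_right_comm, hz, one_pow]) hm
    ((Ideal.ne_top_iff_one P).1 hP.ne_top) (h _)
  have h5 : g ζ = ζ ^ q := congrArg (fun w : 𝓞 M => (w : M)) h4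
  rw [← hζ.autToPow_spec K g, (hζ.isOfFinOrder (NeZero.ne m)).pow_eq_pow_iff_modEq,
    ← hζ.eq_orderOf, ← ZMod.natCast_eq_natCast_iff, ZMod.natCast_zmod_val] at h5
  exact h5

set_option backward.isDefEq.respectTransparency false in
theorem surj_cyc {L M : Type*} [Field L] [Field M] [Algebra L M] [NumberField L] [NumberField M]
    [IsGalois L M] {m : ℕ} [NeZero m] {ζ : M} (hζ : IsPrimitiveRoot ζ m)
    (hc : m.Coprime (discr L).natAbs) (u : (ZMod m)ˣ) :
    ∃ g : M ≃ₐ[L] M, g ζ = ζ ^ (u : ZMod m).val := by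
  have : IsCyclotomicExtension {m} ℚ ℚ⟮ζ⟯ := hζ.intermediateField_adjoin_isCyclotomicExtension ℚ
  have : IsGalois ℚ ℚ⟮ζ⟯ := IsCyclotomicExtension.isGalois {m} ℚ ℚ⟮ζ⟯
  let L₂ : IntermediateField ℚ M := (IsScalarTower.toAlgHom ℚ L M).fieldRange
  let e : L ≃ₐ[ℚ] L₂ := AlgEquiv.ofInjectiveField (IsScalarTower.toAlgHom ℚ L M)
  let _ : Algebra L L₂ := (e : L →+* L₂).toAlgebra
  have : IsScalarTower L L₂ M := IsScalarTower.of_algebraMap_eq fun _ => rfl
  have : IsGalois L₂ M := IsGalois.tower_top_of_isGalois L L₂ M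
  have hd := linearDisjoint_of_isGalois_isCoprime_discr M ℚ⟮ζ⟯ L₂ (by
    rw [Int.isCoprime_iff_nat_coprime, IsCyclotomicExtension.Rat.natAbs_discr m ℚ⟮ζ⟯,
      ← discr_eq_discr_of_algEquiv L e]
    exact (hc.pow_left _).coprime_div_left
      (Nat.prod_primeFactors_pow_totient_ediv_dvd (NeZero.pos _)))
  obtain ⟨φ, hφ⟩ := IntermediateField.restrictRestrictAlgEquivMapHom_surjective ℚ⟮ζ⟯ L₂
    hd.inf_eq_bot ((IsCyclotomicExtension.Rat.galEquivZMod m ℚ⟮ζ⟯).symm u)
  refine ⟨φ.restrictScalars L, ?_⟩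
  have h1 := IntermediateField.restrictRestrictAlgEquivMapHom_apply ℚ⟮ζ⟯ L₂ φ
    (IntermediateField.AdjoinSimple.gen ℚ ζ)
  rw [hφ, IsCyclotomicExtension.Rat.galEquivZMod_apply_of_pow_eq m ℚ⟮ζ⟯ _
    (Subtype.ext hζ.pow_eq_one), MulEquiv.apply_symm_apply] at h1
  exact h1.symm

theorem exists_cyc (K L : Type) [Field K] [Field L] [Algebra K L] [NumberField K] [NumberField L]
    [IsGalois K L] {m : ℕ} (hm : m ≠ 0) (hc : m.Coprime (discr L).natAbs) :
    ∃ (M : Type) (_ : Field M) (_ : NumberField M) (_ : Algebra K M) (_ : Algebra L M)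
      (_ : IsScalarTower K L M) (_ : IsGalois K M) (κ : (M ≃ₐ[K] M) →* (ZMod m)ˣ),
      (∀ u, ∃ g, res L g = 1 ∧ κ g = u) ∧
      ∀ (P : Ideal (𝓞 M)) [P.IsPrime], (m : 𝓞 M) ∉ P → ∀ (g : M ≃ₐ[K] M) (q : ℕ),
        (∀ x : 𝓞 M, g • x - x ^ q ∈ P) → (κ g : ZMod m) = q := by
  have : NeZero m := ⟨hm⟩
  let M := CyclotomicField m L
  have : FiniteDimensional L M := IsCyclotomicExtension.finiteDimensional {m} L M
  have : NumberField M := NumberField.of_module_finite L M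
  obtain ⟨f, hf0, hf⟩ := IsGalois.is_separable_splitting_field K L
  have : IsSplittingField L M ((X ^ m - 1 : K[X]).map (algebraMap K L)) := by
    simpa using IsCyclotomicExtension.isSplittingField_X_pow_sub_one m L M
  have := IsSplittingField.mul (K := L) M f (X ^ m - 1) hf0.ne_zero (X_pow_sub_C_ne_zero (NeZero.pos m) 1)
  have : Normal K M := Normal.of_isSplittingField (f * (X ^ m - 1))
  have : IsGalois K M := ⟨⟩
  have : IsGalois L M := IsGalois.tower_top_of_isGalois K L M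
  have hζ := IsCyclotomicExtension.zeta_spec m L M
  refine ⟨M, inferInstance, inferInstance, inferInstance, inferInstance, inferInstance,
    inferInstance, hζ.autToPow K, fun u => ?_, fun P _ => kappa_val hζ P⟩
  obtain ⟨g, hg⟩ := surj_cyc (L := L) hζ hc u
  refine ⟨g.restrictScalars K, res_rs g, Units.ext ?_⟩
  have h5 : g.restrictScalars K _ = _ := hg
  rwa [← hζ.autToPow_spec K, (hζ.isOfFinOrder hm).pow_eq_pow_iff_modEq, ← hζ.eq_orderOf,
    ← ZMod.natCast_eq_natCast_iff, ZMod.natCast_zmod_val, ZMod.natCast_zmod_val] at h5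

theorem ev_pow {K : Type*} [Field K] [NumberField K] {A : Type*} [CommGroup A] (z : A)
    (j : Pr K → ℕ) (a : Kˣ) : ev (fun w => z ^ j w) a =
      z ^ (ev (fun w => Multiplicative.ofAdd (j w : ℤ)) a).toAdd := by
  have := map_ev (zpowersHom A z) (fun w => Multiplicative.ofAdd (j w : ℤ)) a
  simpa using this.symm

theorem two_le_norm {K : Type*} [Field K] [NumberField K] (w : Pr K) :
    2 ≤ Ideal.absNorm w.asIdeal := by
  have h0 : Ideal.absNorm w.asIdeal ≠ 0 := Ideal.absNorm_eq_zero_iff.not.2 w.ne_bot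
  have h1 : Ideal.absNorm w.asIdeal ≠ 1 := Ideal.absNorm_eq_one_iff.not.2 w.isPrime.ne_top
  omega

theorem fin_mem {K : Type*} [Field K] [NumberField K] {x : 𝓞 K} (hx : x ≠ 0) :
    ∃ S : Finset (Pr K), ∀ w, w ∈ S ↔ x ∈ w.asIdeal := by
  have h := Ideal.finite_factors (I := Ideal.span {x}) (by simpa using hx)
  exact ⟨h.toFinset, fun w => by simp [Ideal.dvd_span_singleton]⟩

theorem val_nat_le {K : Type*} [Field K] [NumberField K] (w : Pr K) (n : ℕ) :
    w.valuation K (n : K) ≤ 1 := by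
  have := w.valuation_le_one (K := K) (n : 𝓞 K)
  simpa using this

theorem val_nat_ne {K : Type*} [Field K] [NumberField K] (w : Pr K) {n : ℕ} (hn : n ≠ 0) :
    w.valuation K (n : K) ≠ 0 := (Valuation.ne_zero_iff _).2 (Nat.cast_ne_zero.2 hn)

/-- Artin reciprocity, cyclic case -/
theorem artin_cyc (hH : HntStmt) (hU : UnrStmt) (hL : LocStmt) {K L : Type} [Field K] [Field L]
    [Algebra K L] [NumberField K] [NumberField L] [IsGalois K L] [IsTotallyComplex K]
    {s0 : L ≃ₐ[K] L} (hs0 : ∀ g, g ∈ Subgroup.zpowers s0) (T : Finset (Pr K)) (i : Pr K → ℕ)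
    (hT0 : ∀ w ∈ T, i w = 0) (hfr : ∀ w, w ∉ T → Fr w ⊥ (s0 ^ i w)) (a : Kˣ)
    (hT : ∀ w ∈ T, AN L w (orderOf s0) (a : K)) :
    (orderOf s0 : ℤ) ∣ (ev (fun w => Multiplicative.ofAdd (i w : ℤ)) a).toAdd := by
  classical
  set N := orderOf s0 with hN
  have hN0 : N ≠ 0 := (orderOf_pos s0).ne'
  let X := (supp_fin a).toFinset.image fun w : Pr K => Ideal.absNorm w.asIdeal
  have hX : ∀ w, ord (𝓞 K) w a ≠ 0 → Ideal.absNorm w.asIdeal ∈ X := fun w hw =>
    mem_image_of_mem _ (by simpa using hw)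
  obtain ⟨m, hm, hB, ψ, hψ⟩ := exists_char34 X (fun x hx => by
    obtain ⟨w, -, rfl⟩ := mem_image.1 hx
    exact two_le_norm w) hN0 ((discr L).natAbs + X.sup id)
  have : NeZero m := ⟨hm⟩
  have hcop : ∀ x : ℕ, x ≠ 0 → x ≤ (discr L).natAbs + X.sup id → m.Coprime x := fun x h0 hx =>
    Nat.coprime_of_dvd fun q hq h h' => by
      have := hB q hq h
      have := Nat.le_of_dvd (Nat.pos_of_ne_zero h0) h'
      omega
  obtain ⟨M, _, _, _, _, _, _, κ, hκ1, hκ2⟩ := exists_cyc K L hm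
    (hcop _ (Int.natAbs_ne_zero.2 (discr_ne_zero L)) (Nat.le_add_right _ _))
  obtain ⟨E, _, _, _, _, _, _, Φ, hΦ, hΦr, hfix⟩ :=
    exists_desc ((res L : (M ≃ₐ[K] M) →* _).prod (ψ.comp κ))
  replace hΦr : ∀ g, Φ (res E g) = (res L g, ψ (κ g)) := hΦr
  obtain ⟨Tm, hTm⟩ := fin_mem (K := K) (x := (m : 𝓞 K)) (Nat.cast_ne_zero.2 hm)
  have hun : ∀ w ∈ Tm, ord (𝓞 K) w a = 0 := fun w hw => by
    by_contra h0
    have h1 := hcop (Ideal.absNorm w.asIdeal) (by have := two_le_norm w; omega)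
      ((le_sup (f := id) (hX w h0)).trans (Nat.le_add_left _ _))
    obtain ⟨u, v, huv⟩ := (Nat.isCoprime_iff_coprime.2 h1).map (Int.castRingHom (𝓞 K))
    refine w.isPrime.ne_top ((Ideal.eq_top_iff_one _).2 ?_)
    rw [← huv, map_natCast, map_natCast]
    exact add_mem (Ideal.mul_mem_left _ _ ((hTm w).1 hw))
      (Ideal.mul_mem_left _ _ (Ideal.absNorm_mem _))
  -- generators
  have : Finite ψ.range := Finite.of_surjective _ ψ.rangeRestrict_surjective
  obtain ⟨⟨_, u0, rfl⟩, hz⟩ := IsCyclic.exists_generator (α := ψ.range)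
  have hz' : ∀ u, ∃ j : ℕ, ψ u = ψ u0 ^ j := fun u => by
    obtain ⟨j, hj⟩ := (mem_powers_iff_mem_zpowers).2 (hz ⟨ψ u, u, rfl⟩)
    exact ⟨j, (congrArg Subtype.val hj).symm⟩
  obtain ⟨g0, hg0⟩ := AlgEquiv.restrictNormalHom_surjective (F := K) (K₁ := L) M s0
  obtain ⟨g1, hg1, hg1'⟩ := hκ1 (κ g0)⁻¹
  obtain ⟨t', ht1, ht2⟩ := hκ1 u0
  have hs1 : res L (g0 * g1) = s0 := by rw [map_mul, hg1, mul_one, hg0]
  have hs2 : κ (g0 * g1) = 1 := by rw [map_mul, hg1', mul_inv_cancel]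
  generalize g0 * g1 = s' at hs1 hs2
  have hs : Φ (res E s') = (s0, 1) := by rw [hΦr, hs1, hs2, map_one]
  have ht : Φ (res E t') = (1, ψ u0) := by rw [hΦr, ht1, ht2]
  have hst : ∀ i j : ℕ, Φ (res E s' ^ i * res E t' ^ j) = (s0 ^ i, ψ u0 ^ j) := fun i j => by
    rw [map_mul, map_pow, map_pow, hs, ht]; simp
  have hot : ∀ j : ℕ, orderOf (res E t' ^ j) = orderOf (ψ u0 ^ j) := fun j => by
    rw [← orderOf_injective Φ hΦ, map_pow, ht, Prod.pow_mk, Prod.orderOf_mk]; simp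
  choose j0 hj0 using fun w : Pr K => hz' (un m (Ideal.absNorm w.asIdeal))
  have key := core hH hU hL (s := res E s') (t := res E t')
    (hΦ (by rw [map_mul, map_mul, hs, ht]; simp)) (N := N) (n := orderOf (ψ u0))
    (by rw [← orderOf_injective Φ hΦ, hs, Prod.orderOf_mk]; simp [hN])
    (by simpa using hot 1)
    (fun g => by
      obtain ⟨g, rfl⟩ := AlgEquiv.restrictNormalHom_surjective (F := K) (K₁ := E) M g
      obtain ⟨i, hi⟩ := (mem_powers_iff_mem_zpowers).2 (hs0 (res L g))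
      obtain ⟨j, hj⟩ := hz' (κ g)
      exact ⟨i, j, hΦ (by rw [hst, hΦr, hj, ← hi])⟩)
    (fun i j h => by
      have h1 := hst i j
      rw [h, map_one, eq_comm, Prod.mk_eq_one] at h1
      exact ⟨hΦ (by rw [map_pow, hs, map_one, Prod.pow_mk, h1.1, one_pow]; rfl),
        hΦ (by rw [map_pow, ht, map_one, Prod.pow_mk, h1.2, one_pow]; rfl)⟩)
    (T ∪ Tm) (fun w => if w ∈ T ∪ Tm then 0 else i w) (fun w => if w ∈ T ∪ Tm then 0 else j0 w)
    (fun w hw => by simp only [if_pos hw, and_self])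
    (fun w hw => by
      simp only [if_neg hw]
      rw [mem_union, not_or] at hw
      obtain ⟨Q, _, _, hf, hi⟩ := hfr w hw.1
      have : Q.IsMaximal := Ideal.IsPrime.isMaximal inferInstance (ne_bot_over w Q)
      obtain ⟨⟨P, _, _⟩⟩ := (inferInstance : Nonempty (Q.primesOver (𝓞 M)))
      have : P.LiesOver w.asIdeal := Ideal.LiesOver.trans P Q _
      have hmP : (m : 𝓞 M) ∉ P := fun h => hw.2 ((hTm w).2 (by
        rw [Ideal.mem_of_liesOver P w.asIdeal, map_natCast]; exact h))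
      obtain ⟨φ, hφ⟩ := exists_frob w P
      have hQ := Ideal.over_def P Q
      have h1 : res L φ = s0 ^ i w :=
        mul_inv_eq_one.1 (Subgroup.mem_bot.1 (hi (frob_div (hQ ▸ frob_res hφ) hf)))
      have h2 := hκ2 P hmP φ _ hφ
      have h3 : κ φ = un m (Ideal.absNorm w.asIdeal) :=
        Units.ext (by rw [un_val (h2 ▸ (κ φ).isUnit), h2])
      rw [← hΦ (show Φ (res E φ) = Φ (res E s' ^ i w * res E t' ^ j0 w) by
        rw [hst, hΦr, h1, h3, hj0])]
      refine Fr.desc (H := (res E : (M ≃ₐ[K] M) →* _).ker) (fun g hg => hg)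
        ⟨P, inferInstance, inferInstance, hφ, fun g hg => hΦ ?_⟩
      have h4 : res L g = 1 := Subgroup.mem_bot.1 (hi (hQ ▸ inertia_res hg))
      have h5 : κ g = 1 := Units.ext (by
        simpa using hκ2 P hmP g 1 fun x => by rw [pow_one]; exact hg x)
      rw [hΦr, h4, h5, map_one, map_one]; rfl)
    a
    (fun w hw => by
      obtain ⟨g, hg0, hg⟩ : AN L w N (a : K) := by
        by_cases h : w ∈ T
        · exact hT w h
        · obtain ⟨Q, _, _, -, hi⟩ := hfr w h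
          exact hU K L w Q a a.ne_zero (Or.inl ⟨le_bot_iff.1 hi, (ord_eq_zero_iff w a).1
            (hun w ((mem_union.1 hw).resolve_left h))⟩) _ (pow_ne_zero _ (val_nat_ne w hN0))
      obtain ⟨y, hy⟩ := hfix (algebraMap L M g) fun u hu => by
        rw [← res_comm, show res L u = 1 from congrArg Prod.fst hu]; rfl
      refine ⟨y, Algebra.norm K g, fun h => hg0 ?_, (algebraMap E M).injective ?_,
        (algebraMap E M).injective ?_, hg⟩
      · rwa [h, map_zero, eq_comm, map_eq_zero] at hy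
      · rw [res_comm, hy, ← res_comm, ht1]; rfl
      · rw [← IsScalarTower.algebraMap_apply, IsScalarTower.algebraMap_apply K L M, norm_cyc hs0,
          map_prod, map_prod]
        exact prod_congr rfl fun k _ => by
          rw [← map_pow, res_comm, hy, ← res_comm, map_pow, hs1])
    (fun w hw h0 => by
      simp only [if_neg hw]
      rw [hot, ← hj0]
      exact hψ _ (hX w h0))
    (∏ w ∈ T ∪ Tm, w.valuation K (m : K)) (prod_ne_zero_iff.2 fun w _ => val_nat_ne w hm)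
    (fun β hβ => by
      have hle : ∀ w ∈ T ∪ Tm, w.valuation K ((β : K) - 1) < w.valuation K (m : K) :=
        fun w hw => (hβ w hw).trans_le (by
          rw [← mul_prod_erase _ _ hw]
          exact mul_le_of_le_one_right' (prod_le_one' fun w _ => val_nat_le w m))
      have h1 := congrArg ψ (cyc_rec hm β fun w hw => (hle w (mem_union_right _ ((hTm w).2 hw))).le)
      rw [map_ev, map_one, ev_congr (g := fun w => ψ u0 ^ if w ∈ T ∪ Tm then 0 else j0 w)
        fun w hw => ?_, ev_pow] at h1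
      · exact orderOf_dvd_iff_zpow_eq_one.2 h1
      · rw [if_neg fun h => hw ((ord_eq_zero_iff w β).2 ?_), hj0]
        have := (w.valuation K).map_one_add_of_lt ((hle w h).trans_le (val_nat_le w m))
        rwa [add_sub_cancel] at this)
  rwa [ev_congr (g := fun w => Multiplicative.ofAdd (i w : ℤ)) fun w hw => ?_] at key
  by_cases h : w ∈ T ∪ Tm
  · rw [if_pos h, hT0 w ((mem_union.1 h).resolve_right fun h' => hw (hun w h'))]
  · rw [if_neg h]

/-- **Artin reciprocity** from the three leaves -/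
theorem artin_of (hH : HntStmt) (hU : UnrStmt) (hL : LocStmt) : ArtStmt := by
  intro K L _ _ _ _ _ _ _ A _ χ N hN hχ T f hf1 hf2 a ha
  classical
  have hmem : ∀ w, f w ∈ χ.range := fun w => by
    by_cases h : w ∈ T
    · rw [hf1 w h]; exact one_mem _
    · obtain ⟨g, -, hg⟩ := hf2 w h
      exact ⟨g, hg.symm⟩
  have : Finite χ.range := Finite.of_surjective _ χ.rangeRestrict_surjective
  suffices h : ev (fun w => (⟨f w, hmem w⟩ : χ.range)) a = 1 by
    simpa [map_ev] using congrArg χ.range.subtype h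
  by_contra hne
  obtain ⟨l, hl⟩ := CommGroup.exists_apply_ne_one_of_hasEnoughRootsOfUnity χ.range ℂ hne
  obtain ⟨E, _, _, _, _, _, _, Φ, hΦ, hΦr, -⟩ := exists_desc (l.comp χ.rangeRestrict)
  have : IsCyclic (E ≃ₐ[K] E) := isCyclic_of_injective_ringHom ((Units.coeHom ℂ).comp Φ)
    (Units.val_injective.comp hΦ)
  obtain ⟨s, hs⟩ := IsCyclic.exists_generator (α := E ≃ₐ[K] E)
  have h1 : ∀ w, ∃ i : ℕ, (w ∈ T → i = 0) ∧ (w ∉ T → Fr w ⊥ (s ^ i)) ∧
      l ⟨f w, hmem w⟩ = Φ s ^ i := fun w => by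
    by_cases h : w ∈ T
    · refine ⟨0, fun _ => rfl, fun h' => absurd h h', ?_⟩
      rw [pow_zero, ← map_one l]
      exact congrArg l (Subtype.ext (hf1 w h))
    · obtain ⟨g, hg, hg'⟩ := hf2 w h
      obtain ⟨i, hi⟩ := (mem_powers_iff_mem_zpowers).2 (hs (res E g))
      replace hi : s ^ i = res E g := hi
      refine ⟨i, fun h' => absurd h' h, fun _ => hi ▸ hg.desc fun u hu => hΦ ?_, ?_⟩
      · rw [hΦr, map_one, MonoidHom.comp_apply, ← map_one l]
        exact congrArg l (Subtype.ext hu)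
      · rw [← map_pow, hi, hΦr]
        exact congrArg l (Subtype.ext hg')
  choose i hi1 hi2 hi3 using h1
  have hd : orderOf s ∣ N := by
    obtain ⟨g, rfl⟩ := AlgEquiv.restrictNormalHom_surjective (F := K) (K₁ := E) L s
    refine orderOf_dvd_of_pow_eq_one (hΦ ?_)
    rw [map_pow, hΦr, map_one, MonoidHom.comp_apply, ← map_pow, ← map_one l]
    exact congrArg l (Subtype.ext (hχ g))
  have key := artin_cyc hH hU hL hs T i hi1 hi2 a fun w hw => by
    obtain ⟨g, hg0, hg⟩ := ha w hw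
    obtain ⟨k, rfl⟩ := hd
    refine ⟨Algebra.norm E g, Algebra.norm_ne_zero_iff.2 hg0, ?_⟩
    rw [Algebra.norm_norm]
    refine hg.trans_le (pow_le_pow_left₀ zero_le ?_ 2)
    rw [Nat.cast_mul, map_mul]
    exact mul_le_of_le_one_right' (val_nat_le w k)
  refine hl ?_
  rw [map_ev, ev_congr (g := fun w => Φ s ^ i w) fun w _ => hi3 w, ev_pow, ← map_zpow,
    orderOf_dvd_iff_zpow_eq_one.1 key, map_one]

end Crest.Agent.T15.Art
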