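import Crest.Agent.T24.Abhn_13
import Crest.Agent.T24.HsmA_23
import Crest.Agent.T24.LocA_59

/-!
# Row 15 (helper73): the Hasse norm theorem for cyclic extensions, from ABHN
-/

set_option autoImplicit false

noncomputable section

namespace Crest.Agent.T15.Hnt

open Finset Module NumberField IsDedekindDomain

section root
variable {F : Type*} [NormedField F] [IsUltrametricDist F]

theorem binom_le {a d : F} (ha : ‖a‖ ≤ 1) (hd : ‖d‖ ≤ 1) (n : ℕ) :
    ‖(a + d) ^ (n + 1) - a ^ (n + 1) - ((n + 1 : ℕ) : F) * a ^ n * d‖ ≤ ‖d‖ ^ 2 := by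
  induction n with
  | zero => simp
  | succ n ih =>
    have h : (a + d) ^ (n + 1 + 1) - a ^ (n + 1 + 1) - ((n + 1 + 1 : ℕ) : F) * a ^ (n + 1) * d =
        (a + d) * ((a + d) ^ (n + 1) - a ^ (n + 1) - ((n + 1 : ℕ) : F) * a ^ n * d) +
          ((n + 1 : ℕ) : F) * a ^ n * d ^ 2 := by
      push_cast; ring
    rw [h]
    refine (IsUltrametricDist.norm_add_le_max _ _).trans (max_le ?_ ?_)
    · rw [norm_mul]
      exact (mul_le_of_le_one_left (norm_nonneg _)
        ((IsUltrametricDist.norm_add_le_max _ _).trans (max_le ha hd))).trans ih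
    · rw [norm_mul, norm_mul, norm_pow, norm_pow]
      exact mul_le_of_le_one_left (by positivity) (mul_le_one₀
        (IsUltrametricDist.norm_natCast_le_one F _) (by positivity) (pow_le_one₀ (norm_nonneg _) ha))

/-- elements close to `1` are `N`-th powers -/
theorem exists_root [ProperSpace F] {N : ℕ} {x : F} (h : ‖x - 1‖ < ‖(N : F)‖ ^ 2) :
    ∃ y : F, ‖y‖ = 1 ∧ y ^ N = x := by
  obtain _ | n := N
  · simp at h; exact absurd h (not_lt.2 (norm_nonneg _))
  obtain ⟨y, hy, hm⟩ := (isCompact_sphere (0 : F) 1).exists_isMinOn ⟨1, by simp⟩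
    (f := fun y => ‖x - y ^ (n + 1)‖) (by fun_prop)
  rw [mem_sphere_zero_iff_norm] at hy
  refine ⟨y, hy, ?_⟩
  by_contra hne
  have h0 : 0 < ‖x - y ^ (n + 1)‖ := norm_pos_iff.2 (sub_ne_zero.2 (Ne.symm hne))
  have h1 : ‖x - y ^ (n + 1)‖ < ‖((n + 1 : ℕ) : F)‖ ^ 2 :=
    lt_of_le_of_lt (by simpa using hm (show (1 : F) ∈ Metric.sphere 0 1 by simp)) h
  have hN := IsUltrametricDist.norm_natCast_le_one F (n + 1)
  have hN0 : 0 < ‖((n + 1 : ℕ) : F)‖ := by
    by_contra h'
    rw [le_antisymm (not_lt.1 h') (norm_nonneg _)] at h1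
    nlinarith
  have hy0 : y ≠ 0 := by rintro rfl; simp at hy
  have hN1 : ((n + 1 : ℕ) : F) ≠ 0 := norm_pos_iff.1 hN0
  set d := (x - y ^ (n + 1)) / (((n + 1 : ℕ) : F) * y ^ n) with hd
  have hdn : ‖d‖ = ‖x - y ^ (n + 1)‖ / ‖((n + 1 : ℕ) : F)‖ := by
    rw [hd, norm_div, norm_mul, norm_pow, hy, one_pow, mul_one]
  have hd1 : ‖d‖ < 1 := by
    rw [hdn, div_lt_one hN0]; nlinarith
  have h2 : ‖y + d‖ = 1 := by
    rw [IsUltrametricDist.norm_add_eq_max_of_norm_ne_norm (by rw [hy]; exact hd1.ne'), hy,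
      max_eq_left hd1.le]
  have h3 := hm (show y + d ∈ Metric.sphere 0 1 by simpa using h2)
  have h4 := binom_le hy.le hd1.le n
  have h5 : (y + d) ^ (n + 1) - y ^ (n + 1) - ((n + 1 : ℕ) : F) * y ^ n * d =
      -(x - (y + d) ^ (n + 1)) := by
    rw [hd]; field_simp; ring
  rw [h5, norm_neg, hdn, div_pow, le_div_iff₀ (by positivity)] at h4
  simp only [Set.mem_ofPred_eq] at h3
  nlinarith

end root

/-- an element of a number field close to `1` is an `N`-th power in the completion -/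
theorem exists_root_adic {K : Type*} [Field K] [NumberField K] (w : HeightOneSpectrum (𝓞 K))
    {N : ℕ} {x : K} (h : w.valuation K (x - 1) < w.valuation K (N : K) ^ 2) :
    ∃ y : w.adicCompletion K, y ^ N = algebraMap K _ x := by
  have := T24.Loc.proper_adic K w
  refine (exists_root ?_).imp fun _ h => h.2
  rw [← norm_pow, Valued.toNormedField.norm_lt_iff, ← map_one (algebraMap K (w.adicCompletion K)),
    ← map_sub, ← map_natCast (algebraMap K (w.adicCompletion K)), ← map_pow]
  rw [← map_pow, ← w.valuedAdicCompletion_eq_valuation', ← w.valuedAdicCompletion_eq_valuation'] at h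
  exact h

section cyc
variable {F E : Type*} [Field F] [Field E] [Algebra F E] (s : E ≃ₐ[F] E) (n : ℕ) (a : F)
variable {B : Type*} [Ring B]

/-- the relations of the cyclic algebra -/
structure Rel (φ : E →+* B) (U : B) : Prop where
  comm : ∀ x, U * φ x = φ (s x) * U
  pow : U ^ (n + 1) = φ (algebraMap F E a)

/-- `∑ v_i U^i` -/
def lam (φ : E →+* B) (U : B) (v : Fin (n + 1) → E) : B := ∑ i, φ (v i) * U ^ (i : ℕ)

/-- left multiplication by `U` in coordinates -/
def sh (v : Fin (n + 1) → E) : Fin (n + 1) → E :=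
  Fin.cons (algebraMap F E a * s (v (Fin.last n))) fun i => s (v i.castSucc)

/-- multiplication in coordinates -/
def cmul (v v' : Fin (n + 1) → E) : Fin (n + 1) → E := ∑ i, v i • (sh s n a)^[i] v'

variable {s n a} {φ : E →+* B} {U : B}

theorem Rel.map (h : Rel s n a φ U) {B' : Type*} [Ring B'] (f : B →+* B') :
    Rel s n a (f.comp φ) (f U) :=
  ⟨fun x => by simp only [RingHom.comp_apply, ← map_mul, h.comm],
    by rw [← map_pow, h.pow, RingHom.comp_apply]⟩

theorem map_lam {B' : Type*} [Ring B'] (f : B →+* B') (v : Fin (n + 1) → E) :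
    f (lam n φ U v) = lam n (f.comp φ) (f U) v := by
  simp [lam]

theorem Rel.pow_comm (h : Rel s n a φ U) (i : ℕ) (x : E) :
    U ^ i * φ x = φ ((s ^ i) x) * U ^ i := by
  induction i with
  | zero => simp
  | succ i ih => rw [pow_succ', mul_assoc, ih, ← mul_assoc, h.comm, pow_succ' s, mul_assoc]; rfl

theorem lam_add (v v' : Fin (n + 1) → E) : lam n φ U (v + v') = lam n φ U v + lam n φ U v' := by
  simp [lam, add_mul, sum_add_distrib]

theorem lam_zero : lam n φ U 0 = 0 := by simp [lam]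

theorem lam_smul (x : E) (v : Fin (n + 1) → E) : lam n φ U (x • v) = φ x * lam n φ U v := by
  simp [lam, mul_sum, mul_assoc]

theorem lam_single (i : Fin (n + 1)) (x : E) : lam n φ U (Pi.single i x) = φ x * U ^ (i : ℕ) := by
  rw [lam, sum_eq_single i (fun j _ hj => by simp [hj]) (by simp)]; simp

theorem Rel.lam_sh (h : Rel s n a φ U) (v : Fin (n + 1) → E) :
    lam n φ U (sh s n a v) = U * lam n φ U v := by
  rw [lam, lam, Fin.sum_univ_succ, Fin.sum_univ_castSucc, mul_add, mul_sum, add_comm]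
  congr 1
  · exact sum_congr rfl fun i _ => by
      simp only [sh, Fin.cons_succ, Fin.val_succ, Fin.val_castSucc]
      rw [← mul_assoc, h.comm, pow_succ', mul_assoc]
  · simp only [sh, Fin.cons_zero, Fin.val_zero, pow_zero, mul_one, Fin.val_last]
    rw [← mul_assoc, h.comm, mul_assoc, ← pow_succ', h.pow, ← map_mul, mul_comm]

theorem Rel.lam_cmul (h : Rel s n a φ U) (v v' : Fin (n + 1) → E) :
    lam n φ U (cmul s n a v v') = lam n φ U v * lam n φ U v' := by
  have h1 : ∀ i : ℕ, lam n φ U ((sh s n a)^[i] v') = U ^ i * lam n φ U v' := fun i => by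
    induction i with
    | zero => simp
    | succ i ih => rw [Function.iterate_succ_apply', h.lam_sh, ih, pow_succ', mul_assoc]
  let f : (Fin (n + 1) → E) →+ B := ⟨⟨lam n φ U, lam_zero⟩, lam_add⟩
  have := map_sum f (fun i : Fin (n + 1) => v i • (sh s n a)^[i] v') univ
  refine this.trans ?_
  rw [lam, sum_mul]
  exact sum_congr rfl fun i _ => by
    rw [mul_assoc, ← h1]; exact lam_smul _ _

theorem Rel.lam_inj [Nontrivial B] (h : Rel s n a φ U) (ha : a ≠ 0) {θ : E}
    (hθ : Function.Injective fun i : Fin (n + 1) => (s ^ (i : ℕ)) θ) {v : Fin (n + 1) → E}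
    (hv : lam n φ U v = 0) : v = 0 := by
  let _ : Module E B := Module.compHom B φ
  let f : End E B :=
    { toFun := fun x => x * φ θ
      map_add' := fun x y => add_mul _ _ _
      map_smul' := fun c x => mul_assoc (φ c) x _ }
  have hU : IsUnit U := by
    rw [← isUnit_pow_succ_iff (n := n), h.pow]
    exact (IsUnit.mk0 _ ((map_ne_zero _).2 ha)).map φ
  have := End.eigenvectors_linearIndependent' f _ hθ (fun i => U ^ (i : ℕ)) fun i =>
    ⟨End.mem_eigenspace_iff.2 (h.pow_comm i θ), (hU.pow _).ne_zero⟩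
  exact funext (Fintype.linearIndependent_iff.1 this v hv)

section alg
variable [Algebra F B] {φ : E →ₐ[F] B}

variable (n φ U) in
/-- `lam` as a linear map -/
def lamL : (Fin (n + 1) → E) →ₗ[F] B where
  toFun := lam n (φ : E →+* B) U
  map_add' := lam_add
  map_smul' c v := by
    rw [← algebraMap_smul E c v, lam_smul, RingHom.id_apply, Algebra.smul_def]
    exact congrArg (· * _) (φ.commutes c)

/-- universal property -/
theorem Rel.exists_hom (h : Rel s n a (φ : E →+* B) U) (hb : Function.Bijective (lamL n U φ))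
    {B' : Type*} [Ring B'] [Algebra F B'] {φ' : E →ₐ[F] B'} {U' : B'}
    (h' : Rel s n a (φ' : E →+* B') U') : Nonempty (B →ₐ[F] B') := by
  let e := LinearEquiv.ofBijective _ hb
  refine ⟨AlgHom.ofLinearMap (lamL n U' φ' ∘ₗ e.symm.toLinearMap) ?_ fun x y => ?_⟩
  · have : e.symm 1 = Pi.single 0 1 := e.symm_apply_eq.2 (by
      change _ = lam n _ U _; rw [lam_single]; simp)
    change lam n _ U' (e.symm 1) = 1
    rw [this, lam_single]; simp
  · obtain ⟨v, rfl⟩ := e.surjective x
    obtain ⟨v', rfl⟩ := e.surjective y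
    have : e v * e v' = e (cmul s n a v v') := (h.lam_cmul v v').symm
    rw [this]
    simp only [LinearMap.comp_apply, LinearEquiv.coe_coe, LinearEquiv.symm_apply_apply]
    exact h'.lam_cmul v v'

theorem Rel.simple [Nontrivial B] (h : Rel s n a (φ : E →+* B) U) (ha : a ≠ 0) {θ : E}
    (hθ : Function.Injective fun i : Fin (n + 1) => (s ^ (i : ℕ)) θ)
    (hb : Function.Surjective (lamL n U φ)) : IsSimpleRing B := by
  refine IsSimpleRing.of_eq_bot_or_eq_top fun I => or_iff_not_imp_right.2 fun hI => ?_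
  have : Nontrivial I.ringCon.Quotient := ⟨I.ringCon.mk' 1, I.ringCon.mk' 0, fun h =>
    hI (I.one_mem_iff.1 ((RingCon.eq _).1 h))⟩
  refine eq_bot_iff.2 fun x hx => ?_
  obtain ⟨v, rfl⟩ := hb x
  have h1 : I.ringCon.mk' (lam n (φ : E →+* B) U v) = I.ringCon.mk' 0 := (RingCon.eq _).2 hx
  rw [map_lam, map_zero] at h1
  rw [(h.map _).lam_inj ha hθ h1, map_zero]
  exact TwoSidedIdeal.zero_mem _

theorem Rel.central [Nontrivial B] (h : Rel s n a (φ : E →+* B) U) (ha : a ≠ 0) {θ : E}
    (hθ : Function.Injective fun i : Fin (n + 1) => (s ^ (i : ℕ)) θ)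
    (hs : ∀ x, s x = x → ∃ c, algebraMap F E c = x)
    (hb : Function.Surjective (lamL n U φ)) : Algebra.IsCentral F B := by
  refine ⟨fun z hz => ?_⟩
  obtain ⟨v, rfl⟩ := hb z
  rw [Subalgebra.mem_center_iff] at hz
  have h1 : lam n (φ : E →+* B) U (fun i => v i * ((s ^ (i : ℕ)) θ - θ)) = 0 := by
    have := hz (φ θ)
    change (φ : E →+* B) θ * lam n _ U v = lam n _ U v * (φ : E →+* B) θ at this
    rw [← sub_eq_zero.2 this.symm]
    simp only [lam, sum_mul, mul_sum, ← sum_sub_distrib]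
    refine sum_congr rfl fun i _ => ?_
    rw [mul_assoc, h.pow_comm, ← mul_assoc, ← mul_assoc, ← map_mul, ← map_mul, ← sub_mul, ← map_sub]
    congr 2; ring
  have h2 : v = Pi.single 0 (v 0) := funext fun i => by
    by_cases hi : i = 0
    · simp [hi]
    · have := congrFun (h.lam_inj ha hθ h1) i
      rw [Pi.single_eq_of_ne hi]
      exact (mul_eq_zero.1 this).resolve_right fun h' => hi (hθ (by simpa [sub_eq_zero] using h'))
  have h3 : lamL n U φ v = φ (v 0) := by
    change lam n _ U v = _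
    rw [h2, lam_single]; simp
  rw [h3] at hz ⊢
  have hU : IsUnit U := by
    rw [← isUnit_pow_succ_iff (n := n), h.pow]
    exact (IsUnit.mk0 _ ((map_ne_zero _).2 ha)).map _
  obtain ⟨c, hc⟩ := hs (v 0) ((φ : E →+* B).injective
    (hU.mul_right_cancel ((h.comm _).symm.trans (hz U))))
  exact ⟨c, by rw [← hc, φ.commutes]; rfl⟩

/-- the cyclic algebra exists -/
theorem Rel.exists_sub (h : Rel s n a (φ : E →+* B) U) :
    ∃ (A : Subalgebra F B) (ψ : E →ₐ[F] A) (V : A), Rel s n a (ψ : E →+* A) V ∧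
      Function.Surjective (lamL n V ψ) := by
  let A : Subalgebra F B := (LinearMap.range (lamL n U φ)).toSubalgebra
    ⟨Pi.single 0 1, by change lam n _ U _ = _; rw [lam_single]; simp⟩ (by
      rintro _ _ ⟨v, rfl⟩ ⟨v', rfl⟩
      exact ⟨_, h.lam_cmul v v'⟩)
  have h1 : ∀ x, φ x ∈ A := fun x => ⟨Pi.single 0 x, by change lam n _ U _ = _; rw [lam_single]; simp⟩
  have h2 : U ∈ A := ⟨sh s n a (Pi.single 0 1), by
    change lam n _ U _ = _; rw [h.lam_sh, lam_single]; simp⟩
  refine ⟨A, φ.codRestrict A h1, ⟨U, h2⟩, ⟨fun x => Subtype.ext (h.comm x), Subtype.ext ?_⟩, ?_⟩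
  · exact h.pow
  · rintro ⟨_, v, rfl⟩
    exact ⟨v, Subtype.ext (map_lam (A.val : A →+* B) v)⟩

end alg

theorem twist_pow (g : E) (k : ℕ) (x : E) :
    ((LinearMap.mulLeft F g ∘ₗ s.toLinearMap) ^ k) x = (∏ i ∈ range k, (s ^ i) g) * (s ^ k) x := by
  induction k with
  | zero => simp
  | succ k ih =>
    rw [pow_succ', End.mul_apply, ih, prod_range_succ', pow_succ' s]
    simp only [LinearMap.comp_apply, AlgEquiv.toLinearMap_apply, LinearMap.mulLeft_apply, map_mul,
      map_prod, pow_succ' s, AlgEquiv.mul_apply, pow_zero, AlgEquiv.one_apply]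
    ring

/-- the matrix model over a ring in which `a` is a norm times an `N`-th power -/
theorem exists_rel [FiniteDimensional F E] (hn : finrank F E = n + 1) (hs : s ^ (n + 1) = 1)
    (R : Type*) [CommRing R] [Algebra F R] {g : E} {m : F} {y : R}
    (hm : algebraMap F E m = ∏ i ∈ range (n + 1), (s ^ i) g)
    (hy : y ^ (n + 1) * algebraMap F R m = algebraMap F R a) :
    ∃ (φ : E →ₐ[F] Matrix (Fin (n + 1)) (Fin (n + 1)) R) (U : Matrix (Fin (n + 1)) (Fin (n + 1)) R),
      Rel s n a (φ : E →+* Matrix (Fin (n + 1)) (Fin (n + 1)) R) U := by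
  let ρ : End F E →ₐ[F] Matrix (Fin (n + 1)) (Fin (n + 1)) R :=
    (Algebra.ofId F R).mapMatrix.comp
      (LinearMap.toMatrixAlgEquiv (Module.finBasisOfFinrankEq F E hn)).toAlgHom
  let W : End F E := LinearMap.mulLeft F g ∘ₗ s.toLinearMap
  refine ⟨ρ.comp (Algebra.lmul F E), y • ρ W, fun x => ?_, ?_⟩
  · have : W * Algebra.lmul F E x = Algebra.lmul F E (s x) * W := by
      ext z; simp [W]; ring
    change _ * ρ (Algebra.lmul F E x) = ρ (Algebra.lmul F E (s x)) * _
    rw [smul_mul_assoc, mul_smul_comm, ← map_mul, this, map_mul]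
  · have : W ^ (n + 1) = algebraMap F _ m := by
      ext z
      rw [twist_pow, hs, ← hm, Module.algebraMap_end_apply, Algebra.smul_def]; rfl
    change _ = (ρ.comp (Algebra.lmul F E)) _
    rw [smul_pow, ← map_pow, this, AlgHom.commutes, AlgHom.commutes,
      IsScalarTower.algebraMap_apply F R (Matrix _ _ R), IsScalarTower.algebraMap_apply F R (Matrix _ _ R),
      ← hy, map_mul, Algebra.smul_def]

/-- a split cyclic algebra gives a norm -/
theorem Rel.exists_norm [FiniteDimensional F E] (hn : finrank F E = n + 1)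
    {φ : E →ₐ[F] End F (Fin (n + 1) → F)} {U : End F (Fin (n + 1) → F)}
    (h : Rel s n a (φ : E →+* _) U) : ∃ c : E, ∏ i ∈ range (n + 1), (s ^ i) c = algebraMap F E a := by
  let e : Fin (n + 1) → F := 1
  let f : E →ₗ[F] Fin (n + 1) → F := LinearMap.applyₗ e ∘ₗ φ.toLinearMap
  have hf : ∀ x, f x = φ x e := fun _ => rfl
  have hi : Function.Injective f := (injective_iff_map_eq_zero _).2 fun x hx => by
    by_contra h0
    have : φ (x⁻¹ * x) e = 0 := by rw [map_mul, End.mul_apply, ← hf x, hx, map_zero]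
    rw [inv_mul_cancel₀ h0, map_one φ] at this
    exact one_ne_zero (congrFun this 0)
  obtain ⟨c, hc⟩ := (LinearMap.injective_iff_surjective_of_finrank_eq_finrank
    (by simp [hn])).1 hi (U e)
  have h1 : ∀ k : ℕ, (U ^ k) e = f (∏ i ∈ range k, (s ^ i) c) := fun k => by
    induction k with
    | zero => simp [hf]
    | succ k ih =>
      have h2 := h.comm (∏ i ∈ range k, (s ^ i) c)
      change U * φ _ = φ _ * U at h2
      rw [pow_succ', End.mul_apply, ih, hf, ← End.mul_apply, h2, End.mul_apply, ← hc, hf,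
        ← End.mul_apply, ← map_mul, hf, prod_range_succ', map_prod]
      simp only [pow_succ' s, AlgEquiv.mul_apply, pow_zero, AlgEquiv.one_apply]
  exact ⟨c, hi (by rw [← h1, h.pow]; rfl)⟩

end cyc

section gal
variable {F E : Type*} [Field F] [Field E] [Algebra F E] [FiniteDimensional F E] [IsGalois F E]
  {s : E ≃ₐ[F] E}

theorem orderOf_gen (hs : ∀ g, g ∈ Subgroup.zpowers s) : orderOf s = finrank F E := by
  rw [orderOf_eq_card_of_forall_mem_zpowers hs, IsGalois.card_aut_eq_finrank]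

theorem norm_eq (hs : ∀ g, g ∈ Subgroup.zpowers s) (x : E) :
    algebraMap F E (Algebra.norm F x) = ∏ i ∈ range (finrank F E), (s ^ i) x := by
  classical
  rw [Algebra.norm_eq_prod_automorphisms, ← orderOf_gen hs]
  symm
  refine prod_bij (fun i _ => s ^ i) (fun _ _ => mem_univ _)
    (fun i hi j hj h => pow_injOn_Iio_orderOf (mem_range.1 hi) (mem_range.1 hj) h)
    (fun g _ => ?_) fun _ _ => rfl
  obtain ⟨i, hi, rfl⟩ := mem_image.1 (mem_zpowers_iff_mem_range_orderOf.1 (hs g))
  exact ⟨i, hi, rfl⟩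

theorem fixed_gen (hs : ∀ g, g ∈ Subgroup.zpowers s) {x : E} (hx : s x = x) :
    ∃ c, algebraMap F E c = x := by
  refine (IsGalois.mem_range_algebraMap_iff_fixed x).2 fun g => ?_
  exact (Subgroup.zpowers_le.2 (show s ∈ MulAction.stabilizer (E ≃ₐ[F] E) x from hx)) (hs g)

end gal

universe u

/-- **Hasse norm theorem** for a cyclic extension of a totally complex number field -/
theorem hnt {F E : Type u} [Field F] [NumberField F] [IsTotallyComplex F] [Field E] [NumberField E]
    [Algebra F E] [IsGalois F E] [IsCyclic (E ≃ₐ[F] E)] {a : F} (ha : a ≠ 0)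
    (h : ∀ w : HeightOneSpectrum (𝓞 F), ∃ g : E, g ≠ 0 ∧
      w.valuation F (a / Algebra.norm F g - 1) < w.valuation F (finrank F E : F) ^ 2) :
    ∃ c : E, Algebra.norm F c = a := by
  obtain ⟨s, hs⟩ := IsCyclic.exists_generator (α := E ≃ₐ[F] E)
  obtain ⟨n, hn⟩ : ∃ n, finrank F E = n + 1 := Nat.exists_eq_succ_of_ne_zero finrank_pos.ne'
  have hsn : s ^ (n + 1) = 1 := by rw [← hn, ← orderOf_gen hs, pow_orderOf_eq_one]
  obtain ⟨θ, hθ0⟩ := Field.exists_primitive_element F E
  have hθ : Function.Injective fun i : Fin (n + 1) => (s ^ (i : ℕ)) θ := fun i j hij => by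
    have h1 : s ^ (i : ℕ) = s ^ (j : ℕ) := AlgEquiv.coe_toAlgHom_injective
      ((Field.primitive_element_iff_algHom_eq_of_eval' F E
        (fun x => Normal.splits inferInstance x) θ).1 hθ0 hij)
    have h2 := (orderOf_gen hs).trans hn
    exact Fin.ext (pow_injOn_Iio_orderOf (by rw [h2]; exact i.2) (by rw [h2]; exact j.2) h1)
  obtain ⟨y, hy⟩ := IsAlgClosed.exists_pow_nat_eq (algebraMap F (AlgebraicClosure F) a) n.succ_pos
  obtain ⟨φ, U, hU⟩ := exists_rel (a := a) hn hsn (AlgebraicClosure F) (g := 1) (m := 1) (y := y)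
    (by simp) (by simpa using hy)
  obtain ⟨A, ψ, V, hV, hb⟩ := hU.exists_sub
  have := hV.simple ha hθ hb
  have := hV.central ha hθ (fun x => fixed_gen hs) hb
  have hb' : Function.Bijective (lamL n V ψ) :=
    ⟨(injective_iff_map_eq_zero _).2 fun v => hV.lam_inj ha hθ, hb⟩
  have := (LinearEquiv.ofBijective _ hb').finiteDimensional
  have hA : finrank F A = (n + 1) ^ 2 := by
    rw [← (LinearEquiv.ofBijective _ hb').finrank_eq, finrank_pi_fintype]; simp [hn, sq]
  obtain ⟨ρ⟩ := T24.Hsm.spl_iff.1 (T24.Hsm.spl_global T24.Ab.abhnStmt hA (fun w => by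
    obtain ⟨g, hg0, hg⟩ := h w
    obtain ⟨y, hy⟩ := exists_root_adic w hg
    obtain ⟨φ', U', hU'⟩ := exists_rel (a := a) hn hsn (w.adicCompletion F) (y := y)
      (hn ▸ norm_eq hs g) (by
        rw [← hn, hy, ← map_mul, div_mul_cancel₀ _ (Algebra.norm_ne_zero_iff.2 hg0)])
    exact T24.Hsm.spl_iff.2 (hV.exists_hom hb' hU')) fun σ => absurd
      (ComplexEmbedding.isReal_iff.2 (RingHom.ext fun x => Complex.conj_ofReal (σ x)))
      (IsTotallyComplex.complexEmbedding_not_isReal (Complex.ofRealHom.comp σ)))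
  let ρ' := (Matrix.toLinAlgEquiv' (R := F) (n := Fin (n + 1))).toAlgHom.comp ρ
  obtain ⟨c, hc⟩ := Rel.exists_norm (s := s) (a := a) (φ := ρ'.comp ψ) (U := ρ' V) hn
    (hV.map (ρ' : A →+* End F (Fin (n + 1) → F)))
  exact ⟨c, (algebraMap F E).injective (by rw [norm_eq hs, hn, hc])⟩

/-- the Hasse norm theorem as a nullary statement -/
def HntStmt : Prop :=
  ∀ (F E : Type) [Field F] [NumberField F] [IsTotallyComplex F] [Field E] [NumberField E]
    [Algebra F E] [IsGalois F E] [IsCyclic (E ≃ₐ[F] E)] (a : F), a ≠ 0 →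
    (∀ w : HeightOneSpectrum (𝓞 F), ∃ g : E, g ≠ 0 ∧
      w.valuation F (a / Algebra.norm F g - 1) < w.valuation F (finrank F E : F) ^ 2) →
    ∃ c : E, Algebra.norm F c = a


end Crest.Agent.T15.Hnt
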