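import Crest.Agent.T24.AsaA_53
import Crest.Agent.T15.Hnt_73
import Crest.Agent.T15.ArtDef_34
import Crest.Agent.T15.ArtD_34
import Mathlib
import Crest.Agent.R018.SLatB_824
import Crest.Agent.R018.FDE_389
import Crest.Agent.T15.CDef_7
import Crest.Agent.T15.TwC_6
import Crest.Agent.T15.TwD_6

-- ▼ part T15/Loc_73
section

/-!
# Row 15 (helper73): Hilbert 90 in semilocal algebras and the local step of the crossing argument
-/

set_option autoImplicit false

noncomputable section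

namespace Crest.Agent.T15.Hnt

open Finset Module NumberField IsDedekindDomain WithZero Filter Topology
open scoped TensorProduct

section h90
variable {F R : Type*} [Field F] [CommRing R] [Algebra F R]

theorem prod_shift {σ : R ≃ₐ[F] R} (x : R) (k : ℕ) :
    x * σ (∏ i ∈ range k, (σ ^ i) x) = ∏ i ∈ range (k + 1), (σ ^ i) x := by
  rw [prod_range_succ', map_prod, mul_comm]
  simp only [pow_succ' σ, AlgEquiv.mul_apply, pow_zero, AlgEquiv.one_apply]

theorem sum_shift {σ : R ≃ₐ[F] R} {N : ℕ} (hσ : σ ^ N = 1) (x : R) :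
    σ (∑ i ∈ range N, (σ ^ i) x) = ∑ i ∈ range N, (σ ^ i) x := by
  have h1 := (sum_range_succ (fun i => (σ ^ i) x) N).symm.trans (sum_range_succ' _ N)
  simp only [hσ, pow_zero, add_left_inj] at h1
  rw [map_sum, h1]
  simp only [pow_succ' σ, AlgEquiv.mul_apply]

theorem prod_shift' {σ : R ≃ₐ[F] R} {N : ℕ} (hσ : σ ^ N = 1) {x : R} (hx : IsUnit x) :
    ∏ i ∈ range N, (σ ^ i) (σ x) = ∏ i ∈ range N, (σ ^ i) x := by
  have h1 := (prod_range_succ (fun i => (σ ^ i) x) N).symm.trans (prod_range_succ' _ N)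
  simp only [hσ, pow_zero, AlgEquiv.one_apply] at h1
  exact (hx.mul_right_cancel h1).symm

/-- **Hilbert 90** in a semilocal Galois algebra -/
theorem h90 [Infinite F] [Finite (MaximalSpectrum R)] {σ : R ≃ₐ[F] R} {N : ℕ} (hN : 0 < N)
    (hσ : σ ^ N = 1) {θ : R} (hθ : ∀ k, 0 < k → k < N → IsUnit (θ - (σ ^ k) θ)) {x : R}
    (hx : ∏ i ∈ range N, (σ ^ i) x = 1) : ∃ e : R, IsUnit e ∧ x * σ e = e := by
  let E : R →ₗ[F] R := ∑ k ∈ range N, (∏ i ∈ range k, (σ ^ i) x) • (σ ^ k).toLinearMap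
  have hE : ∀ z, E z = ∑ k ∈ range N, (∏ i ∈ range k, (σ ^ i) x) * (σ ^ k) z := fun z => by
    simp [E, LinearMap.sum_apply]
  obtain ⟨z, hz⟩ := Submodule.exists_forall_notMem_of_forall_ne_top
    (fun m : MaximalSpectrum R => (m.asIdeal.restrictScalars F).comap E) fun m hm => by
      have h1 : ∀ P : Polynomial R,
          ∑ k ∈ range N, (∏ i ∈ range k, (σ ^ i) x) * P.eval ((σ ^ k) θ) ∈ m.asIdeal := fun P => by
        induction P using Polynomial.induction_on' with
        | add p q hp hq => simpa [mul_add, sum_add_distrib] using m.asIdeal.add_mem hp hq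
        | monomial j c =>
          have h2 : E (θ ^ j) ∈ m.asIdeal := (hm ▸ Submodule.mem_top : θ ^ j ∈ _)
          convert m.asIdeal.mul_mem_left c h2 using 1
          rw [hE, mul_sum]
          exact sum_congr rfl fun k _ => by rw [Polynomial.eval_monomial, map_pow]; ring
      have h2 := h1 (∏ k ∈ (range N).erase 0, (Polynomial.X - Polynomial.C ((σ ^ k) θ)))
      rw [sum_eq_single 0 (fun k hk h0 => by
        rw [Polynomial.eval_prod, prod_eq_zero (mem_erase.2 ⟨h0, hk⟩) (by simp), mul_zero])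
        (fun h => absurd (mem_range.2 hN) h)] at h2
      refine m.isMaximal.ne_top (m.asIdeal.eq_top_of_isUnit_mem h2 ?_)
      simp only [range_zero, prod_empty, one_mul, Polynomial.eval_prod]
      exact IsUnit.prod_iff.2 fun k hk => by
        simpa using hθ k (Nat.pos_of_ne_zero (mem_erase.1 hk).1) (mem_range.1 (mem_erase.1 hk).2)
  refine ⟨E z, by_contra fun h => ?_, ?_⟩
  · obtain ⟨m, hm, h⟩ := exists_max_ideal_of_mem_nonunits h
    exact hz ⟨m, hm⟩ h
  · have h1 := (sum_range_succ (fun k => (∏ i ∈ range k, (σ ^ i) x) * (σ ^ k) z) N).symm.trans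
      (sum_range_succ' _ N)
    simp only [hσ, hx, pow_zero, range_zero, prod_empty, add_left_inj] at h1
    rw [hE, map_sum, mul_sum, h1]
    exact sum_congr rfl fun k _ => by
      rw [map_mul, ← mul_assoc, prod_shift, pow_succ' σ, AlgEquiv.mul_apply]

/-- the crossing step: if `N_σ c` is the norm of a `τ`-fixed element then `N_τ d` is the norm of a
`σ`-fixed element -/
theorem cross [Infinite F] [Finite (MaximalSpectrum R)] {σ τ : R ≃ₐ[F] R} {N n : ℕ} (hN : 0 < N)
    (hσ : σ ^ N = 1) (hτ : τ ^ n = 1) (hc : Commute σ τ) {θ : R}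
    (hθ : ∀ k, 0 < k → k < N → IsUnit (θ - (σ ^ k) θ)) {c d c₀ : R} (h0 : IsUnit c₀)
    (h1 : τ c₀ = c₀) (h2 : ∏ i ∈ range N, (σ ^ i) c₀ = ∏ i ∈ range N, (σ ^ i) c)
    (h3 : τ c * d = σ d * c) :
    ∃ d', σ d' = d' ∧ ∏ i ∈ range n, (τ ^ i) d' = ∏ i ∈ range n, (τ ^ i) d := by
  obtain ⟨c', hc'⟩ := h0.exists_right_inv
  have h4 : τ c' = c' := by
    have := congrArg τ hc'
    rw [map_mul, h1, map_one] at this
    exact h0.mul_left_cancel (this.trans hc'.symm)
  obtain ⟨e, he, h5⟩ := h90 hN hσ hθ (x := c * c') (by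
    simp only [map_mul, prod_mul_distrib]
    rw [← h2, ← prod_mul_distrib]
    simp only [← map_mul, hc', map_one, prod_const_one])
  obtain ⟨e', he'⟩ := he.exists_right_inv
  have h6 := congrArg τ h5
  have h7 := congrArg σ he'
  have h8 : σ (τ e) = τ (σ e) := AlgEquiv.congr_fun hc.eq e
  rw [map_mul, map_mul, h4] at h6
  rw [map_mul, map_one] at h7
  have h9 : σ e' = c * c' * e' := by linear_combination (-σ e') * he' - e' * σ e' * h5 + c * c' * e' * h7
  refine ⟨d * τ e * e', ?_, ?_⟩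
  · rw [map_mul, map_mul, h8, h9]
    linear_combination (-c' * τ (σ e) * e') * h3 + d * e' * h6
  · simp only [map_mul, prod_mul_distrib]
    rw [prod_shift' hτ he, mul_assoc, ← prod_mul_distrib]
    simp only [← map_mul, he', map_one, prod_const_one, mul_one]

end h90

section field
variable {K Ω : Type*} [Field K] [CharZero K] [Field Ω] [Algebra K Ω] [FiniteDimensional K Ω]

theorem exists_theta (s : Ω ≃ₐ[K] Ω) :
    ∃ θ : Ω, ∀ k, 0 < k → k < orderOf s → θ - (s ^ k) θ ≠ 0 := by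
  obtain ⟨θ, hθ⟩ := Field.exists_primitive_element K Ω
  refine ⟨θ, fun k h0 hk h => pow_ne_one_of_lt_orderOf h0.ne' hk ?_⟩
  refine AlgEquiv.coe_toAlgHom_injective (AlgHom.ext fun x => ?_)
  have hx : x ∈ (AlgHom.equalizer ((s ^ k : Ω ≃ₐ[K] Ω) : Ω →ₐ[K] Ω) (AlgHom.id K Ω)) := by
    have h1 : Algebra.adjoin K {θ} = ⊤ := by
      rw [← IntermediateField.adjoin_simple_toSubalgebra_of_isAlgebraic
        (Algebra.IsAlgebraic.isAlgebraic θ), hθ, IntermediateField.top_toSubalgebra]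
    exact (Algebra.adjoin_le (S := AlgHom.equalizer _ _)
      (Set.singleton_subset_iff.2 (sub_eq_zero.1 h).symm)) (h1 ▸ Algebra.mem_top)
  exact hx


variable (A : Type*) [CommRing A] [Algebra K A]

/-- base change of automorphisms -/
def bc : (Ω ≃ₐ[K] Ω) →* (A ⊗[K] Ω ≃ₐ[A] A ⊗[K] Ω) where
  toFun g := Algebra.TensorProduct.congr AlgEquiv.refl g
  map_one' := AlgEquiv.ext fun x => by
    induction x with
    | zero => simp
    | tmul a x => simp
    | add x y hx hy => rw [map_add, map_add, hx, hy]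
  map_mul' g h := AlgEquiv.ext fun x => by
    induction x with
    | zero => simp
    | tmul a x => simp
    | add x y hx hy => rw [map_add, map_add, hx, hy]

omit [CharZero K] [FiniteDimensional K Ω] in
theorem bc_tmul (g : Ω ≃ₐ[K] Ω) (a : A) (x : Ω) : bc A g (a ⊗ₜ x) = a ⊗ₜ g x := by
  simp [bc]

/-- the polynomial `∑_f μ_f ∏_k r_{f k}` -/
def pol {ι : Type*} [Fintype ι] {n : ℕ} (μ : (Fin n → ι) → K) (r : ι → A) : A :=
  ∑ f : Fin n → ι, (∏ k, r (f k)) * algebraMap K A (μ f)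

variable {A} in
omit [CharZero K] [FiniteDimensional K Ω] [Algebra K Ω] in
theorem lam_prod {ι R : Type*} [Fintype ι] [CommRing R] [Algebra A R] {n : ℕ} (j : Ω →+* R)
    (l : R →ₗ[A] A) (l₀ : Ω → K) (hl : ∀ x, l (j x) = algebraMap K A (l₀ x)) (y : Fin n → ι → Ω)
    (r : ι → A) : l (∏ k, ∑ i, r i • j (y k i)) = pol A (fun f => l₀ (∏ k, y k (f k))) r := by
  classical
  rw [Fintype.prod_sum, map_sum, pol]
  exact sum_congr rfl fun f _ => by rw [prod_smul, map_smul, ← map_prod, hl, smul_eq_mul]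

end field

section loc
variable {K : Type*} [Field K] [NumberField K]

theorem val_alg (w : HeightOneSpectrum (𝓞 K)) (x : K) :
    Valued.v (algebraMap K (w.adicCompletion K) x) = w.valuation K x :=
  w.valuedAdicCompletion_eq_valuation' x

/-- weak approximation, as a sequence -/
theorem exists_seq (T : Finset (HeightOneSpectrum (𝓞 K))) (a : ∀ w : HeightOneSpectrum (𝓞 K),
    w.adicCompletion K) : ∃ x : ℕ → K, ∀ w ∈ T,
      Tendsto (fun m => algebraMap K (w.adicCompletion K) (x m)) atTop (𝓝 (a w)) := by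
  obtain ⟨v, hv⟩ := T24.Asa.exists_notMem T
  choose x hx _ using fun m => T24.Asa.approxC T v hv a m 0 one_pos
  refine ⟨x, fun w hw => ?_⟩
  obtain ⟨p, hp⟩ := w.valuation_surjective K (exp (-1))
  rw [tendsto_iff_norm_sub_tendsto_zero]
  refine squeeze_zero (fun _ => norm_nonneg _) (fun m => ?_)
    (tendsto_pow_atTop_nhds_zero_of_lt_one (norm_nonneg (algebraMap K (w.adicCompletion K) p)) ?_)
  · rw [← norm_pow, Valued.toNormedField.norm_le_iff, map_pow, val_alg, hp, ← exp_nsmul]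
    rw [smul_neg, nsmul_one]
    exact hx m w hw
  · rw [Valued.toNormedField.norm_lt_one_iff, val_alg, hp, ← exp_zero, exp_lt_exp]; omega

/-- a value of a polynomial that is attained locally is attained approximately -/
theorem approx_pol {ι : Type*} [Fintype ι] {n : ℕ} (μ : (Fin n → ι) → K) {b : K} (hb : b ≠ 0)
    (T : Finset (HeightOneSpectrum (𝓞 K)))
    (h : ∀ w ∈ T, ∃ r : ι → w.adicCompletion K, pol _ μ r = algebraMap K _ b) (M : ℕ) :
    ∃ r : ι → K, ∀ w ∈ T, pol K μ r ≠ 0 ∧ w.valuation K (b / pol K μ r - 1) ≤ exp (-(M : ℤ)) := by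
  choose! r hr using h
  choose x hx using fun i => exists_seq T fun w => r w i
  refine ((eventually_all_finset T (l := atTop)).2 fun w hw => ?_).exists.imp'
    (fun m i => x i m) fun m h => h
  have h1 : ∀ y : ι → K, algebraMap K (w.adicCompletion K) (pol K μ y) =
      pol _ μ fun i => algebraMap K _ (y i) := fun y => by simp [pol]
  have h2 : Tendsto (fun m => algebraMap K (w.adicCompletion K) (pol K μ fun i => x i m)) atTop
      (𝓝 (algebraMap K _ b)) := by
    simp only [h1, ← hr w hw]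
    exact tendsto_finsetSum _ fun f _ => (tendsto_finsetProd _ fun k _ => hx _ w hw).mul_const _
  have hb' := (map_ne_zero (algebraMap K (w.adicCompletion K))).2 hb
  obtain ⟨p, hp⟩ := w.valuation_surjective K (exp (-(M : ℤ)))
  have h3 := (((tendsto_const_nhds (x := algebraMap K _ b)).div h2 hb').sub_const 1).norm
  rw [div_self hb', sub_self, norm_zero] at h3
  have h4 : 0 < ‖algebraMap K (w.adicCompletion K) p‖ := norm_pos_iff.2 ((map_ne_zero _).2 (by
    rintro rfl; simp at hp; exact exp_ne_zero hp.symm))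
  filter_upwards [h2.eventually_ne hb', h3.eventually (ge_mem_nhds h4)] with m h5 h6
  refine ⟨fun h => h5 (by rw [h, map_zero]), ?_⟩
  rw [Valued.toNormedField.norm_le_iff, val_alg, hp] at h6
  rw [← val_alg, map_sub, map_div₀, map_one]
  exact h6

variable {Ω : Type*} [Field Ω] [Algebra K Ω] [FiniteDimensional K Ω]

/-- **LOC**: `a = N_s c` an approximate norm of `t`-fixed elements at `T` gives `b = N_t d` an
approximate norm of an `s`-fixed element at `T`. -/
theorem loc {s t : Ω ≃ₐ[K] Ω} (hst : Commute s t) {n : ℕ} (ht : t ^ n = 1)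
    (hG : ∀ x, s x = x → t x = x → ∃ y, algebraMap K Ω y = x) {c d : Ω} {a b : K} (ha : a ≠ 0)
    (hb : b ≠ 0) (hc : ∏ i ∈ range (orderOf s), (s ^ i) c = algebraMap K Ω a)
    (hcd : t c * d = s d * c) (hd : ∏ i ∈ range n, (t ^ i) d = algebraMap K Ω b)
    (T : Finset (HeightOneSpectrum (𝓞 K)))
    (h : ∀ w ∈ T, ∃ (g : Ω) (m : K), m ≠ 0 ∧ t g = g ∧
      ∏ i ∈ range (orderOf s), (s ^ i) g = algebraMap K Ω m ∧
      w.valuation K (a / m - 1) < w.valuation K (orderOf s : K) ^ 2) (M : ℕ) :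
    ∃ (g : Ω) (b' : K), b' ≠ 0 ∧ s g = g ∧ ∏ i ∈ range n, (t ^ i) g = algebraMap K Ω b' ∧
      ∀ w ∈ T, w.valuation K (b / b' - 1) ≤ exp (-(M : ℤ)) := by
  rcases T.eq_empty_or_nonempty with rfl | ⟨w₀, hw₀⟩
  · exact ⟨1, 1, one_ne_zero, map_one _, by simp, by simp⟩
  set N := orderOf s with hN
  have hN0 : 0 < N := orderOf_pos s
  have hs : s ^ N = 1 := pow_orderOf_eq_one s
  let ω := Module.finBasis K Ω
  let η : Fin (finrank K Ω) → Ω := fun i => (N : K)⁻¹ • ∑ k ∈ range N, (s ^ k) (ω i)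
  have hη : ∀ i, s (η i) = η i := fun i => by simp only [η, map_smul, sum_shift hs]
  obtain ⟨l₀, hl₀⟩ := Module.Projective.exists_dual_eq_one K (one_ne_zero : (1 : Ω) ≠ 0)
  have hl₁ : ∀ y, l₀ (algebraMap K Ω y) = y := fun y => by
    rw [Algebra.algebraMap_eq_smul_one, map_smul, hl₀, smul_eq_mul, mul_one]
  obtain ⟨θ, hθ⟩ := exists_theta s
  obtain ⟨r, hr⟩ := approx_pol (fun f : Fin n → _ => l₀ (∏ k : Fin n, (t ^ (k : ℕ)) (η (f k)))) hb T
    (fun w hw => by
      obtain ⟨g, m, hm, htg, hg, hv⟩ := h w hw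
      obtain ⟨y, hy⟩ := exists_root_adic w hv
      let A := w.adicCompletion K
      let j : Ω →ₐ[K] A ⊗[K] Ω := Algebra.TensorProduct.includeRight
      have hj : ∀ g x, bc A g (j x) = j (g x) := fun g x => bc_tmul A g 1 x
      have hy0 : y ≠ 0 := by
        rintro rfl
        rw [zero_pow hN0.ne', eq_comm, map_eq_zero] at hy
        exact div_ne_zero ha hm hy
      have hg0 : g ≠ 0 := by
        rintro rfl
        rw [prod_eq_zero (mem_range.2 hN0) (by simp), eq_comm, map_eq_zero] at hg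
        exact hm hg
      have := IsArtinianRing.of_finite A (A ⊗[K] Ω)
      have := T24.Loc.charZero_adic K w
      obtain ⟨d', h1, h2⟩ := cross (σ := bc A s) (τ := bc A t) (n := n) hN0
        (by rw [← map_pow, hs, map_one]) (by rw [← map_pow, ht, map_one]) (hst.map _) (θ := j θ)
        (fun k h0 hk => by
          rw [← map_pow, hj, ← map_sub]; exact (hθ k h0 hk).isUnit.map j)
        (c := j c) (d := j d) (c₀ := algebraMap A _ y * j g)
        ((hy0.isUnit.map _).mul (hg0.isUnit.map j)) (by rw [map_mul, AlgEquiv.commutes, hj, htg])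
        (by
          simp only [map_mul, AlgEquiv.commutes, ← map_pow (bc A), hj, prod_mul_distrib, prod_const,
            card_range]
          rw [← map_prod, ← map_prod, hg, hc, ← map_pow, hy, AlgHom.commutes, AlgHom.commutes,
            ← IsScalarTower.algebraMap_apply, ← map_mul, div_mul_cancel₀ _ hm])
        (by rw [hj, hj, ← map_mul, ← map_mul, hcd])
      let r := (ω.baseChange A).repr d'
      have h3 : d' = ∑ i, r i • j (ω i) := by
        conv_lhs => rw [← (ω.baseChange A).sum_repr d']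
        exact sum_congr rfl fun i _ => by rw [Basis.baseChange_apply]; rfl
      have h4 : ∀ k : ℕ, (bc A s ^ k) d' = d' := fun k => by
        induction k with
        | zero => rfl
        | succ k ih => rw [pow_succ, AlgEquiv.mul_apply, h1, ih]
      have h5 : d' = ∑ i, r i • j (η i) := by
        have h6 : (N : K)⁻¹ • ∑ k ∈ range N, (bc A s ^ k) d' = d' := by
          simp only [h4, sum_const, card_range]
          rw [← Nat.cast_smul_eq_nsmul K, smul_smul, inv_mul_cancel₀ (Nat.cast_ne_zero.2 hN0.ne'),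
            one_smul]
        conv_lhs => rw [← h6, h3]
        simp only [map_sum, map_smul, ← map_pow, hj, η, smul_sum]
        rw [sum_comm]
        exact sum_congr rfl fun i _ => sum_congr rfl fun k _ => smul_comm _ _ _
      let l : A ⊗[K] Ω →ₗ[A] A := l₀.baseChange A
      have hl : ∀ x, l ((j : Ω →+* _) x) = algebraMap K A (l₀ x) := fun x => by
        simp [l, j, Algebra.algebraMap_eq_smul_one]
      refine ⟨r, (lam_prod (j : Ω →+* _) l l₀ hl
        (fun (k : Fin n) i => (t ^ (k : ℕ)) (η i)) r).symm.trans ?_⟩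
      rw [← hl₁ b, ← hl, ← hd, map_prod (j : Ω →+* A ⊗[K] Ω)]
      simp only [← map_pow (bc A), hj] at h2
      refine congrArg l (Eq.trans ?_ h2)
      rw [← Fin.prod_univ_eq_prod_range]
      refine prod_congr rfl fun k _ => ?_
      conv_rhs => rw [h5]
      simp only [map_sum (bc A _), map_smul, hj]
      rfl) M
  let g := ∑ i, r i • η i
  have hg : s g = g := by simp only [g, map_sum, map_smul, hη]
  have h1 : ∀ k : ℕ, s ((t ^ k) g) = (t ^ k) g := fun k =>
    (AlgEquiv.congr_fun (hst.pow_right k).eq g).trans (by rw [AlgEquiv.mul_apply, hg])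
  have h2 : ∏ i ∈ range n, (t ^ i) g = ∏ k : Fin n, ∑ i, r i • RingHom.id Ω ((t ^ (k : ℕ)) (η i)) := by
    rw [← Fin.prod_univ_eq_prod_range]
    simp only [g, map_sum, map_smul, RingHom.id_apply]
  have h3 := lam_prod (RingHom.id Ω) l₀ l₀ (fun _ => rfl) (fun (k : Fin n) i => (t ^ (k : ℕ)) (η i)) r
  rw [← h2] at h3
  have hg0 : n = 0 ∨ g ≠ 0 := or_iff_not_imp_left.2 fun hn h0 => (hr w₀ hw₀).1 (by
    rw [← h3, prod_eq_zero (mem_range.2 (Nat.pos_of_ne_zero hn)) (by rw [h0, map_zero]), map_zero])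
  obtain ⟨b', hb'⟩ := hG (∏ i ∈ range n, (t ^ i) g) (by simp only [map_prod, h1]) (by
    rcases hg0 with rfl | hg0
    · simp
    rw [map_prod, ← prod_shift' ht hg0.isUnit]
    exact prod_congr rfl fun k _ => AlgEquiv.congr_fun (Commute.self_pow t k).eq g)
  rw [← hb', hl₁] at h3
  exact ⟨g, b', h3 ▸ (hr w₀ hw₀).1, hg, hb'.symm, fun w hw => h3 ▸ (hr w hw).2⟩

end loc

/-- the local step as a nullary statement -/
def LocStmt : Prop :=
  ∀ (K Ω : Type) [Field K] [NumberField K] [Field Ω] [Algebra K Ω] [FiniteDimensional K Ω]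
    (s t : Ω ≃ₐ[K] Ω), Commute s t → ∀ n : ℕ, t ^ n = 1 →
    (∀ x, s x = x → t x = x → ∃ y, algebraMap K Ω y = x) → ∀ (c d : Ω) (a b : K), a ≠ 0 → b ≠ 0 →
    ∏ i ∈ range (orderOf s), (s ^ i) c = algebraMap K Ω a → t c * d = s d * c →
    ∏ i ∈ range n, (t ^ i) d = algebraMap K Ω b → ∀ T : Finset (HeightOneSpectrum (𝓞 K)),
    (∀ w ∈ T, ∃ (g : Ω) (m : K), m ≠ 0 ∧ t g = g ∧
      ∏ i ∈ range (orderOf s), (s ^ i) g = algebraMap K Ω m ∧
      w.valuation K (a / m - 1) < w.valuation K (orderOf s : K) ^ 2) → ∀ M : ℕ,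
    ∃ (g : Ω) (b' : K), b' ≠ 0 ∧ s g = g ∧ ∏ i ∈ range n, (t ^ i) g = algebraMap K Ω b' ∧
      ∀ w ∈ T, w.valuation K (b / b' - 1) ≤ exp (-(M : ℤ))


end Crest.Agent.T15.Hnt
end
end

-- ▼ part T15/Unr_73
section

/-!
# Row 15 (helper73): local norms at unramified primes; the leaves of `ArtDef_34`
-/

set_option autoImplicit false

noncomputable section

namespace Crest.Agent.T15.Hnt

open Finset Module NumberField IsDedekindDomain WithZero
open scoped Pointwise

theorem val_prod_le {E Γ ι : Type*} [CommRing E] [LinearOrderedCommGroupWithZero Γ]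
    (v : Valuation E Γ) (S : Finset ι) (x : ι → E) {δ : Γ} (h1 : δ ≤ 1) (h : ∀ i, v (x i) ≤ δ) :
    v (∏ i ∈ S, (1 + x i) - 1 - ∑ i ∈ S, x i) ≤ δ ^ 2 := by
  classical
  induction S using Finset.induction_on with
  | empty => simp
  | insert i S hi ih =>
    have : ∏ j ∈ insert i S, (1 + x j) - 1 - ∑ j ∈ insert i S, x j =
        (1 + x i) * (∏ i ∈ S, (1 + x i) - 1 - ∑ i ∈ S, x i) + x i * ∑ i ∈ S, x i := by
      rw [prod_insert hi, sum_insert hi]; ring
    rw [this]
    refine v.map_add_le ?_ ?_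
    · rw [map_mul]
      exact (mul_le_mul' (v.map_add_le v.map_one.le ((h i).trans h1)) ih).trans_eq (one_mul _)
    · rw [map_mul, sq]
      exact mul_le_mul' (h i) (v.map_sum_le fun j _ => h j)

variable {F E : Type*} [Field F] [NumberField F] [Field E] [NumberField E] [Algebra F E]

section cmp
variable (w : HeightOneSpectrum (𝓞 F)) (Q : HeightOneSpectrum (𝓞 E)) [Q.asIdeal.LiesOver w.asIdeal]

theorem val_le_iff (x y : F) : Q.valuation E (algebraMap F E x) ≤ Q.valuation E (algebraMap F E y) ↔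
    w.valuation F x ≤ w.valuation F y := by
  rw [← w.valuation_liesOver E Q, ← w.valuation_liesOver E Q, pow_le_pow_iff_left₀ zero_le zero_le
    (Ideal.IsDedekindDomain.ramificationIdx'_ne_zero_of_liesOver Q.asIdeal w.ne_bot)]

theorem val_lt_iff (x y : F) : Q.valuation E (algebraMap F E x) < Q.valuation E (algebraMap F E y) ↔
    w.valuation F x < w.valuation F y := lt_iff_lt_of_le_iff_le (val_le_iff w Q y x)

theorem val_eq_iff (x y : F) : Q.valuation E (algebraMap F E x) = Q.valuation E (algebraMap F E y) ↔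
    w.valuation F x = w.valuation F y := by
  rw [le_antisymm_iff, le_antisymm_iff, val_le_iff w Q, val_le_iff w Q]

end cmp

variable [IsGalois F E]

omit [IsGalois F E] in
theorem exists_sep (P : Ideal (𝓞 E)) [hP : P.IsMaximal] (M : ℕ) (x : 𝓞 E) :
    ∃ γ : 𝓞 E, γ - x ∈ P ^ M ∧
      ∀ g : E ≃ₐ[F] E, g ∉ MulAction.stabilizer (E ≃ₐ[F] E) P → g • γ - 1 ∈ P := by
  classical
  have h : IsCoprime (P ^ M)
      (∏ g ∈ univ.filter (· ∉ MulAction.stabilizer (E ≃ₐ[F] E) P), g⁻¹ • P) :=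
    (IsCoprime.prod_right fun g hg => Ideal.isCoprime_iff_sup_eq.2 (hP.coprime_of_ne
      (Ideal.map_isMaximal_of_equiv (MulSemiringAction.toRingEquiv _ (𝓞 E) g⁻¹)) fun h =>
      (show g ∉ MulAction.stabilizer (E ≃ₐ[F] E) P from (mem_filter.1 hg).2)
        (eq_inv_smul_iff.1 h))).pow_left
  obtain ⟨u, hu, v, hv, huv⟩ := Ideal.isCoprime_iff_exists.1 h
  refine ⟨x * v + u, ?_, fun g hg => ?_⟩
  · rw [show x * v + u - x = (1 - x) * u by linear_combination x * huv]
    exact Ideal.mul_mem_left _ _ hu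
  · rw [← smul_one g, ← smul_sub, ← Ideal.mem_inv_pointwise_smul_iff,
      show x * v + u - 1 = (x - 1) * v by linear_combination huv]
    exact Ideal.mul_mem_left _ _
      (Ideal.le_of_dvd (dvd_prod_of_mem _ (mem_filter.2 ⟨mem_univ g, hg⟩)) hv)

omit [IsGalois F E] in
theorem exists_trace (P : Ideal (𝓞 E)) [hP : P.IsPrime] (h : P.inertia (E ≃ₐ[F] E) = ⊥) :
    ∃ θ : 𝓞 E, ∑ g : E ≃ₐ[F] E, g • θ ∉ P := by
  by_contra! hθ
  let χ : (E ≃ₐ[F] E) → (𝓞 E →* 𝓞 E ⧸ P) := fun g =>
    ((Ideal.Quotient.mk P).comp (MulSemiringAction.toRingHom _ (𝓞 E) g) : 𝓞 E →+* 𝓞 E ⧸ P)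
  have hχ : Function.Injective χ := fun g g' hg => by
    rw [← mul_inv_eq_one, ← Subgroup.mem_bot, ← h]
    intro x
    have := Ideal.Quotient.eq.1 (DFunLike.congr_fun hg (g'⁻¹ • x))
    simpa [mul_smul] using this
  have := Fintype.linearIndependent_iff.1 ((linearIndependent_monoidHom (𝓞 E) (𝓞 E ⧸ P)).comp χ hχ)
    (fun _ => 1) (funext fun θ => by
      simpa [χ] using Ideal.Quotient.eq_zero_iff_mem.2 (hθ θ)) 1
  exact one_ne_zero this

theorem norm_coe (γ : 𝓞 E) :
    algebraMap F E (Algebra.norm F (γ : E)) = ((∏ g : E ≃ₐ[F] E, g • γ : 𝓞 E) : E) := by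
  rw [Algebra.norm_eq_prod_automorphisms]
  exact (map_prod (algebraMap (𝓞 E) E) (fun g : E ≃ₐ[F] E => g • γ) univ).symm

variable (w : HeightOneSpectrum (𝓞 F)) (Q : HeightOneSpectrum (𝓞 E)) [Q.asIdeal.LiesOver w.asIdeal]

theorem step (h : Q.asIdeal.inertia (E ≃ₐ[F] E) = ⊥) {a : F} (ha : w.valuation F (a - 1) < 1) :
    ∃ g : E, g ≠ 0 ∧ w.valuation F (a / Algebra.norm F g - 1) ≤ w.valuation F (a - 1) ^ 2 := by
  obtain ⟨θ, hθ⟩ := exists_trace Q.asIdeal h
  have h1 : Q.valuation E (∑ g : E ≃ₐ[F] E, g (θ : E)) = 1 := by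
    have := (Q.valuation_eq_one_iff_notMem (K := E)).2 hθ
    rwa [map_sum] at this
  have h2 := trace_eq_sum_automorphisms (K := F) (θ : E)
  have h3 : algebraMap F E (Algebra.trace F E θ) ≠ 0 := by
    rw [h2]; intro h0; rw [h0, map_zero] at h1; exact zero_ne_one h1
  let c := algebraMap F E ((a - 1) / Algebra.trace F E θ)
  have hc : c = algebraMap F E (a - 1) / algebraMap F E (Algebra.trace F E θ) := map_div₀ _ _ _
  have h4 := val_prod_le (Q.valuation E) univ (fun g : E ≃ₐ[F] E => c * g θ)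
    (δ := Q.valuation E (algebraMap F E (a - 1)))
    (by simpa using (val_le_iff w Q (a - 1) 1).2 (by simpa using ha.le)) fun g => by
      rw [map_mul, hc, map_div₀, h2, h1, div_one]
      exact mul_le_of_le_one_right' (Q.valuation_le_one (g • θ))
  have h5 : ∏ g : E ≃ₐ[F] E, (1 + c * g θ) - 1 - ∑ g : E ≃ₐ[F] E, c * g θ =
      algebraMap F E (Algebra.norm F (1 + c * θ) - a) := by
    rw [map_sub, Algebra.norm_eq_prod_automorphisms, ← mul_sum, ← h2,
      show c * algebraMap F E (Algebra.trace F E θ) = _ from hc ▸ div_mul_cancel₀ _ h3]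
    simp [c]
  rw [h5, ← map_pow, ← map_pow, val_le_iff w Q, map_pow] at h4
  have h6 : w.valuation F (Algebra.norm F (1 + c * θ)) = 1 := by
    have : Algebra.norm F (1 + c * θ) = 1 + (a - 1 + (Algebra.norm F (1 + c * θ) - a)) := by ring
    rw [this]
    exact Valuation.map_one_add_of_lt _ (Valuation.map_add_lt _ ha
      (h4.trans_lt (pow_lt_one₀ zero_le ha two_ne_zero)))
  have h7 : Algebra.norm F (1 + c * θ) ≠ 0 := fun h0 => by
    rw [h0, map_zero] at h6; exact zero_ne_one h6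
  refine ⟨1 + c * θ, Algebra.norm_ne_zero_iff.1 h7, ?_⟩
  rwa [div_sub_one h7, map_div₀, h6, div_one, Valuation.map_sub_swap]

theorem deep (h : Q.asIdeal.inertia (E ≃ₐ[F] E) = ⊥) {a : F} (ha : w.valuation F (a - 1) < 1)
    (k : ℕ) : ∃ g : E, g ≠ 0 ∧ w.valuation F (a / Algebra.norm F g - 1) < exp (-(k : ℤ)) := by
  induction k with
  | zero => exact ⟨1, one_ne_zero, by simpa using ha⟩
  | succ k ih =>
    obtain ⟨g, hg, h1⟩ := ih
    obtain ⟨g', hg', h2⟩ := step w Q h (h1.trans_le (T24.Asa.exp_neg_le_one k))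
    refine ⟨g * g', mul_ne_zero hg hg', ?_⟩
    rw [map_mul, ← div_div]
    refine h2.trans_lt ?_
    rcases eq_or_ne (w.valuation F (a / Algebra.norm F g - 1)) 0 with h0 | h0
    · rw [h0]; simp [zero_lt_iff]
    · rw [← exp_log h0, exp_lt_exp] at h1
      rw [← exp_log h0, ← exp_nsmul, exp_lt_exp, nsmul_eq_mul]
      push_cast; omega

theorem resid (h : Q.asIdeal.inertia (E ≃ₐ[F] E) = ⊥) {a : F} (ha : w.valuation F a = 1) :
    ∃ g : E, g ≠ 0 ∧ w.valuation F (a / Algebra.norm F g - 1) < 1 := by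
  classical
  obtain ⟨a₀, h0⟩ := w.exists_valuation_sub_lt_of_integer ha.le 1
  have := w.isMaximal
  have := Q.isMaximal
  let _ := Ideal.Quotient.field w.asIdeal
  let _ := Ideal.Quotient.field Q.asIdeal
  have : Finite (𝓞 E ⧸ Q.asIdeal) := Q.asIdeal.finiteQuotientOfFreeOfNeBot Q.ne_bot
  obtain ⟨x, hx⟩ := FiniteField.norm_surjective (𝓞 F ⧸ w.asIdeal) (𝓞 E ⧸ Q.asIdeal)
    (Ideal.Quotient.mk _ a₀)
  obtain ⟨x, rfl⟩ := Ideal.Quotient.mk_surjective x
  obtain ⟨γ, h1, h2⟩ := exists_sep (F := F) Q.asIdeal 1 x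
  rw [pow_one, ← Ideal.Quotient.eq] at h1
  have hb : Function.Bijective (Ideal.Quotient.stabilizerHom Q.asIdeal w.asIdeal (E ≃ₐ[F] E)) :=
    ⟨(MonoidHom.ker_eq_bot_iff _).1 ((Subgroup.map_eq_bot_iff_of_injective _
      (Subgroup.subtype_injective _)).1 (by rw [Ideal.Quotient.map_ker_stabilizer_subtype, h])),
      Ideal.Quotient.stabilizerHom_surjective _ _ _⟩
  have h3 : ∏ g : E ≃ₐ[F] E, g • γ - algebraMap (𝓞 F) (𝓞 E) a₀ ∈ Q.asIdeal := by
    rw [← Ideal.Quotient.eq, map_prod, ← Fintype.prod_subtype_mul_prod_subtype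
      (· ∈ MulAction.stabilizer (E ≃ₐ[F] E) Q.asIdeal),
      prod_eq_one (s := univ) (f := fun g : {g // g ∉ _} => Ideal.Quotient.mk Q.asIdeal (g.1 • γ))
        fun g _ => (Ideal.Quotient.eq.2 (h2 g.1 g.2)).trans (map_one _), mul_one]
    have h4 := Algebra.norm_eq_prod_automorphisms (𝓞 F ⧸ w.asIdeal) (Ideal.Quotient.mk Q.asIdeal γ)
    rw [h1, hx, ← h1, ← hb.prod_comp] at h4
    exact h4.symm
  have h4 : w.valuation F (Algebra.norm F (γ : E) - a₀) < 1 := by
    rw [← (w.valuation F).map_one, ← val_lt_iff w Q, map_one, map_one, map_sub, norm_coe]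
    exact (Q.valuation_lt_one_iff_mem (K := E) _).2 h3
  have h5 : w.valuation F (a - Algebra.norm F (γ : E)) < 1 := by
    have : a - Algebra.norm F (γ : E) = -((a₀ - a) + (Algebra.norm F (γ : E) - a₀)) := by ring
    rw [this, Valuation.map_neg]
    exact Valuation.map_add_lt _ h0 h4
  have h6 : w.valuation F (Algebra.norm F (γ : E)) = 1 := by
    rw [← ha] at h5 ⊢
    rw [← sub_sub_cancel a (Algebra.norm F (γ : E))]
    exact Valuation.map_sub_eq_of_lt_left _ h5
  have h7 : Algebra.norm F (γ : E) ≠ 0 := fun h0 => by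
    rw [h0, map_zero] at h6; exact zero_ne_one h6
  exact ⟨γ, Algebra.norm_ne_zero_iff.1 h7, by rwa [div_sub_one h7, map_div₀, h6, div_one]⟩

/-- units at an unramified prime are approximate norms -/
theorem unr_unit (h : Q.asIdeal.inertia (E ≃ₐ[F] E) = ⊥) {a : F} (ha : w.valuation F a = 1)
    {ε : ℤᵐ⁰} (hε : ε ≠ 0) : ∃ g : E, g ≠ 0 ∧ w.valuation F (a / Algebra.norm F g - 1) < ε := by
  obtain ⟨g, hg, h1⟩ := resid w Q h ha
  obtain ⟨k, hk⟩ := T24.Asa.exists_exp_le hε
  obtain ⟨g', hg', h2⟩ := deep w Q h h1 k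
  exact ⟨g * g', mul_ne_zero hg hg', by rw [map_mul, ← div_div]; exact h2.trans_le hk⟩

theorem split_val (h : MulAction.stabilizer (E ≃ₐ[F] E) Q.asIdeal = ⊥) {a : 𝓞 F} (ha : a ≠ 0) :
    ∃ g : E, w.valuation F (Algebra.norm F g) = w.valuation F (a : F) := by
  classical
  have := Q.isMaximal
  have h0 : Q.valuation E (algebraMap F E a) ≠ 0 := by simpa using ha
  obtain ⟨k, hk⟩ := T24.Asa.exists_exp_le h0
  obtain ⟨γ, h1, h2⟩ := exists_sep (F := F) Q.asIdeal (k + 1) (algebraMap _ _ a)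
  refine ⟨γ, (val_eq_iff w Q _ _).1 ?_⟩
  rw [Algebra.norm_eq_prod_automorphisms, map_prod, prod_eq_single 1 (fun g _ hg => ?_) (by simp)]
  · have h3 := (Q.intValuation_le_pow_iff_mem _ _).2 h1
    rw [← Q.valuation_of_algebraMap (K := E)] at h3
    exact Valuation.map_eq_of_sub_lt _ ((h3.trans_lt (exp_lt_exp.2 (by omega))).trans_le hk)
  · have h3 := (Q.valuation_lt_one_iff_mem (K := E) _).2 (h2 g (by rwa [h, Subgroup.mem_bot]))
    exact (Valuation.map_eq_of_sub_lt _ (h3.trans_eq (map_one _).symm)).trans (map_one _)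

/-- at a split prime everything is an approximate norm -/
theorem unr_split (h : MulAction.stabilizer (E ≃ₐ[F] E) Q.asIdeal = ⊥) {a : F} (ha : a ≠ 0)
    {ε : ℤᵐ⁰} (hε : ε ≠ 0) : ∃ g : E, g ≠ 0 ∧ w.valuation F (a / Algebra.norm F g - 1) < ε := by
  obtain ⟨x, y, hy, rfl⟩ := IsFractionRing.div_surjective (A := 𝓞 F) a
  have hx : x ≠ 0 := by rintro rfl; simp at ha
  have hy := nonZeroDivisors.ne_zero hy
  obtain ⟨g₁, h1⟩ := split_val w Q h hx
  obtain ⟨g₂, h2⟩ := split_val w Q h hy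
  have h3 : w.valuation F (x : F) ≠ 0 := by simpa using hx
  have h4 : w.valuation F (y : F) ≠ 0 := by simpa using hy
  have h5 : Algebra.norm F g₁ ≠ 0 := fun h0 => h3 (by rw [← h1, h0, map_zero])
  have h6 : Algebra.norm F g₂ ≠ 0 := fun h0 => h4 (by rw [← h2, h0, map_zero])
  obtain ⟨g, hg, h7⟩ := unr_unit w Q (eq_bot_iff.2 (h ▸ Q.asIdeal.inertia_le_stabilizer))
    (a := (x : F) / y * Algebra.norm F g₂ / Algebra.norm F g₁) (by
      rw [map_div₀, map_mul, map_div₀, h1, h2, div_mul_cancel₀ _ h4, div_self h3]) hε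
  have h8 := Algebra.norm_ne_zero_iff.1 h6
  refine ⟨g * g₁ / g₂, div_ne_zero (mul_ne_zero hg (Algebra.norm_ne_zero_iff.1 h5)) h8, ?_⟩
  have h9 : Algebra.norm F (g * g₁ / g₂) = Algebra.norm F g * Algebra.norm F g₁ / Algebra.norm F g₂ :=
    eq_div_of_mul_eq h6 (by rw [← map_mul, div_mul_cancel₀ _ h8, map_mul])
  convert h7 using 3
  rw [h9]; field_simp

end Crest.Agent.T15.Hnt

namespace Crest.Agent.T15.Art

open Finset Module NumberField IsDedekindDomain WithZero

theorem unrStmt_73 : UnrStmt := by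
  intro F E _ _ _ _ _ _ w P hP _ a ha h ε hε
  let Q : HeightOneSpectrum (𝓞 E) := ⟨P, hP, Ideal.ne_bot_of_liesOver_of_ne_bot w.ne_bot P⟩
  have : Q.asIdeal.LiesOver w.asIdeal := ‹_›
  exact h.elim (fun h => Hnt.unr_unit w Q h.1 h.2 hε) fun h => Hnt.unr_split w Q h ha hε

theorem hntStmt_73 : HntStmt := by
  intro F E _ _ _ _ _ _ _ s hs a ha h
  have : IsCyclic (E ≃ₐ[F] E) := ⟨⟨s, fun g => (hs ▸ Subgroup.mem_top g : g ∈ Subgroup.zpowers s)⟩⟩
  exact Hnt.hnt ha h

theorem locStmt_73 : LocStmt := by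
  intro K E _ _ _ _ _ _ s t N n hst hN hn hG _ c d a b hc hd ha hcd hb T h ε hε
  subst hN
  have h0 : ∀ {u : E ≃ₐ[K] E} {k : ℕ} {x : E} {y : K}, x ≠ 0 →
      ∏ i ∈ range k, (u ^ i) x = algebraMap K E y → y ≠ 0 := fun hx h hy =>
    prod_ne_zero_iff.2 (fun _ _ => (map_ne_zero _).2 hx) (by rw [h, hy, map_zero])
  obtain ⟨M, hM⟩ := T24.Asa.exists_exp_le hε
  obtain ⟨g, b', h1, h2, h3, h4⟩ := Hnt.loc hst (hn ▸ pow_orderOf_eq_one t) (fun x hs ht =>
    (IsGalois.mem_range_algebraMap_iff_fixed x).2 fun g => by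
      obtain ⟨i, j, rfl⟩ := hG g
      exact (MulAction.stabilizer (E ≃ₐ[K] E) x).mul_mem (pow_mem hs i) (pow_mem ht j))
    (h0 hc ha) (h0 hd hb) ha ((div_eq_div_iff hc hd).1 hcd) hb T (fun w hw => by
      obtain ⟨g, m, h1, h2, h3, h4⟩ := h w hw
      exact ⟨g, m, h0 h1 h3, h2, h3, h4⟩) (M + 1)
  refine ⟨g, b', ?_, h2, h3, fun w hw =>
    ((h4 w hw).trans_lt (exp_lt_exp.2 (by push_cast; omega))).trans_le hM⟩
  rintro rfl
  rw [prod_eq_zero (mem_range.2 (hn ▸ orderOf_pos t)) (by simp), eq_comm, map_eq_zero] at h3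
  exact h1 h3

end Crest.Agent.T15.Art
end
end

-- ▼ part T15/Art_34
section

/-!
# Row 15: Artin reciprocity (helper34, leaves by helper73)
-/

namespace Crest.Agent.T15.Art

/-- **Artin reciprocity** with the sharp local condition -/
theorem artin : ArtStmt := artin_of hntStmt_73 unrStmt_73 locStmt_73

end Crest.Agent.T15.Art
end

-- ▼ part T15/EqUA_16
section

/-!
# Row 15, block C: counting equivariant homomorphisms into a module killed by `p`

`HG α ρ A B` = the `G`-equivariant homomorphisms `A → W` which vanish on `B`, for subgroups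
`A`, `B` of a commutative group `M` with a `G`-action `α`.  For `p ∤ #G` and `pW = 0` the number
`hG α ρ A B` is multiplicative, invariant under commensurability of `p`-torsion free groups.
-/

set_option autoImplicit false

noncomputable section

namespace Crest.Agent.T15.EqU

variable {k G M M' W : Type*} [CommRing k] [Group G] [CommGroup M] [CommGroup M']
  [AddCommGroup W] [Module k W]

/-- `A` is stable under the action -/
def St (α : G →* Monoid.End M) (A : Subgroup M) : Prop := ∀ g x, x ∈ A → α g x ∈ A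

/-- the `p`-th powers of a subgroup -/
abbrev pw (p : ℕ) (A : Subgroup M) : Subgroup M := A.map (powMonoidHom p)

/-- equivariant homomorphisms `A → W` vanishing on `B` -/
def HG (α : G →* Monoid.End M) (ρ : Representation k G W) (A B : Subgroup M) :
    Submodule k (Additive A →+ W) where
  carrier := {φ | (∀ (g : G) (x y : A), (y : M) = α g x →
      φ (Additive.ofMul y) = ρ g (φ (Additive.ofMul x))) ∧
    ∀ x : A, (x : M) ∈ B → φ (Additive.ofMul x) = 0}
  add_mem' := by
    rintro φ ψ ⟨h1, h2⟩ ⟨h3, h4⟩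
    refine ⟨fun g x y h => ?_, fun x hx => ?_⟩
    · simp only [AddMonoidHom.add_apply, map_add, h1 g x y h, h3 g x y h]
    · simp only [AddMonoidHom.add_apply, h2 x hx, h4 x hx, add_zero]
  zero_mem' := ⟨fun g x y _ => by simp, fun x _ => rfl⟩
  smul_mem' := by
    rintro c φ ⟨h1, h2⟩
    refine ⟨fun g x y h => ?_, fun x hx => ?_⟩
    · simp only [AddMonoidHom.smul_apply, map_smul, h1 g x y h]
    · simp only [AddMonoidHom.smul_apply, h2 x hx, smul_zero]

/-- the number of equivariant homomorphisms `A → W` vanishing on `B` -/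
def hG (α : G →* Monoid.End M) (ρ : Representation k G W) (A B : Subgroup M) : ℕ :=
  Nat.card (HG α ρ A B)

theorem mem_HG {α : G →* Monoid.End M} {ρ : Representation k G W} {A B : Subgroup M}
    {φ : Additive A →+ W} : φ ∈ HG α ρ A B ↔ (∀ (g : G) (x y : A), (y : M) = α g x →
      φ (Additive.ofMul y) = ρ g (φ (Additive.ofMul x))) ∧
    ∀ x : A, (x : M) ∈ B → φ (Additive.ofMul x) = 0 := Iff.rfl


theorem pw_le (p : ℕ) (A : Subgroup M) : pw p A ≤ A := by
  rintro _ ⟨y, hy, rfl⟩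
  exact pow_mem hy p

section St

variable {α : G →* Monoid.End M} {A B : Subgroup M}

theorem St.pw (hA : St α A) (p : ℕ) : St α (pw p A) := by
  rintro g _ ⟨y, hy, rfl⟩
  exact ⟨α g y, hA g y hy, by simp⟩

theorem St.sup (hA : St α A) (hB : St α B) : St α (A ⊔ B) := by
  intro g x hx
  obtain ⟨a, ha, b, hb, rfl⟩ := Subgroup.mem_sup.mp hx
  rw [map_mul]
  exact Subgroup.mul_mem_sup (hA g a ha) (hB g b hb)


theorem st_top : St α (⊤ : Subgroup M) := fun _ _ _ => trivial

theorem st_bot : St α (⊥ : Subgroup M) := by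
  intro g x hx
  rw [Subgroup.mem_bot] at hx ⊢
  rw [hx, map_one]

theorem St.map {α' : G →* Monoid.End M'} (hA : St α A) (π : M →* M')
    (hπ : ∀ g x, π (α g x) = α' g (π x)) : St α' (A.map π) := by
  rintro g _ ⟨y, hy, rfl⟩
  exact ⟨α g y, hA g y hy, hπ g y⟩

theorem St.comap {α' : G →* Monoid.End M'} {A' : Subgroup M'} (hA : St α' A') (π : M →* M')
    (hπ : ∀ g x, π (α g x) = α' g (π x)) : St α (A'.comap π) := by
  intro g x hx
  rw [Subgroup.mem_comap] at hx ⊢
  rw [hπ]
  exact hA g _ hx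

end St

section Basic

variable (α : G →* Monoid.End M) (ρ : Representation k G W)

theorem HG_congr {A B B' : Subgroup M} (h : ∀ x ∈ A, x ∈ B ↔ x ∈ B') :
    HG α ρ A B = HG α ρ A B' := by
  ext φ
  simp only [mem_HG]
  refine and_congr_right fun _ => forall_congr' fun x => ?_
  rw [h x x.2]

theorem HG_anti {A B B' : Subgroup M} (h : ∀ x ∈ A, x ∈ B → x ∈ B') :
    HG α ρ A B' ≤ HG α ρ A B :=
  fun _ hφ => ⟨hφ.1, fun x hx => hφ.2 x (h x x.2 hx)⟩

theorem hG_congr {A B B' : Subgroup M} (h : ∀ x ∈ A, x ∈ B ↔ x ∈ B') :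
    hG α ρ A B = hG α ρ A B' := by
  unfold hG
  rw [HG_congr α ρ h]

theorem HG_self {A B : Subgroup M} (h : A ≤ B) : HG α ρ A B = ⊥ := by
  rw [eq_bot_iff]
  intro φ hφ
  rw [Submodule.mem_bot]
  ext x
  exact hφ.2 (Additive.toMul x) (h (Additive.toMul x).2)

theorem hG_self {A B : Subgroup M} (h : A ≤ B) : hG α ρ A B = 1 := by
  unfold hG
  rw [HG_self α ρ h]
  simp

/-- homomorphisms into `W` kill `p`-th powers -/
theorem HG_sup_pw {p : ℕ} (hW : ∀ w : W, p • w = 0) {A B : Subgroup M} (hBA : B ≤ A) :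
    HG α ρ A (B ⊔ pw p A) = HG α ρ A B := by
  apply le_antisymm (HG_anti α ρ fun x _ hx => Subgroup.mem_sup_left hx)
  intro φ hφ
  refine ⟨hφ.1, fun x hx => ?_⟩
  obtain ⟨b, hb, _, ⟨a, ha, rfl⟩, h⟩ := Subgroup.mem_sup.mp hx
  have : x = (⟨b, hBA hb⟩ : A) * (⟨a, ha⟩ : A) ^ p := Subtype.ext h.symm
  rw [this, ofMul_mul, map_add, hφ.2 _ hb, ofMul_pow, map_nsmul, hW, add_zero]

theorem hG_sup_pw {p : ℕ} (hW : ∀ w : W, p • w = 0) {A B : Subgroup M} (hBA : B ≤ A) :
    hG α ρ A (B ⊔ pw p A) = hG α ρ A B := by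
  unfold hG
  rw [HG_sup_pw α ρ hW hBA]

theorem hG_pw {p : ℕ} (hW : ∀ w : W, p • w = 0) (A : Subgroup M) :
    hG α ρ A (pw p A) = hG α ρ A ⊥ := by
  rw [← hG_sup_pw α ρ hW bot_le, bot_sup_eq]

/-- restriction to a smaller group -/
def res {A B : Subgroup M} (h : B ≤ A) : (Additive A →+ W) →ₗ[k] (Additive B →+ W) where
  toFun φ := φ.comp (MonoidHom.toAdditive (Subgroup.inclusion h))
  map_add' _ _ := rfl
  map_smul' _ _ := rfl


theorem res_mem {A B C : Subgroup M} (h : B ≤ A) {φ : Additive A →+ W} (hφ : φ ∈ HG α ρ A C) :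
    res (k := k) h φ ∈ HG α ρ B C :=
  ⟨fun g x y hxy => hφ.1 g ⟨x, h x.2⟩ ⟨y, h y.2⟩ hxy, fun x hx => hφ.2 ⟨x, h x.2⟩ hx⟩

/-- pull-back along an equivariant homomorphism -/
def pull (π : M →* M') {A : Subgroup M} {A' : Subgroup M'} (h : ∀ x ∈ A, π x ∈ A') :
    (Additive A' →+ W) →ₗ[k] (Additive A →+ W) where
  toFun φ := φ.comp (MonoidHom.toAdditive ((π.comp A.subtype).codRestrict A' fun x => h x x.2))
  map_add' _ _ := rfl
  map_smul' _ _ := rfl


theorem pull_mem {α' : G →* Monoid.End M'} (π : M →* M') (hπ : ∀ g x, π (α g x) = α' g (π x))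
    {A B : Subgroup M} {A' B' : Subgroup M'} (h : ∀ x ∈ A, π x ∈ A')
    (hB : ∀ x ∈ A, x ∈ B → π x ∈ B') {φ : Additive A' →+ W} (hφ : φ ∈ HG α' ρ A' B') :
    pull (k := k) π h φ ∈ HG α ρ A B :=
  ⟨fun g x y hxy => hφ.1 g ⟨π x, h x x.2⟩ ⟨π y, h y y.2⟩ (by
    change π y = α' g (π x)
    rw [hxy, hπ]), fun x hx => hφ.2 ⟨π x, h x x.2⟩ (hB x x.2 hx)⟩

/-- transport along an equivariant homomorphism -/
theorem hG_map {α' : G →* Monoid.End M'} (π : M →* M') (hπ : ∀ g x, π (α g x) = α' g (π x))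
    {A : Subgroup M} (hA : St α A) (B' : Subgroup M') :
    hG α' ρ (A.map π) B' = hG α ρ A (B'.comap π) := by
  have h : ∀ x ∈ A, π x ∈ A.map π := fun x hx => ⟨x, hx, rfl⟩
  let f : HG α' ρ (A.map π) B' → HG α ρ A (B'.comap π) := fun φ =>
    ⟨pull (k := k) π h φ.1, pull_mem α ρ π hπ h (fun _ _ hx => hx) φ.2⟩
  refine Nat.card_congr (Equiv.ofBijective f ⟨?_, ?_⟩)
  · intro φ ψ hφ
    apply Subtype.ext
    apply AddMonoidHom.ext
    rintro ⟨_, y, hy, rfl⟩
    exact DFunLike.congr_fun (congrArg Subtype.val hφ) (Additive.ofMul ⟨y, hy⟩)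
  · rintro ⟨φ, hφ⟩
    let q : Additive A →+ Additive (A.map π) :=
      MonoidHom.toAdditive ((π.comp A.subtype).codRestrict (A.map π) fun x => h x x.2)
    have hq : Function.Surjective q := by
      rintro ⟨_, y, hy, rfl⟩
      exact ⟨Additive.ofMul ⟨y, hy⟩, rfl⟩
    have hker : q.ker ≤ φ.ker := by
      intro x hx
      apply hφ.2 (Additive.toMul x)
      have h1 : π (Additive.toMul x : A) = 1 := congrArg Subtype.val hx
      rw [Subgroup.mem_comap, h1]
      exact one_mem _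
    let ψ : Additive (A.map π) →+ W := q.liftOfSurjective hq ⟨φ, hker⟩
    have hψ : ∀ x, ψ (q x) = φ x := fun x => q.liftOfRightInverse_comp_apply _ _ _ x
    refine ⟨⟨ψ, ?_, ?_⟩, ?_⟩
    · rintro g ⟨_, x, hx, rfl⟩ y hy
      have h1 : Additive.ofMul y = q (Additive.ofMul ⟨α g x, hA g x hx⟩) := by
        apply Subtype.ext
        change (y : M') = π (α g x)
        rw [hy, hπ]
      have h2 : Additive.ofMul (⟨π x, x, hx, rfl⟩ : A.map π) = q (Additive.ofMul ⟨x, hx⟩) := rfl
      rw [h1, h2, hψ, hψ]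
      exact hφ.1 g _ _ rfl
    · rintro ⟨_, x, hx, rfl⟩ hb
      have h2 : Additive.ofMul (⟨π x, x, hx, rfl⟩ : A.map π) = q (Additive.ofMul ⟨x, hx⟩) := rfl
      rw [h2, hψ]
      exact hφ.2 _ hb
    · apply Subtype.ext
      ext x
      exact hψ x

end Basic

section Ext

theorem exists_extend_zmod {p : ℕ} [Fact p.Prime] {B V U : Type*} [AddCommGroup B] [AddCommGroup V]
    [AddCommGroup U] [Module (ZMod p) V] [Module (ZMod p) U] (f : B →+ V) (φ : B →+ U)
    (h : ∀ b, f b = 0 → φ b = 0) : ∃ ψ : V →+ U, ∀ b, ψ (f b) = φ b := by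
  have hq : Function.Surjective f.rangeRestrict := f.rangeRestrict_surjective
  have hker : f.rangeRestrict.ker ≤ φ.ker := fun x hx => h x (congrArg Subtype.val hx)
  let φ1 : f.range →+ U := f.rangeRestrict.liftOfSurjective hq ⟨φ, hker⟩
  have h1 : ∀ x, φ1 (f.rangeRestrict x) = φ x := fun x =>
    f.rangeRestrict.liftOfRightInverse_comp_apply _ _ _ x
  let P : Submodule (ZMod p) V := AddSubgroup.toZModSubmodule p f.range
  let φ2 : P →+ U :=
    { toFun := fun x : P => φ1 ⟨x.1, x.2⟩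
      map_zero' := φ1.map_zero
      map_add' := fun x y : P => φ1.map_add ⟨x.1, x.2⟩ ⟨y.1, y.2⟩ }
  obtain ⟨ψ, hψ⟩ := LinearMap.exists_extend (φ2.toZModLinearMap p)
  refine ⟨ψ.toAddMonoidHom, fun b => ?_⟩
  have := LinearMap.congr_fun hψ ⟨f b, b, rfl⟩
  exact this.trans (h1 b)

/-- extension of additive maps between groups killed by a prime -/
theorem exists_extend_add {p : ℕ} [Fact p.Prime] {B V : Type*} [AddCommGroup B] [AddCommGroup V]
    (hV : ∀ v : V, p • v = 0) (hW : ∀ w : W, p • w = 0) (f : B →+ V) (φ : B →+ W)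
    (h : ∀ b, f b = 0 → φ b = 0) : ∃ ψ : V →+ W, ∀ b, ψ (f b) = φ b :=
  @exists_extend_zmod p _ B V W _ _ _ (AddCommGroup.zmodModule hV) (AddCommGroup.zmodModule hW)
    f φ h

variable {α : G →* Monoid.End M} {ρ : Representation k G W} {p : ℕ}

/-- **extension lemma** -/
theorem exists_ext [Finite G] [Fact p.Prime] (hG : ¬ p ∣ Nat.card G) (hW : ∀ w : W, p • w = 0)
    {A B C : Subgroup M} (hA : St α A) (hB : St α B) (hC : St α C) (hBA : B ≤ A)
    {φ : Additive B →+ W} (hφ : φ ∈ HG α ρ B (C ⊔ pw p A)) :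
    ∃ ψ ∈ HG α ρ A C, res (k := k) hBA ψ = φ := by
  classical
  have := Fintype.ofFinite G
  set D : Subgroup A := (C ⊔ pw p A).subgroupOf A with hD
  have hV : ∀ v : Additive (A ⧸ D), p • v = 0 := by
    intro v
    obtain ⟨a, rfl⟩ : ∃ a : A, Additive.ofMul (a : A ⧸ D) = v := by
      obtain ⟨a, ha⟩ := QuotientGroup.mk_surjective (Additive.toMul v)
      exact ⟨a, congrArg Additive.ofMul ha⟩
    rw [← ofMul_pow, ← QuotientGroup.mk_pow, ofMul_eq_zero, QuotientGroup.eq_one_iff]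
    exact Subgroup.mem_sup_right ⟨a, a.2, rfl⟩
  let q : Additive A →+ Additive (A ⧸ D) := MonoidHom.toAdditive (QuotientGroup.mk' D)
  let f : Additive B →+ Additive (A ⧸ D) :=
    q.comp (MonoidHom.toAdditive (Subgroup.inclusion hBA))
  obtain ⟨ψ1, h1⟩ := exists_extend_add hV hW f φ (by
    intro b hb
    apply hφ.2 (Additive.toMul b)
    exact (QuotientGroup.eq_one_iff (N := D) (Subgroup.inclusion hBA (Additive.toMul b))).mp hb)
  let ψ0 : Additive A →+ W := ψ1.comp q
  have h2 : ∀ b : B, ψ0 (Additive.ofMul ⟨b, hBA b.2⟩) = φ (Additive.ofMul b) := fun b => h1 _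
  have h3 : ∀ x : A, (x : M) ∈ C → ψ0 (Additive.ofMul x) = 0 := by
    intro x hx
    have : q (Additive.ofMul x) = 0 :=
      (QuotientGroup.eq_one_iff (N := D) x).mpr (Subgroup.mem_sup_left hx)
    change ψ1 (q _) = 0
    rw [this, map_zero]
  obtain ⟨c, hc⟩ : ∃ c : ℕ, ∀ w : W, c • Fintype.card G • w = w := by
    have hp : p.Prime := Fact.out
    have hcop : Nat.Coprime (Nat.card G) p := ((Nat.Prime.coprime_iff_not_dvd hp).mpr hG).symm
    obtain ⟨c, -, hc⟩ := Nat.exists_mul_mod_eq_one_of_coprime hcop hp.one_lt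
    refine ⟨c, fun w => ?_⟩
    rw [smul_smul, ← Nat.card_eq_fintype_card, mul_comm, ← Nat.div_add_mod (Nat.card G * c) p, hc,
      add_smul, one_smul, mul_comm, mul_smul, hW, smul_zero, zero_add]
  let a : G → Additive A →+ Additive A := fun g =>
    MonoidHom.toAdditive ((MonoidHom.comp (α g : M →* M) A.subtype).codRestrict A fun x => hA g x x.2)
  have ha : ∀ g (x : A), a g (Additive.ofMul x) = Additive.ofMul ⟨α g x, hA g x x.2⟩ :=
    fun _ _ => rfl
  let ψ : Additive A →+ W := c • ∑ g : G, (ρ g⁻¹).toAddMonoidHom.comp (ψ0.comp (a g))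
  have hψ : ∀ x : A, ψ (Additive.ofMul x) =
      c • ∑ g : G, ρ g⁻¹ (ψ0 (Additive.ofMul ⟨α g x, hA g x x.2⟩)) := by
    intro x
    simp only [ψ, AddMonoidHom.nsmul_apply, AddMonoidHom.finsetSum_apply]
    rfl
  refine ⟨ψ, ⟨fun g x y hxy => ?_, fun x hx => ?_⟩, ?_⟩
  · rw [hψ, hψ, map_nsmul, map_sum]
    congr 1
    rw [← Equiv.sum_comp (Equiv.mulRight g⁻¹)]
    refine Finset.sum_congr rfl fun t _ => ?_
    simp only [Equiv.coe_mulRight, mul_inv_rev, inv_inv, map_mul, Module.End.mul_apply]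
    congr 3
    apply Subtype.ext
    change α t (α g⁻¹ y) = α t x
    rw [hxy]
    change α t ((α g⁻¹ * α g) x) = _
    rw [← map_mul, inv_mul_cancel, map_one]
    rfl
  · rw [hψ, Finset.sum_eq_zero, smul_zero]
    intro g _
    rw [h3 _ (hC g x hx), map_zero]
  · ext b
    change ψ (Additive.ofMul ⟨b, hBA b.2⟩) = φ (Additive.ofMul b)
    rw [hψ]
    have : ∀ g : G, ρ g⁻¹ (ψ0 (Additive.ofMul ⟨α g b, hA g b (hBA b.2)⟩)) =
        φ (Additive.ofMul b) := by
      intro g
      rw [h2 ⟨α g b, hB g b b.2⟩, hφ.1 g b _ rfl, ← Module.End.mul_apply, ← map_mul,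
        inv_mul_cancel, map_one]
      rfl
    simp only [this, Finset.sum_const, Finset.card_univ]
    exact hc _

/-- **multiplicativity** -/
theorem hG_mul [Finite G] [Fact p.Prime] (hG' : ¬ p ∣ Nat.card G) (hW : ∀ w : W, p • w = 0)
    {A B C : Subgroup M} (hA : St α A) (hB : St α B) (hC : St α C) (hBA : B ≤ A) (hCB : C ≤ B) :
    hG α ρ A C = hG α ρ A B * hG α ρ B (C ⊔ pw p A) := by
  let r : HG α ρ A C →+ HG α ρ B (C ⊔ pw p A) :=
    { toFun := fun φ => ⟨res (k := k) hBA φ.1, res_mem α ρ hBA (by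
        rw [HG_sup_pw α ρ hW (hCB.trans hBA)]; exact φ.2)⟩
      map_zero' := Subtype.ext (map_zero _)
      map_add' := fun _ _ => Subtype.ext (map_add _ _ _) }
  have hr : Function.Surjective r := by
    rintro ⟨φ, hφ⟩
    obtain ⟨ψ, h1, h2⟩ := exists_ext hG' hW hA hB hC hBA hφ
    exact ⟨⟨ψ, h1⟩, Subtype.ext h2⟩
  have h1 : Nat.card r.ker = hG α ρ A B := by
    refine Nat.card_congr
      { toFun := fun φ => ⟨φ.1.1, φ.1.2.1, fun x hx =>
          DFunLike.congr_fun (congrArg Subtype.val φ.2) (Additive.ofMul ⟨x, hx⟩)⟩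
        invFun := fun φ => ⟨⟨φ.1, HG_anti α ρ (fun _ _ hx => hCB hx) φ.2⟩, ?_⟩
        left_inv := fun _ => rfl
        right_inv := fun _ => rfl }
    apply Subtype.ext
    ext b
    exact φ.2.2 ⟨b, hBA b.2⟩ b.2
  have h2 : Nat.card (HG α ρ A C ⧸ r.ker) = hG α ρ B (C ⊔ pw p A) :=
    Nat.card_congr (QuotientAddGroup.quotientKerEquivOfSurjective r hr).toEquiv
  rw [← h1, ← h2, mul_comm]
  exact AddSubgroup.card_eq_card_quotient_mul_card_addSubgroup r.ker

/-- if `A / B` has no `p`-torsion the count splits -/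
theorem hG_mul_sat [Finite G] [Fact p.Prime] (hG' : ¬ p ∣ Nat.card G) (hW : ∀ w : W, p • w = 0)
    {A B : Subgroup M} (hA : St α A) (hB : St α B) (hBA : B ≤ A)
    (hs : ∀ x ∈ A, x ^ p ∈ B → ∃ y ∈ B, y ^ p = x ^ p) :
    hG α ρ A ⊥ = hG α ρ A B * hG α ρ B ⊥ := by
  rw [hG_mul hG' hW hA hB st_bot hBA bot_le, bot_sup_eq, ← hG_pw α ρ hW B]
  congr 1
  apply hG_congr
  intro x hx
  constructor
  · rintro ⟨y, hy, rfl⟩
    exact hs y hy hx
  · rintro ⟨y, hy, rfl⟩
    exact ⟨y, hBA hy, rfl⟩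

/-- one step of commensurability (modulo a stable subgroup `T` with `A/T` free of `p`-torsion) -/
theorem hG_step [Finite G] [Fact p.Prime] (hG' : ¬ p ∣ Nat.card G) (hW : ∀ w : W, p • w = 0)
    {A B : Subgroup M} (hA : St α A) (hB : St α B) (hBA : B ≤ A) (hAB : pw p A ≤ B)
    (ht : ∀ x ∈ A, x ^ p = 1 → x = 1) : hG α ρ A ⊥ = hG α ρ B ⊥ := by
  rw [hG_mul hG' hW hA hB st_bot hBA bot_le, hG_mul hG' hW hB (hA.pw p) st_bot hAB bot_le,
    bot_sup_eq, bot_sup_eq, mul_comm]
  congr 1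
  rw [hG_map α ρ (powMonoidHom p) (fun g x => by simp) hA]
  apply hG_congr
  intro x hx
  constructor
  · intro h
    exact ⟨x, h, rfl⟩
  · rintro ⟨y, hy, h⟩
    have h1 : y ^ p = x ^ p := h
    have h2 : (x / y) ^ p = 1 := by rw [div_pow, h1, div_self']
    have h3 := ht _ (div_mem hx (hBA hy)) h2
    rw [div_eq_one] at h3
    rwa [h3]

/-- **commensurability** -/
theorem hG_comm [Finite G] [Fact p.Prime] (hG' : ¬ p ∣ Nat.card G) (hW : ∀ w : W, p • w = 0)
    {B : Subgroup M} (hB : St α B) (n : ℕ) : ∀ {A : Subgroup M}, St α A → B ≤ A →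
      (∀ x ∈ A, x ^ p = 1 → x = 1) → B.relIndex A = n → n ≠ 0 → hG α ρ A ⊥ = hG α ρ B ⊥ := by
  induction n using Nat.strong_induction_on with
  | _ n ih =>
  intro A hA hBA ht hn h0
  have hle : B ⊔ pw p A ≤ A := sup_le hBA (pw_le p A)
  by_cases h : A ≤ B ⊔ pw p A
  · rw [hG_mul_sat hG' hW hA hB hBA, ← hG_sup_pw α ρ hW hBA, hG_self α ρ h, one_mul]
    intro x hx hxp
    have : Finite (A ⧸ B.subgroupOf A) := by
      apply Nat.finite_of_card_ne_zero
      rw [← hn] at h0
      exact h0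
    have hs : Function.Surjective (fun y : A ⧸ B.subgroupOf A => y ^ p) := by
      intro y
      obtain ⟨a, rfl⟩ := QuotientGroup.mk_surjective y
      obtain ⟨b, hb, _, ⟨c, hc, rfl⟩, h1⟩ := Subgroup.mem_sup.mp (h a.2)
      refine ⟨((⟨c, hc⟩ : A) : A ⧸ B.subgroupOf A), ?_⟩
      change (((⟨c, hc⟩ : A) ^ p : A) : A ⧸ B.subgroupOf A) = _
      rw [QuotientGroup.eq, Subgroup.mem_subgroupOf]
      change (c ^ p)⁻¹ * (a : M) ∈ B
      rw [← h1]
      simpa [mul_comm] using hb
    have hi := Finite.injective_iff_surjective.mpr hs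
    have h2 : ((⟨x, hx⟩ : A) : A ⧸ B.subgroupOf A) = 1 := by
      apply hi
      change (((⟨x, hx⟩ : A) ^ p : A) : A ⧸ B.subgroupOf A) = 1 ^ p
      rw [one_pow, QuotientGroup.eq_one_iff]
      exact hxp
    exact ⟨x, (QuotientGroup.eq_one_iff (⟨x, hx⟩ : A)).mp h2, rfl⟩
  · have hst : St α (B ⊔ pw p A) := hB.sup (hA.pw p)
    rw [hG_step hG' hW hA hst hle le_sup_right ht]
    have hm := Subgroup.relIndex_mul_relIndex B (B ⊔ pw p A) A le_sup_left hle
    have h1 : (B ⊔ pw p A).relIndex A ≠ 1 := fun h' => h (Subgroup.relIndex_eq_one.mp h')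
    have h2 : B.relIndex (B ⊔ pw p A) ≠ 0 := by
      intro h'
      rw [h', zero_mul, hn] at hm
      exact h0 hm.symm
    have h3 : (B ⊔ pw p A).relIndex A ≠ 0 := by
      intro h'
      rw [h', mul_zero, hn] at hm
      exact h0 hm.symm
    refine ih _ ?_ hst le_sup_left (fun x hx => ht x (hle hx)) rfl h2
    rw [← hn, ← hm]
    exact lt_mul_of_one_lt_right (Nat.pos_of_ne_zero h2) (by omega)

end Ext

end Crest.Agent.T15.EqU
end
end

-- ▼ part T15/EqUB_16
section

/-!
# Row 15, block C: Shapiro's lemma and the abstract equivariant unit theorem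
-/

set_option autoImplicit false

noncomputable section

namespace Crest.Agent.T15.EqU

variable {k G M W : Type*} [CommRing k] [Group G] [CommGroup M] [AddCommGroup W] [Module k W]

/-- the vectors fixed by a subgroup -/
def Fx (ρ : Representation k G W) (H : Subgroup G) : Submodule k W where
  carrier := {w | ∀ g ∈ H, ρ g w = w}
  add_mem' := fun ha hb g hg => by rw [map_add, ha g hg, hb g hg]
  zero_mem' := fun g _ => map_zero _
  smul_mem' := fun c _ ha g hg => by rw [map_smul, ha g hg]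



/-- equivariant functions on a `G`-set -/
def EqF (ρ : Representation k G W) (X : Type*) [SMul G X] : Submodule k (X → W) where
  carrier := {f | ∀ (g : G) (x : X), f (g • x) = ρ g (f x)}
  add_mem' := fun ha hb g x => by simp only [Pi.add_apply, map_add, ha g x, hb g x]
  zero_mem' := fun g _ => (map_zero _).symm
  smul_mem' := fun c _ ha g x => by simp only [Pi.smul_apply, map_smul, ha g x]


/-- **Shapiro**: equivariant functions are given by their values on orbit representatives -/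
def eqFEquiv (ρ : Representation k G W) {X ι : Type*} [MulAction G X] (x : ι → X)
    (hx : ∀ y, ∃ i, ∃ g : G, g • x i = y) (hx' : ∀ i j (g : G), g • x i = x j → i = j) :
    EqF ρ X ≃ₗ[k] ∀ i, Fx ρ (MulAction.stabilizer G (x i)) := by
  refine LinearEquiv.ofBijective
    { toFun := fun f i => ⟨f.1 (x i), fun g hg => by rw [← f.2 g, show g • x i = x i from hg]⟩
      map_add' := fun _ _ => rfl
      map_smul' := fun _ _ => rfl } ⟨?_, ?_⟩
  · intro f f' h
    apply Subtype.ext
    funext y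
    obtain ⟨i, g, rfl⟩ := hx y
    have h1 : f.1 (x i) = f'.1 (x i) := congrArg Subtype.val (congrFun h i)
    rw [f.2, f'.2, h1]
  · intro v
    choose r s hs using hx
    have key : ∀ i (g : G) y, g • x i = y → ρ (s y) (v (r y)) = ρ g (v i) := by
      intro i g y hy
      have h1 : ((s y)⁻¹ * g) • x i = x (r y) := by rw [mul_smul, hy, inv_smul_eq_iff, hs]
      have h2 := hx' _ _ _ h1
      subst h2
      have h3 := (v (r y)).2 _ h1
      conv_lhs => rw [← h3]
      rw [← Module.End.mul_apply, ← map_mul, mul_inv_cancel_left]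
    refine ⟨⟨fun y => ρ (s y) (v (r y)), fun g y => ?_⟩, ?_⟩
    · beta_reduce
      rw [key (r y) (g * s y) (g • y) (by rw [mul_smul, hs]), map_mul, Module.End.mul_apply]
    · funext i
      apply Subtype.ext
      change ρ (s (x i)) (v (r (x i))) = v i
      rw [key i 1 (x i) (one_smul _ _), map_one]
      rfl

theorem card_EqF (ρ : Representation k G W) {X ι : Type*} [MulAction G X] [Fintype ι] (x : ι → X)
    (hx : ∀ y, ∃ i, ∃ g : G, g • x i = y) (hx' : ∀ i j (g : G), g • x i = x j → i = j) :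
    Nat.card (EqF ρ X) = ∏ i, Nat.card (Fx ρ (MulAction.stabilizer G (x i))) := by
  rw [Nat.card_congr (eqFEquiv ρ x hx hx').toEquiv, Nat.card_pi]

omit [Group G] in
theorem exists_inv_card {p : ℕ} [Fintype G] [Fact p.Prime] (hG : ¬ p ∣ Nat.card G)
    (hW : ∀ w : W, p • w = 0) : ∃ c : ℕ, ∀ w : W, c • Fintype.card G • w = w := by
  have hp : p.Prime := Fact.out
  have hcop : Nat.Coprime (Nat.card G) p := ((Nat.Prime.coprime_iff_not_dvd hp).mpr hG).symm
  obtain ⟨c, -, hc⟩ := Nat.exists_mul_mod_eq_one_of_coprime hcop hp.one_lt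
  refine ⟨c, fun w => ?_⟩
  rw [smul_smul, ← Nat.card_eq_fintype_card, mul_comm, ← Nat.div_add_mod (Nat.card G * c) p, hc,
    add_smul, one_smul, mul_comm, mul_smul, hW, smul_zero, zero_add]

section Family

variable {α : G →* Monoid.End M} {ρ : Representation k G W} {X : Type*} [MulAction G X]
  [Fintype X]

/-- the monomials in a finite family -/
def mon (z : X → M) : Multiplicative (X → ℤ) →* M where
  toFun c := ∏ x, z x ^ (Multiplicative.toAdd c) x
  map_one' := by simp
  map_mul' a b := by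
    rw [← Finset.prod_mul_distrib]
    exact Finset.prod_congr rfl fun x _ => by simp [zpow_add]

omit [MulAction G X] in
theorem mon_apply (z : X → M) (c : X → ℤ) : mon z (Multiplicative.ofAdd c) = ∏ x, z x ^ c x := rfl

omit [MulAction G X] in
theorem mem_mon (z : X → M) (x : X) : z x ∈ (mon z).range := by
  classical
  refine ⟨Multiplicative.ofAdd (Pi.single x 1), ?_⟩
  rw [mon_apply, Finset.prod_eq_single x]
  · simp
  · intro y _ hy
    simp [hy]
  · simp

theorem act_mon {z : X → M} (hz : ∀ (g : G) x, z (g • x) = α g (z x)) (g : G) (c : X → ℤ) :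
    α g (∏ x, z x ^ c x) = ∏ x, z x ^ c (g⁻¹ • x) := by
  rw [map_prod, ← Equiv.prod_comp (MulAction.toPerm g : Equiv.Perm X) fun x => z x ^ c (g⁻¹ • x)]
  refine Finset.prod_congr rfl fun x _ => ?_
  simp [hz]

theorem st_mon {z : X → M} (hz : ∀ (g : G) x, z (g • x) = α g (z x)) : St α (mon z).range := by
  rintro g _ ⟨c, rfl⟩
  exact ⟨Multiplicative.ofAdd fun x => Multiplicative.toAdd c (g⁻¹ • x), (act_mon hz g _).symm⟩

omit [MulAction G X] in
theorem hom_mon {z : X → M} (φ : Additive (mon z).range →+ W) (c : X → ℤ) :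
    φ (Additive.ofMul ⟨∏ x, z x ^ c x, Multiplicative.ofAdd c, rfl⟩) =
      ∑ x, c x • φ (Additive.ofMul ⟨z x, mem_mon z x⟩) := by
  have : (⟨∏ x, z x ^ c x, Multiplicative.ofAdd c, rfl⟩ : (mon z).range) =
      ∏ x, (⟨z x, mem_mon z x⟩ : (mon z).range) ^ c x := by
    apply Subtype.ext
    simp
  rw [this, ofMul_prod, map_sum]
  exact Finset.sum_congr rfl fun x _ => by rw [ofMul_zpow, map_zsmul]

/-- homomorphisms on the group generated by an equivariant family -/
theorem hG_mon {z : X → M} (hz : ∀ (g : G) x, z (g • x) = α g (z x)) :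
    hG α ρ (mon z).range ⊥ =
      Nat.card {f : EqF ρ X // ∀ c : X → ℤ, ∏ x, z x ^ c x = 1 → ∑ x, c x • f.1 x = 0} := by
  let F : HG α ρ (mon z).range ⊥ →
      {f : EqF ρ X // ∀ c : X → ℤ, ∏ x, z x ^ c x = 1 → ∑ x, c x • f.1 x = 0} := fun φ =>
    ⟨⟨fun x => φ.1 (Additive.ofMul ⟨z x, mem_mon z x⟩), fun g x => φ.2.1 g _ _ (hz g x)⟩,
      fun c hc => by
        rw [← hom_mon]
        exact φ.2.2 _ hc⟩
  refine Nat.card_congr (Equiv.ofBijective F ⟨?_, ?_⟩)
  · intro φ ψ h
    apply Subtype.ext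
    apply AddMonoidHom.ext
    rintro ⟨_, c, rfl⟩
    have h1 := hom_mon φ.1 (Multiplicative.toAdd c)
    have h2 := hom_mon ψ.1 (Multiplicative.toAdd c)
    refine h1.trans (Eq.trans ?_ h2.symm)
    refine Finset.sum_congr rfl fun x _ => ?_
    congr 1
    exact congrFun (congrArg (fun t => t.1.1) h) x
  · rintro ⟨f, hf⟩
    let q : (X → ℤ) →+ Additive (mon z).range :=
      MonoidHom.toAdditiveRight (mon z).rangeRestrict
    have hq : Function.Surjective q := fun y => (mon z).rangeRestrict_surjective y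
    let l : (X → ℤ) →+ W :=
      { toFun := fun c => ∑ x, c x • f.1 x
        map_zero' := by simp
        map_add' := fun a b => by simp [add_smul, Finset.sum_add_distrib] }
    have hker : q.ker ≤ l.ker := fun c hc => hf c (congrArg Subtype.val hc)
    let ψ := q.liftOfSurjective hq ⟨l, hker⟩
    have hψ : ∀ c, ψ (q c) = l c := fun c => q.liftOfRightInverse_comp_apply _ _ _ c
    refine ⟨⟨ψ, ?_, ?_⟩, ?_⟩
    · rintro g ⟨_, c, rfl⟩ y hy
      have h1 : Additive.ofMul y = q fun x => Multiplicative.toAdd c (g⁻¹ • x) := by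
        apply Subtype.ext
        exact hy.trans (act_mon hz g _)
      have h2 : Additive.ofMul (⟨mon z c, c, rfl⟩ : (mon z).range) =
          q (Multiplicative.toAdd c) := rfl
      rw [h1, h2, hψ, hψ]
      change ∑ x, _ • f.1 x = ρ g (∑ x, _ • f.1 x)
      rw [map_sum, ← Equiv.sum_comp (MulAction.toPerm g : Equiv.Perm X)
        fun x => Multiplicative.toAdd c (g⁻¹ • x) • f.1 x]
      refine Finset.sum_congr rfl fun x _ => ?_
      simp only [MulAction.toPerm_apply, inv_smul_smul, map_zsmul, f.2 g x]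
    · intro x hx
      have : x = 1 := Subtype.ext hx
      rw [this]
      exact map_zero ψ
    · classical
      apply Subtype.ext
      apply Subtype.ext
      funext x
      have h1 : Additive.ofMul (⟨z x, mem_mon z x⟩ : (mon z).range) = q (Pi.single x 1) := by
        apply Subtype.ext
        change z x = ∏ y, z y ^ (Pi.single x 1 : X → ℤ) y
        rw [Finset.prod_eq_single x]
        · simp
        · intro y _ hy
          simp [hy]
        · simp
      change ψ _ = f.1 x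
      rw [h1, hψ]
      change ∑ y, (Pi.single x 1 : X → ℤ) y • f.1 y = f.1 x
      rw [Finset.sum_eq_single x]
      · simp
      · intro y _ hy
        simp [hy]
      · simp

/-- a family whose only relation is an invariant vector `e` with a coordinate `1` -/
theorem hG_mon_rel {p : ℕ} [Finite G] [Fact p.Prime] (hG' : ¬ p ∣ Nat.card G)
    (hW : ∀ w : W, p • w = 0) {z : X → M} (hz : ∀ (g : G) x, z (g • x) = α g (z x))
    (e : X → ℤ) (he : ∀ (g : G) x, e (g • x) = e x) (x₀ : X) (h0 : e x₀ = 1)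
    (hrel : ∀ c : X → ℤ, ∏ x, z x ^ c x = 1 ↔ ∃ n : ℤ, c = n • e) :
    hG α ρ (mon z).range ⊥ * Nat.card (Fx ρ ⊤) = Nat.card (EqF ρ X) := by
  classical
  have := Fintype.ofFinite G
  obtain ⟨a, ha⟩ := exists_inv_card hG' hW
  let s : EqF ρ X →+ Fx ρ ⊤ :=
    { toFun := fun f => ⟨∑ x, e x • f.1 x, fun g _ => by
        rw [map_sum, ← Equiv.sum_comp (MulAction.toPerm g : Equiv.Perm X) fun x => e x • f.1 x]
        refine Finset.sum_congr rfl fun x _ => ?_
        simp only [MulAction.toPerm_apply, map_zsmul, f.2 g x, he]⟩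
      map_zero' := Subtype.ext (by simp)
      map_add' := fun f f' => Subtype.ext (by simp [Finset.sum_add_distrib]) }
  have hs : Function.Surjective s := by
    rintro ⟨w, hw⟩
    refine ⟨⟨fun x => a • ∑ g : G, if g • x₀ = x then w else 0, fun g x => ?_⟩, ?_⟩
    · beta_reduce
      rw [map_nsmul, map_sum]
      congr 1
      rw [← Equiv.sum_comp (Equiv.mulLeft g) fun t : G => if t • x₀ = g • x then w else 0]
      refine Finset.sum_congr rfl fun t _ => ?_
      simp only [Equiv.coe_mulLeft, mul_smul, smul_left_cancel_iff]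
      split_ifs
      · exact (hw g trivial).symm
      · exact (map_zero _).symm
    · apply Subtype.ext
      change ∑ x, e x • a • ∑ g : G, (if g • x₀ = x then w else 0) = w
      simp_rw [smul_comm _ a, ← Finset.smul_sum (r := a), Finset.smul_sum (r := e _)]
      rw [Finset.sum_comm]
      have : ∀ g : G, ∑ x, e x • (if g • x₀ = x then w else 0) = w := by
        intro g
        rw [Finset.sum_eq_single (g • x₀)]
        · rw [if_pos rfl, he, h0, one_smul]
        · intro y _ hy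
          rw [if_neg (Ne.symm hy), smul_zero]
        · simp
      simp only [this, Finset.sum_const, Finset.card_univ]
      exact ha w
  have h1 : Nat.card s.ker = hG α ρ (mon z).range ⊥ := by
    rw [hG_mon hz]
    refine Nat.card_congr (Equiv.subtypeEquivRight fun f => ?_)
    constructor
    · intro hf c hc
      obtain ⟨n, rfl⟩ := (hrel c).mp hc
      have h2 : ∑ x, e x • f.1 x = 0 := congrArg Subtype.val hf
      simp only [Pi.smul_apply, smul_eq_mul, mul_smul, ← Finset.smul_sum, h2, smul_zero]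
    · intro hf
      exact Subtype.ext (hf e ((hrel e).mpr ⟨1, (one_smul _ _).symm⟩))
  have h2 : Nat.card (EqF ρ X ⧸ s.ker) = Nat.card (Fx ρ ⊤) :=
    Nat.card_congr (QuotientAddGroup.quotientKerEquivOfSurjective s hs).toEquiv
  rw [← h1, ← h2, mul_comm]
  exact (AddSubgroup.card_eq_card_quotient_mul_card_addSubgroup s.ker).symm


/-- a group with finite torsion `T` and a torsion free stable subgroup `B` of finite index -/
theorem hG_tors {p : ℕ} [Finite G] [Fact p.Prime] (hG' : ¬ p ∣ Nat.card G)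
    (hW : ∀ w : W, p • w = 0) {U T B : Subgroup M} (hU : St α U) (hB : St α B) (hBU : B ≤ U)
    (hi : B.relIndex U ≠ 0) (m : ℕ) (hm : 0 < m) (hT : ∀ x, x ∈ T ↔ x ∈ U ∧ x ^ m = 1)
    (hm' : ∀ x ∈ U, ∀ n, 0 < n → x ^ n = 1 → x ^ m = 1) (hBT : ∀ x ∈ B, x ^ m = 1 → x = 1) :
    hG α ρ U ⊥ = hG α ρ T ⊥ * hG α ρ B ⊥ := by
  have hp : p.Prime := Fact.out
  have hπ : ∀ g x, powMonoidHom m (α g x) = α g (powMonoidHom m x) := fun g x => by simp
  have hTs : St α T := by
    intro g x hx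
    rw [hT] at hx ⊢
    exact ⟨hU g x hx.1, by rw [← map_pow, hx.2, map_one]⟩
  have hTU : T ≤ U := fun x hx => ((hT x).mp hx).1
  rw [hG_mul_sat hG' hW hU hTs hTU, mul_comm]
  · congr 1
    have h1 : hG α ρ U T = hG α ρ (pw m U) ⊥ := by
      rw [hG_map α ρ (powMonoidHom m) hπ hU]
      apply hG_congr
      intro x hx
      rw [hT]
      exact ⟨fun h => h.2, fun h => ⟨hx, h⟩⟩
    have h2 : hG α ρ B ⊥ = hG α ρ (pw m B) ⊥ := by
      rw [hG_map α ρ (powMonoidHom m) hπ hB]
      apply hG_congr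
      intro x hx
      exact ⟨fun h => by rw [Subgroup.mem_bot.mp h]; exact one_mem _, fun h => hBT x hx h⟩
    rw [h1, h2]
    refine hG_comm hG' hW (hB.pw m) _ (hU.pw m) (Subgroup.map_mono hBU) ?_ rfl ?_
    · rintro _ ⟨y, hy, rfl⟩ h
      exact hm' y hy (m * p) (Nat.mul_pos hm hp.pos) (by rw [pow_mul]; exact h)
    · intro h
      rw [Subgroup.relIndex_map_map] at h
      have h3 : (B ⊔ (powMonoidHom m : M →* M).ker).relIndex
          (U ⊔ (powMonoidHom m : M →* M).ker) ∣ B.relIndex U := by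
        have h4 : U ⊔ (powMonoidHom m : M →* M).ker = U ⊔ (B ⊔ (powMonoidHom m : M →* M).ker) := by
          rw [← sup_assoc, sup_eq_left.mpr hBU]
        rw [h4, Subgroup.relIndex_sup_right]
        exact Subgroup.relIndex_dvd_of_le_left U le_sup_left
      rw [h] at h3
      exact hi (zero_dvd_iff.mp h3)
  · intro x hx hxp
    refine ⟨x, (hT x).mpr ⟨hx, hm' x hx (p * m) (Nat.mul_pos hp.pos hm) ?_⟩, rfl⟩
    rw [pow_mul]
    exact ((hT _).mp hxp).2

end Family

end Crest.Agent.T15.EqU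
end
end

-- ▼ part T15/EqU_16
section

/-!
# Row 15, block C: the equivariant `S`-unit theorem modulo `p`
-/

set_option autoImplicit false

noncomputable section

open NumberField NumberField.InfinitePlace NumberField.Units Module IsDedekindDomain
open scoped Pointwise

namespace Crest.Agent.T15.EqU

open Crest.Agent.R018.MinkUx824 Crest.Agent.R018.Selmerx380 Crest.Agent.R018.SLatx824
open Crest.Agent.R018.SLatBx824

attribute [local instance] actH

/-- equivariant choice for a property closed under products -/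
theorem exists_equiv_prod {G X U : Type*} [Group G] [Fintype G] [MulAction G X] [CommGroup U]
    [MulDistribMulAction G U] (u : X → U) :
    ∀ (g : G) (x : X), (∏ t : G, t • u (t⁻¹ • g • x)) = g • ∏ t : G, t • u (t⁻¹ • x) := by
  intro g x
  rw [Finset.smul_prod', ← Equiv.prod_comp (Equiv.mulLeft g) fun t : G => t • u (t⁻¹ • g • x)]
  refine Finset.prod_congr rfl fun t _ => ?_
  simp [mul_smul]

variable {K L : Type*} [Field K] [Field L] [Algebra K L]

variable (K L) in
/-- the Galois action on `Lˣ` -/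
def gal : (L ≃ₐ[K] L) →* Monoid.End Lˣ := MulDistribMulAction.toMonoidEnd (L ≃ₐ[K] L) Lˣ


theorem coe_gal (σ : L ≃ₐ[K] L) (x : Lˣ) : ((gal K L σ x : Lˣ) : L) = σ (x : L) := rfl

variable [NumberField L]

omit [NumberField L] in
theorem log_finprod {ι : Type*} (s : Finset ι) (f : ι → Lˣ) (w : InfinitePlace L) :
    Real.log (w ((∏ i ∈ s, f i : Lˣ) : L)) = ∑ i ∈ s, Real.log (w (f i : L)) := by
  rw [Units.coe_prod, map_prod, Real.log_prod]
  intro i _
  exact (InfinitePlace.pos_iff.mpr (f i).ne_zero).ne'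

/-- an equivariant family of units with the sign property (any stabilisers) -/
theorem exists_sgn [FiniteDimensional K L] :
    ∃ η : InfinitePlace L → (𝓞 L)ˣ, Sgn η ∧
      ∀ (σ : L ≃ₐ[K] L) w, iu L (η (σ • w)) = σ • iu L (η w) := by
  classical
  choose u hu using dirichletUnitTheorem.exists_unit L
  let η : InfinitePlace L → Lˣ := fun w => ∏ t : L ≃ₐ[K] L, t • iu L (u (t⁻¹ • w))
  have h1 : ∀ w, η w ∈ (iu L).range := fun w =>
    prod_mem fun t _ => ⟨_, (smul_iu t _).symm⟩
  choose v hv using h1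
  refine ⟨v, fun t w hwt => ?_, fun σ w => ?_⟩
  · have h2 : ((v t : (𝓞 L)ˣ) : L) = (η t : L) := by rw [← hv]; rfl
    rw [h2, log_finprod]
    refine Finset.sum_neg (fun σ _ => ?_) Finset.univ_nonempty
    rw [place_smul]
    exact hu _ _ fun h => hwt (smul_left_cancel _ h)
  · rw [hv, hv]
    exact exists_equiv_prod (fun w => iu L (u w)) σ w

omit [NumberField L] in
theorem iu_inj : Function.Injective (iu L) := by
  intro a b hab
  have := congrArg (fun x : Lˣ => (x : L)) hab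
  simp only [coe_iu] at this
  exact Units.ext (by exact_mod_cast this)

/-- **Minkowski–Herbrand units** (any stabilisers) -/
theorem exists_herbrand [FiniteDimensional K L] :
    ∃ ε : InfinitePlace L → Lˣ, (∀ (σ : L ≃ₐ[K] L) w, ε (σ • w) = σ • ε w) ∧
      (∀ w, ε w ∈ (iu L).range) ∧ ∏ w, ε w = 1 ∧
      (∀ c : InfinitePlace L → ℤ, ∏ w, ε w ^ c w = 1 → ∀ w w', c w = c w') ∧
      (Subgroup.closure (Set.range ε)).relIndex (iu L).range ≠ 0 := by
  classical
  obtain ⟨u, hu, heq⟩ := exists_sgn (K := K) (L := L)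
  obtain ⟨c, hc, hpos⟩ := exists_rel_pos hu
  have hinj : Function.Injective (iu L) := iu_inj
  set k : ℕ := torsionOrder L with hk
  have hk0 : 0 < k := Nat.pos_of_ne_zero (torsionOrder_ne_zero L)
  set c' : InfinitePlace L → ℤ := fun t => ∑ σ : L ≃ₐ[K] L, c (σ⁻¹ • t) with hc'
  have hc'pos : ∀ t, 0 < c' t := fun t => Finset.sum_pos (fun σ _ => hpos _) ⟨1, Finset.mem_univ _⟩
  have hc'inv : ∀ (σ : L ≃ₐ[K] L) t, c' (σ • t) = c' t := by
    intro σ t
    simp only [hc']
    have := Equiv.sum_comp (Equiv.mulLeft σ) (fun τ : L ≃ₐ[K] L => c (τ⁻¹ • σ • t))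
    rw [← this]
    refine Finset.sum_congr rfl fun τ _ => ?_
    simp [mul_smul]
  set z : Lˣ := iu L (∏ t, u t ^ c t) with hz
  have hzk : z ^ k = 1 := by
    have h1 : (∏ t, u t ^ c t) ^ k = 1 := by
      have h2 : (∏ t, u t ^ c t) ∈ rootsOfUnity (torsionOrder L) (𝓞 L) := by
        rw [rootsOfUnity_eq_torsion]
        exact hc
      exact (mem_rootsOfUnity _ _).mp h2
    rw [hz, ← map_pow, h1, map_one]
  have hz' : z = ∏ t, iu L (u t) ^ c t := by
    rw [hz, map_prod]
    exact Finset.prod_congr rfl fun t _ => by rw [map_zpow]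
  have hprod : ∏ t, iu L (u t) ^ c' t = ∏ σ : L ≃ₐ[K] L, σ • z := by
    have h2 : ∀ σ : L ≃ₐ[K] L, σ • z = ∏ t, iu L (u t) ^ c (σ⁻¹ • t) := by
      intro σ
      rw [hz']
      exact (prod_smul_inv (fun t => iu L (u t)) heq σ c).symm
    simp_rw [h2]
    rw [Finset.prod_comm]
    refine Finset.prod_congr rfl fun t _ => ?_
    have h3 : ∀ s : Finset (L ≃ₐ[K] L),
        iu L (u t) ^ (∑ σ ∈ s, c (σ⁻¹ • t)) = ∏ σ ∈ s, iu L (u t) ^ c (σ⁻¹ • t) := by
      intro s
      induction s using Finset.induction_on with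
      | empty => simp
      | insert a s ha ih => rw [Finset.sum_insert ha, Finset.prod_insert ha, zpow_add, ih]
    exact h3 _
  have hprodk : ∏ t, iu L (u t) ^ (c' t * k) = 1 := by
    have : ∏ t, iu L (u t) ^ (c' t * k) = (∏ t, iu L (u t) ^ c' t) ^ k := by
      rw [← Finset.prod_pow]
      refine Finset.prod_congr rfl fun t _ => ?_
      rw [zpow_mul, zpow_natCast]
    rw [this, hprod, ← Finset.prod_pow]
    apply Finset.prod_eq_one
    intro σ _
    rw [← smul_pow', hzk, smul_one]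
  refine ⟨fun w => iu L (u w) ^ (c' w * k), ?_, ?_, hprodk, ?_, ?_⟩
  · intro σ w
    change iu L (u (σ • w)) ^ (c' (σ • w) * k) = σ • iu L (u w) ^ (c' w * k)
    rw [heq, hc'inv, smul_zpow']
  · intro w
    exact (iu L).range.zpow_mem (MonoidHom.mem_range.mpr ⟨u w, rfl⟩) _
  · intro d hd w w'
    have h1 : R018.MinkUx824.Rel u (fun t => c' t * k * d t - c' t * k * d w') := by
      unfold R018.MinkUx824.Rel
      have : ∏ t, u t ^ (c' t * k * d t - c' t * k * d w') = 1 := by
        apply hinj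
        rw [map_prod, map_one]
        have h5 : ∀ t, iu L (u t ^ (c' t * k * d t - c' t * k * d w')) =
            (iu L (u t) ^ (c' t * k)) ^ d t * ((iu L (u t) ^ (c' t * k)) ^ d w')⁻¹ := by
          intro t
          rw [map_zpow, zpow_sub, zpow_mul _ (c' t * k), zpow_mul _ (c' t * k)]
        simp_rw [h5]
        rw [Finset.prod_mul_distrib, hd, one_mul, Finset.prod_inv_distrib, Finset.prod_zpow,
          hprodk, one_zpow, inv_one]
      rw [this]
      exact one_mem _
    have h2 := congrFun (h1.eq_zero hu w' (by simp)) w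
    simp only [Pi.zero_apply] at h2
    rw [← mul_sub] at h2
    have h3 : c' w * k ≠ 0 := mul_ne_zero (hc'pos w).ne' (by exact_mod_cast hk0.ne')
    have := (mul_eq_zero.mp h2).resolve_left h3
    omega
  · rw [← Subgroup.index_comap]
    have : (Subgroup.comap (iu L) (Subgroup.closure
        (Set.range fun w => iu L (u w) ^ (c' w * k)))).FiniteIndex := by
      apply finiteIndex_of_pow_mem
      apply exists_pow_mem hu
      intro t
      refine ⟨(c' t).toNat * k, Nat.mul_pos (by have := hc'pos t; omega) hk0, ?_⟩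
      rw [Subgroup.mem_comap]
      apply Subgroup.subset_closure
      refine ⟨t, ?_⟩
      change iu L (u t) ^ (c' t * k) = _
      rw [map_pow, ← zpow_natCast]
      congr 1
      push_cast
      rw [Int.toNat_of_nonneg (hc'pos t).le]
    exact this.index_ne_zero

/-- roots of unity are killed by the torsion order -/
theorem pow_torsionOrder {x : Lˣ} {n : ℕ} (hn : 0 < n) (h : x ^ n = 1) :
    x ^ torsionOrder L = 1 := by
  have h1 : x ∈ (iu L).range := by
    rw [mem_iu_range_iff]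
    intro w
    have h2 := ord_pow (R := 𝓞 L) w x n
    rw [h, ord_one] at h2
    exact (mul_eq_zero.mp h2.symm).resolve_left (by exact_mod_cast hn.ne')
  obtain ⟨u, rfl⟩ := h1
  have h3 : u ∈ torsion L := by
    rw [torsion, CommGroup.mem_torsion, isOfFinOrder_iff_pow_eq_one]
    exact ⟨n, hn, iu_inj (by rw [map_pow, h, map_one])⟩
  rw [← rootsOfUnity_eq_torsion] at h3
  rw [← map_pow, (mem_rootsOfUnity _ _).mp h3, map_one]

theorem torsion_le_unit (S : Set (HeightOneSpectrum (𝓞 L))) :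
    CommGroup.torsion Lˣ ≤ S.unit L := by
  intro x hx
  obtain ⟨n, hn, h⟩ := isOfFinOrder_iff_pow_eq_one.mp hx
  rw [mem_unit_iff]
  intro w _
  have h2 := ord_pow (R := 𝓞 L) w x n
  rw [h, ord_one] at h2
  exact (mul_eq_zero.mp h2.symm).resolve_left (by exact_mod_cast hn.ne')

/-- the `S`-units are stable -/
theorem st_unit {S : Set (HeightOneSpectrum (𝓞 L))}
    (hS : ∀ (σ : L ≃ₐ[K] L) (w : HeightOneSpectrum (𝓞 L)), w ∈ S → σ • w ∈ S) :
    St (gal K L) (S.unit L) := by
  intro σ x hx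
  rw [mem_unit_iff] at hx ⊢
  intro w hw
  have h1 : σ⁻¹ • w ∉ S := fun h => hw (by simpa using hS σ _ h)
  have := hx _ h1
  rw [← ord_smul σ, smul_inv_smul] at this
  exact this

/-- the action on a stable set of primes -/
@[reducible] def actS {S : Set (HeightOneSpectrum (𝓞 L))}
    (hS : ∀ (σ : L ≃ₐ[K] L) (w : HeightOneSpectrum (𝓞 L)), w ∈ S → σ • w ∈ S) :
    MulAction (L ≃ₐ[K] L) S where
  smul σ w := ⟨σ • w.1, hS σ _ w.2⟩
  one_smul w := Subtype.ext (one_smul (L ≃ₐ[K] L) w.1)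
  mul_smul σ τ w := Subtype.ext (mul_smul σ τ w.1)

variable {k W : Type*} [CommRing k] [AddCommGroup W] [Module k W]

/-- **Equivariant `S`-unit theorem.**  `w`, `u`: representatives of the orbits of `S` and of the
infinite places. -/
theorem eqU [FiniteDimensional K L] {p : ℕ} [Fact p.Prime] (hp : ¬ p ∣ Nat.card (L ≃ₐ[K] L))
    (ρ : Representation k (L ≃ₐ[K] L) W) (hW : ∀ x : W, p • x = 0)
    {ι κ : Type*} [Fintype ι] [Fintype κ] (w : ι → HeightOneSpectrum (𝓞 L))
    (u : κ → InfinitePlace L) (S : Set (HeightOneSpectrum (𝓞 L)))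
    (hS : ∀ v, v ∈ S ↔ ∃ i, ∃ σ : L ≃ₐ[K] L, σ • (w i).asIdeal = v.asIdeal)
    (hw : ∀ i j (σ : L ≃ₐ[K] L), σ • (w i).asIdeal = (w j).asIdeal → i = j)
    (hu : ∀ t, ∃ j, ∃ σ : L ≃ₐ[K] L, σ • u j = t)
    (hu' : ∀ i j (σ : L ≃ₐ[K] L), σ • u i = u j → i = j) :
    hG (gal K L) ρ (S.unit L) ⊥ * Nat.card (Fx ρ ⊤) =
      hG (gal K L) ρ (CommGroup.torsion Lˣ) ⊥ *
        ((∏ j, Nat.card (Fx ρ (MulAction.stabilizer (L ≃ₐ[K] L) (u j)))) *
          ∏ i, Nat.card (Fx ρ (MulAction.stabilizer (L ≃ₐ[K] L) (w i).asIdeal))) := by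
  classical
  have hst : ∀ (σ : L ≃ₐ[K] L) (v : HeightOneSpectrum (𝓞 L)), v ∈ S → σ • v ∈ S := by
    intro σ v hv
    obtain ⟨i, τ, h⟩ := (hS v).mp hv
    exact (hS _).mpr ⟨i, σ * τ, by rw [mul_smul, h]; rfl⟩
  have hfin : S.Finite := by
    refine (Set.finite_range fun q : ι × (L ≃ₐ[K] L) => q.2 • w q.1).subset fun v hv => ?_
    obtain ⟨i, τ, h⟩ := (hS v).mp hv
    exact ⟨(i, τ), HeightOneSpectrum.ext h⟩
  let _ : Fintype S := hfin.fintype
  let _ : MulAction (L ≃ₐ[K] L) S := actS hst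
  obtain ⟨ε, he1, he2, he3, he4, he5⟩ := exists_herbrand (K := K) (L := L)
  -- equivariant generators of powers of the primes
  choose y0 hy0 using exists_gen (L := L)
  set n : ℕ := Fintype.card (L ≃ₐ[K] L) * hL L with hn
  have hn0 : 0 < n := Nat.mul_pos Fintype.card_pos hL_pos
  let y : S → Lˣ := fun q => ∏ t : L ≃ₐ[K] L, t • y0 (t⁻¹ • q.1)
  have hy1 : ∀ (σ : L ≃ₐ[K] L) (q : S), y (σ • q) = σ • y q := fun σ q =>
    exists_equiv_prod y0 σ q.1
  have hy2 : ∀ (q : S) w', ord (𝓞 L) w' (y q) = if w' = q then (n : ℤ) else 0 := by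
    intro q w'
    have h1 : ∀ t : L ≃ₐ[K] L, ord (𝓞 L) w' (t • y0 (t⁻¹ • q.1)) =
        if w' = q then (hL L : ℤ) else 0 := by
      intro t
      have h2 := ord_smul t (t⁻¹ • w') (y0 (t⁻¹ • q.1))
      rw [smul_inv_smul, hy0] at h2
      rw [h2]
      simp only [smul_left_cancel_iff]
    simp only [y, ord_prod, h1, Finset.sum_const, Finset.card_univ, hn]
    split_ifs <;> simp
  let z : InfinitePlace L ⊕ S → Lˣ := Sum.elim ε y
  have hz : ∀ (σ : L ≃ₐ[K] L) t, z (σ • t) = gal K L σ (z t) := by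
    rintro σ (t | q)
    · exact he1 σ t
    · exact hy1 σ q
  have hordε : ∀ t v, ord (𝓞 L) v (ε t) = 0 := fun t v => (mem_iu_range_iff _).mp (he2 t) v
  have hord : ∀ (c : InfinitePlace L ⊕ S → ℤ) (q : S),
      ord (𝓞 L) q.1 (∏ t, z t ^ c t) = c (.inr q) * n := by
    intro c q
    rw [ord_prod, Fintype.sum_sum_type]
    simp only [z, Sum.elim_inl, Sum.elim_inr, ord_zpow, hordε, hy2, mul_zero, Finset.sum_const_zero,
      zero_add]
    rw [Finset.sum_eq_single q]
    · simp
    · intro q' _ hq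
      rw [if_neg, mul_zero]
      exact fun h5 => hq (Subtype.ext h5.symm)
    · simp
  obtain ⟨t₀⟩ : Nonempty (InfinitePlace L) := inferInstance
  let e : InfinitePlace L ⊕ S → ℤ := Sum.elim (fun _ => 1) (fun _ => 0)
  have hrel : ∀ c : InfinitePlace L ⊕ S → ℤ, ∏ t, z t ^ c t = 1 ↔ ∃ m : ℤ, c = m • e := by
    intro c
    constructor
    · intro h
      have h1 : ∀ q : S, c (.inr q) = 0 := by
        intro q
        have h2 := hord c q
        rw [h, ord_one] at h2
        exact (mul_eq_zero.mp h2.symm).resolve_right (by exact_mod_cast hn0.ne')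
      rw [Fintype.prod_sum_type] at h
      have h2 := he4 (fun t => c (.inl t)) (by simpa [h1, z] using h)
      refine ⟨c (.inl t₀), funext ?_⟩
      rintro (t | q)
      · simp [e, h2 t t₀]
      · simp [e, h1]
    · rintro ⟨m, rfl⟩
      rw [Fintype.prod_sum_type]
      simp [z, e, Finset.prod_zpow, he3]
  have hzU : ∀ t, z t ∈ S.unit L := by
    rintro (t | q)
    · rw [mem_unit_iff]
      exact fun v _ => hordε t v
    · rw [mem_unit_iff]
      intro v hv
      change ord (𝓞 L) v (y q) = 0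
      rw [hy2, if_neg]
      rintro rfl
      exact hv q.2
  have hBU : (mon z).range ≤ S.unit L := by
    rintro _ ⟨c, rfl⟩
    exact prod_mem fun t _ => zpow_mem (hzU t) _
  have hidx : (mon z).range.relIndex (S.unit L) ≠ 0 := by
    -- every `S`-unit has a power in the lattice times the units
    have hcl : Subgroup.closure (Set.range ε) ≤ (mon z).range := by
      rw [Subgroup.closure_le]
      rintro _ ⟨t, rfl⟩
      exact mem_mon z (.inl t)
    have h0 := relIndex_ne_zero S hfin (fun q => y0 q.1) (fun q w' => hy0 q.1 w') _ he5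
      ((mon z).range ⊔ Subgroup.closure (Set.range fun q : S => y0 q.1))
      (hcl.trans le_sup_left)
      (fun q => Subgroup.mem_sup_right (Subgroup.subset_closure ⟨q, rfl⟩))
    refine Subgroup.relIndex_ne_zero_trans ?_ h0
    rw [Subgroup.relIndex_sup_left]
    have hfg : Group.FG (Subgroup.closure (Set.range fun q : S => y0 q.1)) :=
      Group.closure_finite_fg _
    set C := Subgroup.closure (Set.range fun q : S => y0 q.1)
    have hfg' : Group.FG (C ⧸ (mon z).range.subgroupOf C) :=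
      Group.fg_of_surjective (QuotientGroup.mk'_surjective _)
    have hpow : ∀ x ∈ C, ∃ m : ℕ, 0 < m ∧ x ^ m ∈ (mon z).range := by
      intro x hx
      induction hx using Subgroup.closure_induction with
      | mem x hx =>
        obtain ⟨q, rfl⟩ := hx
        have h1 : y0 q.1 ^ Fintype.card (L ≃ₐ[K] L) / y q ∈ (iu L).range := by
          rw [mem_iu_range_iff]
          intro v
          rw [ord_div, ord_pow, hy0, hy2, hn]
          split_ifs <;> simp
        have h2 := Subgroup.pow_relIndex_mem (Subgroup.closure (Set.range ε)) h1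
        refine ⟨Fintype.card (L ≃ₐ[K] L) *
          (Subgroup.closure (Set.range ε)).relIndex (iu L).range,
          Nat.mul_pos Fintype.card_pos (Nat.pos_of_ne_zero he5), ?_⟩
        have h3 := mul_mem (hcl h2) (pow_mem (mem_mon z (.inr q))
          ((Subgroup.closure (Set.range ε)).relIndex (iu L).range))
        rw [← mul_pow] at h3
        rw [pow_mul]
        convert h3 using 2
        exact (div_mul_cancel _ _).symm
      | one => exact ⟨1, one_pos, by simp⟩
      | mul a b _ _ ha hb =>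
        obtain ⟨m, hm, ha⟩ := ha
        obtain ⟨m', hm', hb⟩ := hb
        refine ⟨m * m', Nat.mul_pos hm hm', ?_⟩
        rw [mul_pow]
        refine mul_mem (by rw [pow_mul]; exact pow_mem ha _) ?_
        rw [mul_comm, pow_mul]
        exact pow_mem hb _
      | inv a _ ha =>
        obtain ⟨m, hm, ha⟩ := ha
        exact ⟨m, hm, by rw [inv_pow]; exact inv_mem ha⟩
    have : Finite (C ⧸ (mon z).range.subgroupOf C) := by
      apply CommGroup.finite_of_fg_isMulTorsion
      intro x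
      obtain ⟨a, rfl⟩ := QuotientGroup.mk'_surjective _ x
      obtain ⟨m, hm, hmem⟩ := hpow a a.2
      rw [isOfFinOrder_iff_pow_eq_one]
      refine ⟨m, hm, ?_⟩
      rw [← map_pow]
      exact (QuotientGroup.eq_one_iff _).mpr hmem
    exact Nat.card_pos.ne'
  have hk0 : 0 < torsionOrder L := Nat.pos_of_ne_zero (torsionOrder_ne_zero L)
  have h1 := hG_tors (ρ := ρ) (T := CommGroup.torsion Lˣ) hp hW (st_unit hst) (st_mon hz) hBU hidx
    (torsionOrder L) hk0 (fun x => ⟨fun hx => ⟨torsion_le_unit S hx, by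
      obtain ⟨m, hm, h⟩ := isOfFinOrder_iff_pow_eq_one.mp hx
      exact pow_torsionOrder hm h⟩, fun hx => isOfFinOrder_iff_pow_eq_one.mpr ⟨_, hk0, hx.2⟩⟩)
    (fun x _ m hm h => pow_torsionOrder hm h) (by
      rintro _ ⟨c, rfl⟩ h
      rw [← map_pow] at h
      obtain ⟨m, hm⟩ := (hrel (torsionOrder L • Multiplicative.toAdd c)).mp h
      refine (hrel (Multiplicative.toAdd c)).mpr ⟨Multiplicative.toAdd c (.inl t₀), funext ?_⟩
      have h5 : (torsionOrder L : ℤ) ≠ 0 := by exact_mod_cast hk0.ne'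
      rintro (t | q)
      · have a1 := congrFun hm (.inl t)
        have a2 := congrFun hm (.inl t₀)
        simp only [e, Pi.smul_apply, Sum.elim_inl, smul_eq_mul, mul_one, nsmul_eq_mul] at a1 a2 ⊢
        exact mul_left_cancel₀ h5 (a1.trans a2.symm)
      · have a1 := congrFun hm (.inr q)
        simp only [e, Pi.smul_apply, Sum.elim_inr, smul_eq_mul, mul_zero, nsmul_eq_mul] at a1 ⊢
        exact (mul_eq_zero.mp a1).resolve_left h5)
  have h2 := hG_mon_rel (ρ := ρ) hp hW hz e (by rintro σ (t | q) <;> rfl) (.inl t₀) rfl hrel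
  let x : κ ⊕ ι → InfinitePlace L ⊕ S :=
    Sum.map u fun i => ⟨w i, (hS _).mpr ⟨i, 1, one_smul _ _⟩⟩
  have h3 := card_EqF ρ x (by
      rintro (t | q)
      · obtain ⟨j, σ, h⟩ := hu t
        exact ⟨.inl j, σ, congrArg Sum.inl h⟩
      · obtain ⟨i, σ, h⟩ := (hS q.1).mp q.2
        exact ⟨.inr i, σ, congrArg Sum.inr (Subtype.ext (HeightOneSpectrum.ext h))⟩) (by
      rintro (i | i) (j | j) σ h
      · exact congrArg Sum.inl (hu' i j σ (Sum.inl_injective h))
      · exact absurd h Sum.inl_ne_inr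
      · exact absurd h Sum.inr_ne_inl
      · exact congrArg Sum.inr (hw i j σ
          (congrArg (fun t : S => t.1.asIdeal) (Sum.inr_injective h))))
  rw [h1, mul_assoc, h2, h3, Fintype.prod_sum_type]
  congr 2
  · refine Finset.prod_congr rfl fun j _ => ?_
    have : MulAction.stabilizer (L ≃ₐ[K] L) (x (.inl j)) =
        MulAction.stabilizer (L ≃ₐ[K] L) (u j) := by
      ext σ
      exact ⟨fun h => Sum.inl_injective h, fun h => congrArg Sum.inl h⟩
    rw [this]
  · refine Finset.prod_congr rfl fun i _ => ?_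
    have : MulAction.stabilizer (L ≃ₐ[K] L) (x (.inr i)) =
        MulAction.stabilizer (L ≃ₐ[K] L) (w i).asIdeal := by
      ext σ
      exact ⟨fun h => congrArg (fun t : S => t.1.asIdeal) (Sum.inr_injective h),
        fun h => congrArg Sum.inr (Subtype.ext (HeightOneSpectrum.ext h))⟩
    rw [this]

end Crest.Agent.T15.EqU
end
end

-- ▼ part T15/EqUC_16
section

/-!
# Row 15, block C: the equivariant `S`-unit theorem, dimension form
-/

set_option autoImplicit false

noncomputable section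

open NumberField NumberField.InfinitePlace NumberField.Units Module IsDedekindDomain
open scoped Pointwise

namespace Crest.Agent.T15.EqU

section Abs

variable {k G M W : Type*} [Group G] [CommGroup M] [AddCommGroup W]

theorem finite_HG [CommRing k] [Module k W] [Finite W] (α : G →* Monoid.End M)
    (ρ : Representation k G W) (A B : Subgroup M) [Group.FG A] : Finite (HG α ρ A B) := by
  obtain ⟨S, hS, hfin⟩ := (Group.fg_iff (G := A)).mp inferInstance
  have := hfin.to_subtype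
  refine Finite.of_injective (fun (φ : HG α ρ A B) (s : S) => φ.1 (Additive.ofMul s.1)) ?_
  intro φ ψ h
  apply Subtype.ext
  apply AddMonoidHom.ext
  intro x
  have hx : (Additive.toMul x : A) ∈ Subgroup.closure S := hS ▸ Subgroup.mem_top _
  change φ.1 (Additive.ofMul (Additive.toMul x)) = ψ.1 (Additive.ofMul (Additive.toMul x))
  generalize Additive.toMul x = y at hx
  induction hx using Subgroup.closure_induction with
  | mem y hy => exact congrFun h ⟨y, hy⟩
  | one => simp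
  | mul a b _ _ ha hb => rw [ofMul_mul, map_add, map_add, ha, hb]
  | inv a _ ha => rw [ofMul_inv, map_neg, map_neg, ha]

theorem smul_char [CommRing k] [Module k W] (p : ℕ) [CharP k p] (x : W) : p • x = 0 := by
  rw [← Nat.cast_smul_eq_nsmul k, CharP.cast_eq_zero, zero_smul]

/-- cardinality of a finite vector space -/
theorem card_eq_pow [Field k] [Finite k] (V : Type*) [AddCommGroup V] [Module k V] [Finite V] :
    Nat.card V = Nat.card k ^ finrank k V := by
  have : Module.Finite k V := Module.Finite.of_finite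
  exact Module.natCard_eq_pow_finrank

theorem pow_card_inj [Field k] [Finite k] {a b : ℕ} (h : Nat.card k ^ a = Nat.card k ^ b) : a = b :=
  Nat.pow_right_injective (Finite.one_lt_card (α := k)) h



end Abs

variable {K L : Type*} [Field K] [Field L] [Algebra K L] [NumberField L]

theorem finite_torsion : Finite (CommGroup.torsion Lˣ) := by
  have : NeZero (torsionOrder L) := ⟨torsionOrder_ne_zero L⟩
  refine Finite.of_injective (fun x : CommGroup.torsion Lˣ => (⟨x.1, by
    obtain ⟨n, hn, h⟩ := isOfFinOrder_iff_pow_eq_one.mp x.2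
    exact pow_torsionOrder hn h⟩ : rootsOfUnity (torsionOrder L) L)) ?_
  intro x y h
  exact Subtype.ext (congrArg (fun t : rootsOfUnity (torsionOrder L) L => t.1) h)

variable {k W : Type*} [Field k] [Finite k] [AddCommGroup W] [Module k W] [Module.Finite k W]

/-- **Equivariant `S`-unit theorem**, dimension form. -/
theorem eqU_finrank [FiniteDimensional K L] {p : ℕ} [Fact p.Prime] [CharP k p]
    (hp : ¬ p ∣ Nat.card (L ≃ₐ[K] L)) (ρ : Representation k (L ≃ₐ[K] L) W)
    {ι κ : Type*} [Fintype ι] [Fintype κ] (w : ι → HeightOneSpectrum (𝓞 L))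
    (u : κ → InfinitePlace L) (S : Set (HeightOneSpectrum (𝓞 L)))
    (hS : ∀ v, v ∈ S ↔ ∃ i, ∃ σ : L ≃ₐ[K] L, σ • (w i).asIdeal = v.asIdeal)
    (hw : ∀ i j (σ : L ≃ₐ[K] L), σ • (w i).asIdeal = (w j).asIdeal → i = j)
    (hu : ∀ t, ∃ j, ∃ σ : L ≃ₐ[K] L, σ • u j = t)
    (hu' : ∀ i j (σ : L ≃ₐ[K] L), σ • u i = u j → i = j) :
    Finite (HG (gal K L) ρ (S.unit L) ⊥) ∧
    finrank k (HG (gal K L) ρ (S.unit L) ⊥) + finrank k (Fx ρ ⊤) =
      finrank k (HG (gal K L) ρ (CommGroup.torsion Lˣ) ⊥) +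
        ((∑ j, finrank k (Fx ρ (MulAction.stabilizer (L ≃ₐ[K] L) (u j)))) +
          ∑ i, finrank k (Fx ρ (MulAction.stabilizer (L ≃ₐ[K] L) (w i).asIdeal))) := by
  have hWf : Finite W := Module.finite_of_finite k
  have h := eqU hp ρ (smul_char (k := k) p) w u S hS hw hu hu'
  have := finite_torsion (L := L)
  have h1 : Finite (HG (gal K L) ρ (CommGroup.torsion Lˣ) ⊥) := finite_HG _ _ _ _
  have h2 : ∀ H, Nat.card (Fx ρ H) = Nat.card k ^ finrank k (Fx ρ H) := fun H => card_eq_pow _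
  simp only [h2, Finset.prod_pow_eq_pow_sum] at h
  unfold hG at h
  rw [card_eq_pow (k := k) (HG (gal K L) ρ (CommGroup.torsion Lˣ) ⊥), ← pow_add, ← pow_add] at h
  have h3 : Finite (HG (gal K L) ρ (S.unit L) ⊥) := by
    apply Nat.finite_of_card_ne_zero
    intro h0
    rw [h0, zero_mul] at h
    exact (pow_pos Nat.card_pos _).ne h
  refine ⟨h3, ?_⟩
  rw [card_eq_pow (k := k), ← pow_add] at h
  exact pow_card_inj h

/-- the case of a Galois extension of `ℚ`: `S` = the primes above the rational primes `l i`,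
`c` = complex conjugation for the embedding `φ`. -/
theorem eqU_rat {L : Type*} [Field L] [NumberField L] [IsGalois ℚ L] {p : ℕ} [Fact p.Prime]
    [CharP k p] (hp : ¬ p ∣ Nat.card (L ≃ₐ[ℚ] L)) (ρ : Representation k (L ≃ₐ[ℚ] L) W)
    {ι : Type*} [Fintype ι] (l : ι → ℕ) (hl : ∀ i, (l i).Prime) (hinj : Function.Injective l)
    (w : ι → HeightOneSpectrum (𝓞 L)) (hw : ∀ i, ((l i : ℕ) : 𝓞 L) ∈ (w i).asIdeal)
    (S : Set (HeightOneSpectrum (𝓞 L))) (hS : ∀ v, v ∈ S ↔ ∃ i, ((l i : ℕ) : 𝓞 L) ∈ v.asIdeal)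
    (u : InfinitePlace L) :
    Finite (HG (gal ℚ L) ρ (S.unit L) ⊥) ∧
    finrank k (HG (gal ℚ L) ρ (S.unit L) ⊥) + finrank k (Fx ρ ⊤) =
      finrank k (HG (gal ℚ L) ρ (CommGroup.torsion Lˣ) ⊥) +
        (finrank k (Fx ρ (MulAction.stabilizer (L ≃ₐ[ℚ] L) u)) +
          ∑ i, finrank k (Fx ρ (MulAction.stabilizer (L ≃ₐ[ℚ] L) (w i).asIdeal))) := by
  have hover : ∀ (q : ℕ), q.Prime → ∀ v : HeightOneSpectrum (𝓞 L), ((q : ℕ) : 𝓞 L) ∈ v.asIdeal →
      v.asIdeal.LiesOver (Ideal.span {(q : ℤ)}) := by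
    intro q hq v hv
    refine ⟨?_⟩
    have hmax : (Ideal.span {(q : ℤ)}).IsMaximal :=
      PrincipalIdealRing.isMaximal_of_irreducible (Nat.prime_iff_prime_int.mp hq).irreducible
    refine hmax.eq_of_le (Ideal.comap_ne_top _ v.isPrime.ne_top) ?_
    rw [Ideal.span_le, Set.singleton_subset_iff]
    change algebraMap ℤ (𝓞 L) (q : ℤ) ∈ v.asIdeal
    simpa using hv
  have hsm : ∀ (σ : L ≃ₐ[ℚ] L) (I : Ideal (𝓞 L)) (q : ℕ), (q : 𝓞 L) ∈ I → (q : 𝓞 L) ∈ σ • I := by
    intro σ I q h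
    have h1 := Ideal.smul_mem_pointwise_smul σ _ I h
    have h2 : σ • (q : 𝓞 L) = q := map_natCast (MulSemiringAction.toRingHom _ (𝓞 L) σ) q
    rwa [h2] at h1
  have h := eqU_finrank (K := ℚ) hp ρ w (fun _ : Unit => u) S (fun v => ?_) (fun i j σ h => ?_)
    (fun t => ?_) (fun _ _ _ _ => rfl)
  · simpa using h
  · rw [hS]
    refine exists_congr fun i => ⟨fun hv => ?_, ?_⟩
    · have := hover _ (hl i) _ hv
      have := hover _ (hl i) _ (hw i)
      have := v.isPrime
      have := (w i).isPrime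
      exact Ideal.exists_smul_eq_of_isGaloisGroup (Ideal.span {(l i : ℤ)}) _ _ _
    · rintro ⟨σ, h⟩
      rw [← h]
      exact hsm σ _ _ (hw i)
  · apply hinj
    by_contra hne
    have h1 := hsm σ _ _ (hw i)
    rw [h] at h1
    have h2 : IsCoprime ((l i : ℕ) : 𝓞 L) ((l j : ℕ) : 𝓞 L) :=
      ((Nat.coprime_primes (hl i) (hl j)).mpr hne).cast
    obtain ⟨a, b, hab⟩ := h2
    apply (w j).isPrime.ne_top
    rw [Ideal.eq_top_iff_one, ← hab]
    exact add_mem (Ideal.mul_mem_left _ _ h1) (Ideal.mul_mem_left _ _ (hw j))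
  · obtain ⟨σ, hσ⟩ := exists_smul_eq_of_comap_eq (k := ℚ) (w := u) (w' := t) (Subsingleton.elim _ _)
    exact ⟨(), σ, hσ⟩

omit [Finite k] [Module.Finite k W] [NumberField L] in
/-- the vectors fixed by the stabiliser of a complex place -/
theorem mem_Fx_conj (ρ : Representation k (L ≃ₐ[K] L) W) (φ : L →+* ℂ) (c : L ≃ₐ[K] L)
    (hc : ComplexEmbedding.IsConj φ c) (x : W) :
    x ∈ Fx ρ (MulAction.stabilizer (L ≃ₐ[K] L) (InfinitePlace.mk φ)) ↔ ρ c x = x := by
  constructor
  · exact fun h => h c ((mem_stabilizer_mk_iff φ c).mpr (Or.inr hc))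
  · intro h σ hσ
    rcases (mem_stabilizer_mk_iff φ σ).mp hσ with rfl | h1
    · rw [map_one]; rfl
    · rw [h1.ext hc, h]

end Crest.Agent.T15.EqU
end
end

-- ▼ part T15/EqUD_16
section

/-!
# Row 15, block C: the equivariant `S`-unit theorem for an open normal subgroup of `Gal(E/ℚ)`
-/

set_option autoImplicit false

noncomputable section

open NumberField NumberField.InfinitePlace Module IsDedekindDomain
open scoped Pointwise

namespace Crest.Agent.T15.EqU

open Crest.Agent.R018.Placesx484 Crest.Agent.R018.FDEx389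

section Grp

variable {k G G' M W : Type*} [CommRing k] [Group G] [Group G'] [CommGroup M] [AddCommGroup W]
  [Module k W]

theorem HG_comp (r : G →* G') (hr : Function.Surjective r) (α : G' →* Monoid.End M)
    (ρ : Representation k G' W) (A B : Subgroup M) :
    HG (α.comp r) (ρ.comp r) A B = HG α ρ A B := by
  ext φ
  refine and_congr_left fun _ => ⟨fun h g x y hxy => ?_, fun h g x y hxy => h (r g) x y hxy⟩
  obtain ⟨g, rfl⟩ := hr g
  exact h g x y hxy

theorem Fx_comp (r : G →* G') (ρ : Representation k G' W) (H : Subgroup G) :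
    Fx (ρ.comp r) H = Fx ρ (H.map r) := by
  ext w
  refine ⟨?_, fun h g hg => h (r g) ⟨g, hg, rfl⟩⟩
  rintro h _ ⟨g, hg, rfl⟩
  exact h g hg

theorem mem_Fx_zpowers (ρ : Representation k G W) (c : G) (w : W) :
    w ∈ Fx ρ (Subgroup.zpowers c) ↔ ρ c w = w := by
  refine ⟨fun h => h c (Subgroup.mem_zpowers c), fun h => ?_⟩
  have : Subgroup.zpowers c ≤
      { carrier := {g | ρ g w = w}
        mul_mem' := fun {a b} ha hb => by
          change ρ (a * b) w = w
          rw [map_mul, Module.End.mul_apply, show ρ b w = w from hb, show ρ a w = w from ha]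
        one_mem' := by
          change ρ 1 w = w
          rw [map_one]; rfl
        inv_mem' := fun {a} ha => by
          change ρ a⁻¹ w = w
          conv_lhs => rw [← show ρ a w = w from ha]
          rw [← Module.End.mul_apply, ← map_mul, inv_mul_cancel, map_one]; rfl } := by
    rw [Subgroup.zpowers_le]
    exact h
  exact fun g hg => this hg


end Grp

variable {E : Type} [Field E] [CharZero E] [IsGalois ℚ E]

/-- the units of `K = E^N` away from the primes dividing `M`, as a subgroup of `Eˣ` -/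
def US (N : Subgroup (E ≃ₐ[ℚ] E)) (M : ℕ) : Subgroup Eˣ where
  carrier := {x | (∀ h ∈ N, h (x : E) = x) ∧ ∀ P : Place E, ¬ P.rchar ∣ M → P.v (x : E) = 1}
  mul_mem' := fun ha hb => ⟨fun h hh => by rw [Units.val_mul, map_mul, ha.1 h hh, hb.1 h hh],
    fun P hP => by rw [Units.val_mul, map_mul, ha.2 P hP, hb.2 P hP, one_mul]⟩
  one_mem' := ⟨fun h _ => by simp, fun P _ => by simp⟩
  inv_mem' := fun ha => ⟨fun h hh => by rw [Units.val_inv_eq_inv_val, map_inv₀, ha.1 h hh],
    fun P hP => by rw [Units.val_inv_eq_inv_val, map_inv₀, ha.2 P hP, inv_one]⟩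


/-- the roots of unity of `K = E^N` -/
def MU (N : Subgroup (E ≃ₐ[ℚ] E)) : Subgroup Eˣ where
  carrier := {x | (∀ h ∈ N, h (x : E) = x) ∧ IsOfFinOrder x}
  mul_mem' := fun ha hb => ⟨fun h hh => by rw [Units.val_mul, map_mul, ha.1 h hh, hb.1 h hh],
    ha.2.mul hb.2⟩
  one_mem' := ⟨fun h _ => by simp, IsOfFinOrder.one⟩
  inv_mem' := fun ha => ⟨fun h hh => by rw [Units.val_inv_eq_inv_val, map_inv₀, ha.1 h hh],
    ha.2.inv⟩

/-- the inclusion `Kˣ → Eˣ` -/
def inc (K : IntermediateField ℚ E) : Kˣ →* Eˣ := Units.map (algebraMap K E : K →* E)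

omit [IsGalois ℚ E] in
theorem inc_inj (K : IntermediateField ℚ E) : Function.Injective (inc K) := fun _ _ h =>
  Units.ext ((algebraMap K E).injective (congrArg Units.val h))

omit [IsGalois ℚ E] in
theorem mem_range_inc (N : Subgroup (E ≃ₐ[ℚ] E)) (x : Eˣ) (hx : ∀ h ∈ N, h (x : E) = x) :
    ∃ y, inc (IntermediateField.fixedField N) y = x :=
  ⟨Units.mk0 ⟨x, (IntermediateField.mem_fixedField_iff N _).mpr hx⟩
    (fun h => x.ne_zero (congrArg Subtype.val h)), Units.ext rfl⟩

omit [IsGalois ℚ E] in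
theorem fix_inc (N : Subgroup (E ≃ₐ[ℚ] E)) (y : (IntermediateField.fixedField N)ˣ) :
    ∀ h ∈ N, h (inc _ y : E) = inc _ y :=
  (IntermediateField.mem_fixedField_iff N _).mp (y : IntermediateField.fixedField N).2

/-- the prime of a number field given by a place -/
def hos {K : Type*} [Field K] (Q : Place K) : HeightOneSpectrum (𝓞 K) :=
  ⟨Q.ideal, Q.isPrime, Q.ne_bot⟩

theorem v_eq_one_iff_hos {K : Type*} [Field K] [NumberField K] (Q : Place K) (x : Kˣ) :
    Q.v (x : K) = 1 ↔ (hos Q).valuation K (x : K) = 1 := by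
  have h1 := Q.numberField_val_iff (x : K)
  have h2 := Q.numberField_val_iff ((x : K)⁻¹)
  rw [map_inv₀, map_inv₀, inv_le_one₀ (zero_lt_iff.mpr ((map_ne_zero _).mpr x.ne_zero)),
    inv_le_one₀ (zero_lt_iff.mpr ((map_ne_zero _).mpr x.ne_zero))] at h2
  rw [le_antisymm_iff, le_antisymm_iff]
  exact and_congr h1 h2

/-- `US N M` is the image of the `S`-unit group of the fixed field -/
theorem map_unit (N : Subgroup (E ≃ₐ[ℚ] E)) [NumberField (IntermediateField.fixedField N)]
    (M : ℕ) (S : Set (HeightOneSpectrum (𝓞 (IntermediateField.fixedField N))))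
    (hS : ∀ v, v ∈ S ↔ ∃ l : ℕ, l.Prime ∧ l ∣ M ∧ ((l : ℕ) : 𝓞 _) ∈ v.asIdeal) :
    (S.unit (IntermediateField.fixedField N)).map (inc _) = US N M := by
  let K := IntermediateField.fixedField N
  have key : ∀ P : Place E, hos (P.res K) ∈ S ↔ P.rchar ∣ M := by
    intro P
    rw [hS]
    constructor
    · rintro ⟨l, hl, hlM, h⟩
      rw [← Place.rchar_res K P, Place.rchar_eq_of_mem _ hl h]
      exact hlM
    · intro h
      exact ⟨_, P.rchar_prime, h, by rw [← Place.rchar_res K P]; exact (P.res K).rchar_mem⟩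
  ext x
  constructor
  · rintro ⟨y, hy, rfl⟩
    refine ⟨fix_inc N y, fun P hP => ?_⟩
    exact (Place.v_res_eq_one_iff K P _).mp
      ((v_eq_one_iff_hos _ y).mpr (hy _ (mt (key P).mp hP)))
  · rintro ⟨h1, h2⟩
    obtain ⟨y, rfl⟩ := mem_range_inc N x h1
    refine ⟨y, fun v hv => ?_, rfl⟩
    obtain ⟨P, hP⟩ := Place.exists_res_eq (E := E) K (⟨v.asIdeal, v.isPrime, v.ne_bot⟩ : Place K)
    have h3 : hos (P.res K) = v := by rw [hP]; rfl
    rw [← h3] at hv ⊢
    exact (v_eq_one_iff_hos _ y).mp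
      ((Place.v_res_eq_one_iff K P _).mpr (h2 P (mt (key P).mpr hv)))

omit [IsGalois ℚ E] in
theorem map_torsion (N : Subgroup (E ≃ₐ[ℚ] E)) :
    (CommGroup.torsion (IntermediateField.fixedField N)ˣ).map (inc _) = MU N := by
  ext x
  constructor
  · rintro ⟨y, hy, rfl⟩
    exact ⟨fix_inc N y, MonoidHom.isOfFinOrder _ hy⟩
  · rintro ⟨h1, h2⟩
    obtain ⟨y, rfl⟩ := mem_range_inc N x h1
    exact ⟨y, (inc_inj _).isOfFinOrder_iff.mp h2, rfl⟩

section Res

variable (K : IntermediateField ℚ E) [Normal ℚ K]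

omit [IsGalois ℚ E] in
theorem res_int (f : E ≃ₐ[ℚ] E) (x : 𝓞 K) :
    algebraMap (𝓞 K) (𝓞 E) (AlgEquiv.restrictNormalHom K f • x) =
      f • algebraMap (𝓞 K) (𝓞 E) x := by
  apply RingOfIntegers.coe_injective
  exact AlgEquiv.restrictNormal_commutes f K (x : K)

omit [IsGalois ℚ E] in
theorem res_smul_place (f : E ≃ₐ[ℚ] E) (P : Place E) :
    (f • P).res K = AlgEquiv.restrictNormalHom K f • P.res K := by
  ext x
  rw [Place.mem_res, Place.mem_smul_ideal, Place.mem_smul_ideal, Place.mem_res, ← map_inv, res_int]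

/-- the decomposition group of a place maps onto the decomposition group below -/
theorem map_stabilizer (P : Place E) :
    (MulAction.stabilizer (E ≃ₐ[ℚ] E) P).map (AlgEquiv.restrictNormalHom K) =
      MulAction.stabilizer (K ≃ₐ[ℚ] K) (P.res K).ideal := by
  ext s
  constructor
  · rintro ⟨g, hg, rfl⟩
    have h := res_smul_place K g P
    rw [show g • P = P from hg] at h
    exact (congrArg Place.ideal h).symm
  · intro hs
    obtain ⟨g, rfl⟩ := AlgEquiv.restrictNormalHom_surjective (F := ℚ) (K₁ := K) (E := E) s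
    have h1 : (g • P).res K = P.res K := by
      rw [res_smul_place]
      exact Place.ext hs
    obtain ⟨t, ht⟩ := Place.exists_smul_eq_of_res_eq (M := K) _ _ h1
    refine ⟨t.restrictScalars ℚ * g, ?_, ?_⟩
    · change (t.restrictScalars ℚ * g) • P = P
      rw [mul_smul]
      exact ht
    · rw [map_mul]
      have : AlgEquiv.restrictNormalHom K (t.restrictScalars ℚ) = 1 := by
        ext x
        have h2 := AlgEquiv.restrictNormal_commutes (t.restrictScalars ℚ) K x
        exact h2.trans (t.commutes x)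
      rw [this, one_mul]

end Res

theorem exists_conj : ∃ (φ : E →+* ℂ) (c : E ≃ₐ[ℚ] E), ComplexEmbedding.IsConj φ c := by
  let φ : E →ₐ[ℚ] ℂ := IsAlgClosed.lift
  obtain ⟨σ, hσ⟩ := NumberField.ComplexEmbedding.exists_comp_symm_eq_of_comp_eq (k := ℚ) (φ : E →+* ℂ)
    (ComplexEmbedding.conjugate (φ : E →+* ℂ)) (Subsingleton.elim _ _)
  exact ⟨φ, σ.symm, hσ.symm⟩

variable {k W : Type*} [Field k] [Finite k] [AddCommGroup W] [Module k W] [Module.Finite k W]

/-- **Equivariant `S`-unit theorem** in `Gal(E/ℚ)` words. -/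
theorem eqU_gam {p : ℕ} [Fact p.Prime] [CharP k p] (N : Subgroup (E ≃ₐ[ℚ] E)) [N.Normal]
    (ho : IsOpen (N : Set (E ≃ₐ[ℚ] E))) (hp : ¬ p ∣ N.index) (ρ : Representation k (E ≃ₐ[ℚ] E) W)
    (hρ : ∀ n ∈ N, ρ n = 1) {M : ℕ} (hM : M ≠ 0) (P : ℕ → Place E)
    (hP : ∀ l ∈ M.primeFactors, (P l).rchar = l) (φ : E →+* ℂ) (c : E ≃ₐ[ℚ] E)
    (hc : ComplexEmbedding.IsConj φ c) :
    Finite (HG (gal ℚ E) ρ (US N M) ⊥) ∧
    finrank k (HG (gal ℚ E) ρ (US N M) ⊥) + finrank k (Fx ρ ⊤) =
      finrank k (HG (gal ℚ E) ρ (MU N) ⊥) + (finrank k (Fx ρ (Subgroup.zpowers c)) +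
        ∑ l ∈ M.primeFactors, finrank k (Fx ρ (MulAction.stabilizer (E ≃ₐ[ℚ] E) (P l)))) := by
  obtain ⟨hfix, hfin, hgal⟩ := fixedField_facts N ho
  set K := IntermediateField.fixedField N with hK
  have : NumberField K := { to_charZero := inferInstance, to_finiteDimensional := hfin }
  let r : (E ≃ₐ[ℚ] E) →* (K ≃ₐ[ℚ] K) := AlgEquiv.restrictNormalHom K
  have hr : Function.Surjective r := AlgEquiv.restrictNormalHom_surjective E
  have hker : r.ker = N := by
    rw [← hfix]
    exact IntermediateField.restrictNormalHom_ker K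
  have hcard : Nat.card (K ≃ₐ[ℚ] K) = N.index := by
    rw [← hker, Subgroup.index_ker, MonoidHom.range_eq_top.mpr hr, Subgroup.card_top]
  let ρu : (K ≃ₐ[ℚ] K) →* (W →ₗ[k] W)ˣ :=
    r.liftOfSurjective hr ⟨ρ.toHomUnits, fun g hg => Units.ext (hρ g (hker ▸ hg))⟩
  let ρ' : Representation k (K ≃ₐ[ℚ] K) W := (Units.coeHom _).comp ρu
  have hρ' : ρ'.comp r = ρ := by
    refine MonoidHom.ext fun g => ?_
    exact congrArg Units.val (r.liftOfRightInverse_comp_apply _ _ _ g)
  let S : Set (HeightOneSpectrum (𝓞 K)) := {v | ∃ l : M.primeFactors, ((l : ℕ) : 𝓞 K) ∈ v.asIdeal}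
  have h := eqU_rat (k := k) (L := K) (hcard ▸ hp) ρ' (fun l : M.primeFactors => (l : ℕ))
    (fun l => Nat.prime_of_mem_primeFactors l.2) Subtype.val_injective
    (fun l => hos ((P l).res K)) (fun l => by
      have h1 := ((P l).res K).rchar_mem
      rwa [Place.rchar_res, hP l l.2] at h1) S (fun _ => Iff.rfl)
    (InfinitePlace.mk (φ.comp (algebraMap K E)))
  have hπ : ∀ g x, inc K (((gal ℚ K).comp r) g x) = gal ℚ E g (inc K x) := fun g x =>
    Units.ext (AlgEquiv.restrictNormal_commutes g K (x : K))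
  have tr : ∀ A : Subgroup Kˣ, St (gal ℚ K) A →
      Nat.card (HG (gal ℚ E) ρ (A.map (inc K)) ⊥) = Nat.card (HG (gal ℚ K) ρ' A ⊥) := by
    intro A hA
    have h1 := hG_map ((gal ℚ K).comp r) ρ (inc K) hπ (A := A) (fun g x hx => hA (r g) x hx) ⊥
    rw [MonoidHom.comap_bot, (MonoidHom.ker_eq_bot_iff _).mpr (inc_inj K)] at h1
    unfold hG at h1
    rw [h1, ← hρ', HG_comp r hr]
  have hU : (S.unit K).map (inc K) = US N M := map_unit N M S fun v =>
    ⟨fun ⟨l, hl⟩ => ⟨l, Nat.prime_of_mem_primeFactors l.2, Nat.dvd_of_mem_primeFactors l.2, hl⟩,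
      fun ⟨l, h1, h2, h3⟩ => ⟨⟨l, Nat.mem_primeFactors.mpr ⟨h1, h2, hM⟩⟩, h3⟩⟩
  have hWf : Finite W := Module.finite_of_finite k
  have t1 := tr (S.unit K) (st_unit fun σ v ⟨l, hl⟩ => ⟨l, by
    have h1 := Ideal.smul_mem_pointwise_smul σ _ v.asIdeal hl
    have h2 : σ • ((l : ℕ) : 𝓞 K) = (l : ℕ) :=
      map_natCast (MulSemiringAction.toRingHom _ (𝓞 K) σ) l
    rwa [h2] at h1⟩)
  have t2 := tr (CommGroup.torsion Kˣ) fun g x hx => MonoidHom.isOfFinOrder (gal ℚ K g) hx
  rw [hU] at t1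
  rw [map_torsion] at t2
  obtain ⟨f1, h⟩ := h
  have := finite_torsion (L := K)
  have f2 : Finite (HG (gal ℚ K) ρ' (CommGroup.torsion Kˣ) ⊥) := finite_HG _ _ _ _
  have f3 : Finite (HG (gal ℚ E) ρ (US N M) ⊥) :=
    Nat.finite_of_card_ne_zero (t1 ▸ Nat.card_pos.ne')
  have f4 : Finite (HG (gal ℚ E) ρ (MU N) ⊥) :=
    Nat.finite_of_card_ne_zero (t2 ▸ Nat.card_pos.ne')
  rw [card_eq_pow (k := k), card_eq_pow (k := k) (HG (gal ℚ K) ρ' _ ⊥)] at t1 t2
  refine ⟨f3, ?_⟩
  have e1 : Fx ρ ⊤ = Fx ρ' ⊤ := by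
    rw [← hρ', Fx_comp, Subgroup.map_top_of_surjective r hr]
  have e2 : Fx ρ (Subgroup.zpowers c) = Fx ρ' (MulAction.stabilizer (K ≃ₐ[ℚ] K)
      (InfinitePlace.mk (φ.comp (algebraMap K E)))) := by
    ext x
    rw [mem_Fx_zpowers, mem_Fx_conj ρ' _ (r c), ← hρ']
    · rfl
    · refine RingHom.ext fun y => ?_
      have h1 : algebraMap K E (r c y) = c (algebraMap K E y) :=
        AlgEquiv.restrictNormal_commutes c K y
      change star (φ (algebraMap K E y)) = φ (algebraMap K E (r c y))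
      rw [h1, hc.eq]
  have e3 : ∀ l, finrank k (Fx ρ (MulAction.stabilizer (E ≃ₐ[ℚ] E) (P l))) =
      finrank k (Fx ρ' (MulAction.stabilizer (K ≃ₐ[ℚ] K) (hos ((P l).res K)).asIdeal)) := by
    intro l
    rw [← hρ', Fx_comp, map_stabilizer]
    rfl
  simp only [e3]
  rw [pow_card_inj t1, pow_card_inj t2, e1, e2, h, ← Finset.sum_coe_sort M.primeFactors]

end Crest.Agent.T15.EqU
end
end

-- ▼ part T15/EqUE_16
section

/-!
# Row 15, block C: the leaf `EqStmt`
-/

set_option autoImplicit false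

noncomputable section

open NumberField Module

namespace Crest.Agent.T15.EqU

open Crest.Agent.R018.Placesx484 Crest.Agent.T15.C Crest.Agent.T15.Ps

theorem st_US {E : Type} [Field E] [CharZero E] [IsGalois ℚ E] (N : Subgroup (E ≃ₐ[ℚ] E))
    [hN : N.Normal] (M : ℕ) : St (gal ℚ E) (US N M) := by
  rintro g x ⟨h1, h2⟩
  refine ⟨fun n hn => ?_, fun P hP => ?_⟩
  · have := h1 _ (hN.conj_mem n hn g⁻¹)
    rw [inv_inv, AlgEquiv.mul_apply, AlgEquiv.mul_apply] at this
    rw [coe_gal]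
    simpa using congrArg g this
  · have h3 := h2 (g⁻¹ • P) (by rwa [Place.rchar_smul])
    have h4 := Place.v_smul_smul_le_one g (g⁻¹ • P) (x : E)
    have h5 := Place.v_smul_smul_lt_one g (g⁻¹ • P) (x : E)
    rw [smul_inv_smul, h3] at h4 h5
    exact le_antisymm (h4.mpr le_rfl) (not_lt.mp fun h => lt_irrefl _ (h5.mp h))

section Ad

variable {k G : Type*} [CommRing k] [Group G]

variable (k) in
/-- trace zero matrices -/
def W0 : Submodule k (M2 k) := LinearMap.ker (Matrix.traceLinearMap (Fin 2) k k)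

theorem mem_W0 {w : M2 k} : w ∈ W0 k ↔ w.trace = 0 := Iff.rfl

theorem trace_conj (ρ : G →* M2 k) (g : G) (w : M2 k) : (ρ g * w * ρ g⁻¹).trace = w.trace := by
  rw [Matrix.trace_mul_cycle, ← map_mul, inv_mul_cancel, map_one, one_mul]

/-- the adjoint representation on trace zero matrices -/
def ad0 (ρ : G →* M2 k) : Representation k G (W0 k) where
  toFun g :=
    { toFun := fun w => ⟨ρ g * w * ρ g⁻¹, by rw [mem_W0, trace_conj]; exact w.2⟩
      map_add' := fun a b => Subtype.ext (by simp [mul_add, add_mul])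
      map_smul' := fun c a => Subtype.ext (by simp) }
  map_one' := by
    ext w : 1
    exact Subtype.ext (by simp)
  map_mul' g h := by
    ext w : 1
    exact Subtype.ext (by simp [mul_assoc])

theorem ad0_apply (ρ : G →* M2 k) (g : G) (w : W0 k) :
    (ad0 ρ g w : M2 k) = ρ g * w * ρ g⁻¹ := rfl

theorem conj_eq_iff (ρ : G →* M2 k) (g : G) (w : M2 k) :
    ρ g * w * ρ g⁻¹ = w ↔ ρ g * w = w * ρ g := by
  constructor
  · intro h
    conv_rhs => rw [← h]
    rw [mul_assoc, ← map_mul, inv_mul_cancel, map_one, mul_one]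
  · intro h
    rw [h, mul_assoc, ← map_mul, mul_inv_cancel, map_one, mul_one]

theorem mem_Fx_ad0 (ρ : G →* M2 k) (D : Subgroup G) (w : W0 k) :
    w ∈ Fx (ad0 ρ) D ↔ ∀ d ∈ D, ρ d * w = w * ρ d := by
  refine forall₂_congr fun d _ => ?_
  rw [Subtype.ext_iff, ad0_apply, conj_eq_iff]

end Ad

variable {k : Type} [Field k]

theorem map_Fx (ρ : Gam →* M2 k) (D : Subgroup Gam) :
    (Fx (ad0 ρ) D).map (W0 k).subtype = Winv ρ D := by
  ext w
  constructor
  · rintro ⟨x, hx, rfl⟩
    exact ⟨x.2, (mem_Fx_ad0 ρ D x).mp hx⟩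
  · rintro ⟨h1, h2⟩
    exact ⟨⟨w, h1⟩, (mem_Fx_ad0 ρ D _).mpr h2, rfl⟩

theorem finrank_Winv (ρ : Gam →* M2 k) (D : Subgroup Gam) :
    finrank k (Winv ρ D) = finrank k (Fx (ad0 ρ) D) := by
  rw [← map_Fx, Submodule.finrank_map_subtype_eq]

/-- the homomorphism attached to an element of `YS` -/
def ysHom (ρ : Gam →* M2 k) (M : ℕ) (f : YS ρ M) : Additive (US ρ.ker M) →+ W0 k :=
  AddMonoidHom.mk' (fun x => ⟨f.1 (Additive.toMul x : US ρ.ker M), f.2.2.1 _⟩)
    fun x y => Subtype.ext (f.2.2.2.1 _ (Additive.toMul x).2 _ (Additive.toMul y).2)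

theorem ysHom_mem (ρ : Gam →* M2 k) (M : ℕ) (f : YS ρ M) :
    ysHom ρ M f ∈ HG (gal ℚ Om) (ad0 ρ) (US ρ.ker M) ⊥ := by
  refine ⟨fun g x y h => Subtype.ext ?_, fun x hx => ?_⟩
  · change f.1 y = ρ g * f.1 x * ρ g⁻¹
    rw [h]
    exact f.2.2.2.2 g x x.2
  · have : x = 1 := Subtype.ext hx
    rw [this]
    exact map_zero _

/-- `YS` is the space of equivariant homomorphisms `U_M → ad⁰` -/
def ysEquiv (ρ : Gam →* M2 k) (M : ℕ) :
    YS ρ M ≃ₗ[k] HG (gal ℚ Om) (ad0 ρ) (US ρ.ker M) ⊥ := by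
  refine LinearEquiv.ofBijective
    { toFun := fun f => ⟨ysHom ρ M f, ysHom_mem ρ M f⟩
      map_add' := fun _ _ => rfl
      map_smul' := fun _ _ => rfl } ⟨?_, ?_⟩
  · intro f f' h
    apply Subtype.ext
    funext u
    by_cases hu : u ∈ UM ρ.ker M
    · exact congrArg Subtype.val
        (DFunLike.congr_fun (congrArg Subtype.val h) (Additive.ofMul ⟨u, hu⟩))
    · rw [f.2.1 u hu, f'.2.1 u hu]
  · classical
    rintro ⟨φ, hφ⟩
    refine ⟨⟨fun u => if h : u ∈ US ρ.ker M then (φ (Additive.ofMul ⟨u, h⟩) : M2 k) else 0,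
      fun u hu => dif_neg hu, fun u => ?_, fun u hu v hv => ?_, fun g u hu => ?_⟩, ?_⟩
    · beta_reduce
      split_ifs with h
      · exact (φ _).2
      · exact Matrix.trace_zero _ _
    · have hu' : u ∈ US ρ.ker M := hu
      have hv' : v ∈ US ρ.ker M := hv
      beta_reduce
      rw [dif_pos hu', dif_pos hv', dif_pos (mul_mem hu' hv'), ← Submodule.coe_add, ← map_add]
      rfl
    · have hu' : u ∈ US ρ.ker M := hu
      have h1 : g • u ∈ US ρ.ker M := st_US _ M g u hu'
      beta_reduce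
      rw [dif_pos hu', dif_pos h1, hφ.1 g ⟨u, hu'⟩ ⟨g • u, h1⟩ rfl]
      rfl
    · apply Subtype.ext
      apply AddMonoidHom.ext
      intro x
      apply Subtype.ext
      exact dif_pos (Additive.toMul x).2

theorem exists_comm (h2 : (2 : k) ≠ 0) (A : M2 k) :
    ∃ w : M2 k, w ≠ 0 ∧ w.trace = 0 ∧ A * w = w * A := by
  by_cases h : (2 : k) • A - A.trace • (1 : M2 k) = 0
  · refine ⟨!![0, 1; 0, 0], fun h0 => ?_, by simp, ?_⟩
    · simpa using congrFun (congrFun h0 0) 1
    · have h1 : A = ((2 : k)⁻¹ * A.trace) • (1 : M2 k) := by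
        rw [mul_smul, ← sub_eq_zero.mp h, smul_smul, inv_mul_cancel₀ h2, one_smul]
      rw [h1]
      simp
  · refine ⟨_, h, by simp [mul_comm], ?_⟩
    simp [mul_sub, sub_mul]

theorem Fx_top (h2 : (2 : k) ≠ 0) {ρ : Gam →* M2 k} (h : Hyp ρ) : Fx (ad0 ρ) ⊤ = ⊥ := by
  rw [eq_bot_iff]
  intro w hw
  rw [mem_Fx_ad0] at hw
  have h1 : ∀ A : M2 k, A * w = w * A := by
    intro A
    have hA : A ∈ Submodule.span k (ρ '' {g | g om = om}) := h.span ▸ Submodule.mem_top
    induction hA using Submodule.span_induction with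
    | mem A hA =>
      obtain ⟨g, -, rfl⟩ := hA
      exact hw g trivial
    | zero => simp
    | add A B _ _ ha hb => rw [add_mul, mul_add, ha, hb]
    | smul c A _ ha => rw [smul_mul_assoc, mul_smul_comm, ha]
  have ht : (w : M2 k) 0 0 + (w : M2 k) 1 1 = 0 := by
    have := w.2
    rwa [mem_W0, Matrix.trace_fin_two] at this
  have a1 := congrFun (congrFun (h1 !![0, 1; 0, 0]) 0) 0
  have a2 := congrFun (congrFun (h1 !![0, 1; 0, 0]) 0) 1
  have a3 := congrFun (congrFun (h1 !![0, 0; 1, 0]) 1) 1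
  simp [Matrix.mul_apply, Fin.sum_univ_two] at a1 a2 a3
  have a4 : (w : M2 k) 0 0 = 0 := by
    apply mul_left_cancel₀ h2
    linear_combination ht - a2
  rw [Submodule.mem_bot]
  apply Subtype.ext
  ext i j
  fin_cases i <;> fin_cases j <;> simp [a1, a2, a3, a4]

/-- **leaf EQ** -/
theorem eqStmt : EqStmt := by
  intro k _ _ _ ρ hρ M P hM hP
  have : Fact (Nat.Prime 3) := ⟨Nat.prime_three⟩
  have h2 : (2 : k) ≠ 0 := by
    intro h
    have h3 : ((3 : ℕ) : k) = 0 := CharP.cast_eq_zero k 3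
    have : (1 : k) = 0 := by
      push_cast at h3
      linear_combination h3 - h
    exact one_ne_zero this
  obtain ⟨φ, c, hc⟩ := exists_conj (E := Om)
  obtain ⟨hf, h⟩ := eqU_gam (k := k) (p := 3) ρ.ker hρ.opn hρ.idx (ad0 ρ) (fun n hn => by
    ext w : 1
    apply Subtype.ext
    rw [ad0_apply, show ρ n = 1 from hn, show ρ n⁻¹ = 1 from inv_mem hn, one_mul, mul_one]
    rfl) hM P hP φ c hc
  have hfin : Module.Finite k (HG (gal ℚ Om) (ad0 ρ) (US ρ.ker M) ⊥) := Module.Finite.of_finite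
  refine ⟨Module.Finite.equiv (ysEquiv ρ M).symm, ?_⟩
  rw [(ysEquiv ρ M).finrank_eq]
  rw [Fx_top h2 hρ, finrank_bot, add_zero] at h
  have h1 : 0 < finrank k (Fx (ad0 ρ) (Subgroup.zpowers c)) := by
    obtain ⟨w, hw0, hw1, hw2⟩ := exists_comm h2 (ρ c)
    refine (finrank_pos_iff_exists_ne_zero (R := k) (M := Fx (ad0 ρ) (Subgroup.zpowers c))).mpr ?_
    refine ⟨⟨⟨w, hw1⟩, (mem_Fx_zpowers _ _ _).mpr (Subtype.ext ((conj_eq_iff ρ c w).mpr hw2))⟩, ?_⟩
    exact fun h0 => hw0 (congrArg (fun x => (x.1.1 : M2 k)) h0)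
  simp only [finrank_Winv]
  rw [h]
  exact le_add_left (Nat.add_le_add_right h1 _)

end Crest.Agent.T15.EqU
end
end

-- ▼ part T15/TwB_6
section

/-!
# Row 15, block C: equivariant homomorphisms are spanned by averages of rank one maps (helper6)
-/

set_option autoImplicit false

noncomputable section

namespace Crest.Agent.T15.Tw

open Crest.Agent.T15.EqU

variable {k G M W : Type*} [Field k] [Group G] [Fintype G] [CommGroup M] [AddCommGroup W]
  [Module k W] {p : ℕ} [hp : Fact p.Prime] [CharP k p] {α : G →* Monoid.End M} {A B : Subgroup M}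

/-- the action on a stable subgroup -/
def act (hA : St α A) (g : G) : Additive A →+ Additive A :=
  MonoidHom.toAdditive (((α g : M →* M).comp A.subtype).codRestrict A fun x => hA g x x.2)

omit [Fintype G] in
theorem act_coe (hA : St α A) (g : G) (a : Additive A) :
    ((act hA g a).toMul : M) = α g (a.toMul : M) := rfl

omit [Fintype G] in
theorem act_mul (hA : St α A) (g h : G) (a : Additive A) :
    act hA (g * h) a = act hA g (act hA h a) :=
  Additive.toMul.injective (Subtype.ext (by simp only [act_coe, map_mul]; rfl))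

omit [Fintype G] in
theorem act_one (hA : St α A) (a : Additive A) : act hA 1 a = a :=
  Additive.toMul.injective (Subtype.ext (by simp only [act_coe, map_one]; rfl))

/-- the average `a ↦ ∑_g l(g⁻¹ a) g x` -/
def av (hA : St α A) (ρ : Representation k G W) (l : Additive A →+ ZMod p) :
    W →ₗ[k] (Additive A →+ W) where
  toFun x := AddMonoidHom.mk' (fun a => ∑ g, ZMod.castHom dvd_rfl k (l (act hA g⁻¹ a)) • ρ g x)
    fun a b => by simp [add_smul, Finset.sum_add_distrib]
  map_add' x y := by ext a; simp [Finset.sum_add_distrib]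
  map_smul' c x := by ext a; simp [Finset.smul_sum, smul_comm c]

variable {ρ : Representation k G W}

theorem av_apply (hA : St α A) (l : Additive A →+ ZMod p) (x : W) (a : Additive A) :
    av hA ρ l x a = ∑ g, ZMod.castHom dvd_rfl k (l (act hA g⁻¹ a)) • ρ g x := rfl

theorem av_apply' (hA : St α A) (l : Additive A →+ ZMod p) (x : W) (a : Additive A) :
    av hA ρ l x a = ∑ g, (l (act hA g⁻¹ a)).val • ρ g x := by
  simp only [av_apply, ZMod.castHom_apply, ← ZMod.natCast_val, Nat.cast_smul_eq_nsmul]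

theorem av_mem (hA : St α A) (hB : St α B) {l : Additive A →+ ZMod p}
    (hl : ∀ a : A, (a : M) ∈ B → l (.ofMul a) = 0) (x : W) : av hA ρ l x ∈ HG α ρ A B := by
  refine ⟨fun g a b h => ?_, fun a ha => ?_⟩
  · have : Additive.ofMul b = act hA g (.ofMul a) := Additive.toMul.injective (Subtype.ext h)
    rw [this, av_apply, av_apply, map_sum, ← Equiv.sum_comp (Equiv.mulLeft g)]
    simp [← act_mul]
  · exact Finset.sum_eq_zero fun g _ => by
      rw [show l (act hA g⁻¹ (.ofMul a)) = 0 from hl (act hA g⁻¹ (.ofMul a)).toMul (hB _ _ ha)]; simp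

theorem av_comp (hA : St α A) (l : Additive A →+ ZMod p) {s : G} {x : W} (hx : ρ s x = x) :
    av hA ρ (l.comp (act hA s)) x = av hA ρ l x := by
  refine AddMonoidHom.ext fun a => ?_
  rw [av_apply, av_apply, ← Equiv.sum_comp (Equiv.mulRight s)]
  simp [← act_mul, hx]

theorem av_sum {ι : Type*} (hA : St α A) (S : Finset ι) (l : ι → Additive A →+ ZMod p) (x : W) :
    av hA ρ (∑ i ∈ S, l i) x = ∑ i ∈ S, av hA ρ (l i) x := by
  refine AddMonoidHom.ext fun a => ?_
  simp only [av_apply, AddMonoidHom.finsetSum_apply, map_sum, Finset.sum_smul]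
  exact Finset.sum_comm

/-- admissible data: `s ∈ Σ`, `x` fixed by `s`, `l` invariant under `s` and killing `B` -/
def Adm (hA : St α A) (ρ : Representation k G W) (B : Subgroup M) (Sg : Set G)
    (s : G) (l : Additive A →+ ZMod p) (x : W) : Prop :=
  s ∈ Sg ∧ ρ s x = x ∧ (∀ a, l (act hA s a) = l a) ∧ ∀ a : A, (a : M) ∈ B → l (.ofMul a) = 0

theorem exists_coord' (W : Type*) [AddCommGroup W] [Finite W] [Module (ZMod p) W] :
    ∃ (m : ℕ) (c : Fin m → W →+ ZMod p) (b : Fin m → W), ∀ w, w = ∑ j, (c j w).val • b j := by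
  have : Module.Finite (ZMod p) W := Module.Finite.of_finite
  let b := Module.finBasis (ZMod p) W
  refine ⟨_, fun j => (b.coord j).toAddMonoidHom, b, fun w => (b.sum_repr w).symm.trans ?_⟩
  refine Finset.sum_congr rfl fun j _ => ?_
  rw [← Nat.cast_smul_eq_nsmul (ZMod p), ZMod.natCast_zmod_val]
  rfl

theorem exists_coord {W : Type*} [AddCommGroup W] [Finite W] (h : ∀ w : W, p • w = 0) :
    ∃ (m : ℕ) (c : Fin m → W →+ ZMod p) (b : Fin m → W), ∀ w, w = ∑ j, (c j w).val • b j :=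
  @exists_coord' p _ W _ _ (AddCommGroup.zmodModule h)

theorem span_av [Finite W] (hG : ¬ p ∣ Nat.card G) (hA : St α A) (hB : St α B) {Sg : Set G}
    (hW : Submodule.span k {x | ∃ s ∈ Sg, ρ s x = x} = ⊤) :
    Submodule.span k {φ | ∃ (s : G) (l : Additive A →+ ZMod p) (x : W), Adm hA ρ B Sg s l x ∧
      φ = av hA ρ l x} = HG α ρ A B := by
  refine le_antisymm (Submodule.span_le.2 ?_) fun φ hφ => ?_
  · rintro _ ⟨s, l, x, h, rfl⟩
    exact av_mem hA hB h.2.2.2 x
  have c0 : (Fintype.card G : k) ≠ 0 := by rwa [Ne, CharP.cast_eq_zero_iff k p, ← Nat.card_eq_fintype_card]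
  set U := Submodule.span k {φ | ∃ (s : G) (l : Additive A →+ ZMod p) (x : W),
    Adm hA ρ B Sg s l x ∧ φ = av hA ρ l x}
  have h1 : ∀ l : Additive A →+ ZMod p, (∀ a : A, (a : M) ∈ B → l (.ofMul a) = 0) →
      ∀ x, av hA ρ l x ∈ U := fun l hl x => by
    have : (⊤ : Submodule k W) ≤ U.comap (av hA ρ l) := by
      rw [← hW, Submodule.span_le]
      rintro x ⟨s, hs, hx⟩
      have hx' : ∀ i : ℕ, ρ (s ^ i) x = x := fun i => by
        induction i with
        | zero => simp
        | succ i ih => rw [pow_succ, map_mul, Module.End.mul_apply, hx, ih]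
      have e : av hA ρ (∑ i ∈ Finset.range (Fintype.card G), l.comp (act hA (s ^ i))) x =
          (Fintype.card G : k) • av hA ρ l x := by
        rw [av_sum, Finset.sum_congr rfl fun i _ => av_comp hA l (hx' i)]
        simp [Nat.cast_smul_eq_nsmul]
      refine (U.smul_mem_iff c0).1 (e ▸ Submodule.subset_span ⟨s, _, x, ⟨hs, hx, fun a => ?_,
        fun a ha => ?_⟩, rfl⟩)
      · have := Finset.sum_range_succ' (fun i => l (act hA (s ^ i) a)) (Fintype.card G)
        rw [Finset.sum_range_succ, pow_card_eq_one, pow_zero, add_left_inj] at this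
        simp only [AddMonoidHom.finsetSum_apply, AddMonoidHom.comp_apply, ← act_mul, ← pow_succ, this]
      · rw [AddMonoidHom.finsetSum_apply]
        exact Finset.sum_eq_zero fun i _ => hl (act hA (s ^ i) (.ofMul a)).toMul (hB _ _ ha)
    exact this trivial
  obtain ⟨m, c, b, hb⟩ := exists_coord (p := p) (W := W) fun w => by
    rw [← Nat.cast_smul_eq_nsmul k, CharP.cast_eq_zero, zero_smul]
  have e : (Fintype.card G : k) • φ =
      ∑ j, av hA ρ ((c j).comp φ) (b j) := by
    refine AddMonoidHom.ext fun a => ?_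
    simp only [AddMonoidHom.finsetSum_apply, av_apply', AddMonoidHom.smul_apply]
    rw [Finset.sum_comm, Nat.cast_smul_eq_nsmul, ← Finset.card_univ, ← Finset.sum_const]
    refine Finset.sum_congr rfl fun g _ => ?_
    have e1 := hφ.1 g (act hA g⁻¹ a).toMul a.toMul (by
      rw [← act_coe hA, ← act_mul, mul_inv_cancel, act_one])
    rw [ofMul_toMul, ofMul_toMul] at e1
    rw [e1, hb (φ (act hA g⁻¹ a)), map_sum]
    simp only [map_nsmul, AddMonoidHom.comp_apply]
  refine (U.smul_mem_iff c0).1 (e ▸ sum_mem fun j _ => h1 _ (fun a ha => ?_) _)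
  simp [hφ.2 a ha]

/-- a basis of `Hom_G(A/B, W)` made of admissible averages -/
theorem exists_av_basis [Finite W] (hG : ¬ p ∣ Nat.card G) (hA : St α A) (hB : St α B) {Sg : Set G}
    (hW : Submodule.span k {x | ∃ s ∈ Sg, ρ s x = x} = ⊤) [Module.Finite k (HG α ρ A B)] :
    ∃ (s : Fin (Module.finrank k (HG α ρ A B)) → G) (l : _ → Additive A →+ ZMod p) (x : _ → W),
      (∀ i, Adm hA ρ B Sg (s i) (l i) (x i)) ∧ (LinearIndependent k fun i => av hA ρ (l i) (x i)) ∧
      Submodule.span k (Set.range fun i => av hA ρ (l i) (x i)) = HG α ρ A B := by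
  have e := span_av (p := p) hG hA hB hW
  have : Module.Finite k (Submodule.span k {φ | ∃ (s : G) (l : Additive A →+ ZMod p) (x : W),
    Adm hA ρ B Sg s l x ∧ φ = av hA ρ l x}) := e ▸ inferInstance
  have := Submodule.exists_fun_fin_finrank_span_eq k {φ | ∃ (s : G) (l : Additive A →+ ZMod p)
    (x : W), Adm hA ρ B Sg s l x ∧ φ = av hA ρ l x}
  rw [e] at this
  obtain ⟨f, h1, h2, h3⟩ := this
  choose s l x h4 h5 using h1
  exact ⟨s, l, x, h4, funext h5 ▸ h3, funext h5 ▸ h2⟩

end Crest.Agent.T15.Tw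
end
end

-- ▼ part T15/TwSel_6

/-!
# Row 15, block C: the choice of the Taylor–Wiles primes, `C.SelStmt` (helper6)
-/

set_option autoImplicit false

noncomputable section

namespace Crest.Agent.T15.Tw

open NumberField Module MulAction Crest.Agent.R018.Placesx484 Crest.Agent.T15.Ps Crest.Agent.T15.C
open Crest.Agent.T15.EqU

theorem exists_inj {X : Type*} (q : X → ℕ) : ∀ (r : ℕ) (Pr : Fin r → X → Prop),
    (∀ i B, ∃ y, B < q y ∧ Pr i y) → ∀ B, ∃ y : Fin r → X,
      (Function.Injective fun i => q (y i)) ∧ ∀ i, B < q (y i) ∧ Pr i (y i)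
  | 0, _, _, _ => ⟨Fin.elim0, fun i => i.elim0, fun i => i.elim0⟩
  | r + 1, Pr, h, B => by
    obtain ⟨y0, h1, h2⟩ := h 0 B
    obtain ⟨y, h3, h4⟩ := exists_inj q r (fun i => Pr i.succ) (fun i => h i.succ) (q y0)
    refine ⟨Fin.cons y0 y, ?_, fun i => Fin.cases ⟨h1, h2⟩ (fun i => ⟨h1.trans (h4 i).1, (h4 i).2⟩) i⟩
    rw [show (fun i => q (Fin.cons (α := fun _ => X) y0 y i)) = Fin.cons (q y0) fun i => q (y i) from
      Fin.comp_cons q y0 y, Fin.cons_injective_iff]
    exact ⟨fun ⟨i, hi⟩ => (h4 i).1.ne' hi, h3⟩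

variable {k : Type} [Field k] {ρ : Gam →* M2 k} {M : ℕ}

/-- the action of `Gam ⧸ N` on a stable group of `N`-fixed units -/
def alQ (N : Subgroup Gam) [N.Normal] (A : Subgroup Omˣ) (hst : ∀ g : Gam, ∀ a ∈ A, g • a ∈ A)
    (hA : ∀ a ∈ A, ∀ h ∈ N, h (a : Om) = a) : Gam ⧸ N →* Monoid.End A :=
  QuotientGroup.lift N
    { toFun := fun g => ((MulDistribMulAction.toMonoidHom Omˣ g).comp A.subtype).codRestrict A
        fun a => hst g a a.2
      map_one' := MonoidHom.ext fun a => Subtype.ext (one_smul Gam a.1)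
      map_mul' := fun g h => MonoidHom.ext fun a => Subtype.ext (mul_smul g h a.1) }
    fun g hg => MonoidHom.ext fun a => Subtype.ext (Units.ext (hA a a.2 g hg))

/-- cubes times cube roots of unity -/
def Cu (N : Subgroup Gam) (A : Subgroup Omˣ) : Subgroup A where
  carrier := {a | ∃ z c : Om, z ^ 3 = 1 ∧ (∀ h ∈ N, h c = c) ∧ ((a : Omˣ) : Om) = z * c ^ 3}
  one_mem' := ⟨1, 1, by simp, by simp, by simp⟩
  mul_mem' := by
    rintro a b ⟨z, c, h1, h2, h3⟩ ⟨z', c', g1, g2, g3⟩
    exact ⟨z * z', c * c', by rw [mul_pow, h1, g1, one_mul],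
      fun h hh => by rw [map_mul, h2 h hh, g2 h hh], by simp [h3, g3]; ring⟩
  inv_mem' := by
    rintro a ⟨z, c, h1, h2, h3⟩
    exact ⟨z⁻¹, c⁻¹, by rw [inv_pow, h1, inv_one], fun h hh => by rw [map_inv₀, h2 h hh],
      by simp [h3]; ring⟩

theorem YS_kill [CharP k 3] (h : Hyp ρ) {f : Omˣ → M2 k} (hf : f ∈ YS ρ M) {a : Omˣ}
    (ha : a ∈ UM ρ.ker M) {z c : Om} (hz : z ^ 3 = 1) (hc : ∀ h ∈ ρ.ker, h c = c)
    (e : (a : Om) = z * c ^ 3) : f a = 0 := by
  have z0 : z ≠ 0 := fun h => by simp [h] at hz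
  have c0 : c ≠ 0 := fun h => a.ne_zero (by simp [e, h])
  obtain ⟨i, -, hi⟩ := om_spec.eq_pow_of_pow_eq_one hz
  have vz : ∀ P : Place Om, P.v z = 1 := fun P =>
    (pow_eq_one_iff_of_nonneg zero_le three_ne_zero).1 (by rw [← map_pow, hz, map_one])
  have m1 : Units.mk0 z z0 ∈ UM ρ.ker M :=
    ⟨fun n hn => by rw [Units.val_mk0, ← hi, map_pow, ker_om h n hn], fun P _ => vz P⟩
  have m2 : Units.mk0 c c0 ∈ UM ρ.ker M := ⟨hc, fun P hP => by
    have := ha.2 P hP
    rw [e, map_mul, vz, one_mul, map_pow] at this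
    exact (pow_eq_one_iff_of_nonneg zero_le three_ne_zero).1 this⟩
  have e' : a = Units.mk0 z z0 * (Units.mk0 c c0 * (Units.mk0 c c0 * Units.mk0 c c0)) :=
    Units.ext (by simp only [e, Units.val_mul, Units.val_mk0]; ring)
  have h3 : ∀ w : M2 k, w + (w + w) = 0 := fun w => by
    have : ((3 : ℕ) : k) • w = 0 := by rw [CharP.cast_eq_zero, zero_smul]
    rw [← this, Nat.cast_smul_eq_nsmul]; abel
  rw [e', hf.2.2.1 _ m1 _ (mul_mem m2 (mul_mem m2 m2)), hf.2.2.1 _ m2 _ (mul_mem m2 m2),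
    hf.2.2.1 _ m2 _ m2, h3, add_zero]
  refine eq_zero_of_comm h (hf.2.1 _) fun g hg => (conj_eq_iff ρ g _).1 ?_
  rw [← hf.2.2.2 g _ m1]
  congr 1
  exact Units.ext (show g z = z by rw [← hi, map_pow, hg])

/-- a finitely generated stable group of `M`-units which detects `YS` -/
theorem exists_detect [Finite k] (h : Hyp ρ) [CharP k 3] [Module.Finite k (YS ρ M)] :
    ∃ A : Subgroup Omˣ, Group.FG A ∧ A ≤ UM ρ.ker M ∧ (∀ g : Gam, ∀ a ∈ A, g • a ∈ A) ∧
      ∀ f ∈ YS ρ M, (∀ a ∈ A, f a = 0) → f = 0 := by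
  have : Finite (YS ρ M) := Module.finite_of_finite k
  have : ρ.ker.FiniteIndex := ⟨fun e => h.idx (e ▸ dvd_zero _)⟩
  have : ∀ f : YS ρ M, ∃ u ∈ UM ρ.ker M, f.1 u = 0 → f.1 = 0 := fun f => by
    by_cases hf : f.1 = 0
    · exact ⟨1, one_mem _, fun _ => hf⟩
    · obtain ⟨u, hu⟩ := Function.ne_iff.1 hf
      exact ⟨u, by_contra fun e => hu (f.2.1 u e), fun e => absurd e hu⟩
  choose u h1 h2 using this
  have fin : (⋃ f, orbit Gam (u f)).Finite := Set.finite_iUnion fun f => by
    have : (stabilizer Gam (u f)).FiniteIndex := Subgroup.finiteIndex_of_le (H := ρ.ker)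
      fun g hg => Units.ext ((h1 f).1 g hg)
    exact Finite.of_equiv _ (orbitEquivQuotientStabilizer Gam (u f)).symm
  have := fin.to_subtype
  refine ⟨Subgroup.closure (⋃ f, orbit Gam (u f)), inferInstance, (Subgroup.closure_le _).2 ?_,
    fun g a ha => ?_, fun f hf e => h2 ⟨f, hf⟩ (e _ (Subgroup.subset_closure
      (Set.mem_iUnion.2 ⟨⟨f, hf⟩, mem_orbit_self _⟩)))⟩
  · rintro _ ⟨_, ⟨f, rfl⟩, g, rfl⟩
    exact UM_smul g (h1 f)
  · induction ha using Subgroup.closure_induction with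
    | mem a ha =>
      obtain ⟨_, ⟨f, rfl⟩, g', rfl⟩ := ha
      exact Subgroup.subset_closure (Set.mem_iUnion.2 ⟨f, g * g', mul_smul g g' _⟩)
    | one => rw [smul_one]; exact one_mem _
    | mul a b _ _ i1 i2 => rw [smul_mul']; exact mul_mem i1 i2
    | inv a _ i1 => rw [smul_inv']; exact inv_mem i1

theorem selStmt : SelStmt := by
  intro k _ _ _ ρ h M _ _ n B
  classical
  have : Fact (Nat.Prime 3) := ⟨Nat.prime_three⟩
  have : ρ.ker.FiniteIndex := ⟨fun e => h.idx (e ▸ dvd_zero _)⟩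
  have := Fintype.ofFinite (Gam ⧸ ρ.ker)
  obtain ⟨A, fg, hU, hst, det⟩ := exists_detect (M := M) h
  have hA : ∀ a ∈ A, ∀ h ∈ ρ.ker, h (a : Om) = a := fun a ha => (hU ha).1
  have hB : St (alQ ρ.ker A hst hA) (Cu ρ.ker A) := by
    rintro ⟨g⟩ a ⟨z, c, h1, h2, h3⟩
    exact ⟨g z, g c, by rw [← map_pow, h1, map_one], fix_smul h2 g,
      by rw [← map_pow, ← map_mul, ← h3]; rfl⟩
  have : Group.FG (⊤ : Subgroup A) := Group.fg_of_surjective
    (f := (Subgroup.topEquiv (G := A)).symm.toMonoidHom) (Subgroup.topEquiv (G := A)).symm.surjective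
  have := finite_hom (Additive (⊤ : Subgroup A)) (W0 k)
  have : Module.Finite k (HG (alQ ρ.ker A hst hA) (adQ ρ) ⊤ (Cu ρ.ker A)) := .of_finite
  obtain ⟨σ, l, x, adm, li, -⟩ := exists_av_basis (p := 3) h.idx st_top hB (span_fix h)
  have le : finrank k (YS ρ M) ≤ finrank k (HG (alQ ρ.ker A hst hA) (adQ ρ) ⊤ (Cu ρ.ker A)) := by
    refine LinearMap.finrank_le_finrank_of_injective (f :=
      { toFun := fun f => ⟨AddMonoidHom.mk' (fun a => ⟨f.1 a.toMul.1.1, f.2.2.1 _⟩) fun a b =>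
          Subtype.ext (f.2.2.2.1 _ (hU a.toMul.1.2) _ (hU b.toMul.1.2)), ?_, ?_⟩
        map_add' := fun _ _ => rfl
        map_smul' := fun _ _ => rfl }) ((injective_iff_map_eq_zero _).2 fun f hf => ?_)
    · rintro ⟨g⟩ a b e
      exact Subtype.ext ((congrArg (fun u : A => f.1 u) e).trans (f.2.2.2.2 g _ (hU a.1.2)))
    · rintro a ⟨z, c, h1, h2, h3⟩
      exact Subtype.ext (YS_kill h f.2 (hU a.1.2) h1 h2 h3)
    · refine Subtype.ext (det f.1 f.2 fun a ha => ?_)
      have := congrArg Subtype.val (DFunLike.congr_fun (congrArg Subtype.val hf)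
        (Additive.ofMul (⟨⟨a, ha⟩, trivial⟩ : (⊤ : Subgroup A))))
      exact this
  have key : ∀ i B, ∃ y : Place Om × Gam, B < y.1.rchar ∧ (TWq ρ y.1.rchar y.1 y.2 ∧
      3 ^ n ∣ y.1.rchar - 1 ∧ σ i = y.2 ∧ ∀ a : A,
        kum k (y.2 ^ ρ.ker.index) (a : Omˣ) = ZMod.castHom dvd_rfl k (l i (.ofMul ⟨a, trivial⟩))) := by
    intro i B
    obtain ⟨⟨s, s1, s2, s3⟩, -, a3, a4⟩ := adm i
    obtain ⟨P, φ, p1, p2, -, p4, p5, p6, p7⟩ := exists_place (by norm_num) om_spec ρ.ker h.opn h.idx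
      (ker_om h) A hA hst ((l i).comp (MonoidHom.toAdditive Subgroup.topEquiv.symm.toMonoidHom))
      (fun a j c c1 c2 => a4 ⟨a, trivial⟩ ⟨om ^ j, c, by
        rw [pow_right_comm, om_spec.pow_eq_one, one_pow], c1, c2⟩)
      s1 h.idx (ρ.ker.pow_index_mem s) (fun a => by
        have := a3 (.ofMul ⟨a, trivial⟩)
        rw [s3] at this
        exact this) (n + 1) B
    have e : ρ φ = ρ s := by
      rw [← mul_inv_cancel_left s φ, map_mul, show ρ (s⁻¹ * φ) = 1 from p6, mul_one]
    exact ⟨(P, φ), p1, ⟨P.rchar_prime, (dvd_pow_self 3 n.succ_ne_zero).trans p2, rfl, p4, p5, e ▸ s2⟩,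
      (pow_dvd_pow 3 n.le_succ).trans p2, s3.trans (QuotientGroup.eq.2 p6),
      fun a => kum_eq (a : Omˣ).ne_zero (p7 a _ (rt_spec _))⟩
  obtain ⟨y, inj, hy⟩ := exists_inj (fun y : Place Om × Gam => y.1.rchar) _ _
    (fun i => key (Fin.castLE le i)) B
  obtain ⟨y0, -⟩ : ∃ y0 : Place Om × Gam, True := by
    obtain ⟨P, φ, -⟩ := Cheb.cheb_inf ρ.ker h.opn 1 0
    exact ⟨(P, φ), trivial⟩
  let Y : ℕ → Place Om × Gam := Function.extend (fun i => (y i).1.rchar) y fun _ => y0
  have hY : ∀ i, Y (y i).1.rchar = y i := inj.extend_apply y _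
  refine ⟨Finset.univ.image fun i => (y i).1.rchar, fun q => (Y q).1, fun q => (Y q).2,
    by rw [Finset.card_image_of_injective _ inj]; simp, ?_, fun w hw hs => ?_⟩
  · simp only [Finset.mem_image, Finset.mem_univ, true_and, forall_exists_index,
      forall_apply_eq_imp_iff, hY]
    exact fun i => ⟨(hy i).2.1, (hy i).1, (hy i).2.2.1⟩
  simp only [Finset.mem_image, Finset.mem_univ, true_and, forall_exists_index,
    forall_apply_eq_imp_iff, hY, Finset.sum_image fun _ _ _ _ e => inj e] at hw hs ⊢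
  have li' := li.comp _ (Fin.castLE_injective le)
  have : ∀ i, ∃ c : k, w (y i).1.rchar = c • (x (Fin.castLE le i) : M2 k) := fun i => by
    have e := (adm (Fin.castLE le i)).2.1
    rw [(hy i).2.2.2.1] at e
    refine exists_smul (hy i).2.1.disc (x _).2 (hw i).1
      ((conj_eq_iff ρ _ _).1 (congrArg Subtype.val e)) (hw i).2 fun e => li'.ne_zero i ?_
    simp [show x (Fin.castLE le i) = 0 from Subtype.ext e]
  choose c hc using this
  have := Fintype.linearIndependent_iff.1 li' c (AddMonoidHom.ext fun a => Subtype.ext ?_)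
  · intro i; rw [hc, this, zero_smul]
  refine Eq.trans ?_ (hs _ (hU a.toMul.1.2))
  rw [AddMonoidHom.finsetSum_apply, Submodule.coe_sum]
  refine Finset.sum_congr rfl fun i _ => ?_
  rw [Function.comp_apply, ← map_smul, av_apply, C.av, finsum_eq_sum_of_fintype, Submodule.coe_sum]
  refine Finset.sum_congr rfl fun g _ => ?_
  obtain ⟨g', hg⟩ : ∃ g', g' = g.out := ⟨_, rfl⟩
  rw [← hg]
  obtain rfl : g = g' := by rw [hg, QuotientGroup.out_eq']
  rw [hc]
  exact congrArg (· • _) ((hy i).2.2.2.2 ⟨g'⁻¹ • a.toMul.1.1, hst _ _ a.toMul.1.2⟩).symm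

end Crest.Agent.T15.Tw
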