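import Crest.Agent.T15.Dep_98_Mg
import Crest.Agent.T15.Gal_31
import Crest.Agent.T15.AbelB_82_Mg
import Crest.Agent.T15.BetAct_91_Mg
import Crest.Agent.T15.RatZ_42_Mg
import Crest.Agent.T15.BrG_37_Mg
import Crest.Agent.T15.TwW_73_Mg
import Crest.Agent.T15.EscY_12
import Crest.Agent.T15.Jm_16
import Crest.Agent.T15.FrmZ_90
import Crest.Agent.T15.PrAPf_15_Mg
import Crest.Agent.T15.Zer_7

/-!
# Row 15: everything but the primes in progressions and the last leaves (helper88)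
-/

set_option autoImplicit false

noncomputable section

namespace Crest.Agent.T15.Top

theorem escOut_88 : R.EscOut Hk.lv :=
  EscO.escOut_of EscO.esSurj Hk.H0 (fun _ h _ => Hk.mem_H0 h) _ fun _ _ hp => Lv.Tc_val _ hp

theorem flat_88 : TD.FlatStmt := fun _ _ _ L M _ hM h4 hH h3 _ _ _ _ _ _ _ _ _ hm hj hp hu =>
  have : NeZero M := ⟨hM⟩
  TFl.flat_par Ig.igStmt Bet.dvdStmt L h4 hH h3 hm hj hp hu

theorem act_88 : TD.ActStmt := fun ι _ _ hM h4 hH n _ O A _ _ _ _ hm =>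
  Bet.exists_act ι hM h4 (fun _ hu => (Hk.mem_H0 h4).1 (hH hu)) n O A hm

theorem inj_88 : TD.InjStmt := fun ι M _ hM h4 hH _ _ P hP =>
  have : NeZero M := ⟨hM⟩
  Cg.inj_plc Bet.dvdStmt Ig.igStmt h4 (fun _ hu => (Hk.mem_H0 h4).1 (hH hu)) ι P
    (fun h => hP (h.mul_left _)) fun h => hP (h.mul_right _)

theorem ht_88 (del : ℚ) : HtStmt (Ht.Lk del) :=
  have hF := Ht.frmStmt_mat Ht.matStmt
  Ht.htGlue del Ht.galStmt SmB.intStmt_98 (RatZ.ratStmt_of Vs.vsStmt Ht.omStmt hF Hon.congStmt)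
    SmB.smStmt_98
    (Hon.hondaStmt_of Hon.badStmt Ht.omStmt (Hon.tri_of Vs.vsStmt hF Hon.congStmt)
      fun _ _ _ _ P M Q e _ => Ht.ebStmt P M Q e)
    (Ht.jcGlue KfJ.exStmt Ht.galStmt Ht.moStmt Ht.matStmt Ht.endStmt Ht.irrStmt) Ht.depStmt
    Br.brStmt Ht.perStmt Stab.stabStmt Ht.scalStmt Ht.valStmt (Cv53.covStmt del) Ht.archStmt

theorem finB (hA : PrAP.APStmt) : ¬ ComputablePred Crest.NumberTheoryR.PolyCode.HasRatZero :=
  final2 (Lk := Ht.Lk 1) (D := Ar.nb 1 one_pos 1 one_pos (by decide)) hA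
    (fun ι P h3 L => FA.fStmt_of KfJ.exStmt Ht.galStmt FA.wqStmt FA.unrStmt FA.ramStmt one_pos
      one_pos (by decide) ι P h3 L)
    (ht_88 1) R.rStmt_78 (Zr.zeroStmt (Tame.tameStmt Art.artin))
    (fun ι P h3 L => Hk.tOut_of
      (TD.galStmt act_88 inj_88 flat_88 TD.cyStmt (TD.twStmt act_88 inj_88) ι P h3 L)) escOut_88

end Crest.Agent.T15.Top
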