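import Mathlib
import Crest.Agent.T15.AlgMA_4

-- ▼ part T15/AlgMB_4
section

/-!
# Row 15, block Ht: algebraicity criterion, part B (helper4)

Siegel's lemma and the core inequality.
-/

set_option autoImplicit false

open Set Filter Topology Metric PowerSeries

noncomputable section

namespace Crest.Agent.T15.AlgM

/-- `ℤ⟦X⟧ → ℂ⟦X⟧` -/
abbrev toC : PowerSeries ℤ →+* PowerSeries ℂ := PowerSeries.map (Int.castRingHom ℂ)

lemma exists_bound {f : ℂ → ℂ} {r : ℝ} (hf : AnalyticOnNhd ℂ f (closedBall 0 r)) :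
    ∃ B : ℝ, 1 ≤ B ∧ ∀ z ∈ closedBall (0 : ℂ) r, ‖f z‖ ≤ B := by
  obtain ⟨B, hB⟩ := (isCompact_closedBall (0 : ℂ) r).exists_bound_of_continuousOn hf.continuousOn
  exact ⟨max 1 B, le_max_left _ _, fun z hz => (hB z hz).trans (le_max_right _ _)⟩

/-- coefficient bound for the monomials -/
lemma exists_coeff_bound {X U : ℂ → ℂ} (hX : AnalyticAt ℂ X 0) (hU : AnalyticAt ℂ U 0)
    {x u : PowerSeries ℤ} (hx : tay X = toC x) (hu : tay U = toC u) :
    ∃ B σ : ℝ, 1 ≤ B ∧ 1 ≤ σ ∧ ∀ i j k : ℕ, ‖coeff k (x ^ i * u ^ j)‖ ≤ B ^ (i + j) * σ ^ k := by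
  obtain ⟨ρ, hρ, hρ'⟩ := Metric.eventually_nhds_iff_ball.1
    (hX.eventually_analyticAt.and hU.eventually_analyticAt)
  set ρ' := min (ρ / 2) 1 with hρ'def
  have h0 : 0 < ρ' := lt_min (by positivity) one_pos
  have hsub : closedBall (0 : ℂ) ρ' ⊆ ball 0 ρ :=
    closedBall_subset_ball ((min_le_left _ _).trans_lt (by linarith))
  have aX : AnalyticOnNhd ℂ X (closedBall 0 ρ') := fun z hz => (hρ' z (hsub hz)).1
  have aU : AnalyticOnNhd ℂ U (closedBall 0 ρ') := fun z hz => (hρ' z (hsub hz)).2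
  obtain ⟨B1, h1, hB1⟩ := exists_bound aX
  obtain ⟨B2, h2, hB2⟩ := exists_bound aU
  refine ⟨max B1 B2, ρ'⁻¹, h1.trans (le_max_left _ _), (one_le_inv₀ h0).2 (min_le_right _ _),
    fun i j k => ?_⟩
  have h3 := norm_coeff_tay_le (f := X ^ i * U ^ j) (B := max B1 B2 ^ (i + j)) h0
    ((aX.pow i).mul (aU.pow j)) (fun z hz => by
      rw [Pi.mul_apply, Pi.pow_apply, Pi.pow_apply, norm_mul, norm_pow, norm_pow, pow_add]
      have := (hB1 z hz).trans (le_max_left B1 B2)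
      have := (hB2 z hz).trans (le_max_right B1 B2)
      gcongr) k
  rw [tay_mul (hX.pow i) (hU.pow j), tay_pow hX, tay_pow hU, hx, hu, ← map_pow, ← map_pow,
    ← map_mul, coeff_map] at h3
  rw [inv_pow, ← div_eq_mul_inv, Int.norm_eq_abs]
  simpa using h3

attribute [local instance] Matrix.seminormedAddCommGroup in
/-- Siegel's lemma for the monomials -/
lemma siegel {x u : PowerSeries ℤ} {B σ : ℝ} (hB : 1 ≤ B) (hσ : 1 ≤ σ)
    (hc : ∀ i j k : ℕ, ‖coeff k (x ^ i * u ^ j)‖ ≤ B ^ (i + j) * σ ^ k) {h e : ℕ} (hh : 0 < h)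
    (he : 0 < e) {D : ℕ} (hD : D = (h + 1) * e) :
    ∃ (t : Fin D × Fin D → ℤ) (H : ℝ), t ≠ 0 ∧ 0 ≤ H ∧
      (∀ p, ‖t p‖ ≤ H) ∧ H ^ h ≤ (4 * B ^ 2) ^ D * σ ^ (D * e) ∧
      ∀ k < D * e, coeff k (∑ p, C (t p) * (x ^ (p.1 : ℕ) * u ^ (p.2 : ℕ))) = 0 := by
  have hD0 : 0 < D := by rw [hD]; positivity
  let A : Matrix (Fin (D * e)) (Fin D × Fin D) ℤ :=
    fun k p => coeff (k : ℕ) (x ^ (p.1 : ℕ) * u ^ (p.2 : ℕ))
  have hlt : D * e < D * D := by
    refine Nat.mul_lt_mul_of_pos_left ?_ hD0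
    rw [hD]; nlinarith
  obtain ⟨t, ht0, hAt, ht⟩ := Int.Matrix.exists_ne_zero_int_vec_norm_le A
    (by simpa using hlt) (by simpa using ⟨hD0, he⟩)
  refine ⟨t, ‖t‖, ht0, norm_nonneg _, fun p => norm_le_pi_norm t p, ?_, ?_⟩
  · simp only [Fintype.card_prod, Fintype.card_fin] at ht
    have hexp : ((D * e : ℕ) : ℝ) / (((D * D : ℕ) : ℝ) - ((D * e : ℕ) : ℝ)) = (h : ℝ)⁻¹ := by
      have : ((D * D : ℕ) : ℝ) - ((D * e : ℕ) : ℝ) = h * ((D * e : ℕ) : ℝ) := by
        have : D * D = (h + 1) * (D * e) := by rw [hD]; ring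
        rw [this]; push_cast; ring
      rw [this]
      have : (0 : ℝ) < ((D * e : ℕ) : ℝ) := by positivity
      field_simp
    rw [hexp] at ht
    have hA : max 1 ‖A‖ ≤ (B ^ 2) ^ D * σ ^ (D * e) := by
      have h1 : (1 : ℝ) ≤ (B ^ 2) ^ D * σ ^ (D * e) :=
        one_le_mul_of_one_le_of_one_le (one_le_pow₀ (one_le_pow₀ hB)) (one_le_pow₀ hσ)
      refine max_le h1 ((Matrix.norm_le_iff (zero_le_one.trans h1)).2 fun k p => ?_)
      refine (hc _ _ _).trans ?_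
      rw [← pow_mul]
      have := p.1.2
      have := p.2.2
      have := k.2
      gcongr
      omega
    have hDD : ((D * D : ℕ) : ℝ) ≤ 4 ^ D := by
      have h1 : D ≤ 2 ^ D := Nat.lt_two_pow_self.le
      have h2 : D * D ≤ 4 ^ D := by
        calc D * D ≤ 2 ^ D * 2 ^ D := Nat.mul_le_mul h1 h1
          _ = 4 ^ D := by rw [← mul_pow]; norm_num
      exact_mod_cast h2
    calc ‖t‖ ^ h ≤ ((((D * D : ℕ) : ℝ) * max 1 ‖A‖) ^ (h : ℝ)⁻¹) ^ h := by gcongr
      _ = ((D * D : ℕ) : ℝ) * max 1 ‖A‖ := Real.rpow_inv_natCast_pow (by positivity) hh.ne'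
      _ ≤ 4 ^ D * ((B ^ 2) ^ D * σ ^ (D * e)) := by gcongr
      _ = _ := by rw [mul_pow]; ring
  · intro k hk
    have := congrFun hAt ⟨k, hk⟩
    simp only [Matrix.mulVec, dotProduct, A, Pi.zero_apply] at this
    rw [map_sum, ← this]
    refine Finset.sum_congr rfl fun p _ => ?_
    rw [coeff_C_mul, mul_comm]

/-- **core** of the algebraicity criterion -/
theorem core {r s κ : ℝ} {m : ℕ} {ζ : ℂ} (hζ : ‖ζ‖ = 1) (hr : 0 < r) (hs0 : 0 ≤ s) (hs : s ≤ r)
    (hθ : s / r ^ (m + 1) < 1) (hκ : 0 < κ) {X U b : ℂ → ℂ}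
    (hX : AnalyticAt ℂ X 0) (hU : AnalyticAt ℂ U 0)
    {x u : PowerSeries ℤ} (hx : tay X = toC x) (hu : tay U = toC u)
    (hb : AnalyticOnNhd ℂ b (closedBall 0 r)) (hb0 : b 0 ≠ 0)
    (ha : AnalyticOnNhd ℂ (b * X) (closedBall 0 r)) (hc : AnalyticOnNhd ℂ (b * U) (closedBall 0 r))
    (hJ : ∀ z ∈ sphere (0 : ℂ) r, ∃ k < m, ∃ w : ℂ, ‖w‖ ≤ s ∧ κ ≤ ‖b w‖ ∧
      X (ζ ^ k * z) = X w ∧ U (ζ ^ k * z) = U w) :
    ∃ (D : ℕ) (t : Fin D × Fin D → ℤ), t ≠ 0 ∧
      ∑ p, C (t p) * (x ^ (p.1 : ℕ) * u ^ (p.2 : ℕ)) = 0 := by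
  by_contra hcon
  push Not at hcon
  obtain ⟨B, σ, hB, hσ, hcb⟩ := exists_coeff_bound hX hU hx hu
  obtain ⟨B1, h1, hB1⟩ := exists_bound ha
  obtain ⟨B2, h2, hB2⟩ := exists_bound hc
  obtain ⟨B3, h3, hB3⟩ := exists_bound hb
  set E := max B1 (max B2 B3) with hE
  have hE1 : 1 ≤ E := h1.trans (le_max_left _ _)
  have eA : ∀ z ∈ closedBall (0 : ℂ) r, ‖(b * X) z‖ ≤ E := fun z hz =>
    (hB1 z hz).trans (le_max_left _ _)
  have eC : ∀ z ∈ closedBall (0 : ℂ) r, ‖(b * U) z‖ ≤ E := fun z hz =>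
    (hB2 z hz).trans ((le_max_left _ _).trans (le_max_right _ _))
  have eB : ∀ z ∈ closedBall (0 : ℂ) r, ‖b z‖ ≤ E := fun z hz =>
    (hB3 z hz).trans ((le_max_right _ _).trans (le_max_right _ _))
  set θ := s / r ^ (m + 1) with hθdef
  have hθ0 : 0 ≤ θ := by positivity
  have hβ : 0 < ‖b 0‖ := norm_pos_iff.2 hb0
  -- choice of `h`
  obtain ⟨h, hh0, hh⟩ : ∃ h : ℕ, 0 < h ∧ σ ^ m * θ ^ h ≤ 1 / 2 := by
    have := (tendsto_pow_atTop_nhds_zero_of_lt_one hθ0 hθ).const_mul (σ ^ m)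
    rw [mul_zero] at this
    obtain ⟨h, hh⟩ := ((this.eventually (ge_mem_nhds (by norm_num : (0 : ℝ) < 1 / 2))).and
      (eventually_gt_atTop 0)).exists
    exact ⟨h, hh.2, hh.1⟩
  set C1 := (E / κ) ^ 2 * (4 * E ^ 2) ^ m / (‖b 0‖ ^ 2) ^ m with hC1
  set C2 := C1 ^ h * (4 * B ^ 2) ^ m with hC2
  have hC10 : 0 ≤ C1 := by positivity
  obtain ⟨e, he0, he⟩ : ∃ e : ℕ, 0 < e ∧ C2 < 2 ^ e := by
    obtain ⟨e, he⟩ := (((tendsto_pow_atTop_atTop_of_one_lt (one_lt_two (α := ℝ))).eventually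
      (eventually_gt_atTop C2)).and (eventually_gt_atTop 0)).exists
    exact ⟨e, he.2, he.1⟩
  obtain ⟨D, hD⟩ : ∃ D, D = (h + 1) * e := ⟨_, rfl⟩
  obtain ⟨t, H, ht0, hH0, htH, hH, hvan⟩ := siegel hB hσ hcb hh0 he0 hD
  have hD0 : 0 < D := by rw [hD]; positivity
  set p : PowerSeries ℤ := ∑ q : Fin D × Fin D, C (t q) * (x ^ (q.1 : ℕ) * u ^ (q.2 : ℕ)) with hp
  have hp0 : p ≠ 0 := hcon D t ht0
  set n := p.order.toNat with hn
  have hp1 : PowerSeries.X ^ n * p.divXPowOrder = p := X_pow_order_mul_divXPowOrder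
  have hp2 : constantCoeff p.divXPowOrder ≠ 0 := by
    rw [Ne, constantCoeff_divXPowOrder_eq_zero_iff]; exact hp0
  have hnD : D * e ≤ n := by
    have h4 : ((D * e : ℕ) : ℕ∞) ≤ p.order := nat_le_order _ _ hvan
    have h5 : (n : ℕ∞) = p.order := coe_toNat_order hp0
    rw [← h5] at h4
    exact_mod_cast h4
  -- the auxiliary function
  let G : ℂ → ℂ := ∑ q : Fin D × Fin D, (fun _ => (t q : ℂ)) *
    ((b * X) ^ (q.1 : ℕ) * (b * U) ^ (q.2 : ℕ) * b ^ (2 * D - q.1 - q.2))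
  have hGa : AnalyticOnNhd ℂ G (closedBall 0 r) := fun z hz =>
    Finset.analyticAt_sum _ fun q _ => analyticAt_const.mul
      ((((ha z hz).pow _).mul ((hc z hz).pow _)).mul ((hb z hz).pow _))
  have h0m : (0 : ℂ) ∈ closedBall (0 : ℂ) r := by simp [hr.le]
  have hGf : G = b ^ (2 * D) *
      ∑ q : Fin D × Fin D, (fun _ => (t q : ℂ)) * (X ^ (q.1 : ℕ) * U ^ (q.2 : ℕ)) := by
    rw [Finset.mul_sum]
    refine Finset.sum_congr rfl fun q _ => ?_
    have h4 : 2 * D = q.1 + q.2 + (2 * D - q.1 - q.2) := by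
      have := q.1.2
      have := q.2.2
      omega
    conv_rhs => rw [h4]
    simp only [pow_add, mul_pow]
    ring
  have hGt : tay G = PowerSeries.X ^ n * (tay b ^ (2 * D) * toC p.divXPowOrder) := by
    have an : ∀ q : Fin D × Fin D, AnalyticAt ℂ
        ((fun _ => (t q : ℂ)) * (X ^ (q.1 : ℕ) * U ^ (q.2 : ℕ))) 0 := fun q =>
      analyticAt_const.mul ((hX.pow _).mul (hU.pow _))
    rw [hGf, tay_mul ((hb 0 h0m).pow _) (Finset.analyticAt_sum _ fun q _ => an q),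
      tay_pow (hb 0 h0m), tay_sum _ fun q _ => an q]
    have h4 : ∑ q : Fin D × Fin D, tay ((fun _ => (t q : ℂ)) * (X ^ (q.1 : ℕ) * U ^ (q.2 : ℕ))) =
        toC p := by
      rw [hp, map_sum]
      refine Finset.sum_congr rfl fun q _ => ?_
      rw [tay_mul analyticAt_const ((hX.pow _).mul (hU.pow _)), tay_mul (hX.pow _) (hU.pow _),
        tay_pow hX, tay_pow hU, hx, hu, tay_const]
      simp
    rw [h4]
    conv_lhs => rw [← hp1]
    simp only [map_mul, map_pow, map_X]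
    ring
  have hcc : constantCoeff (tay b ^ (2 * D) * toC p.divXPowOrder) =
      b 0 ^ (2 * D) * ((constantCoeff p.divXPowOrder : ℤ) : ℂ) := by
    rw [map_mul, map_pow, constantCoeff_tay]
    congr 1
  have hcn : ‖b 0‖ ^ (2 * D) ≤ ‖constantCoeff (tay b ^ (2 * D) * toC p.divXPowOrder)‖ := by
    rw [hcc, norm_mul, norm_pow, Complex.norm_intCast]
    have : (1 : ℝ) ≤ |((constantCoeff p.divXPowOrder : ℤ) : ℝ)| := by
      exact_mod_cast Int.one_le_abs hp2
    exact le_mul_of_one_le_right (by positivity) this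
  obtain ⟨g, hg, hg0, hgG⟩ := exists_factor h0m hGa
    (norm_pos_iff.1 ((pow_pos hβ _).trans_le hcn)) hGt
  rw [← hg0] at hcn
  have hM : ∀ z ∈ sphere (0 : ℂ) r, ‖G z‖ ≤ (4 * E ^ 2) ^ D * H := by
    intro z hz
    have hz' := sphere_subset_closedBall hz
    have h4 : ∀ q : Fin D × Fin D, ‖((fun _ => (t q : ℂ)) *
        ((b * X) ^ (q.1 : ℕ) * (b * U) ^ (q.2 : ℕ) * b ^ (2 * D - q.1 - q.2)) : ℂ → ℂ) z‖ ≤
        H * E ^ (2 * D) := by
      intro q
      have h4 : 2 * D = q.1 + q.2 + (2 * D - q.1 - q.2) := by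
        have := q.1.2
        have := q.2.2
        omega
      conv_rhs => rw [h4]
      have h5 : ‖(t q : ℂ)‖ ≤ H := by simpa [Int.norm_eq_abs] using htH q
      have := eA z hz'
      have := eB z hz'
      have := eC z hz'
      rw [Pi.mul_apply, Pi.mul_apply, Pi.mul_apply, Pi.pow_apply, Pi.pow_apply, Pi.pow_apply,
        norm_mul, norm_mul, norm_mul, norm_pow, norm_pow, norm_pow, pow_add, pow_add]
      gcongr
    have hDD : ((D * D : ℕ) : ℝ) ≤ 4 ^ D := by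
      have h1 : D ≤ 2 ^ D := Nat.lt_two_pow_self.le
      have h2 : D * D ≤ 4 ^ D := by
        calc D * D ≤ 2 ^ D * 2 ^ D := Nat.mul_le_mul h1 h1
          _ = 4 ^ D := by rw [← mul_pow]; norm_num
      exact_mod_cast h2
    calc ‖G z‖ ≤ ∑ q : Fin D × Fin D, H * E ^ (2 * D) := by
          simp only [G, Finset.sum_apply]
          exact (norm_sum_le _ _).trans (Finset.sum_le_sum fun q _ => h4 q)
      _ = ((D * D : ℕ) : ℝ) * (H * E ^ (2 * D)) := by simp
      _ ≤ 4 ^ D * (H * E ^ (2 * D)) := by gcongr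
      _ = _ := by rw [mul_pow, ← pow_mul]; ring
  have hgain := gain (K := ((E / κ) ^ 2) ^ D) (m := m) hζ hr hs0 hs (by positivity) hg hgG hM (by
    intro z hz
    obtain ⟨k, hk, w, hw, hκw, hXw, hUw⟩ := hJ z hz
    refine ⟨k, hk, w, hw, ?_⟩
    have hz' : ζ ^ k * z ∈ closedBall (0 : ℂ) r := by
      rw [mem_closedBall_zero_iff, norm_mul, norm_pow, hζ, one_pow, one_mul]
      exact (mem_sphere_zero_iff_norm.1 hz).le
    have h4 := eB _ hz'
    rw [hGf]
    simp only [Pi.mul_apply, Pi.pow_apply, Finset.sum_apply, hXw, hUw, norm_mul, norm_pow]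
    rw [← pow_mul, ← mul_assoc, ← mul_pow]
    gcongr
    calc ‖b (ζ ^ k * z)‖ ≤ E := h4
      _ = E / κ * κ := by field_simp
      _ ≤ E / κ * ‖b w‖ := by gcongr)
  -- the final inequality
  have f1 : 1 ≤ C1 ^ D * H ^ m * θ ^ (D * e) := by
    have h4 : (‖b 0‖ ^ (2 * D)) ^ m ≤
        ((E / κ) ^ 2) ^ D * ((4 * E ^ 2) ^ D * H) ^ m * θ ^ (D * e) := by
      calc (‖b 0‖ ^ (2 * D)) ^ m ≤ ‖g 0‖ ^ m := by gcongr
        _ ≤ _ := hgain
        _ ≤ _ := by
          have := pow_le_pow_of_le_one hθ0 hθ.le hnD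
          gcongr
    have h5 : C1 ^ D * H ^ m * θ ^ (D * e) =
        ((E / κ) ^ 2) ^ D * ((4 * E ^ 2) ^ D * H) ^ m * θ ^ (D * e) / (‖b 0‖ ^ (2 * D)) ^ m := by
      rw [hC1, div_pow, mul_pow, mul_pow ((4 * E ^ 2) ^ D), ← pow_mul (4 * E ^ 2),
        ← pow_mul (4 * E ^ 2), mul_comm m D, ← pow_mul, ← pow_mul, ← pow_mul, ← pow_mul,
        show 2 * (m * D) = 2 * D * m by ring]
      field_simp
    rw [h5, one_le_div (by positivity)]
    exact h4
  have f2 : 1 ≤ C2 ^ D * (1 / 2) ^ (D * e) := by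
    calc (1 : ℝ) ≤ (C1 ^ D * H ^ m * θ ^ (D * e)) ^ h := one_le_pow₀ f1
      _ = (C1 ^ h) ^ D * (H ^ h) ^ m * (θ ^ h) ^ (D * e) := by
          simp only [mul_pow, ← pow_mul]; ring_nf
      _ ≤ (C1 ^ h) ^ D * ((4 * B ^ 2) ^ D * σ ^ (D * e)) ^ m * (θ ^ h) ^ (D * e) := by gcongr
      _ = C2 ^ D * (σ ^ m * θ ^ h) ^ (D * e) := by
          rw [hC2]; generalize 4 * B ^ 2 = B4
          simp only [mul_pow, ← pow_mul]; ring_nf
      _ ≤ C2 ^ D * (1 / 2) ^ (D * e) := by gcongr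
  have f3 : C2 ^ D < (2 ^ e) ^ D := pow_lt_pow_left₀ he (by positivity) hD0.ne'
  have f4 : C2 ^ D * (1 / 2 : ℝ) ^ (D * e) < (2 ^ e) ^ D * (1 / 2) ^ (D * e) := by gcongr
  rw [← pow_mul, mul_comm e D, ← mul_pow] at f4
  norm_num at f4
  norm_num at f2
  linarith

end Crest.Agent.T15.AlgM
end
end

-- ▼ part T15/AlgMC_4

/-!
# Row 15, block Ht: algebraicity criterion, part C (helper4)

Two meromorphic functions on the unit disc with Taylor series in `ℤ⟦q⟧`, invariant under one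
parabolic element `τ ↦ τ / (N τ + 1)`, are algebraically dependent.
-/

set_option autoImplicit false

open Set Filter Topology Metric PowerSeries Complex
open scoped Real

noncomputable section

namespace Crest.Agent.T15.AlgM

/-- `e(τ) = exp (2 π i τ)` -/
def ee (τ : ℂ) : ℂ := cexp (2 * π * I * τ)

lemma qParam_one (τ : ℂ) : Function.Periodic.qParam 1 τ = ee τ := by
  simp [Function.Periodic.qParam, ee]

lemma norm_ee (τ : ℂ) : ‖ee τ‖ = Real.exp (-(2 * π * τ.im)) := by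
  rw [ee, norm_exp]; congr 1; simp

lemma ee_add (a b : ℂ) : ee (a + b) = ee a * ee b := by
  rw [ee, ee, ee, ← Complex.exp_add]; congr 1; ring

lemma ee_int (j : ℤ) : ee j = 1 := by
  rw [ee, mul_comm]; exact exp_int_mul_two_pi_mul_I j

lemma ee_pow (a : ℂ) (k : ℕ) : ee a ^ k = ee (k * a) := by
  rw [ee, ee, ← Complex.exp_nat_mul]; congr 1; ring

lemma continuous_ee : Continuous ee := by unfold ee; fun_prop

lemma countable_ee {S : Set ℂ} (hS : S.Countable) : (ee ⁻¹' S).Countable := by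
  have h1 : (cexp ⁻¹' S).Countable := countable_preimage_exp.2 hS
  refine h1.preimage_of_injOn (f := fun τ : ℂ => 2 * π * I * τ) fun a _ b _ h => ?_
  exact mul_left_cancel₀ two_pi_I_ne_zero h

/-- clearing the poles on a compact set by an entire function with finitely many zeros -/
lemma exists_clear {f : ℂ → ℂ} {K : Set ℂ} (hK : IsCompact K) (hf : MeromorphicOn f K)
    (h0 : AnalyticAt ℂ f 0) : ∃ b : ℂ → ℂ, (∀ z, AnalyticAt ℂ b z) ∧ b 0 ≠ 0 ∧
      {z | b z = 0}.Finite ∧ AnalyticOnNhd ℂ (b * f) K := by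
  classical
  have hfin : (K \ {z | AnalyticAt ℂ f z}).Finite :=
    hK.finite_sdiff_of_mem_codiscreteWithin hf.eventually_codiscreteWithin_analyticAt
  have hn : ∀ z : ℂ, ∃ n : ℕ, z ∈ K → AnalyticAt ℂ (fun w => (w - z) ^ n • f w) z := by
    intro z
    by_cases hz : z ∈ K
    · obtain ⟨n, hn⟩ := hf z hz
      exact ⟨n, fun _ => hn⟩
    · exact ⟨0, fun h => (hz h).elim⟩
  choose n hn using hn
  have an : ∀ (s : Finset ℂ) (z : ℂ), AnalyticAt ℂ (fun w => ∏ a ∈ s, (w - a) ^ n a) z :=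
    fun s z => Finset.analyticAt_fun_prod _ fun a _ => by fun_prop
  have hz : ∀ z, ∏ a ∈ hfin.toFinset, (z - a) ^ n a = 0 → z ∈ K \ {z | AnalyticAt ℂ f z} := by
    intro z h
    obtain ⟨a, ha, h⟩ := Finset.prod_eq_zero_iff.1 h
    have : z = a := sub_eq_zero.1 (eq_zero_of_pow_eq_zero h)
    rw [this]
    exact hfin.mem_toFinset.1 ha
  refine ⟨fun w => ∏ a ∈ hfin.toFinset, (w - a) ^ n a, an _, fun h => (hz 0 h).2 h0,
    hfin.subset hz, fun z hzK => ?_⟩
  by_cases h : AnalyticAt ℂ f z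
  · exact (an _ z).mul h
  · have hm : z ∈ hfin.toFinset := hfin.mem_toFinset.2 ⟨hzK, h⟩
    have := (an (hfin.toFinset.erase z) z).mul (hn z hzK)
    refine this.congr (Eventually.of_forall fun w => ?_)
    simp only [Pi.mul_apply, smul_eq_mul]
    rw [← Finset.mul_prod_erase _ _ hm]
    ring

/-- every point of the circle has a rotate over the interval -/
lemma exists_rot {m : ℕ} (hm : 0 < m) (y lo : ℝ) {z : ℂ} (hz : ‖z‖ = Real.exp (-(2 * π * y))) :
    ∃ k < m, ∃ t ∈ Icc lo (lo + 1 / m), ee (1 / m) ^ k * z = ee (t + y * I) := by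
  have hm' : (0 : ℝ) < m := by exact_mod_cast hm
  set t₀ : ℝ := arg z / (2 * π) with ht₀
  have hz' : z = ee (t₀ + y * I) := by
    rw [ee_add]
    have h1 : ee (y * I) = (‖z‖ : ℂ) := by
      rw [hz, ee, ofReal_exp]; congr 1; push_cast
      linear_combination (2 * π * y : ℂ) * I_mul_I
    have h2 : ee t₀ = cexp (arg z * I) := by
      rw [ee, ht₀]; congr 1; push_cast
      have : (π : ℂ) ≠ 0 := ofReal_ne_zero.2 Real.pi_ne_zero
      field_simp
    rw [h1, h2, mul_comm, norm_mul_exp_arg_mul_I]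
  set j : ℤ := ⌈m * (lo - t₀)⌉ with hj
  have hmz : (0 : ℤ) < m := by exact_mod_cast hm
  refine ⟨(j % m).toNat, ?_, t₀ + j / m, ⟨?_, ?_⟩, ?_⟩
  · have := Int.emod_lt_of_pos j hmz
    have := Int.emod_nonneg j hmz.ne'
    omega
  · have := Int.le_ceil (m * (lo - t₀))
    rw [← hj] at this
    rw [← sub_le_iff_le_add', le_div_iff₀ hm']
    linarith
  · have := (Int.ceil_lt_add_one (m * (lo - t₀))).le
    rw [← hj] at this
    rw [← le_sub_iff_add_le', div_le_iff₀ hm']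
    have h1 : (lo + 1 / m - t₀) * m = m * (lo - t₀) + 1 := by field_simp; ring
    linarith
  · have h1 : (((j % m).toNat : ℕ) : ℂ) = (j : ℂ) - m * ((j / m : ℤ) : ℂ) := by
      have h2 : (((j % m).toNat : ℕ) : ℤ) = j - m * (j / m) := by
        rw [Int.toNat_of_nonneg (Int.emod_nonneg j hmz.ne'), Int.emod_def]
      exact_mod_cast congrArg (Int.cast : ℤ → ℂ) h2
    conv_lhs => rw [hz']
    have h3 : ∀ a : ℂ, ee a = ee (a + ((j / m : ℤ) : ℂ)) := fun a => by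
      rw [ee_add, ee_int, mul_one]
    rw [ee_pow, ← ee_add, h1, h3]
    congr 1
    have : (m : ℂ) ≠ 0 := by exact_mod_cast hm.ne'
    push_cast
    field_simp
    ring

/-- **algebraicity criterion** (coefficient form) -/
theorem alg_sum {N : ℕ} (hN : 0 < N) {X U : ℂ → ℂ}
    (mX : MeromorphicOn X (ball 0 1)) (mU : MeromorphicOn U (ball 0 1))
    (hX : AnalyticAt ℂ X 0) (hU : AnalyticAt ℂ U 0)
    {x u : PowerSeries ℤ} (hx : tay X = toC x) (hu : tay U = toC u)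
    {Z : Set ℂ} (hZ : Z.Countable)
    (inv : ∀ τ : ℂ, 0 < τ.im → τ ∉ Z →
      X (ee (τ / (N * τ + 1))) = X (ee τ) ∧ U (ee (τ / (N * τ + 1))) = U (ee τ)) :
    ∃ (D : ℕ) (t : Fin D × Fin D → ℤ), t ≠ 0 ∧
      ∑ p, C (t p) * (x ^ (p.1 : ℕ) * u ^ (p.2 : ℕ)) = 0 := by
  have hN' : (0 : ℝ) < N := by exact_mod_cast hN
  obtain ⟨m, hm⟩ : ∃ m : ℕ, m = 6 * N ^ 2 := ⟨_, rfl⟩
  have hm0 : 0 < m := by rw [hm]; positivity
  have hm1 : (1 : ℝ) ≤ m := by exact_mod_cast hm0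
  have hm' : (0 : ℝ) < m := by linarith
  have hmN : (m : ℝ) = 6 * N ^ 2 := by rw [hm]; push_cast; ring
  set R : ℝ := Real.exp (-(2 * π * (1 / (2 * m)))) with hR
  have hR1 : R < 1 := Real.exp_lt_one_iff.2 (by
    have := Real.pi_pos
    have : 0 < 2 * π * (1 / (2 * (m : ℝ))) := by positivity
    linarith)
  have hsub : closedBall (0 : ℂ) R ⊆ ball 0 1 := closedBall_subset_ball hR1
  obtain ⟨b1, a1, n1, f1, c1⟩ := exists_clear (isCompact_closedBall 0 R) (mX.mono_set hsub) hX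
  obtain ⟨b2, a2, n2, f2, c2⟩ := exists_clear (isCompact_closedBall 0 R) (mU.mono_set hsub) hU
  set b := b1 * b2 with hb
  have ab : ∀ z, AnalyticAt ℂ b z := fun z => (a1 z).mul (a2 z)
  have fb : {z | b z = 0}.Countable := by
    refine (f1.union f2).countable.mono fun z hz => ?_
    simpa [hb] using hz
  -- generic height
  have hZ' : (im '' (Z ∪ (fun w : ℂ => w / (1 - N * w)) '' (ee ⁻¹' {z | b z = 0}))).Countable :=
    (hZ.union ((countable_ee fb).image _)).image _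
  have hlt : 1 / (2 * (m : ℝ)) < 1 / m := one_div_lt_one_div_of_lt hm' (by linarith)
  obtain ⟨y, hyZ, hy1, hy2⟩ := (hZ'.dense_compl ℝ).exists_mem_open isOpen_Ioo (nonempty_Ioo.2 hlt)
  have hy0 : 0 < y := lt_trans (by positivity) hy1
  set r : ℝ := Real.exp (-(2 * π * y)) with hr
  have hrR : closedBall (0 : ℂ) r ⊆ closedBall 0 R := by
    refine closedBall_subset_closedBall (Real.exp_le_exp.2 ?_)
    have := Real.pi_pos
    nlinarith
  set lo : ℝ := -1 / N - 1 / (2 * m) with hlo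
  have him : ∀ t : ℝ, ((t : ℂ) + y * I).im = y := by intro t; simp
  have hden : ∀ t : ℝ, (N : ℂ) * (t + y * I) + 1 ≠ 0 := by
    intro t h
    have := congrArg im h
    simp at this
    rcases this with h | h
    · omega
    · exact hy0.ne' h
  let σ : ℝ → ℂ := fun t => ee ((t + y * I) / (N * (t + y * I) + 1))
  have cσ : Continuous σ := continuous_ee.comp
    (Continuous.div (by fun_prop) (by fun_prop) hden)
  have nσ : ∀ t, b (σ t) ≠ 0 := by
    intro t h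
    refine hyZ ⟨t + y * I, Or.inr ⟨_, h, ?_⟩, him t⟩
    have := hden t
    have h2 : 1 - (N : ℂ) * ((t + y * I) / (N * (t + y * I) + 1)) = 1 / (N * (t + y * I) + 1) := by
      field_simp; ring
    simp only [h2]
    rw [div_div_div_cancel_right₀ this, div_one]
  have cb : Continuous b := continuous_iff_continuousAt.2 fun z => (ab z).continuousAt
  obtain ⟨κ, hκ, hκ'⟩ := (isCompact_Icc (a := lo) (b := lo + 1 / m)).exists_forall_le'
    (f := fun t => ‖b (σ t)‖) (a := 0) ((cb.comp cσ).norm.continuousOn)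
    (fun t _ => norm_pos_iff.2 (nσ t))
  have hym : y * m ≤ 1 := by
    have := hy2.le
    rwa [le_div_iff₀ hm'] at this
  refine core (r := r) (s := Real.exp (-(2 * π * 3))) (κ := κ) (m := m) (ζ := ee (1 / m)) (b := b)
    ?_ (Real.exp_pos _) (Real.exp_pos _).le ?_ ?_ hκ hX hU hx hu (fun z _ => ab z)
    (mul_ne_zero n1 n2) ?_ ?_ ?_
  · rw [norm_ee]
    simp
  · refine Real.exp_le_exp.2 ?_
    have := Real.pi_pos
    nlinarith
  · rw [hr, ← Real.exp_nat_mul, ← Real.exp_sub]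
    refine Real.exp_lt_one_iff.2 ?_
    have := Real.pi_pos
    push_cast
    have h1 : (m + 1) * y < 3 := by nlinarith
    nlinarith
  · intro z hz
    have := (a2 z).mul (c1 z (hrR hz))
    refine this.congr (Eventually.of_forall fun w => ?_)
    simp only [hb, Pi.mul_apply]; ring
  · intro z hz
    have := (a1 z).mul (c2 z (hrR hz))
    refine this.congr (Eventually.of_forall fun w => ?_)
    simp only [hb, Pi.mul_apply]; ring
  · intro z hz
    obtain ⟨k, hk, t, ht, hkt⟩ := exists_rot hm0 y lo (mem_sphere_zero_iff_norm.1 hz)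
    have hi := inv (t + y * I) (by rw [him]; exact hy0)
      (fun h => hyZ ⟨_, Or.inl h, him t⟩)
    refine ⟨k, hk, σ t, ?_, hκ' t ht, by rw [hkt]; exact hi.1.symm, by rw [hkt]; exact hi.2.symm⟩
    rw [norm_ee]
    refine Real.exp_le_exp.2 ?_
    have h1 : (((t : ℂ) + y * I) / (N * (t + y * I) + 1)).im =
        y / ((N * t + 1) ^ 2 + (N * y) ^ 2) := by
      rw [div_im, normSq_apply]
      simp
      ring
    have h2 : (N * t + 1) ^ 2 ≤ (N * y) ^ 2 := by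
      have e1 : (N : ℝ) * lo = -1 - N * (1 / (2 * m)) := by rw [hlo]; field_simp
      have e2 : (N : ℝ) * (lo + 1 / m) = -1 + N * (1 / (2 * m)) := by rw [hlo]; field_simp; ring
      have e3 := mul_le_mul_of_nonneg_left ht.1 hN'.le
      have e4 := mul_le_mul_of_nonneg_left ht.2 hN'.le
      have e5 := mul_le_mul_of_nonneg_left hy1.le hN'.le
      refine sq_le_sq' ?_ ?_ <;> linarith
    have h3 : 3 ≤ y / ((N * t + 1) ^ 2 + (N * y) ^ 2) := by
      rw [le_div_iff₀ (by positivity)]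
      have : 6 * (N * y) ^ 2 = y * (y * m) := by rw [hmN]; ring
      nlinarith
    rw [h1]
    have := Real.pi_pos
    nlinarith

/-- **algebraicity criterion** -/
theorem alg {N : ℕ} (hN : 0 < N) {X U : ℂ → ℂ}
    (mX : MeromorphicOn X (ball 0 1)) (mU : MeromorphicOn U (ball 0 1))
    (hX : AnalyticAt ℂ X 0) (hU : AnalyticAt ℂ U 0)
    {x u : PowerSeries ℤ} (hx : tay X = toC x) (hu : tay U = toC u)
    {Z : Set ℂ} (hZ : Z.Countable)
    (inv : ∀ τ : ℂ, 0 < τ.im → τ ∉ Z →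
      X (ee (τ / (N * τ + 1))) = X (ee τ) ∧ U (ee (τ / (N * τ + 1))) = U (ee τ)) :
    ∃ P : MvPolynomial (Fin 2) ℤ, P ≠ 0 ∧ MvPolynomial.aeval ![x, u] P = 0 := by
  classical
  obtain ⟨D, t, ht, h⟩ := alg_sum hN mX mU hX hU hx hu hZ inv
  let φ : Fin D × Fin D → (Fin 2 →₀ ℕ) := fun p =>
    Finsupp.single 0 (p.1 : ℕ) + Finsupp.single 1 (p.2 : ℕ)
  have hφ : Function.Injective φ := by
    intro p q h
    have h0 := congrArg (fun f : Fin 2 →₀ ℕ => f 0) h
    have h1 := congrArg (fun f : Fin 2 →₀ ℕ => f 1) h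
    simp [φ] at h0 h1
    exact Prod.ext (Fin.ext h0) (Fin.ext h1)
  refine ⟨∑ p, MvPolynomial.monomial (φ p) (t p), fun h0 => ht (funext fun q => ?_), ?_⟩
  · have := congrArg (MvPolynomial.coeff (φ q)) h0
    simpa [MvPolynomial.coeff_sum, MvPolynomial.coeff_monomial, hφ.eq_iff] using this
  · rw [map_sum, ← h]
    refine Finset.sum_congr rfl fun p _ => ?_
    rw [MvPolynomial.aeval_monomial, Finsupp.prod_add_index' (by simp) (by simp [pow_add])]
    simp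

end Crest.Agent.T15.AlgM
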