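import Crest.Agent.T27.HeckeG_87
import Crest.Agent.T27.EulZ_52
import Crest.Agent.T27.Split_52
import Crest.Agent.T27.Cheb_52

-- ▼ part T15/ChebA_25
section

/-!
# Row 15, Chebotarev, part A: logarithmic densities and primes of `K` with prescribed norm class
-/

set_option autoImplicit false

noncomputable section

namespace Crest.Agent.T15.Cheb

open NumberField Filter Topology Complex LSeries
open Crest.Agent.T27
open Crest.Agent.R014.EulC_534 (rE)
open scoped ComplexOrder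

/-- bounded coefficients -/
def Bd (a : ℕ → ℂ) : Prop := ∃ C, ∀ n ≠ 0, ‖a n‖ ≤ C

/-- `∑ a(n) log n n^{-s} ∼ d / (s - 1)` -/
def Res (a : ℕ → ℂ) (d : ℂ) : Prop :=
  Tendsto (fun s : ℝ => ((s : ℂ) - 1) * LSeries (logMul a) s) (𝓝[>] 1) (𝓝 d)

theorem Bd.abs {a : ℕ → ℂ} (h : Bd a) {s : ℂ} (hs : 1 < s.re) : abscissaOfAbsConv a < s.re :=
  (abscissaOfAbsConv_le_of_le_const h).trans_lt (by exact_mod_cast hs)

theorem Bd.summ {a : ℕ → ℂ} (h : Bd a) {s : ℂ} (hs : 1 < s.re) : LSeriesSummable (logMul a) s :=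
  LSeriesSummable_logMul_of_lt_re (h.abs hs)

theorem Res.unique {a : ℕ → ℂ} {d d' : ℂ} (h : Res a d) (h' : Res a d') : d = d' :=
  tendsto_nhds_unique h h'

theorem Res.sum {ι : Type*} (T : Finset ι) {a : ι → ℕ → ℂ} {d : ι → ℂ} (c : ι → ℂ)
    (hb : ∀ i, Bd (a i)) (h : ∀ i ∈ T, Res (a i) (d i)) {b : ℕ → ℂ}
    (hs : ∀ n, b n = ∑ i ∈ T, c i * a i n) : Res b (∑ i ∈ T, c i * d i) := by
  have h1 := tendsto_finsetSum T fun i hi => (h i hi).const_mul (c i)
  refine h1.congr' ?_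
  filter_upwards [self_mem_nhdsWithin] with s hs1
  have hs2 : 1 < (s : ℂ).re := by simpa using hs1
  have h2 : HasSum (fun n => ∑ i ∈ T, c i * term (logMul (a i)) s n)
      (∑ i ∈ T, c i * LSeries (logMul (a i)) s) :=
    hasSum_sum fun i _ => ((hb i).summ hs2).hasSum.mul_left (c i)
  have h3 : LSeries (logMul b) s = ∑ i ∈ T, c i * LSeries (logMul (a i)) s := by
    refine (h2.congr_fun fun n => ?_).tsum_eq
    rcases eq_or_ne n 0 with rfl | hn
    · simp
    · simp only [term_of_ne_zero hn, logMul, hs n, Finset.mul_sum, Finset.sum_div]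
      exact Finset.sum_congr rfl fun i _ => by ring
  rw [h3, Finset.mul_sum]
  exact Finset.sum_congr rfl fun i _ => by ring

theorem Res.nonneg {a : ℕ → ℂ} {d : ℂ} (h : Res a d) (ha : ∀ n, 0 ≤ a n) : 0 ≤ d := by
  refine ge_of_tendsto h ?_
  filter_upwards [self_mem_nhdsWithin] with s hs
  have hs1 : (1 : ℝ) < s := hs
  refine mul_nonneg (by exact_mod_cast sub_nonneg.2 hs1.le) (tsum_nonneg fun n => ?_)
  refine term_nonneg ?_ s
  rw [logMul, ← natCast_log]
  exact mul_nonneg (by exact_mod_cast Real.log_natCast_nonneg n) (ha n)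

theorem res_zero {a : ℕ → ℂ} {B : ℕ} (h : ∀ n, B < n → a n = 0) : Res a 0 := by
  have h1 : LSeriesSummable (logMul a) (0 : ℝ) := by
    refine summable_of_ne_finset_zero (s := Finset.range (B + 1)) fun n hn => ?_
    have hn' : B < n := by simpa using hn
    rw [term_of_ne_zero (by omega), logMul, h n hn']
    simp
  have h2 : abscissaOfAbsConv (logMul a) < (1 : ℂ).re :=
    h1.abscissaOfAbsConv_le.trans_lt (by simp)
  have h3 : ContinuousAt (fun s : ℂ => (s - 1) * LSeries (logMul a) s) 1 :=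
    (continuousAt_id.sub continuousAt_const).mul (LSeries_hasDerivAt h2).continuousAt
  have h4 := (h3.tendsto.comp (continuous_ofReal.tendsto' 1 1 ofReal_one)).mono_left
    (nhdsWithin_le_nhds (s := Set.Ioi 1))
  simpa [Res, Function.comp_def] using h4

/-- sets with `∑ log n / n < ∞` -/
def Sm (A : Set ℕ) : Prop := Summable fun n : ℕ => A.indicator (fun n => Real.log n / n) n

theorem sm_le (B : ℕ) : Sm {n | n ≤ B} :=
  summable_of_ne_finset_zero (s := Finset.range (B + 1)) fun n hn =>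
    Set.indicator_of_notMem (by simpa using hn) _

theorem Sm.union {A A' : Set ℕ} (h : Sm A) (h' : Sm A') : Sm (A ∪ A') := by
  have h0 : ∀ n : ℕ, 0 ≤ Real.log n / n := fun n =>
    div_nonneg (Real.log_natCast_nonneg n) n.cast_nonneg
  refine (Summable.add h h').of_nonneg_of_le (fun n => Set.indicator_nonneg (fun n _ => h0 n) n)
    fun n => ?_
  have := h0 n
  by_cases h1 : n ∈ A <;> by_cases h2 : n ∈ A' <;> simp [h1, h2, this]

theorem res_small {a : ℕ → ℂ} (ha : Bd a) {A : Set ℕ} (hA : Sm A) (h : ∀ n, n ∉ A → a n = 0) :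
    Res a 0 := by
  obtain ⟨C, hC⟩ := ha
  have h1 : Tendsto (fun s : ℝ => (s - 1) * ∑' n : ℕ, C * A.indicator (fun n => Real.log n / n) n)
      (𝓝[>] 1) (𝓝 0) := by
    have : Continuous fun s : ℝ => (s - 1) * ∑' n : ℕ, C * A.indicator (fun n => Real.log n / n) n :=
      by fun_prop
    simpa using (this.tendsto 1).mono_left (nhdsWithin_le_nhds (s := Set.Ioi 1))
  refine squeeze_zero_norm' ?_ h1
  filter_upwards [self_mem_nhdsWithin] with s hs
  have hs1 : (1 : ℝ) < s := hs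
  rw [norm_mul, ← ofReal_one, ← ofReal_sub, norm_real, Real.norm_of_nonneg (by linarith)]
  refine mul_le_mul_of_nonneg_left (tsum_of_norm_bounded (hA.mul_left C).hasSum fun n => ?_)
    (by linarith)
  rcases eq_or_ne n 0 with rfl | hn
  · by_cases h0 : 0 ∈ A <;> simp [h0]
  by_cases hn' : n ∈ A
  · have h2 : (1 : ℝ) ≤ n := by exact_mod_cast Nat.pos_of_ne_zero hn
    rw [norm_term_eq, if_neg hn, Set.indicator_of_mem hn', logMul, norm_mul, ← natCast_log,
      norm_real, Real.norm_of_nonneg (Real.log_natCast_nonneg n), ofReal_re, mul_comm,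
      ← mul_div_assoc]
    refine div_le_div₀ (mul_nonneg ((norm_nonneg _).trans (hC n hn)) (Real.log_natCast_nonneg n))
      (mul_le_mul_of_nonneg_right (hC n hn) (Real.log_natCast_nonneg n)) (by linarith) ?_
    simpa using Real.rpow_le_rpow_of_exponent_le h2 hs1.le
  · simp [term_of_ne_zero hn, logMul, h n hn', hn']

theorem Res.congr {a b : ℕ → ℂ} {d : ℂ} (h : Res a d) (ha : Bd a) (hb : Bd b) {B : ℕ}
    (hab : ∀ n, B < n → a n = b n) : Res b d := by
  have h1 : Res (fun n => b n - a n) 0 := res_zero (B := B) fun n hn => by rw [hab n hn, sub_self]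
  have h2 : Bd fun n => b n - a n := by
    obtain ⟨C, hC⟩ := ha
    obtain ⟨C', hC'⟩ := hb
    exact ⟨C' + C, fun n hn => (norm_sub_le _ _).trans (add_le_add (hC' n hn) (hC n hn))⟩
  have := Res.sum (Finset.univ : Finset Bool) (a := fun i => bif i then a else fun n => b n - a n)
    (d := fun i => bif i then d else 0) (fun _ => 1) (fun i => by cases i <;> assumption)
    (fun i _ => by cases i <;> assumption) (b := b) fun n => by simp
  simpa using this

/-- the order of a continuation at `s = 1` -/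
theorem res_of_cont' {a : ℕ → ℂ} (ha : Bd a) {R f : ℂ → ℂ}
    (hR : DifferentiableOn ℂ R {s | 3 / 4 < s.re}) (hf : DifferentiableOn ℂ f {s | 0 < s.re})
    (h : ∀ s : ℂ, 1 < s.re → f s = (s - 1) * exp (LSeries a s + R s)) :
    ∃ n : ℕ, Res a (1 - n) ∧ (f 1 ≠ 0 ↔ n = 0) := by
  have o1 : {s : ℂ | 3 / 4 < s.re} ∈ 𝓝 (1 : ℂ) :=
    (isOpen_lt continuous_const continuous_re).mem_nhds (by simp; norm_num)
  have o2 : {s : ℂ | 0 < s.re} ∈ 𝓝 (1 : ℂ) :=
    (isOpen_lt continuous_const continuous_re).mem_nhds (by simp)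
  have hf1 : AnalyticAt ℂ f 1 := hf.analyticAt o2
  have hR1 : AnalyticAt ℂ R 1 := hR.analyticAt o1
  have ht : Tendsto (fun s : ℝ => (s : ℂ)) (𝓝[>] 1) (𝓝 1) :=
    (continuous_ofReal.tendsto' 1 1 ofReal_one).mono_left nhdsWithin_le_nhds
  have hgt : ∀ᶠ s : ℝ in 𝓝[>] 1, 1 < (s : ℂ).re := by
    filter_upwards [self_mem_nhdsWithin] with s hs using by simpa using hs
  have hne : ∀ s : ℂ, 1 < s.re → s - 1 ≠ 0 := fun s hs h0 => by
    rw [sub_eq_zero.1 h0] at hs; simp at hs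
  obtain ⟨n, g, hg, hg1, hfg⟩ := hf1.exists_eventuallyEq_pow_smul_nonzero_iff.2 fun h0 => by
    obtain ⟨s, h1, h2⟩ := ((ht.eventually h0).and hgt).exists
    rw [h s h2] at h1
    exact mul_ne_zero (hne s h2) (exp_ne_zero _) h1
  refine ⟨n, ?_, fun h1 => ?_, fun h1 => ?_⟩
  · have c1 : ContinuousAt (fun s : ℂ => 1 - n - (s - 1) * (deriv g s / g s - deriv R s)) 1 :=
      continuousAt_const.sub ((continuousAt_id.sub continuousAt_const).mul
        ((hg.deriv.continuousAt.div hg.continuousAt hg1).sub hR1.deriv.continuousAt))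
    have c2 := c1.tendsto.comp ht
    simp only [sub_self, zero_mul, sub_zero] at c2
    refine c2.congr' ?_
    filter_upwards [hgt, ht.eventually hfg.eventually_nhds, ht.eventually hg.eventually_analyticAt,
      ht.eventually hR1.eventually_analyticAt,
      ht.eventually (hg.continuousAt.eventually_ne hg1)] with s h1 h2 h3 h4 h5
    have d1 : HasDerivAt (fun z : ℂ => (z - 1) * exp (LSeries a z + R z)) _ s :=
      ((hasDerivAt_id (s : ℂ)).sub_const 1).mul
        ((LSeries_hasDerivAt (ha.abs h1)).add h4.differentiableAt.hasDerivAt).cexp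
    have d2 : HasDerivAt (fun z : ℂ => (z - 1) ^ n * g z) _ s :=
      (((hasDerivAt_id (s : ℂ)).sub_const 1).pow n).mul h3.differentiableAt.hasDerivAt
    have e : (fun z : ℂ => (z - 1) * exp (LSeries a z + R z)) =ᶠ[𝓝 (s : ℂ)]
        fun z : ℂ => (z - 1) ^ n * g z := by
      filter_upwards [h2, (isOpen_lt continuous_const continuous_re).mem_nhds h1] with z z1 z2
      rw [← h z z2, z1, smul_eq_mul]
    have e1 := (d1.congr_of_eventuallyEq e.symm).unique d2
    have e2 := e.self_of_nhds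
    simp only [id, Pi.add_apply, Pi.pow_apply, one_mul, mul_one] at e1 e2
    have e3 : ((s : ℂ) - 1) * (n * ((s : ℂ) - 1) ^ (n - 1)) = n * ((s : ℂ) - 1) ^ n := by
      cases n with
      | zero => simp
      | succ n => simp [pow_succ]; ring
    have e4 : ((s : ℂ) - 1) ^ n ≠ 0 := pow_ne_zero _ (hne s h1)
    simp only [Function.comp_apply]
    apply mul_left_cancel₀ e4
    apply mul_left_cancel₀ h5
    have e5 : g s * (deriv g s / g s) = deriv g s := by field_simp
    linear_combination ((s : ℂ) - 1) * e1 + g s * e3 - (((s : ℂ) - 1) ^ n * (s - 1)) * e5 -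
      (1 - ((s : ℂ) - 1) * (LSeries (logMul a) s - deriv R s)) * e2
  · by_contra hn
    apply h1
    rw [hfg.self_of_nhds]
    simp [hn]
  · rw [hfg.self_of_nhds]
    simpa [h1] using hg1

theorem res_of_cont {a : ℕ → ℂ} (ha : Bd a) {R f : ℂ → ℂ}
    (hR : DifferentiableOn ℂ R {s | 3 / 4 < s.re}) (hf : DifferentiableOn ℂ f {s | 0 < s.re})
    (h : ∀ s : ℂ, 1 < s.re → f s = (s - 1) * exp (LSeries a s + R s)) :
    ∃ n : ℕ, Res a (1 - n) ∧ (f 1 ≠ 0 → n = 0) := by
  obtain ⟨n, h1, h2⟩ := res_of_cont' ha hR hf h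
  exact ⟨n, h1, h2.1⟩


end Crest.Agent.T15.Cheb
end
end

-- ▼ part T15/ChebB_25
section

/-!
# Row 15, Chebotarev, part B: cyclotomic extensions of a totally complex field
-/

set_option autoImplicit false

noncomputable section

namespace Crest.Agent.T15.Cheb

open NumberField Filter Topology Complex LSeries Ideal
open Crest.Agent.T27
open Crest.Agent.R014.EulC_534 (rE)
open scoped ComplexOrder

theorem bd_pc (K : Type*) [Field K] [NumberField K] {c : ℕ →* ℂ} (hc : ∀ n, ‖c n‖ ≤ 1) :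
    Bd (pc K c) := ⟨_, fun n _ => Desc52.norm_pc_le K hc n⟩

theorem res_pc (K : Type) [Field K] [NumberField K] [hK : IsTotallyComplex K] {m : ℕ} (hm : m ≠ 0)
    {c : ℕ →* ℂ} (hc : ∀ n, ‖c n‖ ≤ 1) (hp : ∀ a b, a ≡ b [MOD m] → c a = c b) :
    ∃ n : ℕ, Res (pc K c) (1 - n) ∧ (c = 1 → n = 0) := by
  obtain ⟨g, hg1, hg2⟩ := lCont_87 K hK (span {(m : 𝓞 K)}) (by simpa using hm)
    (fun I => c (absNorm I)) (fun I J => by rw [map_mul, map_mul]) (fun I => hc _)
    (fun x y h => hp _ _ (absNorm_congr_52 m h))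
  obtain ⟨C, -, hC⟩ := euler_52
  obtain ⟨R, h1, -, h2⟩ := hC K c hc
  obtain ⟨n, h3, h4⟩ := res_of_cont (bd_pc K hc) h1 hg1 fun s hs => by rw [hg2 s hs, h2 s hs]
  refine ⟨n, h3, fun h => h4 (Desc52.at_one (K := K) hg1 fun s hs => ?_)⟩
  rw [hg2 s hs, zeta_eq_tsum_52 K hs, h]
  simp

theorem res_one (K : Type) [Field K] [NumberField K] [IsTotallyComplex K] : Res (pc K 1) 1 := by
  obtain ⟨n, h1, h2⟩ := res_pc K one_ne_zero (c := 1) Desc52.norm_one_le fun _ _ _ => rfl
  simpa [h2 rfl] using h1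

/-- a probability vector with integral Fourier coefficient -/
theorem fourier_int {U : Type*} [Fintype U] {d χ : U → ℂ} (hd : ∀ u, 0 ≤ d u) (h1 : ∑ u, d u = 1)
    (hχ : ∀ u, ‖χ u‖ ≤ 1) {n : ℕ} (hn : ∑ u, χ u * d u = 1 - n) {o : U} (ho : d o ≠ 0)
    (hχo : χ o = 1) {u : U} (hu : d u ≠ 0) : χ u = 1 ∨ n = 1 := by
  have hre : ∀ u, 0 ≤ (d u).re := fun u => (Complex.nonneg_iff.1 (hd u)).1
  have him : ∀ u, (d u).im = 0 := fun u => (Complex.nonneg_iff.1 (hd u)).2.symm
  have hpos : ∀ u, d u ≠ 0 → 0 < (d u).re := fun u hu =>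
    (hre u).lt_of_ne fun h => hu (Complex.ext h.symm (him u))
  have hab : ∀ u, |(χ u).re| ≤ 1 := fun u => (abs_re_le_norm _).trans (hχ u)
  have e1 := congrArg re h1
  have e2 := congrArg re hn
  simp only [re_sum, mul_re, him, mul_zero, sub_zero, one_re, sub_re, natCast_re] at e1 e2
  rcases Nat.lt_trichotomy n 1 with h | h | h
  · obtain rfl : n = 0 := by omega
    have e3 : ∑ u, (1 - (χ u).re) * (d u).re = 0 := by
      simp only [sub_mul, one_mul, Finset.sum_sub_distrib, e1, e2]; simp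
    have e4 := (Finset.sum_eq_zero_iff_of_nonneg fun u _ =>
      mul_nonneg (sub_nonneg.2 (abs_le.1 (hab u)).2) (hre u)).1 e3 u (Finset.mem_univ u)
    have e5 : (χ u).re = 1 := by
      have := (mul_eq_zero.1 e4).resolve_right (hpos u hu).ne'
      linarith
    left
    have e6 : ‖χ u‖ ^ 2 ≤ 1 := pow_le_one₀ (norm_nonneg _) (hχ u)
    rw [Complex.sq_norm, normSq_apply, e5] at e6
    exact Complex.ext e5 (mul_self_eq_zero.1 (le_antisymm (by linarith) (mul_self_nonneg _)))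
  · exact Or.inr h
  · exfalso
    have e3 : 0 < ∑ u, (1 + (χ u).re) * (d u).re :=
      Finset.sum_pos' (fun u _ => mul_nonneg (by linarith [(abs_le.1 (hab u)).1]) (hre u))
        ⟨o, Finset.mem_univ o, mul_pos (by rw [hχo]; norm_num) (hpos o ho)⟩
    simp only [add_mul, one_mul, Finset.sum_add_distrib, e1, e2] at e3
    have : (2 : ℝ) ≤ n := by exact_mod_cast h
    linarith

/-- a Dirichlet character on the natural numbers -/
def cn {m : ℕ} (χ : DirichletCharacter ℂ m) : ℕ →* ℂ where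
  toFun n := χ n
  map_one' := by simp
  map_mul' a b := by simp

/-- primes of degree one with norm in a class -/
def cl (K : Type*) [Field K] [NumberField K] {m : ℕ} (u : (ZMod m)ˣ) (n : ℕ) : ℂ :=
  if n.Prime ∧ (u : ZMod m) = n then rE K n else 0

theorem bd_cl (K : Type*) [Field K] [NumberField K] {m : ℕ} (u : (ZMod m)ˣ) : Bd (cl K u) := by
  refine ⟨Module.finrank ℚ K, fun n _ => ?_⟩
  unfold cl
  split_ifs with h
  · rw [norm_natCast]; exact_mod_cast rE_le_52 K h.1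
  · simp

section Frob

variable {K F : Type*} [Field K] [NumberField K] [Field F] [NumberField F] [Algebra K F]

/-- a Frobenius element above an ideal of prime norm -/
theorem exists_frob [IsGalois K F] {p : ℕ} (hp : p.Prime) (h : rE K p ≠ 0) :
    ∃ (Q : Ideal (𝓞 F)) (φ : Gal(F/K)), Q.IsPrime ∧ (p : 𝓞 F) ∈ Q ∧
      ∀ x : 𝓞 F, φ • x - x ^ p ∈ Q := by
  obtain ⟨⟨P, hP⟩⟩ := (Nat.card_ne_zero.1 h).1
  obtain ⟨h1, h2, h3⟩ := prime_of_norm_52 hp hP
  obtain ⟨⟨Q, hQ, hQP⟩⟩ := (inferInstance : Nonempty (P.primesOver (𝓞 F)))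
  have hpQ : (p : 𝓞 F) ∈ Q := by
    have := (mem_of_liesOver Q P _).1 h3
    rwa [map_natCast] at this
  have hQ0 : Q ≠ ⊥ := fun h0 => by
    rw [h0, Ideal.mem_bot] at hpQ
    exact hp.ne_zero (by exact_mod_cast hpQ)
  have : Finite (𝓞 F ⧸ Q) := finiteQuotientOfFreeOfNeBot Q hQ0
  obtain ⟨φ, hφ⟩ := IsArithFrobAt.exists_of_isInvariant (𝓞 K) Gal(F/K) Q
  refine ⟨Q, φ, hQ, hpQ, fun x => ?_⟩
  have h4 := hφ x
  rwa [← hQP.over, ← Submodule.cardQuot_apply, ← absNorm_apply, hP] at h4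

omit [NumberField K] in
theorem frob_root {Q : Ideal (𝓞 F)} (hQ : Q.IsPrime) {p m : ℕ} (hp : p.Prime) (hm : m ≠ 0)
    (hpQ : (p : 𝓞 F) ∈ Q) (hpm : ¬ p ∣ m) {φ : Gal(F/K)} (h : ∀ x : 𝓞 F, φ • x - x ^ p ∈ Q)
    {ζ : F} (hζ : ζ ^ m = 1) : φ ζ = ζ ^ p := by
  let z : 𝓞 F := ⟨ζ, IsIntegral.of_pow (Nat.pos_of_ne_zero hm) (hζ ▸ isIntegral_one)⟩
  have hz : z ^ m = 1 := by
    apply RingOfIntegers.ext; push_cast; exact hζ
  have h4 : φ • z = z ^ p := root_eq_of_sub_mem_79 Q (q := m) (a := 1)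
    (by rw [← smul_pow', hz, smul_one]) (by rw [pow_right_comm, hz, one_pow])
    (int_mem_52 hp hpQ hpm) ((ne_top_iff_one Q).1 hQ.ne_top) (h z)
  exact congrArg (fun w : 𝓞 F => (w : F)) h4

end Frob

theorem modEq_of_pow {F : Type*} [Field F] {ζ : F} {m : ℕ} (hζ : IsPrimitiveRoot ζ m) (hm : m ≠ 0)
    {a b : ℕ} (h : ζ ^ a = ζ ^ b) : a ≡ b [MOD m] := by
  refine hζ.pow_inj (Nat.mod_lt _ (Nat.pos_of_ne_zero hm)) (Nat.mod_lt _ (Nat.pos_of_ne_zero hm)) ?_
  rw [← pow_eq_pow_mod a hζ.pow_eq_one, ← pow_eq_pow_mod b hζ.pow_eq_one, h]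

/-- **Chebotarev, cyclotomic case.** -/
theorem cheb_cyc' {K F : Type} [Field K] [NumberField K] [Field F] [NumberField F] [Algebra K F]
    [IsTotallyComplex K] [IsGalois K F] {m : ℕ} (hm : m ≠ 0) {ζ : F} (hζ : IsPrimitiveRoot ζ m)
    (hgen : Algebra.adjoin K {ζ} = ⊤) (σ : Gal(F/K)) {A : Set ℕ} (hA : Sm A) :
    ∃ p : ℕ, p.Prime ∧ p ∉ A ∧ ∃ Q : Ideal (𝓞 F), Q.IsPrime ∧ (p : 𝓞 F) ∈ Q ∧
      ∀ x : 𝓞 F, σ • x - x ^ p ∈ Q := by
  classical
  have : NeZero m := ⟨hm⟩
  have hm0 := Nat.pos_of_ne_zero hm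
  have : IsTotallyComplex F := isTotallyComplex_of_algebra K F
  have hc : ∀ (χ : DirichletCharacter ℂ m) (n : ℕ), ‖cn χ n‖ ≤ 1 := fun χ n => χ.norm_le_one _
  choose k hk hk' using fun χ : DirichletCharacter ℂ m => res_pc K hm (hc χ) fun a b h =>
    show χ a = χ b by rw [(ZMod.natCast_eq_natCast_iff a b m).2 h]
  have hφ : (m.totient : ℂ) ≠ 0 := by exact_mod_cast (Nat.totient_pos.2 hm0).ne'
  -- the densities
  let d : (ZMod m)ˣ → ℂ := fun u =>
    ∑ χ : DirichletCharacter ℂ m, (m.totient : ℂ)⁻¹ * χ (u : ZMod m)⁻¹ * (1 - k χ)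
  have hd : ∀ u, Res (cl K u) (d u) := fun u =>
    Res.sum Finset.univ _ (fun χ => bd_pc K (hc χ)) (fun χ _ => hk χ) fun n => by
      have h1 := DirichletCharacter.sum_char_inv_mul_char_eq ℂ u.isUnit (n : ZMod m)
      unfold cl pc
      by_cases hn : n.Prime
      · have h2 : ∑ χ : DirichletCharacter ℂ m, (m.totient : ℂ)⁻¹ * χ (u : ZMod m)⁻¹ *
            (cn χ n * rE K n) = (m.totient : ℂ)⁻¹ * rE K n *
            ∑ χ : DirichletCharacter ℂ m, χ (u : ZMod m)⁻¹ * χ n := by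
          rw [Finset.mul_sum]
          exact Finset.sum_congr rfl fun χ _ => by
            change _ * (χ n * _) = _
            ring
        simp only [hn, true_and, if_true, h2, h1]
        split_ifs
        · field_simp
        · simp
      · simp [hn]
  have hd0 : ∀ u, 0 ≤ d u := fun u => (hd u).nonneg fun n => by
    unfold cl
    split_ifs
    · exact Nat.cast_nonneg _
    · exact le_rfl
  have hinv : ∀ χ : DirichletCharacter ℂ m, ∑ u : (ZMod m)ˣ, χ u * d u = 1 - k χ := fun χ =>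
    (Res.sum Finset.univ _ (bd_cl K) (fun u _ => hd u) fun n => by
      unfold cl pc
      by_cases hn : n.Prime
      · by_cases hu : IsUnit (n : ZMod m)
        · obtain ⟨v, hv⟩ := hu
          rw [Finset.sum_eq_single v (fun u _ h => by
            rw [if_neg fun h' => h (Units.ext (h'.2.trans hv.symm)), mul_zero]) (by simp),
            if_pos hn, if_pos ⟨hn, hv⟩, hv]
          rfl
        · rw [if_pos hn, Finset.sum_eq_zero fun u _ => by
            rw [if_neg fun h' : n.Prime ∧ (u : ZMod m) = n => hu (h'.2 ▸ u.isUnit), mul_zero]]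
          change χ n * _ = _
          rw [χ.map_nonunit hu, zero_mul]
      · simp [hn]).unique (hk χ)
  have hbig : ∀ {p : ℕ}, m < p → ¬ p ∣ m := fun h h' => (Nat.le_of_dvd hm0 h').not_gt h
  have hsum : ∑ u, d u = 1 := by
    have h1 : Res (pc K (cn (1 : DirichletCharacter ℂ m))) 1 :=
      (res_one K).congr (bd_pc K Desc52.norm_one_le) (bd_pc K (hc 1)) (B := m) fun n hn => by
        unfold pc
        split_ifs with h
        · change _ = (1 : DirichletCharacter ℂ m) n * _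
          rw [MulChar.one_apply ((ZMod.isUnit_iff_coprime n m).2
            ((Nat.Prime.coprime_iff_not_dvd h).2 (hbig hn)))]
          rfl
        · rfl
    have h2 := hinv 1
    rw [← h1.unique (hk 1)] at h2
    simpa using h2
  set D : ℕ := Module.finrank K F with hD
  have hone : (D : ℂ) * d 1 = 1 := by
    have h1 : Res (fun n => (D : ℂ) * cl K (1 : (ZMod m)ˣ) n) (D * d 1) := by
      simpa using Res.sum ({()} : Finset Unit) (a := fun _ => cl K (1 : (ZMod m)ˣ))
        (d := fun _ => d 1) (fun _ => (D : ℂ)) (fun _ => bd_cl K 1) (fun _ _ => hd 1)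
        (b := fun n => (D : ℂ) * cl K (1 : (ZMod m)ˣ) n) fun n => by simp
    refine h1.unique ((res_one F).congr (bd_pc F Desc52.norm_one_le) ?_ (B := m) fun n hn => ?_)
    · obtain ⟨C, hC⟩ := bd_cl K (1 : (ZMod m)ˣ)
      exact ⟨D * C, fun n hn => by
        rw [norm_mul, Complex.norm_natCast]; exact mul_le_mul_of_nonneg_left (hC n hn) (Nat.cast_nonneg _)⟩
    · unfold pc cl
      by_cases h : n.Prime
      · have h2 : ((1 : (ZMod m)ˣ) : ZMod m) = n ↔ m ∣ n - 1 := by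
          rw [Units.val_one, ← Nat.cast_one, ZMod.natCast_eq_natCast_iff,
            Nat.modEq_iff_dvd' h.one_le]
        simp only [h, true_and, if_true, h2, MonoidHom.one_apply, one_mul]
        split_ifs with h3
        · rw [rE_split_52 (K := K) hm0 hζ hgen h h3]; push_cast; rfl
        · rw [rE_zero_52 hm0 hζ h (hbig hn) h3]; simp
      · simp [h]
  have hd1 : d 1 ≠ 0 := right_ne_zero_of_mul_eq_one hone
  have hconst : ∀ u, d u ≠ 0 → d u = d 1 := fun u hu => Finset.sum_congr rfl fun χ _ => by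
    rcases fourier_int hd0 hsum (χ := fun u : (ZMod m)ˣ => χ u) (fun u => χ.norm_le_one _) (hinv χ) hd1
      (by simp) hu with h | h
    · have h1 : χ (u : ZMod m)⁻¹ = 1 := by
        have h2 : χ (u : ZMod m)⁻¹ * χ u = 1 := by
          rw [← map_mul, ZMod.inv_mul_of_unit _ u.isUnit, map_one]
        rwa [h, mul_one] at h2
      rw [h1]; simp
    · simp [h]
  -- classes of positive density are Frobenius classes
  have hfr : ∀ u, d u ≠ 0 → ∃ p : ℕ, p.Prime ∧ p ∉ A ∧ ∃ (Q : Ideal (𝓞 F)) (φ : Gal(F/K)),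
      Q.IsPrime ∧ (p : 𝓞 F) ∈ Q ∧ (∀ x : 𝓞 F, φ • x - x ^ p ∈ Q) ∧ hζ.autToPow K φ = u := by
    intro u hu
    obtain ⟨p, h1, h2⟩ : ∃ p, p ∉ A ∪ {n | n ≤ m} ∧ cl K u p ≠ 0 := by
      by_contra h
      push Not at h
      exact hu ((hd u).unique (res_small (bd_cl K u) (hA.union (sm_le m)) h))
    unfold cl at h2
    split_ifs at h2 with h3
    · obtain ⟨Q, φ, h4, h5, h6⟩ := exists_frob (K := K) (F := F) h3.1 (by exact_mod_cast h2)
      refine ⟨p, h3.1, fun h => h1 (Or.inl h), Q, φ, h4, h5, h6, Units.ext ?_⟩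
      have h7 := frob_root h4 h3.1 hm h5 (hbig (not_le.1 fun h => h1 (Or.inr h))) h6 hζ.pow_eq_one
      rw [← hζ.autToPow_spec K φ] at h7
      rw [h3.2, ← ZMod.natCast_zmod_val (hζ.autToPow K φ : ZMod m), ZMod.natCast_eq_natCast_iff]
      exact modEq_of_pow hζ hm h7
    · exact absurd rfl h2
  let S : Finset (ZMod m)ˣ := Finset.univ.filter fun u => d u ≠ 0
  have hS : S.card = D := by
    have h1 : ∑ u ∈ S, d u = 1 := by rw [← hsum]; exact Finset.sum_filter_ne_zero _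
    rw [Finset.sum_congr rfl fun u hu => hconst u (Finset.mem_filter.1 hu).2, Finset.sum_const,
      nsmul_eq_mul, ← hone] at h1
    exact_mod_cast mul_right_cancel₀ hd1 h1
  have hsub : S ⊆ Finset.univ.image (hζ.autToPow K) := fun u hu => by
    obtain ⟨-, -, -, -, φ, -, -, -, h⟩ := hfr u (Finset.mem_filter.1 hu).2
    exact Finset.mem_image.2 ⟨φ, Finset.mem_univ _, h⟩
  have heq := Finset.eq_of_subset_of_card_le hsub (Finset.card_image_le.trans (by
    rw [hS, Finset.card_univ, ← Nat.card_eq_fintype_card, IsGalois.card_aut_eq_finrank]))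
  have hσ : hζ.autToPow K σ ∈ S := heq ▸ Finset.mem_image_of_mem _ (Finset.mem_univ σ)
  obtain ⟨p, h1, h2, Q, φ, h3, h4, h5, h6⟩ := hfr _ (Finset.mem_filter.1 hσ).2
  obtain rfl : φ = σ := by
    apply AlgEquiv.coe_toAlgHom_injective
    refine AlgHom.ext_of_adjoin_eq_top hgen fun x hx => ?_
    rw [Set.mem_singleton_iff.1 hx]
    change φ ζ = σ ζ
    rw [← hζ.autToPow_spec K φ, ← hζ.autToPow_spec K σ, h6]
  exact ⟨p, h1, h2, Q, h3, h4, h5⟩


end Crest.Agent.T15.Cheb
end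
end

-- ▼ part T15/Cheb_25

/-!
# Row 15: the Chebotarev existence theorem

`cheb`: every automorphism of a number field is a Frobenius `x ↦ x ^ p` at primes above
arbitrarily large rational primes `p`.
-/

set_option autoImplicit false

noncomputable section

namespace Crest.Agent.T15.Cheb

open NumberField Polynomial Ideal
open Crest.Agent.T27

theorem irr_cyc (L : Type*) [Field L] [NumberField L] :
    ∃ N : ℕ, ∀ l : ℕ, l.Prime → N < l → Irreducible (cyclotomic l L) := by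
  have h0 : differentIdeal ℤ (𝓞 L) ≠ ⊥ := differentIdeal_ne_bot
  refine ⟨absNorm (differentIdeal ℤ (𝓞 L)), fun l hl hN => ?_⟩
  have := Fact.mk hl
  have hZ : Prime (l : ℤ) := Nat.prime_iff_prime_int.1 hl
  have hb : span {(l : ℤ)} ≠ ⊥ := by simpa using hl.ne_zero
  have : (span {(l : ℤ)}).IsMaximal := ((span_singleton_prime hZ.ne_zero).2 hZ).isMaximal hb
  obtain ⟨⟨P, hP, hPl⟩⟩ := (inferInstance : Nonempty ((span {(l : ℤ)}).primesOver (𝓞 L)))
  have hlP : (l : 𝓞 L) ∈ P := by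
    have := (mem_of_liesOver P (span {(l : ℤ)}) _).1 (mem_span_singleton_self _)
    simpa using this
  have hl2 : (l : 𝓞 L) ∉ P ^ 2 := fun h => by
    have h1 := pow_sub_one_dvd_differentIdeal ℤ P 2 hb (by
      rw [dvd_iff_le, Ideal.map_span, Set.image_singleton, span_singleton_le_iff_mem]
      simpa using h)
    rw [show 2 - 1 = 1 from rfl, pow_one, dvd_iff_le] at h1
    exact int_mem_52 hl hlP (fun h2 => (Nat.le_of_dvd
      (Nat.pos_of_ne_zero (absNorm_eq_zero_iff.not.2 h0)) h2).not_gt hN) (h1 (absNorm_mem _))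
  have hE := cyclotomic_comp_X_add_one_isEisensteinAt l
  have hmon : ((cyclotomic l ℤ).comp (X + 1)).Monic := by
    rw [show (X + 1 : ℤ[X]) = X + C 1 by simp]
    exact (cyclotomic.monic l ℤ).comp_X_add_C 1
  have hdeg : ((cyclotomic l ℤ).comp (X + 1)).natDegree = l - 1 := by
    rw [show (X + 1 : ℤ[X]) = X + C 1 by simp, natDegree_comp, natDegree_X_add_C, mul_one,
      natDegree_cyclotomic, Nat.totient_prime hl]
  have hm' := hmon.map (algebraMap ℤ (𝓞 L))
  have hE' : (((cyclotomic l ℤ).comp (X + 1)).map (algebraMap ℤ (𝓞 L))).IsEisensteinAt P := by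
    refine hm'.isEisensteinAt_of_mem_of_notMem hP.ne_top (fun {n} hn => ?_) ?_
    · rw [hmon.natDegree_map] at hn
      rw [coeff_map]
      exact (mem_of_liesOver P (span {(l : ℤ)}) _).1 (hE.mem hn)
    · rw [coeff_map, coeff_zero_eq_eval_zero, eval_comp]
      simpa using hl2
  have h1 := (hm'.irreducible_iff_irreducible_map_fraction_map (K := L)).1
    (hE'.irreducible hP hm'.isPrimitive (by
      rw [hmon.natDegree_map, hdeg]; have := hl.two_le; omega))
  rw [Polynomial.map_map, map_comp, map_cyclotomic] at h1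
  refine (MulEquiv.irreducible_iff (taylorEquiv (1 : L))).1 ?_
  change Irreducible (taylor (1 : L) (cyclotomic l L))
  simpa [taylor_apply] using h1

theorem ext_step {L : Type} [Field L] [NumberField L] {l : ℕ} (hl : l.Prime)
    (hi : Irreducible (cyclotomic l L)) (σ : L ≃ₐ[ℚ] L) {a : ℕ} (ha : a.Coprime l) :
    ∃ (M : Type) (_ : Field M) (_ : NumberField M) (_ : Algebra L M) (ζ : M) (τ : M ≃ₐ[ℚ] M),
      IsPrimitiveRoot ζ l ∧ Algebra.adjoin L {ζ} = ⊤ ∧
      (∀ x, τ (algebraMap L M x) = algebraMap L M (σ x)) ∧ τ ζ = ζ ^ a := by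
  have := Fact.mk hi
  let M := AdjoinRoot (cyclotomic l L)
  have : Module.Finite L M := (AdjoinRoot.powerBasis hi.ne_zero).finite
  have : CharZero M := charZero_of_injective_algebraMap (algebraMap L M).injective
  have : NumberField M := NumberField.of_module_finite L M
  have : NeZero (l : M) := ⟨by exact_mod_cast hl.ne_zero⟩
  have hζ : IsPrimitiveRoot (AdjoinRoot.root (cyclotomic l L) : M) l := by
    rw [← isRoot_cyclotomic_iff, ← map_cyclotomic l (AdjoinRoot.of (cyclotomic l L))]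
    exact AdjoinRoot.isRoot_root _
  have ht : eval₂ ((algebraMap L M).comp (σ : L →+* L)) (AdjoinRoot.root (cyclotomic l L) ^ a)
      (cyclotomic l L) = 0 := by
    rw [eval₂_eq_eval_map, map_cyclotomic]
    exact isRoot_cyclotomic_iff.2 (hζ.pow_of_coprime a ha)
  let t : M →+* M := AdjoinRoot.lift _ _ ht
  refine ⟨M, inferInstance, inferInstance, inferInstance, _,
    AlgEquiv.ofBijective t.toRatAlgHom (Algebra.IsAlgebraic.algHom_bijective _), hζ,
    AdjoinRoot.adjoinRoot_eq_top, fun x => ?_, ?_⟩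
  · exact AdjoinRoot.lift_of ht
  · exact AdjoinRoot.lift_root ht

/-- `σ` is a Frobenius above arbitrarily large primes -/
def Fr {L : Type*} [Field L] [NumberField L] (σ : L ≃ₐ[ℚ] L) : Prop :=
  ∀ A : Set ℕ, Sm A → ∃ p : ℕ, p.Prime ∧ p ∉ A ∧ ∃ Q : Ideal (𝓞 L), Q.IsPrime ∧ (p : 𝓞 L) ∈ Q ∧
    ∀ x : 𝓞 L, σ • x - x ^ p ∈ Q

theorem Fr.down {L M : Type*} [Field L] [NumberField L] [Field M] [NumberField M] [Algebra L M]
    {σ : L ≃ₐ[ℚ] L} {τ : M ≃ₐ[ℚ] M} (h : ∀ x, τ (algebraMap L M x) = algebraMap L M (σ x))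
    (hτ : Fr τ) : Fr σ := fun A hA => by
  obtain ⟨p, h1, h2, Q, h3, h4, h5⟩ := hτ A hA
  refine ⟨p, h1, h2, Q.comap (algebraMap (𝓞 L) (𝓞 M)), comap_isPrime _ Q, ?_, fun x => ?_⟩
  · rw [mem_comap, map_natCast]; exact h4
  · rw [mem_comap, map_sub, map_pow]
    convert h5 (algebraMap (𝓞 L) (𝓞 M) x) using 2
    exact RingOfIntegers.ext (h x).symm

theorem fr_cyc {M : Type} [Field M] [NumberField M] (τ : M ≃ₐ[ℚ] M) {m k : ℕ} (hm : m ≠ 0)
    (hk : 2 < k) {ζ ξ : M} (hζ : IsPrimitiveRoot ζ m) (hξ : IsPrimitiveRoot ξ k) (hτ : τ ξ = ξ)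
    (h : ∀ j : ℕ, (τ ^ j) ζ = ζ → τ ^ j = 1) : Fr τ := fun A hA => by
  let H := Subgroup.zpowers τ
  let E := IntermediateField.fixedField H
  have : IsGalois E M := IsGalois.of_fixed_field M H
  have hξE : ξ ∈ E := by
    rintro ⟨g, hg⟩
    obtain ⟨j, rfl⟩ := (mem_powers_iff_mem_zpowers.2 hg : g ∈ Submonoid.powers τ)
    change (τ ^ j) ξ = ξ
    rw [AlgEquiv.coe_pow]
    exact Function.iterate_fixed hτ j
  have : IsTotallyComplex E := by
    have h1 : IsPrimitiveRoot (⟨ξ, hξE⟩ : E) k :=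
      IsPrimitiveRoot.of_map_of_injective (f := algebraMap E M) hξ (algebraMap E M).injective
    exact nrRealPlaces_eq_zero_iff.1 (InfinitePlace.IsPrimitiveRoot.nrRealPlaces_eq_zero_of_two_lt hk h1)
  have hgen : Algebra.adjoin E {ζ} = ⊤ := by
    rw [← IntermediateField.adjoin_simple_toSubalgebra_of_isAlgebraic
      (Algebra.IsAlgebraic.isAlgebraic ζ), ← IsGalois.fixedField_fixingSubgroup
      (IntermediateField.adjoin E {ζ})]
    have h1 : (IntermediateField.adjoin E {ζ}).fixingSubgroup = ⊥ := by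
      rw [eq_bot_iff]
      intro g hg
      obtain ⟨⟨g, hg'⟩, rfl⟩ := (IntermediateField.subgroupEquivAlgEquiv H).surjective g
      obtain ⟨j, rfl⟩ := (mem_powers_iff_mem_zpowers.2 hg' : g ∈ Submonoid.powers τ)
      have h2 := h j (hg ⟨ζ, IntermediateField.mem_adjoin_simple_self E ζ⟩)
      rw [Subgroup.mem_bot, map_eq_one_iff _ (IntermediateField.subgroupEquivAlgEquiv H).injective]
      exact Subtype.ext h2
    rw [h1, IntermediateField.fixedField_bot, IntermediateField.top_toSubalgebra]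
  exact cheb_cyc' hm hζ hgen (IntermediateField.subgroupEquivAlgEquiv H ⟨τ, Subgroup.mem_zpowers τ⟩) hA

theorem fr_all {L : Type} [Field L] [NumberField L] (σ : L ≃ₐ[ℚ] L) : Fr σ := by
  obtain ⟨N, hN⟩ := irr_cyc L
  obtain ⟨k, hk1, hk⟩ := Nat.exists_infinite_primes (max N 2 + 1)
  obtain ⟨L₁, _, _, _, ξ, σ₁, hξ, -, h1, h2⟩ := ext_step hk (hN k hk (by omega)) σ
    (Nat.coprime_one_left k)
  refine Fr.down h1 ?_
  obtain ⟨N₁, hN₁⟩ := irr_cyc L₁
  obtain ⟨l, hl, hl1, hl2⟩ := Nat.exists_prime_gt_modEq_one N₁ (orderOf_pos σ₁).ne'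
  have := Fact.mk hl
  obtain ⟨g, hg⟩ := IsCyclic.exists_generator (α := (ZMod l)ˣ)
  have hord : orderOf g = l - 1 := by
    rw [orderOf_eq_card_of_forall_mem_zpowers hg, Nat.card_eq_fintype_card, ZMod.card_units]
  obtain ⟨M, _, _, _, ζ, τ, hζ, hgen, h3, h4⟩ := ext_step hl (hN₁ l hl hl1) σ₁
    (ZMod.val_coe_unit_coprime g)
  refine Fr.down h3 (fr_cyc τ hl.ne_zero (by omega : 2 < k) hζ
    (hξ.map_of_injective (algebraMap L₁ M).injective) (by rw [h3, h2, pow_one]) fun j hj => ?_)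
  have h5 : ∀ j : ℕ, (τ ^ j) ζ = ζ ^ (g : ZMod l).val ^ j := fun j => by
    induction j with
    | zero => simp
    | succ j ih => rw [pow_succ, AlgEquiv.mul_apply, h4, map_pow, ih, ← pow_mul, ← pow_succ]
  have h6 : ∀ (j : ℕ) (x : L₁), (τ ^ j) (algebraMap L₁ M x) = algebraMap L₁ M ((σ₁ ^ j) x) :=
    fun j => by
      induction j with
      | zero => simp
      | succ j ih => intro x; rw [pow_succ, AlgEquiv.mul_apply, h3, ih, pow_succ]; rfl
  have h7 : g ^ j = 1 := by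
    have h8 := modEq_of_pow hζ hl.ne_zero (((h5 j).symm.trans hj).trans (pow_one ζ).symm)
    rw [← ZMod.natCast_eq_natCast_iff] at h8
    exact Units.ext (by simpa using h8)
  have h8 : σ₁ ^ j = 1 := orderOf_dvd_iff_pow_eq_one.1
    (((Nat.modEq_iff_dvd' hl.one_le).1 hl2.symm).trans (hord ▸ orderOf_dvd_of_pow_eq_one h7))
  have h9 : ∀ x ∈ Algebra.adjoin L₁ {ζ}, (τ ^ j) x = x := fun x hx => by
    induction hx using Algebra.adjoin_induction with
    | mem x hx => rw [Set.mem_singleton_iff.1 hx, hj]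
    | algebraMap r => rw [h6, h8]; rfl
    | add x y _ _ hx hy => rw [map_add, hx, hy]
    | mul x y _ _ hx hy => rw [map_mul, hx, hy]
  exact AlgEquiv.ext fun x => h9 x (hgen ▸ Algebra.mem_top)

theorem fr_univ {L : Type*} [Field L] [NumberField L] (σ : L ≃ₐ[ℚ] L) : Fr σ := by
  let b := Field.powerBasisOfFiniteOfSeparable ℚ L
  have := Fact.mk (minpoly.irreducible b.isIntegral_gen)
  let M := AdjoinRoot (minpoly ℚ b.gen)
  let e : M ≃ₐ[ℚ] L := AdjoinRoot.equiv' _ b (AdjoinRoot.aeval_eq _ |>.trans AdjoinRoot.mk_self)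
    (minpoly.aeval ℚ b.gen)
  let _ : Algebra L M := (e.symm : L →+* M).toAlgebra
  exact Fr.down (τ := (e.trans σ).trans e.symm) (fun x => by
    change e.symm (σ (e (e.symm x))) = e.symm (σ x)
    rw [e.apply_symm_apply]) (fr_all _)

/-- **Chebotarev**, absolute form: any automorphism of any number field. -/
theorem cheb {L : Type*} [Field L] [NumberField L] (σ : L ≃ₐ[ℚ] L) (B : ℕ) :
    ∃ p : ℕ, p.Prime ∧ B < p ∧ ∃ Q : Ideal (𝓞 L), Q.IsPrime ∧ (p : 𝓞 L) ∈ Q ∧
      ∀ x : 𝓞 L, σ • x - x ^ p ∈ Q := by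
  obtain ⟨p, h1, h2, h3⟩ := fr_univ σ _ (sm_le B)
  exact ⟨p, h1, not_le.1 h2, h3⟩


/-- **Chebotarev**, relative form: the prime is unramified, of degree one below. -/
theorem cheb_rel {K L : Type*} [Field K] [NumberField K] [Field L] [NumberField L] [Algebra K L]
    [IsGalois K L] (σ : L ≃ₐ[K] L) (B : ℕ) :
    ∃ p : ℕ, p.Prime ∧ B < p ∧ ∃ Q : Ideal (𝓞 L), Q.IsMaximal ∧ (p : 𝓞 L) ∈ Q ∧
      ¬ (p : ℤ) ∣ discr L ∧ absNorm (Q.under (𝓞 K)) = p ∧ IsArithFrobAt (𝓞 K) σ Q ∧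
      ∀ x : 𝓞 L, σ • x - x ^ p ∈ Q := by
  obtain ⟨p, h1, h2, Q, h3, h4, h5⟩ := cheb (σ.restrictScalars ℚ) (max B (discr L).natAbs)
  have h5' : ∀ x : 𝓞 L, σ • x - x ^ p ∈ Q := h5
  have hQ0 : Q ≠ ⊥ := fun h0 => by
    rw [h0, Ideal.mem_bot] at h4
    exact h1.ne_zero (by exact_mod_cast h4)
  have hP : absNorm (Q.under (𝓞 K)) = p := by
    have := Fact.mk h1
    have hp : (p : 𝓞 K) ∈ Q.under (𝓞 K) := by rw [mem_comap, map_natCast]; exact h4
    have hP0 : Q.under (𝓞 K) ≠ ⊥ := fun h0 => by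
      rw [h0, Ideal.mem_bot] at hp
      exact h1.ne_zero (by exact_mod_cast hp)
    have := (inferInstance : (Q.under (𝓞 K)).IsPrime).isMaximal hP0
    let _ := Ideal.Quotient.field (Q.under (𝓞 K))
    have : CharP (𝓞 K ⧸ Q.under (𝓞 K)) p := by
      refine (CharP.charP_iff_prime_eq_zero h1).2 ?_
      rw [← map_natCast (Ideal.Quotient.mk _), Ideal.Quotient.eq_zero_iff_mem]; exact hp
    let f := ZMod.castHom (dvd_refl p) (𝓞 K ⧸ Q.under (𝓞 K))
    have hf : Function.Surjective f := fun y => by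
      obtain ⟨x, rfl⟩ := Ideal.Quotient.mk_surjective y
      have h6 : Ideal.Quotient.mk (Q.under (𝓞 K)) x ^ p = Ideal.Quotient.mk _ x := by
        rw [← map_pow, eq_comm, Ideal.Quotient.eq, mem_comap, map_sub, map_pow]
        have := h5' (algebraMap _ _ x)
        rwa [smul_algebraMap] at this
      obtain ⟨z, hz⟩ := (mem_bot_iff_intCast p _).1 ((Subfield.mem_bot_iff_pow_eq_self _ p).2 h6)
      exact ⟨z, by rw [map_intCast, hz]⟩
    rw [absNorm_apply, Submodule.cardQuot_apply,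
      ← Nat.card_congr (Equiv.ofBijective f ⟨f.injective, hf⟩), Nat.card_zmod]
  refine ⟨p, h1, by omega, Q, h3.isMaximal hQ0, h4, fun h => ?_, hP, fun x => ?_, h5'⟩
  · have := Nat.le_of_dvd (Int.natAbs_pos.2 (discr_ne_zero L)) (Int.natCast_dvd.1 h)
    omega
  · rw [← Submodule.cardQuot_apply, ← absNorm_apply, hP]
    exact h5' x

end Crest.Agent.T15.Cheb
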