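import Crest.Agent.T15.ArtDef_34
import Crest.Agent.R018.SLat_824
import Crest.Agent.T15.Cheb_25
import Crest.Agent.R018.Places3_484
import Crest.Agent.R018.LCIneB_925

-- ▼ part T15/ArtN_49
section

/-!
# Row 15, norm functoriality of `ev` (helper49)
-/

set_option autoImplicit false

noncomputable section

open NumberField IsDedekindDomain WithZero
open scoped nonZeroDivisors Pointwise

namespace Crest.Agent.T15.Ex

open Crest.Agent.T15.Art Crest.Agent.R018.Selmerx380 Crest.Agent.R018.SLatx824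

section evI

variable {K : Type*} [Field K] [NumberField K] {A : Type*} [CommGroup A]

/-- the value of `f` on an ideal -/
def evI (f : Pr K → A) (I : Ideal (𝓞 K)) : A :=
  ∏ᶠ w, f w ^ FractionalIdeal.count K w (I : FractionalIdeal (𝓞 K)⁰ K)

theorem evI_fin (f : Pr K → A) (I : Ideal (𝓞 K)) : Function.HasFiniteMulSupport
    fun w => f w ^ FractionalIdeal.count K w (I : FractionalIdeal (𝓞 K)⁰ K) := by
  have := FractionalIdeal.finite_factors (K := K) (I : FractionalIdeal (𝓞 K)⁰ K)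
  rw [Filter.eventually_cofinite] at this
  exact this.subset fun w hw h => hw (by simp [h])

theorem evI_mul (f : Pr K → A) {I J : Ideal (𝓞 K)} (hI : I ≠ ⊥) (hJ : J ≠ ⊥) :
    evI f (I * J) = evI f I * evI f J := by
  rw [evI, evI, evI, ← finprod_mul_distrib (evI_fin f I) (evI_fin f J)]
  refine finprod_congr fun w => ?_
  rw [FractionalIdeal.coeIdeal_mul, FractionalIdeal.count_mul K w
    (FractionalIdeal.coeIdeal_ne_zero.2 hI) (FractionalIdeal.coeIdeal_ne_zero.2 hJ), zpow_add]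

theorem evI_top (f : Pr K → A) : evI f ⊤ = 1 := by
  simp [evI, FractionalIdeal.count_one]

theorem evI_pow (f : Pr K → A) {I : Ideal (𝓞 K)} (hI : I ≠ ⊥) (k : ℕ) :
    evI f (I ^ k) = evI f I ^ k := by
  induction k with
  | zero => simp [evI_top]
  | succ k ih => rw [pow_succ, evI_mul f (pow_ne_zero k hI) hI, ih, pow_succ]

theorem evI_prime (f : Pr K → A) (w : Pr K) : evI f w.asIdeal = f w := by
  rw [evI, finprod_eq_single _ w fun v hv => ?_, FractionalIdeal.count_self, zpow_one]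
  rw [FractionalIdeal.count_maximal_coprime K v (Ne.symm hv), zpow_zero]

theorem ev_int (f : Pr K → A) (a : Kˣ) (r : 𝓞 K) (h : (a : K) = r) :
    ev f a = evI f (Ideal.span {r}) := by
  rw [ev_apply, evI, FractionalIdeal.coeIdeal_span_singleton]
  simp only [ord, h]

theorem exists_div_int (a : Kˣ) : ∃ (b c : Kˣ) (r s : 𝓞 K), (b : K) = r ∧ (c : K) = s ∧
    a = b / c := by
  obtain ⟨r, s, hs, h⟩ := IsFractionRing.div_surjective (A := 𝓞 K) (a : K)
  have hs0 : (s : K) ≠ 0 := by exact_mod_cast nonZeroDivisors.ne_zero hs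
  have hr0 : (r : K) ≠ 0 := fun h0 => a.ne_zero (by rw [← h]; exact div_eq_zero_iff.2 (Or.inl h0))
  exact ⟨Units.mk0 _ hr0, Units.mk0 _ hs0, r, s, rfl, rfl, Units.ext (by simpa using h.symm)⟩

end evI

section Norm

variable {K : Type*} [Field K] [NumberField K] (L : Type*) [Field L] [NumberField L] [Algebra K L]
  {A : Type*} [CommGroup A]

/-- `f ∘ N` on the primes of `L` -/
def nf (f : Pr K → A) (W : Pr L) : A := f (W.under (𝓞 K)) ^ W.asIdeal.inertiaDeg (𝓞 K)

variable {L}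

theorem evI_relNorm (f : Pr K → A) (I : Ideal (𝓞 L)) (hI : I ≠ ⊥) :
    evI (nf L f) I = evI f (Ideal.relNorm (𝓞 K) I) := by
  induction I using UniqueFactorizationMonoid.induction_on_prime with
  | h₁ => exact absurd rfl hI
  | h₂ I hu => rw [Ideal.isUnit_iff.1 hu, Ideal.relNorm_top, evI_top, evI_top]
  | h₃ I P hI0 hP ih =>
    let W : Pr L := ⟨P, Ideal.isPrime_of_prime hP, hP.ne_zero⟩
    have := W.isMaximal
    have := (W.under (𝓞 K)).isMaximal
    have : W.asIdeal.LiesOver (W.under (𝓞 K)).asIdeal := ⟨rfl⟩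
    have h1 : Ideal.relNorm (𝓞 K) P = (W.under (𝓞 K)).asIdeal ^ W.asIdeal.inertiaDeg (𝓞 K) :=
      Ideal.relNorm_eq_pow_of_isMaximal W.asIdeal _
    rw [evI_mul _ hP.ne_zero hI0, map_mul, evI_mul _ (mt Ideal.relNorm_eq_bot_iff.1 hP.ne_zero)
      (mt Ideal.relNorm_eq_bot_iff.1 hI0), ih hI0, h1, evI_pow _ (W.under (𝓞 K)).ne_bot, evI_prime]
    exact congrArg (· * _) (evI_prime _ W)

/-- **norm functoriality** -/
theorem ev_norm (f : Pr K → A) (x : Lˣ) :
    ev (nf L f) x = ev f (Units.map (Algebra.norm K) x) := by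
  have key : ∀ (b : Lˣ) (r : 𝓞 L), (b : L) = r →
      ev (nf L f) b = ev f (Units.map (Algebra.norm K) b) := fun b r h => by
    have hr : r ≠ 0 := fun h0 => b.ne_zero (by rw [h, h0]; rfl)
    rw [ev_int _ b r h, evI_relNorm f _ (by simpa using hr), Ideal.relNorm_singleton,
      ev_int f _ (Algebra.intNorm (𝓞 K) (𝓞 L) r)]
    rw [Units.coe_map, h]
    exact (Algebra.algebraMap_intNorm (L := L) r).symm
  obtain ⟨b, c, r, s, hb, hc, rfl⟩ := exists_div_int x
  rw [map_div, map_div, map_div, key b r hb, key c s hc]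

theorem val_lt_iff (w : Pr K) (W : Pr L) [W.asIdeal.LiesOver w.asIdeal] (x y : K) :
    W.valuation L (algebraMap K L x) < W.valuation L (algebraMap K L y) ↔
      w.valuation K x < w.valuation K y := by
  rw [← HeightOneSpectrum.valuation_liesOver L w W, ← HeightOneSpectrum.valuation_liesOver L w W]
  exact pow_lt_pow_iff_left₀ zero_le zero_le
    (Ideal.IsDedekindDomain.ramificationIdx'_ne_zero_of_liesOver W.asIdeal w.ne_bot)

theorem v_prod_sub_one {F Γ ι : Type*} [Field F] [LinearOrderedCommGroupWithZero Γ]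
    (v : Valuation F Γ) (s : Finset ι) (x : ι → F) {ε : Γ} (h0 : ε ≠ 0) (h1 : ε ≤ 1)
    (h : ∀ i ∈ s, v (x i - 1) < ε) : v (∏ i ∈ s, x i - 1) < ε := by
  classical
  induction s using Finset.induction_on with
  | empty => simpa [zero_lt_iff] using h0
  | insert a s ha ih =>
    have h2 := h a (Finset.mem_insert_self a s)
    have h3 : v (x a) = 1 := by simpa using v.map_one_add_of_lt (h2.trans_le h1)
    have e : x a * ∏ i ∈ s, x i - 1 = x a * (∏ i ∈ s, x i - 1) + (x a - 1) := by ring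
    rw [Finset.prod_insert ha, e]
    refine v.map_add_lt ?_ h2
    rw [map_mul, h3, one_mul]
    exact ih fun i hi => h i (Finset.mem_insert_of_mem hi)

attribute [local instance] actH

/-- an element close to `1` at all primes above `w` has norm close to `1` at `w` -/
theorem norm_deep [IsGalois K L] (w : Pr K) {c : K} (hc : c ≠ 0) (hc1 : w.valuation K c ≤ 1)
    (x : L) (hx : ∀ W : Pr L, W.under (𝓞 K) = w →
      W.valuation L (x - 1) < W.valuation L (algebraMap K L c)) :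
    w.valuation K (Algebra.norm K x - 1) < w.valuation K c := by
  have := w.isMaximal
  obtain ⟨P, hP, hPw⟩ := Ideal.exists_maximal_ideal_liesOver_of_isIntegral (S := 𝓞 L) w.asIdeal
  let W : Pr L := ⟨P, hP.isPrime, Ideal.ne_bot_of_liesOver_of_ne_bot w.ne_bot P⟩
  have : W.asIdeal.LiesOver w.asIdeal := hPw
  rw [← val_lt_iff w W, map_sub, map_one, Algebra.norm_eq_prod_automorphisms]
  refine v_prod_sub_one _ _ _ (by simpa using hc) ?_ fun σ _ => ?_
  · rw [← not_lt, ← map_one (W.valuation L), ← map_one (algebraMap K L), val_lt_iff w W, map_one,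
      not_lt]
    exact hc1
  · have h1 := hx (σ⁻¹ • W) (HeightOneSpectrum.ext (by
      change Ideal.under _ (σ⁻¹ • P) = _
      rw [Ideal.under_smul]
      exact hPw.over.symm))
    rw [← val_smul σ, ← val_smul σ _ (algebraMap K L c), smul_inv_smul, map_sub, map_one,
      AlgEquiv.commutes] at h1
    exact h1

end Norm

end Crest.Agent.T15.Ex
end
end

-- ▼ part T15/ArtO_49

/-!
# Row 15: Artin reciprocity and Chebotarev for characters of an infinite Galois group (helper49)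

`E/K` Galois (infinite), `K` a number field.  `Av T f ξ`: `ξ (Frob_w) = f w` for all `w ∉ T`.
-/

set_option autoImplicit false

noncomputable section

open NumberField IsDedekindDomain
open scoped Pointwise

namespace Crest.Agent.T15.Ex

open Crest.Agent.T15.Art Crest.Agent.R018.Placesx484

section Words

variable (K : Type*) {E : Type*} [Field K] [Field E] [Algebra K E]

/-- the prime of `K` below a place of `E` -/
def pr (P : Place E) : Pr K := ⟨(P.res K).ideal, (P.res K).isPrime, (P.res K).ne_bot⟩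

variable {K}

/-- `φ` is a Frobenius element at `P` -/
def IsF (P : Place E) (φ : E ≃ₐ[K] E) : Prop := ∀ x : 𝓞 E, φ • x - x ^ P.qv K ∈ P.ideal

/-- `ξ` takes the value `f w` on all Frobenius elements above `w ∉ T` -/
def Av {A : Type*} [Group A] (T : Finset (Pr K)) (f : Pr K → A) (ξ : (E ≃ₐ[K] E) →* A) : Prop :=
  ∀ P : Place E, pr K P ∉ T → ∀ φ, IsF P φ → ξ φ = f (pr K P)

theorem exists_pr (w : Pr K) : ∃ P : Place E, pr K P = w := by
  obtain ⟨P, hP⟩ := Place.exists_res_eq (E := E) K ⟨w.asIdeal, w.isPrime, w.ne_bot⟩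
  exact ⟨P, HeightOneSpectrum.ext (congrArg Place.ideal hP)⟩

theorem pr_eq_iff {P Q : Place E} : pr K P = pr K Q ↔ P.res K = Q.res K :=
  ⟨fun h => Place.ext (congrArg HeightOneSpectrum.asIdeal h),
    fun h => HeightOneSpectrum.ext (congrArg Place.ideal h)⟩

theorem pr_smul (g : E ≃ₐ[K] E) (P : Place E) : pr K (g • P) = pr K P :=
  pr_eq_iff.2 (Place.res_smul g P)

theorem qv_eq [NumberField K] (P : Place E) : P.qv K = Ideal.absNorm (pr K P).asIdeal := by
  rw [Ideal.absNorm_apply, Submodule.cardQuot_apply]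
  rfl

theorem IsF.inertia_mul {P : Place E} {φ u : E ≃ₐ[K] E} (h : IsF P φ)
    (hu : u ∈ P.ideal.inertia (E ≃ₐ[K] E)) : IsF P (u * φ) := fun x => by
  have := P.ideal.add_mem (hu (φ • x)) (h x)
  rwa [sub_add_sub_cancel, ← mul_smul] at this

theorem IsF.div_mem {P : Place E} {φ ψ : E ≃ₐ[K] E} (h : IsF P φ) (h' : IsF P ψ) :
    ψ * φ⁻¹ ∈ P.ideal.inertia (E ≃ₐ[K] E) := fun x => by
  have := P.ideal.sub_mem (h' (φ⁻¹ • x)) (h (φ⁻¹ • x))
  rwa [sub_sub_sub_cancel_right, smul_inv_smul, ← mul_smul] at this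

theorem IsF.conj {P : Place E} {φ : E ≃ₐ[K] E} (h : IsF P φ) (g : E ≃ₐ[K] E) :
    IsF (g • P) (g * φ * g⁻¹) := fun x => by
  have e : (g • P).qv K = P.qv K := by rw [Place.qv, Place.res_smul]; rfl
  rw [Place.mem_smul_ideal, smul_sub, smul_pow', mul_smul, mul_smul, inv_smul_smul, e]
  exact h _

theorem Av.mono {A : Type*} [Group A] {T S : Finset (Pr K)} {f f' : Pr K → A}
    {ξ : (E ≃ₐ[K] E) →* A} (h : Av T f ξ) (hTS : T ⊆ S) (hf : ∀ w, w ∉ S → f w = f' w) :
    Av S f' ξ := fun P hP φ hφ => (h P (fun h' => hP (hTS h')) φ hφ).trans (hf _ hP)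

theorem Av.mul {A : Type*} [CommGroup A] {T : Finset (Pr K)} {f f' : Pr K → A}
    {ξ ξ' : (E ≃ₐ[K] E) →* A} (h : Av T f ξ) (h' : Av T f' ξ') :
    Av T (fun w => f w * f' w) (ξ * ξ') := fun P hP φ hφ => by
  rw [MonoidHom.mul_apply, h P hP φ hφ, h' P hP φ hφ]

theorem Av.pow {A : Type*} [CommGroup A] {T : Finset (Pr K)} {f : Pr K → A}
    {ξ : (E ≃ₐ[K] E) →* A} (h : Av T f ξ) (n : ℕ) :
    Av T (fun w => f w ^ n) (ξ ^ n) := fun P hP φ hφ => by
  rw [MonoidHom.pow_apply, h P hP φ hφ]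

theorem Av.comp {A B : Type*} [Group A] [Group B] {T : Finset (Pr K)} {f : Pr K → A}
    {ξ : (E ≃ₐ[K] E) →* A} (h : Av T f ξ) (l : A →* B) :
    Av T (fun w => l (f w)) (l.comp ξ) := fun P hP φ hφ => by
  rw [MonoidHom.comp_apply, h P hP φ hφ]

variable [NumberField K] [CharZero E] [IsGalois K E]

theorem exists_isF (P : Place E) : ∃ φ : E ≃ₐ[K] E, IsF P φ :=
  let ⟨φ, _, h⟩ := Place.exists_frob (F := K) P
  ⟨φ, h⟩

theorem IsF.smul_eq {P : Place E} {φ : E ≃ₐ[K] E} (h : IsF P φ) : φ • P = P := by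
  rw [Place.smul_eq_iff]
  intro x hx
  have := P.ideal.add_mem (h x) (P.ideal.pow_mem_of_mem hx _
    (Nat.zero_lt_one.trans (Place.one_lt_qv (F := K) P)))
  rwa [sub_add_cancel] at this

theorem Av.inertia_le {A : Type*} [Group A] {T : Finset (Pr K)} {f : Pr K → A}
    {ξ : (E ≃ₐ[K] E) →* A} (h : Av T f ξ) {P : Place E} (hP : pr K P ∉ T) :
    P.ideal.inertia (E ≃ₐ[K] E) ≤ ξ.ker := fun u hu => by
  obtain ⟨φ, hφ⟩ := exists_isF (K := K) P
  have h1 := h P hP _ (hφ.inertia_mul hu)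
  rw [map_mul, h P hP φ hφ] at h1
  exact mul_eq_right.1 h1

/-- a character unramified outside `T` defines a function on the primes -/
theorem exists_av {A : Type*} [CommGroup A] (T : Finset (Pr K)) (ξ : (E ≃ₐ[K] E) →* A)
    (h : ∀ P : Place E, pr K P ∉ T → P.ideal.inertia (E ≃ₐ[K] E) ≤ ξ.ker) :
    ∃ f : Pr K → A, (∀ w ∈ T, f w = 1) ∧ Av T f ξ := by
  classical
  choose Q hQ using fun w : Pr K => exists_pr (E := E) w
  choose ψ hψ using fun w : Pr K => exists_isF (K := K) (Q w)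
  refine ⟨fun w => if w ∈ T then 1 else ξ (ψ w), fun w hw => if_pos hw, fun P hP φ hφ => ?_⟩
  beta_reduce
  rw [if_neg hP]
  obtain ⟨g, hg⟩ := Place.exists_smul_eq_of_res_eq (M := K) _ _ (pr_eq_iff.1 (hQ (pr K P)))
  have h1 := (hψ (pr K P)).conj g
  rw [hg] at h1
  have h2 := h P hP (h1.div_mem hφ)
  rw [MonoidHom.mem_ker, map_mul, map_inv, mul_inv_eq_one, map_mul, map_mul, map_inv,
    mul_inv_cancel_comm] at h2
  exact h2

omit [NumberField K] [CharZero E] in
theorem facts (N : Subgroup (E ≃ₐ[K] E)) [hN : N.Normal] (ho : IsOpen (N : Set (E ≃ₐ[K] E))) :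
    (IntermediateField.fixedField N).fixingSubgroup = N ∧
    FiniteDimensional K (IntermediateField.fixedField N) ∧
    IsGalois K (IntermediateField.fixedField N) := by
  have h1 : (IntermediateField.fixedField N).fixingSubgroup = N :=
    InfiniteGalois.fixingSubgroup_fixedField ⟨N, Subgroup.isClosed_of_isOpen N ho⟩
  refine ⟨h1, ?_, (InfiniteGalois.normal_iff_isGalois _).mp (by rw [h1]; exact hN)⟩
  rw [← InfiniteGalois.isOpen_iff_finite]
  change IsOpen ((IntermediateField.fixedField N).fixingSubgroup : Set (E ≃ₐ[K] E))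
  rw [h1]; exact ho

omit [NumberField K] [CharZero E] [IsGalois K E] in
theorem res_int (L : IntermediateField K E) [Normal K L] (φ : E ≃ₐ[K] E) (x : 𝓞 L) :
    algebraMap (𝓞 L) (𝓞 E) (AlgEquiv.restrictNormalHom L φ • x) = φ • algebraMap (𝓞 L) (𝓞 E) x := by
  apply RingOfIntegers.coe_injective
  exact AlgEquiv.restrictNormal_commutes φ L (x : L)

omit [NumberField K] [CharZero E] [IsGalois K E] in
theorem IsF.res {P : Place E} {φ : E ≃ₐ[K] E} (h : IsF P φ) (L : IntermediateField K E)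
    [Normal K L] (x : 𝓞 L) :
    AlgEquiv.restrictNormalHom L φ • x - x ^ P.qv K ∈ (P.res L).ideal := by
  rw [Place.mem_res, map_sub, map_pow, res_int]
  exact h _

omit [NumberField K] [CharZero E] in
theorem lift_inertia (L : IntermediateField K E) [Normal K L] (P : Place E) {g : L ≃ₐ[K] L}
    (hg : ∀ x : 𝓞 L, g • x - x ∈ (P.res L).ideal) :
    ∃ u ∈ P.ideal.inertia (E ≃ₐ[K] E), AlgEquiv.restrictNormalHom L u = g := by
  obtain ⟨u, h1, h2⟩ := R018.LCIneBx925.exists_lift_inertia L P g hg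
  exact ⟨u, h2, AlgEquiv.ext fun x => Subtype.ext
    ((AlgEquiv.restrictNormal_commutes u L x).trans (h1 x))⟩

theorem lift_frob (L : IntermediateField K E) [Normal K L] (P : Place E) {g : L ≃ₐ[K] L}
    (hg : ∀ x : 𝓞 L, g • x - x ^ P.qv K ∈ (P.res L).ideal) :
    ∃ φ, IsF P φ ∧ AlgEquiv.restrictNormalHom L φ = g := by
  obtain ⟨φ, hφ⟩ := exists_isF (K := K) P
  obtain ⟨u, hu, h⟩ := lift_inertia L P (g := g * (AlgEquiv.restrictNormalHom L φ)⁻¹) fun x => by
    have := Ideal.sub_mem _ (hg ((AlgEquiv.restrictNormalHom L φ)⁻¹ • x))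
      (hφ.res L ((AlgEquiv.restrictNormalHom L φ)⁻¹ • x))
    rwa [sub_sub_sub_cancel_right, smul_inv_smul, ← mul_smul] at this
  exact ⟨u * φ, hφ.inertia_mul hu, by rw [map_mul, h, inv_mul_cancel_right]⟩

/-- **Chebotarev** over the base `K` -/
theorem cheb_K (N : Subgroup (E ≃ₐ[K] E)) [N.Normal] (ho : IsOpen (N : Set (E ≃ₐ[K] E)))
    (S : Finset (Pr K)) (g : E ≃ₐ[K] E) :
    ∃ (P : Place E) (φ : E ≃ₐ[K] E), pr K P ∉ S ∧ IsF P φ ∧ g⁻¹ * φ ∈ N := by
  obtain ⟨hfix, hfin, hgal⟩ := facts N ho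
  set L := IntermediateField.fixedField N with hL
  have : NumberField L := NumberField.of_module_finite K L
  obtain ⟨p, hp, hB, Q, hQ, hmem, -, hn, -, hσ⟩ := Cheb.cheb_rel (AlgEquiv.restrictNormalHom L g)
    (S.sup fun w => Ideal.absNorm w.asIdeal)
  have hQ0 : Q ≠ ⊥ := fun h0 => by
    rw [h0, Ideal.mem_bot] at hmem
    exact hp.ne_zero (by exact_mod_cast hmem)
  obtain ⟨P, hP⟩ := Place.exists_res_eq (E := E) L (⟨Q, hQ.isPrime, hQ0⟩ : Place L)
  have h1 : (pr K P).asIdeal = Q.under (𝓞 K) := by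
    change (P.res K).ideal = _
    rw [← Place.res_res K L P, hP]
    rfl
  have h2 : P.qv K = p := by rw [qv_eq, h1, hn]
  obtain ⟨φ, hφ, h3⟩ := lift_frob L P (g := AlgEquiv.restrictNormalHom L g) fun x => by
    rw [hP, h2]; exact hσ x
  refine ⟨P, φ, fun h => ?_, hφ, ?_⟩
  · have := Finset.le_sup (f := fun w : Pr K => Ideal.absNorm w.asIdeal) h
    rw [h1, hn] at this
    omega
  · rw [← hfix, ← IntermediateField.restrictNormalHom_ker, MonoidHom.mem_ker, map_mul, map_inv, h3,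
      inv_mul_cancel]

theorem cheb_av {A : Type*} [Group A] (ξ : (E ≃ₐ[K] E) →* A)
    (ho : IsOpen (ξ.ker : Set (E ≃ₐ[K] E))) (S : Finset (Pr K)) (g : E ≃ₐ[K] E) :
    ∃ (P : Place E) (φ : E ≃ₐ[K] E), pr K P ∉ S ∧ IsF P φ ∧ ξ φ = ξ g := by
  obtain ⟨P, φ, h1, h2, h3⟩ := cheb_K ξ.ker ho S g
  rw [MonoidHom.mem_ker, map_mul, map_inv, inv_mul_eq_one] at h3
  exact ⟨P, φ, h1, h2, h3.symm⟩

omit [NumberField K] [CharZero E] [IsGalois K E] in
theorem opn_prod {A B : Type*} [Group A] [Group B] {ξ : (E ≃ₐ[K] E) →* A} {η : (E ≃ₐ[K] E) →* B}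
    (h : IsOpen (ξ.ker : Set (E ≃ₐ[K] E))) (h' : IsOpen (η.ker : Set (E ≃ₐ[K] E))) :
    IsOpen ((ξ.prod η).ker : Set (E ≃ₐ[K] E)) := by
  rw [MonoidHom.ker_prod]
  exact h.inter h'

omit [NumberField K] [CharZero E] [IsGalois K E] in
theorem opn_mul {A : Type*} [CommGroup A] {ξ η : (E ≃ₐ[K] E) →* A}
    (h : IsOpen (ξ.ker : Set (E ≃ₐ[K] E))) (h' : IsOpen (η.ker : Set (E ≃ₐ[K] E))) :
    IsOpen ((ξ * η).ker : Set (E ≃ₐ[K] E)) :=
  Subgroup.isOpen_mono (H₁ := ξ.ker ⊓ η.ker) (fun g hg => by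
    rw [MonoidHom.mem_ker, MonoidHom.mul_apply, hg.1, hg.2, mul_one]) (h.inter h')

/-- characters with the same Frobenius values agree -/
theorem Av.unique {A : Type*} [Group A] {S : Finset (Pr K)} {f : Pr K → A}
    {ξ η : (E ≃ₐ[K] E) →* A} (h : Av S f ξ) (h' : Av S f η)
    (ho : IsOpen (ξ.ker : Set (E ≃ₐ[K] E))) (ho' : IsOpen (η.ker : Set (E ≃ₐ[K] E))) : ξ = η := by
  ext g
  obtain ⟨P, φ, h1, h2, h3⟩ := cheb_av (ξ.prod η) (opn_prod ho ho') S g
  rw [MonoidHom.prod_apply, MonoidHom.prod_apply, Prod.mk.injEq] at h3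
  rw [← h3.1, ← h3.2, h P h1 φ h2, h' P h1 φ h2]

omit [NumberField K] [CharZero E] in
theorem exists_pow_eq_one {A : Type*} [Group A] (ξ : (E ≃ₐ[K] E) →* A)
    (ho : IsOpen (ξ.ker : Set (E ≃ₐ[K] E))) : ∃ N : ℕ, N ≠ 0 ∧ ∀ g, ξ g ^ N = 1 := by
  have := Subgroup.quotient_finite_of_isOpen ξ.ker ho
  exact ⟨ξ.ker.index, Subgroup.index_ne_zero_of_finite, fun g => by
    rw [← map_pow]; exact ξ.ker.pow_index_mem g⟩

end Words

section Artin

variable {K E : Type} [Field K] [NumberField K] [IsTotallyComplex K] [Field E] [CharZero E]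
  [Algebra K E] [IsGalois K E] {A : Type} [CommGroup A]

/-- **Artin reciprocity** for a character of `Gal(E/K)` -/
theorem artin_an (hA : ArtStmt) {ξ : (E ≃ₐ[K] E) →* A} (ho : IsOpen (ξ.ker : Set (E ≃ₐ[K] E)))
    {N : ℕ} (hN : N ≠ 0) (hξ : ∀ g, ξ g ^ N = 1) {T : Finset (Pr K)} {f : Pr K → A}
    (h1 : ∀ w ∈ T, f w = 1) (h : Av T f ξ) (a : Kˣ)
    (ha : ∀ w ∈ T, AN (IntermediateField.fixedField ξ.ker) w N (a : K)) : ev f a = 1 := by
  obtain ⟨hfix, hfin, hgal⟩ := facts ξ.ker ho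
  set L := IntermediateField.fixedField ξ.ker with hL
  have : NumberField L := NumberField.of_module_finite K L
  have hs := AlgEquiv.restrictNormalHom_surjective (F := K) (K₁ := L) E
  let χ : (L ≃ₐ[K] L) →* A := (AlgEquiv.restrictNormalHom L).liftOfSurjective hs
    ⟨ξ, by rw [IntermediateField.restrictNormalHom_ker, hfix]⟩
  have hχ : ∀ g, χ (AlgEquiv.restrictNormalHom L g) = ξ g := fun g =>
    MonoidHom.liftOfRightInverse_comp_apply _ _ _ _ g
  refine hA K L A χ N hN (fun g => ?_) T f h1 (fun w hw => ?_) a ha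
  · obtain ⟨g, rfl⟩ := hs g
    rw [hχ, hξ]
  · obtain ⟨P, rfl⟩ := exists_pr (E := E) w
    obtain ⟨φ, hφ⟩ := exists_isF (K := K) P
    refine ⟨AlgEquiv.restrictNormalHom L φ, ⟨(P.res L).ideal, (P.res L).isPrime, ⟨?_⟩,
      fun x => qv_eq (K := K) P ▸ hφ.res L x, fun g hg => ?_⟩, by rw [hχ, h P hw φ hφ]⟩
    · change (P.res K).ideal = _
      rw [← Place.res_res K L P]
      rfl
    · obtain ⟨u, hu, rfl⟩ := lift_inertia L P (g := g) hg
      rw [MonoidHom.mem_ker, hχ]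
      exact h.inertia_le hw hu

theorem artin_av (hA : ArtStmt) {ξ : (E ≃ₐ[K] E) →* A} (ho : IsOpen (ξ.ker : Set (E ≃ₐ[K] E)))
    {N : ℕ} (hN : N ≠ 0) (hξ : ∀ g, ξ g ^ N = 1) {T : Finset (Pr K)} {f : Pr K → A}
    (h1 : ∀ w ∈ T, f w = 1) (h : Av T f ξ) (a : Kˣ)
    (ha : ∀ w ∈ T, w.valuation K ((a : K) - 1) < w.valuation K (N : K) ^ 2) : ev f a = 1 :=
  artin_an hA ho hN hξ h1 h a fun w hw => ⟨1, one_ne_zero, by simpa using ha w hw⟩

end Artin

end Crest.Agent.T15.Ex
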