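import Crest.Agent.T15.AxA_14

/-!
# Row 15, analytic Jacobian of `w² = F(x)`, any genus (helper14), part B

Local converse of Abel's theorem.
-/

set_option autoImplicit false
set_option linter.unusedSectionVars false
set_option linter.unusedVariables false

open Polynomial Filter Topology Metric

noncomputable section

namespace Crest.Agent.T15.Ax

attribute [local fun_prop] analyticAt_fst analyticAt_snd

variable {F : ℂ[X]} {g : ℕ}

lemma an_apply {κ : Type*} [Fintype κ] (j : κ) (σ : κ → ℂ) : AnalyticAt ℂ (fun τ : κ → ℂ => τ j) σ :=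
  (ContinuousLinearMap.proj (R := ℂ) (φ := fun _ : κ => ℂ) j).analyticAt σ

lemma an_sum {E G κ : Type*} [NormedAddCommGroup E] [NormedSpace ℂ E] [NormedAddCommGroup G]
    [NormedSpace ℂ G] (s : Finset κ) {f : κ → E → G} {u : E} (h : ∀ j ∈ s, AnalyticAt ℂ (f j) u) :
    AnalyticAt ℂ (fun v => ∑ j ∈ s, f j v) u := Finset.analyticAt_fun_sum s h

/-- sum of the Abel integrals of a family of charts -/
def sab {κ : Type*} [Fintype κ] (c : κ → Ch F g) (σ : κ → ℂ) : Fin g → ℂ := ∑ j, (c j).ab (σ j)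

lemma sab_zero {κ : Type*} [Fintype κ] (c : κ → Ch F g) : sab c 0 = 0 := by
  simp [sab, Ch.ab0]

lemma an_sab {κ : Type*} [Fintype κ] (c : κ → Ch F g) : AnalyticAt ℂ (sab c) 0 :=
  an_sum _ fun j _ => AnalyticAt.fun_comp (g := (c j).ab) (f := fun τ : κ → ℂ => τ j) (c j).anab
    (an_apply j 0)

lemma hd_lin (a v : ℂ) : HasDerivAt (fun s : ℂ => a + s * v) v 0 := by
  simpa using ((hasDerivAt_id (0 : ℂ)).mul_const v).const_add a

/-- local inverse of the Abel map of `g` charts with distinct `x` -/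
lemma vinv (c : Fin g → Ch F g) (hx : Function.Injective fun j => (c j).x 0) :
    ∃ ψ : (Fin g → ℂ) → Fin g → ℂ, AnalyticAt ℂ ψ 0 ∧ ψ 0 = 0 ∧ (∀ᶠ z in 𝓝 0, sab c (ψ z) = z) ∧
      ∀ᶠ σ in 𝓝 0, ψ (sab c σ) = σ := by
  set f : (Fin g → ℂ) × (Fin g → ℂ) → Fin g → ℂ := fun v => sab c v.2 - v.1 with hf
  have hfa : AnalyticAt ℂ f (0, 0) :=
    (AnalyticAt.fun_comp (g := sab c) (f := Prod.snd) (an_sab c) analyticAt_snd).sub analyticAt_fst
  have hf0 : f (0, 0) = 0 := by simp [hf, sab_zero]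
  obtain ⟨ψ, hψa, hψ0, hψe, hψu⟩ := impl hfa rfl (by
    intro v hv
    have h1 : HasDerivAt (fun s : ℂ => ∑ j, (c j).ab (0 + s * v j) - 0)
        (∑ j, v j • fun k : Fin g => (c j).x 0 ^ (k : ℕ) * (c j).η 0) 0 := by
      refine HasDerivAt.sub_const _ (HasDerivAt.fun_sum fun j _ => ?_)
      have h := (c j).ev.self_of_nhds.2.2.2.1
      exact HasDerivAt.scomp (0 : ℂ) (by simpa using h) (hd_lin 0 (v j))
    have h2 := h1.unique hv
    have h3 : (fun j => v j * (c j).η 0) = 0 := by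
      refine Matrix.eq_zero_of_forall_pow_sum_mul_pow_eq_zero hx fun k => ?_
      have := congrFun h2 k
      simp only [Finset.sum_apply, Pi.smul_apply, smul_eq_mul, Pi.zero_apply] at this
      exact (Finset.sum_congr rfl fun j _ => by ring).trans this
    ext j
    exact (mul_eq_zero.1 (congrFun h3 j)).resolve_right (c j).η0)
  refine ⟨ψ, hψa, hψ0, ?_, ?_⟩
  · filter_upwards [hψe] with z hz
    rw [hf0] at hz
    exact sub_eq_zero.1 hz
  · have hc : ContinuousAt (fun σ : Fin g → ℂ => (sab c σ, σ)) 0 :=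
      (an_sab c).continuousAt.prodMk continuousAt_id
    have := hc.tendsto
    rw [sab_zero] at this
    filter_upwards [this.eventually hψu] with σ h
    exact h (by rw [hf0]; simp [hf])

/-- polynomial with given coefficients -/
def pa {n : ℕ} (a : Fin n → ℂ) : ℂ[X] := ∑ i : Fin n, C (a i) * X ^ (i : ℕ)

lemma pa_eval {n : ℕ} (a : Fin n → ℂ) (y : ℂ) : (pa a).eval y = ∑ i : Fin n, a i * y ^ (i : ℕ) := by
  simp [pa, eval_finsetSum]

lemma pa_deg {n : ℕ} (a : Fin n → ℂ) : (pa a).degree < n := degree_sum_fin_lt a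

lemma pa_natDegree {n : ℕ} (a : Fin (n + 1) → ℂ) : (pa a).natDegree ≤ n := by
  have := pa_deg a
  rw [natDegree_le_iff_degree_le]
  exact Order.le_of_lt_succ (by exact_mod_cast this)

lemma X_pa_natDegree {n : ℕ} (a : Fin n → ℂ) : (X * pa a).natDegree ≤ n := by
  by_cases h : pa a = 0
  · simp [h]
  · have := (natDegree_lt_iff_degree_lt h).2 (pa_deg a)
    rw [natDegree_X_mul h]; omega

lemma pa_coeff {n : ℕ} (a : Fin n → ℂ) (i : Fin n) : (pa a).coeff i = a i := by
  simp only [pa, finsetSum_coeff, coeff_C_mul, coeff_X_pow]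
  rw [Finset.sum_eq_single i] <;> simp +contextual [Fin.ext_iff, eq_comm]

lemma pa_eq_zero {n : ℕ} {a : Fin n → ℂ} (h : pa a = 0) : a = 0 := by
  ext i; rw [← pa_coeff a i, h]; simp


lemma exists_pa {n : ℕ} {a : ℂ[X]} (h : a.natDegree ≤ n) : ∃ v : Fin (n + 1) → ℂ, pa v = a := by
  refine ⟨fun i => a.coeff i, ?_⟩
  rw [pa, Fin.sum_univ_eq_sum_range (fun i => C (a.coeff i) * X ^ i) (n + 1)]
  exact (as_sum_range_C_mul_X_pow' a (by omega)).symm

/-- derivative of `p(s)(y(s))` for moving coefficients -/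
lemma hd_pa {n : ℕ} {a : ℂ → Fin n → ℂ} {a' : Fin n → ℂ} {y : ℂ → ℂ} {y' s : ℂ}
    (ha : HasDerivAt a a' s) (hy : HasDerivAt y y' s) :
    HasDerivAt (fun t => (pa (a t)).eval (y t))
      ((pa a').eval (y s) + (pa (a s)).derivative.eval (y s) * y') s := by
  have h1 : HasDerivAt (fun t => (pa (a t - a s)).eval (y t)) ((pa a').eval (y s)) s := by
    simp only [pa_eval]
    refine HasDerivAt.fun_sum fun i _ => ?_
    have hi : HasDerivAt (fun t => (a t - a s) i) (a' i) s :=
      ((hasDerivAt_pi.1 ha) i).sub_const (a s i)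
    exact (hi.fun_mul (hy.fun_pow i)).congr_deriv (by simp)
  refine (h1.fun_add (hd_eval (pa (a s)) hy)).congr_of_eventuallyEq (Eventually.of_forall fun t => ?_)
  simp only [pa_eval, Pi.sub_apply, ← Finset.sum_add_distrib]
  exact Finset.sum_congr rfl fun i _ => by ring

lemma an_pa {E : Type*} [NormedAddCommGroup E] [NormedSpace ℂ E] {n : ℕ} {a : E → Fin n → ℂ}
    {y : E → ℂ} {u : E} (ha : AnalyticAt ℂ a u) (hy : AnalyticAt ℂ y u) :
    AnalyticAt ℂ (fun v => (pa (a v)).eval (y v)) u := by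
  simp only [pa_eval]
  exact an_sum _ fun i _ => ((analyticAt_pi_iff.1 ha) i).mul (hy.pow _)

/-- the equation `a(x) + (1 + x β(x)) w` along a chart -/
def eqn (c : Ch F g) {n m : ℕ} (a : Fin n → ℂ) (β : Fin m → ℂ) (t : ℂ) : ℂ :=
  (pa a).eval (c.x t) + (1 + X * pa β).eval (c.x t) * c.w t

lemma hd_eqn (c : Ch F g) {n m : ℕ} {a : ℂ → Fin n → ℂ} {a' : Fin n → ℂ} {β : ℂ → Fin m → ℂ}
    {β' : Fin m → ℂ} {t : ℂ → ℂ} {t' s : ℂ} (ha : HasDerivAt a a' s) (hβ : HasDerivAt β β' s)
    (ht : HasDerivAt t t' s) (hx : HasDerivAt c.x (c.η (t s) * c.w (t s)) (t s))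
    (hw : HasDerivAt c.w (c.η (t s) * F.derivative.eval (c.x (t s)) / 2) (t s)) :
    HasDerivAt (fun r => eqn c (a r) (β r) (t r))
      ((pa a').eval (c.x (t s)) + (X * pa β').eval (c.x (t s)) * c.w (t s) +
        ((pa (a s)).derivative.eval (c.x (t s)) * c.w (t s) +
          (1 + X * pa (β s)).derivative.eval (c.x (t s)) * c.w (t s) ^ 2 +
          (1 + X * pa (β s)).eval (c.x (t s)) * F.derivative.eval (c.x (t s)) / 2) *
          (c.η (t s) * t')) s := by
  have dx : HasDerivAt (fun r => c.x (t r)) (c.η (t s) * c.w (t s) * t') s := hx.comp s ht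
  have dw : HasDerivAt (fun r => c.w (t r)) (c.η (t s) * F.derivative.eval (c.x (t s)) / 2 * t') s :=
    hw.comp s ht
  have h := (hd_pa ha dx).fun_add ((((dx.fun_mul (hd_pa hβ dx)).const_add 1)).fun_mul dw)
  simp only [eqn, eval_add, eval_mul, eval_one, eval_X, derivative_add, derivative_mul, derivative_one,
    derivative_X, zero_add, one_mul]
  exact h.congr_deriv (by ring)

lemma one_add_ne (p : ℂ[X]) : (1 + X * p : ℂ[X]) ≠ 0 := fun h => by
  have := congrArg (eval 0) h
  simp at this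

lemma one_add_deg {m : ℕ} (β : Fin m → ℂ) : (1 + X * pa β).natDegree ≤ m :=
  (natDegree_add_le _ _).trans (max_le (by simp) (X_pa_natDegree β))

lemma ev_inj {κ : Type*} [Fintype κ] (c : κ → Ch F g) (hx : Function.Injective fun j => (c j).x 0) :
    ∀ᶠ τ in 𝓝 (0 : κ → ℂ), Function.Injective fun j => (c j).x (τ j) := by
  have h : ∀ i j, i ≠ j → ∀ᶠ τ in 𝓝 (0 : κ → ℂ), (c i).x (τ i) ≠ (c j).x (τ j) := by
    intro i j hij
    have hc : ∀ i, ContinuousAt (fun τ : κ → ℂ => (c i).x (τ i)) 0 := fun i =>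
      ContinuousAt.comp (f := fun τ : κ → ℂ => τ i) (c i).anx.continuousAt (continuousAt_apply i 0)
    have := ((hc i).sub (hc j)).eventually_ne (y := 0) (sub_ne_zero.2 fun h => hij (hx h))
    exact this.mono fun τ h => sub_ne_zero.1 h
  have h' : ∀ᶠ τ in 𝓝 (0 : κ → ℂ), ∀ i j, i ≠ j → (c i).x (τ i) ≠ (c j).x (τ j) := by
    simp only [eventually_all]
    exact h
  exact h'.mono fun τ hτ i j hij => by_contra fun hne => hτ i j hne hij

lemma ev_pi {κ : Type*} [Fintype κ] {p : κ → ℂ → Prop} (h : ∀ j, ∀ᶠ t in 𝓝 (0 : ℂ), p j t) :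
    ∀ᶠ τ in 𝓝 (0 : κ → ℂ), ∀ j, p j (τ j) :=
  eventually_all.2 fun j => (continuousAt_apply j (0 : κ → ℂ)).tendsto.eventually (h j)

/-- the space of unknowns -/
abbrev E2 (g s : ℕ) : Type := (Fin (g + 1 + s + 1) → ℂ) × (Fin s → ℂ) × (Fin g → ℂ)

/-- **local converse of Abel's theorem** -/
theorem loc_conv (hF : Squarefree F) (hd0 : 0 < F.natDegree) (hd : F.natDegree ≤ 2 * g + 2) {s : ℕ}
    {ι : Type*} [Fintype ι] (hc : Fintype.card ι = 2 * (g + 1 + s)) (c : ι → Ch F g)
    (hx : Function.Injective fun j => (c j).x 0) {a0 : ℂ[X]} (ha0 : a0.natDegree = g + 1 + s)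
    (he : ∀ j, a0.eval ((c j).x 0) + (c j).w 0 = 0) :
    ∀ᶠ τ in 𝓝 (0 : ι → ℂ), sab c τ = 0 → ∃ a b : ℂ[X], b ≠ 0 ∧ a.natDegree ≤ g + 1 + s ∧
      b.natDegree ≤ s ∧ ∀ j, a.eval ((c j).x (τ j)) + b.eval ((c j).x (τ j)) * (c j).w (τ j) = 0 := by
  classical
  obtain ⟨e⟩ : Nonempty (Fin g ↪ ι) := Function.Embedding.nonempty_of_card_le (by simp; omega)
  obtain ⟨A0, hA0⟩ := exists_pa ha0.le
  set T : (ι → ℂ) → (Fin g → ℂ) → ι → ℂ := fun τ σ => Function.extend e σ τ with hT
  have hT1 : ∀ τ σ i, T τ σ (e i) = σ i := fun τ σ i => e.injective.extend_apply _ _ _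
  have hT2 : ∀ τ σ j, (¬ ∃ i, e i = j) → T τ σ j = τ j := fun τ σ j h =>
    Function.extend_apply' _ _ _ h
  have hT0 : T 0 0 = 0 := by
    ext j
    by_cases h : ∃ i, e i = j
    · obtain ⟨i, rfl⟩ := h; exact hT1 _ _ _
    · exact hT2 _ _ _ h
  have hTa : ∀ (u : (ι → ℂ) × E2 g s) j, AnalyticAt ℂ (fun v : (ι → ℂ) × E2 g s => T v.1 v.2.2.2 j) u := by
    intro u j
    by_cases h : ∃ i, e i = j
    · obtain ⟨i, rfl⟩ := h
      simp only [hT1]
      exact AnalyticAt.fun_comp (f := fun v : (ι → ℂ) × E2 g s => v.2.2.2) (an_apply i _) (by fun_prop)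
    · simp only [hT2 _ _ _ h]
      exact AnalyticAt.fun_comp (f := fun v : (ι → ℂ) × E2 g s => v.1) (an_apply j _) (by fun_prop)
  set f : (ι → ℂ) × E2 g s → ι → ℂ := fun v j => eqn (c j) v.2.1 v.2.2.1 (T v.1 v.2.2.2 j) with hf
  set u : (ι → ℂ) × E2 g s := (0, (A0, 0, 0)) with hu
  have hTu : ∀ j, T u.1 u.2.2.2 j = 0 := fun j => congrFun hT0 j
  have hfa : AnalyticAt ℂ f u := by
    rw [analyticAt_pi_iff]
    intro j
    have hxa : AnalyticAt ℂ (fun v : (ι → ℂ) × E2 g s => (c j).x (T v.1 v.2.2.2 j)) u :=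
      AnalyticAt.fun_comp (g := (c j).x) (by rw [hTu]; exact (c j).anx) (hTa u j)
    have hwa : AnalyticAt ℂ (fun v : (ι → ℂ) × E2 g s => (c j).w (T v.1 v.2.2.2 j)) u :=
      AnalyticAt.fun_comp (g := (c j).w) (by rw [hTu]; exact (c j).anw) (hTa u j)
    simp only [hf, eqn, eval_add, eval_mul, eval_one, eval_X]
    exact (an_pa (by fun_prop) hxa).add
      ((analyticAt_const.add (hxa.mul (an_pa (by fun_prop) hxa))).mul hwa)
  have pa0 : ∀ n, pa (0 : Fin n → ℂ) = 0 := fun n => by simp [pa]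
  have hf0 : f u = 0 := by
    ext j
    simp only [hf, eqn, hTu]
    simp [hu, hA0, pa0, he j]
  -- the norm at the base point has simple roots
  have hN' : ∀ j, a0.derivative.eval ((c j).x 0) * (c j).w 0 + F.derivative.eval ((c j).x 0) / 2 ≠ 0 := by
    obtain ⟨k, hk0, hk⟩ := deriv_at_root hx (norm_ne_zero (a := a0) hF hd0 one_ne_zero) (by
      rw [hc]
      refine (natDegree_sub_le _ _).trans (max_le (natDegree_pow_le.trans (by omega)) ?_)
      simp only [one_pow, one_mul]; omega) (fun j => by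
      simp only [eval_sub, eval_mul, eval_pow, eval_one]
      rw [← (c j).on0]
      linear_combination (a0.eval ((c j).x 0) - (c j).w 0) * he j)
    intro j h
    have h1 := hk j
    simp only [derivative_sub, derivative_pow, eval_sub, eval_mul, eval_C, Nat.cast_ofNat,
      Nat.add_one_sub_one, pow_one, one_pow, one_mul] at h1
    have hp : ∏ i ∈ Finset.univ.erase j, ((c j).x 0 - (c i).x 0) ≠ 0 :=
      Finset.prod_ne_zero_iff.2 fun i hi => sub_ne_zero.2 fun h =>
        (Finset.ne_of_mem_erase hi) (hx h).symm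
    apply mul_ne_zero hk0 hp
    rw [← h1]
    linear_combination (-2) * h + 2 * a0.derivative.eval ((c j).x 0) * he j
  obtain ⟨ψ, hψa, hψ0, hψe, -⟩ := impl hfa (by simp [hc]; omega) (by
    rintro ⟨da, dβ, dσ⟩ hv
    have key : ∀ j, (pa da).eval ((c j).x 0) + (X * pa dβ).eval ((c j).x 0) * (c j).w 0 +
        (a0.derivative.eval ((c j).x 0) * (c j).w 0 + F.derivative.eval ((c j).x 0) / 2) *
          ((c j).η 0 * T 0 dσ j) = 0 := by
      intro j
      have ha : HasDerivAt (fun r : ℂ => A0 + r • da) da 0 := by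
        simpa using ((hasDerivAt_id (0 : ℂ)).smul_const da).const_add A0
      have hβ : HasDerivAt (fun r : ℂ => (0 : Fin s → ℂ) + r • dβ) dβ 0 := by
        simpa using ((hasDerivAt_id (0 : ℂ)).smul_const dβ)
      have ht : HasDerivAt (fun r : ℂ => T 0 (0 + r • dσ) j) (T 0 dσ j) 0 := by
        by_cases h : ∃ i, e i = j
        · obtain ⟨i, rfl⟩ := h
          simp only [hT1]
          exact hd_lin 0 (dσ i)
        · simp only [hT2 _ _ _ h]
          exact hasDerivAt_const _ _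
      have h0 : T 0 (0 + (0 : ℂ) • dσ) j = 0 := by simpa using congrFun hT0 j
      have h1 := hd_eqn (c j) ha hβ ht (by rw [h0]; exact (c j).ev.self_of_nhds.2.1)
        (by rw [h0]; exact (c j).ev.self_of_nhds.2.2.1)
      have h2 := h1.unique ((hasDerivAt_pi.1 hv) j)
      rw [h0] at h2
      simp only [zero_smul, add_zero, hA0, pa0, mul_zero, derivative_one, eval_zero, zero_mul,
        eval_one, one_mul, Pi.zero_apply] at h2
      exact h2
    have hR : X * pa dβ * a0 - pa da = 0 := by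
      refine eq_zero_of_natDegree_lt_card_of_eval_eq_zero _
        (f := fun j : {j // ¬ ∃ i, e i = j} => (c j.1).x 0) (hx.comp Subtype.val_injective)
        (fun j => ?_) ?_
      · have h1 := key j.1
        rw [hT2 _ _ _ j.2] at h1
        simp only [eval_sub, eval_mul, Pi.zero_apply, mul_zero, add_zero] at h1 ⊢
        linear_combination -h1 + (X : ℂ[X]).eval ((c j.1).x 0) * (pa dβ).eval ((c j.1).x 0) * he j.1
      · have h1 : Fintype.card {j // ¬ ∃ i, e i = j} = Fintype.card ι - g := by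
          rw [Fintype.card_subtype_compl]
          congr 1
          have : Fintype.card {j // ∃ i, e i = j} = Fintype.card (Set.range e) :=
            Fintype.card_congr (Equiv.refl _)
          rw [this, Set.card_range_of_injective e.injective, Fintype.card_fin]
        have h2 := pa_natDegree da
        have h3 := X_pa_natDegree dβ
        have h4 := natDegree_mul_le (p := X * pa dβ) (q := a0)
        have h5 := natDegree_sub_le (X * pa dβ * a0) (pa da)
        rw [h1, hc]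
        omega
    have hb0 : pa dβ = 0 := by
      by_contra hne
      have h0 : a0 ≠ 0 := fun h => by rw [h] at ha0; simp at ha0; omega
      have h1 : (X * pa dβ * a0).natDegree = (pa dβ).natDegree + 1 + a0.natDegree := by
        rw [natDegree_mul (mul_ne_zero X_ne_zero hne) h0, natDegree_X_mul hne]
      rw [sub_eq_zero.1 hR] at h1
      have h2 := pa_natDegree da
      omega
    have ha0' : pa da = 0 := by rw [← sub_eq_zero.1 hR, hb0]; simp
    have hσ : dσ = 0 := by
      ext i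
      have h1 := key (e i)
      rw [hb0, ha0', hT1] at h1
      simp only [eval_zero, mul_zero, zero_mul, add_zero, zero_add] at h1
      exact (mul_eq_zero.1 ((mul_eq_zero.1 h1).resolve_left (hN' _))).resolve_left (c _).η0
    rw [pa_eq_zero ha0', pa_eq_zero hb0, hσ]; rfl)
  simp only [hu] at hψa hψ0 hψe
  set t : (ι → ℂ) → ι → ℂ := fun τ => T τ (ψ τ).2.2 with ht
  have ht0 : t 0 = 0 := by simp only [ht, hψ0]; exact hT0
  have htj : ∀ τ j, AnalyticAt ℂ ψ τ → AnalyticAt ℂ (fun τ => t τ j) τ := fun τ j h =>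
    AnalyticAt.fun_comp (f := fun τ => (τ, ψ τ)) (hTa _ j) (analyticAt_id.prod h)
  have hta : AnalyticAt ℂ t 0 := analyticAt_pi_iff.2 fun j => htj 0 j hψa
  have htt : Tendsto t (𝓝 0) (𝓝 0) := by simpa [ht0] using hta.continuousAt.tendsto
  have heq : ∀ᶠ τ in 𝓝 (0 : ι → ℂ), ∀ j, eqn (c j) (ψ τ).1 (ψ τ).2.1 (t τ j) = 0 := by
    filter_upwards [hψe] with τ h j
    rw [← hu, hf0] at h
    exact congrFun h j
  -- Abel
  have hS : ∀ᶠ τ in 𝓝 (0 : ι → ℂ), sab c (t τ) = sab c (t 0) := by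
    refine ev_const (AnalyticAt.fun_comp (g := sab c) (by rw [ht0]; exact an_sab c) hta) ?_
    filter_upwards [heq.eventually_nhds, hψa.eventually_analyticAt,
      htt.eventually (ev_pi fun j => (c j).ev), htt.eventually (ev_inj c hx)] with τ h1 h2 h3 h4 v
    have dψ := hasDerivAt_line h2.differentiableAt v
    have dt : ∀ j, HasDerivAt (fun r : ℂ => t (τ + r • v) j) (fderiv ℂ (fun τ => t τ j) τ v) 0 :=
      fun j => hasDerivAt_line (htj τ j h2).differentiableAt v
    have e0 : τ + (0 : ℂ) • v = τ := by simp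
    have hl : Tendsto (fun r : ℂ => τ + r • v) (𝓝 0) (𝓝 τ) := by
      have : ContinuousAt (fun r : ℂ => τ + r • v) 0 := by fun_prop
      simpa using this.tendsto
    have hde : ∀ j, _ := fun j => by
      have h5 := hd_eqn (c j) (hd_fst dψ) (hd_fst (hd_snd dψ)) (dt j)
        (by rw [e0]; exact (h3 j).2.1) (by rw [e0]; exact (h3 j).2.2.1)
      have h6 := h5.unique ((hasDerivAt_const (0 : ℂ) (0 : ℂ)).congr_of_eventuallyEq
        ((hl.eventually h1).mono fun r hr => hr j))
      rw [e0] at h6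
      exact h6
    have hA := abel_alg hF hd0 hd hc h4 (one_add_ne _) (pa_natDegree (ψ τ).1) (one_add_deg (ψ τ).2.1)
      (pa_natDegree _) (X_pa_natDegree _) (fun j => (h3 j).1) (fun j => h1.self_of_nhds j) hde
    have h7 : HasDerivAt (fun r : ℂ => ∑ j, (c j).ab (t (τ + r • v) j))
        (∑ j, fderiv ℂ (fun τ => t τ j) τ v •
          fun k : Fin g => (c j).x (t τ j) ^ (k : ℕ) * (c j).η (t τ j)) 0 :=
      HasDerivAt.fun_sum fun j _ =>
        HasDerivAt.scomp (0 : ℂ) (by rw [e0]; exact (h3 j).2.2.2.1) (dt j)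
    refine h7.congr_deriv ?_
    ext k
    simp only [Finset.sum_apply, Pi.smul_apply, smul_eq_mul, Pi.zero_apply]
    rw [← hA k k.2]
    exact Finset.sum_congr rfl fun j _ => by ring
  obtain ⟨φ, -, -, -, hφ⟩ := vinv (fun i => c (e i)) (hx.comp e.injective)
  have l1 : Tendsto (fun τ : ι → ℂ => (ψ τ).2.2) (𝓝 0) (𝓝 0) := by
    have : ContinuousAt (fun τ : ι → ℂ => (ψ τ).2.2) 0 := hψa.continuousAt.snd.snd
    simpa [hψ0] using this.tendsto
  have l2 : Tendsto (fun τ : ι → ℂ => fun i => τ (e i)) (𝓝 0) (𝓝 0) := by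
    have : ContinuousAt (fun τ : ι → ℂ => fun i => τ (e i)) 0 :=
      continuousAt_pi.2 fun i => continuousAt_apply _ _
    exact this.tendsto
  filter_upwards [heq, hS, l1.eventually hφ, l2.eventually hφ] with τ h1 h2 h3 h4 h0
  rw [ht0, sab_zero] at h2
  have h5 : sab (fun i => c (e i)) (ψ τ).2.2 = sab (fun i => c (e i)) fun i => τ (e i) := by
    have h6 : ∑ j, ((c j).ab (t τ j) - (c j).ab (τ j)) = 0 := by
      rw [Finset.sum_sub_distrib]; exact sub_eq_zero.2 (h2.trans h0.symm)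
    rw [← Finset.sum_subset (Finset.subset_univ (Finset.univ.map e)) (fun j _ hj => by
      rw [ht]; simp only; rw [hT2 _ _ _ (by simpa using hj), sub_self]), Finset.sum_map] at h6
    simp only [ht, hT1, Finset.sum_sub_distrib] at h6
    exact sub_eq_zero.1 h6
  have h6 : (ψ τ).2.2 = fun i => τ (e i) := by rw [← h3, h5, h4]
  have h7 : t τ = τ := by
    ext j
    by_cases h : ∃ i, e i = j
    · obtain ⟨i, rfl⟩ := h
      simp only [ht, hT1, h6]
    · exact hT2 _ _ _ h
  refine ⟨pa (ψ τ).1, 1 + X * pa (ψ τ).2.1, one_add_ne _, pa_natDegree _, one_add_deg _, fun j => ?_⟩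
  have := h1 j
  rwa [h7] at this

end Crest.Agent.T15.Ax
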