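import Mathlib

/-!
# Row 15, block L: a coordinate-free Diophantine calculus over `ℚ` (helper15)

* `PolM f`: `f : V → W` is a polynomial map of `ℚ`-vector spaces (use `fun_prop`);
* `Dio S`: `S : V → Prop` is Diophantine over `ℚ`; closure properties.
-/

set_option autoImplicit false
set_option linter.unusedSectionVars false

namespace Crest.Agent.T15

universe u

variable {U V W X : Type*} [AddCommGroup U] [Module ℚ U] [AddCommGroup V] [Module ℚ V]
  [AddCommGroup W] [Module ℚ W] [AddCommGroup X] [Module ℚ X]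

/-- polynomial functions on a `ℚ`-vector space -/
inductive Pol {V : Type u} [AddCommGroup V] [Module ℚ V] : (V → ℚ) → Prop
  | const (c : ℚ) : Pol fun _ => c
  | lin (l : V →ₗ[ℚ] ℚ) : Pol fun x => l x
  | add {f g : V → ℚ} : Pol f → Pol g → Pol fun x => f x + g x
  | mul {f g : V → ℚ} : Pol f → Pol g → Pol fun x => f x * g x

theorem Pol.congr {f g : V → ℚ} (h : Pol f) (e : ∀ x, f x = g x) : Pol g := funext e ▸ h

theorem Pol.sum {ι : Type*} (s : Finset ι) {f : ι → V → ℚ} (h : ∀ i ∈ s, Pol (f i)) :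
    Pol fun x => ∑ i ∈ s, f i x := by
  classical
  induction s using Finset.induction_on with
  | empty => simpa using Pol.const 0
  | insert a s ha ih =>
    simpa [Finset.sum_insert ha] using (h a (by simp)).add (ih fun i hi => h i (by simp [hi]))

/-- polynomial maps -/
@[fun_prop] def PolM (f : V → W) : Prop := ∀ l : W →ₗ[ℚ] ℚ, Pol fun x => l (f x)

theorem PolM.pol {f : V → ℚ} (h : PolM f) : Pol f := h LinearMap.id


namespace PolM

theorem congr {f g : V → W} (h : PolM f) (e : ∀ x, f x = g x) : PolM g := funext e ▸ h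

@[fun_prop] theorem id' : PolM fun x : V => x := fun l => .lin l

@[fun_prop] theorem const (c : W) : PolM fun _ : V => c := fun _ => .const _

theorem pol_comp {g : W → ℚ} (hg : Pol g) {f : V → W} (hf : PolM f) : Pol fun x => g (f x) := by
  induction hg with
  | const c => exact .const c
  | lin l => exact hf l
  | add _ _ h1 h2 => exact h1.add h2
  | mul _ _ h1 h2 => exact h1.mul h2

@[fun_prop] theorem comp {g : W → X} {f : V → W} (hg : PolM g) (hf : PolM f) :
    PolM fun x => g (f x) := fun l => pol_comp (hg l) hf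

theorem linear (L : V →ₗ[ℚ] W) : PolM fun x => L x := fun l => .lin (l ∘ₗ L)

@[fun_prop] theorem lin (L : W →ₗ[ℚ] X) {f : V → W} (hf : PolM f) : PolM fun x => L (f x) :=
  (linear L).comp hf

@[fun_prop] theorem linEquiv (L : W ≃ₗ[ℚ] X) {f : V → W} (hf : PolM f) : PolM fun x => L (f x) :=
  lin L.toLinearMap hf

@[fun_prop] theorem add {f g : V → W} (hf : PolM f) (hg : PolM g) : PolM fun x => f x + g x :=
  fun l => ((hf l).add (hg l)).congr fun _ => (map_add l _ _).symm

@[fun_prop] theorem neg {f : V → W} (hf : PolM f) : PolM fun x => -f x := lin (-LinearMap.id) hf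

@[fun_prop] theorem sub {f g : V → W} (hf : PolM f) (hg : PolM g) : PolM fun x => f x - g x :=
  (hf.add hg.neg).congr fun _ => (sub_eq_add_neg _ _).symm

@[fun_prop] theorem sum {ι : Type*} (s : Finset ι) {f : ι → V → W} (h : ∀ i ∈ s, PolM (f i)) :
    PolM fun x => ∑ i ∈ s, f i x := fun l =>
  (Pol.sum s fun i hi => h i hi l).congr fun _ => (map_sum l _ _).symm

@[fun_prop] theorem smul {f : V → ℚ} {g : V → W} (hf : PolM f) (hg : PolM g) :
    PolM fun x => f x • g x := fun l =>
  (hf.pol.mul (hg l)).congr fun _ => by rw [map_smul, smul_eq_mul]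

@[fun_prop] theorem fst {f : V → W × X} (hf : PolM f) : PolM fun x => (f x).1 :=
  lin (LinearMap.fst ℚ W X) hf

@[fun_prop] theorem snd {f : V → W × X} (hf : PolM f) : PolM fun x => (f x).2 :=
  lin (LinearMap.snd ℚ W X) hf

@[fun_prop] theorem prodMk {f : V → W} {g : V → X} (hf : PolM f) (hg : PolM g) :
    PolM fun x => (f x, g x) :=
  ((lin (LinearMap.inl ℚ W X) hf).add (lin (LinearMap.inr ℚ W X) hg)).congr fun _ => by simp

section pi
variable {ι : Type*} {Y : ι → Type*} [∀ i, AddCommGroup (Y i)] [∀ i, Module ℚ (Y i)]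

@[fun_prop] theorem apply (i : ι) : PolM fun f : ∀ i, Y i => f i :=
  linear (LinearMap.proj (R := ℚ) (φ := Y) i)

@[fun_prop] theorem pi [Finite ι] {f : V → ∀ i, Y i} (h : ∀ i, PolM fun x => f x i) : PolM f := by
  classical
  have := Fintype.ofFinite ι
  exact (sum Finset.univ fun i _ => lin (LinearMap.single ℚ Y i) (h i)).congr fun x => by
    simp [Finset.univ_sum_single]

end pi

/-- bilinear maps with a finite-dimensional first factor -/
theorem bilin [Module.Finite ℚ W] (B : W →ₗ[ℚ] X →ₗ[ℚ] U) {f : V → W} {g : V → X} (hf : PolM f)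
    (hg : PolM g) : PolM fun x => B (f x) (g x) := by
  let b := Module.finBasis ℚ W
  refine (sum Finset.univ fun i _ => smul (lin (b.coord i) hf) (lin (B (b i)) hg)).congr fun x => ?_
  have := congrArg (fun w => B w (g x)) (b.sum_repr (f x))
  simp only [map_sum, LinearMap.sum_apply, map_smul, LinearMap.smul_apply] at this
  simpa using this

section alg
variable {A : Type*} [Ring A] [Algebra ℚ A] [Module.Finite ℚ A]

@[fun_prop] theorem mul {f g : V → A} (hf : PolM f) (hg : PolM g) : PolM fun x => f x * g x :=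
  bilin (LinearMap.mul ℚ A) hf hg

@[fun_prop] theorem pow {f : V → A} (hf : PolM f) (k : ℕ) : PolM fun x => f x ^ k := by
  induction k with
  | zero => simpa using const 1
  | succ k ih => simpa [pow_succ] using ih.mul hf

@[fun_prop] theorem algebraMap' {B : Type*} [CommRing B] [Algebra ℚ B] [Algebra B A]
    [IsScalarTower ℚ B A] {f : V → B} (hf : PolM f) : PolM fun x => algebraMap B A (f x) :=
  lin ((IsScalarTower.toAlgHom ℚ B A).toLinearMap) hf

@[fun_prop] theorem algHom {B : Type*} [Ring B] [Algebra ℚ B] (φ : A →ₐ[ℚ] B) {f : V → A}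
    (hf : PolM f) : PolM fun x => φ (f x) := lin φ.toLinearMap hf

@[fun_prop] theorem algEquiv {B : Type*} [Ring B] [Algebra ℚ B] (φ : A ≃ₐ[ℚ] B) {f : V → A}
    (hf : PolM f) : PolM fun x => φ (f x) := lin φ.toLinearMap hf

@[fun_prop] theorem ringHom {B : Type*} [Ring B] [Algebra ℚ B] (φ : A →+* B) {f : V → A}
    (hf : PolM f) : PolM fun x => φ (f x) := lin φ.toRatAlgHom.toLinearMap hf

@[fun_prop] theorem ringEquiv {B : Type*} [Ring B] [Algebra ℚ B] (φ : A ≃+* B) {f : V → A}
    (hf : PolM f) : PolM fun x => φ (f x) := ringHom φ.toRingHom hf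

end alg

@[fun_prop] theorem prod {A ι : Type*} [CommRing A] [Algebra ℚ A] [Module.Finite ℚ A] (s : Finset ι)
    {f : ι → V → A} (h : ∀ i ∈ s, PolM (f i)) : PolM fun x => ∏ i ∈ s, f i x := by
  classical
  induction s using Finset.induction_on with
  | empty => simpa using const 1
  | insert a s ha ih =>
    simpa [Finset.prod_insert ha] using (h a (by simp)).mul (ih fun i hi => h i (by simp [hi]))

@[fun_prop] theorem ratCast {A : Type*} [DivisionRing A] [CharZero A] {f : V → ℚ} (hf : PolM f) :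
    PolM fun x => (f x : A) := lin (Algebra.linearMap ℚ A) hf

@[fun_prop] theorem div_const {A : Type*} [DivisionRing A] [Algebra ℚ A] [Module.Finite ℚ A]
    {f : V → A} (hf : PolM f) (c : A) : PolM fun x => f x / c :=
  (hf.mul (const c⁻¹)).congr fun _ => (div_eq_mul_inv _ _).symm

theorem aeval {A σ R : Type*} [CommRing A] [Algebra ℚ A] [Module.Finite ℚ A] [CommRing R]
    [Algebra R A] (P : MvPolynomial σ R) {f : V → σ → A} (h : ∀ i, PolM fun x => f x i) :
    PolM fun x => MvPolynomial.aeval (f x) P := by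
  induction P using MvPolynomial.induction_on with
  | C a => simpa using const _
  | add p q h1 h2 => simpa using h1.add h2
  | mul_X p i h1 => simpa using h1.mul (h i)

theorem aeval_poly {A R : Type*} [CommRing A] [Algebra ℚ A] [Module.Finite ℚ A] [CommRing R]
    [Algebra R A] (P : Polynomial R) {f : V → A} (h : PolM f) :
    PolM fun x => Polynomial.aeval (f x) P := by
  induction P using Polynomial.induction_on' with
  | add p q h1 h2 => simpa using h1.add h2
  | monomial n a => simpa using (const _).mul (h.pow n)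

end PolM

/-- Diophantine predicates over `ℚ` -/
def Dio (S : V → Prop) : Prop :=
  ∃ (m : ℕ) (f : V × (Fin m → ℚ) → ℚ), PolM f ∧ ∀ x, S x ↔ ∃ w, f (x, w) = 0

namespace Dio

variable {S T : V → Prop}

theorem congr (h : Dio S) (e : ∀ x, S x ↔ T x) : Dio T :=
  (funext fun x => propext (e x) : S = T) ▸ h

theorem of_ex [Module.Finite ℚ W] {f : V × W → ℚ} (hf : PolM f) : Dio fun x => ∃ w, f (x, w) = 0 := by
  let e := (Module.finBasis ℚ W).equivFun
  exact ⟨_, fun p => f (p.1, e.symm p.2), by fun_prop, fun x =>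
    ⟨fun ⟨w, hw⟩ => ⟨e w, by simpa using hw⟩, fun ⟨w, hw⟩ => ⟨_, hw⟩⟩⟩

theorem zero {f : V → ℚ} (hf : PolM f) : Dio fun x => f x = 0 :=
  ⟨0, fun p => f p.1, by fun_prop, fun _ => ⟨fun h => ⟨0, h⟩, fun ⟨_, h⟩ => h⟩⟩

/-- substitution of a polynomial map -/
theorem comp {S : W → Prop} (h : Dio S) {g : V → W} (hg : PolM g) : Dio fun x => S (g x) := by
  obtain ⟨m, f, hf, e⟩ := h
  exact ⟨m, fun p => f (g p.1, p.2), by fun_prop, fun x => e _⟩

/-- existential quantifier over a finite-dimensional space -/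
theorem ex [Module.Finite ℚ W] {R : V → W → Prop} (h : Dio fun p : V × W => R p.1 p.2) :
    Dio fun x => ∃ w, R x w := by
  obtain ⟨m, f, hf, e⟩ := h
  refine (of_ex (W := W × (Fin m → ℚ)) (f := fun p => f ((p.1, p.2.1), p.2.2))
    (by fun_prop)).congr fun x => ⟨fun ⟨w, hw⟩ => ⟨w.1, (e (x, w.1)).2 ⟨w.2, hw⟩⟩, fun ⟨w, hw⟩ => ?_⟩
  obtain ⟨u, hu⟩ := (e (x, w)).1 hw
  exact ⟨(w, u), hu⟩

theorem and (hS : Dio S) (hT : Dio T) : Dio fun x => S x ∧ T x := by
  obtain ⟨m, f, hf, e⟩ := hS
  obtain ⟨k, g, hg, e'⟩ := hT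
  refine (of_ex (W := (Fin m → ℚ) × (Fin k → ℚ))
    (f := fun p => f (p.1, p.2.1) ^ 2 + g (p.1, p.2.2) ^ 2) (by fun_prop)).congr fun x => ?_
  rw [e, e']
  constructor
  · rintro ⟨w, hw⟩
    have := (add_eq_zero_iff_of_nonneg (sq_nonneg _) (sq_nonneg _)).1 hw
    exact ⟨⟨w.1, pow_eq_zero_iff two_ne_zero |>.1 this.1⟩, ⟨w.2, pow_eq_zero_iff two_ne_zero |>.1 this.2⟩⟩
  · rintro ⟨⟨u, hu⟩, ⟨w, hw⟩⟩
    exact ⟨(u, w), by simp [hu, hw]⟩

theorem or (hS : Dio S) (hT : Dio T) : Dio fun x => S x ∨ T x := by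
  obtain ⟨m, f, hf, e⟩ := hS
  obtain ⟨k, g, hg, e'⟩ := hT
  refine (of_ex (W := (Fin m → ℚ) × (Fin k → ℚ))
    (f := fun p => f (p.1, p.2.1) * g (p.1, p.2.2)) (by fun_prop)).congr fun x => ?_
  rw [e, e']
  constructor
  · rintro ⟨w, hw⟩
    exact (mul_eq_zero.1 hw).imp (fun h => ⟨w.1, h⟩) fun h => ⟨w.2, h⟩
  · rintro (⟨u, hu⟩ | ⟨w, hw⟩)
    · exact ⟨(u, 0), by simp [hu]⟩
    · exact ⟨(0, w), by simp [hw]⟩

theorem true : Dio fun _ : V => True := (zero (PolM.const 0)).congr fun _ => by simp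

theorem false : Dio fun _ : V => False := (zero (PolM.const 1)).congr fun _ => by simp

theorem const (p : Prop) : Dio fun _ : V => p := by
  by_cases h : p
  · exact true.congr fun _ => by simp [h]
  · exact false.congr fun _ => by simp [h]

theorem forall_mem {ι : Type*} (s : Finset ι) {R : ι → V → Prop} (h : ∀ i ∈ s, Dio (R i)) :
    Dio fun x => ∀ i ∈ s, R i x := by
  classical
  induction s using Finset.induction_on with
  | empty => exact true.congr fun _ => by simp
  | insert a s ha ih =>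
    exact ((h a (by simp)).and (ih fun i hi => h i (by simp [hi]))).congr fun _ => by simp

theorem exists_mem {ι : Type*} (s : Finset ι) {R : ι → V → Prop} (h : ∀ i ∈ s, Dio (R i)) :
    Dio fun x => ∃ i ∈ s, R i x := by
  classical
  induction s using Finset.induction_on with
  | empty => exact false.congr fun _ => by simp
  | insert a s ha ih =>
    exact ((h a (by simp)).or (ih fun i hi => h i (by simp [hi]))).congr fun _ => by simp

theorem forall_fin {ι : Type*} [Finite ι] {R : ι → V → Prop} (h : ∀ i, Dio (R i)) :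
    Dio fun x => ∀ i, R i x := by
  have := Fintype.ofFinite ι
  exact (forall_mem Finset.univ fun i _ => h i).congr fun _ => by simp

theorem exists_fin {ι : Type*} [Finite ι] {R : ι → V → Prop} (h : ∀ i, Dio (R i)) :
    Dio fun x => ∃ i, R i x := by
  have := Fintype.ofFinite ι
  exact (exists_mem Finset.univ fun i _ => h i).congr fun _ => by simp

/-- equations in a finite-dimensional space -/
theorem eq [Module.Finite ℚ W] {f g : V → W} (hf : PolM f) (hg : PolM g) :
    Dio fun x => f x = g x := by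
  let b := Module.finBasis ℚ W
  refine (forall_fin fun i => zero (PolM.lin (b.coord i) (hf.sub hg))).congr fun x => ?_
  rw [← sub_eq_zero (a := f x)]
  exact ⟨fun h => b.forall_coord_eq_zero_iff.1 h, fun h i => by rw [h, map_zero]⟩

theorem ne_zero {f : V → ℚ} (hf : PolM f) : Dio fun x => f x ≠ 0 :=
  (ex (R := fun x (w : ℚ) => f x * w = 1) (eq (by fun_prop) (by fun_prop))).congr fun x =>
    ⟨fun ⟨w, hw⟩ h => by simp [h] at hw, fun h => ⟨(f x)⁻¹, mul_inv_cancel₀ h⟩⟩

/-- inequations in a finite-dimensional space -/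
theorem ne [Module.Finite ℚ W] {f g : V → W} (hf : PolM f) (hg : PolM g) :
    Dio fun x => f x ≠ g x := by
  let b := Module.finBasis ℚ W
  refine (exists_fin fun i => ne_zero (PolM.lin (b.coord i) (hf.sub hg))).congr fun x => ?_
  rw [Ne, ← sub_eq_zero (a := f x), ← b.forall_coord_eq_zero_iff, not_forall]

theorem rat_four_sq {q : ℚ} (hq : 0 ≤ q) : ∃ w : ℚ × ℚ × ℚ × ℚ,
    q = w.1 ^ 2 + w.2.1 ^ 2 + w.2.2.1 ^ 2 + w.2.2.2 ^ 2 := by
  obtain ⟨a, b, c, d, h⟩ := Nat.sum_four_squares (q.num.toNat * q.den)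
  have h1 : ((q.num.toNat : ℤ) : ℚ) = q.num := by rw [Int.toNat_of_nonneg (Rat.num_nonneg.2 hq)]
  have h2 : (a : ℚ) ^ 2 + b ^ 2 + c ^ 2 + d ^ 2 = q.num * q.den := by
    rw [← h1]; exact_mod_cast h
  have h3 : (q.den : ℚ) ≠ 0 := by exact_mod_cast q.den_nz
  refine ⟨(a / q.den, b / q.den, c / q.den, d / q.den), ?_⟩
  simp only [div_pow, ← add_div, h2]
  rw [eq_div_iff (pow_ne_zero 2 h3), ← Rat.mul_den_eq_num]
  ring

theorem le {f g : V → ℚ} (hf : PolM f) (hg : PolM g) : Dio fun x => f x ≤ g x :=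
  (ex (R := fun x (w : ℚ × ℚ × ℚ × ℚ) =>
    g x - f x = w.1 ^ 2 + w.2.1 ^ 2 + w.2.2.1 ^ 2 + w.2.2.2 ^ 2)
    (eq (by fun_prop) (by fun_prop))).congr fun _ =>
    ⟨fun ⟨_, hw⟩ => sub_nonneg.1 (hw ▸ by positivity), fun h => rat_four_sq (sub_nonneg.2 h)⟩

theorem lt {f g : V → ℚ} (hf : PolM f) (hg : PolM g) : Dio fun x => f x < g x :=
  ((le hf hg).and (ne hf hg)).congr fun _ => lt_iff_le_and_ne.symm


/-- substitution of an inverse (with the convention `0⁻¹ = 0`) -/
theorem inv {F : Type*} [Field F] [Algebra ℚ F] [Module.Finite ℚ F] {R : V → F → Prop}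
    (h : Dio fun p : V × F => R p.1 p.2) {f : V → F} (hf : PolM f) : Dio fun x => R x (f x)⁻¹ := by
  refine (ex (R := fun x (w : F) => (f x * w = 1 ∨ (f x = 0 ∧ w = 0)) ∧ R x w)
    (((eq (by fun_prop) (by fun_prop)).or ((eq (by fun_prop) (by fun_prop)).and
      (eq (by fun_prop) (by fun_prop)))).and h)).congr fun x => ⟨?_, fun hx => ⟨_, ?_, hx⟩⟩
  · rintro ⟨w, h1 | ⟨h1, h2⟩, hw⟩
    · rwa [← eq_inv_of_mul_eq_one_right h1]
    · rwa [h1, inv_zero, ← h2]
  · by_cases h0 : f x = 0
    · exact Or.inr ⟨h0, by rw [h0, inv_zero]⟩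
    · exact Or.inl (mul_inv_cancel₀ h0)

end Dio

/-- a map whose graph is Diophantine -/
def DioF (f : V → W) : Prop := Dio fun p : V × W => f p.1 = p.2

theorem PolM.dioF [Module.Finite ℚ W] {f : V → W} (h : PolM f) : DioF f :=
  Dio.eq (by fun_prop) (by fun_prop)

theorem Dio.compF [Module.Finite ℚ W] {S : W → Prop} (h : Dio S) {g : V → W} (hg : DioF g) :
    Dio fun x => S (g x) :=
  (Dio.ex (R := fun x w => g x = w ∧ S w) (Dio.and hg (h.comp (by fun_prop)))).congr fun _ => by simp


end Crest.Agent.T15
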