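import Crest.Agent.T15.FlR_23
import Crest.Agent.T15.FlL_80

-- ▼ part T15/FlF_23
section

/-!
# Row 15, block Fl: Fontaine's ramification bound for flat modules killed by `3` (helper23)
-/

set_option autoImplicit false

noncomputable section

namespace Crest.Agent.T15.FlR

open scoped NNReal
open Polynomial

variable {Ω : Type*} [Field Ω] (w : Valuation Ω ℝ≥0)

/-- a polynomial with `Y(0) = 0` and `(1+Y)^3 ≡ 1` modulo `d`, `|d| < |3|^{3/2}`, is small -/
theorem small_of_cube (hw3 : w 3 < 1) (Y H : (w.valuationSubring)[X]) (d : w.valuationSubring)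
    (hY0 : Y.eval 0 = 0) (hY : Y ^ 3 + 3 * Y ^ 2 + 3 * Y = C d * H) (hd : w d ^ 2 < w 3 ^ 3) :
    w (Y.eval 1 : w.valuationSubring) ^ 2 < w 3 := by
  have hI := Valuation.valuationSubring.integers w
  have h30 : 0 < w 3 := by
    rcases eq_or_ne (w 3) 0 with h | h
    · rw [h] at hd; simp at hd
    · exact pos_iff_ne_zero.mpr h
  by_cases hY0' : Y = 0
  · simpa [hY0'] using h30
  obtain ⟨i, hi, hmax⟩ := Y.support.exists_max_image (fun i => w (Y.coeff i : w.valuationSubring))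
    (support_nonempty.mpr hY0')
  obtain ⟨c, hc⟩ : ∃ c, c = Y.coeff i := ⟨_, rfl⟩
  have hc0 : c ≠ 0 := hc ▸ mem_support_iff.mp hi
  have hdvd : C c ∣ Y := by
    rw [C_dvd_iff_dvd_coeff]
    intro j
    by_cases hj : j ∈ Y.support
    · exact hI.dvd_of_le (by rw [hc]; exact hmax j hj)
    · rw [notMem_support_iff.mp hj]; exact dvd_zero _
  obtain ⟨Z, hZ⟩ := hdvd
  have hZi : Z.coeff i = 1 := by
    have := congrArg (fun p => p.coeff i) hZ
    simp only [coeff_C_mul] at this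
    rw [← hc] at this
    exact (mul_left_cancel₀ hc0 (this.symm.trans (mul_one c).symm))
  have hZ0 : Z.eval 0 = 0 := by
    rw [hZ, eval_mul, eval_C] at hY0
    exact (mul_eq_zero.mp hY0).resolve_left hc0
  have hle : ∀ x : w.valuationSubring, w x ≤ 1 := fun x => x.2
  by_cases hcase : w c ^ 2 < w 3
  · rw [hZ, eval_mul, eval_C]
    push_cast
    rw [map_mul, mul_pow]
    exact lt_of_le_of_lt (mul_le_of_le_one_right' (pow_le_one₀ zero_le (hle _))) hcase
  exfalso
  push Not at hcase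
  have h3 : ((3 : w.valuationSubring) : Ω) = 3 := rfl
  obtain ⟨u, hu⟩ : c ^ 2 ∣ 3 := hI.dvd_of_le (by
    change w ((3 : w.valuationSubring) : Ω) ≤ w ((c ^ 2 : w.valuationSubring) : Ω)
    rw [h3]; push_cast; rw [map_pow]; exact hcase)
  have hdc : w d < w c ^ 3 := by
    refine lt_of_pow_lt_pow_left₀ 2 zero_le (hd.trans_le ?_)
    calc w 3 ^ 3 ≤ (w c ^ 2) ^ 3 := pow_le_pow_left' hcase 3
      _ = (w c ^ 3) ^ 2 := by ring
  obtain ⟨e, he⟩ : c ^ 3 ∣ d := hI.dvd_of_le (by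
    change w (d : Ω) ≤ w ((c ^ 3 : w.valuationSubring) : Ω)
    push_cast; rw [map_pow]; exact hdc.le)
  have hwc : 0 < w c := by
    rw [pos_iff_ne_zero, Valuation.ne_zero_iff]; exact_mod_cast hc0
  have he1 : w e < 1 := by
    have h1 : w d = w c ^ 3 * w e := by rw [he]; push_cast; rw [map_mul, map_pow]
    rw [h1] at hdc
    exact (mul_lt_iff_lt_one_right (pow_pos hwc 3)).mp hdc
  have hcu : w ((c * u : w.valuationSubring) : Ω) < 1 := by
    have h1 : w 3 = w c ^ 2 * w u := by rw [← h3, hu]; push_cast; rw [map_mul, map_pow]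
    refine lt_of_pow_lt_pow_left₀ 2 zero_le ?_
    push_cast
    rw [map_mul, one_pow]
    calc (w c * w u) ^ 2 = w 3 * w u := by rw [h1]; ring
      _ ≤ w 3 := mul_le_of_le_one_right' (hle u)
      _ < 1 := hw3
  have hE : Z ^ 3 + C (c * u) * Z ^ 2 + C u * Z = C e * H := by
    have h33 : (3 : (w.valuationSubring)[X]) = C c ^ 2 * C u := by
      rw [← C_pow, ← C_mul, ← hu]; rfl
    apply mul_left_cancel₀ (a := C c ^ 3) (pow_ne_zero _ (by simpa using hc0))
    rw [hZ, h33, he] at hY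
    rw [C_mul, C_pow] at hY
    rw [C_mul]
    linear_combination hY
  let r := IsLocalRing.residue w.valuationSubring
  have hr : ∀ x : w.valuationSubring, w x < 1 → r x = 0 := fun x hx =>
    (IsLocalRing.residue_eq_zero_iff _).mpr ((Valuation.mem_maximalIdeal_iff _ w).mpr hx)
  have hE' := congrArg (Polynomial.map r) hE
  simp only [Polynomial.map_add, Polynomial.map_mul, Polynomial.map_pow, map_C, hr _ hcu, hr _ he1,
    C_0, zero_mul, add_zero] at hE'
  obtain ⟨Zb, hZb⟩ : ∃ Zb, Zb = Z.map r := ⟨_, rfl⟩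
  rw [← hZb] at hE'
  have hZb0 : Zb ≠ 0 := by
    intro h0
    have := congrArg (fun p => p.coeff i) (hZb.symm.trans h0)
    simp [hZi] at this
  have h2 : Zb ^ 2 = C (-r u) := by
    apply mul_left_cancel₀ hZb0
    rw [C_neg]
    linear_combination hE'
  have h4 : Zb.natDegree = 0 := by
    have := congrArg natDegree h2
    rw [natDegree_pow, natDegree_C] at this
    omega
  apply hZb0
  rw [eq_C_of_natDegree_eq_zero h4, coeff_zero_eq_eval_zero, hZb, eval_zero_map, hZ0]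
  simp

/-- the core of Fontaine's bound: a polynomial whose values on `T` are cube roots of unity -/
theorem font_core (hw3 : w 3 < 1) (T S : Finset w.valuationSubring) (hST : S ⊆ T)
    (q : (w.valuationSubring)[X]) (hq : ∀ y ∈ T, q.eval y ^ 3 = 1) (a b : w.valuationSubring)
    (ha : a ∈ T) (hb : b ∈ T) (hS : ∀ y ∈ S, w ((b - a : w.valuationSubring) : Ω) ≤
      w ((a - y : w.valuationSubring) : Ω))
    (hd : (∏ y ∈ S, w ((a - y : w.valuationSubring) : Ω)) ^ 2 < w 3 ^ 3) : q.eval b = q.eval a := by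
  classical
  have hI := Valuation.valuationSubring.integers w
  obtain ⟨f, hf⟩ : ∃ f : (w.valuationSubring)[X], f = ∏ y ∈ T, (X - C y) := ⟨_, rfl⟩
  have hfm : f.Monic := hf ▸ monic_prod_of_monic _ _ fun y _ => monic_X_sub_C y
  have hfd : f.degree = T.card := by
    rw [hf, degree_prod]; simp
  have hdiv : f ∣ q ^ 3 - 1 := by
    rw [← modByMonic_eq_zero_iff_dvd hfm]
    refine eq_zero_of_degree_lt_of_eval_finset_eq_zero T (hfd ▸ degree_modByMonic_lt _ hfm) ?_
    intro y hy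
    have h1 := congrArg (eval y) (modByMonic_add_div (q ^ 3 - 1) f)
    have h2 : f.eval y = 0 := by
      rw [hf, eval_prod]
      exact Finset.prod_eq_zero hy (by simp)
    simpa [h2, hq y hy] using h1
  obtain ⟨ℓ, hℓ⟩ : ∃ ℓ : (w.valuationSubring)[X], ℓ = C a + C (b - a) * X := ⟨_, rfl⟩
  have hdiv2 : C (∏ y ∈ S, (a - y)) ∣ f.comp ℓ := by
    rw [hf, Polynomial.prod_comp, map_prod]
    refine (Finset.prod_dvd_prod_of_dvd _ _ fun y hy => ?_).trans
      (Finset.prod_dvd_prod_of_subset _ _ _ hST)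
    obtain ⟨e, he⟩ : a - y ∣ b - a := hI.dvd_of_le (hS y hy)
    refine ⟨1 + C e * X, ?_⟩
    rw [sub_comp, X_comp, C_comp, hℓ, he, C_mul, C_sub]
    ring
  obtain ⟨h, hh⟩ := hdiv
  obtain ⟨H, hH⟩ := hdiv2
  obtain ⟨Q, hQ⟩ : ∃ Q, Q = q.comp ℓ := ⟨_, rfl⟩
  have hQ3 : Q ^ 3 - 1 = C (∏ y ∈ S, (a - y)) * (H * h.comp ℓ) := by
    have := congrArg (fun p => p.comp ℓ) hh
    simp only [sub_comp, pow_comp, one_comp, mul_comp] at this
    rw [hQ, this, hH, mul_assoc]
  have hQ0 : Q.eval 0 = q.eval a := by rw [hQ, eval_comp, hℓ]; simp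
  have hQ1 : Q.eval 1 = q.eval b := by rw [hQ, eval_comp, hℓ]; simp
  obtain ⟨s, hs⟩ : ∃ s, s = q.eval a := ⟨_, rfl⟩
  obtain ⟨t, ht⟩ : ∃ t, t = q.eval b := ⟨_, rfl⟩
  have hs3 : s ^ 3 = 1 := hs ▸ hq a ha
  have ht3 : t ^ 3 = 1 := ht ▸ hq b hb
  have hC : (C s) ^ 3 = (1 : (w.valuationSubring)[X]) := by rw [← C_pow, hs3, C_1]
  have key := small_of_cube w hw3 (Q * C s ^ 2 - 1) (H * h.comp ℓ) (∏ y ∈ S, (a - y))
    (by simp only [eval_sub, eval_mul, eval_pow, eval_C, eval_one, hQ0, ← hs]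
        linear_combination hs3)
    (by rw [← hQ3]; linear_combination (Q ^ 3 * (C s ^ 3 + 1)) * hC)
    (by push_cast; rw [map_prod]; simpa using hd)
  simp only [eval_sub, eval_mul, eval_pow, eval_C, eval_one, hQ1, ← ht] at key
  rw [← hs, ← ht]
  obtain ⟨y, hy⟩ : ∃ y, y = t * s ^ 2 - 1 := ⟨_, rfl⟩
  rw [← hy] at key
  have hy3 : y * (y ^ 2 + 3 * (1 + y)) = 0 := by
    rw [hy]; linear_combination (s ^ 6) * ht3 + (s ^ 3 + 1) * hs3
  rcases mul_eq_zero.mp hy3 with h0 | h0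
  · rw [hy] at h0
    linear_combination s * h0 - t * hs3
  · exfalso
    have h1 : (1 + y) ^ 3 = 1 := by rw [hy]; linear_combination (s ^ 6) * ht3 + (s ^ 3 + 1) * hs3
    have h2 : w ((1 + y : w.valuationSubring) : Ω) = 1 := by
      have := congrArg (fun x : w.valuationSubring => w (x : Ω)) h1
      simp only [SubmonoidClass.coe_pow, map_pow, OneMemClass.coe_one, map_one] at this
      exact (pow_eq_one_iff_of_nonneg zero_le (by norm_num)).mp this
    have h4 : y ^ 2 = -(3 * (1 + y)) := by linear_combination h0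
    have h5 := congrArg (fun x : w.valuationSubring => w (x : Ω)) h4
    have h3 : ((3 : w.valuationSubring) : Ω) = 3 := rfl
    simp only [SubmonoidClass.coe_pow, map_pow, NegMemClass.coe_neg, Valuation.map_neg,
      MulMemClass.coe_mul, map_mul, h2, h3, mul_one] at h5
    exact key.ne h5

variable (G : Type*) [Group G] [MulSemiringAction G Ω]

/-- monogenicity: finitely many integers are simultaneously integral polynomials in one integer `α`,
equivariantly (true for `G = Gal(Ω/F)`, `F` discretely valued with the residue field of `Ω`) -/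
def Mono : Prop := ∀ A : Finset Ω, (∀ a ∈ A, w a ≤ 1) → ∃ α : Ω, w α ≤ 1 ∧
  (Set.range fun g : G => g • α).Finite ∧
  ∀ a ∈ A, ∃ p : Polynomial Ω, (∀ i, w (p.coeff i) ≤ 1) ∧ ∀ g : G, g • a = p.eval (g • α)

variable {w G}

theorem exists_poly (hM : Mono w G) {ι : Type*} [Finite ι] (F : ι → G → Ω) (hF : ∀ i, F i ∈ RR w G) :
    ∃ α : Ω, w α ≤ 1 ∧ (Set.range fun g : G => g • α).Finite ∧
      ∀ i, ∃ q : (w.valuationSubring)[X], ∀ g : G,
        F i g = (q.map w.valuationSubring.subtype).eval (g • α) := by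
  classical
  have key : ∀ F ∈ RR w G, ∃ A : Finset Ω, (∀ a ∈ A, w a ≤ 1) ∧ ∀ α : Ω,
      (∀ a ∈ A, ∃ p : Polynomial Ω, (∀ i, w (p.coeff i) ≤ 1) ∧ ∀ g : G, g • a = p.eval (g • α)) →
      ∃ q : (w.valuationSubring)[X], ∀ g : G,
        F g = (q.map w.valuationSubring.subtype).eval (g • α) := by
    intro F hF
    induction hF using Subring.closure_induction with
    | mem x hx =>
      rcases hx with ⟨c, hc, rfl⟩ | ⟨a, ha, rfl⟩
      · exact ⟨∅, by simp, fun α _ => ⟨C ⟨c, hc⟩, fun g => by simp⟩⟩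
      · refine ⟨{a}, by simpa using ha, fun α h => ?_⟩
        obtain ⟨p, hp, hpg⟩ := h a (by simp)
        obtain ⟨q, rfl⟩ : p ∈ lifts w.valuationSubring.subtype :=
          (lifts_iff_coeff_lifts p).mpr fun i => ⟨⟨p.coeff i, hp i⟩, rfl⟩
        exact ⟨q, hpg⟩
    | zero => exact ⟨∅, by simp, fun α _ => ⟨0, fun g => by simp⟩⟩
    | one => exact ⟨∅, by simp, fun α _ => ⟨1, fun g => by simp⟩⟩
    | add x y _ _ hx hy =>
      obtain ⟨A, hA, hA'⟩ := hx
      obtain ⟨B, hB, hB'⟩ := hy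
      refine ⟨A ∪ B, fun a ha => (Finset.mem_union.mp ha).elim (hA a) (hB a), fun α h => ?_⟩
      obtain ⟨p, hp⟩ := hA' α fun a ha => h a (Finset.mem_union_left _ ha)
      obtain ⟨q, hq⟩ := hB' α fun a ha => h a (Finset.mem_union_right _ ha)
      exact ⟨p + q, fun g => by simp [hp, hq]⟩
    | neg x _ hx =>
      obtain ⟨A, hA, hA'⟩ := hx
      refine ⟨A, hA, fun α h => ?_⟩
      obtain ⟨p, hp⟩ := hA' α h
      exact ⟨-p, fun g => by simp [hp]⟩
    | mul x y _ _ hx hy =>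
      obtain ⟨A, hA, hA'⟩ := hx
      obtain ⟨B, hB, hB'⟩ := hy
      refine ⟨A ∪ B, fun a ha => (Finset.mem_union.mp ha).elim (hA a) (hB a), fun α h => ?_⟩
      obtain ⟨p, hp⟩ := hA' α fun a ha => h a (Finset.mem_union_left _ ha)
      obtain ⟨q, hq⟩ := hB' α fun a ha => h a (Finset.mem_union_right _ ha)
      exact ⟨p * q, fun g => by simp [hp, hq]⟩
  have := Fintype.ofFinite ι
  choose A hA hA' using fun i => key (F i) (hF i)
  obtain ⟨α, h1, h2, h3⟩ := hM (Finset.univ.biUnion A) (fun a ha => by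
    obtain ⟨i, -, hi⟩ := Finset.mem_biUnion.mp ha
    exact hA i a hi)
  exact ⟨α, h1, h2, fun i => hA' i α fun a ha =>
    h3 a (Finset.mem_biUnion.mpr ⟨i, Finset.mem_univ _, ha⟩)⟩

theorem coeff_prod_le {T : Finset Ω} (hT : ∀ y ∈ T, w y ≤ 1) (i : ℕ) :
    w ((∏ y ∈ T, (X - C y)).coeff i) ≤ 1 := by
  have : (∏ y ∈ T, (X - C y)) ∈ lifts w.valuationSubring.subtype := by
    refine Subsemiring.prod_mem _ fun y hy => ⟨X - C ⟨y, hT y hy⟩, by simp⟩
  obtain ⟨q, hq⟩ := this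
  rw [← hq]
  rw [coe_mapRingHom, coeff_map]
  exact (q.coeff i).2

/-- the contribution of one coset to the different -/
theorem coset_le [DecidableEq Ω] (hinv : ∀ (g : G) (x : Ω), w (g • x) = w x) (N : Subgroup G) (α : Ω)
    (hα : w α ≤ 1) (T : Finset Ω) (hT : ∀ y, y ∈ T ↔ ∃ n ∈ N, n • α = y) (γ : G) (β : ℝ≥0)
    (hβ : ∀ c, w c ≤ 1 → (∀ n ∈ N, n • c = c) → w (γ • c - c) ≤ β) :
    ∏ y ∈ T.image (γ • ·), w (α - y) ≤ β := by
  obtain ⟨P, hP⟩ : ∃ P : Polynomial Ω, P = ∏ y ∈ T, (X - C y) := ⟨_, rfl⟩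
  have hsm : ∀ g : G, g • P = ∏ y ∈ T.image (g • ·), (X - C y) := by
    intro g
    rw [hP, Finset.smul_prod', Finset.prod_image fun x _ y _ h => MulAction.injective g h]
    simp [smul_sub]
  have hN : ∀ n ∈ N, n • P = P := by
    intro n hn
    rw [hsm, hP]
    congr 1
    ext y
    simp only [Finset.mem_image, hT]
    constructor
    · rintro ⟨_, ⟨m, hm, rfl⟩, rfl⟩
      exact ⟨n * m, N.mul_mem hn hm, mul_smul _ _ _⟩
    · rintro ⟨m, hm, rfl⟩
      exact ⟨_, ⟨n⁻¹ * m, N.mul_mem (N.inv_mem hn) hm, rfl⟩, by rw [smul_smul]; simp⟩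
  have hc : ∀ i, w ((γ • P - P).coeff i) ≤ β := by
    intro i
    rw [coeff_sub, coeff_smul]
    refine hβ _ ?_ fun n hn => by rw [← coeff_smul, hN n hn]
    rw [hP]
    exact coeff_prod_le (fun y hy => by
      obtain ⟨n, -, rfl⟩ := (hT y).mp hy
      rwa [hinv]) i
  have h0 : P.eval α = 0 := by
    rw [hP, eval_prod]
    exact Finset.prod_eq_zero ((hT α).mpr ⟨1, N.one_mem, one_smul _ _⟩) (by simp)
  have h1 : ∏ y ∈ T.image (γ • ·), (α - y) = (γ • P - P).eval α := by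
    rw [eval_sub, h0, sub_zero, hsm, eval_prod]; simp
  rw [← map_prod, h1, eval_eq_sum_range]
  refine w.map_sum_le fun i _ => ?_
  rw [map_mul, map_pow]
  exact (mul_le_of_le_one_right' (pow_le_one₀ zero_le hα)).trans (hc i)

variable {V : Type*} [AddCommGroup V]

/-- **Fontaine's bound.**  `V` flat and killed by `3`, `N` a subgroup containing the kernel of the action,
`γ i` representatives of distinct non-trivial cosets of `N` that move the `N`-invariant integers by at most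
`β i`: then `∏ β i ≥ |3|^{3/2}`. -/
theorem font [IsAlgClosed Ω] [CharZero Ω] [Finite V] (hw3 : w 3 < 1)
    (hinv : ∀ (g : G) (x : Ω), w (g • x) = w x) (hM : Mono w G) {ρ : G → V → V} (hF : Flat w G ρ)
    (h3 : ∀ v : V, 3 • v = 0) (N : Subgroup G)
    (hker : ∀ g g', (∀ v, ρ g v = ρ g' v) → g⁻¹ * g' ∈ N) {ι : Type*} [Fintype ι] (γ : ι → G)
    (hγ : ∀ i, γ i ∉ N) (hγ' : ∀ i j, (γ i)⁻¹ * γ j ∈ N → i = j) (β : ι → ℝ≥0)
    (hβ : ∀ i c, w c ≤ 1 → (∀ n ∈ N, n • c = c) → w (γ i • c - c) ≤ β i) :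
    w 3 ^ 3 ≤ (∏ i, β i) ^ 2 := by
  classical
  rcases isEmpty_or_nonempty ι with hι | ⟨⟨i0⟩⟩
  · simpa using pow_le_one₀ zero_le hw3.le
  by_contra hcon
  push Not at hcon
  have hch : ∀ u : V, ∃ χ : AddChar V Ω, u ≠ 0 → χ u ≠ 1 := fun u => by
    by_cases hu : u = 0
    · exact ⟨1, fun h => absurd hu h⟩
    · obtain ⟨χ, h⟩ := exists_char (Ω := Ω) hu
      exact ⟨χ, fun _ => h⟩
  choose χ hχ using hch
  obtain ⟨α, hα, hfin, hq⟩ := exists_poly hM (fun (x : V × V) g => χ x.1 (ρ g x.2))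
    (fun x => hF x.2 (χ x.1))
  choose q hq using hq
  have hsep : ∀ g g' : G, (∀ x, ((q x).map w.valuationSubring.subtype).eval (g • α) =
      ((q x).map w.valuationSubring.subtype).eval (g' • α)) → g⁻¹ * g' ∈ N := by
    intro g g' h
    refine hker g g' fun v => ?_
    by_contra hne
    apply hχ _ (sub_ne_zero.mpr hne)
    have := h (ρ g v - ρ g' v, v)
    rw [← hq, ← hq] at this
    rw [AddChar.map_sub_eq_div, this]
    exact div_self (AddChar.val_isUnit _ _).ne_zero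
  have hsep' : ∀ g g' : G, g • α = g' • α → g⁻¹ * g' ∈ N := fun g g' h =>
    hsep g g' fun x => by rw [h]
  have hfinN : {y | ∃ n ∈ N, n • α = y}.Finite := hfin.subset (by rintro _ ⟨n, -, rfl⟩; exact ⟨n, rfl⟩)
  have hfinS : {y | ∃ g ∉ N, g • α = y}.Finite := hfin.subset (by rintro _ ⟨n, -, rfl⟩; exact ⟨n, rfl⟩)
  have hle : ∀ g : G, w (g • α) ≤ 1 := fun g => by rwa [hinv]
  -- the product over the non-trivial cosets
  have hprod : ∏ y ∈ hfinS.toFinset, w (α - y) ≤ ∏ i, β i := by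
    have hdisj : ((Finset.univ : Finset ι) : Set ι).PairwiseDisjoint
        fun i => hfinN.toFinset.image (γ i • ·) := by
      intro i _ j _ hij
      rw [Function.onFun, Finset.disjoint_left]
      intro y hi hj
      simp only [Finset.mem_image, Set.Finite.mem_toFinset, Set.mem_ofPred_eq] at hi hj
      obtain ⟨_, ⟨n, hn, rfl⟩, rfl⟩ := hi
      obtain ⟨_, ⟨m, hm, rfl⟩, h⟩ := hj
      rw [smul_smul, smul_smul] at h
      have := hsep' _ _ h.symm
      apply hij (hγ' i j _)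
      have h2 := N.mul_mem (N.mul_mem hn this) (N.inv_mem hm)
      simpa [mul_assoc] using h2
    calc ∏ y ∈ hfinS.toFinset, w (α - y)
        ≤ ∏ y ∈ Finset.univ.biUnion fun i => hfinN.toFinset.image (γ i • ·), w (α - y) := by
          refine Finset.prod_le_prod_of_subset_of_le_one' ?_ fun y hy _ => ?_
          · intro y hy
            simp only [Finset.mem_biUnion, Finset.mem_image, Set.Finite.mem_toFinset,
              Set.mem_ofPred_eq] at hy ⊢
            obtain ⟨i, -, _, ⟨n, hn, rfl⟩, rfl⟩ := hy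
            exact ⟨γ i * n, fun h => hγ i (by simpa using N.mul_mem h (N.inv_mem hn)), mul_smul _ _ _⟩
          · obtain ⟨g, -, rfl⟩ := hfinS.mem_toFinset.mp hy
            exact (w.map_sub _ _).trans (max_le hα (hle g))
      _ = ∏ i, ∏ y ∈ hfinN.toFinset.image (γ i • ·), w (α - y) := Finset.prod_biUnion hdisj
      _ ≤ ∏ i, β i := Finset.prod_le_prod' fun i _ =>
          coset_le hinv N α hα _ (fun y => hfinN.mem_toFinset) (γ i) (β i) (hβ i)
  obtain ⟨b, hb, hmin⟩ := hfinS.toFinset.exists_min_image (fun y => w (α - y))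
    ⟨γ i0 • α, hfinS.mem_toFinset.mpr ⟨_, hγ i0, rfl⟩⟩
  obtain ⟨g0, hg0, rfl⟩ := hfinS.mem_toFinset.mp hb
  apply hg0
  have hinj : Function.Injective w.valuationSubring.subtype := Subtype.val_injective
  let T := hfin.toFinset.preimage w.valuationSubring.subtype hinj.injOn
  let S := hfinS.toFinset.preimage w.valuationSubring.subtype hinj.injOn
  suffices h : (1 : G)⁻¹ * g0 ∈ N by simpa using h
  refine hsep 1 g0 fun x => ?_
  have key := font_core w hw3 T S ?_ (q x) ?_ ⟨α, hα⟩ ⟨g0 • α, hle g0⟩ ?_ ?_ ?_ ?_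
  · have := congrArg w.valuationSubring.subtype key
    rw [← eval_map_apply, ← eval_map_apply] at this
    rw [one_smul]
    exact this.symm
  · intro y hy
    simp only [T, S, Finset.mem_preimage, Set.Finite.mem_toFinset] at hy ⊢
    obtain ⟨g, -, h⟩ := hy
    exact ⟨g, h⟩
  · intro y hy
    simp only [T, Finset.mem_preimage, Set.Finite.mem_toFinset] at hy
    obtain ⟨g, h⟩ := hy
    apply hinj
    rw [map_pow, ← eval_map_apply, ← h, map_one]
    change ((q x).map w.valuationSubring.subtype).eval (g • α) ^ 3 = 1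
    rw [← hq, ← AddChar.map_nsmul_eq_pow, h3, AddChar.map_zero_eq_one]
  · simp only [T, Finset.mem_preimage, Set.Finite.mem_toFinset]
    exact ⟨1, one_smul _ _⟩
  · simp only [T, Finset.mem_preimage, Set.Finite.mem_toFinset]
    exact ⟨g0, rfl⟩
  · intro y hy
    simp only [S, Finset.mem_preimage] at hy
    have := hmin _ hy
    rw [w.map_sub_swap] at this
    exact this
  · refine lt_of_le_of_lt (pow_le_pow_left' (le_trans (le_of_eq ?_) hprod) 2) hcon
    refine Finset.prod_preimage w.valuationSubring.subtype _ hinj.injOn (fun y => w (α - y))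
      fun y hy hy' => ?_
    obtain ⟨g, -, rfl⟩ := hfinS.mem_toFinset.mp hy
    exact absurd ⟨⟨_, hle g⟩, rfl⟩ hy'

end Crest.Agent.T15.FlR
end
end

-- ▼ part T15/FlK_23
section

/-!
# Row 15, block Fl: Kummer classes of flat modules have level at least `5` (helper23)
-/

set_option autoImplicit false

noncomputable section

namespace Crest.Agent.T15.FlR

open scoped NNReal

variable {Ω : Type*} [Field Ω] {w : Valuation Ω ℝ≥0} {G : Type*} [Group G] [MulSemiringAction G Ω]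

/-- the norm from the fixed field of a subgroup of finite index -/
theorem pow_index (hinv : ∀ (g : G) (x : Ω), w (g • x) = w x)
    (hdisc : ∀ a : Ω, a ≠ 0 → (∀ g : G, g • a = a) → ∃ n : ℤ, w a = w 3 ^ n) (H : Subgroup G)
    (hH : H.index ≠ 0) (c : Ω) (hc0 : c ≠ 0) (hc : ∀ h ∈ H, h • c = c) :
    ∃ n : ℤ, w c ^ H.index = w 3 ^ n := by
  classical
  have : Finite (G ⧸ H) := Subgroup.index_ne_zero_iff_finite.mp hH
  have := Fintype.ofFinite (G ⧸ H)
  have hout : ∀ (g : G) (q : G ⧸ H), (g • q).out • c = g • q.out • c := by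
    intro g q
    obtain ⟨h, hh⟩ := QuotientGroup.mk_out_eq_mul H (g * q.out)
    have h1 : g • q = ((g * q.out : G) : G ⧸ H) := by
      conv_lhs => rw [← QuotientGroup.out_eq' q]
      rfl
    rw [h1, hh, mul_smul, mul_smul, hc h h.2]
  obtain ⟨n, hn⟩ := hdisc (∏ q : G ⧸ H, q.out • c)
    (Finset.prod_ne_zero_iff.mpr fun q _ => (smul_ne_zero_iff_ne _).mpr hc0) (fun g => by
      rw [Finset.smul_prod']
      exact Fintype.prod_bijective _ (MulAction.bijective g) _ _ fun q => (hout g q).symm)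
  refine ⟨n, ?_⟩
  rw [← hn, map_prod]
  simp [hinv, Subgroup.index, Nat.card_eq_fintype_card]

theorem index_stab_le {H : Type*} [Group H] [MulAction H Ω] (x a : Ω) (n : ℕ) (hn : 0 < n)
    (h : ∀ g : H, (g • x) ^ n = a) :
    (MulAction.stabilizer H x).index ≠ 0 ∧ (MulAction.stabilizer H x).index ≤ n := by
  classical
  rw [MulAction.index_stabilizer]
  have hsub : MulAction.orbit H x ⊆ ↑((Polynomial.nthRoots n a).toFinset) := by
    rintro _ ⟨g, rfl⟩
    simpa [Polynomial.mem_nthRoots hn] using h g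
  have hfin : (MulAction.orbit H x).Finite := (Finset.finite_toSet _).subset hsub
  refine ⟨Set.ncard_ne_zero_of_mem (MulAction.mem_orbit_self x) hfin, ?_⟩
  refine (Set.ncard_le_ncard hsub (Finset.finite_toSet _)).trans ?_
  rw [Set.ncard_coe_finset]
  exact (Multiset.toFinset_card_le _).trans (Polynomial.card_nthRoots n a)

theorem cube_close {x y : Ω} (hx : w x = 1) (h : y ^ 3 = x ^ 3) : w (y - x) ^ 2 ≤ w 3 := by
  have hy : w y = 1 := by
    have := congrArg w h
    rw [map_pow, map_pow, hx, one_pow] at this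
    exact (pow_eq_one_iff_of_nonneg zero_le (by norm_num)).mp this
  have h1 : (y - x) * ((y - x) ^ 2 + 3 * (x * y)) = 0 := by linear_combination h
  rcases mul_eq_zero.mp h1 with h0 | h0
  · simp [h0]
  · have h2 : (y - x) ^ 2 = -(3 * (x * y)) := by linear_combination h0
    rw [← map_pow, h2, Valuation.map_neg, map_mul, map_mul, hx, hy]; simp

theorem le_of_three {a b c : Ω} (hab : a ≠ 0 → b ≠ 0 → w a ≠ w b) (hac : a ≠ 0 → c ≠ 0 → w a ≠ w c)
    (hbc : b ≠ 0 → c ≠ 0 → w b ≠ w c) : w b ≤ w (a + b + c) := by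
  by_cases hb : b = 0
  · simp [hb]
  by_contra hcon
  push Not at hcon
  have hb' : 0 < w b := pos_iff_ne_zero.mpr ((Valuation.ne_zero_iff w).mpr hb)
  have h1 : w (a + c) = w b := by
    have : a + c = (a + b + c) - b := by ring
    rw [this, Valuation.map_sub_eq_of_lt_right _ hcon]
  by_cases ha : a = 0
  · by_cases hc : c = 0
    · simp [ha, hc] at h1; exact hb'.ne h1
    · exact hbc hb hc (by simpa [ha] using h1.symm)
  by_cases hc : c = 0
  · exact hab ha hb (by simpa [hc] using h1)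
  rcases lt_or_gt_of_ne (hac ha hc) with h | h
  · rw [Valuation.map_add_eq_of_lt_right _ h] at h1
    exact hbc hb hc h1.symm
  · rw [Valuation.map_add_eq_of_lt_left _ h] at h1
    exact hab ha hb h1

/-- resolvents: an element fixed by `N ⊓ Stab x` is a quadratic polynomial in `x` over the fixed field
of `N` -/
theorem exists_quad [CharZero Ω] (N : Subgroup G) (x ζ : Ω) (hx0 : x ≠ 0) (hζ : ζ ^ 2 + ζ + 1 = 0)
    (hζN : ∀ n ∈ N, n • ζ = ζ) (hx3 : ∀ n ∈ N, (n • x) ^ 3 = x ^ 3) (s : G) (hs : s ∈ N)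
    (hsx : s • x = ζ * x) (c : Ω) (hc : ∀ n ∈ N, n • x = x → n • c = c) :
    ∃ a0 a1 a2 : Ω, (∀ n ∈ N, n • a0 = a0) ∧ (∀ n ∈ N, n • a1 = a1) ∧ (∀ n ∈ N, n • a2 = a2) ∧
      c = a0 + a1 * x + a2 * x ^ 2 := by
  have hζ3 : ζ ^ 3 = 1 := by linear_combination (ζ - 1) * hζ
  have hζ0 : ζ ≠ 0 := by rintro rfl; simp at hζ
  have hsζ := hζN s hs
  have hs2 : (s * s) • x = ζ ^ 2 * x := by rw [mul_smul, hsx, smul_mul', hsζ, hsx]; ring
  have hs3 : s • s • s • c = c := by
    rw [smul_smul, smul_smul]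
    refine hc _ (N.mul_mem (N.mul_mem hs hs) hs) ?_
    rw [mul_assoc, mul_smul, hs2, smul_mul', smul_pow', hsζ, hsx]
    linear_combination x * hζ3
  have hconj : ∀ t ∈ N, ∀ e : Ω, (∀ n ∈ N, n • e = e) → t • x = e * x →
      ∀ n ∈ N, n • x = x → n • t • c = t • c := by
    intro t ht e he htx n hn hnx
    have : (t⁻¹ * n * t) • c = c := by
      refine hc _ (N.mul_mem (N.mul_mem (N.inv_mem ht) hn) ht) ?_
      rw [mul_smul, mul_smul, htx, smul_mul', he n hn, hnx, ← htx, inv_smul_smul]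
    rw [mul_smul, mul_smul, inv_smul_eq_iff] at this
    exact this
  have h1 := hconj s hs ζ hζN hsx
  have h2 : ∀ n ∈ N, n • x = x → n • s • s • c = s • s • c := by
    have := hconj (s * s) (N.mul_mem hs hs) (ζ ^ 2) (fun n hn => by rw [smul_pow', hζN n hn]) hs2
    simpa only [mul_smul] using this
  have hfix : ∀ a : Ω, s • a = a → (∀ n ∈ N, n • x = x → n • a = a) → ∀ n ∈ N, n • a = a := by
    intro a hsa ha n hn
    have h3 : (n • x - x) * (n • x - ζ * x) * (n • x - ζ ^ 2 * x) = 0 := by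
      linear_combination hx3 n hn - (x * (n • x) ^ 2 - x ^ 2 * (n • x) * ζ) * hζ - x ^ 3 * hζ3
    have hgen : ∀ t ∈ N, t • a = a → n • x = t • x → n • a = a := by
      intro t ht hta h
      have := ha (t⁻¹ * n) (N.mul_mem (N.inv_mem ht) hn) (by rw [mul_smul, h, inv_smul_smul])
      rw [mul_smul, inv_smul_eq_iff, hta] at this
      exact this
    rcases mul_eq_zero.mp h3 with h4 | h4
    · rcases mul_eq_zero.mp h4 with h5 | h5
      · exact ha n hn (sub_eq_zero.mp h5)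
      · exact hgen s hs hsa ((sub_eq_zero.mp h5).trans hsx.symm)
    · exact hgen (s * s) (N.mul_mem hs hs) (by rw [mul_smul, hsa, hsa])
        ((sub_eq_zero.mp h4).trans hs2.symm)
  have h3 : ∀ g : G, g • (3 : Ω) = 3 := fun g => map_ofNat (MulSemiringAction.toRingHom G Ω g) 3
  refine ⟨(c + s • c + s • s • c) / 3, (c + ζ ^ 2 * s • c + ζ * s • s • c) / (3 * x),
    (c + ζ * s • c + ζ ^ 2 * s • s • c) / (3 * x ^ 2), hfix _ ?_ ?_, hfix _ ?_ ?_, hfix _ ?_ ?_, ?_⟩
  · simp only [smul_div₀', smul_add, h3, hs3]; ring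
  · intro n hn hnx
    simp only [smul_div₀', smul_add, h3, hc n hn hnx, h1 n hn hnx, h2 n hn hnx]
  · simp only [smul_div₀', smul_add, smul_mul', smul_pow', h3, hs3, hsζ, hsx]
    field_simp
    linear_combination (-(s • c)) * hζ3
  · intro n hn hnx
    simp only [smul_div₀', smul_add, smul_mul', smul_pow', h3, hc n hn hnx, h1 n hn hnx,
      h2 n hn hnx, hζN n hn, hnx]
  · simp only [smul_div₀', smul_add, smul_mul', smul_pow', h3, hs3, hsζ, hsx]
    field_simp
    linear_combination (-(s • c) - ζ * s • s • c) * hζ3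
  · intro n hn hnx
    simp only [smul_div₀', smul_add, smul_mul', smul_pow', h3, hc n hn hnx, h1 n hn hnx,
      h2 n hn hnx, hζN n hn, hnx]
  · field_simp
    linear_combination (-(s • c) - s • s • c) * hζ

variable {V : Type*} [AddCommGroup V]

/-- **Kummer classes inside the field of a flat module killed by `3` have level `≥ 5`** over
`K = F(π)`, `π ^ 8 = -3`. -/
theorem kum [IsAlgClosed Ω] [CharZero Ω] [Finite V] (hw3 : w 3 < 1)
    (hinv : ∀ (g : G) (x : Ω), w (g • x) = w x) (hM : Mono w G)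
    (hdisc : ∀ a : Ω, a ≠ 0 → (∀ g : G, g • a = a) → ∃ n : ℤ, w a = w 3 ^ n)
    (hres : ∀ c : Ω, w c ≤ 1 → ∃ a, (∀ g : G, g • a = a) ∧ w (c - a) < 1)
    {ρ : G → V → V} (hF : Flat w G ρ) (h3 : ∀ v : V, 3 • v = 0) (π x : Ω) (hπ : π ^ 8 = -3)
    (hker : ∀ g g', (∀ v, ρ g v = ρ g' v) → (g⁻¹ * g') • π = π ∧ (g⁻¹ * g') • x = x)
    (hx3 : ∀ g : G, g • π = π → g • x ^ 3 = x ^ 3) (j : ℕ) (hj : j ≤ 4) (hj3 : ¬ 3 ∣ j)
    (hxj : w (x - 1) ^ 24 = w 3 ^ j) : False := by
  classical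
  obtain ⟨s24, hs24⟩ := IsAlgClosed.exists_pow_nat_eq (3 : Ω) (n := 24) (by norm_num)
  obtain ⟨p, hp⟩ : ∃ p, p = w s24 := ⟨_, rfl⟩
  have hp24 : p ^ 24 = w 3 := by rw [hp, ← map_pow, hs24]
  have h30 : w 3 ≠ 0 := (Valuation.ne_zero_iff w).mpr (by norm_num)
  have hp0 : 0 < p := by
    rw [pos_iff_ne_zero]; rintro rfl; exact h30 (by rw [← hp24]; simp)
  have hp1 : p < 1 := by
    by_contra h
    push Not at h
    exact absurd (hp24 ▸ one_le_pow₀ h) (not_le.mpr hw3)
  have hzinj : ∀ a b : ℤ, p ^ a = p ^ b → a = b := fun a b h => zpow_right_injective₀ hp0 hp1.ne h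
  have hroot : ∀ (a : ℝ≥0) (k : ℕ) (n : ℤ), k ≠ 0 → a ^ k = (p ^ n) ^ k → a = p ^ n :=
    fun a k n hk h => (pow_left_inj₀ zero_le zero_le hk).mp h
  have h3g : ∀ g : G, g • (3 : Ω) = 3 := fun g => map_ofNat (MulSemiringAction.toRingHom G Ω g) 3
  have hj0 : 0 < j := Nat.pos_of_ne_zero (by rintro rfl; simp at hj3)
  have hz : w (x - 1) = p ^ (j : ℤ) := hroot _ 24 _ (by norm_num) (by
    rw [hxj, ← hp24, zpow_natCast]; ring)
  have hz1 : w (x - 1) < 1 := by rw [hz, zpow_natCast]; exact pow_lt_one₀ zero_le hp1 hj0.ne'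
  have hz0 : x - 1 ≠ 0 := by
    intro h; rw [h, map_zero] at hz; exact (zpow_pos hp0 _).ne hz
  have hx1 : w x = 1 := by
    have : x = 1 + (x - 1) := by ring
    rw [this]; exact w.map_one_add_of_lt hz1
  have hx0 : x ≠ 0 := by rintro rfl; simp at hx1
  have hπ0 : π ≠ 0 := by rintro rfl; norm_num at hπ
  have hwπ : w π = p ^ (3 : ℤ) := hroot _ 8 _ (by norm_num) (by
    rw [← map_pow, hπ, Valuation.map_neg, ← hp24]; norm_cast; ring)
  obtain ⟨N, hN⟩ : ∃ N, N = MulAction.stabilizer G π := ⟨_, rfl⟩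
  have hNm : ∀ g, g ∈ N ↔ g • π = π := fun g => by rw [hN]; rfl
  obtain ⟨N1, hN1⟩ : ∃ N1, N1 = MulAction.stabilizer G x ⊓ N := ⟨_, rfl⟩
  have hN1m : ∀ g, g ∈ N1 ↔ g • x = x ∧ g ∈ N := fun g => by rw [hN1]; rfl
  have hpow : ∀ (H : Subgroup G), H.index ≠ 0 → ∀ c : Ω, c ≠ 0 → (∀ h ∈ H, h • c = c) →
      ∃ n : ℤ, w c ^ H.index = p ^ (24 * n) := by
    intro H hH c hc0 hc
    obtain ⟨n, hn⟩ := pow_index hinv hdisc H hH c hc0 hc
    exact ⟨n, by rw [hn, ← hp24, zpow_mul]; norm_cast⟩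
  have hN8 : N.index = 8 := by
    obtain ⟨h1, h2⟩ := index_stab_le (H := G) π (-3) 8 (by norm_num) fun g => by
      rw [← smul_pow', hπ, smul_neg, h3g]
    rw [← hN] at h1 h2
    obtain ⟨n, hn⟩ := hpow N h1 π hπ0 fun h hh => (hNm h).mp hh
    rw [hwπ, ← zpow_natCast, ← zpow_mul] at hn
    have := hzinj _ _ hn
    omega
  have hx3' : ∀ n ∈ N, (n • x) ^ 3 = x ^ 3 := fun n hn => by
    rw [← smul_pow', hx3 n ((hNm n).mp hn)]
  have hzfix : ∀ h ∈ N1, h • (x - 1) = x - 1 := fun h hh => by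
    rw [smul_sub, smul_one, ((hN1m h).mp hh).1]
  have hN24 : N1.index = 24 := by
    obtain ⟨h1, h2⟩ := index_stab_le (H := N) x (x ^ 3) 3 (by norm_num) fun g => hx3' g g.2
    have h4 : MulAction.stabilizer N x = N1.subgroupOf N := by
      ext g; rw [Subgroup.mem_subgroupOf, hN1m]; simp [Subgroup.smul_def]
    rw [h4] at h1 h2
    have h5 : N1.relIndex N * N.index = N1.index :=
      Subgroup.relIndex_mul_index fun g hg => ((hN1m g).mp hg).2
    change N1.relIndex N ≠ 0 at h1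
    change N1.relIndex N ≤ 3 at h2
    rw [hN8] at h5
    obtain ⟨n, hn⟩ := hpow N1 (by omega) (x - 1) hz0 hzfix
    rw [hz, ← zpow_natCast, ← zpow_mul, ← h5] at hn
    have h6 := hzinj _ _ hn
    obtain ⟨r, hr⟩ : ∃ r, r = N1.relIndex N := ⟨_, rfl⟩
    rw [← hr] at h1 h2 h5 h6
    have : r = 1 ∨ r = 2 ∨ r = 3 := by omega
    rcases this with rfl | rfl | rfl <;> push_cast at h6 <;> omega
  obtain ⟨s, hs, hsx⟩ : ∃ s ∈ N, s • x ≠ x := by
    by_contra hcon
    push Not at hcon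
    have : N1 = N := by ext g; rw [hN1m]; exact ⟨fun h => h.2, fun h => ⟨hcon g h, h⟩⟩
    rw [this] at hN24; omega
  obtain ⟨ζ, hζdef⟩ : ∃ ζ, ζ = s • x / x := ⟨_, rfl⟩
  have hsζ : s • x = ζ * x := by rw [hζdef]; field_simp
  have hζ1 : ζ - 1 ≠ 0 := by
    intro h; apply hsx; rw [hsζ, sub_eq_zero.mp h, one_mul]
  have hζ : ζ ^ 2 + ζ + 1 = 0 := by
    have h1 := hx3' s hs
    rw [hsζ] at h1
    apply mul_left_cancel₀ (mul_ne_zero hζ1 (pow_ne_zero 3 hx0))
    linear_combination h1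
  have hζN : ∀ n ∈ N, n • ζ = ζ := by
    intro n hn
    have h2 : ∀ g : G, g • (2 : Ω) = 2 := fun g => map_ofNat (MulSemiringAction.toRingHom G Ω g) 2
    have h1 : (2 * ζ + 1 - π ^ 4) * (2 * ζ + 1 + π ^ 4) = 0 := by linear_combination 4 * hζ - hπ
    have hπn := (hNm n).mp hn
    apply mul_left_cancel₀ (two_ne_zero (α := Ω))
    rcases mul_eq_zero.mp h1 with h | h
    · have := congrArg (n • ·) h
      simp only [smul_sub, smul_add, smul_mul', smul_pow', smul_one, smul_zero, h2, hπn] at this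
      linear_combination this - h
    · have := congrArg (n • ·) h
      simp only [smul_add, smul_mul', smul_pow', smul_one, smul_zero, h2, hπn] at this
      linear_combination this - h
  -- generic bound
  have hgen : ∀ (g : G) (c : Ω), w c ≤ 1 → (∀ n ∈ N1, n • c = c) → w (g • c - c) ≤ p := by
    intro g c hc hcN
    obtain ⟨a, ha, hca⟩ := hres c hc
    have h1 : w (c - a) ≤ p := by
      by_cases h0 : c - a = 0
      · simp [h0]
      obtain ⟨n, hn⟩ := hpow N1 (by omega) (c - a) h0 fun h hh => by rw [smul_sub, ha, hcN h hh]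
      rw [hN24, mul_comm, zpow_mul] at hn
      have h2 := hroot _ 24 n (by norm_num) (by exact_mod_cast hn)
      rw [h2] at hca ⊢
      have h4 : 0 < n := (zpow_lt_one_iff_right_of_lt_one₀ hp0 hp1).mp hca
      simpa using zpow_le_zpow_right_of_le_one₀ hp0 hp1.le (show 1 ≤ n by omega)
    have : g • c - c = g • (c - a) - (c - a) := by rw [smul_sub, ha]; ring
    rw [this]
    exact (w.map_sub _ _).trans (max_le (by rwa [hinv]) h1)
  -- wild bound
  have hwild : ∀ g ∈ N, ∀ c : Ω, w c ≤ 1 → (∀ n ∈ N1, n • c = c) → w (g • c - c) ≤ p ^ 8 := by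
    intro g hg c hc hcN
    obtain ⟨a0, a1, a2, h0, h1, h2, hca⟩ := exists_quad N x ζ hx0 hζ hζN hx3' s hs hsζ c
      fun n hn hnx => hcN n ((hN1m n).mpr ⟨hnx, hn⟩)
    have h2g : ∀ g : G, g • (2 : Ω) = 2 := fun g => map_ofNat (MulSemiringAction.toRingHom G Ω g) 2
    obtain ⟨z, hzz⟩ : ∃ z, z = x - 1 := ⟨_, rfl⟩
    obtain ⟨c0, hc0⟩ : ∃ c0, c0 = a0 + a1 + a2 := ⟨_, rfl⟩
    obtain ⟨c1, hc1⟩ : ∃ c1, c1 = a1 + 2 * a2 := ⟨_, rfl⟩
    have f0 : ∀ n ∈ N, n • c0 = c0 := fun n hn => by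
      rw [hc0, smul_add, smul_add, h0 n hn, h1 n hn, h2 n hn]
    have f1 : ∀ n ∈ N, n • c1 = c1 := fun n hn => by
      rw [hc1, smul_add, smul_mul', h2g, h1 n hn, h2 n hn]
    have hcz : c = c0 + c1 * z + a2 * z ^ 2 := by rw [hca, hc0, hc1, hzz]; ring
    rw [← hzz] at hz hz0
    have hval : ∀ a : Ω, (∀ n ∈ N, n • a = a) → ∀ i : ℕ, a * z ^ i ≠ 0 →
        ∃ n : ℤ, w (a * z ^ i) = p ^ (3 * n + j * i) := by
      intro a ha i hi
      obtain ⟨n, hn⟩ := hpow N (by omega) a (left_ne_zero_of_mul hi) ha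
      have h4 := hroot (w a) 8 (3 * n) (by norm_num) (by
        rw [← hN8, hn, hN8, ← zpow_natCast, ← zpow_mul]; congr 1; push_cast; ring)
      exact ⟨n, by rw [map_mul, map_pow, h4, hz, zpow_add₀ hp0.ne', zpow_mul, zpow_mul, zpow_natCast,
        zpow_natCast]⟩
    have hne : ∀ a b : Ω, (∀ n ∈ N, n • a = a) → (∀ n ∈ N, n • b = b) → ∀ i k : ℕ, i < 3 → k < 3 →
        i ≠ k → a * z ^ i ≠ 0 → b * z ^ k ≠ 0 → w (a * z ^ i) ≠ w (b * z ^ k) := by
      intro a b ha hb i k hi hk hik h1 h2 h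
      obtain ⟨n, hn⟩ := hval a ha i h1
      obtain ⟨m, hm⟩ := hval b hb k h2
      rw [hn, hm] at h
      have := hzinj _ _ h
      interval_cases i <;> interval_cases k <;> push_cast at this <;> omega
    have e01 := hne c0 c1 f0 f1 0 1 (by norm_num) (by norm_num) (by norm_num)
    have e02 := hne c0 a2 f0 h2 0 2 (by norm_num) (by norm_num) (by norm_num)
    have e12 := hne c1 a2 f1 h2 1 2 (by norm_num) (by norm_num) (by norm_num)
    simp only [pow_zero, mul_one, pow_one] at e01 e02 e12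
    have b1 : w (c1 * z) ≤ 1 := (le_of_three e01 e02 e12).trans (hcz ▸ hc)
    have b2 : w (a2 * z ^ 2) ≤ 1 := by
      have := le_of_three e02 e01 fun h h' => (e12 h' h).symm
      rw [add_right_comm, ← hcz] at this
      exact this.trans hc
    have hd : w (g • z - z) ≤ p ^ 12 := by
      have h4 : g • z - z = g • x - x := by rw [hzz, smul_sub, smul_one]; ring
      have h5 := cube_close hx1 (hx3' g hg)
      rw [h4]
      refine le_of_pow_le_pow_left₀ two_ne_zero zero_le ?_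
      rw [← hp24] at h5
      calc _ ≤ p ^ 24 := h5
        _ = _ := by ring
    have hE : (g • c - c) * z = (g • z - z) * (c1 * z + a2 * z * (g • z + z)) := by
      conv_lhs => rw [hcz]
      simp only [smul_add, smul_mul', smul_pow', f0 g hg, f1 g hg, h2 g hg]
      ring
    have b3 : w (a2 * z * (g • z + z)) ≤ 1 := by
      refine le_trans ?_ b2
      rw [pow_two, ← mul_assoc, map_mul _ (a2 * z), map_mul _ (a2 * z)]
      exact mul_le_mul_right ((w.map_add _ _).trans (max_le (hinv g z).le le_rfl)) _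
    have b4 : w (g • c - c) * p ^ j ≤ p ^ 12 := by
      have := congrArg w hE
      rw [map_mul, map_mul, hz, zpow_natCast] at this
      rw [this]
      exact (mul_le_of_le_one_right' ((w.map_add _ _).trans (max_le b1 b3))).trans hd
    have b5 : w (g • c - c) * p ^ 4 ≤ p ^ 8 * p ^ 4 := by
      calc _ ≤ w (g • c - c) * p ^ j := mul_le_mul_right (pow_le_pow_of_le_one zero_le hp1.le hj) _
        _ ≤ p ^ 12 := b4
        _ = _ := by ring
    exact le_of_mul_le_mul_right b5 (pow_pos hp0 4)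
  have : Finite (G ⧸ N1) := Subgroup.index_ne_zero_iff_finite.mp (by omega)
  have := Fintype.ofFinite (G ⧸ N1)
  let ι := {q : G ⧸ N1 // q ≠ ((1 : G) : G ⧸ N1)}
  have hcard : Fintype.card ι = 23 := by
    have h1 : Fintype.card (G ⧸ N1) = 24 := by rw [← hN24, Subgroup.index, Nat.card_eq_fintype_card]
    rw [Fintype.card_subtype_compl, h1]; simp
  have key := font hw3 hinv hM hF h3 N1
    (fun g g' h => (hN1m _).mpr ⟨(hker g g' h).2, (hNm _).mpr (hker g g' h).1⟩)
    (fun q : ι => q.1.out) (fun q h => q.2 (by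
      rw [← QuotientGroup.out_eq' q.1, eq_comm, QuotientGroup.eq]; simpa using h))
    (fun q q' h => Subtype.ext (by
      rw [← QuotientGroup.out_eq' q.1, ← QuotientGroup.out_eq' q'.1, QuotientGroup.eq]; exact h))
    (fun q => p * if q.1.out ∈ N then p ^ 7 else 1) (fun q c hc hcN => by
      split_ifs with h
      · exact (hwild _ h c hc hcN).trans (le_of_eq (by ring))
      · simpa using hgen _ c hc hcN)
  have hs1 : s ∉ N1 := fun h => hsx ((hN1m s).mp h).1
  have hs2 : s * s ∉ N1 := fun h => by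
    have h1 := ((hN1m _).mp h).1
    rw [mul_smul, hsζ, smul_mul', hζN s hs, hsζ] at h1
    have h2 : (ζ - 1) * x = 0 := by linear_combination (-ζ) * h1 + (ζ - 1) * x * hζ
    exact mul_ne_zero hζ1 hx0 h2
  have hq : ∀ t : G, t ∉ N1 → (t : G ⧸ N1) ≠ ((1 : G) : G ⧸ N1) := fun t ht h => by
    rw [eq_comm, QuotientGroup.eq] at h; exact ht (by simpa using h)
  have hout : ∀ t ∈ N, (t : G ⧸ N1).out ∈ N := fun t ht => by
    obtain ⟨h, hh⟩ := QuotientGroup.mk_out_eq_mul N1 t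
    rw [hh]; exact N.mul_mem ht ((hN1m h).mp h.2).2
  have hne : (⟨_, hq s hs1⟩ : ι) ≠ ⟨_, hq _ hs2⟩ := fun h => by
    have h1 := congrArg Subtype.val h
    simp only [QuotientGroup.eq] at h1
    exact hs1 (by simpa using h1)
  have hle : ∏ q : ι, (if q.1.out ∈ N then p ^ 7 else 1) ≤ p ^ 7 * p ^ 7 := by
    refine (Finset.prod_le_prod_of_subset_of_le_one'
      (Finset.subset_univ {(⟨_, hq s hs1⟩ : ι), ⟨_, hq _ hs2⟩}) fun q _ _ => ?_).trans ?_
    · split_ifs
      · exact pow_le_one₀ zero_le hp1.le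
      · exact le_rfl
    · rw [Finset.prod_pair hne, if_pos (hout s hs), if_pos (hout _ (N.mul_mem hs hs))]
  rw [Finset.prod_mul_distrib, Finset.prod_const, Finset.card_univ, hcard, ← hp24] at key
  have h72 : p ^ 72 ≤ p ^ 74 := by
    calc p ^ 72 = (p ^ 24) ^ 3 := by ring
      _ ≤ _ := key
      _ ≤ (p ^ 23 * (p ^ 7 * p ^ 7)) ^ 2 := pow_le_pow_left' (mul_le_mul_right hle _) 2
      _ = p ^ 74 := by ring
  exact absurd h72 (not_le.mpr (pow_lt_pow_right_of_lt_one₀ hp0 hp1 (by norm_num)))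

end Crest.Agent.T15.FlR
end
end

-- ▼ part T15/FlG_23

/-!
# Row 15, block Fl: Fontaine's bound and the Kummer level over a local field (helper23)
-/

set_option autoImplicit false

noncomputable section

namespace Crest.Agent.T15.FlR

open scoped NNReal
open Polynomial Crest.Agent.T15.Fl

variable {F Ω : Type*} [Field F] [Field Ω] [Algebra F Ω] {w : Valuation Ω ℝ≥0}

theorem finite_orbit [Algebra.IsAlgebraic F Ω] (a : Ω) :
    (Set.range fun g : Ω ≃ₐ[F] Ω => g • a).Finite := by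
  have ha : IsIntegral F a := Algebra.IsIntegral.isIntegral a
  refine ((minpoly F a).rootSet_finite Ω).subset ?_
  rintro _ ⟨g, rfl⟩
  rw [mem_rootSet]
  refine ⟨minpoly.ne_zero ha, ?_⟩
  change aeval (g a) _ = 0
  rw [aeval_algHom_apply, minpoly.aeval, map_zero]


variable [CharZero Ω] [IsGalois F Ω] [IsAlgClosed Ω]

theorem mono_of (hc : Ctx F w) (hf : Full F w) : Mono w (Ω ≃ₐ[F] Ω) := by
  intro A hA
  have : FiniteDimensional F (IntermediateField.adjoin F (A : Set Ω)) :=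
    IntermediateField.finiteDimensional_adjoin fun x _ => Algebra.IsIntegral.isIntegral x
  obtain ⟨α, -, h1, -, -, h2, -⟩ := hc.mono hf (IntermediateField.adjoin F (A : Set Ω))
  refine ⟨α, h1, finite_orbit α, fun a ha => ?_⟩
  obtain ⟨p, hp⟩ := h2 a (IntermediateField.subset_adjoin F _ ha) (hA a ha)
  refine ⟨p.map (algebraMap (OF F w) Ω), fun i => ?_, fun g => ?_⟩
  · rw [coeff_map]; exact (p.coeff i).2
  · rw [eval_map_algebraMap, ← hp]
    exact (aeval_algHom_apply (g.restrictScalars (OF F w)) α p).symm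

omit [CharZero Ω] [IsAlgClosed Ω] in
theorem disc_of (hc : Ctx F w) (a : Ω) (ha : a ≠ 0) (h : ∀ g : Ω ≃ₐ[F] Ω, g • a = a) :
    ∃ n : ℤ, w a = w 3 ^ n := by
  obtain ⟨b, rfl⟩ := (InfiniteGalois.mem_range_algebraMap_iff_fixed a).mpr h
  exact hc.disc b (by rintro rfl; simp at ha)

omit [CharZero Ω] [IsGalois F Ω] [IsAlgClosed Ω] in
theorem res_of (hf : Full F w) (c : Ω) (h : w c ≤ 1) :
    ∃ a, (∀ g : Ω ≃ₐ[F] Ω, g • a = a) ∧ w (c - a) < 1 := by
  obtain ⟨b, hb⟩ := hf c h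
  exact ⟨_, fun g => g.commutes b, hb⟩

variable {V : Type*} [AddCommGroup V] [Finite V]

/-- **KUM** over a field `F` with `Ctx` and `Full`, the action given as a bare function -/
theorem kumF (hc : Ctx F w) (hf : Full F w) {ρ : (Ω ≃ₐ[F] Ω) → V → V} (hF : Flat w (Ω ≃ₐ[F] Ω) ρ)
    (h3 : ∀ v : V, 3 • v = 0) (π x : Ω) (hπ : π ^ 8 = -3)
    (hker : ∀ g g', (∀ v, ρ g v = ρ g' v) → (g⁻¹ * g') π = π ∧ (g⁻¹ * g') x = x)
    (hx3 : ∀ g : Ω ≃ₐ[F] Ω, g π = π → g (x ^ 3) = x ^ 3) (j : ℕ) (hj : j ≤ 4) (hj3 : ¬ 3 ∣ j)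
    (hxj : w (x - 1) ^ 24 = w 3 ^ j) : False :=
  kum hc.w3 hc.inv (mono_of hc hf) (disc_of hc) (res_of hf) hF h3 π x hπ hker hx3 j hj hj3 hxj

/-- **KUM** for a multiplicative action -/
theorem kumF' (hc : Ctx F w) (hf : Full F w) {ρ : (Ω ≃ₐ[F] Ω) → V → V} (hF : Flat w (Ω ≃ₐ[F] Ω) ρ)
    (h1 : ∀ v, ρ 1 v = v) (hm : ∀ g g' v, ρ (g * g') v = ρ g (ρ g' v))
    (h3 : ∀ v : V, 3 • v = 0) (π x : Ω) (hπ : π ^ 8 = -3)
    (hker : ∀ g, (∀ v, ρ g v = v) → g π = π ∧ g x = x)
    (hx3 : ∀ g : Ω ≃ₐ[F] Ω, g π = π → g (x ^ 3) = x ^ 3) (j : ℕ) (hj : j ≤ 4) (hj3 : ¬ 3 ∣ j)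
    (hxj : w (x - 1) ^ 24 = w 3 ^ j) : False :=
  kumF hc hf hF h3 π x hπ
    (fun g g' h => hker _ fun v => by rw [hm, ← h, ← hm, inv_mul_cancel, h1]) hx3 j hj hj3 hxj

end Crest.Agent.T15.FlR
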