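import Mathlib
import Crest.Agent.T15.TopB_88
import Crest.Agent.T15.Sel_78
import Crest.Agent.T15.FlG_23
import Crest.Agent.T15.FlTm_38

-- ▼ part T15/L3A_27
section

/-!
# Row 15, LOC3, part A (helper27): valued field with an "inertia group", value groups, approximation.
-/

set_option autoImplicit false

open scoped NNReal
open Finset

namespace Crest.Agent.T15.L3

variable {Ω : Type*} [Field Ω] {I : Type*} [Group I] [MulSemiringAction I Ω]

/-- `x` is fixed by the subgroup `H`. -/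
def Fx (H : Subgroup I) (x : Ω) : Prop := ∀ σ ∈ H, σ • x = x

namespace Fx
variable {H H' : Subgroup I} {x y : Ω}
theorem mono (h : Fx H x) (hle : H' ≤ H) : Fx H' x := fun σ hσ => h σ (hle hσ)
theorem zero : Fx H (0 : Ω) := fun _ _ => smul_zero _
theorem one : Fx H (1 : Ω) := fun _ _ => smul_one _
theorem add (hx : Fx H x) (hy : Fx H y) : Fx H (x + y) := fun σ hσ => by
  rw [smul_add, hx σ hσ, hy σ hσ]
theorem neg (hx : Fx H x) : Fx H (-x) := fun σ hσ => by rw [smul_neg, hx σ hσ]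
theorem sub (hx : Fx H x) (hy : Fx H y) : Fx H (x - y) := fun σ hσ => by
  rw [smul_sub, hx σ hσ, hy σ hσ]
theorem mul (hx : Fx H x) (hy : Fx H y) : Fx H (x * y) := fun σ hσ => by
  rw [smul_mul', hx σ hσ, hy σ hσ]
theorem inv (hx : Fx H x) : Fx H x⁻¹ := fun σ hσ => by rw [smul_inv'', hx σ hσ]
theorem div (hx : Fx H x) (hy : Fx H y) : Fx H (x / y) := by
  rw [div_eq_mul_inv]; exact hx.mul hy.inv
theorem pow (hx : Fx H x) (n : ℕ) : Fx H (x ^ n) := fun σ hσ => by rw [smul_pow', hx σ hσ]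
theorem zpow (hx : Fx H x) (n : ℤ) : Fx H (x ^ n) := by
  rcases n with n | n
  · simpa using hx.pow n
  · simpa using (hx.pow (n + 1)).inv
theorem nat (n : ℕ) : Fx H (n : Ω) := fun σ _ => map_natCast (MulSemiringAction.toRingHom I Ω σ) n
theorem three : Fx H (3 : Ω) := by simpa using (nat 3 : Fx H ((3 : ℕ) : Ω))
theorem sum {ι : Type*} {s : Finset ι} {f : ι → Ω} (h : ∀ i ∈ s, Fx H (f i)) :
    Fx H (∑ i ∈ s, f i) := fun σ hσ => by
  rw [Finset.smul_sum]; exact Finset.sum_congr rfl fun i hi => h i hi σ hσ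
theorem out_smul (hx : Fx H x) (a : I) : ((a : I ⧸ H).out) • x = a • x := by
  obtain ⟨h, hh⟩ := QuotientGroup.mk_out_eq_mul H a
  rw [hh, mul_smul, hx h h.2]
end Fx

variable (I) in
/-- `I` acts like the inertia group at a place above `3`; `ϖ ^ 8 = -3`. -/
structure Ctx (v : Valuation Ω ℝ≥0) (ϖ : Ω) : Prop where
  inv : ∀ (σ : I) (x : Ω), v (σ • x) = v x
  h8 : ϖ ^ 8 = -3
  ne : (3 : Ω) ≠ 0
  lt : v 3 < 1
  unr : ∀ x : Ω, x ≠ 0 → Fx (⊤ : Subgroup I) x → ∃ m : ℤ, v x = v 3 ^ m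
  res : ∀ x : Ω, v x ≤ 1 → ∃ w, Fx (⊤ : Subgroup I) w ∧ v (x - w) < 1

variable {v : Valuation Ω ℝ≥0} {ϖ : Ω}

theorem v_pow_sub_one {a : Ω} (ha : v a ≤ 1) (k : ℕ) : v (a ^ k - 1) ≤ v (a - 1) := by
  induction k with
  | zero => simp
  | succ k ih =>
    have : a ^ (k + 1) - 1 = a * (a ^ k - 1) + (a - 1) := by ring
    rw [this]
    refine v.map_add_le ?_ le_rfl
    rw [map_mul]
    exact (mul_le_of_le_one_left' ha).trans ih

theorem v_eq_one_of {a : Ω} (ha : v (a - 1) < 1) : v a = 1 := by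
  have : a = 1 + (a - 1) := by ring
  rw [this]; exact v.map_one_add_of_lt ha


theorem relIndex_le (H : Subgroup I) (β : Ω) (f : Polynomial Ω) (hf : f ≠ 0)
    (hr : ∀ σ ∈ H, f.IsRoot (σ • β)) :
    (MulAction.stabilizer I β).relIndex H ≠ 0 ∧
      (MulAction.stabilizer I β).relIndex H ≤ f.natDegree := by
  classical
  have h1 : (MulAction.stabilizer I β).relIndex H = (MulAction.orbit H β).ncard := by
    rw [← MulAction.index_stabilizer]; rfl
  have hsub : MulAction.orbit H β ⊆ (f.roots.toFinset : Set Ω) := by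
    rintro _ ⟨σ, rfl⟩
    simp only [Finset.mem_coe, Multiset.mem_toFinset, Polynomial.mem_roots hf]
    exact hr σ σ.2
  have hfin : (MulAction.orbit H β).Finite := (Finset.finite_toSet _).subset hsub
  rw [h1]
  refine ⟨((Set.ncard_pos hfin).2 ⟨β, MulAction.mem_orbit_self β⟩).ne', ?_⟩
  calc (MulAction.orbit H β).ncard ≤ (f.roots.toFinset : Set Ω).ncard :=
        Set.ncard_le_ncard hsub (Finset.finite_toSet _)
    _ = f.roots.toFinset.card := Set.ncard_coe_finset _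
    _ ≤ f.natDegree := (Multiset.toFinset_card_le _).trans (Polynomial.card_roots' f)

namespace Ctx

theorem w_ne (c : Ctx I v ϖ) : ϖ ≠ 0 := by
  intro h
  have := c.h8
  rw [h] at this
  exact c.ne (by simpa using this.symm)

theorem q_pos (c : Ctx I v ϖ) : 0 < v ϖ := (v.pos_iff).2 c.w_ne

theorem q8 (c : Ctx I v ϖ) : v ϖ ^ 8 = v 3 := by rw [← map_pow, c.h8, Valuation.map_neg]

theorem q_lt (c : Ctx I v ϖ) : v ϖ < 1 := by
  by_contra h
  have := one_le_pow₀ (n := 8) (not_lt.1 h)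
  rw [c.q8] at this
  exact absurd c.lt (not_lt.2 this)

theorem index_le (c : Ctx I v ϖ) :
    (MulAction.stabilizer I ϖ).index ≠ 0 ∧ (MulAction.stabilizer I ϖ).index ≤ 8 := by
  have hf : (Polynomial.X ^ 8 - Polynomial.C (-3 : Ω)) ≠ 0 :=
    Polynomial.X_pow_sub_C_ne_zero (by norm_num) _
  have := relIndex_le (⊤ : Subgroup I) ϖ _ hf fun σ _ => by
    simp only [Polynomial.IsRoot, Polynomial.eval_sub, Polynomial.eval_pow, Polynomial.eval_X,
      Polynomial.eval_C]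
    rw [← smul_pow', c.h8, smul_neg, Fx.three σ (Subgroup.mem_top σ), sub_self]
  rwa [Subgroup.relIndex_top_right, Polynomial.natDegree_X_pow_sub_C] at this

theorem norm_val (c : Ctx I v ϖ) {N : Subgroup I} [N.FiniteIndex] {x : Ω} (h0 : x ≠ 0)
    (hx : Fx N x) : ∃ m : ℤ, v x ^ N.index = v ϖ ^ (8 * m) := by
  classical
  have : Fintype (I ⧸ N) := Fintype.ofFinite _
  have hfx : Fx (⊤ : Subgroup I) (∏ q : I ⧸ N, q.out • x) := by
    intro σ _
    rw [Finset.smul_prod']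
    refine Fintype.prod_equiv (MulAction.toPerm σ) _ _ fun q => ?_
    have : (MulAction.toPerm σ q : I ⧸ N) = ((σ * q.out : I) : I ⧸ N) := by
      conv_lhs => rw [← QuotientGroup.out_eq' q]
      rfl
    rw [this, hx.out_smul, mul_smul]
  have hne : (∏ q : I ⧸ N, q.out • x) ≠ 0 :=
    Finset.prod_ne_zero_iff.2 fun q _ h => h0 (by simpa using congrArg (fun y => q.out⁻¹ • y) h)
  obtain ⟨m, hm⟩ := c.unr _ hne hfx
  refine ⟨m, ?_⟩
  rw [map_prod] at hm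
  simp only [c.inv, Finset.prod_const, Finset.card_univ] at hm
  rw [Subgroup.index_eq_card, Nat.card_eq_fintype_card, hm, ← c.q8, zpow_mul]
  rfl

/-- the value group of the fixed field of `N` -/
theorem vg (c : Ctx I v ϖ) (N : Subgroup I) [N.FiniteIndex] (hw : Fx N ϖ) :
    ∃ (π : Ω) (e : ℕ), 0 < e ∧ 8 * e ≤ N.index ∧ Fx N π ∧ π ≠ 0 ∧ v π ^ e = v ϖ ∧
      ∀ x : Ω, x ≠ 0 → Fx N x → ∃ n : ℤ, v x = v π ^ n := by
  have hq := c.q_pos
  have hg : N.index ≠ 0 := Subgroup.FiniteIndex.index_ne_zero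
  have hinj : ∀ a b : ℤ, v ϖ ^ a = v ϖ ^ b → a = b := fun a b h =>
    zpow_right_injective₀ hq c.q_lt.ne h
  let S : AddSubgroup ℤ :=
    { carrier := {n | ∃ x : Ω, x ≠ 0 ∧ Fx N x ∧ v x ^ N.index = v ϖ ^ n}
      zero_mem' := ⟨1, one_ne_zero, Fx.one, by simp⟩
      add_mem' := by
        rintro a b ⟨x, h1, h2, h3⟩ ⟨y, h4, h5, h6⟩
        exact ⟨x * y, mul_ne_zero h1 h4, h2.mul h5, by rw [map_mul, mul_pow, h3, h6, zpow_add₀ hq.ne']⟩
      neg_mem' := by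
        rintro a ⟨x, h1, h2, h3⟩
        exact ⟨x⁻¹, inv_ne_zero h1, h2.inv, by rw [map_inv₀, inv_pow, h3, zpow_neg]⟩ }
  obtain ⟨a, ha⟩ := Int.subgroup_cyclic S
  have hdvd : ∀ n ∈ S, |a| ∣ n := fun n hn => by
    rw [ha, AddSubgroup.mem_closure_singleton] at hn
    obtain ⟨k, rfl⟩ := hn
    exact (abs_dvd _ _).2 (Dvd.intro_left k (by simp))
  have haS : |a| ∈ S := by
    have : a ∈ S := by rw [ha]; exact AddSubgroup.mem_closure_singleton_self a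
    rcases abs_cases a with h | h
    · rwa [h.1]
    · rw [h.1]; exact S.neg_mem this
  obtain ⟨π, hπ0, hπ, hπv⟩ := haS
  have hval : ∀ (x : Ω) (n : ℤ), v x ^ N.index = v ϖ ^ (|a| * n) → v x = v π ^ n := by
    intro x n h
    refine (pow_left_inj₀ zero_le zero_le hg).1 ?_
    rw [h, zpow_mul, ← hπv, ← zpow_natCast, ← zpow_natCast, ← zpow_mul, ← zpow_mul, mul_comm]
  obtain ⟨e, he⟩ := hdvd (N.index : ℤ) ⟨ϖ, c.w_ne, hw, by rw [zpow_natCast]⟩
  obtain ⟨m, hm⟩ := c.norm_val hπ0 hπ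
  have ham : |a| = 8 * m := hinj _ _ (hπv.symm.trans hm)
  have hgpos : (0 : ℤ) < N.index := by exact_mod_cast Nat.pos_of_ne_zero hg
  have hm0 : 0 ≤ m := by have := abs_nonneg a; omega
  have hepos : 0 < e := by
    by_contra h
    have : |a| * e ≤ 0 := mul_nonpos_of_nonneg_of_nonpos (abs_nonneg a) (not_lt.1 h)
    omega
  have hm1 : 1 ≤ m := by
    by_contra h
    have : m = 0 := by omega
    rw [ham, this] at he
    omega
  lift e to ℕ using hepos.le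
  refine ⟨π, e, by exact_mod_cast hepos, ?_, hπ, hπ0, ?_, fun x hx0 hx => ?_⟩
  · have : (8 * e : ℤ) ≤ N.index := by rw [he, ham]; nlinarith
    exact_mod_cast this
  · have := hval ϖ e (by rw [← he, zpow_natCast])
    rw [this, zpow_natCast]
  · obtain ⟨m', hm'⟩ := c.norm_val hx0 hx
    obtain ⟨n, hn⟩ := hdvd (8 * m') ⟨x, hx0, hx, hm'⟩
    exact ⟨n, hval x n (by rw [← hn, hm'])⟩

/-- the value group of `K₁ = Ω ^ (stabilizer ϖ)` is generated by `v ϖ` -/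
theorem vg1 (c : Ctx I v ϖ) : 8 ≤ (MulAction.stabilizer I ϖ).index ∧
    ∀ x : Ω, x ≠ 0 → Fx (MulAction.stabilizer I ϖ) x → ∃ n : ℤ, v x = v ϖ ^ n := by
  have : (MulAction.stabilizer I ϖ).FiniteIndex := ⟨c.index_le.1⟩
  obtain ⟨π, e, he, h8, -, -, hv, h⟩ := c.vg (MulAction.stabilizer I ϖ) fun σ hσ => hσ
  have := c.index_le.2
  have he1 : e = 1 := by omega
  subst he1
  rw [pow_one] at hv
  exact ⟨by omega, fun x h0 hx => hv ▸ h x h0 hx⟩

theorem inert (c : Ctx I v ϖ) (σ : I) {x : Ω} (hx : v x ≤ 1) : v (σ • x - x) < 1 := by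
  obtain ⟨w, hw, h⟩ := c.res x hx
  have : σ • x - x = σ • (x - w) - (x - w) := by
    rw [smul_sub, hw σ (Subgroup.mem_top σ)]; ring
  rw [this]
  exact v.map_sub_lt (by rwa [c.inv]) h

end Ctx

/-- discreteness -/
theorem le_succ_of_lt {r : ℝ≥0} (h0 : 0 < r) (h1 : r < 1) {z : Ω}
    (hz : z ≠ 0 → ∃ n : ℤ, v z = r ^ n) {M : ℕ} (h : v z < r ^ M) : v z ≤ r ^ (M + 1) := by
  by_cases hz0 : z = 0
  · simp [hz0]
  obtain ⟨n, hn⟩ := hz hz0
  rw [hn, ← zpow_natCast] at h ⊢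
  rw [zpow_lt_zpow_iff_right_of_lt_one₀ h0 h1] at h
  exact (zpow_le_zpow_iff_right_of_lt_one₀ h0 h1).2 (by push_cast; omega)

theorem le_one_of_res {x w : Ω} (hx : v x ≤ 1) (h : v (x - w) < 1) : v w ≤ 1 := by
  have : w = x - (x - w) := by ring
  rw [this]; exact v.map_sub_le hx h.le

end Crest.Agent.T15.L3
end

-- ▼ part T15/L3C_27
section

/-!
# Row 15, LOC3, part C (helper27): Kummer generators, levels, normalisation.
-/

set_option autoImplicit false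

open scoped NNReal
open Finset

namespace Crest.Agent.T15.L3

variable {Ω : Type*} [Field Ω] {D : Type*} [Group D] [MulSemiringAction D Ω]

/-- `I ⊓ Stab ϖ` -/
def SS (I : Subgroup D) (ϖ : Ω) : Subgroup D := I ⊓ MulAction.stabilizer D ϖ

/-- decomposition group `D`, inertia group `I` -/
structure DC (v : Valuation Ω ℝ≥0) (ϖ : Ω) (I : Subgroup D) : Prop where
  inv : ∀ (g : D) (x : Ω), v (g • x) = v x
  normal : I.Normal
  h8 : ϖ ^ 8 = -3
  ne : (3 : Ω) ≠ 0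
  lt : v 3 < 1
  unr : ∀ x : Ω, x ≠ 0 → Fx I x → ∃ m : ℤ, v x = v 3 ^ m
  res : ∀ x : Ω, v x ≤ 1 → ∃ w, Fx I w ∧ v (x - w) < 1

/-- `x` is a Kummer generator of the character `ψ` of `S` -/
def Kum (S : Subgroup D) (ψ : D → Ω) (x : Ω) : Prop := x ≠ 0 ∧ ∀ σ ∈ S, σ • x = ψ σ * x

/-- `b = 1 + r ϖ ^ i +` higher terms -/
def Lv (v : Valuation Ω ℝ≥0) (ϖ : Ω) (i : ℕ) (b r : Ω) : Prop :=
  v r ≤ 1 ∧ v (b - 1 - r * ϖ ^ i) < v ϖ ^ i

variable {v : Valuation Ω ℝ≥0} {ϖ : Ω} {I : Subgroup D}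

theorem Kum.mul {S : Subgroup D} {ψ ψ' : D → Ω} {x x' : Ω} (h : Kum S ψ x) (h' : Kum S ψ' x') :
    Kum S (fun σ => ψ σ * ψ' σ) (x * x') :=
  ⟨mul_ne_zero h.1 h'.1, fun σ hσ => by rw [smul_mul', h.2 σ hσ, h'.2 σ hσ]; ring⟩

theorem Kum.div {S : Subgroup D} {ψ : D → Ω} {x z : Ω} (h : Kum S ψ x) (hz : Fx S z) (h0 : z ≠ 0) :
    Kum S ψ (x / z) :=
  ⟨div_ne_zero h.1 h0, fun σ hσ => by
    rw [div_eq_mul_inv, smul_mul', h.2 σ hσ, hz.inv σ hσ]; ring⟩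

theorem Kum.congr {S : Subgroup D} {ψ ψ' : D → Ω} {x : Ω} (h : Kum S ψ x)
    (he : ∀ σ ∈ S, ψ σ = ψ' σ) : Kum S ψ' x := ⟨h.1, fun σ hσ => he σ hσ ▸ h.2 σ hσ⟩

theorem Kum.cube {S : Subgroup D} {ψ : D → Ω} {x : Ω} (h : Kum S ψ x) (h3 : ∀ σ ∈ S, ψ σ ^ 3 = 1) :
    Fx S (x ^ 3) := fun σ hσ => by rw [smul_pow', h.2 σ hσ, mul_pow, h3 σ hσ, one_mul]

theorem Kum.fx {S : Subgroup D} {ψ : D → Ω} {x : Ω} (h : Kum S ψ x) (h1 : ∀ σ ∈ S, ψ σ = 1) :
    Fx S x := fun σ hσ => by rw [h.2 σ hσ, h1 σ hσ, one_mul]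

theorem Kum.smul {S : Subgroup D} (hS : S.Normal) {ψ : D → Ω} {x : Ω} (h : Kum S ψ x) (g : D) :
    Kum S (fun σ => g • ψ (g⁻¹ * σ * g)) (g • x) := by
  refine ⟨fun h0 => h.1 (by simpa using congrArg (fun y => g⁻¹ • y) h0), fun σ hσ => ?_⟩
  have := h.2 _ (hS.conj_mem' σ hσ g)
  rw [← smul_mul', ← this, ← mul_smul, ← mul_smul]
  congr 1; group

namespace DC

theorem ctx (c : DC v ϖ I) : Ctx I v ϖ where
  inv σ x := c.inv σ x
  h8 := c.h8
  ne := c.ne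
  lt := c.lt
  unr x h0 hx := c.unr x h0 fun σ hσ => hx ⟨σ, hσ⟩ (Subgroup.mem_top _)
  res x hx := by
    obtain ⟨w, hw, h⟩ := c.res x hx
    exact ⟨w, fun σ _ => hw σ σ.2, h⟩

theorem fw (_ : DC v ϖ I) : Fx (SS I ϖ) ϖ := fun _ hσ => hσ.2

theorem val (c : DC v ϖ I) {x : Ω} (h0 : x ≠ 0) (hx : Fx (SS I ϖ) x) : ∃ n : ℤ, v x = v ϖ ^ n :=
  c.ctx.vg1.2 x h0 fun σ hσ => hx σ ⟨σ.2, hσ⟩

theorem inert (c : DC v ϖ I) {σ : D} (hσ : σ ∈ I) {x : Ω} (hx : v x ≤ 1) : v (σ • x - x) < 1 :=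
  c.ctx.inert ⟨σ, hσ⟩ hx

theorem disc (c : DC v ϖ I) {z : Ω} (hz : Fx (SS I ϖ) z) {M : ℕ} (h : v z < v ϖ ^ M) :
    v z ≤ v ϖ ^ (M + 1) := le_succ_of_lt c.ctx.q_pos c.ctx.q_lt (fun h0 => c.val h0 hz) h

theorem v2 (c : DC v ϖ I) : v 2 = 1 := by
  have : (2 : Ω) = -(1 - 3) := by norm_num
  rw [this, Valuation.map_neg, v.map_one_sub_of_lt c.lt]

theorem two_ne (c : DC v ϖ I) : (2 : Ω) ≠ 0 := by
  intro h; have := c.v2; rw [h, map_zero] at this; exact zero_ne_one this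

theorem pow_lt (c : DC v ϖ I) {m n : ℕ} (h : m < n) : v ϖ ^ n < v ϖ ^ m :=
  pow_lt_pow_right_of_lt_one₀ c.ctx.q_pos c.ctx.q_lt h

theorem pow_le (c : DC v ϖ I) {m n : ℕ} (h : m ≤ n) : v ϖ ^ n ≤ v ϖ ^ m :=
  pow_le_pow_of_le_one zero_le c.ctx.q_lt.le h

theorem exists_tau (c : DC v ϖ I) : ∃ τ ∈ I, (τ • ϖ) ^ 4 = -ϖ ^ 4 := by
  by_contra hne
  push Not at hne
  have hf : (Polynomial.X ^ 4 - Polynomial.C (ϖ ^ 4)) ≠ 0 :=
    Polynomial.X_pow_sub_C_ne_zero (by norm_num) _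
  have := relIndex_le (⊤ : Subgroup I) ϖ _ hf fun σ _ => by
    simp only [Polynomial.IsRoot, Polynomial.eval_sub, Polynomial.eval_pow, Polynomial.eval_X,
      Polynomial.eval_C]
    have h1 : (σ • ϖ) ^ 8 = ϖ ^ 8 := by
      rw [← smul_pow', c.h8, smul_neg, Fx.three σ (Subgroup.mem_top σ)]
    have h2 : ((σ • ϖ) ^ 4 - ϖ ^ 4) * ((σ • ϖ) ^ 4 + ϖ ^ 4) = 0 := by linear_combination h1
    exact (mul_eq_zero.1 h2).resolve_right fun h => hne σ σ.2 (eq_neg_of_add_eq_zero_left h)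
  rw [Subgroup.relIndex_top_right, Polynomial.natDegree_X_pow_sub_C] at this
  have := c.ctx.vg1.1
  omega

theorem theta (c : DC v ϖ I) (g : D) : ∃ θ : Ω, θ ^ 8 = 1 ∧ g • ϖ = θ * ϖ := by
  refine ⟨g • ϖ / ϖ, ?_, (div_mul_cancel₀ _ c.ctx.w_ne).symm⟩
  rw [div_pow, ← smul_pow', c.h8, smul_neg, Fx.three g (Subgroup.mem_top g), div_self]
  exact neg_ne_zero.2 c.ne

theorem v_root {θ : Ω} {n : ℕ} (hn : n ≠ 0) (h : θ ^ n = 1) : v θ = 1 := by
  have : v θ ^ n = 1 := by rw [← map_pow, h, map_one]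
  exact (pow_eq_one_iff_of_nonneg zero_le hn).1 this

theorem root8 (c : DC v ϖ I) {t : Ω} (h : t ^ 8 = 1) (h1 : v (t - 1) < 1) : t = 1 := by
  have ht : v t = 1 := v_eq_one_of h1
  have key : ∀ s : Ω, v (s - 1) < 1 → s ^ 2 = 1 → s = 1 := fun s hs h2 => by
    have h3 : (s - 1) * (s + 1) = 0 := by linear_combination h2
    refine sub_eq_zero.1 ((mul_eq_zero.1 h3).resolve_right fun h4 => ?_)
    have : s - 1 = -2 := by linear_combination h4
    rw [this, Valuation.map_neg, c.v2] at hs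
    exact lt_irrefl _ hs
  have h4 : t ^ 4 = 1 := key _ ((v_pow_sub_one ht.le 4).trans_lt h1) (by rw [← pow_mul, h])
  have h2 : t ^ 2 = 1 := key _ ((v_pow_sub_one ht.le 2).trans_lt h1) (by rw [← pow_mul, h4])
  exact key t h1 h2

theorem fx_root8 (c : DC v ϖ I) {θ : Ω} (h : θ ^ 8 = 1) : Fx I θ := by
  intro σ hσ
  have hv : v θ = 1 := v_root (by norm_num) h
  have h0 : θ ≠ 0 := by rintro rfl; simp at h
  have := c.root8 (t := σ • θ / θ) (by rw [div_pow, ← smul_pow', h, smul_one, div_one]) (by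
    rw [div_sub_one h0, map_div₀, hv, div_one]; exact c.inert hσ hv.le)
  exact (div_eq_one_iff_eq h0).1 this

theorem SS_normal (c : DC v ϖ I) : (SS I ϖ).Normal := by
  refine ⟨fun σ hσ g => ⟨c.normal.conj_mem σ hσ.1 g, ?_⟩⟩
  obtain ⟨θ, h8, hθ⟩ := c.theta g⁻¹
  have h2 : σ • ϖ = ϖ := hσ.2
  show (g * σ * g⁻¹) • ϖ = ϖ
  rw [mul_smul, mul_smul, hθ, smul_mul', c.fx_root8 h8 σ hσ.1, h2, ← hθ, smul_inv_smul]

theorem root3 (c : DC v ϖ I) {t : Ω} (h : t ^ 3 = 1) (h1 : v (t - 1) < v ϖ ^ 4) : t = 1 := by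
  by_contra hne
  have h3 : (t - 1) * (t ^ 2 + t + 1) = 0 := by linear_combination h
  have h4 := (mul_eq_zero.1 h3).resolve_left (sub_ne_zero.2 hne)
  have h5 : (t - 1) ^ 2 = -(3 * t) := by linear_combination h4
  have h6 : v (t - 1) ^ 2 = (v ϖ ^ 4) ^ 2 := by
    rw [← map_pow, h5, Valuation.map_neg, map_mul, v_root (by norm_num) h, mul_one, ← c.ctx.q8,
      ← pow_mul]
  exact h1.ne ((pow_left_inj₀ zero_le zero_le two_ne_zero).1 h6)

theorem cube_big (c : DC v ϖ I) {x : Ω} (hx : v x ≤ 1) (h : v ϖ ^ 4 < v (x - 1)) :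
    v (x ^ 3 - 1) = v (x - 1) ^ 3 := by
  have e : x ^ 3 - 1 = (x - 1) ^ 3 + 3 * x * (x - 1) := by ring
  have h0 : 0 < v (x - 1) := lt_of_le_of_lt zero_le h
  rw [e, v.map_add_eq_of_lt_left, map_pow]
  rw [map_pow, map_mul, map_mul, pow_succ, ← c.ctx.q8]
  refine mul_lt_mul_of_pos_right ((mul_le_of_le_one_right' hx).trans_lt ?_) h0
  rw [show 8 = 4 * 2 from rfl, pow_mul]
  exact pow_lt_pow_left₀ h zero_le two_ne_zero

theorem le_one_of_cube {x : Ω} (h : v (x ^ 3 - 1) ≤ 1) : v x ≤ 1 := by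
  have e : x ^ 3 = (x ^ 3 - 1) + 1 := by ring
  have : v (x ^ 3) ≤ 1 := by rw [e]; exact v.map_add_le h (by simp)
  rw [map_pow] at this
  exact (pow_le_one_iff_of_nonneg zero_le three_ne_zero).1 this

theorem cube_le (c : DC v ϖ I) {x : Ω} {m : ℕ} (hm : m ≤ 4) (h : v (x ^ 3 - 1) ≤ v ϖ ^ (3 * m)) :
    v (x - 1) ≤ v ϖ ^ m := by
  by_contra hn
  push Not at hn
  have hx := le_one_of_cube (h.trans (pow_le_one' c.ctx.q_lt.le _))
  rw [c.cube_big hx ((c.pow_le hm).trans_lt hn), mul_comm, pow_mul] at h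
  exact absurd (pow_lt_pow_left₀ hn zero_le three_ne_zero) (not_lt.2 h)

theorem cube_lt (c : DC v ϖ I) {x : Ω} {m : ℕ} (hm : m ≤ 4) (h : v (x - 1) < v ϖ ^ m) :
    v (x ^ 3 - 1) < v ϖ ^ (3 * m) := by
  have hx : v x = 1 := v_eq_one_of (h.trans_le (pow_le_one' c.ctx.q_lt.le _))
  have e : x ^ 3 - 1 = (x - 1) ^ 3 + 3 * x * (x - 1) := by ring
  rw [e]
  refine v.map_add_lt ?_ ?_
  · rw [map_pow, mul_comm, pow_mul]; exact pow_lt_pow_left₀ h zero_le three_ne_zero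
  · rw [map_mul, map_mul, hx, mul_one, ← c.ctx.q8]
    refine (mul_lt_mul_of_pos_left h (pow_pos c.ctx.q_pos 8)).trans_le ?_
    rw [← pow_add]; exact c.pow_le (by omega)

/-- a cube does not have a level `i < 12` prime to `3` -/
theorem nc (c : DC v ϖ I) {z : Ω} (hz : Fx (SS I ϖ) z) {i : ℕ} (hi : i < 12) (h3 : ¬ 3 ∣ i)
    (h : v (z ^ 3 - 1) = v ϖ ^ i) : False := by
  have hx := le_one_of_cube (h.le.trans (pow_le_one' c.ctx.q_lt.le _))
  by_cases hb : v ϖ ^ 4 < v (z - 1)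
  · have h0 : z - 1 ≠ 0 := (v.pos_iff).1 (lt_of_le_of_lt zero_le hb)
    obtain ⟨n, hn⟩ := c.val h0 (hz.sub Fx.one)
    rw [c.cube_big hx hb, hn, ← zpow_natCast, ← zpow_natCast, ← zpow_mul] at h
    have := zpow_right_injective₀ c.ctx.q_pos c.ctx.q_lt.ne h
    exact h3 (Int.natCast_dvd_natCast.1 ⟨n, by rw [← this]; push_cast; ring⟩)
  · push Not at hb
    have e : z ^ 3 - 1 = (z - 1) ^ 3 + 3 * z * (z - 1) := by ring
    have : v (z ^ 3 - 1) ≤ v ϖ ^ 12 := by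
      rw [e]
      refine v.map_add_le ?_ ?_
      · rw [map_pow, show 12 = 4 * 3 from rfl, pow_mul]; exact pow_le_pow_left₀ zero_le hb 3
      · rw [map_mul, map_mul, ← c.ctx.q8, show 12 = 8 + 4 from rfl, pow_add]
        exact mul_le_mul' (mul_le_of_le_one_right' hx) hb
    exact absurd (c.pow_lt hi) (not_lt.2 (h ▸ this))

theorem triv (c : DC v ϖ I) {ψ : D → Ω} {x : Ω} (h : Kum (SS I ϖ) ψ x)
    (h3 : ∀ σ ∈ SS I ϖ, ψ σ ^ 3 = 1) (hv : v (x ^ 3 - 1) ≤ v ϖ ^ 12) : ∀ σ ∈ SS I ϖ, ψ σ = 1 := by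
  intro σ hσ
  have h1 := c.cube_le (m := 4) le_rfl hv
  have hq : 0 < v ϖ ^ 4 := pow_pos c.ctx.q_pos 4
  have hw : ϖ ^ 4 ≠ 0 := pow_ne_zero _ c.ctx.w_ne
  have hx : v x = 1 := v_eq_one_of (h1.trans_lt (by simpa using c.pow_lt (show 0 < 4 by norm_num)))
  have h2 := c.inert hσ.1 (x := (x - 1) / ϖ ^ 4) (by
    rw [map_div₀, map_pow]; exact div_le_one_of_le₀ h1 zero_le)
  refine c.root3 (h3 σ hσ) ?_
  have e : σ • ((x - 1) / ϖ ^ 4) - (x - 1) / ϖ ^ 4 = (ψ σ - 1) * x / ϖ ^ 4 := by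
    rw [div_eq_mul_inv, smul_mul', (c.fw.pow 4).inv σ hσ, smul_sub, smul_one, h.2 σ hσ]
    field_simp
    ring
  rwa [e, map_div₀, map_mul, hx, mul_one, map_pow, div_lt_one hq] at h2

/-! ### levels -/

theorem Lv_le (_ : DC v ϖ I) {i : ℕ} {b r : Ω} (h : Lv v ϖ i b r) : v (b - 1) ≤ v ϖ ^ i := by
  have e : b - 1 = (b - 1 - r * ϖ ^ i) + r * ϖ ^ i := by ring
  rw [e]
  refine v.map_add_le h.2.le ?_
  rw [map_mul, map_pow]; exact mul_le_of_le_one_left' h.1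

theorem Lv_of_le (c : DC v ϖ I) {i : ℕ} {b : Ω} (h : v (b - 1) ≤ v ϖ ^ i) :
    Lv v ϖ i b ((b - 1) / ϖ ^ i) := by
  refine ⟨by rw [map_div₀, map_pow]; exact div_le_one_of_le₀ h zero_le, ?_⟩
  rw [div_mul_cancel₀ _ (pow_ne_zero _ c.ctx.w_ne), sub_self, map_zero]
  exact pow_pos c.ctx.q_pos i

theorem Lv_eq (_ : DC v ϖ I) {i : ℕ} {b r : Ω} (h : Lv v ϖ i b r) (hr : v r = 1) :
    v (b - 1) = v ϖ ^ i := by
  have e : b - 1 = (b - 1 - r * ϖ ^ i) + r * ϖ ^ i := by ring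
  have h1 : v (r * ϖ ^ i) = v ϖ ^ i := by rw [map_mul, hr, one_mul, map_pow]
  rw [e, v.map_add_eq_of_lt_right (h1 ▸ h.2), h1]

theorem Lv_lt (c : DC v ϖ I) {i : ℕ} {b r : Ω} (h : Lv v ϖ i b r) (hr : v r < 1) :
    v (b - 1) < v ϖ ^ i := by
  have e : b - 1 = (b - 1 - r * ϖ ^ i) + r * ϖ ^ i := by ring
  rw [e]
  refine v.map_add_lt h.2 ?_
  rw [map_mul, map_pow]; exact mul_lt_of_lt_one_left (pow_pos c.ctx.q_pos i) hr

theorem Lv_congr (c : DC v ϖ I) {i : ℕ} {b r r' : Ω} (h : Lv v ϖ i b r) (hr : v (r - r') < 1) :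
    Lv v ϖ i b r' := by
  refine ⟨le_one_of_res h.1 hr, ?_⟩
  have e : b - 1 - r' * ϖ ^ i = (b - 1 - r * ϖ ^ i) + (r - r') * ϖ ^ i := by ring
  rw [e]
  refine v.map_add_lt h.2 ?_
  rw [map_mul, map_pow]; exact mul_lt_of_lt_one_left (pow_pos c.ctx.q_pos i) hr

theorem Lv_uniq (c : DC v ϖ I) {i : ℕ} {b r r' : Ω} (h : Lv v ϖ i b r) (h' : Lv v ϖ i b r') :
    v (r - r') < 1 := by
  have e : (r - r') * ϖ ^ i = (b - 1 - r' * ϖ ^ i) - (b - 1 - r * ϖ ^ i) := by ring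
  have := v.map_sub_lt h'.2 h.2
  rw [← e, map_mul, map_pow] at this
  exact (mul_lt_iff_lt_one_left (pow_pos c.ctx.q_pos i)).1 this

theorem Lv_mul (c : DC v ϖ I) {i : ℕ} (hi : 0 < i) {b r b' r' : Ω} (h : Lv v ϖ i b r)
    (h' : Lv v ϖ i b' r') : Lv v ϖ i (b * b') (r + r') := by
  refine ⟨v.map_add_le h.1 h'.1, ?_⟩
  have e : b * b' - 1 - (r + r') * ϖ ^ i =
      (b - 1 - r * ϖ ^ i) + (b' - 1 - r' * ϖ ^ i) + (b - 1) * (b' - 1) := by ring
  rw [e]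
  refine v.map_add_lt (v.map_add_lt h.2 h'.2) ?_
  rw [map_mul]
  refine (mul_le_mul' (c.Lv_le h) (c.Lv_le h')).trans_lt ?_
  rw [← pow_add]; exact c.pow_lt (by omega)

theorem Lv_smul (c : DC v ϖ I) {i : ℕ} {b r θ : Ω} (h : Lv v ϖ i b r) {g : D} (hθ : g • ϖ = θ * ϖ) :
    Lv v ϖ i (g • b) (g • r * θ ^ i) := by
  have hv : v θ = 1 := by
    have := c.inv g ϖ
    rw [hθ, map_mul] at this
    exact mul_right_cancel₀ c.ctx.q_pos.ne' (this.trans (one_mul _).symm)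
  refine ⟨by rw [map_mul, map_pow, hv, one_pow, mul_one, c.inv]; exact h.1, ?_⟩
  have e : g • b - 1 - g • r * θ ^ i * ϖ ^ i = g • (b - 1 - r * ϖ ^ i) := by
    rw [smul_sub, smul_sub, smul_one, smul_mul', smul_pow', hθ]; ring
  rw [e, c.inv]; exact h.2

theorem Lv_tau (c : DC v ϖ I) {i : ℕ} {b r θ : Ω} (h : Lv v ϖ i b r) {τ : D} (hτ : τ ∈ I)
    (hθ : τ • ϖ = θ * ϖ) (h8 : θ ^ 8 = 1) : Lv v ϖ i (τ • b) (r * θ ^ i) := by
  refine c.Lv_congr (c.Lv_smul h hθ) ?_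
  rw [← sub_mul, map_mul, map_pow, v_root (by norm_num) h8, one_pow, mul_one]
  exact c.inert hτ h.1

/-- the eigenvalue of `τ` excludes the levels `1, 5, 7, 8, 11` -/
theorem ne_level (c : DC v ϖ I) {τ : D} (hτ : τ ∈ I) (h4 : (τ • ϖ) ^ 4 = -ϖ ^ 4) {x : Ω}
    (hy : Fx (SS I ϖ) (x * τ • x * τ • τ • x * τ • τ • τ • x)) {i : ℕ} (hi : i < 12)
    (h3 : ¬ 3 ∣ i) (ho : Odd i ∨ i = 8) : v (x ^ 3 - 1) ≠ v ϖ ^ i := by
  intro h
  obtain ⟨θ, h8, hθ⟩ := c.theta τ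
  have hθ4 : θ ^ 4 = -1 := by
    rw [hθ, mul_pow] at h4
    exact mul_right_cancel₀ (pow_ne_zero 4 c.ctx.w_ne) (by rw [h4]; ring)
  have hi0 : 0 < i := Nat.pos_of_ne_zero fun h0 => h3 (by simp [h0])
  have l0 := c.Lv_of_le h.le
  set r := (x ^ 3 - 1) / ϖ ^ i with hr
  have hvr : v r = 1 := by rw [hr, map_div₀, map_pow, h, div_self (pow_pos c.ctx.q_pos i).ne']
  have l1 := c.Lv_tau l0 hτ hθ h8
  have l2 := c.Lv_tau l1 hτ hθ h8
  have l3 := c.Lv_tau l2 hτ hθ h8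
  have l := c.Lv_mul hi0 (c.Lv_mul hi0 (c.Lv_mul hi0 l0 l1) l2) l3
  simp only [smul_pow'] at l
  rw [← mul_pow, ← mul_pow, ← mul_pow] at l
  refine c.nc hy hi h3 (c.Lv_eq l ?_)
  have e : r + r * θ ^ i + r * θ ^ i * θ ^ i + r * θ ^ i * θ ^ i * θ ^ i =
      r * (1 + θ ^ i + (θ ^ i) ^ 2 + (θ ^ i) ^ 3) := by ring
  rw [e, map_mul, hvr, one_mul]
  rcases ho with ho | rfl
  · have ht : v (θ ^ i) = 1 := by rw [map_pow, v_root (by norm_num) h8, one_pow]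
    have h5 : (θ ^ i) ^ 4 = -1 := by rw [← pow_mul, mul_comm, pow_mul, hθ4, ho.neg_one_pow]
    generalize θ ^ i = t at ht h5
    have h6 : (1 - t) * (1 + t + t ^ 2 + t ^ 3) = 2 := by linear_combination -h5
    have h7 := congrArg v h6
    rw [map_mul, c.v2] at h7
    have a1 : v (1 - t) ≤ 1 := v.map_sub_le (by simp) ht.le
    have a2 : v (1 + t + t ^ 2 + t ^ 3) ≤ 1 :=
      v.map_add_le (v.map_add_le (v.map_add_le (by simp) ht.le) (by simp [ht])) (by simp [ht])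
    exact le_antisymm a2 (h7 ▸ mul_le_of_le_one_left' a1)
  · rw [h8, show (1 + 1 + 1 ^ 2 + 1 ^ 3 : Ω) = 2 * 2 by norm_num, map_mul, c.v2, one_mul]

/-- normalisation of a Kummer generator -/
theorem norm10 (c : DC v ϖ I) {τ : D} (hτ : τ ∈ I) (h4 : (τ • ϖ) ^ 4 = -ϖ ^ 4) {ψ : D → Ω}
    (h3 : ∀ σ ∈ SS I ϖ, ψ σ ^ 3 = 1)
    (hQ : ∀ x, Kum (SS I ϖ) ψ x → Fx (SS I ϖ) (x * τ • x * τ • τ • x * τ • τ • τ • x))
    (hL : ∀ x, Kum (SS I ϖ) ψ x → v (x ^ 3 - 1) ≠ v ϖ ^ 2 ∧ v (x ^ 3 - 1) ≠ v ϖ ^ 4)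
    {x₀ : Ω} (h₀ : Kum (SS I ϖ) ψ x₀) : ∃ x, Kum (SS I ϖ) ψ x ∧ v (x ^ 3 - 1) ≤ v ϖ ^ 10 := by
  have hq := c.ctx.q_pos
  have up : ∀ (m : ℕ) (x : Ω), m ≤ 4 → Kum (SS I ϖ) ψ x → v x = 1 → v (x - 1) ≤ v ϖ ^ m →
      ∃ x', Kum (SS I ϖ) ψ x' ∧ v (x' ^ 3 - 1) ≤ v ϖ ^ (3 * m + 1) := by
    intro m x hm hx hx1 h
    have hw : ϖ ^ m ≠ 0 := pow_ne_zero _ c.ctx.w_ne
    obtain ⟨w, hw1, hw2⟩ := c.res ((x - 1) / ϖ ^ m) (by
      rw [map_div₀, map_pow]; exact div_le_one_of_le₀ h zero_le)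
    have h1 : v (x - (1 + w * ϖ ^ m)) < v ϖ ^ m := by
      have e : x - (1 + w * ϖ ^ m) = ((x - 1) / ϖ ^ m - w) * ϖ ^ m := by field_simp; ring
      rw [e, map_mul, map_pow]; exact mul_lt_of_lt_one_left (pow_pos hq m) hw2
    have h2 : v (1 + w * ϖ ^ m) = 1 := by
      have e : 1 + w * ϖ ^ m = x - (x - (1 + w * ϖ ^ m)) := by ring
      rw [e, v.map_sub_eq_of_lt_left (hx1 ▸ h1.trans_le (pow_le_one' c.ctx.q_lt.le _)), hx1]
    have h0 : 1 + w * ϖ ^ m ≠ 0 := by intro h; rw [h, map_zero] at h2; exact zero_ne_one h2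
    have hk := hx.div (Fx.one.add ((hw1.mono inf_le_left).mul (c.fw.pow m))) h0
    refine ⟨_, hk, c.disc ((hk.cube h3).sub Fx.one) (c.cube_lt hm ?_)⟩
    rwa [div_sub_one h0, map_div₀, h2, div_one]
  have start : ∃ x, Kum (SS I ϖ) ψ x ∧ v (x ^ 3 - 1) ≤ v ϖ ^ 1 := by
    have hv0 : v x₀ ≠ 0 := ((v.pos_iff).2 h₀.1).ne'
    obtain ⟨n, hn⟩ := c.val (pow_ne_zero 3 h₀.1) (h₀.cube h3)
    have hy0 : v (x₀ * τ • x₀ * τ • τ • x₀ * τ • τ • τ • x₀) = v x₀ ^ 3 * v x₀ := by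
      simp only [map_mul, c.inv]; ring
    obtain ⟨m, hm⟩ := c.val ((v.pos_iff).1 (by rw [hy0]; positivity)) (hQ x₀ h₀)
    rw [hy0, ← map_pow, hn] at hm
    have hz : ϖ ^ (m - n) ≠ 0 := zpow_ne_zero _ c.ctx.w_ne
    have hk := h₀.div (c.fw.zpow (m - n)) hz
    have h1 : v (x₀ / ϖ ^ (m - n)) = 1 := by
      rw [map_div₀, map_zpow₀, zpow_sub₀ hq.ne', ← hm, mul_div_cancel_left₀ _ (zpow_pos hq n).ne',
        div_self hv0]
    exact up 0 _ (by norm_num) hk h1 (by simpa using v.map_sub_le h1.le (by simp))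
  have step : ∀ i : ℕ, 0 < i → i < 10 → (∃ x, Kum (SS I ϖ) ψ x ∧ v (x ^ 3 - 1) ≤ v ϖ ^ i) →
      ∃ x, Kum (SS I ϖ) ψ x ∧ v (x ^ 3 - 1) ≤ v ϖ ^ (i + 1) := by
    rintro i hi0 hi ⟨x, hx, h⟩
    by_cases hd : 3 ∣ i
    · obtain ⟨m, rfl⟩ := hd
      have h1 := c.cube_le (by omega) h
      exact up m x (by omega) hx (v_eq_one_of (h1.trans_lt (by
        simpa using c.pow_lt (show 0 < m by omega)))) h1
    · refine ⟨x, hx, c.disc ((hx.cube h3).sub Fx.one) (lt_of_le_of_ne h ?_)⟩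
      by_cases h2 : i = 2
      · exact h2 ▸ (hL x hx).1
      by_cases h4' : i = 4
      · exact h4' ▸ (hL x hx).2
      refine c.ne_level hτ h4 (hQ x hx) (by omega) hd ?_
      rw [Nat.odd_iff]; omega
  have : ∀ i : ℕ, i ≤ 9 → ∃ x, Kum (SS I ϖ) ψ x ∧ v (x ^ 3 - 1) ≤ v ϖ ^ (i + 1) := by
    intro i
    induction i with
    | zero => exact fun _ => start
    | succ i ih => exact fun h => step (i + 1) (by omega) (by omega) (ih (by omega))
  exact this 9 le_rfl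

theorem triv10 (c : DC v ϖ I) {τ : D} (hτ : τ ∈ I) (h4 : (τ • ϖ) ^ 4 = -ϖ ^ 4) {ψ : D → Ω}
    (h3 : ∀ σ ∈ SS I ϖ, ψ σ ^ 3 = 1) {x : Ω} (hx : Kum (SS I ϖ) ψ x)
    (hQ : Fx (SS I ϖ) (x * τ • x * τ • τ • x * τ • τ • τ • x))
    (h : v (x ^ 3 - 1) < v ϖ ^ 10) : ∀ σ ∈ SS I ϖ, ψ σ = 1 := by
  have hf := (hx.cube h3).sub Fx.one
  refine c.triv hx h3 (c.disc hf (lt_of_le_of_ne (c.disc hf h) ?_))
  exact c.ne_level hτ h4 hQ (by norm_num) (by norm_num) (Or.inl (by decide))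

end DC

/-- existence of Kummer generators (Lagrange resolvent) -/
theorem exists_kum {S N : Subgroup D} (hN : N ≤ S) (hfin : N.relIndex S ≠ 0)
    (hcl : ∀ σ ∈ S, (∀ x : Ω, Fx N x → σ • x = x) → σ ∈ N) {ψ : D → Ω}
    (hmul : ∀ σ ∈ S, ∀ σ' ∈ S, ψ (σ * σ') = ψ σ * ψ σ') (h1 : ∀ σ ∈ N, ψ σ = 1)
    (hfx : ∀ σ ∈ S, Fx S (ψ σ)) : ∃ x, Kum S ψ x := by
  classical
  have hne : ∀ σ ∈ S, ψ σ ≠ 0 := fun σ hσ h0 => by
    have := hmul σ hσ σ⁻¹ (S.inv_mem hσ)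
    rw [mul_inv_cancel, h1 1 N.one_mem, h0, zero_mul] at this
    exact one_ne_zero this
  have : (N.subgroupOf S).FiniteIndex := ⟨hfin⟩
  have : Fintype (S ⧸ N.subgroupOf S) := Fintype.ofFinite _
  let L : Submonoid Ω :=
    { carrier := {x | Fx N x}, one_mem' := Fx.one, mul_mem' := fun ha hb => Fx.mul ha hb }
  let f : (S ⧸ N.subgroupOf S) → (L →* Ω) := fun q =>
    { toFun := fun y => (q.out : D) • (y : Ω), map_one' := smul_one _,
      map_mul' := fun a b => smul_mul' _ _ _ }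
  have hinj : Function.Injective f := by
    intro q q' h
    rw [← QuotientGroup.out_eq' q, ← QuotientGroup.out_eq' q', QuotientGroup.eq,
      Subgroup.mem_subgroupOf]
    refine hcl _ (Subtype.prop _) fun x hx => ?_
    have := DFunLike.congr_fun h ⟨x, hx⟩
    change (q.out : D) • x = (q'.out : D) • x at this
    rw [Subgroup.coe_mul, mul_smul, ← this, Subgroup.coe_inv, inv_smul_smul]
  have hli := (linearIndependent_monoidHom L Ω).comp f hinj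
  rw [Fintype.linearIndependent_iff] at hli
  have hex : ∃ y : L, ∑ q : S ⧸ N.subgroupOf S, (ψ q.out)⁻¹ * (q.out : D) • (y : Ω) ≠ 0 := by
    by_contra hall
    push Not at hall
    have := hli (fun q => (ψ q.out)⁻¹) (by
      ext y; simpa [Finset.sum_apply, f] using hall y) (1 : S)
    exact hne _ (Subtype.prop _) (inv_eq_zero.1 this)
  obtain ⟨y, hy⟩ := hex
  refine ⟨_, hy, fun σ hσ => ?_⟩
  rw [Finset.smul_sum, Finset.mul_sum]
  refine Fintype.sum_equiv (MulAction.toPerm (⟨σ, hσ⟩ : S)) _ _ fun q => ?_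
  have e : (MulAction.toPerm (⟨σ, hσ⟩ : S) q : S ⧸ N.subgroupOf S) =
      ((⟨σ, hσ⟩ * q.out : S) : S ⧸ N.subgroupOf S) := by
    conv_lhs => rw [← QuotientGroup.out_eq' q]
    rfl
  obtain ⟨n, hn⟩ := QuotientGroup.mk_out_eq_mul (N.subgroupOf S) (⟨σ, hσ⟩ * q.out)
  have hnN : ((n : S) : D) ∈ N := n.2
  rw [e, hn, Subgroup.coe_mul, Subgroup.coe_mul, hmul _ (S.mul_mem hσ (Subtype.prop _)) _ (hN hnN),
    h1 _ hnN, hmul _ hσ _ (Subtype.prop _), mul_smul, y.2 _ hnN, mul_smul, smul_mul',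
    (hfx _ (Subtype.prop _)).inv σ hσ]
  have := hne σ hσ
  field_simp

end Crest.Agent.T15.L3
end

-- ▼ part T15/L3M_27
section

/-!
# Row 15, LOC3, part M (helper27): linear algebra in characteristic three.
-/

set_option autoImplicit false

namespace Crest.Agent.T15.L3

open Matrix

variable {k : Type*} [Field k]

theorem two_ne3 [CharP k 3] : (2 : k) ≠ 0 := by
  intro h
  have h3 : (3 : k) = 0 := by simpa using CharP.cast_eq_zero k 3
  have : (1 : k) = 0 := by linear_combination h3 - h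
  exact one_ne_zero this

theorem half_zero {M : Type*} [AddCommGroup M] [Module k M] (h2 : (2 : k) ≠ 0) {x : M}
    (h : x = -x) : x = 0 := by
  have : (2 : k) • x = 0 := by rw [two_smul]; exact eq_neg_iff_add_eq_zero.1 h
  exact (smul_eq_zero.1 this).resolve_left h2

/-- `1, B, F, B F` is a basis: a matrix orthogonal to it for the trace form vanishes -/
theorem quat_zero (h2 : (2 : k) ≠ 0) {B F F' z : Matrix (Fin 2) (Fin 2) k} (hB : B * B = -1)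
    (hF : F * F' = 1) (hBF : B * F = -(F * B)) (h1 : z.trace = 0) (h2' : (B * z).trace = 0)
    (h3 : (F * z).trace = 0) (h4 : (B * F * z).trace = 0) : z = 0 := by
  have hB0 : B ≠ 0 := by
    rintro rfl
    have := congrFun (congrFun hB 0) 0
    simp at this
  have key : ∀ a b : k, a • (1 : Matrix (Fin 2) (Fin 2) k) + b • B = 0 → a = 0 ∧ b = 0 := by
    intro a b h
    have e1 : (a • (1 : Matrix (Fin 2) (Fin 2) k) + b • B) * F * F' = 0 := by rw [h]; simp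
    have e2 : F * (a • (1 : Matrix (Fin 2) (Fin 2) k) + b • B) * F' = 0 := by rw [h]; simp
    have e3 : (a + a) • (1 : Matrix (Fin 2) (Fin 2) k) = 0 := by
      have := congrArg₂ (· + ·) e1 e2
      simp only [add_mul, mul_add, smul_mul_assoc, mul_smul_comm, one_mul, mul_one, hBF, hF,
        neg_mul, smul_neg, add_zero] at this
      rw [add_smul, ← this]; abel
    have ha : a = 0 := by
      have := (smul_eq_zero.1 e3).resolve_right one_ne_zero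
      exact half_zero h2 (eq_neg_iff_add_eq_zero.2 this)
    refine ⟨ha, ?_⟩
    rw [ha, zero_smul, zero_add] at h
    exact (smul_eq_zero.1 h).resolve_right hB0
  have li : LinearIndependent k ![(1 : Matrix (Fin 2) (Fin 2) k), B, F, B * F] := by
    rw [Fintype.linearIndependent_iff]
    intro g hg
    simp only [Fin.sum_univ_four, cons_val_zero, cons_val_one, cons_val] at hg
    set P := g 0 • (1 : Matrix (Fin 2) (Fin 2) k) + g 1 • B with hP
    set Q := g 2 • (1 : Matrix (Fin 2) (Fin 2) k) + g 3 • B with hQ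
    have e0 : P + Q * F = 0 := by
      rw [← hg, hP, hQ, add_mul, smul_mul_assoc, smul_mul_assoc, one_mul]; abel
    have cP : B * P = P * B := by simp [hP, mul_add, add_mul]
    have cQ : B * Q = Q * B := by simp [hQ, mul_add, add_mul]
    have e1 : P * B - Q * F * B = 0 := by
      have : B * (P + Q * F) = 0 := by rw [e0, mul_zero]
      rw [mul_add, cP, ← mul_assoc, cQ, mul_assoc, hBF, mul_neg, ← mul_assoc] at this
      rw [sub_eq_add_neg, this]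
    have e2 : P * B + Q * F * B = 0 := by rw [← add_mul, e0, zero_mul]
    have e3 : P * B = 0 := half_zero h2 (eq_neg_iff_add_eq_zero.2 (by
      rw [← zero_add (0 : Matrix (Fin 2) (Fin 2) k)]
      nth_rewrite 1 [← e1]
      nth_rewrite 1 [← e2]
      abel))
    have e4 : P = 0 := by
      have : P * B * B = 0 := by rw [e3, zero_mul]
      rwa [mul_assoc, hB, mul_neg, mul_one, neg_eq_zero] at this
    have e5 : Q = 0 := by
      rw [e4, zero_add] at e0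
      have : Q * F * F' = 0 := by rw [e0, zero_mul]
      rwa [mul_assoc, hF, mul_one] at this
    obtain ⟨a0, a1⟩ := key _ _ e4
    obtain ⟨a2, a3⟩ := key _ _ e5
    intro i
    fin_cases i <;> assumption
  have sp := li.span_eq_top_of_card_eq_finrank' (by simp [Module.finrank_matrix])
  have all : ∀ y : Matrix (Fin 2) (Fin 2) k, (y * z).trace = 0 := by
    intro y
    have hy : y ∈ Submodule.span k (Set.range ![(1 : Matrix (Fin 2) (Fin 2) k), B, F, B * F]) := by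
      rw [sp]; trivial
    induction hy using Submodule.span_induction with
    | mem x hx =>
      obtain ⟨i, rfl⟩ := hx
      fin_cases i
      · simpa using h1
      · simpa using h2'
      · simpa using h3
      · simpa using h4
    | zero => simp
    | add x y _ _ hx hy => rw [add_mul, trace_add, hx, hy, add_zero]
    | smul a x _ hx => rw [smul_mul_assoc, trace_smul, hx, smul_zero]
  ext i j
  have := all (single j i 1)
  simpa [trace_single_mul] using this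

/-- a traceless matrix commuting with `B` and `F` vanishes -/
theorem quat_comm (h2 : (2 : k) ≠ 0) {B F F' z : Matrix (Fin 2) (Fin 2) k} (hB : B * B = -1)
    (hF : F * F' = 1) (hBF : B * F = -(F * B)) (h1 : z.trace = 0) (cB : B * z = z * B)
    (cF : F * z = z * F) : z = 0 := by
  have hF' : F' * F = 1 := mul_eq_one_comm.1 hF
  refine quat_zero h2 hB hF hBF h1 (half_zero h2 ?_) (half_zero h2 ?_) (half_zero h2 ?_)
  · calc (B * z).trace = (B * F * z * F').trace := by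
          rw [mul_assoc B F z, cF, mul_assoc, mul_assoc, hF, mul_one]
      _ = -(F * (B * z * F')).trace := by
          rw [hBF, neg_mul, neg_mul, trace_neg, ← mul_assoc, ← mul_assoc]
      _ = -(B * z).trace := by rw [trace_mul_comm F, mul_assoc, hF', mul_one]
  · have e : B * (F * z * B) = F * z := by
      rw [mul_assoc F z B, ← cB, ← mul_assoc, hBF, neg_mul, mul_assoc, ← mul_assoc B B, hB]
      simp
    calc (F * z).trace = (B * (F * z * B)).trace := by rw [e]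
      _ = -(F * z).trace := by
          rw [trace_mul_comm B, mul_assoc, hB, mul_neg, mul_one, trace_neg]
  · calc (B * F * z).trace = (F * z * B).trace := by rw [mul_assoc, trace_mul_comm]
      _ = -(B * F * z).trace := by
          rw [mul_assoc F z B, ← cB, ← mul_assoc, hBF, neg_mul, trace_neg, neg_neg]

/-- the trace form: additive functionals come from linear ones -/
theorem exists_tr (k : Type*) [Field k] [Finite k] [CharP k 3] :
    ∃ t : k →+ ZMod 3, (∀ s, (∀ c, t (c * s) = 0) → s = 0) ∧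
      ∀ f : k →+ ZMod 3, ∃ s, ∀ c, t (c * s) = f c := by
  have : Fact (Nat.Prime 3) := ⟨Nat.prime_three⟩
  let _ := ZMod.algebra k 3
  have hnd := traceForm_nondegenerate (ZMod 3) k
  refine ⟨(Algebra.trace (ZMod 3) k).toAddMonoidHom, fun s hs => ?_, fun f => ?_⟩
  · refine hnd.1 s fun c => ?_
    rw [Algebra.traceForm_apply, mul_comm]; exact hs c
  · refine ⟨((Algebra.traceForm (ZMod 3) k).toDual hnd).symm (f.toZModLinearMap 3), fun c => ?_⟩
    have := LinearMap.BilinForm.apply_toDual_symm_apply (hB := hnd) (f.toZModLinearMap 3) c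
    rw [Algebra.traceForm_apply, mul_comm] at this
    exact this

theorem exists_fun [Finite k] [CharP k 3] {V : Type*} [AddCommGroup V] [Module k V]
    (m : V →+ ZMod 3) : ∃ l : V →ₗ[k] k, ∀ u, l u = 0 → ∀ c : k, m (c • u) = 0 := by
  obtain ⟨t, h1, h2⟩ := exists_tr k
  choose s hs using fun u : V => h2 (m.comp ((smulAddHom k V).flip u))
  have hs' : ∀ u c, t (c * s u) = m (c • u) := fun u c => hs u c
  refine ⟨⟨⟨s, fun u u' => ?_⟩, fun a u => ?_⟩, fun u hu c => ?_⟩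
  · refine sub_eq_zero.1 (h1 _ fun c => ?_)
    rw [mul_sub, mul_add, map_sub, map_add, hs', hs', hs', smul_add, map_add, sub_self]
  · refine sub_eq_zero.1 (h1 _ fun c => ?_)
    simp only [RingHom.id_apply, smul_eq_mul]
    rw [mul_sub, map_sub, ← mul_assoc, hs', hs', mul_smul, sub_self]
  · have : s u = 0 := hu
    rw [← hs', this, mul_zero, map_zero]

end Crest.Agent.T15.L3
end

-- ▼ part T15/L3D_27
section

/-!
# Row 15, LOC3, part D (helper27): leading coefficients, Frobenius, the dimension bound `loc3`.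
-/

set_option autoImplicit false

open scoped NNReal
open Matrix

namespace Crest.Agent.T15.L3

variable {Ω : Type*} [Field Ω] {D : Type*} [Group D] [MulSemiringAction D Ω]
variable {v : Valuation Ω ℝ≥0} {ϖ : Ω} {I : Subgroup D}

/-- `r` is the leading coefficient (level ten) of a Kummer generator of `ψ` -/
def Rl (v : Valuation Ω ℝ≥0) (ϖ : Ω) (I : Subgroup D) (ψ : D → Ω) (r : Ω) : Prop :=
  ∃ x, Kum (SS I ϖ) ψ x ∧ Lv v ϖ 10 (x ^ 3) r

namespace DC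

theorem Rl_mul (c : DC v ϖ I) {ψ ψ' : D → Ω} {r r' : Ω} (h : Rl v ϖ I ψ r) (h' : Rl v ϖ I ψ' r') :
    Rl v ϖ I (fun σ => ψ σ * ψ' σ) (r + r') := by
  obtain ⟨x, a, b⟩ := h
  obtain ⟨x', a', b'⟩ := h'
  exact ⟨x * x', a.mul a', by rw [mul_pow]; exact c.Lv_mul (by norm_num) b b'⟩

theorem Rl_congr (_ : DC v ϖ I) {ψ ψ' : D → Ω} {r : Ω} (h : Rl v ϖ I ψ r)
    (he : ∀ σ ∈ SS I ϖ, ψ σ = ψ' σ) : Rl v ϖ I ψ' r := by
  obtain ⟨x, a, b⟩ := h
  exact ⟨x, a.congr he, b⟩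

theorem Rl_res (c : DC v ϖ I) {ψ : D → Ω} {r r' : Ω} (h : Rl v ϖ I ψ r) (hr : v (r - r') < 1) :
    Rl v ϖ I ψ r' := by
  obtain ⟨x, a, b⟩ := h
  exact ⟨x, a, c.Lv_congr b hr⟩

theorem Rl_uniq (c : DC v ϖ I) {ψ : D → Ω} (h3 : ∀ σ ∈ SS I ϖ, ψ σ ^ 3 = 1) {r r' : Ω}
    (h : Rl v ϖ I ψ r) (h' : Rl v ϖ I ψ r') : v (r - r') < 1 := by
  obtain ⟨x, a, b⟩ := h
  obtain ⟨x', a', b'⟩ := h'
  have hz : Fx (SS I ϖ) (x / x') := fun σ hσ => by
    have h0 : ψ σ ≠ 0 := fun h0 => by simpa [h0] using h3 σ hσ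
    rw [div_eq_mul_inv, smul_mul', smul_inv'', a.2 σ hσ, a'.2 σ hσ]
    have := a'.1
    field_simp
  have h1 : v ϖ ^ 10 < 1 := by simpa using c.pow_lt (show 0 < 10 by norm_num)
  have hv : v (x' ^ 3) = 1 := v_eq_one_of ((c.Lv_le b').trans_lt h1)
  have hle : v ((x / x') ^ 3 - 1) ≤ v ϖ ^ 10 := by
    have e : (x / x') ^ 3 - 1 = ((x ^ 3 - 1) - (x' ^ 3 - 1)) / x' ^ 3 := by
      have := a'.1
      field_simp
      ring
    rw [e, map_div₀, hv, div_one]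
    exact v.map_sub_le (c.Lv_le b) (c.Lv_le b')
  have hlt := lt_of_le_of_ne hle fun h => c.nc hz (by norm_num) (by norm_num) h
  have l0 : Lv v ϖ 10 ((x / x') ^ 3) 0 := ⟨by simp, by simpa using hlt⟩
  have l1 := c.Lv_mul (by norm_num) l0 b'
  rw [← mul_pow, div_mul_cancel₀ _ a'.1, zero_add] at l1
  exact c.Lv_uniq b l1

theorem Rl_smul (c : DC v ϖ I) {ψ : D → Ω} {r θ : Ω} (h : Rl v ϖ I ψ r) {g : D}
    (hθ : g • ϖ = θ * ϖ) : Rl v ϖ I (fun σ => g • ψ (g⁻¹ * σ * g)) (g • r * θ ^ 10) := by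
  obtain ⟨x, a, b⟩ := h
  exact ⟨g • x, a.smul c.SS_normal g, by rw [← smul_pow']; exact c.Lv_smul b hθ⟩

theorem Rl_one (c : DC v ϖ I) : Rl v ϖ I (fun _ => 1) 0 :=
  ⟨1, ⟨one_ne_zero, fun _ _ => by simp⟩, by simp, by simpa using pow_pos c.ctx.q_pos 10⟩

theorem v_int (c : DC v ϖ I) {n : ℤ} : v (n : Ω) < 1 ↔ ((n : ℤ) : ZMod 3) = 0 := by
  rw [ZMod.intCast_zmod_eq_zero_iff_dvd]
  have hle : ∀ m : ℤ, v (m : Ω) ≤ 1 := fun m => by
    have hn : ∀ a : ℕ, v (a : Ω) ≤ 1 := fun a => by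
      induction a with
      | zero => simp
      | succ a ih => push_cast; exact v.map_add_le ih (by simp)
    obtain ⟨a, rfl | rfl⟩ := m.eq_nat_or_neg
    · simpa using hn a
    · simpa using hn a
  have h3 : ∀ m : ℤ, v ((3 : Ω) * m) < 1 := fun m => by
    rw [map_mul]; exact (mul_le_of_le_one_right' (hle m)).trans_lt c.lt
  constructor
  · intro h
    by_contra hn
    have : n = 3 * (n / 3) + 1 ∨ n = 3 * (n / 3 + 1) - 1 := by omega
    rcases this with e | e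
    · have : (1 : Ω) = n - 3 * ((n / 3 : ℤ) : Ω) := by
        nth_rewrite 1 [e]; push_cast; ring
      have h1 := v.map_sub_lt h (h3 (n / 3))
      rw [← this, map_one] at h1
      exact lt_irrefl _ h1
    · have : (1 : Ω) = 3 * ((n / 3 + 1 : ℤ) : Ω) - n := by
        nth_rewrite 2 [e]; push_cast; ring
      have h1 := v.map_sub_lt (h3 (n / 3 + 1)) h
      rw [← this, map_one] at h1
      exact lt_irrefl _ h1
  · rintro ⟨m, rfl⟩
    push_cast
    exact h3 m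

theorem exists_int (_ : DC v ϖ I) {r : Ω} (h : v (r ^ 3 - r) < 1) : ∃ n : ℤ, v (r - n) < 1 := by
  by_contra hn
  push Not at hn
  have e : r ^ 3 - r = (r - (0 : ℤ)) * (r - (1 : ℤ)) * (r - (-1 : ℤ)) := by push_cast; ring
  rw [e, map_mul, map_mul] at h
  exact absurd h (not_lt.2 (one_le_mul (one_le_mul (hn _) (hn _)) (hn _)))

theorem pow_smul (c : DC v ϖ I) {τ : D} (hτ : τ ∈ I) {θ : Ω} (h8 : θ ^ 8 = 1) (hθ : τ • ϖ = θ * ϖ)
    (m : ℕ) : (τ ^ m) • ϖ = θ ^ m * ϖ := by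
  induction m with
  | zero => simp
  | succ m ih =>
    rw [pow_succ', mul_smul, ih, smul_mul', smul_pow', c.fx_root8 h8 τ hτ, hθ]; ring

theorem theta4 (c : DC v ϖ I) {τ : D} (h4 : (τ • ϖ) ^ 4 = -ϖ ^ 4) {θ : Ω} (hθ : τ • ϖ = θ * ϖ) :
    θ ^ 4 = -1 := by
  rw [hθ, mul_pow] at h4
  exact mul_right_cancel₀ (pow_ne_zero 4 c.ctx.w_ne) (by rw [h4]; ring)

/-- every conjugate of `ϖ` is a `τ ^ m • ϖ` -/
theorem exists_pow (c : DC v ϖ I) {τ : D} (hτ : τ ∈ I) (h4 : (τ • ϖ) ^ 4 = -ϖ ^ 4) (g : D) :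
    ∃ m < 8, g • ϖ = (τ ^ m) • ϖ := by
  obtain ⟨θ, h8, hθ⟩ := c.theta τ
  obtain ⟨η, h8', hη⟩ := c.theta g
  have hθ4 := c.theta4 h4 hθ
  have ho : orderOf θ = 2 ^ (2 + 1) := orderOf_eq_prime_pow (p := 2) (by
    intro h
    rw [show 2 ^ 2 = 4 from rfl, hθ4] at h
    exact c.two_ne (by linear_combination -h)) (by simpa using h8)
  have hp := IsPrimitiveRoot.orderOf θ
  rw [ho] at hp
  obtain ⟨m, hm, e⟩ := hp.eq_pow_of_pow_eq_one (ξ := η) (by simpa using h8')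
  exact ⟨m, by simpa using hm, by rw [c.pow_smul hτ h8 hθ, e, hη]⟩

theorem mem_SS (_ : DC v ϖ I) {a b : D} (ha : a ∈ I) (hb : b ∈ I) (h : a • ϖ = b • ϖ) :
    a⁻¹ * b ∈ SS I ϖ :=
  ⟨I.mul_mem (I.inv_mem ha) hb, by
    show (a⁻¹ * b) • ϖ = ϖ
    rw [mul_smul, ← h, inv_smul_smul]⟩

/-- a Frobenius element fixing `ϖ` -/
theorem exists_fr (c : DC v ϖ I) {τ : D} (hτ : τ ∈ I) (h4 : (τ • ϖ) ^ 4 = -ϖ ^ 4) (F0 : D)
    (hF0 : ∀ x, v x ≤ 1 → v (F0 • x - x ^ 3) < 1) (hcomm : ∀ g, F0 * g * F0⁻¹ * g⁻¹ ∈ I) :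
    ∃ Fr : D, Fr • ϖ = ϖ ∧ (∀ x, v x ≤ 1 → v (Fr • x - x ^ 3) < 1) ∧
      (∀ g, Fr * g * Fr⁻¹ * g⁻¹ ∈ I) ∧ (τ ^ 3)⁻¹ * (Fr * τ * Fr⁻¹) ∈ SS I ϖ := by
  obtain ⟨m, -, hm⟩ := c.exists_pow hτ h4 F0
  have hi : (τ ^ m)⁻¹ ∈ I := I.inv_mem (I.pow_mem hτ m)
  have h1 : ((τ ^ m)⁻¹ * F0) • ϖ = ϖ := by rw [mul_smul, hm, inv_smul_smul]
  have h2 : ∀ x, v x ≤ 1 → v (((τ ^ m)⁻¹ * F0) • x - x ^ 3) < 1 := fun x hx => by
    have e : ((τ ^ m)⁻¹ * F0) • x - x ^ 3 =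
        ((τ ^ m)⁻¹ • F0 • x - F0 • x) + (F0 • x - x ^ 3) := by rw [mul_smul]; ring
    rw [e]
    exact v.map_add_lt (c.inert hi (by rwa [c.inv])) (hF0 x hx)
  refine ⟨_, h1, h2, fun g => ?_, ?_⟩
  · have e : (τ ^ m)⁻¹ * F0 * g * ((τ ^ m)⁻¹ * F0)⁻¹ * g⁻¹ =
        (τ ^ m)⁻¹ * (F0 * g * F0⁻¹ * g⁻¹) * (g * τ ^ m * g⁻¹) := by group
    rw [e]
    exact I.mul_mem (I.mul_mem hi (hcomm g)) (c.normal.conj_mem _ (I.pow_mem hτ m) g)
  · set Fr := (τ ^ m)⁻¹ * F0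
    obtain ⟨θ, h8, hθ⟩ := c.theta τ
    have hv : v θ = 1 := v_root (by norm_num) h8
    have h0 : θ ≠ 0 := by rintro rfl; simp at h8
    have h3 : Fr • θ = θ ^ 3 := by
      have := c.root8 (t := Fr • θ / θ ^ 3) (by
        rw [div_pow, ← smul_pow', h8, smul_one, ← pow_mul, mul_comm, pow_mul, h8]; simp) (by
        rw [div_sub_one (pow_ne_zero _ h0), map_div₀, map_pow, hv, one_pow, div_one]
        exact h2 θ hv.le)
      exact (div_eq_one_iff_eq (pow_ne_zero _ h0)).1 this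
    refine c.mem_SS (I.pow_mem hτ 3) (c.normal.conj_mem _ hτ _) ?_
    have h5 : Fr⁻¹ • ϖ = ϖ := by rw [inv_smul_eq_iff, h1]
    rw [c.pow_smul hτ h8 hθ, mul_smul, mul_smul, h5, hθ, smul_mul', h3, h1]


/-- the additive character with values in the cube roots of unity -/
theorem exists_e (c : DC v ϖ I) : ∃ e : ZMod 3 → Ω, (∀ a b, e (a + b) = e a * e b) ∧ e 0 = 1 ∧
    (∀ a, e a ^ 3 = 1) ∧ (∀ a, e a = 1 → a = 0) ∧ (∀ g : D, g • ϖ = ϖ → ∀ a, g • e a = e a) ∧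
    ∀ g : D, (g • ϖ) ^ 4 = -ϖ ^ 4 → ∀ a, g • e a = e (-a) := by
  have h2 := c.two_ne
  set ζ : Ω := (-1 + ϖ ^ 4) / 2 with hζ
  have h8 : (ϖ ^ 4) ^ 2 = -3 := by rw [← pow_mul]; exact c.h8
  have q : ζ ^ 2 + ζ + 1 = 0 := by
    rw [hζ]; field_simp; linear_combination h8
  have h3 : ζ ^ 3 = 1 := by linear_combination (ζ - 1) * q
  have h1 : ζ ≠ 1 := fun h => c.ne (by rw [h] at q; linear_combination q)
  have hg : ∀ g : D, g • ζ = (-1 + (g • ϖ) ^ 4) / 2 := fun g => by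
    have : g • (2 : Ω) = 2 := by simpa using (Fx.nat 2 : Fx ⊤ ((2 : ℕ) : Ω)) g (Subgroup.mem_top g)
    rw [hζ, div_eq_mul_inv, smul_mul', smul_inv'', this, smul_add, smul_neg, smul_one, smul_pow',
      div_eq_mul_inv]
  let e := AddChar.zmodChar 3 h3
  have he : ∀ a, e a = ζ ^ a.val := fun a => AddChar.zmodChar_apply h3 a
  refine ⟨e, fun a b => e.map_add_eq_mul a b, e.map_zero_eq_one, fun a => ?_, fun a ha => ?_,
    fun g hg' a => ?_, fun g hg' a => ?_⟩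
  · rw [he, ← pow_mul, mul_comm, pow_mul, h3, one_pow]
  · have hp : IsPrimitiveRoot ζ 3 := by
      have : Fact (Nat.Prime 3) := ⟨Nat.prime_three⟩
      have := IsPrimitiveRoot.orderOf ζ
      rwa [orderOf_eq_prime h3 h1] at this
    rw [he, hp.pow_eq_one_iff_dvd] at ha
    exact (ZMod.val_eq_zero a).1 (Nat.eq_zero_of_dvd_of_lt ha (ZMod.val_lt a))
  · rw [he, smul_pow', hg, hg']
  · have : g • ζ = ζ ^ 2 := by
      rw [hg, hg']
      have : ζ ^ 2 = -1 - ζ := by linear_combination q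
      rw [this, hζ]; field_simp; ring
    have e2 : -a = a + a := by revert a; decide
    rw [e2, e.map_add_eq_mul, he, smul_pow', this, ← pow_mul, two_mul, pow_add]

end DC

end Crest.Agent.T15.L3
end

-- ▼ part T15/L3E_27
section

/-!
# Row 15, LOC3, part E (helper27): the dimension bound `loc3`.
-/

set_option autoImplicit false

open scoped NNReal
open Matrix

namespace Crest.Agent.T15.L3

variable {Ω : Type*} [Field Ω] {D : Type*} [Group D] [MulSemiringAction D Ω]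
variable {v : Valuation Ω ℝ≥0} {ϖ : Ω} {I : Subgroup D} {k : Type*} [Field k]

/-- an equivariant homomorphism `ker ρ → ad⁰ ρ` -/
structure Cl (ρ : D →* Matrix (Fin 2) (Fin 2) k) (f : D → Matrix (Fin 2) (Fin 2) k) : Prop where
  add : ∀ n n', ρ n = 1 → ρ n' = 1 → f (n * n') = f n + f n'
  conj : ∀ g n, ρ n = 1 → f (g * n * g⁻¹) = ρ g * f n * ρ g⁻¹
  tr : ∀ n, ρ n = 1 → (f n).trace = 0

theorem Cl.tr_conj {ρ : D →* Matrix (Fin 2) (Fin 2) k} {f : D → Matrix (Fin 2) (Fin 2) k}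
    (h : Cl ρ f) (y : Matrix (Fin 2) (Fin 2) k) (g : D) {σ : D} (hσ : ρ σ = 1) :
    (y * f (g⁻¹ * σ * g)).trace = (ρ g * y * ρ g⁻¹ * f σ).trace := by
  have := h.conj g⁻¹ σ hσ
  rw [inv_inv] at this
  rw [this, ← mul_assoc, trace_mul_comm]
  simp only [mul_assoc]

/-- **LOC3**: flat classes span at most a line locally at `3`. -/
theorem loc3 (c : DC v ϖ I) [Finite k] [CharP k 3] (ρ : D →* Matrix (Fin 2) (Fin 2) k) (F0 : D)
    (hF0 : ∀ x, v x ≤ 1 → v (F0 • x - x ^ 3) < 1) (hcomm : ∀ g, F0 * g * F0⁻¹ * g⁻¹ ∈ I)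
    (hS : ∀ σ ∈ SS I ϖ, ρ σ = 1) (h4 : ∀ τ ∈ I, (τ • ϖ) ^ 4 = -ϖ ^ 4 → ρ τ ^ 4 = -1)
    {V : Type*} [AddCommGroup V] [Module k V] (φ : V →ₗ[k] (D → Matrix (Fin 2) (Fin 2) k))
    (hφ : ∀ u, Cl ρ (φ u)) (N : Subgroup D) (hN : N ≤ SS I ϖ) (hfin : N.relIndex (SS I ϖ) ≠ 0)
    (hcl : ∀ σ ∈ SS I ϖ, (∀ x : Ω, Fx N x → σ • x = x) → σ ∈ N) (h0 : ∀ u, ∀ σ ∈ N, φ u σ = 0)
    (hK : ∀ x : Ω, x ≠ 0 → Fx N x → Fx (SS I ϖ) (x ^ 3) →
      v (x ^ 3 - 1) ≠ v ϖ ^ 2 ∧ v (x ^ 3 - 1) ≠ v ϖ ^ 4) :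
    ∃ l : V →ₗ[k] k, ∀ u, l u = 0 → ∀ n, ρ n = 1 → φ u n = 0 := by
  have h2 : (2 : k) ≠ 0 := two_ne3
  obtain ⟨τ, hτ, hτ4⟩ := c.exists_tau
  obtain ⟨Fr, hF1, hF2, hF3, hF4⟩ := c.exists_fr hτ hτ4 F0 hF0 hcomm
  obtain ⟨e, e1, e0, e3, einj, efix, eneg⟩ := c.exists_e
  obtain ⟨t, ht, -⟩ := exists_tr k
  obtain ⟨θ, h8, hθ⟩ := c.theta τ
  have hθ4 := c.theta4 hτ4 hθ
  have hA4 : ρ τ ^ 4 = -1 := h4 τ hτ hτ4
  set A := ρ τ with hA
  set A' := ρ τ⁻¹ with hA'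
  set F := ρ Fr with hF
  set F' := ρ Fr⁻¹ with hF'
  have hAA : A * A' = 1 := by rw [hA, hA', ← map_mul, mul_inv_cancel, map_one]
  have hAA' : A' * A = 1 := by rw [hA, hA', ← map_mul, inv_mul_cancel, map_one]
  have hFF : F * F' = 1 := by rw [hF, hF', ← map_mul, mul_inv_cancel, map_one]
  have hFA : F * A = A ^ 3 * F := by
    have e : Fr * τ = τ ^ 3 * ((τ ^ 3)⁻¹ * (Fr * τ * Fr⁻¹)) * Fr := by group
    rw [hF, hA, ← map_mul, e, map_mul, map_mul, hS _ hF4, mul_one, map_pow]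
  have hB : A * A * (A * A) = -1 := by rw [← hA4]; noncomm_ring
  have hBF : A * A * F = -(F * (A * A)) := by
    have : F * (A * A) = A ^ 4 * (A * A * F) := by
      rw [← mul_assoc, hFA, mul_assoc, hFA]; noncomm_ring
    rw [this, hA4]; noncomm_ring
  -- the characters
  let ch : V → Matrix (Fin 2) (Fin 2) k → D → Ω := fun u y σ => e (t (y * φ u σ).trace)
  have ch3 : ∀ u y, ∀ σ ∈ SS I ϖ, ch u y σ ^ 3 = 1 := fun u y σ _ => e3 _
  have chτ : ∀ u y, ∀ σ ∈ SS I ϖ, τ • ch u y (τ⁻¹ * σ * τ) = ch u (-(A * y * A')) σ := by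
    intro u y σ hσ
    simp only [ch]
    rw [eneg τ hτ4, (hφ u).tr_conj y τ (hS σ hσ), neg_mul, trace_neg, map_neg]
  have kτ : ∀ u y x, Kum (SS I ϖ) (ch u y) x → Kum (SS I ϖ) (ch u (-(A * y * A'))) (τ • x) :=
    fun u y x h => (h.smul c.SS_normal τ).congr (chτ u y)
  have hQ : ∀ u y, (A * y * A' = y ∨ A * (A * y * A') * A' = -y) → ∀ x,
      Kum (SS I ϖ) (ch u y) x → Fx (SS I ϖ) (x * τ • x * τ • τ • x * τ • τ • τ • x) := by
    intro u y hy x h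
    have k1 := kτ u _ _ h
    have k2 := kτ u _ _ k1
    have k3 := kτ u _ _ k2
    refine (((h.mul k1).mul k2).mul k3).fx fun σ _ => ?_
    simp only [ch]
    rw [← e1, ← e1, ← e1, ← map_add, ← map_add, ← map_add, ← trace_add, ← trace_add, ← trace_add,
      ← add_mul, ← add_mul, ← add_mul]
    have : y + -(A * y * A') + -(A * -(A * y * A') * A') +
        -(A * -(A * -(A * y * A') * A') * A') = 0 := by
      simp only [mul_neg, neg_mul, neg_neg]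
      rcases hy with hy | hy
      · simp only [hy]; abel
      · simp only [hy, mul_neg, neg_mul]; abel
    rw [this, zero_mul, trace_zero, map_zero, e0]
  have hex : ∀ u y, (A * y * A' = y ∨ A * (A * y * A') * A' = -y) → ∃ r, Rl v ϖ I (ch u y) r := by
    intro u y hy
    have hN1 : ∀ σ ∈ N, ch u y σ = 1 := fun σ hσ => by
      simp only [ch]; rw [h0 u σ hσ, mul_zero, trace_zero, map_zero, e0]
    obtain ⟨x₀, hx₀⟩ := exists_kum hN hfin hcl (ψ := ch u y) (fun σ hσ σ' hσ' => by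
      simp only [ch]
      rw [(hφ u).add σ σ' (hS σ hσ) (hS σ' hσ'), mul_add, trace_add, map_add, e1]) hN1
      (fun σ _ g hg => efix g hg.2 _)
    obtain ⟨x, hx, hv⟩ := c.norm10 hτ hτ4 (ch3 u y) (hQ u y hy) (fun x hx => hK x hx.1
      (fun σ hσ => by rw [hx.2 σ (hN hσ), hN1 σ hσ, one_mul]) (hx.cube (ch3 u y))) hx₀
    exact ⟨_, x, hx, c.Lv_of_le hv⟩
  have hzero : ∀ u y, (A * y * A' = y ∨ A * (A * y * A') * A' = -y) → ∀ r,
      Rl v ϖ I (ch u y) r → v r < 1 → ∀ σ ∈ SS I ϖ, t (y * φ u σ).trace = 0 := by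
    rintro u y hy r ⟨x, hx, hl⟩ hr σ hσ
    exact einj _ (c.triv10 hτ hτ4 (ch3 u y) hx (hQ u y hy x hx) (c.Lv_lt hl hr) σ hσ)
  have lin : ∀ u y σ, (∀ a : k, t (y * φ (a • u) σ).trace = 0) → (y * φ u σ).trace = 0 := by
    intro u y σ h
    refine ht _ fun a => ?_
    have := h a
    rwa [map_smul, Pi.smul_apply, mul_smul_comm, trace_smul, smul_eq_mul] at this
  -- the direction `A ^ 2`
  have yB : A * (A * A) * A' = A * A := by rw [mul_assoc, mul_assoc, hAA, mul_one]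
  have hBz : ∀ u, ∀ σ ∈ SS I ϖ, (A * A * φ u σ).trace = 0 := by
    intro u σ hσ
    refine lin u _ σ fun a => ?_
    obtain ⟨r, hr⟩ := hex (a • u) _ (Or.inl yB)
    refine hzero _ _ (Or.inl yB) r hr ?_ σ hσ
    have hr1 : v r ≤ 1 := hr.choose_spec.2.1
    have hv : v θ = 1 := DC.v_root (by norm_num) h8
    have r1 := c.Rl_res (r' := r * θ ^ 10) (c.Rl_congr (c.Rl_smul hr hθ) (chτ _ _)) (by
      rw [← sub_mul, map_mul, map_pow, hv, one_pow, mul_one]; exact c.inert hτ hr1)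
    have r2 := c.Rl_congr (ψ' := fun _ => 1) (c.Rl_mul hr r1) fun σ _ => by
      simp only [ch]
      rw [← e1, ← map_add, ← trace_add, ← add_mul, yB, add_neg_cancel, zero_mul, trace_zero,
        map_zero, e0]
    have r3 := c.Rl_uniq (fun _ _ => one_pow 3) r2 c.Rl_one
    have e : 2 * r = (r + r * θ ^ 10 - 0) * (1 - θ ^ 10) := by
      have : θ ^ 20 = -1 := by rw [show 20 = 4 * 5 from rfl, pow_mul, hθ4]; norm_num
      linear_combination r * this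
    have : v (2 * r) < 1 := by
      rw [e, map_mul]
      exact (mul_le_of_le_one_right' (v.map_sub_le (by simp) (by simp [hv]))).trans_lt r3
    rwa [map_mul, c.v2, one_mul] at this
  -- the direction `F`
  have yF : A * (A * F * A') * A' = -F := by
    calc A * (A * F * A') * A' = A * A * F * A' * A' := by noncomm_ring
      _ = -(F * (A * (A * A') * A')) := by rw [hBF]; noncomm_ring
      _ = -F := by rw [hAA, mul_one, hAA, mul_one]
  have hn : ∀ u, ∃ n : ℤ, Rl v ϖ I (ch u F) n := by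
    intro u
    obtain ⟨r, hr⟩ := hex u _ (Or.inr yF)
    have hr1 : v r ≤ 1 := hr.choose_spec.2.1
    have r1 := c.Rl_congr (ψ' := ch u F) (c.Rl_smul hr (g := Fr) (θ := 1) (by rw [hF1, one_mul]))
      fun σ hσ => by
        simp only [ch]
        rw [efix Fr hF1, (hφ u).tr_conj F Fr (hS σ hσ), ← hF, ← hF', mul_assoc F F F', hFF, mul_one]
    have r2 := c.Rl_uniq (ch3 u F) r1 hr
    obtain ⟨n, hn⟩ := c.exists_int (r := r) (by
      have e : r ^ 3 - r = (Fr • r * 1 ^ 10 - r) - (Fr • r - r ^ 3) := by ring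
      rw [e]; exact v.map_sub_lt r2 (hF2 r hr1))
    exact ⟨n, c.Rl_res hr hn⟩
  choose nn hnn using hn
  let m : V →+ ZMod 3 := AddMonoidHom.mk' (fun u => (nn u : ZMod 3)) fun u u' => by
    have r1 := c.Rl_congr (ψ' := ch (u + u') F) (c.Rl_mul (hnn u) (hnn u')) fun σ _ => by
      simp only [ch]
      rw [map_add φ, Pi.add_apply, mul_add, trace_add, map_add, e1]
    have r2 := c.Rl_uniq (ch3 _ F) (hnn (u + u')) r1
    have := (c.v_int (n := nn (u + u') - (nn u + nn u'))).1 (by push_cast; exact r2)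
    push_cast at this
    exact sub_eq_zero.1 this
  obtain ⟨l, hl⟩ := exists_fun (k := k) m
  refine ⟨l, fun u hu => ?_⟩
  have hFz : ∀ σ ∈ SS I ϖ, (F * φ u σ).trace = 0 := fun σ hσ => lin u _ σ fun a =>
    hzero _ _ (Or.inr yF) _ (hnn (a • u)) (c.v_int.2 (hl u hu a)) σ hσ
  have hSz : ∀ σ ∈ SS I ϖ, φ u σ = 0 := by
    intro σ hσ
    refine quat_zero h2 hB hFF hBF ((hφ u).tr σ (hS σ hσ)) (hBz u σ hσ) (hFz σ hσ) ?_
    have := hFz _ (c.SS_normal.conj_mem' σ hσ τ⁻¹)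
    rw [(hφ u).tr_conj F τ⁻¹ (hS σ hσ), inv_inv, ← hA, ← hA', mul_assoc A' F A, hFA,
      show A' * (A ^ 3 * F) = A' * A * (A * A * F) by noncomm_ring, hAA', one_mul] at this
    exact this
  have ker : ∀ σ ∈ I, ρ σ = 1 → σ ∈ SS I ϖ := by
    intro σ hσ h1
    obtain ⟨i, hi, e⟩ := c.exists_pow hτ hτ4 σ
    have h5 := hS _ (c.mem_SS hσ (I.pow_mem hτ i) e)
    have h6 : A ^ i = 1 := by
      rw [hA, ← map_pow, ← mul_inv_cancel_left σ (τ ^ i), map_mul, h5, h1, mul_one]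
    have ho : orderOf A = 2 ^ (2 + 1) := orderOf_eq_prime_pow (p := 2) (by
      intro h
      rw [show 2 ^ 2 = 4 from rfl, hA4] at h
      have := congrFun (congrFun h 0) 0
      simp only [Matrix.neg_apply, one_apply_eq] at this
      exact h2 (by linear_combination -this)) (by
      rw [show 2 ^ (2 + 1) = 4 * 2 from rfl, pow_mul, hA4]; simp)
    have hd := orderOf_dvd_of_pow_eq_one h6
    rw [ho] at hd
    obtain rfl : i = 0 := Nat.eq_zero_of_dvd_of_lt hd (by simpa using hi)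
    exact ⟨hσ, by simpa using e⟩
  intro n hn
  have cm : ∀ g : D, g * n * g⁻¹ * n⁻¹ ∈ I → ρ g * φ u n = φ u n * ρ g := by
    intro g hg
    have hn' : ρ n⁻¹ = 1 := by rw [← mul_one (ρ n⁻¹), ← hn, ← map_mul, inv_mul_cancel, map_one, hn]
    have hgg : ρ g⁻¹ * ρ g = 1 := by rw [← map_mul, inv_mul_cancel, map_one]
    have h1 : ρ (g * n * g⁻¹ * n⁻¹) = 1 := by
      rw [map_mul, hn', mul_one, map_mul, map_mul, hn, mul_one, ← map_mul, mul_inv_cancel, map_one]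
    have h3 := (hφ u).add _ n h1 hn
    rw [inv_mul_cancel_right, (hφ u).conj g n hn, hSz _ (ker _ hg h1), zero_add] at h3
    nth_rewrite 2 [← h3]
    rw [mul_assoc, hgg, mul_one]
  have cA := cm τ (by
    have := I.mul_mem hτ (c.normal.conj_mem _ (I.inv_mem hτ) n)
    simpa [mul_assoc] using this)
  refine quat_comm h2 hB hFF hBF ((hφ u).tr n hn) ?_ (cm Fr (hF3 n))
  rw [mul_assoc, cA, ← mul_assoc, cA, mul_assoc]

end Crest.Agent.T15.L3
end

-- ▼ part T15/FlTop_23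

/-!
# Row 15, block Fl: the local bound at `3` in global words (helper23)
-/

set_option autoImplicit false

noncomputable section

namespace Crest.Agent.T15.FlTop

open scoped NNReal
open Crest.Agent.T15.C (Om Gam In De om Hyp Cls Triv)
open Crest.Agent.T15.Ps Crest.Agent.T15.Fl Crest.Agent.T15.FlR Crest.Agent.T15.L3

/-- the kernel of a flat module is open -/
theorem exists_fix {Ω : Type*} [Field Ω] [IsAlgClosed Ω] [CharZero Ω] {w : Valuation Ω ℝ≥0}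
    {G : Type*} [Group G] [MulSemiringAction G Ω] (hM : Mono w G) {V : Type*} [AddCommGroup V]
    [Finite V] {ρ : G → V → V} (hF : Flat w G ρ) :
    ∃ α : Ω, ∀ g g' : G, g • α = g' • α → ∀ v, ρ g v = ρ g' v := by
  have hch : ∀ u : V, ∃ χ : AddChar V Ω, u ≠ 0 → χ u ≠ 1 := fun u => by
    by_cases hu : u = 0
    · exact ⟨1, fun h => absurd hu h⟩
    · obtain ⟨χ, h⟩ := exists_char (Ω := Ω) hu
      exact ⟨χ, fun _ => h⟩
  choose χ hχ using hch
  obtain ⟨α, -, -, hq⟩ := exists_poly hM (fun (x : V × V) g => χ x.1 (ρ g x.2))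
    (fun x => hF x.2 (χ x.1))
  refine ⟨α, fun g g' h v => ?_⟩
  by_contra hne
  apply hχ _ (sub_ne_zero.mpr hne)
  obtain ⟨q, hq⟩ := hq (ρ g v - ρ g' v, v)
  have := (hq g).trans (h ▸ (hq g').symm)
  rw [AddChar.map_sub_eq_div, this]
  exact div_self (AddChar.val_isUnit _ _).ne_zero

variable {ι : Om →+* ℂ} {P : Top.Plc} (Λ : Loc3 ι P)

theorem dc {π : ℂ} (hπ : π ^ 8 = -3) : DC Λ.w π Λ.I where
  inv := Λ.w_D
  normal := ⟨fun n hn g => by
    have := Λ.I.mul_mem (Λ.comm_mem_I g n) hn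
    simpa using this⟩
  h8 := hπ
  ne := by norm_num
  lt := Λ.w3
  unr := fun _ h0 hx => Λ.disc_I h0 hx
  res := fun _ hx => Λ.res_I hx

theorem exists_tame8 {π : ℂ} (hπ : π ^ 8 = -3) : ∃ (ζ : ℂ) (t : Λ.G), Tame Λ.w 8 π ζ t := by
  have hζ := Complex.isPrimitiveRoot_exp 8 (by norm_num)
  obtain ⟨ζ, hζ⟩ : ∃ ζ : ℂ, IsPrimitiveRoot ζ 8 := ⟨_, hζ⟩
  have hw8 : Λ.w ((8 : ℕ) : ℂ) = 1 := Λ.w_natCast (by norm_num)
  have hwζ : Λ.w ζ = 1 := w_eq_one_of_pow (by norm_num) hζ.pow_eq_one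
  have hζ0 : ζ ≠ 0 := hζ.ne_zero (by norm_num)
  refine ⟨ζ, exists_tame Λ.w_G Λ.w3 ((Valuation.ne_zero_iff _).mpr (by norm_num))
    (fun x hx h0 => disc_of Λ.ctx x h0 hx) hw8 hζ (fun g => ?_) (fun g => ?_) ?_⟩
  · have h1 : g ζ / ζ = 1 := by
      refine eq_one_of_pow (m := 8) hw8 ?_ ?_
      · rw [div_pow, ← map_pow, hζ.pow_eq_one, map_one, div_one]
      · have : g ζ / ζ - 1 = (g ζ - ζ) / ζ := by field_simp
        rw [this, map_div₀, hwζ, div_one]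
        exact Λ.w_G_sub g hwζ.le
    exact (div_eq_one_iff_eq hζ0).mp h1
  · rw [hπ]
    change g (-3) = -3
    rw [map_neg, map_ofNat]
  · rw [← map_pow, hπ, Valuation.map_neg]

variable {k : Type} [Field k] [Finite k] [CharP k 3] {ρ : Gam →* M2 k}

omit [Finite k] [CharP k 3] in
theorem pow_four (hyp : Hyp ρ) (loc : Top.Loc ρ P) {π : ℂ} (hπ : π ^ 8 = -3) (t : Λ.D) (ht : t ∈ Λ.I)
    (h : (t • π) ^ 4 = -π ^ 4) : ρ (Λ.rD t) ^ 4 = -1 := by
  have hne : Λ.rD t om ≠ om := by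
    intro hom
    have h1 : t (ι om) = ι om := by rw [← Λ.iota_rD, hom]
    have h2 : ι om ^ 2 + ι om + 1 = 0 := by
      have h3 := (C.om_spec.map_of_injective ι.injective).geom_sum_eq_zero (by norm_num)
      simp only [Finset.sum_range_succ, Finset.range_zero, Finset.sum_empty] at h3
      linear_combination h3
    have h4 : (2 * ι om + 1 - π ^ 4) * (2 * ι om + 1 + π ^ 4) = 0 := by
      linear_combination 4 * h2 - hπ
    have h5 : t (π ^ 4) = -π ^ 4 := by rw [map_pow]; exact h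
    have h6 : π ^ 4 = 0 := by
      rcases mul_eq_zero.mp h4 with h7 | h7
      · have := congrArg t h7
        rw [map_sub, map_add, map_mul, map_ofNat, map_one, map_zero, h1, h5] at this
        linear_combination (this - h7) / 2
      · have := congrArg t h7
        rw [map_add, map_add, map_mul, map_ofNat, map_one, map_zero, h1, h5] at this
        linear_combination (h7 - this) / 2
    have : (-3 : ℂ) = 0 := by rw [← hπ]; linear_combination π ^ 4 * h6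
    norm_num at this
  rw [loc.2 _ ((Λ.rD_mem_inertia t).mpr ht), hyp.det, if_neg hne]
  simp

omit [CharP k 3] in
theorem eq_one_of_fix (hyp : Hyp ρ) (loc : Top.Loc ρ P) {π ζ : ℂ} {t : Λ.G} (T : Tame Λ.w 8 π ζ t)
    (g : Λ.G) (hg : g • π = π) : ρ (Λ.rG g) = 1 := by
  have key := T.eq_one_of_comm (fun g _ hx => Λ.w_G_sub g hx) (ρ.comp Λ.rG).toHomUnits
    (fun s t => Units.ext (loc.1 _ (Λ.rG_mem s) _ (Λ.rG_mem t))) (fun s => Units.ext ?_)
    (fun N hN => ?_) hg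
  · exact congrArg Units.val key
  · change ρ (Λ.rG s) ^ (4 * 2) = 1
    rw [pow_mul, loc.2 _ (Λ.rG_mem s), hyp.det]
    split_ifs <;> simp
  · obtain ⟨L, h1, h2, -⟩ := Λ.exists_field_G hyp.opn
    refine clo_of_open N L (h2 ▸ fun s hs => hN ?_)
    exact Units.ext hs

theorem fix_of_eq_one (hyp : Hyp ρ) (loc : Top.Loc ρ P) {π ζ : ℂ} (hπ : π ^ 8 = -3) {t : Λ.G}
    (T : Tame Λ.w 8 π ζ t) (g : Λ.G) (hg : ρ (Λ.rG g) = 1) : g • π = π := by
  obtain ⟨i, -, hi⟩ := T.exists_pow g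
  have h1 : ρ (Λ.rG ((t ^ i)⁻¹ * g)) = 1 := eq_one_of_fix Λ hyp loc T _ (by
    rw [mul_smul, hi, inv_smul_eq_iff, T.pow_smul])
  have h2 : ρ (Λ.rG t) ^ i = 1 := by
    have : ρ (Λ.rG (t ^ i)) * ρ (Λ.rG ((t ^ i)⁻¹ * g)) = ρ (Λ.rG g) := by
      rw [← map_mul, ← map_mul, mul_inv_cancel_left]
    rwa [h1, hg, mul_one, map_pow, map_pow] at this
  have h4 : ρ (Λ.rG t) ^ 4 = -1 := pow_four Λ hyp loc hπ (Λ.inc t) (Λ.inc_mem t) (by
    have h3 : ζ ^ 4 = -1 := (T.prim.pow (by norm_num) (show 8 = 4 * 2 by norm_num)).eq_neg_one_of_two_right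
    change (t • π) ^ 4 = _
    rw [T.tp, mul_pow, h3]; ring)
  have h8 : orderOf (ρ (Λ.rG t)) = 2 ^ (2 + 1) := by
    refine orderOf_eq_prime_pow (fun h => ?_) ?_
    · rw [show 2 ^ 2 = 4 by norm_num, h4] at h
      have h5 := congrFun (congrFun h 0) 0
      simp only [Matrix.neg_apply, Matrix.one_apply_eq] at h5
      have h6 : ((3 : ℕ) : k) = 0 := CharP.cast_eq_zero k 3
      have : (1 : k) = 0 := by push_cast at h6; linear_combination h6 + h5
      exact one_ne_zero this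
    · rw [show 2 ^ (2 + 1) = 4 * 2 by norm_num, pow_mul, h4]; simp
  have h9 : 8 ∣ i := by simpa [h8] using orderOf_dvd_of_pow_eq_one h2
  rw [hi, (T.prim.pow_eq_one_iff_dvd i).mpr h9, one_mul]

/-- **the local bound at `3`** -/
theorem l3_lin (hyp : Hyp ρ) (loc : Top.Loc ρ P) {W : Type} [AddCommGroup W] [Finite W]
    (τ : Gam →* AddMonoid.End W) (h3 : ∀ x : W, 3 • x = 0)
    (hF : Flat Λ.w Λ.G (fun g x => τ (Λ.rG g) x)) {V : Type} [AddCommGroup V] [Module k V]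
    (c : V →ₗ[k] (Gam → M2 k)) (hc : ∀ v, Cls ρ (c v))
    (hker : ∀ g ∈ In P, τ g = 1 → ρ g = 1 ∧ ∀ v, c v g = 0) :
    ∃ l : V →ₗ[k] k, ∀ v, l v = 0 → Triv ρ (c v) (De P) := by
  obtain ⟨π, hπ⟩ := IsAlgClosed.exists_pow_nat_eq (-3 : ℂ) (n := 8) (by norm_num)
  obtain ⟨ζ, t, T⟩ := exists_tame8 Λ hπ
  obtain ⟨F0, hF0⟩ := Λ.exists_frob
  have hD := dc Λ hπ
  have hfinE : Finite (AddMonoid.End W) := Finite.of_injective _ DFunLike.coe_injective
  obtain ⟨N, hN⟩ : ∃ N, N = SS Λ.I π ⊓ (τ.comp Λ.rD).toHomUnits.ker := ⟨_, rfl⟩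
  have hNm : ∀ s, s ∈ N ↔ (s ∈ Λ.I ∧ s • π = π) ∧ τ (Λ.rD s) = 1 := fun s => by
    rw [hN, Subgroup.mem_inf, MonoidHom.mem_ker, Units.ext_iff]; rfl
  refine Exists.imp (fun l hl v hv n hn hρ => ?_) (loc3 hD (ρ.comp Λ.rD) F0 hF0 (Λ.comm_mem_I F0)
    (fun s hs => by
      obtain ⟨g, rfl⟩ := Λ.exists_inc hs.1
      exact eq_one_of_fix Λ hyp loc T g hs.2)
    (fun t ht h => pow_four Λ hyp loc hπ t ht h) ((LinearMap.funLeft k (M2 k) Λ.rD).comp c)
    (fun u => ⟨fun n n' h h' => by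
      change c u (Λ.rD (n * n')) = _
      rw [map_mul]; exact (hc u).add _ _ h h', fun g n h => by
      change c u (Λ.rD (g * n * g⁻¹)) = ρ (Λ.rD g) * c u (Λ.rD n) * ρ (Λ.rD g⁻¹)
      rw [map_mul, map_mul, map_inv]; exact (hc u).conj _ _ h, fun n h => (hc u).tr _ h⟩)
    N (hN ▸ inf_le_left)
    (by rw [hN, Subgroup.inf_relIndex_left]; exact Subgroup.FiniteIndex.index_ne_zero)
    (fun s hs h => ?_)
    (fun u s hs => (hker _ ((Λ.rD_mem_inertia s).mpr ((hNm s).mp hs).1.1) ((hNm s).mp hs).2).2 u)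
    (fun x hx0 hxN hx3 => ?_))
  · obtain ⟨s, rfl⟩ := Λ.exists_rD hn
    exact hl v hv s hρ
  · obtain ⟨g, rfl⟩ := Λ.exists_inc hs.1
    obtain ⟨α, hα⟩ := exists_fix (mono_of Λ.ctx Λ.full) hF
    have : FiniteDimensional Λ.Fn (IntermediateField.adjoin Λ.Fn ({π, α} : Set ℂ)) :=
      IntermediateField.finiteDimensional_adjoin fun x _ => Algebra.IsIntegral.isIntegral x
    refine clo_of_open (N.comap Λ.inc) (IntermediateField.adjoin Λ.Fn ({π, α} : Set ℂ))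
      (fun u hu => ?_) g fun y hy => h y fun n hn => ?_
    · rw [IntermediateField.mem_fixingSubgroup_iff] at hu
      refine (hNm _).mpr ⟨⟨Λ.inc_mem u, hu π (IntermediateField.subset_adjoin _ _ (by simp))⟩, ?_⟩
      ext v
      have := hα u 1 (by
        rw [one_smul]; exact hu α (IntermediateField.subset_adjoin _ _ (by simp))) v
      simpa [Λ.rG_apply] using this
    · obtain ⟨u, rfl⟩ := Λ.exists_inc ((hNm n).mp hn).1.1
      exact hy u hn
  · have key : ∀ j : ℕ, j ≤ 4 → ¬ 3 ∣ j → Λ.w (x ^ 3 - 1) ≠ Λ.w π ^ j := by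
      intro j hj hj3 hxj
      have hq0 := hD.ctx.q_pos
      have hq1 := hD.ctx.q_lt
      have hq8 := hD.ctx.q8
      have hj0 : j ≠ 0 := by rintro rfl; simp at hj3
      have hx1 : Λ.w x = 1 := by
        have h1 : Λ.w (x ^ 3) = 1 := v_eq_one_of (hxj ▸ pow_lt_one₀ zero_le hq1 hj0)
        rw [map_pow] at h1
        exact (pow_eq_one_iff_of_nonneg zero_le (by norm_num)).mp h1
      have hbig : Λ.w π ^ 4 < Λ.w (x - 1) := by
        by_contra hcon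
        push Not at hcon
        have e : x ^ 3 - 1 = (x - 1) ^ 3 + 3 * x * (x - 1) := by ring
        have h2 : Λ.w (x ^ 3 - 1) ≤ Λ.w π ^ 12 := by
          rw [e]
          refine (Λ.w.map_add _ _).trans (max_le ?_ ?_)
          · rw [map_pow]
            exact (pow_le_pow_left' hcon 3).trans (le_of_eq (by ring))
          · rw [map_mul, map_mul, hx1, mul_one, ← hq8]
            exact (mul_le_mul_right hcon _).trans (le_of_eq (by ring))
        rw [hxj] at h2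
        exact absurd h2 (not_le.mpr (pow_lt_pow_right_of_lt_one₀ hq0 hq1 (by omega)))
      rw [hD.cube_big hx1.le hbig] at hxj
      refine kumF' Λ.ctx Λ.full hF (fun v => by simp) (fun g g' v => by simp) h3 π x hπ
        (fun g hg => ?_) (fun g hg => hx3 (Λ.inc g) ⟨Λ.inc_mem g, hg⟩) j hj hj3 ?_
      · have h1 : τ (Λ.rG g) = 1 := AddMonoidHom.ext hg
        have h2 := fix_of_eq_one Λ hyp loc hπ T g (hker _ (Λ.rG_mem g) h1).1
        exact ⟨h2, hxN (Λ.inc g) ((hNm _).mpr ⟨⟨Λ.inc_mem g, h2⟩, h1⟩)⟩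
      · rw [show 24 = 3 * 8 by norm_num, pow_mul, hxj, ← hq8]; ring
    exact ⟨key 2 (by norm_num) (by norm_num), key 4 (by norm_num) (by norm_num)⟩

omit [Finite k] [CharP k 3] in
theorem cls_comb {c c' : Gam → M2 k} (h : Cls ρ c) (h' : Cls ρ c') (a b : k) :
    Cls ρ (a • c + b • c') where
  add n n' h1 h2 := by
    simp only [Pi.add_apply, Pi.smul_apply, h.add n n' h1 h2, h'.add n n' h1 h2, smul_add]; abel
  conj g n h1 := by
    simp only [Pi.add_apply, Pi.smul_apply, h.conj g n h1, h'.conj g n h1, mul_add, add_mul,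
      mul_smul_comm, smul_mul_assoc]
  tr n h1 := by simp [h.tr n h1, h'.tr n h1]
  opn := by
    obtain ⟨U, hU, h1⟩ := h.opn
    obtain ⟨U', hU', h2⟩ := h'.opn
    exact ⟨U ⊓ U', hU.inter hU', fun n hn hρ => by simp [h1 n hn.1 hρ, h2 n hn.2 hρ]⟩

/-- **the local bound at `3`** in the words of `Sel_78` -/
theorem selL3 (hyp : Hyp ρ) (loc : Top.Loc ρ P) : Sel.L3 Λ.w Λ.G Λ.rG ρ P := by
  intro X _ _ τ h3 _ hF hle c c' hc hc' ht ht'
  obtain ⟨l, hl⟩ := l3_lin Λ hyp loc τ h3 hF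
    ((LinearMap.toSpanSingleton k _ c).coprod (LinearMap.toSpanSingleton k _ c'))
    (fun v => cls_comb hc hc' v.1 v.2) (fun g _ hg => ⟨hle hg, fun v => by
      simp [ht g hg (hle hg), ht' g hg (hle hg)]⟩)
  obtain ⟨v, hv, hv0⟩ : ∃ v : k × k, l v = 0 ∧ v ≠ 0 := by
    have h := LinearMap.ker_ne_bot_of_finrank_lt (f := l) (by simp)
    obtain ⟨v, hv, hv0⟩ := Submodule.exists_mem_ne_zero_of_ne_bot h
    exact ⟨v, hv, hv0⟩
  refine ⟨v.1, v.2, ?_, hl v hv⟩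
  by_contra hcon
  push Not at hcon
  exact hv0 (Prod.ext hcon.1 hcon.2)

/-- the same for `X = Lc.of h3 Λ` -/
theorem l3_top (h3 : P.rchar = 3) (k : Type) [Field k] [Finite k] [CharP k 3] (ρ : Gam →* M2 k)
    (hyp : Hyp ρ) (loc : Top.Loc ρ (Top.Lc.of h3 Λ).P) :
    Sel.L3 (Top.Lc.of h3 Λ).w (Top.Lc.of h3 Λ).G (Top.Lc.of h3 Λ).r ρ (Top.Lc.of h3 Λ).P :=
  selL3 Λ hyp loc


end Crest.Agent.T15.FlTop
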