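import Crest.Agent.T15.RTDef_3

-- ▼ part T15/RTa_3
section

/-!
# Row 15, block R (helper3): proof of the abstract `R = T` theorem, part a (modules)

A free module over the group ring in matrices, and the norm element.
-/

set_option autoImplicit false
set_option linter.unusedSectionVars false

noncomputable section

namespace Crest.Agent.T15.RT

open IsLocalRing Function
open Crest.Agent.T15.Pat

section nil

variable {O A : Type*} [CommRing O] [IsLocalRing O] [CommRing A] [Algebra O A] [Finite A]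

lemma nil_of_mem {a : O} (h : a ∈ maximalIdeal O) : IsNilpotent (algebraMap O A a) :=
  ⟨Nat.card A, by
    rw [← map_pow]; exact pow_le_ker (algebraMap O A) (Ideal.pow_mem_pow h _)⟩

lemma nil_of_tn {a : A} (h : TN O a) : IsNilpotent a := by
  obtain ⟨N, hN⟩ := h
  refine ⟨N * Nat.card A, ?_⟩
  have h1 := Ideal.pow_mem_pow hN (Nat.card A)
  rw [← Ideal.map_pow, (Ideal.map_eq_bot_iff_le_ker _).2 (pow_le_ker (algebraMap O A))] at h1
  rw [pow_mul]; exact h1

lemma two_unit {p : ℕ} (hp : p.Prime) (h2 : p ≠ 2) (hpm : (p : O) ∈ maximalIdeal O) :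
    ∃ h : O, 2 * h = 1 := by
  obtain ⟨k, hk⟩ := hp.odd_of_ne_two h2
  refine IsUnit.exists_right_inv ?_
  by_contra h
  have h1 : (2 : O) ∈ maximalIdeal O := h
  have h3 := sub_mem hpm (Ideal.mul_mem_right (k : O) _ h1)
  rw [hk] at h3
  push_cast at h3
  rw [add_sub_cancel_left] at h3
  exact (maximalIdeal.isMaximal O).ne_top ((Ideal.eq_top_iff_one _).2 h3)

end nil

section mod

variable {O C Δ H A d : Type*} [CommRing O] [CommRing C] [Algebra O C] [CommGroup Δ] [Fintype Δ]
  [AddCommGroup H] [Module O H] [Module C H] [IsScalarTower O C H] [CommRing A] [Algebra O A]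
  [Fintype d] [DecidableEq d]

/-- a faithful module that is free over the group ring, in matrices -/
theorem exists_phi (surj : Surjective (algebraMap O C)) (ac : A →ₐ[O] Module.End O H)
    (hac : Injective ac) (dia : Δ →* A) (m : d → H)
    (hli : LinearIndependent C (fun q : Δ × d => ac (dia q.1) (m q.2)))
    (hsp : Submodule.span C (Set.range fun q : Δ × d => ac (dia q.1) (m q.2)) = ⊤) :
    ∃ (φ : A →+* Matrix d d (MonoidAlgebra C Δ)) (L : MonoidAlgebra C Δ →+* A), Injective φ ∧
      (∀ x, L (MonoidAlgebra.of C Δ x) = dia x) ∧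
      (∀ a, L (algebraMap O _ a) = algebraMap O A a) ∧ ∀ b, φ (L b) = Matrix.scalar d b := by
  have hk : RingHom.ker (algebraMap O C) ≤ RingHom.ker (algebraMap O A) := fun a ha => by
    refine hac (LinearMap.ext fun v => ?_)
    rw [AlgHom.commutes, map_zero, Module.algebraMap_end_apply, ← algebraMap_smul C a v,
      RingHom.mem_ker.1 ha, zero_smul, LinearMap.zero_apply]
  let ι : C →+* A := RingHom.liftOfSurjective _ surj ⟨algebraMap O A, hk⟩
  have hι : ∀ a, ι (algebraMap O C a) = algebraMap O A a := fun a =>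
    RingHom.liftOfRightInverse_comp_apply _ _ _ _ a
  let _ : Algebra C A := ι.toAlgebra
  have hιv : ∀ (c : C) (v : H), ac (algebraMap C A c) v = c • v := fun c v => by
    obtain ⟨a, rfl⟩ := surj c
    change ac (ι _) v = _
    rw [hι, AlgHom.commutes, Module.algebraMap_end_apply, algebraMap_smul]
  let L : MonoidAlgebra C Δ →ₐ[C] A := MonoidAlgebra.lift C A Δ dia
  have hL : ∀ (b : MonoidAlgebra C Δ) (v : H),
      ac (L b) v = ∑ x, b.coeff x • ac (dia x) v := fun b v => by
    rw [MonoidAlgebra.lift_apply, Finsupp.sum_fintype _ _ (fun _ => by rw [zero_smul]), map_sum,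
      LinearMap.sum_apply]
    refine Finset.sum_congr rfl fun x _ => ?_
    rw [Algebra.smul_def, map_mul, Module.End.mul_apply, hιv]
  let _ : Module A H := Module.compHom H ac.toRingHom
  let _ : Module (MonoidAlgebra C Δ) H := Module.compHom H L.toRingHom
  have hsm : ∀ (b : MonoidAlgebra C Δ) (v : H), b • v = ac (L b) v := fun _ _ => rfl
  have hsA : ∀ (a : A) (v : H), a • v = ac a v := fun _ _ => rfl
  have : SMulCommClass A (MonoidAlgebra C Δ) H := ⟨fun a b v => by
    rw [hsm, hsm, hsA, hsA, ← Module.End.mul_apply, ← Module.End.mul_apply, ← map_mul, ← map_mul,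
      mul_comm]⟩
  have h1 : LinearIndependent (MonoidAlgebra C Δ) m := by
    rw [Fintype.linearIndependent_iff] at hli ⊢
    intro g hg i
    have := hli (fun q => (g q.2).coeff q.1) (by
      rw [← hg, Fintype.sum_prod_type_right]
      exact Finset.sum_congr rfl fun j _ => by rw [hsm, hL])
    ext x
    exact this (x, i)
  have h2 : ⊤ ≤ Submodule.span (MonoidAlgebra C Δ) (Set.range m) := by
    intro v hv
    clear hv
    have hv : v ∈ Submodule.span C (Set.range fun q : Δ × d => ac (dia q.1) (m q.2)) := by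
      rw [hsp]; trivial
    induction hv using Submodule.span_induction with
    | mem v hv =>
      obtain ⟨q, rfl⟩ := hv
      have := Submodule.smul_mem (Submodule.span (MonoidAlgebra C Δ) (Set.range m))
        (MonoidAlgebra.of C Δ q.1) (Submodule.subset_span ⟨q.2, rfl⟩)
      rwa [hsm, MonoidAlgebra.lift_of] at this
    | zero => exact zero_mem _
    | add a b _ _ ha hb => exact add_mem ha hb
    | smul c a _ ha =>
      have := Submodule.smul_mem _ (algebraMap C (MonoidAlgebra C Δ) c) ha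
      rwa [hsm, AlgHom.commutes, hιv] at this
  let b := Module.Basis.mk h1 h2
  refine ⟨(LinearMap.toMatrixAlgEquiv b).toRingEquiv.toRingHom.comp
    (Module.toModuleEnd (MonoidAlgebra C Δ) H), L.toRingHom, ?_, fun x => ?_, fun a => ?_,
    fun β => ?_⟩
  · refine (LinearMap.toMatrixAlgEquiv b).injective.comp fun a a' h => hac ?_
    exact LinearMap.ext fun v => LinearMap.congr_fun h v
  · exact MonoidAlgebra.lift_of _ _
  · rw [IsScalarTower.algebraMap_apply O C (MonoidAlgebra C Δ)]
    exact (L.commutes _).trans (hι a)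
  · exact (LinearMap.toMatrixAlgEquiv b).commutes β

end mod

section norm

variable {O C Δ ι : Type*} [CommRing O] [IsLocalRing O] [IsNoetherianRing O] [CommRing C]
  [Algebra O C] [Module.Finite O C] [CommGroup Δ] [Fintype Δ] [Fintype ι] {p n : ℕ} {del : ι → Δ}

/-- the annihilator of the norm is the augmentation ideal -/
theorem mem_of_norm (h : TWg p n del) (hO : Cpt (maximalIdeal O)) (hp : p.Prime)
    (hpm : (p : O) ∈ maximalIdeal O) (surj : Surjective (algebraMap O C))
    {β : MonoidAlgebra C Δ} (hβ : (∑ x, MonoidAlgebra.of C Δ x) * β = 0) :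
    β ∈ (RingHom.ker (MvPowerSeries.constantCoeff (σ := ι) (R := O))).map (h.gr C hO hp hpm) := by
  classical
  let dg : MonoidAlgebra C Δ →ₐ[C] C := MonoidAlgebra.lift C C Δ 1
  have h1 : ∀ b : MonoidAlgebra C Δ,
      (∑ x, MonoidAlgebra.of C Δ x) * b = dg b • ∑ x, MonoidAlgebra.of C Δ x := fun b => by
    induction b using MonoidAlgebra.induction_on with
    | of g =>
      rw [MonoidAlgebra.lift_of, MonoidHom.one_apply, one_smul, Finset.sum_mul]
      simp only [← map_mul]
      exact Fintype.sum_equiv (Equiv.mulRight g) _ _ fun _ => rfl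
    | add x y hx hy => rw [mul_add, hx, hy, map_add, add_smul]
    | smul c x hx => rw [mul_smul_comm, hx, map_smul, smul_eq_mul, mul_smul]
  have h2 : dg β = 0 := by
    rw [h1] at hβ
    have := congrArg (fun b : MonoidAlgebra C Δ => b.coeff 1) hβ
    simpa [Finsupp.single_apply] using this
  obtain ⟨f, rfl⟩ := h.gr_surjective C hO hp hpm surj β
  have h3 : dg.toRingHom.comp (h.gr C hO hp hpm) =
      (algebraMap O C).comp MvPowerSeries.constantCoeff :=
    mv_ext_zero (fun a => by
      rw [RingHom.comp_apply, TWg.gr_C, IsScalarTower.algebraMap_apply O C (MonoidAlgebra C Δ)]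
      exact (dg.commutes _).trans (by simp)) (fun i => by simp [dg]) fun i => by simp
  have h4 : algebraMap O C (MvPowerSeries.constantCoeff f) = 0 :=
    (RingHom.congr_fun h3 f).symm.trans h2
  have h5 : h.gr C hO hp hpm f =
      h.gr C hO hp hpm (f - MvPowerSeries.C (MvPowerSeries.constantCoeff f)) := by
    rw [map_sub, TWg.gr_C, IsScalarTower.algebraMap_apply O C (MonoidAlgebra C Δ), h4, map_zero,
      sub_zero]
  rw [h5]
  exact Ideal.mem_map_of_mem _ (by simp [RingHom.mem_ker])

end norm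

end Crest.Agent.T15.RT

end
end

-- ▼ part T15/RTb_3
section

/-!
# Row 15, block R (helper3): proof of the abstract `R = T` theorem, part b (the trace ring)

Generators of the trace ring at one level, from the Selmer bound.
-/

set_option autoImplicit false
set_option linter.unusedSectionVars false

noncomputable section

namespace Crest.Agent.T15.RT

open Matrix IsLocalRing Function
open Crest.Agent.T15.Ps Crest.Agent.T15.Pat Crest.Agent.T15.Blr Crest.Agent.T15.Inert
open Crest.Agent.R018.Placesx484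

lemma exp_twg {p n : ℕ} {ι Δ : Type*} [Fintype ι] [CommGroup Δ] {del : ι → Δ} (h : TWg p n del) :
    ∃ M : ℕ, ∀ x : Δ, x ^ p ^ M = 1 := by
  choose m hm using h.ord
  refine ⟨∑ i, m i, fun x => ?_⟩
  obtain ⟨k, rfl⟩ := h.gen x
  rw [← Finset.prod_pow]
  refine Finset.prod_eq_one fun i _ => ?_
  obtain ⟨c, hc⟩ := pow_dvd_pow p
    (Finset.single_le_sum (f := m) (fun _ _ => Nat.zero_le _) (Finset.mem_univ i))
  rw [← pow_mul, mul_comm, pow_mul, hc, pow_mul, hm, one_pow, one_pow]

variable {F E : Type} [Field F] [NumberField F] [Field E] [CharZero E] [IsAlgClosed E]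
  [Algebra.IsAlgebraic ℚ E] [Algebra F E] [IsGalois F E]
  {O : Type} [CommRing O] [IsLocalRing O] [IsNoetherianRing O]
  {O' : Type} [CommRing O'] [Algebra O O'] {p n r e : ℕ} {ρ : (E ≃ₐ[F] E) →* M2 O} {Λ : Type}
  {Pl : Λ → Place E} {d C C' Δ H A : Type} [CommRing C] [Algebra O C] [CommRing C'] [CommGroup Δ]
  [AddCommGroup H] [Module O H] [Module C H] [CommRing A] [Algebra O A] {q' : O' →+* C'}
  {del : Fin r → Δ} {δ : (E ≃ₐ[F] E) →* Δ} {ρH : (E ≃ₐ[F] E) →* Module.End O H}
  {ac : A →ₐ[O] Module.End O H} {dia : Δ →* A} {t : (E ≃ₐ[F] E) → A} {θ : A →+* C'}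

set_option maxHeartbeats 800000 in
/-- generators of the trace ring -/
theorem gal_step (hG : Glob p ρ Pl) (hL : Lev p n r e ρ Pl d C q' del δ ρH ac dia t θ)
    (hac : Injective ac) [Finite A] (sq : Δ →* Δ) (hsq : ∀ x, sq x ^ 2 * x = 1) :
    ∃ (u v : Λ × Bool → trRing O (fun g => dia (sq (δ g)) * t g) (bar C ρ))
      (xs : Fin r → trRing O (fun g => dia (sq (δ g)) * t g) (bar C ρ)),
      Algebra.adjoin O (Set.range xs ∪ Set.range u) = ⊤ ∧ (∀ i, IsNilpotent (xs i)) ∧
      (∀ j, (u j * v j) ^ 2 = 0) ∧ (∀ j, trX O _ _ (u j) = 0) ∧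
      ∀ j, θ (trAl O _ _ (v j)) = ((Pl j.1).qv F : C') ^ 2 - 1 := by
  classical
  have hfC := hL.finC
  have hp : Fact p.Prime := ⟨hG.prime⟩
  let k := ResidueField O
  obtain ⟨M, hM⟩ := exp_twg hL.twg
  let _ : Module A H := Module.compHom H ac.toRingHom
  have hsA : ∀ (a : A) (v : H), a • v = ac a v := fun _ _ => rfl
  have : IsScalarTower O A H := ⟨fun a b v => by
    rw [hsA, hsA, map_smul, LinearMap.smul_apply]⟩
  have hc : ∀ g (a : A) v, ρH g (a • v) = a • ρH g v := fun g a v =>
    LinearMap.congr_fun (hL.comm g a) v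
  let χ : (E ≃ₐ[F] E) →* A := dia.comp (sq.comp δ)
  let ψ : (E ≃ₐ[F] E) →* O := detMonoidHom.comp ρ
  let D : (E ≃ₐ[F] E) →* A := ((algebraMap O A).toMonoidHom.comp ψ) * dia.comp δ
  have hχ : ∀ g, χ g ^ 2 * D g = algebraMap O A (ψ g) := fun g => by
    change dia (sq (δ g)) ^ 2 * (algebraMap O A (ψ g) * dia (δ g)) = _
    rw [mul_left_comm, ← map_pow, ← map_mul, hsq, map_one, mul_one]
  have hCH : ∀ g v, ρH g v + D g • ρH g⁻¹ v = t g • v := fun g v => by
    have := LinearMap.congr_fun (hL.ch g) v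
    rw [hsA, hsA, ← this]
    change _ + ac (algebraMap O A (ψ g) * dia (δ g)) _ = _
    rw [map_mul, AlgHom.commutes]
    rfl
  have hk : ∀ a : O, algebraMap O k a = 0 ↔ a ∈ maximalIdeal O := fun a => residue_eq_zero_iff a
  let πC : C →ₐ[O] k := AlgHom.liftOfSurjective (Algebra.ofId O C) hL.surj (Algebra.ofId O k)
    fun a ha => (hk a).2 (Ideal.pow_le_self (Nat.succ_ne_zero n) (hL.ker ha))
  have hA : ∀ a : O, algebraMap O k a = 0 → IsNilpotent (algebraMap O A a) := fun a ha =>
    nil_of_mem ((hk a).1 ha)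
  have hC : ∀ z, πC z = 0 → IsNilpotent z := fun z hz => by
    obtain ⟨a, rfl⟩ := hL.surj z
    exact nil_of_mem ((hk a).1 (by rwa [AlgHom.commutes] at hz))
  have hnil : ∀ g, ∃ a : O, IsNilpotent (dia (sq (δ g)) * t g - algebraMap O A a) ∧
      algebraMap O k a = πC (bar C ρ g).trace := fun g => by
    refine ⟨(ρ g).trace, ?_, by rw [trace_bar, AlgHom.commutes]⟩
    have h1 : IsNilpotent (t g - algebraMap O A (ρ g).trace) := by
      obtain ⟨N, hN⟩ := hL.res g
      exact ⟨N, hac (by rw [map_pow, hN, map_zero])⟩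
    have h2 : IsNilpotent (dia (sq (δ g)) - 1) := nil_of_tn (O := O)
      (TN.sub_one hG.prime hG.pmem (m := M) (by rw [← map_pow, hM, map_one]))
    have := (Commute.all _ _).isNilpotent_add
      ((Commute.all (dia (sq (δ g))) _).isNilpotent_mul_left h1)
      ((Commute.all _ (algebraMap O A (ρ g).trace)).isNilpotent_mul_right h2)
    convert this using 1
    ring
  obtain ⟨h, h2⟩ := two_unit hG.prime hG.odd hG.pmem
  obtain ⟨c, hcc, hdc⟩ := hG.conjc
  have hloc : IsLocalHom (algebraMap O k) := inferInstanceAs (IsLocalHom (residue O))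
  obtain ⟨σ, P, j, s1, s2, -, s4, s5, s6, -, s8⟩ := trace_ring (k := k)
    (t := fun g => dia (sq (δ g)) * t g) (ρ := bar C ρ) (tw χ ρH hc)
    (fun a ha => hac (LinearMap.ext fun v => by rw [map_zero]; exact ha v)) (tw_comm ρH hc χ) ψ
    (tw_ch ρH hc D χ t hCH ψ hχ) (fun g => ((algebraMap O C).map_det (ρ g)).symm) πC hnil hA hC
    hG.irr (fun g => by rw [trace_bar, trace_bar, AlgHom.commutes]) h2 hcc hdc
  let R := trRing O (fun g => dia (sq (δ g)) * t g) (bar C ρ)
  have hRl : IsLocalRing R := tr_isLocalRing πC hnil hA hC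
  let _ : Algebra R k := (πC.comp (trX O _ _)).toRingHom.toAlgebra
  have : IsScalarTower O R k := IsScalarTower.of_algebraMap_eq fun a =>
    ((πC.comp (trX O _ _)).commutes a).symm
  have hbar : ∀ g, bar k σ g = Ps.conj (bar k ρ) P g := s5
  have hbar1 : ∀ g, bar k ρ g = 1 → bar k σ g = 1 := fun g hg => by
    rw [hbar, conj_apply, hg]; simp
  have hopn : Opn σ := by
    obtain ⟨L1, f1, g1⟩ := hL.opnH
    obtain ⟨L2, f2, g2⟩ := hL.opnδ
    obtain ⟨L3, f3, g3⟩ := hL.opnρ
    refine ⟨L1 ⊔ L2 ⊔ L3, inferInstance, fun g hg => ?_⟩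
    rw [← map_one σ, s4, map_one, map_one]
    refine ⟨LinearMap.ext fun v => ?_, g3 g fun x hx => hg x (le_sup_right (a := L1 ⊔ L2) hx)⟩
    have e1 := g1 g fun x hx => hg x ((le_sup_left.trans le_sup_left : L1 ≤ L1 ⊔ L2 ⊔ L3) hx)
    have e2 := g2 g fun x hx => hg x ((le_sup_right.trans le_sup_left : L2 ≤ L1 ⊔ L2 ⊔ L3) hx)
    rw [tw_apply, e1]
    change dia (sq (δ g)) • v = v
    rw [e2, map_one, map_one, one_smul]
  have hmax := ker_eq_maximalIdeal (O := O) (R := R)
  have hpR : (p : R) ∈ maximalIdeal R := by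
    rw [← hmax, RingHom.mem_ker, map_natCast, ← map_natCast (algebraMap O k), hk]; exact hG.pmem
  choose τ t1 t2 t3 t4 φ t5 using fun l => exists_tau (Pl l) (hG.rchar l) hpR σ hopn (bar k ρ).ker
    fun g hg a b => by
      rw [← hmax, RingHom.mem_ker]
      have := congrFun (congrFun (hbar1 g hg) a) b
      rw [bar_apply, map_apply] at this
      rw [Matrix.sub_apply, map_sub, this, one_apply, one_apply]
      split_ifs <;> simp
  choose s a1 a2 using hG.reg
  have hρτ : ∀ l, ρ (τ l) = 1 := fun l => hG.tame l _ (t1 l) (t2 l)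
  have hdτ : ∀ l, (σ (τ l)).det = 1 := fun l => by
    rw [s2]; change algebraMap O R (ρ (τ l)).det = 1; rw [hρτ, det_one, map_one]
  have hF : ∀ l, σ (φ l)⁻¹ * σ (φ l) = 1 := fun l => by rw [← map_mul, inv_mul_cancel, map_one]
  let u : Λ × Bool → R := fun j => if j.2 then u₂ (σ (s j.1)) (σ (τ j.1)) else u₁ (σ (τ j.1))
  have h2k : (2 : k) ≠ 0 := fun h0 => by
    have := congrArg (algebraMap O k) h2
    rw [map_mul, map_ofNat, h0, zero_mul, map_one] at this
    exact zero_ne_one this
  have hr := hL.sel R σ P j hbar s2 (by simp only [s1]; exact adjoin_trT) hopn (fun v g w hg => by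
    rw [s6]
    refine Prod.ext ?_ rfl
    change dia (sq (δ g)) • ρH g _ = ρH g _
    rw [hg, map_one, map_one, one_smul]) (fun w hw => s8 Set.univ Submodule.span_univ w
      fun v _ => hw v) (Dk O k u) fun Dv hD l g hg hg1 => by
    obtain ⟨m, hm⟩ := t3 l g hg hg1
    rw [phi_congr σ Dv hm]
    refine phi_pow_eq_zero σ Dv (phi_eq_zero σ Dv h2k (hbar1 _ (t2 l)) ?_ (t4 l _ (a1 l))
      (hD (l, false)) (hD (l, true))) m
    rw [hbar, Ps.trace_conj, Ps.det_conj', trace_bar]
    have := ((a2 l).map (algebraMap O k)).ne_zero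
    rwa [map_sub, map_pow, map_mul, map_ofNat, RingHom.map_det] at this
  obtain ⟨xs, x1, x2⟩ := exists_gens_rel u hr
  have hX : ∀ g, trX O _ _ (σ g).trace = algebraMap O C (ρ g).trace := fun g => by
    rw [s1, trX_trT, trace_bar]
  refine ⟨u, fun j => vv ((Pl j.1).qv F) (σ (τ j.1)), xs, x2, fun i => ?_, ?_, ?_, fun j => ?_⟩
  · exact ⟨_, pow_le_ker (RingHom.id R) (Ideal.pow_mem_pow (x1 i) _)⟩
  · rintro ⟨l, _ | _⟩
    · change (u₁ _ * _) ^ 2 = 0
      rw [u₁_mul (hdτ l) (hF l) (t5 l), zero_pow two_ne_zero]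
    · exact u₂_mul (hdτ l) (hF l) (t5 l) (t4 l _ (a1 l))
  · rintro ⟨l, _ | _⟩
    · change trX O _ _ (u₁ _) = 0
      rw [u₁, map_sub, hX, hρτ, map_ofNat]; simp [map_ofNat]
    · change trX O _ _ (u₂ _ _) = 0
      rw [u₂, ← map_mul σ, map_sub, map_mul (trX O _ _), map_mul (trX O _ _), hX, hX, hX,
        map_mul ρ, hρτ, map_ofNat]
      simp [map_ofNat, mul_comm]
  · let al : R →ₐ[O] A := trAl O _ _
    refine map_vv (θ.comp al.toRingHom) _ ?_
    rw [s1]
    change θ (dia _ * t _) = 2
    rw [map_mul, hL.thD, hL.thI _ _ (t1 _) (t2 _), one_mul]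

end Crest.Agent.T15.RT

end
end

-- ▼ part T15/RT_3

/-!
# Row 15, block R (helper3): proof of the abstract `R = T` theorem

The data of `patch_fin` at one level, and the theorem `rt : RTStmt`.
-/

set_option autoImplicit false
set_option linter.unusedSectionVars false

noncomputable section

namespace Crest.Agent.T15.RT

open Matrix IsLocalRing Function
open Crest.Agent.T15.Ps Crest.Agent.T15.Pat Crest.Agent.T15.Blr Crest.Agent.T15.Inert
open Crest.Agent.R018.Placesx484

lemma exists_ev_mod {O R σ κ : Type*} [CommRing O] [IsLocalRing O] [IsNoetherianRing O] [CommRing R]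
    [Algebra O R] [Module.Finite O R] [Finite σ] (hO : Cpt (maximalIdeal O)) (xs : σ → R)
    (hx : ∀ i, TN O (xs i)) (u : κ → R) (h : Algebra.adjoin O (Set.range xs ∪ Set.range u) = ⊤)
    (a : R) : ∃ w, a - ev hO xs hx w ∈ Ideal.span (Set.range u) := by
  have ha : a ∈ Algebra.adjoin O (Set.range xs ∪ Set.range u) := h ▸ Algebra.mem_top
  induction ha using Algebra.adjoin_induction with
  | mem a ha =>
    rcases ha with ⟨i, rfl⟩ | ha
    · exact ⟨MvPowerSeries.X i, by simp⟩
    · exact ⟨0, by simpa using Ideal.subset_span ha⟩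
  | algebraMap c => exact ⟨MvPowerSeries.C c, by simp⟩
  | add a b _ _ ha hb =>
    obtain ⟨w, hw⟩ := ha
    obtain ⟨w', hw'⟩ := hb
    exact ⟨w + w', by rw [map_add, add_sub_add_comm]; exact add_mem hw hw'⟩
  | mul a b _ _ ha hb =>
    obtain ⟨w, hw⟩ := ha
    obtain ⟨w', hw'⟩ := hb
    refine ⟨w * w', ?_⟩
    rw [map_mul, show a * b - ev hO xs hx w * ev hO xs hx w' =
      (a - ev hO xs hx w) * b + ev hO xs hx w * (b - ev hO xs hx w') by ring]
    exact add_mem (Ideal.mul_mem_right _ _ hw) (Ideal.mul_mem_left _ _ hw')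

lemma norm_aeval {O A Δ G : Type*} [CommRing O] [CommRing A] [Algebra O A] [CommGroup Δ] [Fintype Δ]
    (dia : Δ →* A) (c : G → Δ) (t : G → A) (P : MvPolynomial G O) :
    (∑ x, dia x) * MvPolynomial.aeval (fun g => dia (c g) * t g) P =
      (∑ x, dia x) * MvPolynomial.aeval t P := by
  have h : ∀ y, (∑ x, dia x) * dia y = ∑ x, dia x := fun y => by
    rw [Finset.sum_mul]
    simp only [← map_mul]
    exact Fintype.sum_equiv (Equiv.mulRight y) _ _ fun _ => rfl
  induction P using MvPolynomial.induction_on with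
  | C a => simp
  | add P Q hP hQ => rw [map_add, map_add, mul_add, mul_add, hP, hQ]
  | mul_X P g hP =>
    rw [map_mul, map_mul, MvPolynomial.aeval_X, MvPolynomial.aeval_X, ← mul_assoc, hP]
    linear_combination MvPolynomial.aeval t P * t g * h (c g)

variable {F E : Type} [Field F] [NumberField F] [Field E] [CharZero E] [IsAlgClosed E]
  [Algebra.IsAlgebraic ℚ E] [Algebra F E] [IsGalois F E]
  {O : Type} [CommRing O] [IsLocalRing O] [IsNoetherianRing O]
  {O' : Type} [CommRing O'] [Algebra O O'] {p n r e : ℕ} {ρ : (E ≃ₐ[F] E) →* M2 O} {Λ : Type}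
  {Pl : Λ → Place E} {d C C' Δ H A : Type} [CommRing C] [Algebra O C] [CommRing C'] [CommGroup Δ]
  [AddCommGroup H] [Module O H] [Module C H] [CommRing A] [Algebra O A] {q' : O' →+* C'}
  {del : Fin r → Δ} {δ : (E ≃ₐ[F] E) →* Δ} {ρH : (E ≃ₐ[F] E) →* Module.End O H}
  {ac : A →ₐ[O] Module.End O H} {dia : Δ →* A} {t : (E ≃ₐ[F] E) → A} {θ : A →+* C'}

/-- passage to the faithful quotient -/
lemma Lev.faithful (hL : Lev p n r e ρ Pl d C q' del δ ρH ac dia t θ) :
    Lev p n r e ρ Pl d C q' del δ ρH (Ideal.kerLiftAlg ac)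
      ((Ideal.Quotient.mk (RingHom.ker ac)).toMonoidHom.comp dia)
      (fun g => Ideal.Quotient.mk (RingHom.ker ac) (t g))
      (Ideal.Quotient.lift (RingHom.ker ac) θ hL.thK) where
  finC := hL.finC
  surj := hL.surj
  ker := hL.ker
  twg := hL.twg
  free := hL.free
  comm g a := by
    obtain ⟨a, rfl⟩ := Ideal.Quotient.mk_surjective a
    exact hL.comm g a
  opnH := hL.opnH
  opnδ := hL.opnδ
  opnρ := hL.opnρ
  ch := hL.ch
  res := hL.res
  tw := hL.tw
  thO := hL.thO
  thD := hL.thD
  thK a ha := by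
    obtain ⟨a, rfl⟩ := Ideal.Quotient.mk_surjective a
    exact hL.thK a ha
  thI := hL.thI
  sel := hL.sel

lemma norm_faithful [Fintype Δ] {P : MvPolynomial (E ≃ₐ[F] E) O}
    (hP : ∑ x, ac (dia x * MvPolynomial.aeval t P) = 0) :
    ∑ x, Ideal.kerLiftAlg ac (((Ideal.Quotient.mk (RingHom.ker ac)).toMonoidHom.comp dia) x *
      MvPolynomial.aeval (fun g => Ideal.Quotient.mk (RingHom.ker ac) (t g)) P) = 0 := by
  rw [← hP]
  refine Finset.sum_congr rfl fun x _ => ?_
  have h : Ideal.Quotient.mk (RingHom.ker ac) (MvPolynomial.aeval t P) =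
      MvPolynomial.aeval (fun g => Ideal.Quotient.mk (RingHom.ker ac) (t g)) P :=
    MvPolynomial.comp_aeval_apply t (Ideal.Quotient.mkₐ O (RingHom.ker ac)) P
  rw [← h]
  rfl

lemma exists_dim (S : Type*) [CommRing S] [IsLocalRing S] [IsNoetherianRing S] :
    ∃ D : ℕ, ringKrullDim S = D := by
  have h1 := ringKrullDim_ne_top (R := S)
  have h2 := ringKrullDim_ne_bot (R := S)
  generalize ringKrullDim S = z at h1 h2
  induction z using WithBot.recBotCoe with
  | bot => exact absurd rfl h2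
  | coe z =>
    induction z using ENat.recTopCoe with
    | top => exact absurd rfl h1
    | coe z => exact ⟨z, rfl⟩

/-- the hypotheses of `patch_fin` at one level -/
def Out (e : ℕ) {S B T O C O' C' d ι κ : Type} [CommRing S] [CommRing B] [CommRing T] [CommRing O]
    [CommRing C] [CommRing O'] [CommRing C'] [Fintype d] [DecidableEq d] (p : S →+* B)
    (q : O →+* C) (q' : O' →+* C') (ε : S →+* O) (ε' : S →+* O') (cst : κ → O') (c : O)
    (φ : T →+* Matrix d d B) (s ψ : S →+* T) (x : T →+* C) (θ : T →+* C') (u v : κ → T)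
    (y : ι → T) : Prop :=
  (∀ a, φ (s a) = Matrix.scalar d (p a)) ∧ (∀ a, x (s a) = q (ε a)) ∧ (∀ a, θ (s a) = q' (ε' a)) ∧
    RingHom.ker φ ≤ RingHom.ker θ ∧ (∀ j, φ (u j * v j) ^ e = 0) ∧ (∀ j, θ (v j) = q' (cst j)) ∧
    (∀ j, x (u j) = 0) ∧ (∀ i, x (y i) = 0) ∧
    (∀ i, ∃ w, x (ψ w) = 0 ∧ (y i ^ 2 - ψ w * (1 + y i)) ^ e ∈ Ideal.span (Set.range u)) ∧
    (∀ a, ∃ P : MvPolynomial ι S, a - MvPolynomial.eval₂Hom ψ y P ∈ Ideal.span (Set.range u)) ∧
    ∃ t, (∀ i j, φ t i j ∈ (RingHom.ker ε).map p) ∧ x t = q c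

set_option maxHeartbeats 800000 in
theorem level (hG : Glob p ρ Pl) (hL : Lev p n r e ρ Pl d C q' del δ ρH ac dia t θ)
    (hac : Injective ac) [Fintype Δ] [Fintype d] [DecidableEq d] [IsScalarTower O C H]
    [Module.Finite O C] (P : MvPolynomial (E ≃ₐ[F] E) O)
    (hP : ∑ x, ac (dia x * MvPolynomial.aeval t P) = 0) :
    ∃ (T : Type) (_ : CommRing T) (φ : T →+* Matrix d d (MonoidAlgebra C Δ))
      (s ψ : MvPowerSeries (Fin r) O →+* T) (x : T →+* C) (θ' : T →+* C') (u v : Λ × Bool → T)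
      (y : Fin r → T), Out (e + 2) (hL.twg.gr C hG.cpt hG.prime hG.pmem) (algebraMap O C) q'
        MvPowerSeries.constantCoeff ((algebraMap O O').comp MvPowerSeries.constantCoeff)
        (fun j => ((Pl j.1).qv F : O') ^ 2 - 1) (MvPolynomial.aeval (fun g => (ρ g).trace) P)
        φ s ψ x θ' u v y := by
  have hfC := hL.finC
  obtain ⟨m, hli, hsp⟩ := hL.free
  have : Module.Finite C H := ⟨⟨(Set.finite_range _).toFinset, by rwa [Set.Finite.coe_toFinset]⟩⟩
  have : Finite H := Module.finite_of_finite C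
  have : Finite A := Finite.of_injective (fun a v => ac a v) fun a b h => hac (LinearMap.ext fun v =>
    congrFun h v)
  obtain ⟨φ, L, f1, f2, f3, f4⟩ := exists_phi hL.surj ac hac dia m hli hsp
  obtain ⟨M, hM⟩ := exp_twg hL.twg
  obtain ⟨sq, -, hsq, -⟩ := exists_sqrt_inv (MonoidHom.id Δ)
    ((hG.prime.odd_of_ne_two hG.odd).pow (n := M)) hM
  obtain ⟨u, v, xs, g1, g2, g3, g4, g5⟩ := gal_step hG hL hac sq hsq
  let R := trRing O (fun g => dia (sq (δ g)) * t g) (bar C ρ)
  let Y : Fin r → A × C := fun i => (dia (sq (del i) * del i) - 1, 0)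
  let T := Algebra.adjoin O ((R : Set (A × C)) ∪ Set.range Y)
  let inc : R →ₐ[O] T := Subalgebra.inclusion fun a ha => Algebra.subset_adjoin (Or.inl ha)
  let y : Fin r → T := fun i => ⟨Y i, Algebra.subset_adjoin (Or.inr ⟨i, rfl⟩)⟩
  let al : T →ₐ[O] A := (AlgHom.fst O A C).comp T.val
  let x : T →ₐ[O] C := (AlgHom.snd O A C).comp T.val
  have hext : ∀ a : T, al a = 0 → x a = 0 → a = 0 := fun a h1 h2 => Subtype.ext (Prod.ext h1 h2)
  have hz : ∀ i, dia (sq (del i) * del i) ^ 2 = dia (del i) := fun i => by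
    rw [← map_pow, mul_pow, pow_two (del i), ← mul_assoc]
    exact congrArg (fun w => dia (w * del i)) (hsq _) |>.trans (by rw [one_mul])
  have hal : ∀ i, al ((1 + y i) ^ 2) = dia (del i) := fun i => by
    rw [← hz, map_pow, map_add, map_one]
    exact congrArg (· ^ 2) (add_sub_cancel _ _)
  have hx0 : ∀ i, x (y i) = 0 := fun _ => rfl
  have hx : ∀ i, x ((1 + y i) ^ 2) = 1 := fun i => by
    rw [map_pow, map_add, map_one, hx0, add_zero, one_pow]
  have hs : ∀ i, TN O ((1 + y i) ^ 2 - 1) := fun i =>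
    TN.sub_one hG.prime hG.pmem (m := M) (sub_eq_zero.1 (hext _
      (by rw [map_sub, map_pow, hal, ← map_pow, hM, map_one, map_one, sub_self])
      (by rw [map_sub, map_pow, hx, one_pow, map_one, sub_self])))
  let s := ev hG.cpt _ hs
  let ψ := inc.toRingHom.comp (ev hG.cpt xs fun i => TN.of_nilpotent (g2 i))
  have hmod : ∀ a : R, ∃ w, inc a - ψ w ∈ Ideal.span (Set.range fun j => inc (u j)) := fun a => by
    obtain ⟨w, hw⟩ := exists_ev_mod hG.cpt xs (fun i => TN.of_nilpotent (g2 i)) u g1 a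
    have := Ideal.mem_map_of_mem inc.toRingHom hw
    rw [Ideal.map_span, ← Set.range_comp, map_sub] at this
    exact ⟨w, this⟩
  have hxu : Ideal.span (Set.range fun j => inc (u j)) ≤ RingHom.ker x :=
    Ideal.span_le.2 (by rintro _ ⟨j, rfl⟩; exact g4 j)
  have hsL : al.toRingHom.comp s = L.comp (hL.twg.gr C hG.cpt hG.prime hG.pmem) :=
    fin_ext hG.cpt (fun a => by
      rw [RingHom.comp_apply, RingHom.comp_apply, TWg.gr_C, f3, ev_C]; exact al.commutes a)
      (fun i => by
        rw [RingHom.comp_apply, RingHom.comp_apply, TWg.gr_X, ev_X, map_sub, map_sub, f2, map_one,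
          map_one]
        exact congrArg (· - 1) (hal i))
      fun i => by rw [RingHom.comp_apply, ev_X]; exact (hs i).mapₐ al
  refine ⟨T, inferInstance, φ.comp al.toRingHom, s, ψ, x.toRingHom, θ.comp al.toRingHom,
    fun j => inc (u j), fun j => inc (v j), y, fun a => ?_, fun a => ?_, fun a => ?_,
    fun a ha => ?_, fun j => ?_, fun j => ?_, g4, hx0, fun i => ?_, fun a => ?_, ?_⟩
  · rw [← f4]; exact congrArg φ (RingHom.congr_fun hsL a)
  · refine RingHom.congr_fun (mv_ext_zero (g := x.toRingHom.comp s)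
      (g' := (algebraMap O C).comp MvPowerSeries.constantCoeff) (fun a => ?_) (fun i => ?_)
      fun i => by simp) a
    · rw [RingHom.comp_apply, ev_C]; exact (x.commutes a).trans (by simp)
    · rw [RingHom.comp_apply, ev_X, map_sub, map_one]; exact sub_eq_zero.2 (hx i)
  · refine RingHom.congr_fun (mv_ext_zero (g := (θ.comp al.toRingHom).comp s)
      (g' := q'.comp ((algebraMap O O').comp MvPowerSeries.constantCoeff)) (fun a => ?_)
      (fun i => ?_) fun i => by simp) a
    · rw [RingHom.comp_apply, ev_C]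
      exact (congrArg θ (al.commutes a)).trans ((hL.thO a).trans (by simp))
    · rw [RingHom.comp_apply, ev_X, map_sub, map_one]
      exact sub_eq_zero.2 ((congrArg θ (hal i)).trans (hL.thD _))
  · have h0 : al a = 0 := f1 (ha.trans (map_zero φ).symm)
    exact (congrArg θ h0).trans (map_zero θ)
  · rw [← map_mul, ← map_pow, ← map_pow, pow_add, g3, mul_zero, map_zero, map_zero]
  · rw [map_sub, map_pow, map_natCast, map_one]; exact g5 j
  · obtain ⟨τ, t1, t2, t3⟩ := hL.tw i
    obtain ⟨w, hw⟩ := hmod (trT O _ _ τ - 2)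
    have h1 : x (inc (trT O _ _ τ - 2)) = 0 := by
      rw [map_sub, map_sub, map_ofNat, map_ofNat]
      change (bar C ρ τ).trace - 2 = 0
      rw [trace_bar, t2]; simp [map_ofNat]
    have h2 : al (y i ^ 2 - inc (trT O _ _ τ - 2) * (1 + y i)) = -(t τ - 1 - dia (del i)) := by
      rw [map_sub inc, map_ofNat]
      simp only [map_sub, map_mul, map_pow, map_add, map_one, map_ofNat]
      change (dia (sq (del i) * del i) - 1) ^ 2 -
        (dia (sq (δ τ)) * t τ - 2) * (1 + (dia (sq (del i) * del i) - 1)) = _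
      have h3 : dia (sq (del i)) * dia (sq (del i) * del i) = 1 := by
        rw [← map_mul, ← mul_assoc, ← pow_two]; exact (congrArg dia (hsq _)).trans (map_one _)
      rw [t1]
      linear_combination hz i - t τ * h3
    have h3 : (y i ^ 2 - inc (trT O _ _ τ - 2) * (1 + y i)) ^ (e + 2) = 0 := hext _
      (by
        rw [map_pow, h2, neg_pow, pow_add (_ - _), hac ((map_pow ac _ _).trans
          (t3.trans (map_zero ac).symm)), zero_mul, mul_zero])
      (by rw [map_pow, map_sub, map_mul, map_pow, h1, hx0]; simp)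
    refine ⟨w, ?_, ?_⟩
    · have := hxu hw
      rwa [RingHom.mem_ker, map_sub, h1, zero_sub, neg_eq_zero] at this
    · rw [← Ideal.Quotient.eq_zero_iff_mem, ← map_zero (Ideal.Quotient.mk _), ← h3]
      simp only [map_pow, map_sub, map_mul]
      rw [← Ideal.Quotient.eq.2 hw, map_sub inc, map_sub]
  · obtain ⟨a, ha⟩ := a
    set I := Ideal.span (Set.range fun j => inc (u j))
    have : Ideal.Quotient.mk I ⟨a, ha⟩ ∈
        ((Ideal.Quotient.mk I).comp (MvPolynomial.eval₂Hom ψ y)).range := by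
      induction ha using Algebra.adjoin_induction with
      | mem a ha =>
        rcases ha with ha | ⟨i, rfl⟩
        · obtain ⟨w, hw⟩ := hmod ⟨a, ha⟩
          refine ⟨MvPolynomial.C w, ?_⟩
          rw [RingHom.comp_apply, MvPolynomial.eval₂Hom_C]
          exact (Ideal.Quotient.eq.2 hw).symm
        · exact ⟨MvPolynomial.X i, by rw [RingHom.comp_apply, MvPolynomial.eval₂Hom_X']⟩
      | algebraMap c =>
        refine ⟨MvPolynomial.C (MvPowerSeries.C c), ?_⟩
        rw [RingHom.comp_apply, MvPolynomial.eval₂Hom_C, RingHom.comp_apply, ev_C]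
        rfl
      | add a b _ _ ha hb => exact add_mem ha hb
      | mul a b _ _ ha hb => exact mul_mem ha hb
    obtain ⟨Q, hQ⟩ := this
    exact ⟨Q, Ideal.Quotient.eq.1 hQ.symm⟩
  · let tT : (E ≃ₐ[F] E) → R := trT O _ _
    refine ⟨inc (MvPolynomial.aeval tT P), fun i j => ?_, ?_⟩
    · have h1 : al (inc (MvPolynomial.aeval tT P)) =
          MvPolynomial.aeval (fun g => dia (sq (δ g)) * t g) P :=
        MvPolynomial.comp_aeval_apply tT (al.comp inc) P
      have h2 : (∑ x, dia x) * MvPolynomial.aeval t P = 0 :=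
        hac (by rw [Finset.sum_mul, map_sum, hP, map_zero])
      have h3 := congrArg φ ((norm_aeval dia (fun g => sq (δ g)) t P).trans h2)
      rw [map_mul, ← h1, ← Finset.sum_congr rfl fun x _ => f2 x, ← map_sum, f4, map_zero] at h3
      refine mem_of_norm hL.twg _ _ _ hL.surj ?_
      have h4 := congrFun (congrFun h3 i) j
      rwa [scalar_apply, diagonal_mul] at h4
    · refine (MvPolynomial.comp_aeval_apply tT (x.comp inc) P).trans ?_
      refine Eq.trans ?_ (MvPolynomial.comp_aeval_apply _ (Algebra.ofId O C) P).symm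
      exact congrArg (MvPolynomial.aeval · P) (funext fun g => trace_bar ρ g)

/-- **abstract `R = T`** -/
theorem rt : RTStmt := by
  intro F E _ _ _ _ _ _ _ _ O _ _ _ _ O' _ _ _ _ J' p r e ρ Λ _ Pl d _ _ C C' Δ H A _ _ _ _ _ _ _ _ _
    _ _ q' del δ ρH ac dia t θ hG hO' hL P hP
  classical
  have := Fintype.ofFinite Λ
  have := Fintype.ofFinite d
  have : ∀ n, Module.Finite O (C n) := fun n => Module.Finite.of_surjective
    (Algebra.linearMap O (C n)) (hL n).surj
  have hC : Sys (maximalIdeal O) fun n => algebraMap O (C n) :=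
    ⟨hG.cpt, fun n => (hL n).surj, fun n => (hL n).ker.trans (Ideal.pow_le_pow_right n.le_succ)⟩
  choose T iT φ s ψ x θ' u v y h using fun n => level hG (hL n).faithful
    (Ideal.kerLiftAlg_injective (ac n)) P (norm_faithful (hP n))
  have : IsDomain (MvPowerSeries (Fin r) O) := NoZeroDivisors.to_isDomain _
  obtain ⟨D, hD⟩ := exists_dim (MvPowerSeries (Fin r) O)
  refine patch_fin (sys_gr hG.prime hG.pmem hC fun n => (hL n).twg) (cpt_mv hG.cpt _) hC hO' hD.le
    hD.ge φ s (fun n => (h n).1) ψ x _ (fun n => (h n).2.1) θ' _ (fun n => (h n).2.2.1)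
    (fun n => (h n).2.2.2.1) (Nat.succ_pos _) u v _ (fun j h0 => ?_) (fun n => (h n).2.2.2.2.1)
    (fun n => (h n).2.2.2.2.2.1) (fun n => (h n).2.2.2.2.2.2.1) y (fun n => (h n).2.2.2.2.2.2.2.1)
    (fun n => (h n).2.2.2.2.2.2.2.2.1) (fun n => (h n).2.2.2.2.2.2.2.2.2.1)
    fun n => (h n).2.2.2.2.2.2.2.2.2.2
  have h1 := Place.one_lt_qv (F := F) (Pl j.1)
  have h2 : (Pl j.1).qv F ^ 2 = 1 := by exact_mod_cast sub_eq_zero.1 h0
  nlinarith

end Crest.Agent.T15.RT

end
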