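import Crest.Agent.T15.Dio_15
import Crest.Agent.S0500
import Crest.Prelude.Def_PolyCode

-- ▼ part T15/Top0_15
section

/-!
# Row 15, block L: a Diophantine model of `ℤ` over `ℚ` makes `HasRatZero` undecidable (helper15)

`s0020_of_model`.  MRDP is `S0500`; the input enters through a unary chain of successor blocks, so
no computability of the model is needed.
-/

set_option autoImplicit false
set_option linter.unusedSectionVars false

namespace Crest.Agent.T15.Top0

open Crest.NumberTheoryR.PolyCode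

abbrev Cd := List (ℤ × List ℕ)

/-! ## codes -/

theorem eval_append (v : ℕ → ℚ) (c d : Cd) : eval v (c ++ d) = eval v c + eval v d := by
  induction c with
  | nil => simp [eval]
  | cons m c ih => simp [eval, ih, add_assoc]

theorem mono_shift (v : ℕ → ℚ) (B : ℕ) (es : List ℕ) (k : ℕ) :
    monomialEval v (k + B) es = monomialEval (fun n => v (n + B)) k es := by
  induction es generalizing k with
  | nil => rfl
  | cons e es ih => simp only [monomialEval]; rw [← ih, Nat.add_right_comm]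

theorem mono_rep (v : ℕ → ℚ) (B : ℕ) (es : List ℕ) (k : ℕ) :
    monomialEval v k (List.replicate B 0 ++ es) = monomialEval v (k + B) es := by
  induction B generalizing k with
  | zero => rfl
  | succ B ih =>
    simp only [List.replicate_succ, List.cons_append, monomialEval, pow_zero, one_mul]
    rw [ih, Nat.add_right_comm, Nat.add_assoc]

/-- shift all variables of a code by `B` -/
def shift (B : ℕ) (d : Cd) : Cd := d.map fun m => (m.1, List.replicate B 0 ++ m.2)

theorem eval_shift (v : ℕ → ℚ) (B : ℕ) (d : Cd) :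
    eval v (shift B d) = eval (fun n => v (n + B)) d := by
  induction d with
  | nil => rfl
  | cons m d ih =>
    have : shift B (m :: d) = (m.1, List.replicate B 0 ++ m.2) :: shift B d := rfl
    rw [this]
    simp only [eval]
    rw [ih, mono_rep, mono_shift]

theorem mono_mul (a b : List ℕ) :
    ∃ c : List ℕ, ∀ v k, monomialEval v k c = monomialEval v k a * monomialEval v k b := by
  induction a generalizing b with
  | nil => exact ⟨b, fun v k => by simp [monomialEval]⟩
  | cons x a ih =>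
    cases b with
    | nil => exact ⟨x :: a, fun v k => by simp [monomialEval]⟩
    | cons y b =>
      obtain ⟨c, hc⟩ := ih b
      exact ⟨(x + y) :: c, fun v k => by simp only [monomialEval, hc]; ring⟩

/-- the function is given by a code -/
def IsC (f : (ℕ → ℚ) → ℚ) : Prop := ∃ c : Cd, ∀ v, eval v c = f v

theorem IsC.congr {f g : (ℕ → ℚ) → ℚ} (h : IsC f) (e : ∀ v, f v = g v) : IsC g := funext e ▸ h

theorem IsC.add {f g : (ℕ → ℚ) → ℚ} (hf : IsC f) (hg : IsC g) : IsC fun v => f v + g v := by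
  obtain ⟨c, hc⟩ := hf
  obtain ⟨d, hd⟩ := hg
  exact ⟨c ++ d, fun v => by rw [eval_append, hc, hd]⟩

theorem IsC.const (z : ℤ) : IsC fun _ => z := ⟨[(z, [])], fun v => by simp [eval, monomialEval]⟩

theorem IsC.coord (n : ℕ) : IsC fun v => v n :=
  ⟨[(1, List.replicate n 0 ++ [1])], fun v => by simp [eval, mono_rep, monomialEval]⟩

theorem isC_mono_mul (m : ℤ × List ℕ) (d : Cd) :
    IsC fun v => (m.1 : ℚ) * monomialEval v 0 m.2 * eval v d := by
  induction d with
  | nil => exact ⟨[], fun v => by simp [eval]⟩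
  | cons n d ih =>
    obtain ⟨c, hc⟩ := mono_mul m.2 n.2
    have : IsC fun v => ((m.1 * n.1 : ℤ) : ℚ) * monomialEval v 0 c :=
      ⟨[(m.1 * n.1, c)], fun v => by simp [eval]⟩
    exact (this.add ih).congr fun v => by simp only [eval, hc]; push_cast; ring

theorem IsC.mul {f g : (ℕ → ℚ) → ℚ} (hf : IsC f) (hg : IsC g) : IsC fun v => f v * g v := by
  obtain ⟨c, hc⟩ := hf
  obtain ⟨d, hd⟩ := hg
  have : IsC fun v => eval v c * eval v d := by
    clear hc
    induction c with
    | nil => exact ⟨[], fun v => by simp [eval]⟩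
    | cons m c ih => exact ((isC_mono_mul m d).add ih).congr fun v => by simp only [eval]; ring
  exact this.congr fun v => by rw [hc, hd]

/-- a nonzero integer multiple is given by a code -/
def QC (f : (ℕ → ℚ) → ℚ) : Prop := ∃ z : ℤ, z ≠ 0 ∧ IsC fun v => z * f v

theorem QC.congr {f g : (ℕ → ℚ) → ℚ} (h : QC f) (e : ∀ v, f v = g v) : QC g := funext e ▸ h

theorem QC.const (q : ℚ) : QC fun _ => q :=
  ⟨q.den, by exact_mod_cast q.den_nz, (IsC.const q.num).congr fun _ => by
    push_cast; rw [mul_comm, Rat.mul_den_eq_num]⟩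

theorem QC.coord (n : ℕ) : QC fun v => v n := ⟨1, one_ne_zero, (IsC.coord n).congr fun _ => by simp⟩

theorem QC.add {f g : (ℕ → ℚ) → ℚ} (hf : QC f) (hg : QC g) : QC fun v => f v + g v := by
  obtain ⟨y, hy, hf⟩ := hf
  obtain ⟨z, hz, hg⟩ := hg
  exact ⟨y * z, mul_ne_zero hy hz, (((IsC.const z).mul hf).add ((IsC.const y).mul hg)).congr
    fun v => by push_cast; ring⟩

theorem QC.mul {f g : (ℕ → ℚ) → ℚ} (hf : QC f) (hg : QC g) : QC fun v => f v * g v := by
  obtain ⟨y, hy, hf⟩ := hf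
  obtain ⟨z, hz, hg⟩ := hg
  exact ⟨y * z, mul_ne_zero hy hz, (hf.mul hg).congr fun v => by push_cast; ring⟩

theorem QC.sum {ι : Type*} (s : Finset ι) {f : ι → (ℕ → ℚ) → ℚ} (h : ∀ i, QC (f i)) :
    QC fun v => ∑ i ∈ s, f i v := by
  classical
  induction s using Finset.induction_on with
  | empty => simpa using QC.const 0
  | insert a s ha ih => simpa [Finset.sum_insert ha] using (h a).add ih

variable {V W X : Type*} [AddCommGroup V] [Module ℚ V] [AddCommGroup W] [Module ℚ W]
  [AddCommGroup X] [Module ℚ X]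

/-- vector valued version of `QC` -/
def QM (g : (ℕ → ℚ) → W) : Prop := ∀ l : W →ₗ[ℚ] ℚ, QC fun v => l (g v)

theorem QM.pol {g : (ℕ → ℚ) → W} (hg : QM g) {f : W → ℚ} (hf : Pol f) : QC fun v => f (g v) := by
  induction hf with
  | const c => exact .const c
  | lin l => exact hg l
  | add _ _ h1 h2 => exact h1.add h2
  | mul _ _ h1 h2 => exact h1.mul h2

theorem QM.lin {g : (ℕ → ℚ) → W} (hg : QM g) (L : W →ₗ[ℚ] X) : QM fun v => L (g v) :=
  fun l => hg (l ∘ₗ L)

theorem QM.prod {g : (ℕ → ℚ) → W} {h : (ℕ → ℚ) → X} (hg : QM g) (hh : QM h) :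
    QM fun v => (g v, h v) := fun l =>
  ((hg (l ∘ₗ LinearMap.inl ℚ W X)).add (hh (l ∘ₗ LinearMap.inr ℚ W X))).congr fun v => by
    simp [← map_add]

theorem QM.coords {k : ℕ} (σ : Fin k → ℕ) : QM fun v => fun i => v (σ i) := fun l =>
  (QC.sum Finset.univ fun i => (QC.coord (σ i)).mul (.const (l (Pi.single i 1)))).congr fun v => by
    rw [LinearMap.pi_apply_eq_sum_univ]
    refine Finset.sum_congr rfl fun i _ => ?_
    rw [smul_eq_mul]
    congr 2
    funext j
    simp [Pi.single_apply, eq_comm]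

section chain
variable {k : ℕ} (e : (Fin k → ℚ) ≃ₗ[ℚ] V)

/-- the code `d` represents `D`, the point being read off the first `k` variables -/
def Rep (d : Cd) (D : V → Prop) : Prop :=
  (∀ v, 0 ≤ eval v d) ∧ ∀ x, D x ↔ ∃ v : ℕ → ℚ, e (fun i => v i) = x ∧ eval v d = 0

theorem rep_nil : Rep e [] fun _ => True :=
  ⟨fun _ => le_rfl, fun x => ⟨fun _ => ⟨fun n => if h : n < k then e.symm x ⟨n, h⟩ else 0,
    by simp, rfl⟩, fun _ => trivial⟩⟩

theorem Rep.has {d : Cd} {D : V → Prop} (h : Rep e d D) : HasRatZero d ↔ ∃ x, D x :=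
  ⟨fun ⟨v, hv⟩ => ⟨_, (h.2 _).2 ⟨v, rfl, hv⟩⟩, fun ⟨x, hx⟩ =>
    let ⟨v, _, hv⟩ := (h.2 x).1 hx; ⟨v, hv⟩⟩

theorem step {R : V → V → Prop} (hR : Dio fun p : V × V => R p.1 p.2) :
    ∃ (s : Cd) (B : ℕ), ∀ (d : Cd) (D : V → Prop), Rep e d D →
      Rep e (s ++ shift B d) fun x => ∃ y, R x y ∧ D y := by
  obtain ⟨m, f, hf, hR⟩ := hR
  have h1 : QM fun v : ℕ → ℚ => ((e fun i => v i, e fun i => v (i + (k + m))),
      fun j : Fin m => v (k + j)) :=
    (((QM.coords fun i : Fin k => (i : ℕ)).lin e.toLinearMap).prod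
      ((QM.coords fun i : Fin k => i + (k + m)).lin e.toLinearMap)).prod
      (QM.coords fun j : Fin m => k + j)
  obtain ⟨z, hz, hc⟩ := h1.pol hf.pol
  obtain ⟨s, hs⟩ := hc.mul hc
  have hz' : (z : ℚ) ≠ 0 := by exact_mod_cast hz
  refine ⟨s, k + m, fun d D hD => ⟨fun v => ?_, fun x => ⟨?_, ?_⟩⟩⟩
  · rw [eval_append, eval_shift, hs]
    exact add_nonneg (mul_self_nonneg _) (hD.1 _)
  · rintro ⟨y, hxy, hy⟩
    obtain ⟨w, hw⟩ := (hR (x, y)).1 hxy
    obtain ⟨u, rfl, hu⟩ := (hD.2 y).1 hy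
    let v : ℕ → ℚ := fun n => if h : n < k then e.symm x ⟨n, h⟩ else
      if h' : n - k < m then w ⟨n - k, h'⟩ else u (n - (k + m))
    have a1 : (e fun i => v i) = x := by simp [v]
    have a2 : (fun n => v (n + (k + m))) = u := by
      funext n
      simp only [v]
      rw [dif_neg (by omega), dif_neg (by omega), Nat.add_sub_cancel]
    have a3 : (fun j : Fin m => v (k + j)) = w := by
      funext j
      simp [v]
    have a4 : (fun i : Fin k => v (i + (k + m))) = fun i : Fin k => u i :=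
      funext fun i => congrFun a2 i
    refine ⟨v, a1, ?_⟩
    rw [eval_append, eval_shift, hs]
    simp only [a1, a2, a3, a4, hw, hu]
    simp
  · rintro ⟨v, rfl, hv⟩
    rw [eval_append, eval_shift, hs] at hv
    obtain ⟨h2, h3⟩ := (add_eq_zero_iff_of_nonneg (mul_self_nonneg _) (hD.1 _)).1 hv
    exact ⟨_, (hR (_, _)).2 ⟨_, (mul_eq_zero.1 (mul_self_eq_zero.1 h2)).resolve_left hz'⟩,
      (hD.2 _).2 ⟨_, rfl, h3⟩⟩

end chain

theorem primrec_step (s : Cd) (B : ℕ) : Primrec fun d : Cd => s ++ shift B d :=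
  Primrec.list_append.comp (Primrec.const s) (Primrec.list_map Primrec.id
    (Primrec.pair (Primrec.fst.comp Primrec.snd)
      (Primrec.list_append.comp (Primrec.const _) (Primrec.snd.comp Primrec.snd))).to₂)

/-- `a` steps of `R` lead from `x` into `T` -/
def Chain (R : V → V → Prop) (T : V → Prop) : ℕ → V → Prop
  | 0 => T
  | a + 1 => fun x => ∃ y, R x y ∧ Chain R T a y

/-- an undecidable set of chain lengths makes `HasRatZero` undecidable -/
theorem of_chain [Module.Finite ℚ V] {R : V → V → Prop} {D T : V → Prop}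
    (hR : Dio fun p : V × V => R p.1 p.2) (hD : Dio D) (hT : Dio T) {S : ℕ → Prop}
    (hS : ¬ ComputablePred S) (h : ∀ a, S a ↔ ∃ x, D x ∧ Chain R T a x) :
    ¬ ComputablePred HasRatZero := by
  let e := (Module.finBasis ℚ V).equivFun.symm
  obtain ⟨s0, B0, h0⟩ := step e (R := fun _ y => D y) (hD.comp (by fun_prop))
  obtain ⟨s1, B1, h1⟩ := step e hR
  obtain ⟨s2, B2, h2⟩ := step e (R := fun x _ => T x) (hT.comp (by fun_prop))
  let c : ℕ → Cd := fun a => Nat.rec (s2 ++ shift B2 []) (fun _ d => s1 ++ shift B1 d) a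
  have hc : Primrec c := Primrec.nat_rec₁ _ ((primrec_step s1 B1).comp Primrec.snd).to₂
  have hrep : ∀ a, Rep e (c a) (Chain R T a) := fun a => by
    induction a with
    | zero =>
      have := h2 _ _ (rep_nil e)
      simp only [and_true, exists_const] at this
      exact this
    | succ a ih => exact h1 _ _ ih
  refine fun H => hS (ComputablePred.computable_of_manyOneReducible
    ⟨fun a => s0 ++ shift B0 (c a), ((primrec_step s0 B0).comp hc).to_comp, fun a => ?_⟩ H)
  rw [(h0 _ _ (hrep a)).has, h]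
  exact ⟨fun hx => ⟨0, hx⟩, fun ⟨_, hx⟩ => hx⟩

/-! ## MRDP -/

theorem mrdp : ∃ (S : ℕ → Prop) (m : ℕ) (P : MvPolynomial (Fin 1 ⊕ Fin m) ℤ), ¬ ComputablePred S ∧
    ∀ a : ℕ, S a ↔ ∃ w : Fin m → ℕ,
      MvPolynomial.eval (Sum.elim (fun _ => (a : ℤ)) fun j => (w j : ℤ)) P = 0 := by
  let S : ℕ → Prop := fun a => (Nat.Partrec.Code.eval (Denumerable.ofNat Nat.Partrec.Code a) 0).Dom
  have h1 : REPred fun a : Fin 1 → ℕ => a ∈ {a : Fin 1 → ℕ | S (a 0)} :=
    (Nat.Partrec.Code.eval_part.comp ((Computable.ofNat _).comp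
      (Computable.fin_app.comp Computable.id (Computable.const 0))) (Computable.const 0)).dom_re
  obtain ⟨m, -, P, hP⟩ := Crest.Agent.S0500.result 1 le_rfl _ h1
  refine ⟨S, m, P, fun H => ComputablePred.halting_problem 0
    (ComputablePred.computable_of_manyOneReducible ⟨Encodable.encode, Computable.encode, fun c => ?_⟩ H),
    fun a => ⟨fun ha => ((hP fun _ => a).1 ha).exists, fun ⟨w, hw⟩ => ?_⟩⟩
  · simp [S]
  · by_contra ha
    exact (hP fun _ => a).2 ha w hw

/-! ## the model theorem -/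

section model
variable [Module.Finite ℚ V] (lam : V → ℤ) (rep : ℤ → V)

/-- the integer function `F` is computed by a Diophantine relation in the model -/
def Good {σ : Type} (F : (σ → ℤ) → ℤ) : Prop :=
  ∃ E : (σ → V) → V → Prop, (Dio fun p : (σ → V) × V => E p.1 p.2) ∧
    (∀ x y, E x y → lam y = F fun i => lam (x i)) ∧ ∀ a, E (fun i => rep (a i)) (rep (F a))

variable {lam rep} {σ : Type} [Finite σ]

theorem Good.coord (i : σ) : Good lam rep fun a => a i :=
  ⟨fun x y => y = x i, .eq (by fun_prop) (by fun_prop), fun _ _ h => by rw [h], fun _ => rfl⟩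

theorem Good.const (hr : ∀ n, lam (rep n) = n) (c : ℤ) : Good lam rep fun _ : σ → ℤ => c :=
  ⟨fun _ y => y = rep c, .eq (by fun_prop) (by fun_prop), fun _ _ h => by rw [h, hr], fun _ => rfl⟩

theorem Good.op {o : ℤ → ℤ → ℤ} {O : V → V → V → Prop}
    (dO : Dio fun p : V × V × V => O p.1 p.2.1 p.2.2)
    (sO : ∀ x y z, O x y z → lam z = o (lam x) (lam y))
    (cO : ∀ a b, O (rep a) (rep b) (rep (o a b))) {F G : (σ → ℤ) → ℤ} (hF : Good lam rep F)
    (hG : Good lam rep G) : Good lam rep fun a => o (F a) (G a) := by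
  obtain ⟨E, d, s, c⟩ := hF
  obtain ⟨E', d', s', c'⟩ := hG
  refine ⟨fun x y => ∃ u : V × V, E x u.1 ∧ E' x u.2 ∧ O u.1 u.2 y, .ex (.and ?_ (.and ?_ ?_)),
    fun x y ⟨u, h1, h2, h3⟩ => by rw [sO _ _ _ h3, s _ _ h1, s' _ _ h2],
    fun a => ⟨(_, _), c a, c' a, cO _ _⟩⟩
  · exact d.comp (g := fun p : ((σ → V) × V) × V × V => (p.1.1, p.2.1)) (by fun_prop)
  · exact d'.comp (g := fun p : ((σ → V) × V) × V × V => (p.1.1, p.2.2)) (by fun_prop)
  · exact dO.comp (g := fun p : ((σ → V) × V) × V × V => (p.2.1, p.2.2, p.1.2)) (by fun_prop)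

end model

/-- **A Diophantine model of the ring `ℤ` over `ℚ` gives S0020.**  `lam x` is the integer named by
`x`, `rep n` one name of `n`; `Add`, `Mul` are Diophantine, sound for all names and complete for
the names `rep n`. -/
theorem s0020_of_model [Module.Finite ℚ V] (lam : V → ℤ) (rep : ℤ → V) (hr : ∀ n, lam (rep n) = n)
    (Add Mul : V → V → V → Prop) (dA : Dio fun p : V × V × V => Add p.1 p.2.1 p.2.2)
    (dM : Dio fun p : V × V × V => Mul p.1 p.2.1 p.2.2)
    (sA : ∀ x y z, Add x y z → lam z = lam x + lam y)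
    (sM : ∀ x y z, Mul x y z → lam z = lam x * lam y)
    (cA : ∀ a b, Add (rep a) (rep b) (rep (a + b))) (cM : ∀ a b, Mul (rep a) (rep b) (rep (a * b))) :
    ¬ ComputablePred HasRatZero := by
  obtain ⟨S, m, P, hS, hP⟩ := mrdp
  let q : (Fin 1 ⊕ Fin m × Fin 4 → ℤ) → Fin 1 ⊕ Fin m → ℤ := fun a =>
    Sum.elim (fun i => a (.inl i)) fun j => a (.inr (j, 0)) * a (.inr (j, 0)) +
      a (.inr (j, 1)) * a (.inr (j, 1)) + a (.inr (j, 2)) * a (.inr (j, 2)) +
      a (.inr (j, 3)) * a (.inr (j, 3))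
  have hq : ∀ i, Good lam rep fun a => q a i := by
    have sq : ∀ i : Fin 1 ⊕ Fin m × Fin 4, Good lam rep fun a => a i * a i := fun i =>
      Good.op dM sM cM (.coord i) (.coord i)
    rintro (i | j)
    · exact .coord _
    · exact Good.op dA sA cA (Good.op dA sA cA (Good.op dA sA cA (sq _) (sq _)) (sq _)) (sq _)
  have hG : ∀ Q : MvPolynomial (Fin 1 ⊕ Fin m) ℤ,
      Good lam rep fun a => MvPolynomial.eval (q a) Q := fun Q => by
    induction Q using MvPolynomial.induction_on with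
    | C c => simpa using Good.const hr c
    | add p p' h1 h2 => simpa using Good.op dA sA cA h1 h2
    | mul_X p i h1 => simpa using Good.op dM sM cM h1 (hq i)
  obtain ⟨E, d, s, c⟩ := hG P
  let T : V → Prop := fun x => ∃ w : Fin m × Fin 4 → V, E (Sum.elim (fun _ => x) w) (rep 0)
  have dT : Dio T := .ex (d.comp (g := fun p : V × (Fin m × Fin 4 → V) =>
    (Sum.elim (fun _ => p.1) p.2, rep 0)) (.prodMk (.pi (by rintro (i | j) <;> simp <;> fun_prop))
      (by fun_prop)))
  have sT : ∀ x (a : ℕ), T x → lam x = a → S a := by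
    rintro x a ⟨w, hw⟩ ha
    have h1 := s _ _ hw
    rw [hr] at h1
    refine (hP a).2 ⟨fun j => (q (fun i => lam (Sum.elim (fun _ => x) w i)) (.inr j)).toNat, ?_⟩
    rw [h1]
    congr 2
    funext i
    rcases i with i | j
    · simp [q, ha]
    · exact Int.toNat_of_nonneg (add_nonneg (add_nonneg (add_nonneg (mul_self_nonneg _)
        (mul_self_nonneg _)) (mul_self_nonneg _)) (mul_self_nonneg _))
  have cT : ∀ a : ℕ, S a → T (rep a) := by
    intro a ha
    obtain ⟨w, hw⟩ := (hP a).1 ha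
    choose t0 t1 t2 t3 ht using fun j => Nat.sum_four_squares (w j)
    let u : Fin m × Fin 4 → ℤ := fun p => ![(t0 p.1 : ℤ), t1 p.1, t2 p.1, t3 p.1] p.2
    have h1 := c (Sum.elim (fun _ => (a : ℤ)) u)
    have h2 : q (Sum.elim (fun _ => (a : ℤ)) u) = Sum.elim (fun _ => (a : ℤ)) fun j => (w j : ℤ) := by
      funext i
      rcases i with i | j
      · rfl
      · simp [q, u, ← ht j, sq]
    simp only [h2, hw] at h1
    refine ⟨fun p => rep (u p), ?_⟩
    convert h1 using 2 with i
    rcases i with i | j <;> rfl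
  refine of_chain (R := fun x y => Add x (rep 1) y) (D := fun x => x = rep 0) (T := T)
    (dA.comp (g := fun p : V × V => (p.1, rep 1, p.2)) (by fun_prop))
    (.eq (by fun_prop) (by fun_prop)) dT hS fun a => ⟨fun ha => ⟨_, rfl, ?_⟩, ?_⟩
  · have : ∀ b n : ℕ, n + b = a → Chain (fun x y => Add x (rep 1) y) T b (rep n) := fun b => by
      induction b with
      | zero => exact fun n hn => cT n (by rw [← hn] at ha; exact ha)
      | succ b ih => exact fun n hn => ⟨_, cA n 1, by simpa using ih (n + 1) (by omega)⟩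
    exact this a 0 (by simp)
  · rintro ⟨x, rfl, hx⟩
    have : ∀ (b : ℕ) (x : V), Chain (fun x y => Add x (rep 1) y) T b x → lam x + b = a → S a :=
      fun b => by
      induction b with
      | zero => exact fun x hx h => sT x a hx (by simpa using h)
      | succ b ih =>
        rintro x ⟨y, h1, h2⟩ h
        exact ih y h2 (by rw [sA _ _ _ h1, hr, ← h]; push_cast; ring)
    exact this a _ hx (by rw [hr, zero_add])


end Crest.Agent.T15.Top0
private theorem rz_ad11f35be2 : type_of% @_root_.Crest.NumberTheoryR.PolyCode.eval.eq_def := @_root_.Crest.NumberTheoryR.PolyCode.eval.eq_def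
private theorem rz_d0cbcd68b0 : type_of% @_root_.Crest.NumberTheoryR.PolyCode.eval.eq_1 := @_root_.Crest.NumberTheoryR.PolyCode.eval.eq_1
private theorem rz_86ad24f5eb : type_of% @_root_.Crest.NumberTheoryR.PolyCode.monomialEval.eq_def := @_root_.Crest.NumberTheoryR.PolyCode.monomialEval.eq_def
private theorem rz_5c1e91a243 : type_of% @_root_.Crest.NumberTheoryR.PolyCode.monomialEval.eq_1 := @_root_.Crest.NumberTheoryR.PolyCode.monomialEval.eq_1
end

-- ▼ part T15/Top_88

/-!
# Row 15 (S0020): top chain, first layer (helper88)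

`S0020 ⇐ LGlue, QStmt, HStmt`.
-/

set_option autoImplicit false

namespace Crest.Agent.T15.Top

/-- the statement S0020 -/
def Goal : Prop := ¬ ComputablePred Crest.NumberTheoryR.PolyCode.HasRatZero

/-- `y` lies in the maximal ideal at every prime where `w` has odd valuation -/
def InJ (w y : ℚ) : Prop :=
  ∀ p : ℕ, p.Prime → Odd (padicValRat p w) → y = 0 ∨ 0 < padicValRat p y

/-- BLOCK Q: the full quantifier: sound for every `w`, complete for every prime `w ≡ 1 mod 8`. -/
def QStmt : Prop :=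
  ∃ J : ℚ × ℚ → Prop, Dio J ∧ (∀ w y, J (w, y) → InJ w y) ∧
    ∀ l : ℕ, l.Prime → l % 8 = 1 → ∀ y, InJ l y → J ((l : ℚ), y)

/-- Q at one fixed prime -/
def QFix (p : ℕ) : Prop := Dio fun y : ℚ => y = 0 ∨ 0 < padicValRat p y

theorem inJ_prime {l : ℕ} (hl : l.Prime) (y : ℚ) : InJ l y ↔ (y = 0 ∨ 0 < padicValRat l y) := by
  have := Fact.mk hl
  constructor
  · intro h
    refine h l hl ?_
    rw [padicValRat.self hl.one_lt]; exact odd_one
  · intro h p hp ho
    by_cases e : p = l
    · subst e; exact h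
    · have := Fact.mk hp
      exfalso
      have : padicValRat p (l : ℚ) = 0 := by
        rw [padicValRat.of_nat, padicValNat_primes e]; rfl
      rw [this] at ho
      exact absurd ho (by decide)

/-- Q away from `2, 3` (stronger than needed) -/
def Q1Stmt : Prop :=
  ∃ J : ℚ × ℚ → Prop, Dio J ∧ (∀ w y, J (w, y) → InJ w y) ∧
    ∀ l : ℕ, l.Prime → 3 < l → ∀ y, InJ l y → J ((l : ℚ), y)

theorem q_of (h1 : Q1Stmt) (_h2 : QFix 2) (_h3 : QFix 3) : QStmt := by
  obtain ⟨J, hJ, hs, hc⟩ := h1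
  exact ⟨J, hJ, hs, fun l hl h8 y hy => hc l hl (by have := hl.two_le; omega) y hy⟩

/-- linear forms `c j * y - d j`, a base point `b`, a modulus `M` and a real radius `δ`.  The
denominator of `y` needs no form: at `p ∣ den y`, `p ∤ M`, every form has valuation `v_p y`. -/
structure Nb where
  m : ℕ
  c : Fin m → ℤ
  d : Fin m → ℤ
  M : ℕ
  b : ℚ
  δ : ℚ
  hM : 0 < M
  h24 : 24 ∣ M
  h17 : ¬ 17 ∣ M
  hδ : 0 < δ
  hc : ∀ j, c j ≠ 0
  ne : ∀ j, (c j : ℚ) * b - d j ≠ 0
  unit : ∀ p : ℕ, p.Prime → ¬ p ∣ M → ∀ j, padicValRat p ((c j : ℚ) * b - d j) = 0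

/-- the forms -/
def Nb.fm (D : Nb) (j : Fin D.m) (y : ℚ) : ℚ := (D.c j : ℚ) * y - D.d j

/-- the side conditions of the certificate: `y` is close to `b` at `∞` and at the primes of `M`
(depth `v_p M`), the primes of `S` are `1 mod M`, and outside `M` and `S` the forms have even
valuation. -/
structure Side (D : Nb) (y : ℚ) (S : Finset ℕ) : Prop where
  real : |y - D.b| < D.δ
  adic : ∀ p : ℕ, p.Prime → p ∣ D.M → y = D.b ∨ (padicValNat p D.M : ℤ) ≤ padicValRat p (y - D.b)
  prime : ∀ p ∈ S, p.Prime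
  cls : ∀ p ∈ S, p ≡ 1 [MOD D.M]
  even : ∀ p : ℕ, p.Prime → ¬ p ∣ D.M → p ∉ S → ∀ j, Even (padicValRat p (D.fm j y))

/-- (H): the height bound, polynomial in the radical of `S`. -/
def HStmt : Prop :=
  ∃ (D : Nb) (C : ℝ) (k : ℕ), ∀ (y : ℚ) (S : Finset ℕ), Side D y S →
    Height.logHeight₁ y ≤ C * (∏ p ∈ S, (p : ℝ)) ^ k

/-- BLOCK L -/
def LGlue : Prop := QStmt → HStmt → Goal

theorem goal_of (hL : LGlue) (hQ : QStmt) (hH : HStmt) :
    ¬ ComputablePred Crest.NumberTheoryR.PolyCode.HasRatZero := hL hQ hH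

end Crest.Agent.T15.Top
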