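import Crest.Agent.T15.TopC_88
import Crest.Agent.T15.RDef_20
import Crest.Agent.T15.RT_3
import Crest.Agent.T15.TwAsm_16
import Crest.Agent.T15.FlTop_23
import Crest.Agent.T15.LkC_47
import Crest.Agent.T15.Dio_15
import Crest.Agent.T15.LkA_47
import Crest.Agent.T170.EllC_61
import Crest.Agent.T15.LkB_47
import Crest.Agent.R023.NT3_889
import Mathlib
import Crest.Agent.T15.Top_88
import Crest.Agent.T15.Val_15
import Crest.Agent.T15.Zl_15
import Crest.Agent.T15.PrAP_15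

-- ▼ part T15/TopD_88
section

/-!
# Row 15: the final glue, on the outputs of the blocks (helper88)
-/

set_option autoImplicit false

noncomputable section

namespace Crest.Agent.T15.Top

open Crest.Agent.T15.C (Om Gam)

/-- a statement for the local data of every `Fl.Loc3` -/
def AllX (A : Lc → Prop) : Prop :=
  ∀ (ι : Om →+* ℂ) (P : Plc) (h3 : P.rchar = 3) (L : Fl.Loc3 ι P), A (Lc.of h3 L)

theorem AllX.exists {A : Lc → Prop} (h : AllX A) : ∃ (ι : Om →+* ℂ) (P : Plc) (h3 : P.rchar = 3)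
    (L : Fl.Loc3 ι P), A (Lc.of h3 L) := by
  obtain ⟨P, hP⟩ := TwAsm.exists_place_rchar Nat.prime_three
  let ι : Om →+* ℂ := (IsAlgClosed.lift : Om →ₐ[ℚ] ℂ)
  obtain ⟨L⟩ := Fl.setup Om ι P hP
  exact ⟨ι, P, hP, L, h ι P hP L⟩

theorem final {Lk : LkT} {D : Nb} {G : Type} [Group G] {𝓛 : R.Lv G} (hL : LGlue) (hQ : QStmt)
    (hF : AllX fun X => FStmt X Lk D) (hHt : HtStmt Lk) (hE : EmbStmt) (hX : ExtStmt)
    (hRes : ResStmt) (hD : AllX DihStmt) (hR : R.RStmt) (hW : C.TWStmt) (hM : C.ModI)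
    (h3 : AllX R.L3Out) (hT : AllX fun X => R.TOut X 𝓛) (hEsc : R.EscOut 𝓛) :
    ¬ ComputablePred Crest.NumberTheoryR.PolyCode.HasRatZero := by
  obtain ⟨ι, P, hP, L, h⟩ := hF.exists
  exact top hL hQ h hHt hE (bGlue _ hX hRes (hD ι P hP L))
    (hR _ G 𝓛 RT.rt hW (theta_of hM) (h3 ι P hP L) (hT ι P hP L) hEsc)

end Crest.Agent.T15.Top
end
end

-- ▼ part T15/FlOut_23
section

/-!
# Row 15, block Fl: the contract `R.L3Out` (helper23)
-/

set_option autoImplicit false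

namespace Crest.Agent.T15.FlTop

/-- **`R.L3Out`** (definitionally also `Sel.L3Stmt`) -/
theorem l3Out {ι : C.Om →+* ℂ} {P : Top.Plc} (h3 : P.rchar = 3) (Λ : Fl.Loc3 ι P) :
    R.L3Out (Top.Lc.of h3 Λ) := l3_top Λ h3

end Crest.Agent.T15.FlTop
end

-- ▼ part T15/LkE_47
section

/-!
# Row 15, block L (helper47), part E: structural coprimality of annihilators

`A ∈ E_n(k)`, `B ∈ E_{b² n}(k)`, `b` a non-square: the annihilators of `A` and `B` in `ℤ[i]` have a
gcd of norm at most `192`; over `𝔽_p` the annihilator of `A` is prime to `p`.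
-/

set_option autoImplicit false
set_option linter.unusedSectionVars false

namespace Crest.Agent.T15.Lk

open WeierstrassCurve WeierstrassCurve.Affine

local notation "ℤ[i]" => GaussianInt

section small

variable {K : Type*} [Field K] [DecidableEq K] {ι n : K} [Fact (ι ^ 2 = -1)]

/-- two independent points of annihilator `g` force `N(g) ≤ 192` -/
theorem norm_le_of_indep {g : ℤ[i]} (hg : ((g.norm : ℤ) : K) ≠ 0) {A B : (E ι n).Point}
    (hA : g • A = 0) (hB : g • B = 0)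
    (H : ∀ α β : ℤ[i], α • A + β • B = 0 → g ∣ 2 * α ∧ g ∣ 2 * β) : g.norm ≤ 192 := by
  classical
  have h0 : 0 < g.norm := (GaussianInt.norm_nonneg g).lt_of_ne fun e => hg (by simp [← e])
  have hex : ∃ r : ℕ, g.norm ≤ 8 * (r : ℤ) ^ 2 := ⟨g.norm.toNat, by
    rw [Int.toNat_of_nonneg h0.le]
    nlinarith⟩
  obtain ⟨r, hr⟩ : ∃ r, Nat.find hex = r + 1 := Nat.exists_eq_succ_of_ne_zero fun e => by
    have := Nat.find_spec hex
    rw [e] at this
    simp at this
    omega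
  have h1 : g.norm ≤ 8 * ((r + 1 : ℕ) : ℤ) ^ 2 := hr ▸ Nat.find_spec hex
  have h2 : 8 * (r : ℤ) ^ 2 < g.norm := not_le.1 (Nat.find_min hex (by omega))
  let z : Fin (r + 1) × Fin (r + 1) → ℤ[i] := fun u => ⟨(u.1 : ℕ), (u.2 : ℕ)⟩
  have hz : ∀ u v, g ∣ 2 * (z u - z v) → u = v := fun u v ⟨w, hw⟩ => by
    have e := congrArg Zsqrtd.norm hw
    rw [Zsqrtd.norm_mul g w] at e
    have b : ∀ s t : Fin (r + 1), (((s : ℕ) : ℤ) - (t : ℕ)) ^ 2 ≤ (r : ℤ) ^ 2 := fun s t =>
      sq_le_sq' (by have := t.2; omega) (by have := s.2; omega)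
    have e' : (2 * (z u - z v)).norm =
        4 * ((((u.1 : ℕ) : ℤ) - (v.1 : ℕ)) ^ 2 + (((u.2 : ℕ) : ℤ) - (v.2 : ℕ)) ^ 2) := by
      simp [Zsqrtd.norm_def, z]
      ring
    have hw0 : w.norm = 0 := by
      by_contra hne
      have : 1 ≤ w.norm := (GaussianInt.norm_nonneg w).lt_of_ne (Ne.symm hne)
      have := b u.1 v.1
      have := b u.2 v.2
      nlinarith
    rw [hw0, mul_zero, e'] at e
    have p1 := sq_nonneg (((u.1 : ℕ) : ℤ) - (v.1 : ℕ))
    have p2 := sq_nonneg (((u.2 : ℕ) : ℤ) - (v.2 : ℕ))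
    have q1 := pow_eq_zero_iff two_ne_zero |>.1 (show (((u.1 : ℕ) : ℤ) - (v.1 : ℕ)) ^ 2 = 0 by omega)
    have q2 := pow_eq_zero_iff two_ne_zero |>.1 (show (((u.2 : ℕ) : ℤ) - (v.2 : ℕ)) ^ 2 = 0 by omega)
    exact Prod.ext (Fin.ext (by omega)) (Fin.ext (by omega))
  let f : (Fin (r + 1) × Fin (r + 1)) × (Fin (r + 1) × Fin (r + 1)) → (E ι n).Point :=
    fun u => z u.1 • A + z u.2 • B
  have hf : Function.Injective f := fun u v e => by
    have := H (z u.1 - z v.1) (z u.2 - z v.2) (by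
      rw [sub_smul, sub_smul, sub_add_sub_comm]
      exact sub_eq_zero.2 e)
    exact Prod.ext (hz _ _ this.1) (hz _ _ this.2)
  have h3 := card_tors_le g hg (Finset.univ.image f) fun C hC => by
    obtain ⟨u, -, rfl⟩ := Finset.mem_image.1 hC
    rw [smul_add, smul_comm, hA, smul_comm g, hB, smul_zero, smul_zero, add_zero]
  rw [Finset.card_image_of_injective _ hf] at h3
  simp only [Finset.card_univ, Fintype.card_prod, Fintype.card_fin] at h3
  push_cast at h1 h3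
  have h4 : (0 : ℤ) < (r + 1) ^ 2 := by positivity
  have h5 : ((r : ℤ) + 1) ^ 2 ≤ 24 := by nlinarith
  omega

end small

section twist

variable {k : Type*} [Field k] [DecidableEq k] {ι n b : k} [hι : Fact (ι ^ 2 = -1)]

/-- **Structural coprimality.** -/
theorem norm_le_of_twist (hb : ¬ IsSquare b) {g : ℤ[i]} (hg : ((g.norm : ℤ) : k) ≠ 0)
    {A : (E ι n).Point} {B : (E ι (b ^ 2 * n)).Point} (hA : ∀ α : ℤ[i], α • A = 0 ↔ g ∣ α)
    (hB : ∀ α : ℤ[i], α • B = 0 ↔ g ∣ α) : g.norm ≤ 192 := by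
  classical
  have : Fact (∀ r : k, r ^ 2 ≠ b + 0 * r) := ⟨fun r e => hb ⟨r, by rw [← sq, e]; ring⟩⟩
  let K := QuadraticAlgebra k b 0
  let f : k →+* K := algebraMap k K
  let s : K := QuadraticAlgebra.omega
  let σ : K →+* K := starRingEnd K
  have hs : s ^ 2 = f b := by ext <;> simp [s, f, K, sq]
  have hσs : σ s = -s := by ext <;> simp [s, σ, K, starRingEnd_apply]
  have hσf : ∀ x, σ (f x) = f x := fun x => by ext <;> simp [f, σ, K, starRingEnd_apply]
  have hb0 : b ≠ 0 := fun e => hb (e ▸ IsSquare.zero)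
  have hs0 : s ≠ 0 := fun e => hb0 (f.injective (by rw [← hs, e, map_zero]; ring))
  have : Fact (f ι ^ 2 = -1) := ⟨by rw [← map_pow, hι.out, map_neg, map_one]⟩
  have t₁ : Tw (E ι n) (E (f ι) (f n)) f 1 := tw_E one_ne_zero (by simp)
  have t₂ : Tw (E ι (b ^ 2 * n)) (E (f ι) (f n)) f s⁻¹ := tw_E (inv_ne_zero hs0) (by
    rw [map_mul, map_pow, ← hs, ← mul_assoc, ← pow_mul, ← mul_pow, inv_mul_cancel₀ hs0]
    simp)
  have t₃ : Tw (E (f ι) (f n)) (E (f ι) (f n)) σ 1 := tw_E one_ne_zero (by simp [hσf])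
  have e₁ : ∀ C, t₃.hom (t₁.hom C) = t₁.hom C := by
    rintro (_ | ⟨x, y, h⟩)
    · rfl
    · simp only [Tw.hom_some, one_pow, one_mul, hσf]
  have e₂ : ∀ C, t₃.hom (t₂.hom C) = -t₂.hom C := by
    rintro (_ | ⟨x, y, h⟩)
    · rfl
    · simp only [Tw.hom_some, Point.neg_some, E_negY, one_pow, one_mul, map_mul, map_pow, hσf,
        map_inv₀, hσs]
      congr 1 <;> ring
  refine norm_le_of_indep (ι := f ι) (n := f n) (A := t₁.hom A) (B := t₂.hom B)
    (by rwa [← map_intCast f, map_ne_zero]) ?_ ?_ fun α β e => ?_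
  · rw [← t₁.hom_smul rfl, (hA g).2 dvd_rfl, map_zero]
  · rw [← t₂.hom_smul rfl, (hB g).2 dvd_rfl, map_zero]
  · rw [← t₁.hom_smul rfl, ← t₂.hom_smul rfl] at e
    have e' := congrArg t₃.hom e
    rw [map_add, e₁, e₂, map_zero] at e'
    refine ⟨(hA _).1 (t₁.hom_injective ?_), (hB _).1 (t₂.hom_injective ?_)⟩
    · rw [two_mul, add_smul, map_add, map_zero]
      linear_combination (norm := abel1) e + e'
    · rw [two_mul, add_smul, map_add, map_zero]
      linear_combination (norm := abel1) e - e'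

theorem exists_ann (A : (E ι n).Point) : ∃ δ : ℤ[i], ∀ α : ℤ[i], α • A = 0 ↔ δ ∣ α := by
  obtain ⟨δ, hδ⟩ := (IsPrincipalIdealRing.principal (Ideal.torsionOf ℤ[i] _ A)).principal
  exact ⟨δ, fun α => by
    rw [← Ideal.mem_torsionOf_iff, hδ, Ideal.submodule_span_eq, Ideal.mem_span_singleton]⟩

theorem ann_div {A : (E ι n).Point} {g d : ℤ[i]} (hd : d ≠ 0)
    (h : ∀ α : ℤ[i], α • A = 0 ↔ g * d ∣ α) (α : ℤ[i]) : α • (d • A) = 0 ↔ g ∣ α := by
  rw [← mul_smul, h, mul_dvd_mul_iff_right hd]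

end twist

section count

variable {k : Type*} [Field k] [Fintype k] [DecidableEq k]

theorem card_points (ι : k) {n : k} (h2 : (2 : k) ≠ 0) (hn : n ≠ 0) :
    (Nat.card (E ι n).Point : ℤ) = 1 + ∑ x : k, (quadraticChar k (x ^ 3 - n * x) + 1) := by
  have hc : ringChar k ≠ 2 := fun e => h2 (by exact_mod_cast (ringChar.spec k 2).2 (e ▸ dvd_rfl))
  have := E_isElliptic ι h2 hn
  classical
  rw [Nat.card_congr (pointEquiv (E ι n)), WithZero, Nat.card_eq_fintype_card, Fintype.card_option,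
    Fintype.card_congr (Equiv.subtypeProdEquivSigmaSubtype fun x y => (E ι n).Equation x y),
    Fintype.card_sigma]
  push_cast
  rw [add_comm]
  congr 1
  refine Finset.sum_congr rfl fun x _ => ?_
  rw [← quadraticChar_card_sqrts hc, Set.toFinset_card]
  exact congrArg _ (Fintype.card_congr (Equiv.subtypeEquivRight fun y => E_equation))

theorem card_add_card (ι : k) {n b : k} (h2 : (2 : k) ≠ 0) (hn : n ≠ 0) (hb : ¬ IsSquare b) :
    Nat.card (E ι n).Point + Nat.card (E ι (b ^ 2 * n)).Point = 2 * Fintype.card k + 2 := by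
  have hb0 : b ≠ 0 := fun e => hb (e ▸ IsSquare.zero)
  zify
  rw [card_points ι h2 hn, card_points ι h2 (mul_ne_zero (pow_ne_zero 2 hb0) hn),
    ← Equiv.sum_comp (Equiv.mulLeft₀ b hb0) fun x => quadraticChar k (x ^ 3 - b ^ 2 * n * x) + 1]
  have : ∀ x : k, quadraticChar k ((b * x) ^ 3 - b ^ 2 * n * (b * x)) =
      -quadraticChar k (x ^ 3 - n * x) := fun x => by
    rw [show (b * x) ^ 3 - b ^ 2 * n * (b * x) = b ^ 2 * (b * (x ^ 3 - n * x)) by ring, map_mul,
      map_mul, quadraticChar_sq_one' hb0, quadraticChar_neg_one_iff_not_isSquare.2 hb]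
    ring
  simp only [Equiv.mulLeft₀_apply, this, Finset.sum_add_distrib, Finset.sum_neg_distrib,
    Finset.sum_const, Finset.card_univ, nsmul_eq_mul, mul_one]
  ring

instance finite_point (ι n : k) : Finite (E ι n).Point := Finite.of_injective _ co_injective

end count

section zmod

variable {p : ℕ} [hp : Fact p.Prime] {ι n b : ZMod p} [Fact (ι ^ 2 = -1)]

theorem not_dvd_card (h2 : (2 : ZMod p) ≠ 0) (hn : n ≠ 0) (hb : ¬ IsSquare b) {x y : ZMod p}
    (h : (E ι (b ^ 2 * n)).Nonsingular x y) (hx : x ≠ 0) : ¬ p ∣ Nat.card (E ι n).Point := by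
  intro hd
  have hb0 : b ≠ 0 := fun e => hb (e ▸ IsSquare.zero)
  have hs := card_add_card ι h2 hn hb
  rw [ZMod.card] at hs
  have hT : (E ι n).Nonsingular 0 0 := (E_nonsingular h2 hn).2 (by simp)
  have hT' : (E ι (b ^ 2 * n)).Nonsingular 0 0 :=
    (E_nonsingular h2 (mul_ne_zero (pow_ne_zero 2 hb0) hn)).2 (by simp)
  have d2 : 2 ∣ Nat.card (E ι n).Point := by
    rw [← addOrderOf_eq_prime (p := 2) (x := (.some 0 0 hT : (E ι n).Point))
      (by rw [two_nsmul]; exact Point.add_self_of_Y_eq (by simp)) (Point.some_ne_zero _)]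
    exact addOrderOf_dvd_natCard _
  have hp2 : p ≠ 2 := fun e => h2 (by exact_mod_cast (ZMod.natCast_eq_zero_iff 2 p).2 (e ▸ dvd_rfl))
  have h3 := Nat.le_of_dvd Nat.card_pos
    (((Nat.coprime_primes Nat.prime_two hp.out).2 hp2.symm).mul_dvd_of_dvd_of_dvd d2 hd)
  have h4 : 2 < Nat.card (E ι (b ^ 2 * n)).Point := by
    have := Fintype.ofFinite (E ι (b ^ 2 * n)).Point
    rw [Nat.card_eq_fintype_card, Fintype.two_lt_card_iff]
    exact ⟨0, .some 0 0 hT', .some x y h, (Point.some_ne_zero _).symm, (Point.some_ne_zero _).symm,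
      fun e => hx (Point.some.inj e).1.symm⟩
  omega

/-- the fixed integer in the gcd of the annihilators -/
def cc : ℕ := Nat.factorial 192

theorem cc_ne_zero : cc ≠ 0 := Nat.factorial_ne_zero _

/-- **The link index.** `μ` kills `A`, and `μ - c` lies in `𝔭 · Ann B`. -/
theorem exists_mu (h2 : (2 : ZMod p) ≠ 0) (hn : n ≠ 0) (hb : ¬ IsSquare b) (A : (E ι n).Point)
    {x y : ZMod p} (h : (E ι (b ^ 2 * n)).Nonsingular x y) (hx : x ≠ 0) :
    ∃ μ π δ : ℤ[i], μ • A = 0 ∧ δ ≠ 0 ∧ δ • (.some x y h : (E ι (b ^ 2 * n)).Point) = 0 ∧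
      μ - (cc : ℤ[i]) = π * δ ∧ zi ι π = 0 := by
  obtain ⟨d, hd⟩ := exists_ann A
  obtain ⟨δ, hδ⟩ := exists_ann (.some x y h : (E ι (b ^ 2 * n)).Point)
  have kill : ∀ {m : ZMod p} (C : (E ι m).Point), ((Nat.card (E ι m).Point : ℕ) : ℤ[i]) • C = 0 :=
    fun C => by rw [Nat.cast_smul_eq_nsmul, card_nsmul_eq_zero']
  have hN : ((Nat.card (E ι n).Point : ℕ) : ZMod p) ≠ 0 := fun e =>
    not_dvd_card h2 hn hb h hx ((ZMod.natCast_eq_zero_iff _ _).1 e)
  have hδ0 : δ ≠ 0 := fun e => by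
    have := (hδ _).1 (kill _)
    rw [e, zero_dvd_iff, Nat.cast_eq_zero] at this
    exact Nat.card_pos.ne' this
  obtain ⟨d', hd'⟩ := (hd _).1 (kill A)
  have hz : zi ι d ≠ 0 := fun e => hN (by rw [← map_natCast (zi ι), hd', map_mul, e, zero_mul])
  obtain ⟨d₁, e₁⟩ := EuclideanDomain.gcd_dvd_left d δ
  obtain ⟨δ₁, e₂⟩ := EuclideanDomain.gcd_dvd_right d δ
  have e := EuclideanDomain.gcd_eq_gcd_ab d δ
  generalize EuclideanDomain.gcd d δ = g at e e₁ e₂
  have hg : ((g.norm : ℤ) : ZMod p) ≠ 0 := fun e0 => by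
    have := congrArg (fun z : ℤ[i] => ((z.norm : ℤ) : ZMod p)) hd'
    simp only [e₁, Zsqrtd.norm_mul, Zsqrtd.norm_natCast, Int.cast_mul, e0, zero_mul,
      Int.cast_natCast] at this
    exact mul_ne_zero hN hN this
  have hle := norm_le_of_twist hb hg
    (ann_div (d := d₁) (fun e0 => hz (by rw [e₁, e0, mul_zero, map_zero])) (e₁ ▸ hd))
    (ann_div (d := δ₁) (fun e0 => hδ0 (by rw [e₂, e0, mul_zero])) (e₂ ▸ hδ))
  have h0 : 0 < g.norm := (GaussianInt.norm_nonneg g).lt_of_ne fun e => hg (by simp [← e])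
  obtain ⟨c₁, hc⟩ : g ∣ (cc : ℤ[i]) := by
    obtain ⟨t, ht⟩ : g.norm.toNat ∣ cc := Nat.dvd_factorial (by omega) (by omega)
    refine ⟨star g * t, ?_⟩
    rw [ht, Nat.cast_mul, ← mul_assoc, ← Zsqrtd.norm_eq_mul_conj, ← Int.cast_natCast,
      Int.toNat_of_nonneg h0.le]
  obtain ⟨t, ht⟩ := ZMod.intCast_surjective (zi ι (EuclideanDomain.gcdB d δ * c₁) / zi ι d)
  refine ⟨(EuclideanDomain.gcdA d δ * c₁ + t * δ) * d, t * d - EuclideanDomain.gcdB d δ * c₁, δ,
    (hd _).2 (dvd_mul_left _ _), hδ0, (hδ _).2 dvd_rfl, ?_, ?_⟩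
  · rw [hc]
    linear_combination -c₁ * e
  · rw [map_sub, map_mul, map_intCast, ht, div_mul_cancel₀ _ hz, sub_self]

end zmod

end Crest.Agent.T15.Lk
end

-- ▼ part T15/LkD_16
section

/-!
# Row 15, block L (D): Diophantine maps and Diophantine families of points of `E ι n`
-/

set_option autoImplicit false
set_option linter.unusedSectionVars false

namespace Crest.Agent.T15

attribute [fun_prop] DioF

variable {V W X : Type*} [AddCommGroup V] [Module ℚ V] [AddCommGroup W] [Module ℚ W]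
  [AddCommGroup X] [Module ℚ X]

namespace DioF

theorem congr {f g : V → W} (h : DioF f) (e : ∀ x, f x = g x) : DioF g := funext e ▸ h

@[fun_prop] theorem id' [Module.Finite ℚ V] : DioF fun x : V => x := PolM.dioF PolM.id'

@[fun_prop] theorem const [Module.Finite ℚ W] (c : W) : DioF fun _ : V => c :=
  PolM.dioF (PolM.const c)

@[fun_prop] theorem comp [Module.Finite ℚ W] {g : W → X} {f : V → W} (hg : DioF g) (hf : DioF f) :
    DioF fun x => g (f x) :=
  (Dio.ex (R := fun (p : V × X) (w : W) => f p.1 = w ∧ g w = p.2)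
    (Dio.and (Dio.comp hf (g := fun q : (V × X) × W => (q.1.1, q.2)) (by fun_prop))
      (Dio.comp hg (g := fun q : (V × X) × W => (q.2, q.1.2)) (by fun_prop)))).congr
    fun _ => by simp


/-- postcomposition with a polynomial map -/
theorem pol [Module.Finite ℚ W] [Module.Finite ℚ X] {g : W → X} {f : V → W} (hg : PolM g)
    (hf : DioF f) : DioF fun x => g (f x) := comp hg.dioF hf

@[fun_prop] theorem prodMk {f : V → W} {g : V → X} (hf : DioF f) (hg : DioF g) :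
    DioF fun x => (f x, g x) :=
  (Dio.and (Dio.comp hf (g := fun q : V × W × X => (q.1, q.2.1)) (by fun_prop))
    (Dio.comp hg (g := fun q : V × W × X => (q.1, q.2.2)) (by fun_prop))).congr
    fun _ => by simp [Prod.ext_iff]

@[fun_prop] theorem fst [Module.Finite ℚ W] [Module.Finite ℚ X] {f : V → W × X} (hf : DioF f) :
    DioF fun x => (f x).1 := pol (g := fun p : W × X => p.1) (by fun_prop) hf

@[fun_prop] theorem snd [Module.Finite ℚ W] [Module.Finite ℚ X] {f : V → W × X} (hf : DioF f) :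
    DioF fun x => (f x).2 := pol (g := fun p : W × X => p.2) (by fun_prop) hf

section pi

variable {ι : Type*} {Y : ι → Type*} [∀ i, AddCommGroup (Y i)] [∀ i, Module ℚ (Y i)]

@[fun_prop] theorem pi [Finite ι] {f : V → ∀ i, Y i} (h : ∀ i, DioF fun x => f x i) : DioF f :=
  (Dio.forall_fin fun i => Dio.comp (h i) (g := fun q : V × (∀ i, Y i) => (q.1, q.2 i))
    (by fun_prop)).congr fun _ => funext_iff.symm

@[fun_prop] theorem apply [Finite ι] [∀ i, Module.Finite ℚ (Y i)] (i : ι) :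
    DioF fun f : ∀ i, Y i => f i := (PolM.apply i).dioF

end pi

section fin

variable [Module.Finite ℚ W]

@[fun_prop] theorem add {f g : V → W} (hf : DioF f) (hg : DioF g) : DioF fun x => f x + g x :=
  pol (g := fun p : W × W => p.1 + p.2) (by fun_prop) (hf.prodMk hg)

@[fun_prop] theorem neg {f : V → W} (hf : DioF f) : DioF fun x => -f x :=
  pol (g := fun p : W => -p) (by fun_prop) hf

@[fun_prop] theorem sub {f g : V → W} (hf : DioF f) (hg : DioF g) : DioF fun x => f x - g x :=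
  pol (g := fun p : W × W => p.1 - p.2) (by fun_prop) (hf.prodMk hg)

@[fun_prop] theorem smul {f : V → ℚ} {g : V → W} (hf : DioF f) (hg : DioF g) :
    DioF fun x => f x • g x :=
  pol (g := fun p : ℚ × W => p.1 • p.2) (by fun_prop) (hf.prodMk hg)

@[fun_prop] theorem lin [Module.Finite ℚ X] (L : W →ₗ[ℚ] X) {f : V → W} (hf : DioF f) :
    DioF fun x => L (f x) := pol (g := fun p => L p) (by fun_prop) hf

@[fun_prop] theorem sum {ι : Type*} (s : Finset ι) {f : ι → V → W} (h : ∀ i ∈ s, DioF (f i)) :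
    DioF fun x => ∑ i ∈ s, f i x := by
  classical
  induction s using Finset.induction_on with
  | empty => simpa using const (0 : W)
  | insert a s ha ih =>
    simp only [Finset.sum_insert ha]
    exact (h a (Finset.mem_insert_self _ _)).add (ih fun i hi => h i (Finset.mem_insert_of_mem hi))

end fin

/-- definition by cases -/
theorem ite {P : V → Prop} [DecidablePred P] {f g : V → W} (hP : Dio P) (hN : Dio fun x => ¬ P x)
    (hf : DioF f) (hg : DioF g) : DioF fun x => if P x then f x else g x :=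
  (Dio.or (Dio.and (hP.comp (g := fun q : V × W => q.1) (by fun_prop)) hf)
    (Dio.and (hN.comp (g := fun q : V × W => q.1) (by fun_prop)) hg)).congr fun q => by
      by_cases h : P q.1 <;> simp [h]

section alg

variable {A : Type*} [Ring A] [Algebra ℚ A] [Module.Finite ℚ A]

@[fun_prop] theorem mul {f g : V → A} (hf : DioF f) (hg : DioF g) : DioF fun x => f x * g x :=
  pol (g := fun p : A × A => p.1 * p.2) (by fun_prop) (hf.prodMk hg)

@[fun_prop] theorem pow {f : V → A} (hf : DioF f) (k : ℕ) : DioF fun x => f x ^ k :=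
  pol (g := fun p : A => p ^ k) (by fun_prop) hf

variable {B : Type*} [Ring B] [Algebra ℚ B] [Module.Finite ℚ B]

@[fun_prop] theorem algHom (φ : A →ₐ[ℚ] B) {f : V → A} (hf : DioF f) : DioF fun x => φ (f x) :=
  pol (g := fun p => φ p) (by fun_prop) hf

@[fun_prop] theorem algEquiv (φ : A ≃ₐ[ℚ] B) {f : V → A} (hf : DioF f) : DioF fun x => φ (f x) :=
  pol (g := fun p => φ p) (by fun_prop) hf

@[fun_prop] theorem ringHom (φ : A →+* B) {f : V → A} (hf : DioF f) : DioF fun x => φ (f x) :=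
  pol (g := fun p => φ p) (by fun_prop) hf

@[fun_prop] theorem ringEquiv (φ : A ≃+* B) {f : V → A} (hf : DioF f) : DioF fun x => φ (f x) :=
  pol (g := fun p => φ p) (by fun_prop) hf

end alg

section field

variable {F : Type*} [Field F] [Algebra ℚ F] [Module.Finite ℚ F]

@[fun_prop] theorem inv {f : V → F} (hf : DioF f) : DioF fun x => (f x)⁻¹ :=
  comp (g := fun y : F => y⁻¹) (Dio.inv (R := fun (p : F × F) (w : F) => w = p.2)
    (Dio.eq (by fun_prop) (by fun_prop)) (f := fun p : F × F => p.1) (by fun_prop)) hf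

@[fun_prop] theorem div {f g : V → F} (hf : DioF f) (hg : DioF g) : DioF fun x => f x / g x :=
  (hf.mul hg.inv).congr fun _ => (div_eq_mul_inv _ _).symm

@[fun_prop] theorem algebraMap' {K : Type*} [Field K] [Algebra ℚ K] [Module.Finite ℚ K]
    [Algebra K F] {f : V → K} (hf : DioF f) : DioF fun x => algebraMap K F (f x) :=
  hf.ringHom (algebraMap K F)

end field

@[fun_prop] theorem ratCast {F : Type*} [Field F] [CharZero F] [Module.Finite ℚ F] {f : V → ℚ}
    (hf : DioF f) : DioF fun x => (f x : F) := pol (g := fun p : ℚ => (p : F)) (by fun_prop) hf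

end DioF

namespace Dio

theorem eqF [Module.Finite ℚ W] {f g : V → W} (hf : DioF f) (hg : DioF g) :
    Dio fun x => f x = g x :=
  Dio.compF (S := fun p : W × W => p.1 = p.2) (Dio.eq (by fun_prop) (by fun_prop)) (hf.prodMk hg)

theorem neF [Module.Finite ℚ W] {f g : V → W} (hf : DioF f) (hg : DioF g) :
    Dio fun x => f x ≠ g x :=
  Dio.compF (S := fun p : W × W => p.1 ≠ p.2) (Dio.ne (by fun_prop) (by fun_prop)) (hf.prodMk hg)

end Dio

namespace Lk

open WeierstrassCurve WeierstrassCurve.Affine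

local notation "ℤ[i]" => GaussianInt

section pt

variable {F : Type*} [Field F]

open Classical in
/-- the point with given coordinates (`0` off the curve) -/
noncomputable def pt (ι n : F) (v : F × F) : (E ι n).Point :=
  if h : (E ι n).Nonsingular v.1 v.2 then .some v.1 v.2 h else 0

variable {ι n : F}

theorem pt_some {x y : F} (h : (E ι n).Nonsingular x y) : pt ι n (x, y) = .some x y h := dif_pos h

theorem pt_of_not {v : F × F} (h : ¬ (E ι n).Nonsingular v.1 v.2) : pt ι n v = 0 := dif_neg h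

theorem not_nonsingular_zero_one : ¬ (E ι n).Nonsingular 0 1 := fun h => by
  simpa using E_equation.1 h.1

@[simp] theorem pt_co (A : (E ι n).Point) : pt ι n (co A) = A := by
  rcases A with _ | ⟨x, y, h⟩
  · exact pt_of_not not_nonsingular_zero_one
  · exact pt_some h

theorem co_eq_iff {A : (E ι n).Point} : co A = (0, 1) ↔ A = 0 :=
  (co_injective (ι := ι) (n := n)).eq_iff' co_zero

open Classical in
theorem co_pt (h2 : (2 : F) ≠ 0) (hn : n ≠ 0) (v : F × F) :
    co (pt ι n v) = if v.2 ^ 2 = v.1 ^ 3 - n * v.1 then v else (0, 1) := by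
  split_ifs with h
  · rw [pt, dif_pos ((E_nonsingular h2 hn).2 h)]
    rfl
  · rw [pt_of_not (mt (E_nonsingular h2 hn).1 h)]
    rfl


variable [DecidableEq F]

/-- the slope in coordinates -/
def slc (n : F) (a b : F × F) : F :=
  if a.1 = b.1 then (3 * a.1 ^ 2 - n) / (2 * a.2) else (a.2 - b.2) / (a.1 - b.1)

/-- addition in coordinates -/
def adc (n : F) (a b : F × F) : F × F :=
  if a = (0, 1) then b else if b = (0, 1) then a else if (a.1, a.2) = (b.1, -b.2) then (0, 1) else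
    (slc n a b ^ 2 - a.1 - b.1, -(slc n a b * (slc n a b ^ 2 - a.1 - b.1 - a.1) + a.2))

theorem co_add (A B : (E ι n).Point) : co (A + B) = adc n (co A) (co B) := by
  rcases A with _ | ⟨x₁, y₁, h₁⟩
  · change co (0 + B) = adc n (0, 1) (co B)
    rw [zero_add, adc, if_pos rfl]
  have e₁ : (x₁, y₁) ≠ (0, 1) := fun e => Point.some_ne_zero h₁ (co_eq_iff.1 e)
  rcases B with _ | ⟨x₂, y₂, h₂⟩
  · change co (.some x₁ y₁ h₁ + 0) = adc n (x₁, y₁) (0, 1)
    rw [add_zero, adc, if_neg e₁, if_pos rfl]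
    rfl
  have e₂ : (x₂, y₂) ≠ (0, 1) := fun e => Point.some_ne_zero h₂ (co_eq_iff.1 e)
  rw [co_some, co_some, adc, if_neg e₁, if_neg e₂]
  by_cases hxy : x₁ = x₂ ∧ y₁ = (E ι n).negY x₂ y₂
  · rw [Point.add_of_Y_eq hxy.1 hxy.2, if_pos (by simpa using hxy)]
    rfl
  · rw [Point.add_some hxy, if_neg (by simpa using hxy), co_some]
    have hs : (E ι n).slope x₁ x₂ y₁ y₂ = slc n (x₁, y₁) (x₂, y₂) := by
      unfold slc
      by_cases hx : x₁ = x₂
      · rw [if_pos hx, slope_of_Y_ne hx fun h => hxy ⟨hx, h⟩]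
        simp [two_mul, sub_eq_add_neg]
      · rw [if_neg hx, slope_of_X_ne hx]
    rw [hs]
    simp [Affine.addY, Affine.negAddY, Affine.addX]

theorem co_neg (A : (E ι n).Point) :
    co (-A) = if co A = (0, 1) then (0, 1) else ((co A).1, -(co A).2) := by
  rcases A with _ | ⟨x, y, h⟩
  · exact (if_pos rfl).symm
  · have e : (x, y) ≠ (0, 1) := fun e => Point.some_ne_zero h (co_eq_iff.1 e)
    rw [Point.neg_some, co_some, co_some, if_neg e, E_negY]


theorem co_hom {F' : Type*} [Field F'] [DecidableEq F'] {ι' n' : F'} {f : F →+* F'} {u : F'}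
    (h : Tw (E ι n) (E ι' n') f u) (A : (E ι n).Point) :
    co (h.hom A) = if co A = (0, 1) then (0, 1) else (u ^ 2 * f (co A).1, u ^ 3 * f (co A).2) := by
  rcases A with _ | ⟨x, y, hn⟩
  · exact (if_pos rfl).symm
  · have e : (x, y) ≠ (0, 1) := fun e => Point.some_ne_zero hn (co_eq_iff.1 e)
    rw [h.hom_some, co_some, co_some, if_neg e]

end pt

section dpt

variable {F : Type*} [Field F] [NumberField F] {ι n : F}

/-- a Diophantine family of points -/
def DPt (f : V → (E ι n).Point) : Prop := DioF fun v => co (f v)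


theorem dioF_slc [DecidableEq F] : DioF fun p : (F × F) × F × F => slc n p.1 p.2 :=
  DioF.ite (Dio.eq (by fun_prop) (by fun_prop)) (Dio.ne (by fun_prop) (by fun_prop))
    (by fun_prop) (by fun_prop)

theorem dioF_adc [DecidableEq F] : DioF fun p : (F × F) × F × F => adc n p.1 p.2 := by
  have h := dioF_slc (n := n)
  refine DioF.ite (Dio.eq (by fun_prop) (by fun_prop)) (Dio.ne (by fun_prop) (by fun_prop))
    (by fun_prop) (DioF.ite (Dio.eq (by fun_prop) (by fun_prop)) (Dio.ne (by fun_prop) (by fun_prop))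
      (by fun_prop) (DioF.ite (Dio.eq (by fun_prop) (by fun_prop))
        (Dio.ne (by fun_prop) (by fun_prop)) (by fun_prop) ?_))
  have h1 : DioF fun p : (F × F) × F × F => slc n p.1 p.2 ^ 2 - p.1.1 - p.2.1 :=
    ((h.pow 2).sub (by fun_prop)).sub (by fun_prop)
  exact h1.prodMk ((h.mul (h1.sub (by fun_prop))).add (by fun_prop)).neg

namespace DPt

variable {f g : V → (E ι n).Point}

theorem dioF (hf : DPt f) : DioF fun v => co (f v) := hf

theorem congr (hf : DPt f) (e : ∀ v, f v = g v) : DPt g := funext e ▸ hf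

theorem pt (hn : n ≠ 0) {g : V → F × F} (hg : DioF g) : DPt fun v => Lk.pt ι n (g v) := by
  classical
  refine DioF.comp (g := fun v => co (Lk.pt ι n v)) ?_ hg
  refine DioF.congr ?_ fun v => (co_pt two_ne_zero hn v).symm
  exact DioF.ite (Dio.eq (by fun_prop) (by fun_prop)) (Dio.ne (by fun_prop) (by fun_prop))
    (by fun_prop) (by fun_prop)

theorem const (A : (E ι n).Point) : DPt fun _ : V => A := DioF.const _

theorem comp [Module.Finite ℚ W] {f : W → (E ι n).Point} (hf : DPt f) {g : V → W} (hg : DioF g) :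
    DPt fun v => f (g v) := DioF.comp (g := fun w => co (f w)) hf hg


theorem tt (hf : DPt f) : DioF fun v => tt (f v) := hf.dioF.fst.div hf.dioF.snd

theorem eq (hf : DPt f) (hg : DPt g) : Dio fun v => f v = g v :=
  (Dio.eqF hf hg).congr fun _ => co_injective.eq_iff

theorem ne (hf : DPt f) (hg : DPt g) : Dio fun v => f v ≠ g v :=
  (Dio.neF hf hg).congr fun _ => co_injective.ne_iff

variable [DecidableEq F]

theorem add (hf : DPt f) (hg : DPt g) : DPt fun v => f v + g v :=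
  (DioF.comp dioF_adc (DioF.prodMk hf hg)).congr fun _ => (co_add _ _).symm

theorem neg (hf : DPt f) : DPt fun v => -f v :=
  (DioF.ite (Dio.eqF hf (DioF.const _)) (Dio.neF hf (DioF.const _)) (DioF.const _)
    (hf.dioF.fst.prodMk hf.dioF.snd.neg)).congr fun _ => (co_neg _).symm

theorem sub (hf : DPt f) (hg : DPt g) : DPt fun v => f v - g v :=
  (hf.add hg.neg).congr fun _ => (sub_eq_add_neg _ _).symm

theorem nsmul (k : ℕ) (hf : DPt f) : DPt fun v => k • f v := by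
  induction k with
  | zero => exact (const 0).congr fun _ => (zero_nsmul _).symm
  | succ k ih => exact (ih.add hf).congr fun _ => (succ_nsmul _ _).symm

theorem zsmul (k : ℤ) (hf : DPt f) : DPt fun v => k • f v := by
  rcases k with k | k
  · exact (hf.nsmul k).congr fun _ => (natCast_zsmul _ _).symm
  · exact (hf.nsmul (k + 1)).neg.congr fun _ => (negSucc_zsmul _ _).symm

theorem sum {κ : Type*} (s : Finset κ) {f : κ → V → (E ι n).Point} (h : ∀ i ∈ s, DPt (f i)) :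
    DPt fun v => ∑ i ∈ s, f i v := by
  classical
  induction s using Finset.induction_on with
  | empty => simpa using const (0 : (E ι n).Point)
  | insert a s ha ih =>
    simp only [Finset.sum_insert ha]
    exact (h a (Finset.mem_insert_self _ _)).add (ih fun i hi => h i (Finset.mem_insert_of_mem hi))

/-- twists, conjugations and base changes -/
theorem hom {F' : Type*} [Field F'] [NumberField F'] [DecidableEq F'] {ι' n' : F'} {φ : F →+* F'}
    {u : F'} (h : Tw (E ι n) (E ι' n') φ u) (hf : DPt f) : DPt fun v => h.hom (f v) :=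
  (DioF.ite (Dio.eqF hf (DioF.const _)) (Dio.neF hf (DioF.const _)) (DioF.const _)
    (((DioF.const _).mul (hf.dioF.fst.ringHom φ)).prodMk
      ((DioF.const _).mul (hf.dioF.snd.ringHom φ)))).congr fun _ => (co_hom h _).symm

variable [Fact (ι ^ 2 = -1)]

theorem J (hf : DPt f) : DPt fun v => J ι n (f v) := hf.hom (tw_J ι n)

theorem smul (α : ℤ[i]) (hf : DPt f) : DPt fun v => α • f v :=
  ((hf.zsmul α.re).add (hf.J.zsmul α.im)).congr fun _ => (smul_def _ _).symm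

end DPt

end dpt

end Lk

end Crest.Agent.T15
end

-- ▼ part T15/LkG_67
section

/-!
# Row 15, block L: the gadget for ONE prime of a number field (helper67)

From the quantifier `J w ·` ("in `pℤ_(p)`") over `ℚ` we get a Diophantine relation saying that
finitely many elements of a Galois number field vanish at one common place over `p`.
-/

set_option autoImplicit false

namespace Crest.Agent.T15.Lk

open Crest.Agent.T170.Ell Crest.Agent.T170.Ell.Place NumberField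

variable {F Om : Type*} [Field F] [Field Om]

theorem mem_of_isIntegral (Q : Place F Om) {x : F} (hx : IsIntegral ℤ x) : x ∈ Q.A := by
  have h : IsIntegral Q.A x := hx.tower_top
  obtain ⟨y, hy⟩ := IsIntegrallyClosed.isIntegral_iff.1 h
  rw [← hy]; exact y.2

theorem sp_zero_mul {Q : Place F Om} {x y : F} (hx : Q.Sp x 0) (hy : y ∈ Q.A) :
    Q.Sp (x * y) 0 := by simpa using hx.mul (sp_val hy)

theorem inv_mem_of_not_sp {Q : Place F Om} {x : F} (hx : ¬ Q.Sp x 0) : x⁻¹ ∈ Q.A := by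
  rcases Q.sp_total x with ⟨a, h⟩ | h
  · exact (h.inv fun e => hx (e ▸ h)).mem
  · exact h.mem

theorem exists_nat_mul_isIntegral [NumberField F] (z : F) :
    ∃ N : ℕ, N ≠ 0 ∧ IsIntegral ℤ ((N : F) * z) := by
  have h : IsAlgebraic ℤ z := (IsFractionRing.isAlgebraic_iff ℤ ℚ F).2 (Algebra.IsAlgebraic.isAlgebraic z)
  obtain ⟨y, hy, h⟩ := h.exists_integral_multiple
  refine ⟨y.natAbs, Int.natAbs_ne_zero.2 hy, ?_⟩
  rw [zsmul_eq_mul] at h
  rcases Int.natAbs_eq y with e | e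
  · rw [e] at h; simpa using h
  · rw [e] at h; simpa using h.neg

theorem exists_den [NumberField F] (z : F) : ∃ N : ℕ, N ≠ 0 ∧
    ∀ (Om : Type) [Field Om] (Q : Place F Om), (N : Om) ≠ 0 → z ∈ Q.A := by
  obtain ⟨N, hN, h⟩ := exists_nat_mul_isIntegral z
  refine ⟨N, hN, fun Om _ Q h0 => ?_⟩
  have := mul_mem ((sp_natCast (P := Q) N).inv h0).mem (mem_of_isIntegral Q h)
  rwa [inv_mul_cancel_left₀ (by exact_mod_cast hN)] at this

/-- a common denominator for finitely many elements -/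
theorem exists_den_fin [NumberField F] {ι : Type*} [Finite ι] (z : ι → F) : ∃ N : ℕ, N ≠ 0 ∧
    ∀ (Om : Type) [Field Om] (Q : Place F Om), (N : Om) ≠ 0 → ∀ i, z i ∈ Q.A := by
  have := Fintype.ofFinite ι
  choose N hN h using fun i => exists_den (z i)
  refine ⟨∏ i, N i, Finset.prod_ne_zero_iff.2 fun i _ => hN i, fun Om _ Q h0 i => h i Om Q ?_⟩
  rw [Nat.cast_prod] at h0
  exact Finset.prod_ne_zero_iff.1 h0 i (Finset.mem_univ _)

theorem sp_rat_den [CharZero F] (Q : Place F Om) {y : ℚ} (h : (y.den : Om) ≠ 0) :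
    Q.Sp (y : F) ((y.num : Om) / y.den) := by
  rw [Rat.cast_def]
  exact (sp_intCast _).div (sp_natCast _) h

theorem sp_rat [CharZero F] {p : ℕ} [hp : Fact p.Prime] [CharP Om p] (Q : Place F Om) (y : ℚ) :
    Q.Sp (y : F) 0 ↔ (p : ℤ) ∣ y.num := by
  constructor
  · intro h
    have h1 : Q.Sp ((y : F) * y.den) 0 := sp_zero_mul h (sp_natCast _).mem
    have e : (y : F) * y.den = y.num := by exact_mod_cast Rat.mul_den_eq_num y
    rw [e] at h1
    exact (CharP.intCast_eq_zero_iff Om p _).1 ((sp_intCast _).unique h1)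
  · intro h
    have hd : (y.den : Om) ≠ 0 := fun h0 => by
      have h1 := (CharP.cast_eq_zero_iff Om p _).1 h0
      have h2 : p ∣ y.num.natAbs := Int.natCast_dvd.1 h
      exact hp.out.one_lt.ne' (Nat.eq_one_of_dvd_coprimes y.reduced h2 h1)
    have := sp_rat_den Q hd
    rwa [(CharP.intCast_eq_zero_iff Om p _).2 h, zero_div] at this

/-- places over `p` with values in an algebraically closed field exist -/
theorem exists_place_char [CharZero F] [IsAlgClosed Om] : Nonempty (Place F Om) := by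
  obtain ⟨Q, -⟩ := exists_place (Int.castRingHom F) (Int.castRingHom Om) fun b hb => by
    have : b = 0 := by simpa using hb
    simp [this]
  exact ⟨Q⟩

/-- rank one: a power of an integral element of the maximal ideal is divisible by `p` -/
theorem exists_pow_div {p : ℕ} [hp : Fact p.Prime] [CharP Om p] [CharZero F] (Q : Place F Om) {x : F}
    (hi : IsIntegral ℤ x) (hx : Q.Sp x 0) : ∃ j : ℕ, x ^ j / p ∈ Q.A := by
  classical
  obtain ⟨f, hf, h0⟩ := hi
  have hex : ∃ j, ¬ (p : ℤ) ∣ f.coeff j := ⟨f.natDegree, by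
    rw [hf.coeff_natDegree]
    exact fun h => hp.out.one_lt.ne' (by exact_mod_cast Int.eq_one_of_dvd_one (by positivity) h)⟩
  set j := Nat.find hex with hj
  have hp0 : (p : F) ≠ 0 := by exact_mod_cast hp.out.ne_zero
  obtain ⟨g, hg⟩ : Polynomial.X ^ j ∣ f - ∑ i ∈ Finset.range j, Polynomial.monomial i (f.coeff i) := by
    rw [Polynomial.X_pow_dvd_iff]
    intro d hd
    simp [Polynomial.finsetSum_coeff, Polynomial.coeff_monomial, hd]
  have hg0 : g.coeff 0 = f.coeff j := by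
    have := congrArg (fun q => q.coeff j) hg
    simp only [Polynomial.coeff_sub, Polynomial.finsetSum_coeff, Polynomial.coeff_monomial] at this
    rw [Finset.sum_eq_zero (fun i hi => if_neg (Finset.mem_range.1 hi).ne), sub_zero] at this
    rw [this]
    simpa using (Polynomial.coeff_X_pow_mul g j 0).symm
  have hu : Q.Sp (Polynomial.aeval x g) (f.coeff j : Om) := by
    have := Over.sp_aeval (P := Q) (R := ℤ) (fun r => by simpa using sp_intCast r) hx g
    rwa [← Polynomial.coeff_zero_eq_aeval_zero', hg0, algebraMap_int_eq, eq_intCast] at this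
  have hne : (f.coeff j : Om) ≠ 0 := fun h =>
    Nat.find_spec hex ((CharP.intCast_eq_zero_iff Om p _).1 h)
  have e : x ^ j * Polynomial.aeval x g = -∑ i ∈ Finset.range j, (f.coeff i : F) * x ^ i := by
    have := congrArg (Polynomial.aeval x) hg
    rw [map_sub, map_mul, map_pow, Polynomial.aeval_X, map_sum, Polynomial.aeval_def, h0] at this
    rw [← this]
    simp [Polynomial.aeval_monomial]
  refine ⟨j, ?_⟩
  have e2 : x ^ j / p = -(∑ i ∈ Finset.range j, (f.coeff i : F) / p * x ^ i) *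
      (Polynomial.aeval x g)⁻¹ := by
    rw [eq_mul_inv_iff_mul_eq₀ (hu.ne_zero hne), div_mul_eq_mul_div, e, neg_div, Finset.sum_div]
    congr 1
    exact Finset.sum_congr rfl fun i _ => by ring
  rw [e2]
  refine mul_mem (neg_mem (sum_mem fun i hi => mul_mem ?_ (pow_mem hx.mem _))) (hu.inv hne).mem
  obtain ⟨c, hc⟩ : (p : ℤ) ∣ f.coeff i := not_not.1 (Nat.find_min hex (Finset.mem_range.1 hi))
  rw [hc]
  push_cast
  rw [mul_div_cancel_left₀ _ hp0]
  exact (sp_intCast c).mem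

/-- a high power of an integral element of the maximal ideal kills any element -/
theorem exists_pow_mul {p : ℕ} [hp : Fact p.Prime] [CharP Om p] [NumberField F] (Q : Place F Om)
    {x : F} (hi : IsIntegral ℤ x) (hx : Q.Sp x 0) (z : F) :
    ∃ j : ℕ, ∀ m, j ≤ m → Q.Sp (x ^ m * z) 0 := by
  obtain ⟨j, hj⟩ := exists_pow_div (p := p) Q hi hx
  obtain ⟨N, hN, hz⟩ := exists_nat_mul_isIntegral z
  obtain ⟨k, N', hN', rfl⟩ := Nat.exists_eq_pow_mul_and_not_dvd hN p hp.out.ne_one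
  have hp0 : (p : F) ≠ 0 := by exact_mod_cast hp.out.ne_zero
  have h1 : (N' : Om) ≠ 0 := fun h => hN' ((CharP.cast_eq_zero_iff Om p _).1 h)
  have h2 : (N' : F) ≠ 0 := (sp_natCast (P := Q) N').ne_zero h1
  refine ⟨j * k + 1, fun m hm => ?_⟩
  obtain ⟨r, rfl⟩ := Nat.exists_eq_add_of_le hm
  have e : x ^ (j * k + 1 + r) * z =
      x * (x ^ r * (x ^ j / p) ^ k * (((p ^ k * N' : ℕ) : F) * z) * (N' : F)⁻¹) := by
    push_cast
    rw [div_pow]
    field_simp
    ring
  rw [e]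
  exact sp_zero_mul hx (mul_mem (mul_mem (mul_mem (pow_mem hx.mem _) (pow_mem hj _))
    (mem_of_isIntegral Q hz)) ((sp_natCast N').inv h1).mem)

theorem sp_trace [NumberField F] [IsGalois ℚ F] (Q : Place F Om) {x : F} {a : Gal(F/ℚ) → Om}
    (h : ∀ σ : Gal(F/ℚ), Q.Sp (σ x) (a σ)) : Q.Sp ((Algebra.trace ℚ F x : ℚ) : F) (∑ σ, a σ) := by
  have := trace_eq_sum_automorphisms (K := ℚ) x
  rw [eq_ratCast] at this
  rw [this]
  exact sp_sum _ fun σ _ => h σ

/-- **the gadget** -/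
theorem gadget [NumberField F] [IsGalois ℚ F] (k : Type*) [Fintype k] {J : ℚ × ℚ → Prop}
    (hJ : Dio J) : ∃ N : ℕ, N ≠ 0 ∧ ∃ G : ℚ × (k → F) → Prop, Dio G ∧
      (∀ (w : ℚ) (z : k → F) (p : ℕ) [Fact p.Prime], G (w, z) →
        (∀ y, J (w, y) → (p : ℤ) ∣ y.num) →
        ∃ Q : Place F (AlgebraicClosure (ZMod p)), ∀ j, Q.Sp (z j) 0) ∧
      ∀ (w : ℚ) (z : k → F) (p : ℕ) [Fact p.Prime] (Q : Place F (ZMod p)), ¬ p ∣ N →
        (∀ y : ℚ, (p : ℤ) ∣ y.num → J (w, y)) → (∀ j, Q.Sp (z j) 0) → G (w, z) := by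
  classical
  let b := integralBasis F
  have hb : ∀ i, IsIntegral ℤ (b i) := fun i => by
    simp only [b, integralBasis_apply]; exact RingOfIntegers.isIntegral_coe _
  let β := fun i => ((Algebra.traceForm ℚ F).toDual (traceForm_nondegenerate ℚ F)).symm (b.coord i)
  have hβ : ∀ i x, b.coord i x = Algebra.trace ℚ F (β i * x) := fun i x =>
    (LinearMap.BilinForm.apply_toDual_symm_apply (hB := traceForm_nondegenerate ℚ F) _ _).symm
  have hθ : ∀ σ : Gal(F/ℚ), ∃ i, σ ≠ 1 → σ (b i) - b i ≠ 0 := fun σ => by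
    by_contra h
    push Not at h
    obtain ⟨i0⟩ := b.index_nonempty
    refine (h i0).1 (AlgEquiv.toLinearMap_injective (b.ext fun i => ?_))
    simpa using sub_eq_zero.1 (h i).2
  choose θ hθ using hθ
  obtain ⟨N1, hN1, h1⟩ := exists_den_fin fun q : Gal(F/ℚ) × _ => q.1 (β q.2)
  obtain ⟨N2, hN2, h2⟩ := exists_den_fin fun σ : Gal(F/ℚ) => (σ (b (θ σ)) - b (θ σ))⁻¹
  refine ⟨N1 * N2, mul_ne_zero hN1 hN2, fun v => ∃ e : F,
    (∀ q : k × _, J (v.1, b.coord q.2 (e * v.2 q.1))) ∧ J (v.1, Algebra.trace ℚ F e - 1), ?_, ?_, ?_⟩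
  · refine Dio.ex (Dio.and (Dio.forall_fin fun q => hJ.comp ?_) (hJ.comp ?_)) <;> fun_prop
  · rintro w z p _ ⟨e, he, ht⟩ hs
    obtain ⟨Q⟩ := exists_place_char (F := F) (Om := AlgebraicClosure (ZMod p))
    by_contra hc
    push Not at hc
    have h3 : ∀ σ : Gal(F/ℚ), Q.Sp (σ e) 0 := fun σ => by
      obtain ⟨j, hj⟩ := hc (Q.comap (σ : F →+* F))
      have h4 : (Q.comap (σ : F →+* F)).Sp (e * z j) 0 := by
        rw [← b.sum_repr (e * z j)]
        have := sp_sum (P := Q.comap (σ : F →+* F)) Finset.univ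
          (x := fun i => b.repr (e * z j) i • b i) (a := fun _ => 0) fun i _ => by
            rw [Rat.smul_def]
            exact sp_zero_mul ((sp_rat _ _).2 (hs _ (he (j, i)))) (mem_of_isIntegral _ (hb i))
        simpa using this
      have h5 := sp_zero_mul h4 (inv_mem_of_not_sp hj)
      have h0 : z j ≠ 0 := fun h => hj (h ▸ sp_zero)
      rwa [mul_inv_cancel_right₀ h0] at h5
    have h6 := (sp_trace Q h3).sub ((sp_rat Q _).2 (hs _ ht))
    simp only [Finset.sum_const_zero, sub_zero, Rat.cast_sub, Rat.cast_one, sub_sub_cancel] at h6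
    exact one_ne_zero (sp_one.unique h6)
  · intro w z p hp Q hN hs hz
    have hN' : ((N1 * N2 : ℕ) : ZMod p) ≠ 0 := fun h => hN ((ZMod.natCast_eq_zero_iff _ _).1 h)
    rw [Nat.cast_mul] at hN'
    replace h1 := h1 _ Q (left_ne_zero_of_mul hN')
    replace h2 := h2 _ Q (right_ne_zero_of_mul hN')
    have hσ : ∀ (σ : Gal(F/ℚ)) {x : F}, IsIntegral ℤ x → IsIntegral ℤ (σ x) := fun σ x hx =>
      hx.map (σ.toRingEquiv.toRingHom.toIntAlgHom)
    let t : Gal(F/ℚ) → ℤ := fun σ => (Q.val (σ (b (θ σ)))).cast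
    have ht : ∀ σ : Gal(F/ℚ), Q.Sp (σ (b (θ σ)) - t σ) 0 := fun σ => by
      have := (sp_val (mem_of_isIntegral Q (hσ σ (hb (θ σ))))).sub (sp_intCast (t σ))
      simpa [t] using this
    let e0 : F := ∏ σ ∈ Finset.univ.erase 1, (b (θ σ) - t σ)
    have hi : ∀ σ, IsIntegral ℤ (b (θ σ) - t σ) := fun σ => (hb _).sub (isIntegral_intCast _)
    have hi0 : IsIntegral ℤ e0 := IsIntegral.prod _ fun σ _ => hi σ
    have he1 : ∀ σ : Gal(F/ℚ), σ ≠ 1 → Q.Sp (σ e0) 0 := fun σ h => by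
      simp only [e0]
      rw [← Finset.mul_prod_erase _ _ (Finset.mem_erase.2 ⟨h, Finset.mem_univ σ⟩), map_mul, map_sub,
        map_intCast]
      exact sp_zero_mul (ht σ) (mem_of_isIntegral Q (hσ σ (IsIntegral.prod _ fun σ _ => hi σ)))
    obtain ⟨a, ha, he0⟩ : ∃ a, a ≠ 0 ∧ Q.Sp e0 a := by
      refine ⟨_, Finset.prod_ne_zero_iff.2 fun σ h h0 => ?_,
        sp_prod _ fun σ _ => sp_val (mem_of_isIntegral Q (hi σ))⟩
      have h3 := sp_val (mem_of_isIntegral Q (hi σ))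
      rw [h0] at h3
      have h4 := (ht σ).sub h3
      rw [sub_sub_sub_cancel_right, sub_zero] at h4
      exact h4.inv_not_mem (hθ σ (Finset.mem_erase.1 h).1) (h2 σ)
    have hM : ∀ q : Gal(F/ℚ) × k, ∃ j : ℕ, q.1 ≠ 1 → ∀ m, j ≤ m →
        Q.Sp (q.1 e0 ^ m * q.1 (z q.2)) 0 := fun q => by
      by_cases h : q.1 = 1
      · exact ⟨0, fun h' => absurd h h'⟩
      · obtain ⟨j, hj⟩ := exists_pow_mul (p := p) Q (hσ _ hi0) (he1 _ h) (q.1 (z q.2))
        exact ⟨j, fun _ => hj⟩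
    choose M hM using hM
    have hp1 : 1 ≤ p - 1 := by have := hp.out.two_le; omega
    set m := (p - 1) * (∑ q, M q + 1) with hm
    have hm1 : ∑ q, M q + 1 ≤ m := Nat.le_mul_of_pos_left _ hp1
    have hone : Q.Sp (e0 ^ m) 1 := by
      have e : a ^ m = 1 := by rw [hm, pow_mul, ZMod.pow_card_sub_one_eq_one ha, one_pow]
      exact e ▸ he0.pow m
    refine ⟨e0 ^ m, fun q => hs _ ((sp_rat Q _).1 ?_), hs _ ((sp_rat Q _).1 ?_)⟩
    · rw [hβ]
      have := sp_trace Q (x := β q.2 * (e0 ^ m * z q.1)) (a := fun _ => 0) fun σ => by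
        rw [map_mul, mul_comm]
        refine sp_zero_mul ?_ (h1 (σ, q.2))
        by_cases h : σ = 1
        · subst h
          rw [AlgEquiv.one_apply, mul_comm]
          exact sp_zero_mul (hz _) hone.mem
        · rw [map_mul, map_pow]
          exact hM (σ, q.1) h m ((Finset.single_le_sum (fun _ _ => Nat.zero_le _)
            (Finset.mem_univ _)).trans ((Nat.le_succ _).trans hm1))
      simpa using this
    · have := (sp_trace Q (x := e0 ^ m) (a := fun σ => if σ = 1 then 1 else 0) fun σ => by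
        split_ifs with h
        · subst h; exact hone
        · rw [map_pow]
          have := (he1 σ h).pow m
          rwa [zero_pow (by omega)] at this).sub sp_one
      simpa using this

/-- Extension of a place to `K(√d)` when `d` has a nonzero square as value. -/
theorem exists_place_quad {K k : Type*} [Field K] [Field k] {d : K}
    [Fact (∀ r : K, r ^ 2 ≠ d + 0 * r)] (P : Place K k) {δ : k} (hd : P.Sp d (δ ^ 2)) (hδ : δ ≠ 0)
    (h2 : (2 : k) ≠ 0) : ∃ Q : Place (QuadraticAlgebra K d 0) k,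
      ∀ x a, P.Sp x a → Q.Sp (algebraMap K _ x) a := by
  let f := algebraMap k (AlgebraicClosure k)
  let j := algebraMap K (QuadraticAlgebra K d 0)
  obtain ⟨Q, hQ⟩ := (P.map f).exists_extension j
  have hQ' : ∀ x a, P.Sp x a → Q.Sp (j x) (f a) := fun x a h => hQ _ _ (h.map f)
  set s : QuadraticAlgebra K d 0 := QuadraticAlgebra.omega with hs
  have hss : s ^ 2 = j d := by ext <;> simp [hs, sq, j]
  have hsA : s ∈ Q.A := mem_of_sq (b := 0) (zero_mem _) (hQ' _ _ hd).mem (by simpa using hss)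
  obtain ⟨ε, hε, hsε⟩ : ∃ ε, ε ≠ 0 ∧ Q.Sp s (f ε) := by
    have h1 := (sp_val hsA).pow 2
    rw [hss] at h1
    have h3 := h1.unique (hQ' _ _ hd)
    rw [map_pow] at h3
    rcases sq_eq_sq_iff_eq_or_eq_neg.1 h3 with h | h
    · exact ⟨δ, hδ, h ▸ sp_val hsA⟩
    · exact ⟨-δ, neg_ne_zero.2 hδ, by rw [map_neg, ← h]; exact sp_val hsA⟩
  have key : ∀ x c, Q.Sp x c → ∃ a, f a = c := by
    intro x c hx
    have ex : x = j x.re + j x.im * s := by ext <;> simp [hs, j]
    by_cases hb : x.im ∈ P.A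
    · have h1 := (hQ' _ _ (sp_val hb)).mul hsε
      have h3 : j x.re ∈ Q.A := by
        have := (hx.sub h1).mem
        rwa [show x - j x.im * s = j x.re by rw [sub_eq_iff_eq_add]; exact ex] at this
      have h4 := (hQ' _ _ (sp_val ((mem_iff_of_sp hQ' _).1 h3))).add h1
      rw [← ex] at h4
      exact ⟨P.val x.re + P.val x.im * ε, by rw [hx.unique h4, map_add, map_mul]⟩
    · obtain ⟨hb0, hbi⟩ := not_mem_iff.1 hb
      have hjb : j x.im ≠ 0 := (map_ne_zero j).2 hb0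
      have h1 := hQ' _ _ hbi
      rw [map_zero, map_inv₀] at h1
      have h3 : Q.Sp (x * (j x.im)⁻¹ - 2 * s) (f (-(2 * ε))) := by
        have := (hx.mul h1).sub ((sp_ofNat 2).mul hsε)
        rw [map_neg, map_mul, map_ofNat]
        simpa using this
      have h4 : f (-(2 * ε)) ≠ 0 := (map_ne_zero f).2 (neg_ne_zero.2 (mul_ne_zero h2 hε))
      have e : x * (x * (j x.im)⁻¹ - 2 * s) = j ((x.re ^ 2 - d * x.im ^ 2) / x.im) := by
        rw [map_div₀, map_sub, map_mul, map_pow, map_pow, ← hss, eq_div_iff hjb]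
        have : x * (x * (j x.im)⁻¹ - 2 * s) * j x.im = x * (x - 2 * (j x.im * s)) := by
          field_simp
        rw [this]
        generalize j x.re = u at ex
        generalize j x.im = v at ex
        rw [ex]; ring
      have h5 := hx.mul h3
      rw [e] at h5
      have h6 := h5.unique (hQ' _ _ (sp_val ((mem_iff_of_sp hQ' _).1 h5.mem)))
      exact ⟨_ / -(2 * ε), by rw [map_div₀, ← h6, mul_div_cancel_right₀ _ h4]⟩
  obtain ⟨Q', hQ''⟩ := exists_codRestrict Q f key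
  exact ⟨Q', fun x a h => (hQ'' _ _).2 (hQ' _ _ h)⟩

/-- the `p`-adic place of `ℚ` -/
theorem exists_place_rat (p : ℕ) [Fact p.Prime] : Nonempty (Place ℚ (ZMod p)) := by
  obtain ⟨Q⟩ := exists_place_char (F := ℚ) (Om := AlgebraicClosure (ZMod p))
  obtain ⟨Q', -⟩ := exists_codRestrict Q (algebraMap (ZMod p) _) fun x c hx => by
    by_cases h : (x.den : AlgebraicClosure (ZMod p)) = 0
    · exfalso
      have h1 := hx.mul (sp_natCast x.den)
      rw [h, mul_zero, Rat.mul_den_eq_num] at h1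
      have h3 := (CharP.intCast_eq_zero_iff _ p _).1 ((sp_intCast _).unique h1)
      exact (Fact.out : p.Prime).one_lt.ne' (Nat.eq_one_of_dvd_coprimes x.reduced (Int.natCast_dvd.1 h3)
        ((CharP.cast_eq_zero_iff _ p _).1 h))
    · have := sp_rat_den Q h
      rw [Rat.cast_id] at this
      exact ⟨x.num / x.den, by rw [hx.unique this]; simp⟩
  exact ⟨Q'⟩

end Crest.Agent.T15.Lk
end

-- ▼ part T15/LkH_47
section

/-!
# Row 15, block L (helper47), part H: reading the index of a point modulo a variable prime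

`exists_read`: a Diophantine relation `Read w (co (a • P)) ρ` that forces `ρ ≡ a` modulo every good
prime of odd valuation in `w`, and holds for `ρ = a` at visible primes.
-/

set_option autoImplicit false
set_option linter.unusedSectionVars false

namespace Crest.Agent.T15.Lk

open WeierstrassCurve WeierstrassCurve.Affine Crest.Agent.T170.Ell Crest.Agent.T170.Ell.Place

local notation "ℤ[i]" => GaussianInt

section place

variable {F Om : Type*} [Field F] [Field Om] [DecidableEq F] [DecidableEq Om] {ι n : F}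
  [Fact (ι ^ 2 = -1)] {P : (E ι n).Point}

theorem Inf.sp {Q : Place F Om} {A : (E ι n).Point} (h : Inf Q A) : Q.Sp (co A).1⁻¹ 0 := by
  rcases h with rfl | h
  · simpa using sp_zero
  · exact sp_inv_of_not_mem h

theorem x_ne_zero (hP : ∀ k : ℤ, k ≠ 0 → k • P ≠ 0) {α : ℤ[i]} (h0 : α • P ≠ 0) :
    (co (α • P)).1 ≠ 0 := by
  intro hx
  have hα : α ≠ 0 := fun e => h0 (by rw [e, zero_smul])
  refine smul_ne_zero_of hP (mul_ne_zero two_ne_zero hα) ?_
  rw [two_mul, add_smul]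
  generalize α • P = A at h0 hx
  rcases A with _ | ⟨x, y, h⟩
  · exact absurd rfl h0
  · have e := E_equation.1 h.1
    rw [co_some] at hx
    have hy : y = 0 := pow_eq_zero_iff two_ne_zero |>.1 (by rw [e, show x = 0 from hx]; ring)
    exact Point.add_self_of_Y_eq (by simp [hy])

theorem inf_of_sp (hP : ∀ k : ℤ, k ≠ 0 → k • P ≠ 0) {Q : Place F Om} {α : ℤ[i]}
    (h : Q.Sp (co (α • P)).1⁻¹ 0) : Inf Q (α • P) := by
  by_cases h0 : α • P = 0
  · exact Or.inl h0
  · exact Or.inr (not_mem_iff.2 ⟨x_ne_zero hP h0, h⟩)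

/-- the elements that have to vanish at the place -/
noncomputable def zs (τ : F →+* F) (P A M B M' : (E ι n).Point) (ρ : F) : Fin 8 → F :=
  ![(co M).1⁻¹, (co B).1⁻¹, τ (co M').1⁻¹, τ (co (M - (cc : ℤ[i]) • P)).1⁻¹,
    τ (co (B - (cc : ℤ[i]) • A)).1⁻¹, τ (tt (M - (cc : ℤ[i]) • P) / tt M'),
    τ (tt (B - (cc : ℤ[i]) • A) / tt M'), tt B / tt M - ρ]

variable {τ : F →+* F}

theorem zs_sound (hP : ∀ k : ℤ, k ≠ 0 → k • P ≠ 0) {Q : Place F Om} {ι' n' n'' : Om}
    [Fact (ι' ^ 2 = -1)] (g : Gd Q ι n ι' n') (g' : Gd (Q.comap τ) ι n ι' n'')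
    (hc : (cc : Om) ≠ 0) {α μ β δ : ℤ[i]} {ρ : F} (hδ : δ • P ≠ 0)
    (h : ∀ j, Q.Sp (zs τ P (α • P) (μ • P) (β • P) (δ • P) ρ j) 0) : Q.Sp ρ (zi ι' α) := by
  have e₁ : μ • P - (cc : ℤ[i]) • P = (μ - cc) • P := (sub_smul _ _ _).symm
  have e₂ : β • P - (cc : ℤ[i]) • α • P = (β - cc * α) • P := by rw [sub_smul, mul_smul]
  simp only [zs, e₁, e₂] at h
  have i₀ := inf_of_sp hP (h 0)
  have i₁ := inf_of_sp hP (h 1)
  have i₂ := inf_of_sp hP (((Q.comap_sp τ) _ _).2 (h 2))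
  have c₁ := g'.chan (inf_of_sp hP (((Q.comap_sp τ) _ _).2 (h 3))) i₂ hδ
    (((Q.comap_sp τ) _ _).2 (h 5))
  have c₂ := g'.chan (inf_of_sp hP (((Q.comap_sp τ) _ _).2 (h 4))) i₂ hδ
    (((Q.comap_sp τ) _ _).2 (h 6))
  rw [map_sub, map_natCast, sub_eq_zero] at c₁
  rw [map_sub, map_mul, map_natCast, sub_eq_zero] at c₂
  have hμ : zi ι' μ ≠ 0 := c₁ ▸ hc
  have r := g.read i₁ i₀ (smul_ne_zero_of hP fun e => hμ (by rw [e, map_zero])) hμ
  have := r.sub (h 7)
  rw [c₁, c₂, mul_div_cancel_left₀ _ hc, sub_zero] at this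
  exact sub_sub_cancel (tt (β • P) / tt (μ • P)) ρ ▸ this

theorem zs_complete (hP : ∀ k : ℤ, k ≠ 0 → k • P ≠ 0) {p : ℕ} [Fact p.Prime]
    {Q : Place F (ZMod p)} {ι' n' b' : ZMod p} [Fact (ι' ^ 2 = -1)] (g : Gd Q ι n ι' n')
    (g' : Gd (Q.comap τ) ι n ι' (b' ^ 2 * n')) (hc : (cc : ZMod p) ≠ 0) (hb : ¬ IsSquare b')
    {x' : ZMod p} (hx : Q.Sp (τ (co P).1) x') (hx' : x' ≠ 0) (a : ℤ) :
    ∃ μ β δ : ℤ[i], δ • P ≠ 0 ∧ ∀ j, Q.Sp (zs τ P (a • P) (μ • P) (β • P) (δ • P) a j) 0 := by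
  obtain ⟨r, r0, r1, -⟩ := g.exists_rd
  obtain ⟨r', r0', r1', r2'⟩ := g'.exists_rd
  obtain ⟨y', h', e'⟩ : ∃ y' h', r' P = .some x' y' h' := by
    rcases P with _ | ⟨x, y, h⟩
    · exact absurd (one_smul ℤ _) (hP 1 one_ne_zero)
    · have hx1 := ((Q.comap_sp τ) _ _).2 hx
      exact ⟨_, r2' x y h _ _ hx1 (sp_val (g'.y_mem h.1 hx1.mem))⟩
  obtain ⟨μ, π, δ, h1, h2, h3, h4, h5⟩ := exists_mu g.two g.ne hb (r P) h' hx'
  have i₀ : Inf Q (μ • P) := (r0 _).1 (by rw [r1, h1])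
  have i₂ : Inf (Q.comap τ) (δ • P) := (r0' _).1 (by rw [r1', e', h3])
  have hδ := smul_ne_zero_of hP h2
  have hμ : zi ι' μ = cc := by
    have := congrArg (zi ι') h4
    rwa [map_sub, map_mul, h5, zero_mul, map_natCast, sub_eq_zero] at this
  have one : ∀ {Q : Place F (ZMod p)} {u : F}, u ≠ 0 → Q.Sp (u / u) 1 := fun hu => by
    rw [div_self hu]
    exact sp_one
  have hM : μ • P ≠ 0 := smul_ne_zero_of hP fun e => hc (by rw [← hμ, e, map_zero])
  have e₁ : μ • P - (cc : ℤ[i]) • P = π • δ • P := by rw [← sub_smul, h4, mul_smul]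
  have e₂ : ((a : ℤ[i]) * μ) • P - (cc : ℤ[i]) • a • P = ((a : ℤ[i]) * π) • δ • P := by
    rw [← intCast_smul, ← mul_smul, ← mul_smul, ← sub_smul, mul_assoc, ← h4]
    congr 1
    ring
  refine ⟨μ, a * μ, δ, hδ, fun j => ?_⟩
  simp only [zs, e₁, e₂]
  fin_cases j
  · exact i₀.sp
  · exact (mul_smul (a : ℤ[i]) μ P ▸ g.inf_smul _ i₀).sp
  · exact ((Q.comap_sp τ) _ _).1 i₂.sp
  · exact ((Q.comap_sp τ) _ _).1 (g'.inf_smul _ i₂).sp
  · exact ((Q.comap_sp τ) _ _).1 (g'.inf_smul _ i₂).sp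
  · have := g'.sp_tt_smul π i₂ (one (g'.tt_ne i₂ hδ))
    rw [h5, zero_mul] at this
    exact ((Q.comap_sp τ) _ _).1 this
  · have := g'.sp_tt_smul (a * π) i₂ (one (g'.tt_ne i₂ hδ))
    rw [map_mul, h5, mul_zero, zero_mul] at this
    exact ((Q.comap_sp τ) _ _).1 this
  · have := (g.sp_tt_smul a i₀ (one (g.tt_ne i₀ hM))).sub (sp_intCast a)
    rw [map_intCast, mul_one, sub_self, ← mul_smul] at this
    exact this

theorem exists_gd {Q : Place F Om} {b : F} (hn : n ≠ 0) (hτι : τ ι = ι) (hτn : τ n = b ^ 2 * n)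
    (h2 : (2 : Om) ≠ 0) (h : ∀ j, ![n, n⁻¹, b, b⁻¹] j ∈ Q.A) :
    Q.val ι ^ 2 = -1 ∧ Gd Q ι n (Q.val ι) (Q.val n) ∧
      Gd (Q.comap τ) ι n (Q.val ι) (Q.val b ^ 2 * Q.val n) := by
  have e : ι ^ 2 = -1 := Fact.out
  have hι : Q.Sp ι (Q.val ι) :=
    sp_val (mem_of_sq (b := 0) (c := -1) (zero_mem _) (neg_mem (one_mem _)) (by rw [e]; ring))
  have hb : b ≠ 0 := fun e0 => (map_ne_zero τ).2 hn (by rw [hτn, e0]; ring)
  have unit : ∀ {z : F}, z ≠ 0 → z ∈ Q.A → z⁻¹ ∈ Q.A → Q.val z ≠ 0 := fun h0 h1 h2 e0 =>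
    (e0 ▸ sp_val h1).inv_not_mem h0 h2
  have hn' := unit hn (h 0) (h 1)
  refine ⟨(hι.pow 2).unique (e ▸ sp_one.neg), ⟨hι, sp_val (h 0), hn', h2⟩,
    ((Q.comap_sp τ) _ _).2 (by rwa [hτι]), ((Q.comap_sp τ) _ _).2 ?_,
    mul_ne_zero (pow_ne_zero 2 (unit hb (h 2) (h 3))) hn', h2⟩
  rw [hτn]
  exact ((sp_val (h 2)).pow 2).mul (sp_val (h 0))

end place

section dio

variable {F : Type} [Field F] [NumberField F] [DecidableEq F] {ι n : F} [Fact (ι ^ 2 = -1)]
  {P : (E ι n).Point}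

theorem dio_lattice (hn : n ≠ 0) (hZ : Dio fun v : F × F => ∃ a : ℤ, co (a • P) = v) :
    Dio fun v : F × F => ∃ α : ℤ[i], co (α • P) = v := by
  refine (Dio.ex (R := fun (v : F × F) (u : (F × F) × F × F) =>
    ((∃ a : ℤ, co (a • P) = u.1) ∧ ∃ a : ℤ, co (a • P) = u.2) ∧
      co (pt ι n u.1 + J ι n (pt ι n u.2)) = v)
    (((hZ.comp (by fun_prop)).and (hZ.comp (by fun_prop))).and (Dio.eqF
      ((DPt.pt hn (by fun_prop)).add (DPt.pt hn (by fun_prop)).J) (by fun_prop)))).congr fun v => ?_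
  constructor
  · rintro ⟨⟨_, _⟩, ⟨⟨a, rfl⟩, b, rfl⟩, rfl⟩
    exact ⟨⟨a, b⟩, by simp [smul_def]⟩
  · rintro ⟨α, rfl⟩
    exact ⟨(co (α.re • P), co (α.im • P)), ⟨⟨_, rfl⟩, _, rfl⟩, by simp [smul_def]⟩

/-- **The link.** -/
theorem exists_read [IsGalois ℚ F] {b : F} {τ : F →+* F} (hn : n ≠ 0) (hτι : τ ι = ι)
    (hτn : τ n = b ^ 2 * n) (hP : ∀ k : ℤ, k ≠ 0 → k • P ≠ 0)
    (hZ : Dio fun v : F × F => ∃ a : ℤ, co (a • P) = v) {J : ℚ × ℚ → Prop} (hJ : Dio J) :
    ∃ (N : ℕ) (Read : ℚ → F × F → ℚ → Prop), N ≠ 0 ∧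
      (Dio fun q : ℚ × (F × F) × ℚ => Read q.1 q.2.1 q.2.2) ∧
      (∀ (w : ℚ) (a : ℤ) (ρ : ℚ) (p : ℕ), p.Prime → ¬ p ∣ N → (∀ y, J (w, y) → (p : ℤ) ∣ y.num) →
        Read w (co (a • P)) ρ → (p : ℤ) ∣ (ρ - a).num) ∧
      ∀ (w : ℚ) (p : ℕ) [Fact p.Prime] (Q : Place F (ZMod p)), ¬ p ∣ N →
        (∀ y : ℚ, (p : ℤ) ∣ y.num → J (w, y)) → ¬ IsSquare (Q.val b) →
        ∀ a : ℤ, Read w (co (a • P)) a := by
  obtain ⟨N₁, hN₁, G, dG, sG, cG⟩ := gadget (F := F) (Fin 8) hJ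
  obtain ⟨N₂, hN₂, h₂⟩ := exists_den_fin ![n, n⁻¹, b, b⁻¹]
  obtain ⟨N₃, hN₃, h₃⟩ := exists_den_fin ![τ (co P).1, (τ (co P).1)⁻¹]
  have hL := dio_lattice hn hZ
  have good : ∀ (p : ℕ) (Om : Type) [Field Om] [CharP Om p], ¬ p ∣ 2 * cc * N₁ * N₂ * N₃ →
      (2 : Om) ≠ 0 ∧ (cc : Om) ≠ 0 ∧ (N₂ : Om) ≠ 0 ∧ (N₃ : Om) ≠ 0 := fun p Om _ _ h => by
    rw [← CharP.cast_eq_zero_iff Om p] at h
    push_cast at h
    simp only [mul_eq_zero, not_or] at h
    exact ⟨h.1.1.1.1, h.1.1.1.2, h.1.2, h.2⟩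
  refine ⟨2 * cc * N₁ * N₂ * N₃, fun w v ρ => ∃ u : (F × F) × (F × F) × F × F,
    (((∃ α : ℤ[i], co (α • P) = u.1) ∧ ∃ α : ℤ[i], co (α • P) = u.2.1) ∧
      ((∃ α : ℤ[i], co (α • P) = u.2.2) ∧ u.2.2 ≠ (0, 1))) ∧
      G (w, zs τ P (pt ι n v) (pt ι n u.1) (pt ι n u.2.1) (pt ι n u.2.2) ρ),
    by simp [cc_ne_zero, hN₁, hN₂, hN₃], ?_, ?_, ?_⟩
  · refine Dio.ex ((((hL.comp (by fun_prop)).and (hL.comp (by fun_prop))).and
      ((hL.comp (by fun_prop)).and (Dio.ne (by fun_prop) (by fun_prop)))).and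
        (dG.compF (DioF.prodMk (by fun_prop) (DioF.pi fun j => ?_))))
    let U := (ℚ × (F × F) × ℚ) × (F × F) × (F × F) × F × F
    have dA : DPt fun q : U => pt ι n q.1.2.1 := DPt.pt hn (by fun_prop)
    have dM : DPt fun q : U => pt ι n q.2.1 := DPt.pt hn (by fun_prop)
    have dB : DPt fun q : U => pt ι n q.2.2.1 := DPt.pt hn (by fun_prop)
    have dM' : DPt fun q : U => pt ι n q.2.2.2 := DPt.pt hn (by fun_prop)
    have d₁ := dM.sub (DPt.const ((cc : ℤ[i]) • P))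
    have d₂ := dB.sub (dA.smul (cc : ℤ[i]))
    fin_cases j
    exacts [dM.dioF.fst.inv, dB.dioF.fst.inv, dM'.dioF.fst.inv.ringHom τ,
      d₁.dioF.fst.inv.ringHom τ, d₂.dioF.fst.inv.ringHom τ, (d₁.tt.div dM'.tt).ringHom τ,
      (d₂.tt.div dM'.tt).ringHom τ, (dB.tt.div dM.tt).sub (DioF.ratCast (by fun_prop))]
  · rintro w a ρ p hp hN hs ⟨⟨_, _, _⟩, ⟨⟨⟨μ, rfl⟩, β, rfl⟩, ⟨δ, rfl⟩, hδ⟩, hG⟩
    classical
    have := Fact.mk hp
    obtain ⟨Q, hQ⟩ := sG w _ p hG hs
    obtain ⟨g2, gc, gN, -⟩ := good p (AlgebraicClosure (ZMod p)) hN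
    obtain ⟨e, g, g'⟩ := exists_gd hn hτι hτn g2 (h₂ _ Q gN)
    have := Fact.mk e
    simp only [pt_co, ← intCast_smul] at hQ
    have := (zs_sound hP g g' gc (mt co_eq_iff.2 hδ) hQ).sub (sp_intCast a)
    rw [map_intCast, sub_self] at this
    exact (sp_rat Q _).1 (by push_cast; exact this)
  · intro w p _ Q hN hc hb a
    obtain ⟨g2, gc, gN, gN'⟩ := good p (ZMod p) hN
    obtain ⟨e, g, g'⟩ := exists_gd hn hτι hτn g2 (h₂ _ Q gN)
    have := Fact.mk e
    have hx := sp_val (h₃ _ Q gN' 0)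
    have hx0 : τ (co P).1 ≠ 0 := (map_ne_zero τ).2 (by
      simpa using x_ne_zero hP (α := 1) (by simpa using hP 1 one_ne_zero))
    obtain ⟨μ, β, δ, hδ, H⟩ := zs_complete hP g g' gc hb hx
      (fun e0 => (e0 ▸ hx).inv_not_mem hx0 (h₃ _ Q gN' 1)) a
    refine ⟨(co (μ • P), co (β • P), co (δ • P)), ⟨⟨⟨_, rfl⟩, _, rfl⟩, ⟨_, rfl⟩,
      mt co_eq_iff.1 hδ⟩, cG w _ p Q (fun h => hN ?_) hc ?_⟩
    · exact ((h.mul_left _).mul_right _).mul_right _
    · simpa only [pt_co, Rat.cast_intCast] using H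

end dio

end Crest.Agent.T15.Lk
end

-- ▼ part T15/MwA_52
section

/-!
# Row 15, block L (helper52): heights on `W(K)`, finite generation, groups of rank one
-/

set_option autoImplicit false

noncomputable section

namespace Crest.Agent.T15.Mw

open Height WeierstrassCurve WeierstrassCurve.Affine Crest.Agent.R023.NT889

/-! ### abstract groups with a height -/

section grp
variable {A : Type*} [AddCommGroup A] {h : A → ℝ} {C : ℝ}

theorem fg_of (hp : ApproxPar h C) (h0 : ∀ P, 0 ≤ h P) [Northcott h] {S : Set A} (hS : S.Finite)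
    (hgen : ∀ P, ∃ T ∈ S, ∃ Q, P = T + 2 • Q) : AddGroup.FG A := by
  have : Finite (A ⧸ (nsmulAddMonoidHom (α := A) 2).range) := by
    have := hS.to_subtype
    refine Finite.of_surjective (fun T : S => (QuotientAddGroup.mk T.1 : A ⧸ _)) fun x => ?_
    obtain ⟨P, rfl⟩ := QuotientAddGroup.mk_surjective x
    obtain ⟨T, hT, Q, rfl⟩ := hgen P
    exact ⟨⟨T, hT⟩, QuotientAddGroup.eq.2 ⟨Q, by simp⟩⟩
  exact AddCommGroup.fg_of_descent' (h := h) (C := C) AddSubgroup.finiteIndex_of_finite_quotient h0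
    fun x y => by have := hp x y; rwa [mul_add, ← sub_sub]

theorem hhat_pos (hp : ApproxPar h C) (h0 : ∀ P, 0 ≤ h P) [Northcott h] {P : A}
    (hP : ¬IsOfFinAddOrder P) : 0 < hhat h P := by
  refine (hp.hhat_nonneg h0 P).lt_of_ne fun e => hP ?_
  obtain ⟨n, hn, e'⟩ := hp.isQuad.torsion_of_eq_zero e.symm (S := Set.univ) (fun _ => trivial)
    fun B => (Northcott.finite_le (h := h) (B + (C + |h 0|) / 3)).subset fun Q hQ => by
      have := abs_le.1 (hp.abs_hhat_sub_le Q)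
      have h2 := hQ.2
      simp only [Set.mem_ofPred_eq]
      linarith
  exact isOfFinAddOrder_iff_nsmul_eq_zero.2 ⟨n, Nat.pos_of_ne_zero hn, e'⟩

/-- the torsion of a finitely generated abelian group has a finite exponent -/
theorem exists_exp [AddGroup.FG A] : ∃ N : ℕ, 0 < N ∧ ∀ T : A, IsOfFinAddOrder T → N • T = 0 := by
  have h1 : Module.Finite ℤ A := Module.Finite.iff_addGroup_fg.2 inferInstance
  have h2 : Finite (Submodule.torsion ℤ A) :=
    Module.finite_of_fg_torsion _ Submodule.torsion_isTorsion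
  refine ⟨Nat.card (Submodule.torsion ℤ A), Nat.card_pos, fun T hT => ?_⟩
  obtain ⟨n, hn, e⟩ := isOfFinAddOrder_iff_nsmul_eq_zero.1 hT
  have hm : T ∈ Submodule.torsion ℤ A :=
    ⟨⟨n, mem_nonZeroDivisors_of_ne_zero (by exact_mod_cast hn.ne')⟩, by simpa using e⟩
  exact congrArg Subtype.val (card_nsmul_eq_zero' (x := (⟨T, hm⟩ : Submodule.torsion ℤ A)))

/-- an index map on a finitely generated group which is cyclic modulo torsion and doubles -/
theorem exists_index [AddGroup.FG A] {P0 : A} (hP0 : ¬IsOfFinAddOrder P0)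
    (hgen : ∀ P, ∃ T, IsOfFinAddOrder T ∧ ∃ (e : ℤ) (Q : A), P = T + e • P0 + 2 • Q) :
    ∃ (lam : A →+ ℤ) (P1 : A), lam P1 = 1 ∧ ∀ Q, IsOfFinAddOrder (Q - lam Q • P1) := by
  have h1 : Module.Finite ℤ A := Module.Finite.iff_addGroup_fg.2 inferInstance
  set π := (Submodule.torsion ℤ A).mkQ with hπ
  have hT : ∀ T : A, π T = 0 ↔ IsOfFinAddOrder T := fun T => by
    rw [hπ, Submodule.mkQ_apply, Submodule.Quotient.mk_eq_zero,
      isOfFinAddOrder_iff_zsmul_eq_zero]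
    exact ⟨fun ⟨n, e⟩ => ⟨n, nonZeroDivisors.coe_ne_zero n, e⟩,
      fun ⟨n, hn, e⟩ => ⟨⟨n, mem_nonZeroDivisors_of_ne_zero hn⟩, e⟩⟩
  let b := Module.Free.chooseBasis ℤ (A ⧸ Submodule.torsion ℤ A)
  have hne : ∃ i, b.repr (π P0) i ≠ 0 := by
    by_contra hc
    simp only [not_exists, not_not] at hc
    exact hP0 ((hT P0).1 (b.repr.map_eq_zero_iff.1 (Finsupp.ext hc)))
  obtain ⟨i, -⟩ := hne
  have hsub : ∀ j, j = i := fun j => by
    by_contra hj
    obtain ⟨P, hP⟩ := (Submodule.torsion ℤ A).mkQ_surjective (b i)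
    obtain ⟨T, h2, e, Q, rfl⟩ := hgen P
    obtain ⟨P', hP'⟩ := (Submodule.torsion ℤ A).mkQ_surjective (b j)
    obtain ⟨T', h2', e', Q', rfl⟩ := hgen P'
    rw [← hπ, map_add, map_add, (hT _).2 h2, zero_add, map_zsmul, map_nsmul] at hP
    rw [← hπ, map_add, map_add, (hT _).2 h2', zero_add, map_zsmul, map_nsmul] at hP'
    have a1 := congrArg (fun z => b.repr z i) hP
    have a2 := congrArg (fun z => b.repr z j) hP'
    have a3 := congrArg (fun z => b.repr z i) hP'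
    simp [hj] at a1 a2 a3
    have o1 : Odd (e * b.repr (π P0) i) := ⟨-b.repr (π Q) i, by linarith⟩
    have o2 : Odd (e' * b.repr (π P0) j) := ⟨-b.repr (π Q') j, by linarith⟩
    have o3 : Even (e' * b.repr (π P0) i) := ⟨-b.repr (π Q') i, by linarith⟩
    exact Int.not_even_iff_odd.2 ((Int.odd_mul.1 o2).1.mul (Int.odd_mul.1 o1).2) o3
  obtain ⟨P1, hP1⟩ := (Submodule.torsion ℤ A).mkQ_surjective (b i)
  refine ⟨((b.coord i).comp π).toAddMonoidHom, P1, by simp [hπ, hP1], fun Q => (hT _).1 ?_⟩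
  rw [map_sub, map_zsmul, hπ, hP1]
  refine b.repr.map_eq_zero_iff.1 (Finsupp.ext fun j => ?_)
  rw [hsub j]
  simp

/-- **groups of rank one** -/
theorem rank_one (hp : ApproxPar h C) (h0 : ∀ P, 0 ≤ h P) [Northcott h] {S : Set A}
    (hS : S.Finite) (hS' : ∀ T ∈ S, IsOfFinAddOrder T) {P0 : A} (hP0 : ¬IsOfFinAddOrder P0)
    (hgen : ∀ P, ∃ T ∈ S, ∃ Q, P = T + 2 • Q ∨ P = T + P0 + 2 • Q) :
    ∃ (lam : A →+ ℤ) (P1 : A) (N : ℕ) (C' : ℝ), lam P1 = 1 ∧ 0 < N ∧ 0 < C' ∧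
      (∀ Q, N • Q = (N * lam Q) • P1) ∧ ∀ Q, (lam Q : ℝ) ^ 2 ≤ C' * (h Q + 1) := by
  have : AddGroup.FG A := fg_of hp h0 (hS.union (hS.image (· + P0))) fun P => by
    obtain ⟨T, hT, Q, e | e⟩ := hgen P
    exacts [⟨T, .inl hT, Q, e⟩, ⟨T + P0, .inr ⟨T, hT, rfl⟩, Q, e⟩]
  obtain ⟨N, hN, hN'⟩ := exists_exp (A := A)
  obtain ⟨lam, P1, h1, h2⟩ := exists_index hP0 fun P => by
    obtain ⟨T, hT, Q, e | e⟩ := hgen P
    exacts [⟨T, hS' T hT, 0, Q, by simpa using e⟩, ⟨T, hS' T hT, 1, Q, by simpa using e⟩]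
  have h3 : ∀ Q, N • Q = (N * lam Q) • P1 := fun Q => by
    have := hN' _ (h2 Q)
    rwa [nsmul_sub, sub_eq_zero, ← natCast_zsmul (lam Q • P1), smul_smul] at this
  have h4 : 0 < hhat h P1 := hhat_pos hp h0 fun hc => by
    have := congrArg lam (hN' _ hc)
    rw [map_nsmul, h1, map_zero] at this
    simp [hN.ne'] at this
  have hD : 0 ≤ (C + |h 0|) / 3 := by have := hp.nonneg; positivity
  refine ⟨lam, P1, N, ((C + |h 0|) / 3 + 1) / hhat h P1, h1, hN, by positivity, h3, fun Q => ?_⟩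
  have h5 := congrArg (hhat h) (h3 Q)
  rw [hp.isQuad.nsmul, hp.isQuad.zsmul] at h5
  have hN0 : (N : ℝ) ^ 2 ≠ 0 := by positivity
  have h6 : hhat h Q = (lam Q : ℝ) ^ 2 * hhat h P1 := by
    apply mul_left_cancel₀ hN0
    rw [h5]; push_cast; ring
  have h7 := (abs_le.1 (hp.abs_hhat_sub_le Q)).2
  rw [div_mul_eq_mul_div, le_div_iff₀ h4, ← h6]
  nlinarith [h0 Q]

end grp

/-! ### the naive height of a point -/

/-- the height of Mathlib as an abstract height -/
def HM (K : Type) [Field K] [AdmissibleAbsValues K] : HtFun K where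
  ht x := logHeight x
  nonneg x := logHeight_nonneg x
  smul hc x := logHeight_smul_eq_logHeight x hc
  comp_equiv e x := logHeight_comp_equiv e x
  segre hx hy := logHeight_fun_mul_eq hx hy
  upper p hp := by
    obtain ⟨C, hC⟩ := logHeight_eval_le' hp
    exact ⟨C, fun x => by linarith [hC x]⟩
  lower M N q hq p _ := by
    obtain ⟨C, hC⟩ := logHeight_eval_ge' (N := N) hq
    exact ⟨-C, fun x h => by linarith [hC p h]⟩

variable {K : Type} [Field K]

/-- the `x`-coordinate (`0` at infinity) -/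
def xc {W : WeierstrassCurve K} : W.toAffine.Point → K
  | .zero => 0
  | .some x _ _ => x

/-- the naive height -/
def hx [AdmissibleAbsValues K] {W : WeierstrassCurve K} (P : W.toAffine.Point) : ℝ :=
  logHeight₁ (xc P)

theorem hx_eq [AdmissibleAbsValues K] {W : WeierstrassCurve K} (P : W.toAffine.Point) :
    hx P = (HM K).hx P := by
  cases P with
  | zero =>
    show logHeight₁ (0 : K) = logHeight ![(1 : K), 0]
    rw [logHeight_swap, ← logHeight₁_eq_logHeight]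
  | some x y h => exact logHeight₁_eq_logHeight x

theorem hx_par [AdmissibleAbsValues K] [DecidableEq K] (W : WeierstrassCurve K) [W.IsElliptic] :
    ∃ C, ApproxPar (hx : W.toAffine.Point → ℝ) C := by
  rw [show (hx : W.toAffine.Point → ℝ) = _ from funext hx_eq]
  exact (HM K).approxPar W

theorem finite_xc (W : WeierstrassCurve K) (x : K) :
    {P : W.toAffine.Point | xc P = x}.Finite := by
  by_cases H : ∃ y, W.toAffine.Nonsingular x y
  · obtain ⟨y, hy⟩ := H
    refine (Set.toFinite {.zero, .some x y hy, -.some x y hy}).subset ?_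
    rintro (_ | ⟨x', y', h'⟩) hP
    · simp
    · obtain rfl : x' = x := hP
      rcases (Point.X_eq_iff (h₁ := h') (h₂ := hy)).1 rfl with e | e
      · simp [e]
      · simp [e]
  · refine (Set.toFinite {.zero}).subset ?_
    rintro (_ | ⟨x', y', h'⟩) hP
    · simp
    · obtain rfl : x' = x := hP
      exact (H ⟨y', h'⟩).elim

instance [NumberField K] (W : WeierstrassCurve K) : Northcott (hx : W.toAffine.Point → ℝ) :=
  ⟨fun B => ((NumberField.finite_setOfPred_logHeight₁_le K B).biUnion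
    fun x _ => finite_xc W x).subset fun P hP => Set.mem_biUnion (x := xc P) hP rfl⟩

/-- the height of a rational number in a number field -/
theorem logHeight₁_ratCast [NumberField K] (q : ℚ) :
    logHeight₁ (q : K) ≤ 2 * Module.finrank ℚ K * logHeight₁ q := by
  have key : ∀ n : ℤ, n ≠ 0 → logHeight₁ (n : K) ≤ Module.finrank ℚ K * Real.log |n| := by
    intro n hn
    have h1 : (1 : ℝ) ≤ |(n : ℝ)| := by exact_mod_cast Int.one_le_abs hn
    rw [logHeight₁_eq_log_mulHeight₁, ← Real.log_pow]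
    refine Real.log_le_log (mulHeight₁_pos _) ?_
    rw [NumberField.mulHeight₁_eq, finprod_eq_one_of_forall_eq_one, mul_one,
      ← NumberField.InfinitePlace.sum_mult_eq, ← Finset.prod_pow_eq_pow_sum]
    · refine le_of_eq (Finset.prod_congr rfl fun v _ => ?_)
      rw [NumberField.InfinitePlace.map_intCast, Int.norm_eq_abs, max_eq_left h1]
    · intro v
      refine max_eq_right ?_
      have hv : IsNonarchimedean v.1 := NumberField.FinitePlace.add_le v
      exact hv.apply_intCast_le_one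
  by_cases hq : q = 0
  · simp [hq]
  have h1 := key q.num (Rat.num_ne_zero.2 hq)
  have h2 := key q.den (by exact_mod_cast q.den_nz)
  have h3 : logHeight₁ (q : K) ≤ logHeight₁ (q.num : K) + logHeight₁ ((q.den : ℤ) : K) := by
    rw [Rat.cast_def, div_eq_mul_inv, ← logHeight₁_inv ((q.den : ℤ) : K), Int.cast_natCast]
    exact logHeight₁_mul_le _ _
  have h4 : Real.log |(q.num : ℝ)| ≤ logHeight₁ q := by
    rw [Rat.logHeight₁_eq_log_max]
    refine Real.log_le_log (abs_pos.2 (by exact_mod_cast Rat.num_ne_zero.2 hq)) ?_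
    rw [← Int.cast_abs, ← Nat.cast_natAbs]
    exact_mod_cast le_max_left _ _
  have h5 : Real.log |((q.den : ℤ) : ℝ)| ≤ logHeight₁ q := by
    rw [Rat.logHeight₁_eq_log_max, Int.cast_natCast, Nat.abs_cast]
    exact Real.log_le_log (by exact_mod_cast q.den_pos) (by exact_mod_cast le_max_right _ _)
  have h6 : (0 : ℝ) ≤ Module.finrank ℚ K := Nat.cast_nonneg _
  nlinarith [mul_le_mul_of_nonneg_left h4 h6, mul_le_mul_of_nonneg_left h5 h6]

end Crest.Agent.T15.Mw

end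
end

-- ▼ part T15/MwB_52
section

/-!
# Row 15, block L (helper52): full `2`-descent on `y² = x³ - c² x`
-/

set_option autoImplicit false
set_option linter.unusedSectionVars false

noncomputable section

namespace Crest.Agent.T15.Mw

open WeierstrassCurve WeierstrassCurve.Affine Crest.Agent.T15.Lk

variable {K : Type*} [Field K] [DecidableEq K]

theorem sq_cancel {a b : K} (ha : a ≠ 0) (h : IsSquare a) (h' : IsSquare (a * b)) : IsSquare b := by
  have := h'.mul h.inv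
  rwa [mul_comm a, mul_inv_cancel_right₀ ha] at this

/-- `x - e`, corrected at `x = e` -/
def dv (n e x : K) : K := if x = e then 3 * e ^ 2 - n else x - e

/-- the descent map attached to the root `e` of `x³ - n x` -/
def dl {ι n : K} (e : K) : (E ι n).Point → K
  | .zero => 1
  | .some x _ _ => dv n e x

variable {ι n e : K}

@[simp] theorem dl_zero : dl e (0 : (E ι n).Point) = 1 := rfl

@[simp] theorem dl_some {x y : K} (h : (E ι n).Nonsingular x y) :
    dl e (.some x y h) = dv n e x := rfl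

theorem dl_neg (P : (E ι n).Point) : dl e (-P) = dl e P := by
  cases P <;> rfl

theorem der_ne (h2 : (2 : K) ≠ 0) (hn : n ≠ 0) (he : e ^ 3 = n * e) : 3 * e ^ 2 - n ≠ 0 := by
  intro h
  by_cases h0 : e = 0
  · apply hn
    rw [h0] at h
    linear_combination -h
  · have : e ^ 2 = n := mul_right_cancel₀ h0 (by linear_combination he)
    exact mul_ne_zero h2 hn (by linear_combination h - 3 * this)

theorem dv_ne (h2 : (2 : K) ≠ 0) (hn : n ≠ 0) (he : e ^ 3 = n * e) (x : K) : dv n e x ≠ 0 := by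
  unfold dv
  split_ifs with h
  exacts [der_ne h2 hn he, sub_ne_zero.2 h]

theorem dl_ne (h2 : (2 : K) ≠ 0) (hn : n ≠ 0) (he : e ^ 3 = n * e) (P : (E ι n).Point) :
    dl e P ≠ 0 := by
  cases P
  exacts [one_ne_zero, dv_ne h2 hn he _]

theorem dv_line (h2 : (2 : K) ≠ 0) (hn : n ≠ 0) (he : e ^ 3 = n * e) {x1 x2 x3 l m : K}
    (s2 : (x1 - e) * (x2 - e) + (x1 - e) * (x3 - e) + (x2 - e) * (x3 - e) =
      3 * e ^ 2 - n - 2 * l * m)
    (s3 : (x1 - e) * (x2 - e) * (x3 - e) = m ^ 2) :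
    IsSquare (dv n e x1 * dv n e x2 * dv n e x3) := by
  have hd := der_ne h2 hn he
  have key : ∀ {a b : K}, a * b = 3 * e ^ 2 - n → a ≠ 0 ∧ b ≠ 0 := fun h =>
    mul_ne_zero_iff.1 (h ▸ hd)
  by_cases h1 : x1 = e
  · have hm : m = 0 := pow_eq_zero_iff two_ne_zero |>.1 (by rw [← s3, h1]; ring)
    have h : (x2 - e) * (x3 - e) = 3 * e ^ 2 - n := by rw [h1, hm] at s2; linear_combination s2
    rw [dv, dv, dv, if_pos h1, if_neg (sub_ne_zero.1 (key h).1), if_neg (sub_ne_zero.1 (key h).2),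
      mul_assoc, h]
    exact ⟨_, rfl⟩
  by_cases h2 : x2 = e
  · have hm : m = 0 := pow_eq_zero_iff two_ne_zero |>.1 (by rw [← s3, h2]; ring)
    have h : (x1 - e) * (x3 - e) = 3 * e ^ 2 - n := by rw [h2, hm] at s2; linear_combination s2
    rw [dv, dv, dv, if_pos h2, if_neg h1, if_neg (sub_ne_zero.1 (key h).2), mul_right_comm, h]
    exact ⟨_, rfl⟩
  by_cases h3 : x3 = e
  · have hm : m = 0 := pow_eq_zero_iff two_ne_zero |>.1 (by rw [← s3, h3]; ring)
    have h : (x1 - e) * (x2 - e) = 3 * e ^ 2 - n := by rw [h3, hm] at s2; linear_combination s2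
    rw [dv, dv, dv, if_pos h3, if_neg h1, if_neg h2, h]
    exact ⟨_, rfl⟩
  rw [dv, dv, dv, if_neg h1, if_neg h2, if_neg h3, s3]
  exact ⟨m, sq m⟩

/-- the descent map is a homomorphism modulo squares -/
theorem dl_add (h2 : (2 : K) ≠ 0) (hn : n ≠ 0) (he : e ^ 3 = n * e) (P Q : (E ι n).Point) :
    IsSquare (dl e P * dl e Q * dl e (P + Q)) := by
  rcases P with _ | ⟨x1, y1, h1⟩
  · exact ⟨dl e Q, by rw [← Point.zero_def, zero_add, dl_zero, one_mul]⟩
  rcases Q with _ | ⟨x2, y2, h2'⟩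
  · exact ⟨_, by rw [← Point.zero_def, add_zero, dl_zero, mul_one]⟩
  by_cases hxy : x1 = x2 ∧ y1 = (E ι n).negY x2 y2
  · rw [Point.add_of_Y_eq hxy.1 hxy.2, dl_zero, mul_one, dl_some, dl_some, hxy.1]
    exact ⟨_, rfl⟩
  rw [Point.add_some hxy, dl_some, dl_some, dl_some]
  have h := addPolynomial_slope h1.1 h2'.1 hxy
  rw [addPolynomial_eq, neg_inj, Cubic.prod_X_sub_C_eq, Cubic.toPoly_injective] at h
  set l := (E ι n).slope x1 x2 y1 y2
  set x3 := (E ι n).addX x1 x2 l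
  simp only [E_a₁, E_a₂, E_a₃, E_a₄, E_a₆, Cubic.mk.injEq, true_and] at h
  obtain ⟨a1, a2, a3⟩ := h
  exact dv_line h2 hn he (l := l) (m := l * (e - x1) + y1)
    (by linear_combination -a2 - 2 * e * a1) (by linear_combination a3 + e * a2 + e ^ 2 * a1 - he)

theorem dl_two (h2 : (2 : K) ≠ 0) (hn : n ≠ 0) (he : e ^ 3 = n * e) (P : (E ι n).Point) :
    IsSquare (dl e (2 • P)) := by
  rw [two_nsmul]
  exact sq_cancel (mul_ne_zero (dl_ne h2 hn he P) (dl_ne h2 hn he P)) ⟨_, rfl⟩ (dl_add h2 hn he P P)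

theorem dl_sq_add (h2 : (2 : K) ≠ 0) (hn : n ≠ 0) (he : e ^ 3 = n * e) {P Q : (E ι n).Point}
    (h : IsSquare (dl e P * dl e Q)) : IsSquare (dl e (P + Q)) :=
  sq_cancel (mul_ne_zero (dl_ne h2 hn he P) (dl_ne h2 hn he Q)) h (dl_add h2 hn he P Q)


variable {c : K}

/-- halving -/
theorem halve (h2 : (2 : K) ≠ 0) (hc : c ≠ 0) (hn : n = c ^ 2) {x y : K}
    (h : (E ι n).Nonsingular x y) (s1 : IsSquare x) (s2 : IsSquare (x - c))
    (s3 : IsSquare (x + c)) : ∃ Q : (E ι n).Point, .some x y h = 2 • Q := by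
  obtain ⟨r1, s1⟩ := s1
  obtain ⟨r2, s2⟩ := s2
  obtain ⟨r3, s3⟩ := s3
  have hn0 : n ≠ 0 := hn ▸ pow_ne_zero 2 hc
  have a12 : r1 + r2 ≠ 0 := fun e => hc (by linear_combination s1 - s2 + (r1 - r2) * e)
  have a13 : r1 + r3 ≠ 0 := fun e => hc (by linear_combination s3 - s1 + (r3 - r1) * e)
  have a23 : r2 + r3 ≠ 0 := fun e =>
    mul_ne_zero h2 hc (by linear_combination s3 - s2 + (r3 - r2) * e)
  set X := x + (r1 * r2 + r1 * r3 + r2 * r3) with hX
  set Y := (r1 + r2) * (r1 + r3) * (r2 + r3) with hY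
  have b1 : X = (r1 + r2) * (r1 + r3) := by linear_combination hX + s1
  have b2 : X - c = (r1 + r2) * (r2 + r3) := by linear_combination hX + s2
  have b3 : X + c = (r1 + r3) * (r2 + r3) := by linear_combination hX + s3
  have hY0 : Y ≠ 0 := mul_ne_zero (mul_ne_zero a12 a13) a23
  have hQ : (E ι n).Nonsingular X Y := (E_nonsingular h2 hn0).2 (by
    rw [show X ^ 3 - n * X = X * (X - c) * (X + c) by rw [hn]; ring, b2, b3, b1, hY]; ring)
  have hne : Y ≠ (E ι n).negY X Y := by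
    rw [E_negY]
    exact fun e => mul_ne_zero h2 hY0 (by linear_combination e)
  have hl : (E ι n).slope X X Y Y = r1 + r2 + r3 := by
    rw [slope_of_Y_ne rfl hne, E_negY, E_a₁, E_a₂, E_a₄, div_eq_iff (by
      rw [sub_neg_eq_add, ← two_mul]; exact mul_ne_zero h2 hY0)]
    rw [show 3 * X ^ 2 + 2 * 0 * X + -n - 0 * Y = X * (X - c) + X * (X + c) + (X - c) * (X + c) by
      rw [hn]; ring, b2, b3, b1, hY]
    ring
  have hx : x = (E ι n).addX X X ((E ι n).slope X X Y Y) := by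
    rw [hl, addX, E_a₁, E_a₂, hX]
    linear_combination s1 + s2 + s3
  have h2Q := Point.add_self_of_Y_ne (h₁ := hQ) hne
  rw [← two_nsmul] at h2Q
  rcases (Point.X_eq_iff (h₁ := h) (h₂ := nonsingular_add hQ hQ fun hxy => hne hxy.right)).1 hx
    with e | e
  · exact ⟨_, e.trans h2Q.symm⟩
  · exact ⟨-_, by rw [e, ← h2Q, neg_nsmul]⟩

theorem exists_half (h2 : (2 : K) ≠ 0) (hc : c ≠ 0) (hn : n = c ^ 2) {P : (E ι n).Point}
    (s1 : IsSquare (dl 0 P)) (s2 : IsSquare (dl c P)) : ∃ Q, P = 2 • Q := by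
  rcases P with _ | ⟨x, y, h⟩
  · exact ⟨0, by rw [nsmul_zero]; rfl⟩
  have hy := E_equation.1 h.1
  rw [dl_some, dv] at s1 s2
  by_cases h0 : x = 0
  · rw [if_pos h0] at s1
    rw [if_neg (h0 ▸ hc.symm)] at s2
    refine halve h2 hc hn h (h0 ▸ IsSquare.zero) s2
      (sq_cancel (sub_ne_zero.2 (h0 ▸ hc.symm)) s2 ?_)
    convert s1 using 1
    rw [hn, h0]; ring
  rw [if_neg h0, sub_zero] at s1
  by_cases h1 : x = c
  · rw [if_pos h1] at s2
    refine halve h2 hc hn h s1 (by rw [h1, sub_self]; exact IsSquare.zero) (sq_cancel h0 s1 ?_)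
    convert s2 using 1
    rw [hn, h1]; ring
  rw [if_neg h1] at s2
  refine halve h2 hc hn h s1 s2 (sq_cancel (mul_ne_zero h0 (sub_ne_zero.2 h1)) (s1.mul s2) ⟨y, ?_⟩)
  rw [hn] at hy
  linear_combination -hy

/-- two points with the same descent classes differ by a double -/
theorem exists_eq_add (h2 : (2 : K) ≠ 0) (hc : c ≠ 0) (hn : n = c ^ 2) {P R : (E ι n).Point}
    (s1 : IsSquare (dl 0 P * dl 0 R)) (s2 : IsSquare (dl c P * dl c R)) :
    ∃ Q, P = R + 2 • Q := by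
  have hn0 : n ≠ 0 := hn ▸ pow_ne_zero 2 hc
  obtain ⟨Q, hQ⟩ := exists_half h2 hc hn (P := P + -R)
    (dl_sq_add h2 hn0 (by simp) (by rwa [dl_neg]))
    (dl_sq_add h2 hn0 (by rw [hn]; ring) (by rwa [dl_neg]))
  exact ⟨Q, by rw [← hQ]; abel⟩

/-- a criterion for infinite order -/
theorem not_isOfFinAddOrder (h2 : (2 : K) ≠ 0) (hc : c ≠ 0) (hn : n = c ^ 2)
    (m1 : ¬IsSquare (-1 : K)) (m2 : ¬IsSquare c) (m3 : ¬IsSquare (-c)) {P : (E ι n).Point}
    (s1 : IsSquare (dl 0 P)) (s2 : ¬IsSquare (dl c P)) : ¬IsOfFinAddOrder P := by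
  have hn0 : n ≠ 0 := hn ▸ pow_ne_zero 2 hc
  have k1 : ∀ R : (E ι n).Point, 2 • R = 0 → IsSquare (dl 0 R) → R = 0 := by
    rintro (_ | ⟨x, y, h⟩) e s
    · rfl
    exfalso
    have hy : y = 0 := by
      by_contra hy
      have hne : y ≠ (E ι n).negY x y := by
        rw [E_negY]
        exact fun e => mul_ne_zero h2 hy (by linear_combination e)
      rw [two_nsmul, Point.add_self_of_Y_ne hne] at e
      exact Point.some_ne_zero _ e
    have hx : x * (x - c) * (x + c) = 0 := by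
      have := E_equation.1 h.1
      rw [hy, hn] at this
      linear_combination -this
    rw [dl_some, dv] at s
    split_ifs at s with h0
    · refine m1 (sq_cancel (pow_ne_zero 2 hc) ⟨c, sq c⟩ ?_)
      convert s using 1
      rw [hn]; ring
    · rw [sub_zero] at s
      rcases mul_eq_zero.1 hx with e | e
      · exact m2 (sub_eq_zero.1 ((mul_eq_zero.1 e).resolve_left h0) ▸ s)
      · exact m3 (eq_neg_of_add_eq_zero_left e ▸ s)
  have k2 : ∀ m : ℕ, IsSquare (dl 0 (m • P)) := fun m => by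
    induction m with
    | zero => simp
    | succ m ih => rw [succ_nsmul]; exact dl_sq_add h2 hn0 (by simp) (ih.mul s1)
  rw [isOfFinAddOrder_iff_nsmul_eq_zero]
  rintro ⟨m, hm, e⟩
  induction m using Nat.strong_induction_on with
  | _ m ih =>
    obtain ⟨k, rfl | rfl⟩ := Nat.even_or_odd' m
    · exact ih k (by omega) (by omega) (k1 _ (by rw [smul_smul, e]) (k2 k))
    · rw [succ_nsmul, ← smul_smul] at e
      rw [eq_neg_of_add_eq_zero_right e, dl_neg] at s2
      exact s2 (dl_two h2 hn0 (by rw [hn]; ring) _)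

end Crest.Agent.T15.Mw

end
end

-- ▼ part T15/MwC_52
section

/-!
# Row 15, block L (helper52): arithmetic of `ℤ[√-2]` for the descent on `y² = x³ - (3+2√-2)² x`
-/

set_option autoImplicit false

noncomputable section

namespace Crest.Agent.T15.Mw

/-! ### descent over a principal ideal domain -/

section pid
variable {R : Type*} [CommRing R] [IsDomain R] [IsPrincipalIdealRing R]

theorem exists_sqf {a : R} (ha : a ≠ 0) : ∃ r d, a = r ^ 2 * d ∧ Squarefree d := by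
  induction a using (wellFounded_dvdNotUnit (α := R)).induction with
  | _ a ih =>
    by_cases h : Squarefree a
    · exact ⟨1, a, by simp, h⟩
    · simp only [Squarefree, not_forall] at h
      obtain ⟨x, ⟨b, rfl⟩, hx⟩ := h
      have hb := right_ne_zero_of_mul ha
      obtain ⟨r, d, rfl, hd⟩ := ih b ⟨hb, x * x, fun h => hx (isUnit_of_mul_isUnit_left h),
        mul_comm _ _⟩ hb
      exact ⟨x * r, d, by ring, hd⟩

theorem exists_sqf_mul {a b s w : R} (ha : a ≠ 0) (hw : w ≠ 0) (h : a * b * w ^ 2 = s ^ 2) :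
    ∃ r t d, Squarefree d ∧ a = d * r ^ 2 ∧ b = d * t ^ 2 := by
  obtain ⟨r, d, rfl, hd⟩ := exists_sqf ha
  have hr : r ≠ 0 := fun e => ha (by simp [e])
  obtain ⟨u, rfl⟩ : r * w ∣ s :=
    (IsIntegrallyClosed.pow_dvd_pow_iff two_ne_zero).1 ⟨d * b, by linear_combination -h⟩
  have h1 : d * b = u ^ 2 :=
    mul_left_cancel₀ (pow_ne_zero 2 (mul_ne_zero hr hw)) (by linear_combination h)
  obtain ⟨t, rfl⟩ : d ∣ u := (hd.dvd_pow_iff_dvd two_ne_zero).1 ⟨b, h1.symm⟩
  exact ⟨r, t, d, hd, mul_comm _ _, mul_left_cancel₀ hd.ne_zero (by linear_combination h1)⟩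

variable {K : Type*} [Field K] [Algebra R K] [IsFractionRing R K]

theorem exists_frac (x : K) :
    ∃ p q : R, q ≠ 0 ∧ IsCoprime p q ∧ x * algebraMap R K q = algebraMap R K p := by
  obtain ⟨a, b, h, rfl⟩ := IsFractionRing.exists_reduced_fraction R x
  exact ⟨a, b, nonZeroDivisors.coe_ne_zero b, h.isCoprime, IsLocalization.mk'_spec K a b⟩

theorem exists_sqf_mul' {a b : R} {z : K} (ha : a ≠ 0) (h : algebraMap R K (a * b) = z ^ 2) :
    ∃ r t d, Squarefree d ∧ a = d * r ^ 2 ∧ b = d * t ^ 2 := by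
  obtain ⟨s, w, hw, -, e⟩ := exists_frac (R := R) z
  refine exists_sqf_mul (s := s) ha hw (IsFractionRing.injective R K ?_)
  rw [map_mul, h, map_pow, map_pow, ← e, mul_pow]

/-- first descent: the class of `x` is a divisor of `c` -/
theorem desc1 {c : R} {x y : K} (hx : x ≠ 0) (h : y ^ 2 = x ^ 3 - algebraMap R K c ^ 2 * x) :
    ∃ d, d ∣ c ∧ IsSquare (x * algebraMap R K d) := by
  obtain ⟨p, q, hq, hpq, e⟩ := exists_frac (R := R) x
  have hq' : algebraMap R K q ≠ 0 := (map_ne_zero_iff _ (IsFractionRing.injective R K)).2 hq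
  have hp : p ≠ 0 := fun h0 => mul_ne_zero hx hq' (by rw [e, h0, map_zero])
  obtain ⟨r, t, d, hd, h1, h2⟩ := exists_sqf_mul' (b := p ^ 2 - c ^ 2 * q ^ 2)
    (z := y * algebraMap R K q ^ 2) (mul_ne_zero hp hq) (by
      simp only [map_mul, map_sub, map_pow, ← e]
      linear_combination -algebraMap R K q ^ 4 * h)
  refine ⟨d, (hd.dvd_pow_iff_dvd two_ne_zero).1 ?_, algebraMap R K (d * r) / algebraMap R K q, ?_⟩
  · obtain ⟨α, β, h3⟩ := hpq.pow (m := 3) (n := 3)
    exact ⟨c ^ 2 * α * (p * t ^ 2 + c ^ 2 * q * r ^ 2) + β * (p * r ^ 2 - q * t ^ 2), by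
      linear_combination -c ^ 2 * h3 + c ^ 2 * α * (p * h2 + c ^ 2 * q * h1) + β * (p * h1 - q * h2)⟩
  · have := congrArg (algebraMap R K) h1
    simp only [map_mul, map_pow, ← e] at this
    rw [div_mul_div_comm, eq_div_iff (mul_ne_zero hq' hq'), map_mul]
    linear_combination algebraMap R K d * this

/-- second descent -/
theorem desc2 {c ρ : R} (hρ : ρ ^ 2 = -2) {x y : K} (hx : x ≠ 0) (hc : x ≠ algebraMap R K c)
    (h : y ^ 2 = x ^ 3 - algebraMap R K c ^ 2 * x) (hs : IsSquare x) :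
    ∃ a e r t d : R, d ∣ ρ * c ∧ IsCoprime a e ∧ a ^ 2 - c * e ^ 2 = d * r ^ 2 ∧
      a ^ 2 + c * e ^ 2 = d * t ^ 2 ∧ IsSquare ((x - algebraMap R K c) * algebraMap R K d) := by
  obtain ⟨u, rfl⟩ := hs
  have hu : u ≠ 0 := left_ne_zero_of_mul hx
  obtain ⟨p, q, hq, hpq, e⟩ := exists_frac (R := R) u
  have hq' : algebraMap R K q ≠ 0 := (map_ne_zero_iff _ (IsFractionRing.injective R K)).2 hq
  have h0 : p ^ 2 - c * q ^ 2 ≠ 0 := fun h0 => by
    have := congrArg (algebraMap R K) h0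
    simp only [map_mul, map_sub, map_pow, ← e, map_zero] at this
    exact mul_ne_zero (sub_ne_zero.2 hc) (pow_ne_zero 2 hq') (by linear_combination this)
  obtain ⟨r, t, d, hd, h1, h2⟩ := exists_sqf_mul' (b := p ^ 2 + c * q ^ 2)
    (z := y * algebraMap R K q ^ 2 / u) h0 (by
      simp only [map_mul, map_sub, map_add, map_pow, ← e]
      rw [div_pow, eq_div_iff (pow_ne_zero 2 hu)]
      linear_combination -algebraMap R K q ^ 4 * h)
  refine ⟨p, q, r, t, d, (hd.dvd_pow_iff_dvd two_ne_zero).1 ?_, hpq, h1, h2,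
    algebraMap R K (d * r) / algebraMap R K q, ?_⟩
  · obtain ⟨α, β, h3⟩ := hpq.pow (m := 2) (n := 2)
    exact ⟨-c * (α * c * (r ^ 2 + t ^ 2) + β * (t ^ 2 - r ^ 2)), by
      linear_combination c ^ 2 * hρ + 2 * c ^ 2 * h3 - c * (α * c * (h1 + h2) + β * (h2 - h1))⟩
  · have := congrArg (algebraMap R K) h1
    simp only [map_mul, map_sub, map_pow, ← e] at this
    rw [div_mul_div_comm, eq_div_iff (mul_ne_zero hq' hq'), map_mul]
    linear_combination algebraMap R K d * this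

end pid

/-! ### the ring `ℤ[√-2]` -/

/-- `ℤ[√-2]` -/
abbrev R2 : Type := ℤ√(-2)

instance : Nontrivial R2 := ⟨⟨0, 1, by decide⟩⟩

instance : NoZeroDivisors R2 := ⟨fun {a b} h => by
  have := congrArg Zsqrtd.norm h
  rwa [Zsqrtd.norm_mul, Zsqrtd.norm_zero, mul_eq_zero, Zsqrtd.norm_eq_zero_iff (by norm_num),
    Zsqrtd.norm_eq_zero_iff (by norm_num)] at this⟩

instance : IsDomain R2 := NoZeroDivisors.to_isDomain _

theorem R2_norm_pos {a : R2} (ha : a ≠ 0) : 0 < a.norm :=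
  (Zsqrtd.norm_nonneg (by norm_num) a).lt_of_ne fun e =>
    ha ((Zsqrtd.norm_eq_zero_iff (by norm_num) a).1 e.symm)

theorem exists_near (a N : ℤ) (hN : 0 < N) : ∃ q : ℤ, 4 * (a - N * q) ^ 2 ≤ N ^ 2 := by
  have h1 := Int.emod_nonneg (2 * a + N) (by omega : 2 * N ≠ 0)
  have h2 := Int.emod_lt_of_pos (2 * a + N) (by omega : 0 < 2 * N)
  have h3 := Int.emod_add_mul_ediv (2 * a + N) (2 * N)
  refine ⟨(2 * a + N) / (2 * N), ?_⟩
  nlinarith

theorem R2_div (a : R2) {b : R2} (hb : b ≠ 0) : ∃ q, (a - b * q).norm < b.norm := by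
  have hN := R2_norm_pos hb
  obtain ⟨q1, h1⟩ := exists_near (a * star b).re b.norm hN
  obtain ⟨q2, h2⟩ := exists_near (a * star b).im b.norm hN
  refine ⟨⟨q1, q2⟩, lt_of_mul_lt_mul_right (a := b.norm) ?_ hN.le⟩
  have : (a - b * ⟨q1, q2⟩).norm * b.norm =
      ((a * star b).re - b.norm * q1) ^ 2 + 2 * ((a * star b).im - b.norm * q2) ^ 2 := by
    simp only [Zsqrtd.norm_def, Zsqrtd.re_sub, Zsqrtd.im_sub, Zsqrtd.re_mul, Zsqrtd.im_mul,
      Zsqrtd.re_star, Zsqrtd.im_star]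
    ring
  rw [this]
  nlinarith

instance : IsPrincipalIdealRing R2 := ⟨fun I => by
  by_cases h : ∃ b ∈ I, b ≠ 0
  · obtain ⟨b, ⟨hb, hb0⟩, hmin⟩ := (measure fun z : R2 => z.norm.natAbs).wf.has_min
      {b | b ∈ I ∧ b ≠ 0} h
    refine ⟨b, le_antisymm (fun a ha => ?_) (by simpa using hb)⟩
    obtain ⟨q, hq⟩ := R2_div a hb0
    refine Ideal.mem_span_singleton'.2 ⟨q, by_contra fun hne => ?_⟩
    have h0 : a - b * q ≠ 0 := fun e => hne (by linear_combination -e)
    refine hmin _ ⟨I.sub_mem ha (I.mul_mem_right _ hb), h0⟩ ?_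
    have := R2_norm_pos h0
    show (a - b * q).norm.natAbs < b.norm.natAbs
    omega
  · exact ⟨0, le_antisymm (fun a ha => by_contra fun hne => h ⟨a, ha, fun e => hne (by simp [e])⟩)
      (by simp)⟩⟩

theorem R2_unit {u : R2} (h : IsUnit u) : u = 1 ∨ u = -1 := by
  have := (Zsqrtd.norm_eq_one_iff' (by norm_num) u).2 h
  rw [Zsqrtd.norm_def] at this
  have h1 : u.im = 0 := by nlinarith [mul_self_nonneg u.re, mul_self_nonneg u.im]
  rw [h1] at this
  rcases Int.eq_one_or_neg_one_of_mul_eq_one (show u.re * u.re = 1 by linarith) with e | e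
  · left; ext <;> simp [*]
  · right; ext <;> simp [*]

theorem R2_dvd {d π : R2} (hπ : Prime π.norm) (h : d ∣ π) : d = 1 ∨ d = -1 ∨ d = π ∨ d = -π := by
  obtain ⟨e, rfl⟩ := h
  rw [Zsqrtd.norm_mul] at hπ
  rcases hπ.irreducible.isUnit_or_isUnit rfl with h | h
  · rcases R2_unit (Zsqrtd.isUnit_iff_norm_isUnit _ |>.2 h) with h | h <;> simp [h]
  · rcases R2_unit (Zsqrtd.isUnit_iff_norm_isUnit _ |>.2 h) with h | h <;> simp [h]

/-- `√-2` -/
def ρ2 : R2 := ⟨0, 1⟩

/-- `3 + 2 √-2` -/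
def c2 : R2 := ⟨3, 2⟩

theorem ρ2_sq : ρ2 ^ 2 = -2 := by decide

theorem dvd_c2 {d : R2} (h : d ∣ c2) : d = 1 ∨ d = -1 ∨ d = c2 ∨ d = -c2 :=
  R2_dvd (Int.prime_iff_natAbs_prime.2 (show Nat.Prime 17 by norm_num)) h

theorem dvd_ρ2 {d : R2} (h : d ∣ ρ2) : d = 1 ∨ d = -1 ∨ d = ρ2 ∨ d = -ρ2 :=
  R2_dvd (Int.prime_iff_natAbs_prime.2 Nat.prime_two) h

/-- `ℤ[√-2] / 8` -/
abbrev S8 : Type := QuadraticAlgebra (ZMod 8) (-2) 0

/-- the squares modulo `8` -/
def SQ : List S8 := [⟨0, 0⟩, ⟨1, 0⟩, ⟨1, 4⟩, ⟨2, 4⟩, ⟨4, 0⟩, ⟨6, 0⟩, ⟨7, 2⟩, ⟨7, 6⟩]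

theorem mem_SQ (z : S8) : z ^ 2 ∈ SQ := by
  have : ∀ x y : ZMod 8, (⟨x, y⟩ : S8) * ⟨x, y⟩ ∈ SQ := by decide +kernel
  rw [sq]
  exact this z.re z.im

theorem mod8 : ∀ d ∈ ([⟨7, 0⟩, ⟨5, 6⟩, ⟨0, 1⟩, ⟨0, 7⟩, ⟨4, 3⟩, ⟨4, 5⟩] : List S8), ∀ A ∈ SQ,
    ∀ E ∈ SQ, ((⟨0, 4⟩ : S8) * A = 0 ∧ (⟨0, 4⟩ : S8) * E = 0) ∨
      (∀ R ∈ SQ, A - ⟨3, 2⟩ * E ≠ d * R) ∨ ∀ T ∈ SQ, A + ⟨3, 2⟩ * E ≠ d * T := by
  decide +kernel

/-- reduction modulo `8` -/
def red8 : R2 →+* S8 := Zsqrtd.lift ⟨⟨0, 1⟩, by decide⟩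

theorem local2 {a e r t d : R2} (hd : d ∣ ρ2 * c2) (hc : IsCoprime a e)
    (h1 : a ^ 2 - c2 * e ^ 2 = d * r ^ 2) (h2 : a ^ 2 + c2 * e ^ 2 = d * t ^ 2) :
    d = 1 ∨ d = c2 := by
  by_contra hne
  have hm : red8 d ∈ ([⟨7, 0⟩, ⟨5, 6⟩, ⟨0, 1⟩, ⟨0, 7⟩, ⟨4, 3⟩, ⟨4, 5⟩] : List S8) := by
    obtain ⟨d1, d2, k1, k2, rfl⟩ := exists_dvd_and_dvd_of_dvd_mul hd
    rcases dvd_ρ2 k1 with rfl | rfl | rfl | rfl <;> rcases dvd_c2 k2 with rfl | rfl | rfl | rfl <;>
      first | exact absurd (by decide) hne | decide +kernel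
  have hc2 : red8 c2 = ⟨3, 2⟩ := by decide +kernel
  have e1 := congrArg red8 h1
  have e2 := congrArg red8 h2
  simp only [map_sub, map_add, map_mul, map_pow, hc2] at e1 e2
  rcases mod8 _ hm _ (mem_SQ (red8 a)) _ (mem_SQ (red8 e)) with h | h | h
  · obtain ⟨α, β, h3⟩ := (hc.map red8).pow (m := 2) (n := 2)
    have : (⟨0, 4⟩ : S8) = 0 := by linear_combination -(⟨0, 4⟩ : S8) * h3 + α * h.1 + β * h.2
    exact absurd this (by decide)
  · exact h _ (mem_SQ _) e1
  · exact h _ (mem_SQ _) e2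

end Crest.Agent.T15.Mw

end
end

-- ▼ part T15/MwD_52
section

/-!
# Row 15, block L (helper52): `y² = x³ - (3+2√-2)² x` has rank one over `ℚ(√-2)`
-/

set_option autoImplicit false
set_option linter.unusedSectionVars false

noncomputable section

namespace Crest.Agent.T15.Mw

open Height WeierstrassCurve WeierstrassCurve.Affine Crest.Agent.T15.Lk Crest.Agent.R023.NT889

section desc
variable {K : Type} [Field K] [Algebra R2 K] [IsFractionRing R2 K]

theorem sq_of_sq {a : R2} (h : IsSquare (algebraMap R2 K a)) : IsSquare a := by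
  obtain ⟨z, hz⟩ := h
  obtain ⟨s, w, hw, -, e⟩ := exists_frac (R := R2) z
  have h1 : a * w ^ 2 = s ^ 2 := IsFractionRing.injective R2 K (by
    rw [map_mul, hz, map_pow, map_pow, ← e]; ring)
  obtain ⟨u, rfl⟩ : w ∣ s :=
    (IsIntegrallyClosed.pow_dvd_pow_iff two_ne_zero).1 ⟨a, by linear_combination -h1⟩
  exact ⟨u, mul_right_cancel₀ (pow_ne_zero 2 hw) (by linear_combination h1)⟩

theorem nsq_of_norm {a : R2} (h : a.norm = 17) : ¬IsSquare (algebraMap R2 K a) := fun hs => by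
  obtain ⟨u, rfl⟩ := sq_of_sq hs
  rw [Zsqrtd.norm_mul] at h
  have h0 := Zsqrtd.norm_nonneg (by norm_num) u
  have : u.norm ≤ 4 ∨ 5 ≤ u.norm := by omega
  rcases this with h1 | h1 <;> nlinarith

theorem nsq_neg_one : ¬IsSquare (-1 : K) := fun hs => by
  obtain ⟨u, hu⟩ := sq_of_sq (K := K) (a := -1) (by simpa using hs)
  rcases R2_unit (u := u) (isUnit_of_mul_isUnit_left (hu ▸ isUnit_one.neg)) with rfl | rfl <;>
    exact absurd hu (by decide)

variable [DecidableEq K]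

theorem descent (ι : K) {c : K} (hc : c = algebraMap R2 K c2) :
    ∃ (S : Set (E ι (c ^ 2)).Point) (P0 : (E ι (c ^ 2)).Point), S.Finite ∧
      (∀ T ∈ S, IsOfFinAddOrder T) ∧ ¬IsOfFinAddOrder P0 ∧
      ∀ P, ∃ T ∈ S, ∃ Q, P = T + 2 • Q ∨ P = T + P0 + 2 • Q := by
  have hi : ∀ a : R2, a ≠ 0 → algebraMap R2 K a ≠ 0 := fun a =>
    (map_ne_zero_iff _ (IsFractionRing.injective R2 K)).2
  have h2 : (2 : K) ≠ 0 := by rw [← map_ofNat (algebraMap R2 K)]; exact hi 2 (by decide)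
  have hc0 : c ≠ 0 := hc ▸ hi _ (by decide)
  have hn : c ^ 2 ≠ 0 := pow_ne_zero 2 hc0
  have m1 := nsq_neg_one (K := K)
  have m2 : ¬IsSquare c := hc ▸ nsq_of_norm (by decide)
  have m3 : ¬IsSquare (-c) := by rw [hc, ← map_neg]; exact nsq_of_norm (by decide)
  have e0 : (0 : K) ^ 3 = c ^ 2 * 0 := by simp
  have ec : c ^ 3 = c ^ 2 * c := by ring
  have t0 : (E ι (c ^ 2)).Nonsingular 0 0 := (E_nonsingular h2 hn).2 (by ring)
  have t1 : (E ι (c ^ 2)).Nonsingular c 0 := (E_nonsingular h2 hn).2 (by ring)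
  have t2 : (E ι (c ^ 2)).Nonsingular (-c) 0 := (E_nonsingular h2 hn).2 (by ring)
  set r := algebraMap R2 K ρ2 with hr
  have hr2 : r ^ 2 = -2 := by rw [hr, ← map_pow, ρ2_sq, map_neg, map_ofNat]
  have hcr : c = 3 + 2 * r := by
    rw [hc, show c2 = 3 + 2 * ρ2 by decide, map_add, map_mul, map_ofNat, map_ofNat]
  have hu : 1 + r ≠ 0 := by simpa using hi (1 + ρ2) (by decide)
  have x1 : (c / (1 + r)) ^ 2 - c = c * (2 / (1 + r)) ^ 2 := by
    field_simp
    linear_combination hcr - hr2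
  have x2 : (c / (1 + r)) ^ 2 + c = c * ((2 + r) / (1 + r)) ^ 2 := by
    field_simp
    linear_combination hcr
  have p0 : (E ι (c ^ 2)).Nonsingular ((c / (1 + r)) ^ 2)
      (c / (1 + r) * c * (2 / (1 + r)) * ((2 + r) / (1 + r))) := (E_nonsingular h2 hn).2 (by
    rw [show ∀ x : K, x ^ 3 - c ^ 2 * x = x * (x - c) * (x + c) from fun x => by ring, x1, x2]
    ring)
  have q0 : IsSquare (dl 0 (Point.some _ _ p0)) := by
    rw [dl_some, dv, if_neg (pow_ne_zero 2 (div_ne_zero hc0 hu)), sub_zero]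
    exact ⟨_, sq _⟩
  have q1 : IsSquare (dl c (Point.some _ _ p0) * c) := by
    rw [dl_some, dv, if_neg (sub_ne_zero.1 (x1 ▸ mul_ne_zero hc0
      (pow_ne_zero 2 (div_ne_zero h2 hu)))), x1]
    exact ⟨c * (2 / (1 + r)), by ring⟩
  refine ⟨{0, .some _ _ t0, .some _ _ t1, .some _ _ t2}, .some _ _ p0, Set.toFinite _, ?_,
    not_isOfFinAddOrder h2 hc0 rfl m1 m2 m3 q0
      fun h => m2 (sq_cancel (dl_ne h2 hn ec _) h q1), fun P => ?_⟩
  · have : ∀ x (h : (E ι (c ^ 2)).Nonsingular x 0), IsOfFinAddOrder (Point.some _ _ h) :=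
      fun x h => isOfFinAddOrder_iff_nsmul_eq_zero.2 ⟨2, two_pos, by
        rw [two_nsmul, Point.add_of_Y_eq rfl (by simp)]⟩
    rintro T (rfl | rfl | rfl | rfl)
    exacts [IsOfFinAddOrder.zero, this _ _, this _ _, this _ _]
  have A : ∃ T ∈ ({0, .some _ _ t0, .some _ _ t1, .some _ _ t2} : Set (E ι (c ^ 2)).Point),
      IsSquare (dl 0 P * dl 0 T) := by
    rcases P with _ | ⟨x, y, h⟩
    · exact ⟨0, by simp, _, rfl⟩
    by_cases hx : x = 0
    · exact ⟨.some _ _ t0, by simp, dv _ 0 0, by rw [dl_some, dl_some, hx]⟩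
    obtain ⟨d, hd, hs⟩ := desc1 (c := c2) hx (hc ▸ E_equation.1 h.1)
    rw [dl_some, dv, if_neg hx, sub_zero]
    rcases dvd_c2 hd with rfl | rfl | rfl | rfl
    · exact ⟨0, by simp, by simpa using hs⟩
    · refine ⟨.some _ _ t0, by simp, ?_⟩
      obtain ⟨s, hs⟩ := hs
      rw [map_neg, map_one] at hs
      exact ⟨s * c, by rw [dl_some, dv, if_pos rfl]; linear_combination c ^ 2 * hs⟩
    · exact ⟨.some _ _ t1, by simp, by rwa [dl_some, dv, if_neg hc0, sub_zero, hc]⟩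
    · exact ⟨.some _ _ t2, by simp, by
        rwa [dl_some, dv, if_neg (neg_ne_zero.2 hc0), sub_zero, hc, ← map_neg]⟩
  have B : ∀ P : (E ι (c ^ 2)).Point, IsSquare (dl 0 P) →
      IsSquare (dl c P) ∨ IsSquare (dl c P * c) := by
    rintro (_ | ⟨x, y, h⟩) hs
    · exact .inl ⟨1, (mul_one _).symm⟩
    rw [dl_some, dv] at hs
    have hx : x ≠ 0 := fun hx => by
      rw [if_pos hx] at hs
      exact m1 (sq_cancel hn ⟨c, sq c⟩ (by convert hs using 1; ring))
    rw [if_neg hx, sub_zero] at hs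
    have hx' : x ≠ c := fun e => m2 (e ▸ hs)
    obtain ⟨a, e, r, t, d, hd, hco, h1, h2, h3⟩ :=
      desc2 (c := c2) ρ2_sq hx (hc ▸ hx') (hc ▸ E_equation.1 h.1) hs
    rw [dl_some, dv, if_neg hx']
    rcases local2 hd hco h1 h2 with rfl | rfl
    · exact .inl (by simpa [hc] using h3)
    · exact .inr (hc ▸ h3)
  obtain ⟨T, hT, hs⟩ := A
  have s0 : IsSquare (dl 0 (P + -T)) := dl_sq_add h2 hn e0 (by rwa [dl_neg])
  refine ⟨T, hT, ?_⟩
  rcases B _ s0 with h | h
  · obtain ⟨Q, hQ⟩ := exists_half h2 hc0 rfl s0 h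
    exact ⟨Q, .inl (by rw [← hQ]; abel)⟩
  · obtain ⟨Q, hQ⟩ := exists_eq_add h2 hc0 rfl (s0.mul q0) (sq_cancel hn ⟨c, sq c⟩ (by
      obtain ⟨s, hs⟩ := h.mul q1
      exact ⟨s, by rw [← hs]; ring⟩))
    exact ⟨Q, .inr (by rw [add_assoc, ← hQ]; abel)⟩

/-- **rank one**: `N • E(K) = ℤ P` for a point `P` of infinite order -/
theorem exists_gen [NumberField K] (ι : K) {c : K} (hc : c = algebraMap R2 K c2) :
    ∃ (N : ℕ) (P : (E ι (c ^ 2)).Point), ¬IsOfFinAddOrder P ∧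
      ∀ A, (∃ a : ℤ, a • P = A) ↔ ∃ Q, N • Q = A := by
  have hc0 : c ≠ 0 := hc ▸ (map_ne_zero_iff _ (IsFractionRing.injective R2 K)).2 (by decide)
  have := E_isElliptic ι two_ne_zero (pow_ne_zero 2 hc0)
  obtain ⟨S, P0, h1, h2, h3, h4⟩ := descent ι hc
  obtain ⟨C, hp⟩ := hx_par (E ι (c ^ 2))
  obtain ⟨lam, P1, N, -, e1, hN, -, e2, -⟩ :=
    rank_one hp (fun _ => zero_le_logHeight₁ _) h1 h2 h3 h4
  refine ⟨N, N • P1, fun h => ?_, fun A => ⟨?_, ?_⟩⟩
  · have := lam.isOfFinAddOrder h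
    rw [map_nsmul, e1, isOfFinAddOrder_iff_eq_zero] at this
    simp [hN.ne'] at this
  · rintro ⟨a, rfl⟩
    exact ⟨a • P1, smul_comm _ _ _⟩
  · rintro ⟨Q, rfl⟩
    exact ⟨lam Q, by rw [e2 Q, mul_comm, mul_smul, natCast_zsmul]⟩

end desc

/-! ### heights in rational coordinates -/

section ht
variable {K : Type} [Field K] [NumberField K]

theorem logHeight₁_le_coord {κ : Type*} [Fintype κ] (b : Module.Basis κ ℚ K) :
    ∃ C : ℝ, 0 ≤ C ∧ ∀ x : K, logHeight₁ x ≤ C * (1 + ∑ i, logHeight₁ (b.repr x i)) := by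
  set D := totalWeight K * Real.log (Finset.univ : Finset κ).card + ∑ i, logHeight₁ (b i) with hD
  have hD0 : 0 ≤ D := add_nonneg (mul_nonneg (Nat.cast_nonneg _) (Real.log_natCast_nonneg _))
    (Finset.sum_nonneg fun i _ => zero_le_logHeight₁ _)
  have h6 : (0 : ℝ) ≤ Module.finrank ℚ K := Nat.cast_nonneg _
  refine ⟨D + 2 * Module.finrank ℚ K, by positivity, fun x => ?_⟩
  have h1 := logHeight₁_sum_le Finset.univ fun i => b.repr x i • b i
  rw [b.sum_repr] at h1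
  have h2 : ∑ i, logHeight₁ (b.repr x i • b i) ≤
      ∑ i, (2 * Module.finrank ℚ K * logHeight₁ (b.repr x i) + logHeight₁ (b i)) :=
    Finset.sum_le_sum fun i _ => by
      rw [Rat.smul_def]
      exact (logHeight₁_mul_le _ _).trans (add_le_add_left (logHeight₁_ratCast _) _)
  rw [Finset.sum_add_distrib, ← Finset.mul_sum] at h2
  have h3 : 0 ≤ ∑ i, logHeight₁ (b.repr x i) := Finset.sum_nonneg fun i _ => zero_le_logHeight₁ _
  nlinarith [mul_nonneg hD0 h3]

/-- **the index is bounded by the height of the rational coordinates** -/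
theorem sq_le_height [DecidableEq K] {ι n : K} (hn : n ≠ 0) {P : (E ι n).Point}
    (hP : ¬IsOfFinAddOrder P) {κ : Type*} [Fintype κ] (b : Module.Basis κ ℚ K) :
    ∃ C : ℕ, ∀ a : ℤ, (a : ℝ) ^ 2 ≤ C * (1 + ∑ i, logHeight₁ (b.repr (co (a • P)).1 i)) := by
  have := E_isElliptic ι two_ne_zero hn
  obtain ⟨C, hp⟩ := hx_par (E ι n)
  obtain ⟨C1, h1, h2⟩ := logHeight₁_le_coord b
  have h4 := hhat_pos hp (fun _ => zero_le_logHeight₁ _) hP
  have hD : 0 ≤ (C + |hx (0 : (E ι n).Point)|) / 3 := by have := hp.nonneg; positivity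
  obtain ⟨C', hC'⟩ := exists_nat_ge (((C + |hx (0 : (E ι n).Point)|) / 3 + C1) / hhat hx P)
  refine ⟨C', fun a => le_trans ?_ (mul_le_mul_of_nonneg_right hC' ?_)⟩
  · have h5 := (abs_le.1 (hp.abs_hhat_sub_le (a • P))).2
    rw [hp.isQuad.zsmul] at h5
    have h6 : hx (a • P) = logHeight₁ (co (a • P)).1 := by cases a • P <;> rfl
    have h7 := h2 (co (a • P)).1
    have h3 : 0 ≤ ∑ i, logHeight₁ (b.repr (co (a • P)).1 i) :=
      Finset.sum_nonneg fun i _ => zero_le_logHeight₁ _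
    rw [div_mul_eq_mul_div, le_div_iff₀ h4]
    nlinarith [mul_nonneg hD h3]
  · exact add_nonneg zero_le_one (Finset.sum_nonneg fun i _ => zero_le_logHeight₁ _)

end ht

end Crest.Agent.T15.Mw

end
end

-- ▼ part T15/LDef_15
section

/-!
# Row 15, block L: words (helper15)

`LGlue ⇐ LkStmt` (curve + link) and `SzStmt` (size certificate, from Q, H and `S0068`).
-/

set_option autoImplicit false

namespace Crest.Agent.T15.LDef

open Val

/-- the visible primes -/
def Vis (p : ℕ) : Prop := p.Prime ∧ p ≡ 1 [MOD 24] ∧ p ≡ 3 [MOD 17]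

/-- the index model: `rep a` = coordinates of `a • P`; `Read w (rep a) ρ` reads `a` modulo the
primes where `w` has odd valuation. -/
structure Model (V : Type) [AddCommGroup V] [Module ℚ V] (n : ℕ) where
  rep : ℤ → V
  inj : Function.Injective rep
  dPt : Dio fun v => ∃ a, rep a = v
  Add : V → V → V → Prop
  dA : Dio fun q : V × V × V => Add q.1 q.2.1 q.2.2
  add_iff : ∀ a b v, Add (rep a) (rep b) v ↔ v = rep (a + b)
  co : Fin n → V → ℚ
  pco : ∀ i, PolM (co i)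
  C : ℝ
  ht : ∀ a : ℤ, (a : ℝ) ^ 2 ≤ C * (1 + ∑ i, Height.logHeight₁ (co i (rep a)))
  Read : ℚ → V → ℚ → Prop
  dR : Dio fun q : ℚ × V × ℚ => Read q.1 q.2.1 q.2.2
  B0 : ℕ
  sound : ∀ w a ρ, Read w (rep a) ρ → ∀ p : ℕ, p.Prime → B0 < p → Odd (padicValRat p w) →
    Pz p (ρ - a)
  complete : ∀ p : ℕ, Vis p → B0 < p → ∀ a : ℤ, Read p (rep a) a

/-- curve + link (52, 47) -/
def LkStmt : Prop :=
  Top.QStmt → ∃ (V : Type) (_ : AddCommGroup V) (_ : Module ℚ V) (_ : Module.Finite ℚ V) (n : ℕ),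
    Nonempty (Model V n)

/-- the size certificate -/
def SzStmt : Prop :=
  ∃ (m : ℕ) (Sz : ℚ → (Fin m → ℚ) → Prop) (C : ℝ) (k : ℕ),
    (Dio fun q : ℚ × (Fin m → ℚ) => Sz q.1 q.2) ∧
    (∀ r w, Sz r w → ∀ S : Finset ℕ, (∀ p ∈ S, p.Prime) →
      (∀ p : ℕ, p.Prime → ∀ j, Odd (padicValRat p (w j)) → p ∈ S) →
      Height.logHeight₁ r ≤ C * (∏ p ∈ S, (p : ℝ)) ^ k) ∧
    ∀ (r : ℚ) (B : ℕ), ∃ w : Fin m → ℕ, (∀ j, Vis (w j) ∧ B < w j) ∧ Sz r fun j => w j

end Crest.Agent.T15.LDef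
end

-- ▼ part T15/LkZ_47
section

/-!
# Row 15, block L (helper47): `LkStmt`

The curve `y² = x³ - (3 + 2 √-2)² x` over `ℚ(√-2)`, read over `ℚ(√-2, i)`.
-/

set_option autoImplicit false
set_option linter.unusedSectionVars false

namespace Crest.Agent.T15.Lk

open WeierstrassCurve WeierstrassCurve.Affine Crest.Agent.T170.Ell Crest.Agent.T170.Ell.Place
  Crest.Agent.T15.Mw

theorem nsq_three : ¬ IsSquare (3 : ZMod 17) := by decide

theorem lkStmt_of {K F : Type} [Field K] [NumberField K] [Algebra R2 K] [IsFractionRing R2 K]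
    [Field F] [NumberField F] [IsGalois ℚ F] (j : K →+* F) {ι : F} (hι : ι ^ 2 = -1) (τ : F →+* F)
    (hτι : τ ι = ι) (hτρ : τ (j (algebraMap R2 K ρ2)) = -j (algebraMap R2 K ρ2))
    (hv : ∀ (p : ℕ) [Fact p.Prime], p % 8 = 1 → Nonempty (Place F (ZMod p))) : LDef.LkStmt := by
  classical
  rintro ⟨J, dJ, sJ, cJ⟩
  have := Fact.mk hι
  obtain ⟨c₀, hc₀⟩ : ∃ c₀, c₀ = algebraMap R2 K c2 := ⟨_, rfl⟩
  obtain ⟨N₀, P₀, hP₀, hZ₀⟩ := exists_gen (0 : K) hc₀
  set ρ := j (algebraMap R2 K ρ2) with hρ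
  have hρ2 : ρ ^ 2 = -2 := by rw [hρ, ← map_pow, ← map_pow, ρ2_sq]; simp [map_ofNat]
  have hc : j c₀ = 3 + 2 * ρ := by
    rw [hc₀, show c2 = 3 + 2 * ρ2 by decide]
    simp [hρ, map_ofNat]
  have h17 : (3 - 2 * ρ) * (3 + 2 * ρ) = 17 := by linear_combination -4 * hρ2
  have hc0 : 3 + 2 * ρ ≠ 0 := fun e => by simp [e] at h17
  have hn : (3 + 2 * ρ) ^ 2 ≠ 0 := pow_ne_zero 2 hc0
  have hn₀ : c₀ ^ 2 ≠ 0 := fun e => hn (by rw [← hc, ← map_pow, e, map_zero])
  have tw : Tw (E 0 (c₀ ^ 2)) (E ι ((3 + 2 * ρ) ^ 2)) j 1 := tw_E one_ne_zero (by simp [hc])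
  set P := tw.hom P₀ with hPdef
  have hP' : ¬ IsOfFinAddOrder P := by rwa [hPdef, tw.hom_injective.isOfFinAddOrder_iff]
  have hP : ∀ k : ℤ, k ≠ 0 → k • P ≠ 0 := fun k hk e =>
    hP' (isOfFinAddOrder_iff_zsmul_eq_zero.2 ⟨k, hk, e⟩)
  have hZ : Dio fun v : F × F => ∃ a : ℤ, co (a • P) = v := by
    refine (Dio.ex (R := fun (v : F × F) (u : K × K) => co (tw.hom (N₀ • pt 0 (c₀ ^ 2) u)) = v)
      (Dio.eqF (((DPt.pt hn₀ (by fun_prop)).nsmul N₀).hom tw) (by fun_prop))).congr fun v => ?_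
    constructor
    · rintro ⟨u, rfl⟩
      obtain ⟨a, ha⟩ := (hZ₀ _).2 ⟨pt 0 (c₀ ^ 2) u, rfl⟩
      exact ⟨a, by rw [← ha, map_zsmul]⟩
    · rintro ⟨a, rfl⟩
      obtain ⟨A, hA⟩ := (hZ₀ _).1 ⟨a, rfl⟩
      exact ⟨co A, by rw [pt_co, hA, map_zsmul]⟩
  obtain ⟨N, Read, hN, dR, sR, cR⟩ := exists_read (b := (3 - 2 * ρ) ^ 2 / 17) (τ := τ) hn hτι (by
    rw [map_pow, map_add, map_mul, hτρ, map_ofNat, map_ofNat, ← h17]
    have : 3 - 2 * ρ ≠ 0 := fun e => by simp [e] at h17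
    field_simp
    ring) hP hZ dJ
  let bas := Module.finBasis ℚ F
  obtain ⟨C, hC⟩ := sq_le_height hn hP' bas
  have nd : ∀ p, N + 17 < p → ¬ p ∣ N := fun p h e => by
    have := Nat.le_of_dvd (Nat.pos_of_ne_zero hN) e
    omega
  refine ⟨F × F, inferInstance, inferInstance, inferInstance, _, ⟨{
    rep := fun a => co (a • P)
    inj := fun a b e => ?_
    dPt := hZ
    Add := fun u v w => w = co (pt ι _ u + pt ι ((3 + 2 * ρ) ^ 2) v)
    dA := Dio.eqF (by fun_prop) ((DPt.pt hn (by fun_prop)).add (DPt.pt hn (by fun_prop)))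
    add_iff := fun a b v => by rw [pt_co, pt_co, add_smul]
    co := fun i v => bas.repr v.1 i
    pco := fun i => PolM.lin (bas.coord i) (f := fun v : F × F => v.1) (by fun_prop)
    C := C
    ht := hC
    Read := Read
    dR := dR
    B0 := N + 17
    sound := fun w a r h p hp hB ho => (Val.pz_iff_num hp).2
      (sR w a r p hp (nd p hB) (fun y hy => (Val.pz_iff_num hp).1 (sJ w y hy p hp ho)) h)
    complete := fun p hp hB a => ?_ }⟩⟩
  · by_contra hne
    exact hP (a - b) (sub_ne_zero.2 hne) (by rw [sub_smul, co_injective e, sub_self])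
  · obtain ⟨hp, h24, hp17⟩ := hp
    have := Fact.mk hp
    have h8 : p % 8 = 1 := by
      rw [Nat.ModEq] at h24
      omega
    obtain ⟨Q⟩ := hv p h8
    refine cR p p Q (nd p hB) (fun y hy => cJ p hp h8 y
      ((Top.inJ_prime hp y).2 ((Val.pz_iff_num hp).2 hy))) (fun hs => ?_) a
    have hr : Q.Sp ρ (Q.val ρ) := sp_val (mem_of_sq (b := 0) (c := -2) (zero_mem _)
      (neg_mem (sp_ofNat (P := Q) 2).mem) (by rw [hρ2]; ring))
    have h0 : (17 : ZMod p) ≠ 0 := fun e => by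
      have := Nat.le_of_dvd (by norm_num) ((ZMod.natCast_eq_zero_iff 17 p).1 (by exact_mod_cast e))
      omega
    have s₁ := (sp_ofNat (P := Q) 3).sub ((sp_ofNat 2).mul hr)
    have s₂ := (sp_ofNat (P := Q) 3).add ((sp_ofNat 2).mul hr)
    have s₃ := sp_val ((s₁.pow 2).div (sp_ofNat 17) h0).mem
    have e := (s₃.mul (s₂.pow 2)).unique (show Q.Sp _ (17 : ZMod p) by
      rw [show (3 - 2 * ρ) ^ 2 / 17 * (3 + 2 * ρ) ^ 2 = 17 by
        linear_combination ((3 - 2 * ρ) * (3 + 2 * ρ) + 17) / 17 * h17]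
      exact sp_ofNat 17)
    have : Fact (Nat.Prime 17) := ⟨by norm_num⟩
    have h3 := (ZMod.exists_sq_eq_prime_iff_of_mod_four_eq_one (p := 17) (q := p) (by norm_num)
      (by omega)).2 (by exact_mod_cast e ▸ hs.mul (IsSquare.sq _))
    rw [(ZMod.natCast_eq_natCast_iff p 3 17).2 hp17] at h3
    exact nsq_three h3

instance factK : Fact (∀ r : ℚ, r ^ 2 ≠ -2 + 0 * r) := ⟨fun r h => by nlinarith [sq_nonneg r]⟩

/-- `ℚ(√-2)` -/
def K2 : Type := QuadraticAlgebra ℚ (-2) 0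

noncomputable instance : Field K2 := inferInstanceAs (Field (QuadraticAlgebra ℚ (-2) 0))

instance : CharZero K2 := inferInstanceAs (CharZero (QuadraticAlgebra ℚ (-2) 0))

instance : NumberField K2 where
  to_charZero := inferInstance
  to_finiteDimensional := Module.Finite.of_surjective
    (AddMonoidHom.mk' (fun u : ℚ × ℚ => (⟨u.1, u.2⟩ : K2)) fun _ _ => rfl).toRatLinearMap
    fun x => ⟨(x.re, x.im), rfl⟩

/-- the inclusion `ℤ[√-2] → ℚ(√-2)` -/
def inc : R2 →+* QuadraticAlgebra ℚ (-2) 0 where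
  toFun z := ⟨z.re, z.im⟩
  map_one' := by ext <;> simp [QuadraticAlgebra.re_one, QuadraticAlgebra.im_one]
  map_zero' := by ext <;> simp
  map_add' _ _ := by ext <;> simp
  map_mul' _ _ := by ext <;> simp

noncomputable instance : Algebra R2 K2 := RingHom.toAlgebra (S := K2) inc

instance : FaithfulSMul R2 K2 := (faithfulSMul_iff_algebraMap_injective _ _).2 fun _ _ e =>
  Zsqrtd.ext (Int.cast_injective (α := ℚ) (congrArg QuadraticAlgebra.re e))
    (Int.cast_injective (α := ℚ) (congrArg QuadraticAlgebra.im e))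

instance : IsFractionRing R2 K2 := IsFractionRing.of_field _ _ fun z => by
  refine ⟨⟨z.re.num * z.im.den, z.im.num * z.re.den⟩, ⟨z.re.den * z.im.den, 0⟩, ?_⟩
  rw [eq_div_iff ((map_ne_zero_iff _ (FaithfulSMul.algebraMap_injective R2 K2)).2 fun e =>
    mul_ne_zero (Int.natCast_ne_zero.2 z.re.den_nz) (Int.natCast_ne_zero.2 z.im.den_nz)
      (congrArg Zsqrtd.re e))]
  obtain ⟨x, y⟩ := z
  change (⟨x, y⟩ : QuadraticAlgebra ℚ (-2) 0) * inc _ = inc _
  ext <;> simp [inc, ← Rat.mul_den_eq_num] <;> ring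

instance factF : Fact (∀ r : K2, r ^ 2 ≠ -1 + 0 * r) :=
  ⟨fun r h => nsq_neg_one (K := K2) ⟨r, by rw [← sq, h]; ring⟩⟩

/-- `ℚ(√-2, i)` -/
def F8 : Type := QuadraticAlgebra K2 (-1) 0

noncomputable instance : Field F8 := inferInstanceAs (Field (QuadraticAlgebra K2 (-1) 0))

instance : CharZero F8 := inferInstanceAs (CharZero (QuadraticAlgebra K2 (-1) 0))

instance : NumberField F8 where
  to_charZero := inferInstance
  to_finiteDimensional := Module.Finite.of_surjective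
    (AddMonoidHom.mk' (fun u : K2 × K2 => (⟨u.1, u.2⟩ : F8)) fun _ _ => rfl).toRatLinearMap
    fun x => ⟨(x.re, x.im), rfl⟩

/-- conjugation of `ℚ(√-2)` -/
noncomputable def cjK : K2 →+* K2 := starRingEnd (QuadraticAlgebra ℚ (-2) 0)

/-- conjugation of the coefficients -/
noncomputable def tau : QuadraticAlgebra K2 (-1) 0 →+* QuadraticAlgebra K2 (-1) 0 where
  toFun z := ⟨cjK z.re, cjK z.im⟩
  map_one' := by ext <;> simp [QuadraticAlgebra.re_one, QuadraticAlgebra.im_one]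
  map_zero' := by ext <;> simp
  map_add' _ _ := by ext <;> simp
  map_mul' _ _ := by ext <;> simp

instance : IsGalois ℚ F8 := IsGalois.of_fixedField_eq_bot ℚ F8 (by
  refine eq_bot_iff.2 fun x hx => ?_
  have H : ∀ σ : F8 →+* F8, σ x = x := fun σ =>
    hx ⟨AlgEquiv.ofBijective σ.toRatAlgHom (AlgHom.bijective _), trivial⟩
  have h1 : -x.im = x.im := congrArg QuadraticAlgebra.im
    (H (starRingEnd (QuadraticAlgebra K2 (-1) 0)))
  have h2 : -x.re.im = x.re.im := congrArg (fun z : F8 => z.re.im) (H tau)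
  refine IntermediateField.mem_bot.2 ⟨x.re.re, ?_⟩
  change (⟨⟨x.re.re, 0⟩, 0⟩ : QuadraticAlgebra K2 (-1) 0) = x
  refine QuadraticAlgebra.ext (QuadraticAlgebra.ext rfl ?_) ?_
  · exact (neg_eq_self.1 h2).symm
  · exact (neg_eq_self.1 h1).symm)

theorem place_F8 (p : ℕ) [hp : Fact p.Prime] (h : p % 8 = 1) : Nonempty (Place F8 (ZMod p)) := by
  have h2 : (2 : ZMod p) ≠ 0 := fun e => by
    have := Nat.le_of_dvd (by norm_num) ((ZMod.natCast_eq_zero_iff 2 p).1 (by exact_mod_cast e))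
    have := hp.out.two_le
    omega
  obtain ⟨Q₀⟩ := exists_place_rat p
  obtain ⟨r, hr⟩ := (ZMod.exists_sq_eq_neg_two_iff (p := p) (by omega)).2 (Or.inl h)
  obtain ⟨s, hs⟩ := (ZMod.exists_sq_eq_neg_one_iff (p := p)).2 (by omega)
  obtain ⟨Q₁, -⟩ := exists_place_quad (d := -2) Q₀ (δ := r)
    (by rw [sq, ← hr]; exact (sp_ofNat 2).neg) (fun e => h2 (by simpa [e] using hr)) h2
  let Q₁' : Place K2 (ZMod p) := Q₁
  obtain ⟨Q₂, -⟩ := exists_place_quad (d := -1) Q₁' (δ := s)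
    (by rw [sq, ← hs]; exact sp_one.neg) (fun e => by simp [e] at hs) h2
  exact ⟨Q₂⟩

/-- **curve + link** -/
theorem lkStmt : LDef.LkStmt :=
  lkStmt_of (K := K2) (F := F8) (algebraMap K2 (QuadraticAlgebra K2 (-1) 0))
    (ι := (QuadraticAlgebra.omega : QuadraticAlgebra K2 (-1) 0))
    ((sq _).trans (show (QuadraticAlgebra.omega : QuadraticAlgebra K2 (-1) 0) *
      (QuadraticAlgebra.omega : QuadraticAlgebra K2 (-1) 0) = -1 by
      ext <;> simp [QuadraticAlgebra.re_one, QuadraticAlgebra.im_one])) tau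
    (show tau QuadraticAlgebra.omega = QuadraticAlgebra.omega by ext <;> simp [tau])
    (show tau (algebraMap K2 _ (algebraMap R2 K2 ρ2)) = -algebraMap K2 _ (algebraMap R2 K2 ρ2) by
      have : cjK (algebraMap R2 K2 ρ2) = -algebraMap R2 K2 ρ2 :=
        show star (inc ρ2) = -inc ρ2 by ext <;> simp [inc, ρ2]
      ext <;> simp [tau, this]) place_F8

end Crest.Agent.T15.Lk
end

-- ▼ part T15/Fin_15
section

/-!
# Row 15, block L: `K` disjoint systems give multiplication (helper15)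
-/

set_option autoImplicit false

namespace Crest.Agent.T15.Fin

open Val LDef Height

/-- two numbers have no common prime of odd valuation -/
theorem exists_dj (hQ : Top.QStmt) : ∃ Dj : ℚ → ℚ → Prop, (Dio fun q : ℚ × ℚ => Dj q.1 q.2) ∧
    (∀ w w', Dj w w' → ∀ p : ℕ, p.Prime → Odd (padicValRat p w) → ¬ Odd (padicValRat p w')) ∧
    ∀ l l' : ℕ, Vis l → Vis l' → l ≠ l' → Dj l l' := by
  obtain ⟨J, dJ, sJ, cJ⟩ := hQ
  refine ⟨fun w w' => ∃ j, J (w, j) ∧ J (w', 1 - j), .ex (.and (dJ.comp (by fun_prop))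
    (dJ.comp (by fun_prop))), fun w w' ⟨j, h1, h2⟩ p hp o1 o2 => not_pz_one (p := p) ?_,
    fun l l' ⟨hl, h8, _⟩ ⟨hl', h8', _⟩ h => ?_⟩
  · simpa using Pz.add hp (sJ _ _ h1 p hp o1) (sJ _ _ h2 p hp o2)
  · obtain ⟨u, v, huv⟩ := Nat.isCoprime_iff_coprime.2 ((Nat.coprime_primes hl hl').2 h)
    refine ⟨(u * l : ℤ), cJ l hl (h8.of_dvd (by decide : 8 ∣ 24)) _ ((Top.inJ_prime hl _).2 ((pz_int hl).2 (dvd_mul_left _ _))),
      cJ l' hl' (h8'.of_dvd (by decide : 8 ∣ 24)) _ ((Top.inJ_prime hl' _).2 ?_)⟩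
    have : (1 : ℚ) - (u * l : ℤ) = (v * l' : ℤ) := by rw [sub_eq_iff_eq_add']; exact_mod_cast huv.symm
    exact this ▸ (pz_int hl').2 (dvd_mul_left _ _)

variable {V : Type} [AddCommGroup V] [Module ℚ V] {n : ℕ} (M : Model V n)

/-- `z = x y` modulo the primes of `w` -/
def Link (w : ℚ) (x y z : V) : Prop :=
  ∃ r : ℚ × ℚ, M.Read w x r.1 ∧ M.Read w y r.2 ∧ M.Read w z (r.1 * r.2)

theorem dio_link : Dio fun q : ℚ × V × V × V => Link M q.1 q.2.1 q.2.2.1 q.2.2.2 :=
  .ex (.and (M.dR.comp (g := fun q : (ℚ × V × V × V) × ℚ × ℚ => (q.1.1, q.1.2.1, q.2.1)) (by fun_prop))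
    (.and (M.dR.comp (g := fun q : (ℚ × V × V × V) × ℚ × ℚ => (q.1.1, q.1.2.2.1, q.2.2)) (by fun_prop))
      (M.dR.comp (g := fun q : (ℚ × V × V × V) × ℚ × ℚ => (q.1.1, q.1.2.2.2, q.2.1 * q.2.2))
        (by fun_prop))))

theorem link_sound {w : ℚ} {a b c : ℤ} (h : Link M w (M.rep a) (M.rep b) (M.rep c)) {p : ℕ}
    (hp : p.Prime) (hB : M.B0 < p) (ho : Odd (padicValRat p w)) : (p : ℤ) ∣ a * b - c := by
  obtain ⟨⟨x, y⟩, h1, h2, h3⟩ := h
  have h1 := M.sound _ _ _ h1 p hp hB ho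
  have h2 := M.sound _ _ _ h2 p hp hB ho
  have h3 := M.sound _ _ _ h3 p hp hB ho
  have := ((h3.sub hp (h1.mul hp h2)).sub hp (h1.mul_int hp b)).sub hp (h2.mul_int hp a)
  refine (pz_int hp).1 (cast (congrArg _ ?_) this)
  push_cast
  ring

theorem link_complete {p : ℕ} (hp : Vis p) (hB : M.B0 < p) (a b : ℤ) :
    Link M p (M.rep a) (M.rep b) (M.rep (a * b)) :=
  ⟨(a, b), M.complete p hp hB a, M.complete p hp hB b, by simpa using M.complete p hp hB (a * b)⟩

theorem final_ineq {X P C D : ℝ} {K k : ℕ} (hk : 0 < k) (hK : K = 2 * k) (hD : 0 < D) (hP : 0 ≤ P)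
    (hX : 1 ≤ X) (hC : 0 ≤ C) (h1 : X ^ K ≤ D ^ K * P ^ k) (h2 : P ≤ C * (1 + X)) :
    X ≤ 2 * C * D ^ 2 := by
  rw [hK, pow_mul, pow_mul, ← mul_pow] at h1
  have h3 := le_of_pow_le_pow_left₀ hk.ne' (by positivity) h1
  have h4 : X * X ≤ 2 * C * D ^ 2 * X := by
    have : P ≤ 2 * C * X := by nlinarith
    nlinarith [mul_le_mul_of_nonneg_left this (sq_nonneg D)]
  exact le_of_mul_le_mul_right h4 (by linarith)

include M in
theorem goal_of [Module.Finite ℚ V] (hQ : Top.QStmt) (hS : SzStmt) : Top.Goal := by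
  classical
  obtain ⟨Dj, dD, sD, cD⟩ := exists_dj hQ
  obtain ⟨m, Sz, C1, k0, dS, sS, cS⟩ := hS
  -- constants
  let k := k0 + 1
  let N0 : ℝ := ∏ p ∈ Finset.Icc 1 M.B0, (p : ℝ)
  have hN0 : 1 ≤ N0 := Finset.one_le_prod fun p hp => by exact_mod_cast (Finset.mem_Icc.1 hp).1
  let Λ := Option (Fin 3 × Fin n)
  let D : ℝ := Fintype.card Λ * ((|C1| + 1) * N0 ^ k0)
  have hD : 0 < D := mul_pos (by exact_mod_cast Fintype.card_pos) (by positivity)
  obtain ⟨r0, hr0⟩ : ∃ r0 : ℚ, max 1 (2 * (3 * |M.C|) * D ^ 2) < logHeight₁ r0 := by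
    by_contra h
    push Not at h
    exact Set.infinite_univ ((NumberField.finite_setOfPred_logHeight₁_le (K := ℚ) _).subset
      fun x _ => h x)
  let r : V × V × V → Λ → ℚ := fun q l =>
    l.elim r0 fun t => M.co t.2 (![q.1, q.2.1, q.2.2] t.1)
  have pr : ∀ l, PolM fun q => r q l := by
    rintro (_ | ⟨t, i⟩)
    · exact .const r0
    · refine (M.pco i).comp ?_
      fin_cases t <;> simp <;> fun_prop
  let Pt : V → Prop := fun v => ∃ a, M.rep a = v
  let Mul : V → V → V → Prop := fun x y z => Pt x ∧ Pt y ∧ Pt z ∧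
    ∃ W : Fin (2 * k) → Λ → Fin m → ℚ, (∀ s l, Sz (r (x, y, z) l) (W s l)) ∧
      (∀ s l j, Link M (W s l j) x y z) ∧ ∀ s s' l l' j j', s ≠ s' → Dj (W s l j) (W s' l' j')
  have hr : ∀ a, Function.invFun M.rep (M.rep a) = a := Function.leftInverse_invFun M.inj
  refine Top0.s0020_of_model (Function.invFun M.rep) M.rep hr
    (fun x y z => Pt x ∧ Pt y ∧ M.Add x y z) Mul
    (.and (M.dPt.comp (by fun_prop)) (.and (M.dPt.comp (by fun_prop)) M.dA))
    (.and (M.dPt.comp (by fun_prop)) (.and (M.dPt.comp (by fun_prop)) (.and (M.dPt.comp (by fun_prop))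
      (.ex (.and (.forall_fin fun s => .forall_fin fun l => ?_)
        (.and (.forall_fin fun s => .forall_fin fun l => .forall_fin fun j => ?_)
          (.forall_fin fun s => .forall_fin fun s' => .forall_fin fun l => .forall_fin fun l' =>
            .forall_fin fun j => .forall_fin fun j' => ?_))))))) ?_ ?_
    (fun a b => ⟨⟨_, rfl⟩, ⟨_, rfl⟩, (M.add_iff _ _ _).2 rfl⟩)
    fun a b => ⟨⟨_, rfl⟩, ⟨_, rfl⟩, ⟨_, rfl⟩, ?_⟩
  · exact dS.comp (g := fun q : (V × V × V) × (Fin (2 * k) → Λ → Fin m → ℚ) => (r q.1 l, q.2 s l))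
      (.prodMk ((pr l).comp (by fun_prop)) (by fun_prop))
  · exact (dio_link M).comp
      (g := fun q : (V × V × V) × (Fin (2 * k) → Λ → Fin m → ℚ) => (q.2 s l j, q.1)) (by fun_prop)
  · by_cases h : s = s'
    · exact Dio.true.congr fun _ => by simp [h]
    · exact (dD.comp (g := fun q : (V × V × V) × (Fin (2 * k) → Λ → Fin m → ℚ) =>
        (q.2 s l j, q.2 s' l' j')) (by fun_prop)).congr fun _ => by simp [h]
  · rintro _ _ z ⟨⟨a, rfl⟩, ⟨b, rfl⟩, h⟩
    rw [(M.add_iff _ _ _).1 h, hr, hr, hr]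
  · rintro _ _ _ ⟨⟨a, rfl⟩, ⟨b, rfl⟩, ⟨c, rfl⟩, W, h1, h2, h3⟩
    rw [hr, hr, hr]
    by_contra hne
    have fin : ∀ s, {p : ℕ | p.Prime ∧ M.B0 < p ∧ ∃ l j, Odd (padicValRat p (W s l j))}.Finite :=
      fun s => (Set.finite_iUnion fun l => Set.finite_iUnion fun j => finite_odd (W s l j)).subset
        fun p ⟨hp, _, l, j, h⟩ => Set.mem_iUnion₂.2 ⟨l, j, hp, h⟩
    let S : Fin (2 * k) → Finset ℕ := fun s => (fin s).toFinset
    have hS : ∀ s p, p ∈ S s ↔ p.Prime ∧ M.B0 < p ∧ ∃ l j, Odd (padicValRat p (W s l j)) :=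
      fun s p => Set.Finite.mem_toFinset _
    let R : Fin (2 * k) → ℝ := fun s => ∏ p ∈ S s, (p : ℝ)
    have hR : ∀ s, 1 ≤ R s := fun s => Finset.one_le_prod fun p hp => by
      exact_mod_cast ((hS s p).1 hp).1.one_le
    let X : ℝ := ∑ l, logHeight₁ (r (M.rep a, M.rep b, M.rep c) l)
    have hX0 : logHeight₁ r0 ≤ X :=
      Finset.single_le_sum (f := fun l => logHeight₁ (r (M.rep a, M.rep b, M.rep c) l))
        (fun _ _ => zero_le_logHeight₁ _) (Finset.mem_univ none)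
    have hXR : ∀ s, X ≤ D * R s ^ k := fun s => by
      refine (Finset.sum_le_card_nsmul _ _ ((|C1| + 1) * N0 ^ k0 * R s ^ k) fun l _ => ?_).trans_eq
        (by rw [nsmul_eq_mul, ← mul_assoc]; rfl)
      let S0 := (Finset.Icc 1 M.B0).filter Nat.Prime
      refine (sS _ _ (h1 s l) (S0 ∪ S s) (fun p hp => ?_) fun p hp j ho => ?_).trans ?_
      · exact (Finset.mem_union.1 hp).elim (fun h => (Finset.mem_filter.1 h).2) fun h => ((hS s p).1 h).1
      · by_cases h : M.B0 < p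
        · exact Finset.mem_union_right _ ((hS s p).2 ⟨hp, h, l, j, ho⟩)
        · exact Finset.mem_union_left _ (Finset.mem_filter.2 ⟨Finset.mem_Icc.2 ⟨hp.one_le, not_lt.1 h⟩, hp⟩)
      · have e1 : ∏ p ∈ S0 ∪ S s, (p : ℝ) ≤ N0 * R s := by
          rw [Finset.prod_union (Finset.disjoint_left.2 fun p h h' =>
            (Finset.mem_Icc.1 (Finset.mem_filter.1 h).1).2.not_gt ((hS s p).1 h').2.1)]
          refine mul_le_mul_of_nonneg_right (Finset.prod_le_prod_of_subset_of_one_le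
            (Finset.filter_subset _ _) (fun _ _ => Nat.cast_nonneg _) fun p hp _ => ?_) (by linarith [hR s])
          exact_mod_cast (Finset.mem_Icc.1 hp).1
        have e2 := hR s
        calc _ ≤ (|C1| + 1) * (N0 * R s) ^ k0 := by
              gcongr
              linarith [le_abs_self C1]
          _ ≤ _ := by
              rw [mul_pow, ← mul_assoc]
              gcongr
              exact Nat.le_succ _
    have hdvd : (∏ s, ∏ p ∈ S s, (p : ℤ)) ∣ a * b - c := by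
      rw [← Finset.prod_biUnion fun s _ s' _ hss' => Finset.disjoint_left.2 fun p hp hp' => by
        obtain ⟨hp, -, l, j, ho⟩ := (hS s p).1 hp
        obtain ⟨-, -, l', j', ho'⟩ := (hS s' p).1 hp'
        exact sD _ _ (h3 s s' l l' j j' hss') p hp ho ho']
      refine Finset.prod_dvd_of_coprime (fun p hp p' hp' h => ?_) fun p hp => ?_
      · obtain ⟨s, -, hs⟩ := Finset.mem_biUnion.1 (Finset.mem_coe.1 hp)
        obtain ⟨s', -, hs'⟩ := Finset.mem_biUnion.1 (Finset.mem_coe.1 hp')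
        exact Nat.isCoprime_iff_coprime.2 ((Nat.coprime_primes ((hS _ _).1 hs).1 ((hS _ _).1 hs').1).2 h)
      · obtain ⟨s, -, hs⟩ := Finset.mem_biUnion.1 hp
        obtain ⟨hp, hB, l, j, ho⟩ := (hS s p).1 hs
        exact link_sound M (h2 s l j) hp hB ho
    have hP : ∏ s, R s ≤ 3 * |M.C| * (1 + X) := by
      have e1 : ∏ s, R s ≤ |(a : ℝ) * b - c| := by
        have := Int.le_of_dvd (abs_pos.2 (sub_ne_zero.2 (Ne.symm hne))) ((dvd_abs _ _).2 hdvd)
        have := (Int.cast_le (R := ℝ)).2 this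
        push_cast at this
        exact this
      have e2 : ∀ (t : Fin 3) (x : ℤ), ![M.rep a, M.rep b, M.rep c] t = M.rep x →
          (x : ℝ) ^ 2 ≤ |M.C| * (1 + X) := fun t x hx => by
        have e3 : ∑ i, logHeight₁ (M.co i (M.rep x)) ≤ X := by
          simp only [X, Λ, Fintype.sum_option, Fintype.sum_prod_type, r, Option.elim, ← hx]
          exact le_add_of_nonneg_of_le (zero_le_logHeight₁ _) (Finset.single_le_sum
            (f := fun t => ∑ i, logHeight₁ (M.co i (![M.rep a, M.rep b, M.rep c] t)))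
            (fun _ _ => Finset.sum_nonneg fun _ _ => zero_le_logHeight₁ _) (Finset.mem_univ t))
        have e4 : 0 ≤ ∑ i, logHeight₁ (M.co i (M.rep x)) :=
          Finset.sum_nonneg fun _ _ => zero_le_logHeight₁ _
        refine (M.ht x).trans ?_
        gcongr
        exact le_abs_self _
      have e5 : |(c : ℝ)| ≤ (c : ℝ) ^ 2 := by
        have : |c| ≤ c ^ 2 := by nlinarith [abs_mul_abs_self c, Int.le_self_sq |c|]
        exact_mod_cast this
      have := e2 0 a rfl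
      have := e2 1 b rfl
      have := e2 2 c rfl
      refine e1.trans (abs_le.2 ⟨?_, ?_⟩)
      · nlinarith [sq_nonneg ((a : ℝ) + b), le_abs_self (c : ℝ), sq_nonneg (a : ℝ), sq_nonneg (b : ℝ)]
      · nlinarith [sq_nonneg ((a : ℝ) - b), neg_abs_le (c : ℝ), sq_nonneg (a : ℝ), sq_nonneg (b : ℝ)]
    have hX1 : 1 ≤ X := ((le_max_left _ _).trans hr0.le).trans hX0
    refine (((le_max_right _ _).trans_lt hr0).trans_le hX0).not_ge (final_ineq (Nat.succ_pos k0) rfl hD
      (Finset.prod_nonneg fun s _ => by linarith [hR s]) hX1 (by positivity) ?_ hP)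
    have := Finset.prod_le_prod (s := Finset.univ) (fun s _ => by linarith : ∀ s ∈ _, 0 ≤ X)
      fun s _ => hXR s
    rwa [Finset.prod_const, Finset.prod_mul_distrib, Finset.prod_const, Finset.prod_pow,
      Finset.card_fin] at this
  · choose f hf1 hf2 using fun (B : ℕ) l => cS (r (M.rep a, M.rep b, M.rep (a * b)) l) B
    let B : ℕ → ℕ := fun s => Nat.rec M.B0
      (fun _ x => max x (Finset.univ.sup fun q : Λ × Fin m => f x q.1 q.2)) s
    have hB : Monotone B := monotone_nat_of_le_succ fun s => le_max_left _ _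
    have hlt : ∀ s s' l l' j j', s < s' → f (B s) l j < f (B s') l' j' := fun s s' l l' j j' h =>
      lt_of_le_of_lt ((le_max_of_le_right (Finset.le_sup (f := fun q : Λ × Fin m => f (B s) q.1 q.2)
        (Finset.mem_univ (l, j)))).trans (hB (show s + 1 ≤ s' from h))) (hf1 _ l' j').2
    refine ⟨fun s l j => f (B s) l j, fun s l => hf2 _ l, fun s l j => link_complete M (hf1 _ l j).1
      (lt_of_le_of_lt (hB (Nat.zero_le s)) (hf1 _ l j).2) a b, fun s s' l l' j j' h =>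
      cD _ _ (hf1 _ l j).1 (hf1 _ l' j').1 ?_⟩
    rcases lt_or_gt_of_ne (Fin.val_ne_of_ne h) with h | h
    · exact (hlt _ _ _ _ _ _ h).ne
    · exact (hlt _ _ _ _ _ _ h).ne'

/-- block L from its two halves -/
theorem lglue_of (hS : Top.QStmt → Top.HStmt → SzStmt) (hL : LkStmt) : Top.LGlue := fun hQ hH => by
  obtain ⟨V, _, _, _, n, ⟨M⟩⟩ := hL hQ
  exact goal_of M hQ (hS hQ hH)

end Crest.Agent.T15.Fin
end

-- ▼ part T15/Cert_15

/-!
# Row 15, block L: the size certificate from Q, H and long progressions of primes (helper15)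
-/

set_option autoImplicit false

namespace Crest.Agent.T15.Cert

open Val LDef Height _root_.Crest.Agent.T15.Top

theorem vis_ap (H : PrAP.APStmt) {M : ℕ} (hM : 0 < M) (h24 : 24 ∣ M) (h17 : ¬ 17 ∣ M) (k B : ℕ) :
    ∃ x d : ℕ, 0 < d ∧ B < x ∧ ∀ i < k, Vis (x + i * d) ∧ x + i * d ≡ 1 [MOD M] := by
  have hc : M.Coprime 17 := ((Nat.Prime.coprime_iff_not_dvd (by norm_num)).2 h17).symm
  obtain ⟨t, h1, h2⟩ := Nat.chineseRemainder hc 1 3
  have : NeZero (M * 17) := ⟨by omega⟩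
  have hu : IsUnit (t : ZMod (M * 17)) := (ZMod.isUnit_iff_coprime _ _).2 (Nat.Coprime.mul_right
    (by rw [Nat.Coprime, h1.gcd_eq, Nat.gcd_one_left]) (by rw [Nat.Coprime, h2.gcd_eq]; norm_num))
  obtain ⟨x, d, hd, hx, h⟩ := PrAP.prime_ap H hu k B
  refine ⟨x, d, hd, hx, fun i hi => ?_⟩
  have h3 := (ZMod.natCast_eq_natCast_iff _ _ _).1 (h i hi).2
  have h4 := (h3.of_mul_right 17).trans h1
  exact ⟨⟨(h i hi).1, h4.of_dvd h24, (h3.of_mul_left M).trans h2⟩, h4⟩

variable (D : Nb) (J : ℚ × ℚ → Prop)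

theorem fm_add (j : Fin D.m) (b t : ℚ) : D.fm j (b + t) = D.fm j b + D.c j * t := by
  simp only [Nb.fm]; ring

theorem polM_fm (j : Fin D.m) : PolM (D.fm j) := by unfold Nb.fm; fun_prop

/-- the certificate for one point `y` -/
def Cy (y : ℚ) (w : Fin (D.m + 1) → ℚ) : Prop :=
  (D.b - D.δ < y ∧ y < D.b + D.δ) ∧
  (∀ p ∈ D.M.primeFactors, y - D.b = 0 ∨ (padicValNat p D.M : ℤ) ≤ padicValRat p (y - D.b)) ∧
  w (Fin.last _) ≠ 0 ∧ (∀ j : Fin D.m, D.fm j y * w (Fin.last _) = D.fm j D.b * w j.castSucc) ∧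
  ∀ j, ∃ z : ℚ, J (w j, Polynomial.aeval z (Polynomial.cyclotomic D.M ℤ))

variable {J}

theorem dio_cy (dJ : Dio J) : Dio fun q : ℚ × (Fin (D.m + 1) → ℚ) => Cy D J q.1 q.2 :=
  .and (.and (.lt (by fun_prop) (by fun_prop)) (.lt (by fun_prop) (by fun_prop)))
    (.and (.forall_mem _ fun p hp => (Zl.dio_le_val (Nat.prime_of_mem_primeFactors hp) _).comp
      (g := fun q : ℚ × (Fin (D.m + 1) → ℚ) => q.1 - D.b) (by fun_prop))
    (.and (.ne_zero (by fun_prop)) (.and
      (.forall_fin fun j => .eq (.mul ((polM_fm D j).comp (by fun_prop)) (by fun_prop)) (by fun_prop))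
      (.forall_fin fun j => .ex (dJ.comp (.prodMk (by fun_prop) (.aeval_poly _ (by fun_prop))))))))

theorem cy_side (sJ : ∀ w y, J (w, y) → InJ w y) {y : ℚ} {w : Fin (D.m + 1) → ℚ} (h : Cy D J y w)
    {S : Finset ℕ} (hS : ∀ p ∈ S, p.Prime)
    (hS' : ∀ p : ℕ, p.Prime → ∀ j, Odd (padicValRat p (w j)) → p ∈ S) :
    Side D y (S.filter fun p => p ≡ 1 [MOD D.M]) := by
  obtain ⟨⟨h1, h2⟩, h3, h4, h5, h6⟩ := h
  refine ⟨abs_lt.2 ⟨by linarith, by linarith⟩, fun p hp hd => (h3 p (Nat.mem_primeFactors.2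
    ⟨hp, hd, D.hM.ne'⟩)).imp_left sub_eq_zero.1, fun p hp => hS p (Finset.mem_filter.1 hp).1,
    fun p hp => (Finset.mem_filter.1 hp).2, fun p hp hd hn j => ?_⟩
  have := Fact.mk hp
  have he : ∀ i, Even (padicValRat p (w i)) := fun i => Int.not_odd_iff_even.1 fun ho => by
    obtain ⟨z, hz⟩ := h6 i
    exact hn (Finset.mem_filter.2 ⟨hS' p hp i ho, modEq_of_cyc hp D.hM hd (sJ _ _ hz p hp ho)⟩)
  by_cases h0 : D.fm j y = 0
  · simp [h0]
  have h7 : w j.castSucc ≠ 0 := fun h => mul_ne_zero h0 h4 (by rw [h5, h, mul_zero])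
  have h8 := congrArg (padicValRat p) (h5 j)
  rw [padicValRat.mul h0 h4, padicValRat.mul (q := D.fm j D.b) (D.ne j) h7,
    show padicValRat p (D.fm j D.b) = 0 from D.unit p hp hd j, zero_add] at h8
  rw [eq_sub_of_add_eq h8]
  exact (he _).sub (he _)

theorem exists_mult : ∃ (N0 : ℕ) (n : Fin D.m → ℤ), 0 < N0 ∧
    ∀ j, (n j : ℚ) * D.fm j D.b = D.c j * (D.M * N0) := by
  have : ∀ j : Fin D.m, ∃ n : ℤ, (n : ℚ) * D.fm j D.b = D.c j * (D.M * (∏ i, (D.fm i D.b)⁻¹.den : ℕ)) := by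
    intro j
    obtain ⟨t, ht⟩ := Finset.dvd_prod_of_mem (fun i => (D.fm i D.b)⁻¹.den) (Finset.mem_univ j)
    refine ⟨D.c j * D.M * t * (D.fm j D.b)⁻¹.num, ?_⟩
    have : D.fm j D.b ≠ 0 := D.ne j
    rw [ht]
    push_cast
    rw [← Rat.mul_den_eq_num]
    field_simp
  choose n hn using this
  exact ⟨_, n, Finset.prod_pos fun _ _ => Rat.den_pos _, hn⟩

theorem cy_complete (cJ : ∀ l : ℕ, l.Prime → l % 8 = 1 → ∀ y, InJ l y → J ((l : ℚ), y)) {N0 : ℕ} {n : Fin D.m → ℤ}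
    (hn : ∀ j, (n j : ℚ) * D.fm j D.b = D.c j * (D.M * N0)) {x d m : ℕ} (hx : 0 < x)
    (h : ∀ i < 2 * m + 1, Vis (x + i * d) ∧ x + i * d ≡ 1 [MOD D.M]) {a : ℤ}
    (h1 : (|a| : ℚ) * (D.M * N0) < D.δ * m) (h2 : ∀ j, |a * n j| ≤ m) :
    ∃ w : Fin (D.m + 1) → ℕ, (∀ j, Vis (w j) ∧ x ≤ w j) ∧
      Cy D J (D.b + a * (D.M * N0 * d / (x + m * d : ℕ))) fun j => w j := by
  let i : Fin (D.m + 1) → ℕ := Fin.snoc (α := fun _ => ℕ) (fun j => (m + a * n j).toNat) m
  have i4 : i (Fin.last _) = m := by simp [i]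
  have ij : ∀ j : Fin D.m, (i j.castSucc : ℤ) = m + a * n j := fun j => by
    simp only [i, Fin.snoc_castSucc]
    exact Int.toNat_of_nonneg (by linarith [neg_abs_le (a * n j), h2 j])
  have hi : ∀ j, i j < 2 * m + 1 := fun j => by
    refine Fin.lastCases (by omega) (fun j => ?_) j
    have := ij j
    have := (le_abs_self _).trans (h2 j)
    omega
  set A := x + m * d with hA
  have hA0 : (0 : ℚ) < A := by exact_mod_cast (by omega : 0 < A)
  have hAp := h m (by omega)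
  have hr : |a * (D.M * N0 * d / A : ℚ)| < D.δ := by
    rw [abs_mul, abs_of_nonneg (a := (_ / _ : ℚ)) (by positivity), ← mul_div_assoc, div_lt_iff₀ hA0, hA,
      ← mul_assoc]
    have := mul_le_mul_of_nonneg_right h1.le (Nat.cast_nonneg (α := ℚ) d)
    have := mul_pos D.hδ (Nat.cast_pos.2 hx)
    push_cast
    nlinarith
  refine ⟨fun j => x + i j * d, fun j => ⟨(h _ (hi j)).1, Nat.le_add_right _ _⟩,
    ⟨by linarith [(abs_lt.1 hr).1], by linarith [(abs_lt.1 hr).2]⟩, fun p hp => ?_, by simpa only [i4] using hA0.ne',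
    fun j => ?_, fun j => ?_⟩
  · obtain ⟨hp, hd, -⟩ := Nat.mem_primeFactors.1 hp
    have := Fact.mk hp
    have := Fact.mk hAp.1.1
    have e : D.b + a * (D.M * N0 * d / A : ℚ) - D.b = D.M * ((a * N0 * d : ℤ) : ℚ) / A := by
      push_cast; ring
    rw [e]
    refine or_iff_not_imp_left.2 fun h0 => ?_
    have h3 := left_ne_zero_of_mul (div_eq_mul_inv _ (A : ℚ) ▸ h0)
    have h4 : p ≠ A := fun e => hp.one_lt.ne' (Nat.dvd_one.1
      (((hAp.2.of_dvd hd).dvd_iff dvd_rfl).1 (e ▸ dvd_rfl)))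
    rw [padicValRat.div h3 hA0.ne', padicValRat.mul (left_ne_zero_of_mul h3) (right_ne_zero_of_mul h3),
      padicValRat.of_nat, padicValRat.of_nat, padicValRat.of_int, padicValNat_primes h4]
    omega
  · have e : ((x + i j.castSucc * d : ℕ) : ℚ) = A + a * n j * d := by
      have : ((x + i j.castSucc * d : ℕ) : ℤ) = A + a * n j * d := by
        rw [hA]; push_cast; rw [ij]; ring
      exact_mod_cast this
    simp only [i4, ← hA]
    rw [e, fm_add]
    field_simp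
    linear_combination -(a * d) * hn j
  · obtain ⟨z, hz⟩ := exists_cyc (h _ (hi j)).1.1 D.hM (h _ (hi j)).2
    exact ⟨z, cJ _ (h _ (hi j)).1.1 ((h _ (hi j)).1.2.1.of_dvd (by decide : 8 ∣ 24)) _ ((inJ_prime (h _ (hi j)).1.1 _).2 hz)⟩

theorem szStmt_of (H : PrAP.APStmt) (hQ : QStmt) (hH : HStmt) : SzStmt := by
  obtain ⟨J, dJ, sJ, cJ⟩ := hQ
  obtain ⟨D, C, k, hH⟩ := hH
  let c : ℝ := totalWeight ℚ * Real.log 2 + logHeight₁ D.b
  have hc : 0 ≤ c := by have := Real.log_nonneg one_le_two; positivity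
  refine ⟨(D.m + 1) + (D.m + 1), fun r w => ∃ y : ℚ × ℚ, (Cy D J y.1 fun j => w (Fin.castAdd _ j)) ∧
    (Cy D J y.2 fun j => w (Fin.natAdd _ j)) ∧ y.2 - D.b ≠ 0 ∧ r * (y.2 - D.b) = y.1 - D.b,
    2 * (c + |C|), k, .ex (.and ((dio_cy D dJ).comp
      (g := fun q : (ℚ × (Fin ((D.m + 1) + (D.m + 1)) → ℚ)) × ℚ × ℚ => (q.2.1, fun j => q.1.2 (Fin.castAdd _ j)))
      (by fun_prop)) (.and ((dio_cy D dJ).comp
      (g := fun q : (ℚ × (Fin ((D.m + 1) + (D.m + 1)) → ℚ)) × ℚ × ℚ => (q.2.2, fun j => q.1.2 (Fin.natAdd _ j)))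
      (by fun_prop)) (.and (.ne_zero (by fun_prop)) (.eq (by fun_prop) (by fun_prop))))), ?_, ?_⟩
  · rintro r w ⟨⟨y1, y2⟩, h1, h2, h3, h4⟩ S hS hS'
    have hP : 1 ≤ ∏ p ∈ S, (p : ℝ) := Finset.one_le_prod fun p hp => by exact_mod_cast (hS p hp).one_le
    have key : ∀ y (u : Fin (D.m + 1) → ℚ), Cy D J y u →
        (∀ p : ℕ, p.Prime → ∀ j, Odd (padicValRat p (u j)) → p ∈ S) →
        logHeight₁ (y - D.b) ≤ (c + |C|) * (∏ p ∈ S, (p : ℝ)) ^ k := fun y u hy hu => by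
      have e1 : logHeight₁ y ≤ |C| * (∏ p ∈ S, (p : ℝ)) ^ k := by
        refine (hH _ _ (cy_side D sJ hy hS hu)).trans ?_
        gcongr
        · exact le_abs_self C
        · exact fun p hp _ => by exact_mod_cast (hS p hp).one_le
        · exact Finset.filter_subset _ _
      have e2 := logHeight₁_sub_le y D.b
      have e3 := le_mul_of_one_le_right hc (one_le_pow₀ (n := k) hP)
      simp only [c] at e3 ⊢
      linarith
    have e1 := key _ _ h1 fun p hp j => hS' p hp _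
    have e2 := key _ _ h2 fun p hp j => hS' p hp _
    have e3 := logHeight₁_mul_le (y1 - D.b) (y2 - D.b)⁻¹
    rw [logHeight₁_inv, ← div_eq_mul_inv, ← eq_div_of_mul_eq h3 h4] at e3
    linarith
  · intro r B
    obtain ⟨N0, n, hN, hn⟩ := exists_mult D
    let T : ℤ := |r.num| + r.den
    obtain ⟨m, hm⟩ := exists_nat_gt (max ((T : ℚ) * (D.M * N0) / D.δ) ((T * ∑ j, |n j| : ℤ) : ℚ))
    obtain ⟨x, d, hd, hx, h⟩ := vis_ap H D.hM D.h24 D.h17 (2 * m + 1) B
    have key : ∀ a : ℤ, |a| ≤ T → ∃ w : Fin (D.m + 1) → ℕ, (∀ j, Vis (w j) ∧ x ≤ w j) ∧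
        Cy D J (D.b + a * (D.M * N0 * d / (x + m * d : ℕ))) fun j => w j := fun a ha => by
      refine cy_complete D cJ hn (by omega) h ?_ fun j => ?_
      · have := (div_lt_iff₀' D.hδ).1 ((le_max_left _ _).trans_lt hm)
        refine lt_of_le_of_lt ?_ this
        gcongr
        exact_mod_cast ha
      · have : T * ∑ j, |n j| < m := by exact_mod_cast (le_max_right _ _).trans_lt hm
        rw [abs_mul]
        exact (mul_le_mul ha (Finset.single_le_sum (fun i _ => abs_nonneg (n i)) (Finset.mem_univ j))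
          (abs_nonneg _) ((abs_nonneg _).trans ha)).trans this.le
    obtain ⟨w1, a1, b1⟩ := key r.num (by simp [T])
    obtain ⟨w2, a2, b2⟩ := key r.den (by simp [T])
    refine ⟨Fin.append w1 w2, fun j => ?_, (_, _), by simpa only [Fin.append_left] using b1,
      by simpa only [Fin.append_right] using b2, ?_, ?_⟩
    · refine Fin.addCases (fun j => ?_) (fun j => ?_) j
      · rw [Fin.append_left]; exact ⟨(a1 j).1, hx.trans_le (a1 j).2⟩
      · rw [Fin.append_right]; exact ⟨(a2 j).1, hx.trans_le (a2 j).2⟩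
    · have := D.hM
      have := r.den_pos
      have : 0 < x := by omega
      rw [add_sub_cancel_left]
      positivity
    · rw [add_sub_cancel_left, add_sub_cancel_left, ← mul_assoc, Int.cast_natCast,
        Rat.mul_den_eq_num]

/-- **block L**: only the curve and the link remain -/
theorem lglue_of (H : PrAP.APStmt) (hL : LkStmt) : LGlue := Fin.lglue_of (szStmt_of H) hL

end Crest.Agent.T15.Cert
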