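import Crest.Agent.T15.CmB_13
import Crest.Agent.T15.CmDef_13

-- ▼ part T15/CmD_33
section

/-!
# Row 15, block Q (helper33), (H3): an automorphism of `ℂ` fixing `√(-pq)` and the homothety class of
the lattice `ℤ[θ]` fixes `√p`

`∏_{u ∈ E[p]} ℘'(z + u) = K ℘'(p z)` (Liouville), `∏_{ω ∈ E[2]} ℘'(z + ω) = Δ`, so
`P = ∏_{u ∈ E[p] - 0} ℘'(u)` has `P⁴ p¹² = Δ^(p² - 1)`; `P = W²` with `W` an equivariant half product.
-/

set_option autoImplicit false
set_option linter.unusedSectionVars false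

open Filter Topology PeriodPair
open Crest.Agent.R007.WpId Crest.Agent.R023.Unif630

noncomputable section

namespace Crest.Agent.T15.CmD

open Cm

/-- the discriminant -/
def disc (S : Sm) : ℂ := g2 S ^ 3 - 27 * g3 S ^ 2

lemma analyticAt_dwp' {S : Sm} (h : IsLat S) {z : ℂ} (hz : z ∉ S) : AnalyticAt ℂ (dwp S) z := by
  obtain ⟨L, rfl⟩ := h
  exact analyticAt_dwp L hz

lemma dwp_pole {S : Sm} (h : IsLat S) : ∃ g : ℂ → ℂ, AnalyticAt ℂ g 0 ∧ g 0 = -2 ∧
    ∀ z, z ≠ 0 → dwp S z = g z / z ^ 3 := by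
  obtain ⟨L, rfl⟩ := h
  refine ⟨fun z => -2 + z ^ 3 * E' L z, analyticAt_const.add
    ((analyticAt_id.pow 3).mul (analyticAt_E' L)), by simp, fun z hz => ?_⟩
  rw [dwp_lat, dwp_eq L]
  field_simp

lemma dwp_ev {S : Sm} (h : IsLat S) (z : ℂ) : ∀ᶠ w in 𝓝[≠] z, w ∉ S ∧ dwp S w ≠ 0 := by
  obtain ⟨L, rfl⟩ := h
  exact dwp_ne_eventually z

lemma ddwp_ne {S : Sm} (h : IsLat S) {z : ℂ} (hz : z ∉ S) (h0 : dwp S z = 0) :
    6 * wp S z ^ 2 - g2 S / 2 ≠ 0 := by
  intro e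
  have e1 := h.dwp_sq hz
  rw [h0] at e1
  apply h.disc_ne
  have a : g2 S = 12 * wp S z ^ 2 := by linear_combination -2 * e
  have b : g3 S = 4 * wp S z ^ 3 - g2 S * wp S z := by linear_combination e1
  rw [b, a]; ring

/-- product formula for `℘'` along an isogeny of odd degree -/
theorem prod_dwp {ι : Type*} [Fintype ι] [DecidableEq ι] {S M : Sm} {t : ι → ℂ} (h : Reps S M t)
    (hS : IsLat S) (hM : IsLat M) {N : ℕ} (hN : Odd N) (hNM : ∀ z ∈ M, (N : ℂ) * z ∈ S) {i0 : ι}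
    (h0 : t i0 ∈ S) {z : ℂ} (hz : z ∉ M) :
    ∏ i, dwp S (z + t i) = (∏ i ∈ Finset.univ.erase i0, dwp S (t i)) * dwp M z := by
  set F : ℂ → ℂ := fun z => ∏ i, dwp S (z + t i) with hF
  have hnot : ∀ {z}, z ∉ M → ∀ i, z + t i ∉ S := fun {z} hz i hi =>
    hz (by simpa using M.sub_mem (h.le hi) (h.mem i))
  have hFa : ∀ {z}, z ∉ M → AnalyticAt ℂ F z := fun {z} hz =>
    Finset.analyticAt_fun_prod _ fun i _ => AnalyticAt.fun_comp (g := dwp S) (f := fun z => z + t i)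
      (analyticAt_dwp' hS (hnot hz i)) (analyticAt_id.add analyticAt_const)
  -- behaviour at the points of `M`
  have pole : ∀ w ∈ M, ∀ j, w + t j ∈ S → ∃ g : ℂ → ℂ, AnalyticAt ℂ g 0 ∧
      g 0 = ∏ i ∈ Finset.univ.erase j, dwp S (w + t i) ∧
      ∀ᶠ x in 𝓝[≠] (0 : ℂ), F (w + x) / dwp M (w + x) = g x := by
    intro w hw j hj
    obtain ⟨g1, a1, v1, e1⟩ := dwp_pole hS
    obtain ⟨g2, a2, v2, e2⟩ := dwp_pole hM
    have hne : ∀ i ∈ Finset.univ.erase j, w + t i ∉ S := fun i hi hs =>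
      Finset.ne_of_mem_erase hi (h.inj i j (by simpa using S.sub_mem hs hj))
    refine ⟨fun x => g1 x / g2 x * ∏ i ∈ Finset.univ.erase j, dwp S (w + x + t i), ?_, ?_, ?_⟩
    · refine (a1.fun_div a2 (by rw [v2]; norm_num)).fun_mul ?_
      refine Finset.analyticAt_fun_prod _ fun i hi => AnalyticAt.fun_comp (g := dwp S)
        (f := fun x => w + x + t i) (analyticAt_dwp' hS (by simpa using hne i hi)) ?_
      exact (analyticAt_const.add analyticAt_id).add analyticAt_const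
    · simp [v1, v2]
    · filter_upwards [self_mem_nhdsWithin] with x hx
      have hx0 : x ≠ 0 := hx
      simp only [hF]
      rw [← Finset.mul_prod_erase _ _ (Finset.mem_univ j),
        show w + x + t j = x + (w + t j) by ring, hS.dwp_add hj, add_comm w x, hM.dwp_add hw,
        e1 x hx0, e2 x hx0]
      by_cases hg : g2 x = 0
      · simp [hg]
      · field_simp
  obtain ⟨L, hL⟩ := id hS
  obtain ⟨c, hc⟩ := liouville L (fun z => F z / dwp M z) (by
    intro l z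
    have hl : (l : ℂ) ∈ S := hL ▸ l.2
    simp only [hF]
    rw [hM.dwp_add (h.le hl)]
    congr 1
    exact Finset.prod_congr rfl fun i _ => by
      rw [show z + l + t i = z + t i + l by ring, hS.dwp_add hl]) (by
    intro w
    by_cases hw : w ∈ M
    · obtain ⟨j, hj⟩ := h.surj (-w) (M.neg_mem hw)
      obtain ⟨g, a, -, e⟩ := pole w hw j (by
        have := S.neg_mem hj
        convert this using 1; ring)
      exact removable_of_origin _ w ⟨g, a, e⟩
    by_cases hd : dwp M w = 0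
    · have h2 : 2 * w ∈ M := (hM.dwp_eq_zero_iff hw).1 hd
      obtain ⟨k, rfl⟩ := hN
      obtain ⟨j, hj⟩ := h.surj ((k : ℂ) * (2 * w)) (by simpa using M.smul_mem (k : ℤ) h2)
      have hF0 : F w = 0 := by
        refine Finset.prod_eq_zero (Finset.mem_univ j) ((hS.dwp_eq_zero_iff (hnot hw j)).2 ?_)
        have := S.sub_mem (hNM _ h2) (S.add_mem hj hj)
        convert this using 1
        push_cast; ring
      obtain ⟨R1, a1, -, e1⟩ := taylor1 (hFa hw)
      obtain ⟨R2, a2, v2, e2⟩ := taylor1 (analyticAt_dwp' hM hw)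
      rw [(hM.hasDerivAt_dwp hw).deriv] at v2
      refine removable_of_origin _ w ⟨fun x => R1 x / R2 x,
        a1.fun_div a2 (v2 ▸ ddwp_ne hM hw hd), ?_⟩
      filter_upwards [self_mem_nhdsWithin] with x hx
      have hx0 : x ≠ 0 := hx
      rw [e1, e2, hF0, hd, zero_add, zero_add, mul_div_mul_left _ _ hx0]
    · exact ⟨_, (hFa hw).fun_div (analyticAt_dwp' hM hw) hd, EventuallyEq.rfl⟩)
  obtain ⟨g, a, v, e⟩ := pole 0 M.zero_mem i0 (by simpa using h0)
  simp only [zero_add] at v e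
  have c1 : c = g 0 := tendsto_nhds_unique
    (tendsto_const_nhds.congr' (by filter_upwards [hc 0, e] with x h1 h2 using h1.symm.trans h2))
    (a.continuousAt.tendsto.mono_left (nhdsWithin_le_nhds (s := {0}ᶜ)))
  rw [← v, ← c1]
  refine tendsto_nhds_unique ((hFa hz).continuousAt.tendsto.mono_left (nhdsWithin_le_nhds (s := {z}ᶜ)))
    ((((analyticAt_dwp' hM hz).continuousAt.tendsto.const_mul c).mono_left
      nhdsWithin_le_nhds).congr' ?_)
  filter_upwards [hc z, dwp_ev hM z] with x h1 h2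
  rw [← h1, div_mul_cancel₀ _ h2.2]

/-- translation of `℘'` by a point of order two -/
lemma dwp_half {S : Sm} (h : IsLat S) {z b : ℂ} (hz : 2 * z ∉ S) (hb : b ∉ S) (h2 : 2 * b ∈ S) :
    dwp S (z + b) * (wp S z - wp S b) ^ 2 = -(3 * wp S b ^ 2 - g2 S / 4) * dwp S z := by
  have hz' : z ∉ S := fun e => hz (by simpa [two_mul] using S.add_mem e e)
  have y0 : dwp S b = 0 := (h.dwp_eq_zero_iff hb).2 h2
  have s1 := h.dwp_sq hz'
  have s2 := h.dwp_sq hb
  rw [y0] at s2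
  obtain ⟨L, rfl⟩ := h
  have G : Gen L z b := ⟨hz', hb, fun e => hz (by
      have := L.lattice.sub_mem (L.lattice.add_mem e e) h2
      convert this using 1; ring), fun e => hz (by
      have := L.lattice.add_mem (L.lattice.add_mem e e) h2
      convert this using 1; ring)⟩
  have hne := G.ne
  simp only [wp_lat, dwp_lat, g2_lat, g3_lat] at *
  rw [dwp_add_formula G, wp_add_formula G, y0]
  field_simp
  linear_combination (-4 * ℘'[L] z) * s1 + 4 * ℘'[L] z * s2

/-- the product of the translates of `℘'` by the points of order two is the discriminant -/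
theorem exists_half {S : Sm} (h : IsLat S) : ∃ a b c : ℂ, 2 * a ∈ S ∧ 2 * b ∈ S ∧ 2 * c ∈ S ∧
    ∀ z, 2 * z ∉ S → dwp S z * dwp S (z + a) * dwp S (z + b) * dwp S (z + c) = disc S := by
  obtain ⟨L, hL⟩ := id h
  have n1 : L.ω₁ / 2 ∉ S := hL ▸ L.ω₁_div_two_notMem_lattice
  have n2 : L.ω₂ / 2 ∉ S := hL ▸ L.ω₂_div_two_notMem_lattice
  have n3 : (L.ω₁ + L.ω₂) / 2 ∉ S := hL ▸ half3_notMem L
  have w1 : L.ω₁ ∈ S := hL ▸ L.ω₁_mem_lattice
  have w2 : L.ω₂ ∈ S := hL ▸ L.ω₂_mem_lattice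
  have m1 : 2 * (L.ω₁ / 2) ∈ S := by convert w1 using 1; ring
  have m2 : 2 * (L.ω₂ / 2) ∈ S := by convert w2 using 1; ring
  have m3 : 2 * ((L.ω₁ + L.ω₂) / 2) ∈ S := by convert S.add_mem w1 w2 using 1; ring
  refine ⟨_, _, _, m1, m2, m3, fun z hz => ?_⟩
  have hz' : z ∉ S := fun e => hz (by simpa [two_mul] using S.add_mem e e)
  have d1 := dwp_half h hz n1 m1
  have d2 := dwp_half h hz n2 m2
  have d3 := dwp_half h hz n3 m3
  have r1 := h.dwp_sq n1
  have r2 := h.dwp_sq n2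
  have r3 := h.dwp_sq n3
  rw [(h.dwp_eq_zero_iff n1).2 m1] at r1
  rw [(h.dwp_eq_zero_iff n2).2 m2] at r2
  rw [(h.dwp_eq_zero_iff n3).2 m3] at r3
  have hab : wp S (L.ω₁ / 2) - wp S (L.ω₂ / 2) ≠ 0 := fun e => by
    rcases (h.wp_eq_iff n1 n2).1 (sub_eq_zero.1 e) with e | e
    · exact n3 (by convert S.add_mem e w2 using 1; ring)
    · exact n3 (by convert e using 1; ring)
  have hac : wp S (L.ω₁ / 2) - wp S ((L.ω₁ + L.ω₂) / 2) ≠ 0 := fun e => by
    rcases (h.wp_eq_iff n1 n3).1 (sub_eq_zero.1 e) with e | e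
    · exact n2 (by convert S.neg_mem e using 1; ring)
    · exact n2 (by convert S.sub_mem e w1 using 1; ring)
  have hbc : wp S (L.ω₂ / 2) - wp S ((L.ω₁ + L.ω₂) / 2) ≠ 0 := fun e => by
    rcases (h.wp_eq_iff n2 n3).1 (sub_eq_zero.1 e) with e | e
    · exact n1 (by convert S.neg_mem e using 1; ring)
    · exact n1 (by convert S.sub_mem e w2 using 1; ring)
  have s := h.dwp_sq hz'
  have y0 : dwp S z ≠ 0 := fun e => hz ((h.dwp_eq_zero_iff hz').1 e)
  generalize wp S (L.ω₁ / 2) = a at *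
  generalize wp S (L.ω₂ / 2) = b at *
  generalize wp S ((L.ω₁ + L.ω₂) / 2) = c at *
  generalize dwp S (z + L.ω₁ / 2) = A at *
  generalize dwp S (z + L.ω₂ / 2) = B at *
  generalize dwp S (z + (L.ω₁ + L.ω₂) / 2) = C at *
  generalize dwp S z = y at *
  generalize wp S z = x at *
  unfold disc
  generalize g2 S = u at *
  generalize g3 S = v at *
  have e1 : u = 4 * (a ^ 2 + a * b + b ^ 2) := by
    apply mul_right_cancel₀ hab
    linear_combination r1 - r2
  have e2 : u = 4 * (a ^ 2 + a * c + c ^ 2) := by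
    apply mul_right_cancel₀ hac
    linear_combination r1 - r3
  have e3 : a + b + c = 0 := by
    apply mul_right_cancel₀ hbc
    linear_combination (e2 - e1) / 4
  have e4 : c = - a - b := by linear_combination e3
  have e5 : v = 4 * a ^ 3 - u * a := by linear_combination r1
  have k : y ^ 2 = 4 * ((x - a) * (x - b) * (x - c)) := by rw [s, e5, e1, e4]; ring
  have k2 : u ^ 3 - 27 * v ^ 2 =
      -16 * ((3 * a ^ 2 - u / 4) * (3 * b ^ 2 - u / 4) * (3 * c ^ 2 - u / 4)) := by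
    rw [e5, e1, e4]; ring
  have k3 : A * B * C * ((x - a) * (x - b) * (x - c)) ^ 2 =
      -((3 * a ^ 2 - u / 4) * (3 * b ^ 2 - u / 4) * (3 * c ^ 2 - u / 4)) * y ^ 3 := by
    calc _ = (A * (x - a) ^ 2) * (B * (x - b) ^ 2) * (C * (x - c) ^ 2) := by ring
      _ = _ := by rw [d1, d2, d3]; ring
  rw [k2]
  apply mul_right_cancel₀ (pow_ne_zero 4 y0)
  linear_combination 16 * y * k3 + y * A * B * C * (y ^ 2 + 4 * ((x - a) * (x - b) * (x - c))) * k

/-- `P⁴ n¹² Δ = Δ^(#E[n])` -/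
theorem prod_tors {ι : Type*} [Fintype ι] [DecidableEq ι] {S : Sm} {n : ℕ} {t : ι → ℂ}
    (h : Reps S (dv n S) t) (hS : IsLat S) (hn : Odd n) {i0 : ι} (h0 : t i0 ∈ S) :
    (∏ i ∈ Finset.univ.erase i0, dwp S (t i)) ^ 4 * n ^ 12 * disc S = disc S ^ Fintype.card ι := by
  have n0 : (n : ℂ) ≠ 0 := by exact_mod_cast hn.pos.ne'
  obtain ⟨a, b, c, ha, hb, hc, hD⟩ := exists_half hS
  obtain ⟨w, hw1, hw2⟩ := (dwp_ev hS 0).exists
  have hw : 2 * w ∉ S := fun e => hw2 ((hS.dwp_eq_zero_iff hw1).2 e)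
  have key : ∀ x : ℂ, 2 * x ∈ S → ∏ i, dwp S (w / n + t i + x) =
      (∏ i ∈ Finset.univ.erase i0, dwp S (t i)) * (n ^ 3 * dwp S (w + x)) := by
    intro x hx
    obtain ⟨k, hk⟩ := hn
    have e : (n : ℂ) * (w / n + x) = w + x + k * (2 * x) := by
      rw [mul_add, mul_div_cancel₀ _ n0, hk]; push_cast; ring
    have hk2 : (k : ℂ) * (2 * x) ∈ S := by simpa using S.smul_mem (k : ℤ) hx
    have := prod_dwp h hS (hS.dv n0) ⟨k, hk⟩ (fun z hz => hz) h0 (z := w / n + x) (by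
      rw [mem_dv, e]
      intro e'
      have := S.sub_mem e' hk2
      exact hw (by convert S.sub_mem (S.add_mem this this) hx using 1; ring))
    rw [dwp_dv n0, e, hS.dwp_add hk2] at this
    rw [← this]
    exact Finset.prod_congr rfl fun i _ => by rw [add_right_comm]
  have k0 := key 0 (by simp)
  simp only [add_zero] at k0
  have hall : ∀ i, dwp S (w / n + t i) * dwp S (w / n + t i + a) * dwp S (w / n + t i + b) *
      dwp S (w / n + t i + c) = disc S := fun i => hD _ fun e => hw (by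
    have h1 : (n : ℂ) * t i ∈ S := h.mem i
    have h2 : (n : ℂ) * (2 * (w / n + t i)) ∈ S := by simpa using S.smul_mem (n : ℤ) e
    convert S.sub_mem h2 (S.add_mem h1 h1) using 1
    field_simp; ring)
  rw [← Finset.card_univ, ← Finset.prod_const, ← Finset.prod_congr rfl fun i _ => hall i]
  simp only [Finset.prod_mul_distrib]
  rw [k0, key a ha, key b hb, key c hc, ← hD w hw]
  ring

/-! ### half products -/

section half

variable {p : ℕ} [hp : Fact p.Prime]

/-- the product over `1 ≤ x ≤ p / 2` -/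
def hf (G : ZMod p → ℂ) : ℂ := ∏ x ∈ Finset.Ico 1 (p / 2).succ, G (x : ℕ)

lemma hf_mul {G : ZMod p → ℂ} (hG : ∀ j, G (-j) = G j) {k : ZMod p} (hk : k ≠ 0) :
    hf (fun j => G (k * j)) = hf G := by
  have h := congrArg (fun m : Multiset ℕ => (m.map fun x : ℕ => G x).prod)
    (ZMod.Ico_map_valMinAbs_natAbs_eq_Ico_map_id p k hk)
  simp only [Multiset.map_map, Function.comp_def] at h
  unfold hf
  rw [Finset.prod_eq_multiset_prod, Finset.prod_eq_multiset_prod, ← h]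
  congr 1
  refine Multiset.map_congr rfl fun x _ => ?_
  rw [ZMod.natCast_natAbs_valMinAbs]
  split_ifs
  · rfl
  · exact (hG _).symm

lemma hf_sq {G : ZMod p → ℂ} (hG : ∀ j, G (-j) = G j) (h2 : p % 2 = 1) :
    ∏ j ∈ Finset.univ.erase 0, G j = hf G ^ 2 := by
  have h1 := hp.out.one_lt
  have e : ∏ j ∈ Finset.univ.erase 0, G j = ∏ x ∈ Finset.Ico 1 p, G (x : ℕ) := by
    refine Finset.prod_bij' (fun j _ => j.val) (fun x _ => (x : ZMod p)) ?_ ?_ ?_ ?_ ?_
    · intro j hj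
      have := (ZMod.val_ne_zero j).2 (Finset.ne_of_mem_erase hj)
      exact Finset.mem_Ico.2 ⟨by omega, j.val_lt⟩
    · intro x hx
      obtain ⟨a, b⟩ := Finset.mem_Ico.1 hx
      refine Finset.mem_erase.2 ⟨fun e => ?_, Finset.mem_univ _⟩
      exact absurd (Nat.le_of_dvd (by omega) ((ZMod.natCast_eq_zero_iff _ _).1 e)) (by omega)
    · intro j _; simp
    · intro x hx
      exact ZMod.val_cast_of_lt (Finset.mem_Ico.1 hx).2
    · intro j _; simp
  rw [e, ← Finset.prod_Ico_consecutive _ (n := (p / 2).succ) (by omega) (by omega), sq]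
  congr 1
  unfold hf
  refine Finset.prod_bij' (fun x _ => p - x) (fun x _ => p - x) ?_ ?_ ?_ ?_ ?_
  · intro x hx
    rw [Finset.mem_Ico] at hx ⊢
    omega
  · intro x hx
    rw [Finset.mem_Ico] at hx ⊢
    omega
  · intro x hx
    rw [Finset.mem_Ico] at hx
    omega
  · intro x hx
    rw [Finset.mem_Ico] at hx
    omega
  · intro x hx
    rw [Finset.mem_Ico] at hx
    rw [Nat.cast_sub hx.2.le, ZMod.natCast_self, zero_sub, hG]

/-- one "line" of the half system -/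
def ln (f : ZMod p → ZMod p → ℂ) (j : ZMod p) : ℂ := f j 0 * ∏ i, f i j

lemma ln_neg {f : ZMod p → ZMod p → ℂ} (hf : ∀ i j, f (-i) (-j) = -f i j) (h2 : p % 2 = 1)
    (j : ZMod p) : ln f (-j) = ln f j := by
  unfold ln
  have a := hf j 0
  rw [neg_zero] at a
  rw [a, ← Equiv.prod_comp (Equiv.neg (ZMod p))]
  simp only [Equiv.neg_apply, hf]
  rw [Finset.prod_neg, Finset.card_univ, ZMod.card, (Nat.odd_iff.2 h2).neg_one_pow]
  ring

lemma prod_ln (f : ZMod p → ZMod p → ℂ) :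
    ∏ x ∈ Finset.univ.erase ((0, 0) : ZMod p × ZMod p), f x.1 x.2 =
      ∏ j ∈ Finset.univ.erase 0, ln f j := by
  classical
  let g : ZMod p × ZMod p → ℂ := fun x => if x = (0, 0) then 1 else f x.1 x.2
  have e1 : ∏ x ∈ Finset.univ.erase ((0, 0) : ZMod p × ZMod p), f x.1 x.2 = ∏ x, g x := by
    rw [← Finset.mul_prod_erase _ g (Finset.mem_univ (0, 0))]
    simp only [g, if_true, one_mul]
    exact Finset.prod_congr rfl fun x hx => by rw [if_neg (Finset.ne_of_mem_erase hx)]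
  rw [e1, Fintype.prod_prod_type_right, ← Finset.mul_prod_erase _ _ (Finset.mem_univ 0),
    ← Finset.mul_prod_erase _ _ (Finset.mem_univ 0)]
  simp only [ln, Finset.prod_mul_distrib, g, if_true, one_mul]
  congr 1
  · exact Finset.prod_congr rfl fun i hi => if_neg fun e =>
      Finset.ne_of_mem_erase hi (congrArg Prod.fst e)
  · exact Finset.prod_congr rfl fun j hj => Finset.prod_congr rfl fun i _ => if_neg fun e =>
      Finset.ne_of_mem_erase hj (congrArg Prod.snd e)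

end half

/-! ### the theorem -/

/-- (H3) -/
theorem sqrtp (p q : ℕ) (hp : p.Prime) (_hq : q.Prime) (hp8 : p % 8 = 5) (hq8 : q % 8 = 3)
    {δ θ π a : ℂ} (hδ : δ ^ 2 = -(p * q)) (hθ : θ = (1 + δ) / 2) (hπ : π ^ 2 = p) (σ : ℂ ≃+* ℂ)
    (hσ : σ θ = θ) (hO : OL θ (ord θ)) (ha : a ≠ 0) (hT : Tr σ (ord θ) (dv a (ord θ))) :
    σ π = π := by
  classical
  have := Fact.mk hp
  set S := ord θ with hSdef
  have hS := hO.lat
  have p0 : (p : ℂ) ≠ 0 := by exact_mod_cast hp.ne_zero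
  have p2 : p % 2 = 1 := by omega
  have hδθ : δ = 2 * θ - 1 := by rw [hθ]; ring
  obtain ⟨m, hm⟩ : ∃ m : ℕ, p * q + 1 = 4 * m := ⟨(p * q + 1) / 4, by
    have : (p * q) % 4 = 3 := by
      rw [Nat.mul_mod, show p % 4 = 1 by omega, show q % 4 = 3 by omega]
    omega⟩
  have hm0 : m ≠ 0 := by omega
  have hm' : (p : ℂ) * q + 1 = 4 * m := by exact_mod_cast hm
  have hθ2 : θ ^ 2 = θ - m := by
    rw [hθ]; linear_combination hδ / 4 - hm' / 4
  have cδ : cc δ = -δ := by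
    have h1 : (cc δ - δ) * (cc δ + δ) = 0 := by
      have := congrArg cc hδ
      simp only [map_pow, map_neg, map_mul, map_natCast] at this
      linear_combination this - hδ
    rcases mul_eq_zero.1 h1 with h | h
    · exfalso
      obtain ⟨r, rfl⟩ := Complex.conj_eq_iff_real.1 (sub_eq_zero.1 h)
      have h2 : r ^ 2 = -(p * q) := by exact_mod_cast hδ
      have h3 : (0 : ℝ) < p * q := by
        have : 0 < p * q := Nat.mul_pos hp.pos (by omega)
        exact_mod_cast this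
      nlinarith [sq_nonneg r]
    · exact eq_neg_of_add_eq_zero_left h
  have δ0 : δ ≠ 0 := by
    rintro rfl
    have : ((p * q : ℕ) : ℂ) = 0 := by push_cast; linear_combination hδ
    exact (Nat.mul_pos hp.pos (show 0 < q by omega)).ne' (by exact_mod_cast this)
  have memS : ∀ i j : ℤ, (i : ℂ) * δ + j ∈ S := fun i j =>
    mem_ord.2 ⟨j - i, 2 * i, by rw [hδθ]; push_cast; ring⟩
  have dvdS : ∀ i j : ℤ, ((i : ℂ) * δ + j) / p ∈ S → (p : ℤ) ∣ i ∧ (p : ℤ) ∣ j := by
    intro i j h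
    obtain ⟨x, y, e⟩ := mem_ord.1 h
    rw [eq_div_iff p0, hθ] at e
    have e2 := congrArg cc e
    simp only [map_mul, map_add, map_intCast, map_natCast, map_div₀, map_one, map_ofNat, cδ] at e2
    have e3 : (y : ℂ) * p = 2 * i := by
      apply mul_right_cancel₀ δ0
      linear_combination e - e2
    have e4 : (2 * x + y : ℂ) * p = 2 * j := by linear_combination e + e2
    have e3' : y * p = 2 * i := by exact_mod_cast e3
    have e4' : (2 * x + y) * p = 2 * j := by exact_mod_cast e4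
    have cop : IsCoprime (p : ℤ) 2 := ⟨1, -(p / 2 : ℕ), by push_cast; omega⟩
    exact ⟨cop.dvd_of_dvd_mul_left ⟨y, by linarith⟩,
      cop.dvd_of_dvd_mul_left ⟨2 * x + y, by linarith⟩⟩
  -- the `p`-torsion
  let t : ZMod p × ZMod p → ℂ := fun x => (((x.1.val : ℤ) : ℂ) * δ + (x.2.val : ℤ)) / p
  have ht : ∀ (i j : ℤ), ((i : ℂ) * δ + j) / p - t (i, j) ∈ S := by
    intro i j
    obtain ⟨x, hx⟩ := (ZMod.intCast_eq_intCast_iff_dvd_sub ((i : ZMod p).val : ℤ) i p).1 (by simp)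
    obtain ⟨y, hy⟩ := (ZMod.intCast_eq_intCast_iff_dvd_sub ((j : ZMod p).val : ℤ) j p).1 (by simp)
    have hx' : (i : ℂ) - ((i : ZMod p).val : ℤ) = p * x := by exact_mod_cast hx
    have hy' : (j : ℂ) - ((j : ZMod p).val : ℤ) = p * y := by exact_mod_cast hy
    convert memS x y using 1
    simp only [t]
    field_simp
    linear_combination δ * hx' + hy'
  have rp : Reps S (dv p S) t := by
    refine ⟨fun z hz => by simpa using S.smul_mem (p : ℤ) hz, fun x => ?_, fun x y h => ?_,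
      fun z hz => ?_⟩
    · rw [mem_dv, mul_div_cancel₀ _ p0]; exact memS _ _
    · obtain ⟨h1, h2⟩ := dvdS (x.1.val - y.1.val) (x.2.val - y.2.val) (by
        convert h using 1
        simp only [t]; push_cast; ring)
      have k1 := (ZMod.intCast_eq_intCast_iff_dvd_sub _ _ p).2 h1
      have k2 := (ZMod.intCast_eq_intCast_iff_dvd_sub _ _ p).2 h2
      rw [Int.cast_natCast, Int.cast_natCast, ZMod.natCast_zmod_val, ZMod.natCast_zmod_val] at k1 k2
      exact Prod.ext k1.symm k2.symm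
    · obtain ⟨x, y, e⟩ := mem_ord.1 (mem_dv.1 hz)
      obtain ⟨k, hk⟩ : ∃ k : ℕ, p + 1 = 2 * k := ⟨(p + 1) / 2, by omega⟩
      have hk' : (p : ℂ) + 1 = 2 * k := by exact_mod_cast hk
      refine ⟨(((y * k : ℤ) : ZMod p), ((x + y * k : ℤ) : ZMod p)), ?_⟩
      have h1 := S.sub_mem (ht (y * k) (x + y * k)) (mem_ord.2 ⟨0, y, rfl⟩)
      convert h1 using 1
      have : z = (x + y * θ) / p := by rw [e]; field_simp
      rw [this, hδθ]
      push_cast
      field_simp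
      linear_combination (-(y : ℂ) * θ) * hk' * (-1)
  let f : ZMod p → ZMod p → ℂ := fun i j => dwp S (t (i, j))
  have hfi : ∀ i j : ℤ, f i j = dwp S (((i : ℂ) * δ + j) / p) := fun i j =>
    (hS.dwp_congr (ht i j)).symm
  have surj := ZMod.intCast_surjective (n := p)
  have fneg : ∀ i j, f (-i) (-j) = -f i j := by
    intro i j
    obtain ⟨i, rfl⟩ := surj i
    obtain ⟨j, rfl⟩ := surj j
    rw [← Int.cast_neg, ← Int.cast_neg, hfi, hfi, ← hS.dwp_neg]
    congr 1; push_cast; ring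
  have hG := ln_neg fneg p2
  set W := hf (ln f) with hW
  have D0 : disc S ≠ 0 := hS.disc_ne
  have main := prod_tors rp hS (Nat.odd_iff.2 p2) (i0 := (0, 0)) (by simp [t])
  rw [show (∏ i ∈ Finset.univ.erase ((0, 0) : ZMod p × ZMod p), dwp S (t i)) = W ^ 2 from
    (prod_ln f).trans (hf_sq hG p2), Fintype.card_prod, ZMod.card] at main
  obtain ⟨e, he⟩ : ∃ e : ℕ, p * p = 8 * e + 1 := ⟨p * p / 8, by
    have : (p * p) % 8 = 1 := by rw [Nat.mul_mod, hp8]
    omega⟩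
  have main' : (W * p ^ 2 / disc S ^ e) ^ 8 = (p : ℂ) ^ 4 := by
    rw [he, pow_succ (disc S), mul_left_inj' D0] at main
    rw [div_pow, ← pow_mul, mul_comm e 8, ← main]
    have W0 : W ≠ 0 := by
      rintro h
      rw [h] at main
      exact pow_ne_zero _ D0 (by rw [← main]; simp)
    field_simp
  -- complex conjugation
  have cjS : cj S = S := by
    have cθ : cc θ = 1 - θ := by
      rw [hθ]; simp only [map_div₀, map_add, map_one, map_ofNat, cδ]; ring
    have k : ∀ z ∈ S, cc z ∈ S := fun z hz => by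
      obtain ⟨x, y, rfl⟩ := mem_ord.1 hz
      exact mem_ord.2 ⟨x + y, -y, by
        simp only [map_add, map_mul, map_intCast, cθ]; push_cast; ring⟩
    ext z
    exact ⟨fun h => by simpa using k _ (mem_cj.1 h), fun h => mem_cj.2 (k z h)⟩
  have cf : ∀ i j, cc (f i j) = f (-i) j := by
    intro i j
    obtain ⟨i, rfl⟩ := surj i
    obtain ⟨j, rfl⟩ := surj j
    rw [← Int.cast_neg, hfi, hfi, ← dwp_cj, cjS]
    congr 1
    simp only [map_div₀, map_add, map_mul, map_intCast, map_natCast, cδ]; push_cast; ring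
  have cW : cc W = W := by
    have k : ∀ j, cc (ln f j) = -ln f j := fun j => by
      unfold ln
      have a := fneg j 0
      rw [neg_zero] at a
      rw [map_mul, map_prod, cf, a, neg_mul]
      simp only [cf]
      rw [← Equiv.prod_comp (Equiv.neg (ZMod p)) (fun i => f i j)]
      rfl
    rw [hW]
    unfold hf
    rw [map_prod]
    simp only [k]
    rw [Finset.prod_neg, Nat.card_Ico, Even.neg_one_pow ⟨p / 4, by omega⟩, one_mul]
  have cD : cc (disc S) = disc S := by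
    have := tr_cj hS (cjS.symm ▸ hS)
    rw [cjS] at this
    simp only [disc, map_sub, map_mul, map_pow, map_ofNat, ← this.g2, ← this.g3]
  have real : (W * p ^ 2 / disc S ^ e) ^ 2 = p := by
    obtain ⟨r, hr⟩ := Complex.conj_eq_iff_real.1 (show cc (W * p ^ 2 / disc S ^ e) = _ by
      simp only [map_div₀, map_mul, map_pow, map_natCast, cW, cD])
    rw [hr] at main' ⊢
    have h1 : (r ^ 2) ^ 4 = (p : ℝ) ^ 4 := by rw [← pow_mul]; exact_mod_cast main'
    have h2 : r ^ 2 = p := (pow_left_inj₀ (sq_nonneg r) (Nat.cast_nonneg p) (by norm_num)).1 h1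
    exact_mod_cast h2
  -- the automorphism
  obtain ⟨x0, r0⟩ := hT.ex (1 / p)
  have hx0 : a * x0 ∈ dv p S := by
    have := (hT.nmul r0 p).mem_iff.1 (by
      rw [mul_one_div_cancel p0]; simpa using memS 0 1)
    rw [mem_dv] at this ⊢
    rwa [mul_left_comm]
  obtain ⟨⟨s, k⟩, hsk⟩ := rp.surj _ hx0
  have sf : ∀ i j, σ (f i j) = a ^ 3 * f (k * i + s * j) (k * j) := by
    intro i j
    obtain ⟨i, rfl⟩ := surj i
    obtain ⟨j, rfl⟩ := surj j
    obtain ⟨s, rfl⟩ := surj s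
    obtain ⟨k, rfl⟩ := surj k
    have r := hT.dwp_eq (hT.lin hm0 hθ2 hσ hO (j - i) (2 * i) r0)
    have e0 : ((j - i : ℤ) : ℂ) + (2 * i : ℤ) * θ = i * δ + j := by rw [hδθ]; push_cast; ring
    rw [e0, dwp_dv ha, mul_one_div] at r
    rw [hfi, ← r, ← Int.cast_mul, ← Int.cast_mul, ← Int.cast_mul, ← Int.cast_add, hfi]
    congr 1
    refine hS.dwp_congr ?_
    have h1 := hO.ord_mul (memS i j) (S.sub_mem hsk (ht s k))
    convert S.add_mem h1 (memS 0 (-(i * s * q))) using 1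
    push_cast
    field_simp
    linear_combination ((i : ℂ) * s) * hδ
  have k0 : k ≠ 0 := by
    rintro rfl
    have h1 := sf 1 0
    have h2 : f 0 0 = 0 := hS.dwp_mem (by simp [t])
    simp only [zero_mul, mul_zero, add_zero, h2, map_eq_zero] at h1
    have h3 := hfi 1 0
    simp only [Int.cast_one, Int.cast_zero] at h3
    have n1 : (((1 : ℤ) : ℂ) * δ + (0 : ℤ)) / p ∉ S := fun h =>
      hp.one_lt.ne' (by exact_mod_cast Int.eq_one_of_dvd_one (Nat.cast_nonneg p) (dvdS 1 0 h).1)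
    simp only [Int.cast_one, Int.cast_zero] at n1
    have h4 := (hS.dwp_eq_zero_iff n1).1 (h3 ▸ h1)
    have h5 := (dvdS 2 0 (by convert h4 using 1; push_cast; ring)).1
    have h6 : p ∣ 2 := by exact_mod_cast h5
    have := Nat.le_of_dvd two_pos h6
    omega
  have sW : σ W = (a ^ 12) ^ e * W := by
    have k1 : ∀ j, σ (ln f j) = (a ^ 3) ^ (p + 1) * ln f (k * j) := fun j => by
      unfold ln
      rw [map_mul, map_prod, sf]
      simp only [sf, mul_zero, add_zero]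
      rw [Finset.prod_mul_distrib, Finset.prod_const, Finset.card_univ, ZMod.card,
        ← Equiv.prod_comp ((Equiv.mulLeft₀ k k0).trans (Equiv.addRight (s * j)))
          (fun i => f i (k * j))]
      simp only [Equiv.trans_apply, Equiv.mulLeft₀_apply, Equiv.coe_addRight]
      ring
    rw [hW, ← hf_mul hG k0]
    conv_lhs => rw [hf_mul hG k0]
    unfold hf
    rw [map_prod]
    simp only [k1]
    rw [Finset.prod_mul_distrib, Finset.prod_const, Nat.card_Ico, ← pow_mul, ← pow_mul, ← pow_mul]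
    congr 2
    obtain ⟨u, rfl⟩ : ∃ u, p = 2 * u + 1 := ⟨p / 2, by omega⟩
    rw [show (2 * u + 1) / 2 = u by omega]
    simp only [Nat.succ_eq_add_one, Nat.add_sub_cancel]
    nlinarith
  have sD : σ (disc S) = a ^ 12 * disc S := by
    simp only [disc, map_sub, map_mul, map_pow, map_ofNat, ← hT.g2, ← hT.g3, g2_dv ha, g3_dv ha]
    ring
  have sR : σ (W * p ^ 2 / disc S ^ e) = W * p ^ 2 / disc S ^ e := by
    simp only [map_div₀, map_mul, map_pow, map_natCast, sW, sD]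
    rw [mul_pow, mul_assoc, mul_div_mul_left _ _ (pow_ne_zero _ (pow_ne_zero _ ha))]
  rcases sq_eq_sq_iff_eq_or_eq_neg.1 (hπ.trans real.symm) with h | h
  · rw [h, sR]
  · rw [h, map_neg, sR]

end Crest.Agent.T15.CmD
end
end

-- ▼ part T15/ClA_28
section

/-!
# Row 15, block Q (helper28): lattices with multiplication by `θ`, `θ² = θ - m`, `4 m - 1` squarefree

* `Qd θ m D`; `sp a = ℤ a`; `Nm θ S N` : `S * cj S = N ℤ[θ]`; `exists_nm`, `Nm.unique`;
* `OL.mul'`, `OL.cj`, the commutative group `Gp h` of these lattices.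
-/

set_option autoImplicit false
set_option linter.unusedSectionVars false

noncomputable section

namespace Crest.Agent.T15.Cm

open Submodule ComplexConjugate

/-- `θ² = θ - m`, `4 m - 1 = D` squarefree -/
structure Qd (θ : ℂ) (m : ℤ) (D : ℕ) : Prop where
  sq : θ * θ = θ - m
  hD : 4 * m = 1 + D
  pos : 0 < D
  sqf : Squarefree D

/-- `ℤ a` -/
def sp (a : ℂ) : Sm := span ℤ {a}

lemma sp_mul_sp (a b : ℂ) : sp a * sp b = sp (a * b) := by
  simp [sp, span_mul_span]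

lemma mem_sp_mul {a z : ℂ} {S : Sm} : z ∈ sp a * S ↔ ∃ w ∈ S, a * w = z :=
  mem_span_singleton_mul

lemma mem_sp_mul' {a z : ℂ} (ha : a ≠ 0) {S : Sm} : z ∈ sp a * S ↔ a⁻¹ * z ∈ S := by
  rw [mem_sp_mul]
  constructor
  · rintro ⟨w, hw, rfl⟩; rwa [inv_mul_cancel_left₀ ha]
  · intro h; exact ⟨_, h, mul_inv_cancel_left₀ ha _⟩

lemma sp_one_mul (S : Sm) : sp 1 * S = S := by
  ext z; rw [mem_sp_mul' one_ne_zero]; simp

lemma dv_eq {a : ℂ} (ha : a ≠ 0) (S : Sm) : dv a S = sp a⁻¹ * S := by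
  ext z; rw [mem_sp_mul' (inv_ne_zero ha), inv_inv, mem_dv]

lemma sp_mul_eq {a : ℂ} (ha : a ≠ 0) (S : Sm) : sp a * S = dv a⁻¹ S := by
  rw [dv_eq (inv_ne_zero ha), inv_inv]

lemma cj_eq_map (S : Sm) : cj S = S.map (starRingEnd ℂ).toIntAlgHom.toLinearMap := by
  ext z
  rw [mem_cj, mem_map]
  constructor
  · intro h; exact ⟨_, h, by simp⟩
  · rintro ⟨w, hw, rfl⟩; simpa using hw

lemma cj_mul (S T : Sm) : cj (S * T) = cj S * cj T := by
  rw [cj_eq_map, cj_eq_map, cj_eq_map, Submodule.map_mul]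

lemma cj_cj (S : Sm) : cj (cj S) = S := by ext z; simp [mem_cj]

lemma cj_sp (a : ℂ) : cj (sp a) = sp (conj a) := by
  rw [cj_eq_map, sp, map_span]; simp [sp]

lemma conj_mem_cj {S : Sm} {z : ℂ} (h : z ∈ S) : conj z ∈ cj S := by simpa [mem_cj] using h

lemma mem_ord28 {θ z : ℂ} : z ∈ ord θ ↔ ∃ x y : ℤ, x + y * θ = z := by
  simp [ord, mem_span_pair]

lemma one_mem_ord (θ : ℂ) : (1 : ℂ) ∈ ord θ := mem_ord28.2 ⟨1, 0, by simp⟩


lemma self_mem_ord (θ : ℂ) : θ ∈ ord θ := mem_ord28.2 ⟨0, 1, by simp⟩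

lemma int_mul_mem {S : Sm} (k : ℤ) {z : ℂ} (h : z ∈ S) : (k : ℂ) * z ∈ S := by
  simpa using S.smul_mem k h

lemma IsLat.exists_ne {S : Sm} (h : IsLat S) : ∃ a ∈ S, a ≠ 0 := by
  obtain ⟨a, b, h1, h2⟩ := h.basis
  refine ⟨a, (h1 a).2 ⟨1, 0, by simp⟩, fun ha => ?_⟩
  exact one_ne_zero (h2 1 0 (by simp [ha])).1

lemma OL.mul_mem {θ : ℂ} {S : Sm} (h : OL θ S) {g z : ℂ} (hg : g ∈ ord θ) (hz : z ∈ S) :
    g * z ∈ S := by
  obtain ⟨x, y, rfl⟩ := mem_ord28.1 hg
  rw [add_mul, mul_assoc]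
  exact S.add_mem (int_mul_mem x hz) (int_mul_mem y (h.mul z hz))

lemma OL.ord_mul28 {θ : ℂ} {S : Sm} (h : OL θ S) : ord θ * S = S := by
  apply le_antisymm
  · exact Submodule.mul_le.2 fun g hg z hz => h.mul_mem hg hz
  · intro z hz
    simpa using mul_mem_mul (one_mem_ord θ) hz

lemma OL.sp_mul {θ : ℂ} {S : Sm} (h : OL θ S) {a : ℂ} (ha : a ≠ 0) : OL θ (sp a * S) := by
  refine ⟨by rw [sp_mul_eq ha]; exact h.lat.dv (inv_ne_zero ha), fun z hz => ?_⟩
  rw [mem_sp_mul' ha] at hz ⊢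
  rw [mul_left_comm]; exact h.mul _ hz

/-- `S * cj S = N ℤ[θ]` -/
structure Nm (θ : ℂ) (S : Sm) (N : ℝ) : Prop where
  pos : 0 < N
  eq : S * cj S = sp N * ord θ

lemma Nm.ne {θ : ℂ} {S : Sm} {N : ℝ} (h : Nm θ S N) : (N : ℂ) ≠ 0 := by exact_mod_cast h.pos.ne'

lemma Nm.mem {θ : ℂ} {S : Sm} {N : ℝ} (h : Nm θ S N) {z w : ℂ} (hz : z ∈ S) (hw : w ∈ S) :
    (N : ℂ)⁻¹ * (z * conj w) ∈ ord θ := by
  rw [← mem_sp_mul' h.ne, ← h.eq]
  exact mul_mem_mul hz (conj_mem_cj hw)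

namespace Qd

variable {θ : ℂ} {m : ℤ} {D : ℕ} (h : Qd θ m D)
include h

lemma dsq : (2 * θ - 1) * (2 * θ - 1) = -(D : ℂ) := by
  have : (4 : ℂ) * m = 1 + D := by exact_mod_cast h.hD
  linear_combination 4 * h.sq - this

lemma re_im : θ.re = 1 / 2 ∧ 4 * θ.im ^ 2 = D := by
  have h1 := congrArg Complex.re h.dsq
  have h2 := congrArg Complex.im h.dsq
  simp at h1 h2
  have hp : (0 : ℝ) < D := by exact_mod_cast h.pos
  have h3 : (2 * θ.re - 1) * θ.im = 0 := by linarith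
  rcases mul_eq_zero.1 h3 with h4 | h4
  · refine ⟨by linarith, ?_⟩
    rw [h4] at h1; linarith
  · rw [h4] at h1; nlinarith [mul_self_nonneg (2 * θ.re - 1)]

lemma im_ne : θ.im ≠ 0 := by
  intro h0
  have := h.re_im.2
  have hp : (0 : ℝ) < D := by exact_mod_cast h.pos
  rw [h0] at this; linarith

lemma conj_eq : conj θ = 1 - θ := by
  apply Complex.ext
  · simp [h.re_im.1]; norm_num
  · simp

lemma indep {s t : ℝ} (e : (s : ℂ) + t * θ = 0) : s = 0 ∧ t = 0 := by
  have h2 := congrArg Complex.im e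
  have h1 := congrArg Complex.re e
  simp [h.im_ne] at h1 h2
  exact ⟨by simpa [h2] using h1, h2⟩

lemma indep_int {s t : ℤ} (e : (s : ℂ) + t * θ = 0) : s = 0 ∧ t = 0 := by
  have := h.indep (s := s) (t := t) (by exact_mod_cast e)
  exact_mod_cast this

lemma ol_ord : OL θ (ord θ) := by
  refine ⟨isLat_of (a := 1) (b := θ) (fun z => by simp [mem_ord28]) fun s t e => h.indep (by simpa using e),
    fun z hz => ?_⟩
  obtain ⟨x, y, rfl⟩ := mem_ord28.1 hz
  exact mem_ord28.2 ⟨-(y * m), x + y, by push_cast; linear_combination (-y) * h.sq⟩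

lemma ord_mul_ord : ord θ * ord θ = ord θ := h.ol_ord.ord_mul28

lemma ol_cj {S : Sm} (hS : OL θ S) : OL θ (cj S) := by
  refine ⟨?_, fun z hz => ?_⟩
  · obtain ⟨a, b, h1, h2⟩ := hS.lat.basis
    refine isLat_of (a := conj a) (b := conj b) (fun z => ?_) fun s t e => h2 s t ?_
    · rw [mem_cj, h1]
      constructor
      · rintro ⟨x, y, e⟩; exact ⟨x, y, by simpa using congrArg conj e⟩
      · rintro ⟨x, y, e⟩; exact ⟨x, y, by simpa using congrArg conj e⟩
    · simpa using congrArg conj e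
  · rw [mem_cj] at hz ⊢
    rw [map_mul, h.conj_eq, sub_mul, one_mul]
    exact S.sub_mem hz (hS.mul _ hz)

lemma cj_ord : cj (ord θ) = ord θ := by
  have key : ∀ z ∈ ord θ, conj z ∈ ord θ := by
    intro z hz
    obtain ⟨x, y, rfl⟩ := mem_ord28.1 hz
    exact mem_ord28.2 ⟨x + y, -y, by simp [h.conj_eq]; ring⟩
  ext z
  rw [mem_cj]
  exact ⟨fun hz => by simpa using key _ hz, key z⟩

lemma real_mem {r : ℝ} (hr : (r : ℂ) ∈ ord θ) : ∃ k : ℤ, r = k := by
  obtain ⟨x, y, e⟩ := mem_ord28.1 hr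
  have := h.indep (s := x - r) (t := y) (by push_cast; linear_combination e)
  exact ⟨x, by linarith [this.1]⟩

/-- the norm form is a square modulo `D`, up to the factor `4` -/
lemma norm_form {g : ℂ} (hg : g ∈ ord θ) : ∃ u v : ℤ, 4 * (g * conj g) = u ^ 2 + D * v ^ 2 := by
  obtain ⟨x, y, rfl⟩ := mem_ord28.1 hg
  have : (4 : ℂ) * m = 1 + D := by exact_mod_cast h.hD
  refine ⟨2 * x + y, y, ?_⟩
  simp only [map_add, map_mul, map_intCast, h.conj_eq]
  push_cast
  linear_combination (-4 * y ^ 2) * h.sq + y ^ 2 * this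

theorem exists_nm {S : Sm} (hS : OL θ S) : ∃ N, Nm θ S N := by
  obtain ⟨a, b, h1, h2⟩ := hS.lat.basis
  have haS : a ∈ S := (h1 a).2 ⟨1, 0, by simp⟩
  have hbS : b ∈ S := (h1 b).2 ⟨0, 1, by simp⟩
  have ha : a ≠ 0 := fun ha => one_ne_zero (h2 1 0 (by simp [ha])).1
  have ha' : conj a ≠ 0 := by simpa using ha
  obtain ⟨x, y, e1⟩ := (h1 _).1 (hS.mul a haS)
  obtain ⟨z, w, e2⟩ := (h1 _).1 (hS.mul b hbS)
  have hy : y ≠ 0 := by
    rintro rfl
    have : ((x : ℤ) : ℂ) + ((-1 : ℤ) : ℂ) * θ = 0 := by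
      apply mul_right_cancel₀ ha
      push_cast at e1 ⊢
      linear_combination e1
    exact absurd (h.indep_int this).2 (by decide)
  have e3 : ((x * w - y * z - m : ℤ) : ℂ) + ((1 - x - w : ℤ) : ℂ) * θ = 0 := by
    apply mul_right_cancel₀ ha
    push_cast
    linear_combination (w - θ) * e1 - y * e2 - a * h.sq
  obtain ⟨e4, e5⟩ := h.indep_int e3
  have hw : w = 1 - x := by omega
  subst hw
  -- primitive form
  have hg : ∃ s t u : ℤ, s * y + t * z + u * (1 - 2 * x) = 1 := by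
    set g := Int.gcd (Int.gcd y z) (1 - 2 * x) with hg
    have d1 : (g : ℤ) ∣ y := (Int.gcd_dvd_left _ _).trans (Int.gcd_dvd_left _ _)
    have d2 : (g : ℤ) ∣ z := (Int.gcd_dvd_left _ _).trans (Int.gcd_dvd_right _ _)
    have d3 : (g : ℤ) ∣ 1 - 2 * x := Int.gcd_dvd_right _ _
    have d4 : (g : ℤ) * g ∣ D := by
      have : (D : ℤ) = -(4 * (y * z)) - (1 - 2 * x) * (1 - 2 * x) := by linarith [h.hD]
      rw [this]
      exact dvd_sub ((dvd_neg).2 ((mul_dvd_mul d1 d2).mul_left 4)) (mul_dvd_mul d3 d3)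
    have d5 : g = 1 := Nat.isUnit_iff.1 (h.sqf g (by exact_mod_cast d4))
    have b1 := Int.gcd_eq_gcd_ab (Int.gcd y z) (1 - 2 * x)
    have b2 := Int.gcd_eq_gcd_ab y z
    rw [← hg, d5] at b1
    refine ⟨Int.gcdA y z * Int.gcdA (Int.gcd y z) (1 - 2 * x),
      Int.gcdB y z * Int.gcdA (Int.gcd y z) (1 - 2 * x), Int.gcdB (Int.gcd y z) (1 - 2 * x), ?_⟩
    push_cast at b1
    linear_combination -b1 - Int.gcdA (Int.gcd y z) (1 - 2 * x) * b2
  obtain ⟨s, t, u, hg⟩ := hg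
  have hy' : (y : ℂ) ≠ 0 := by exact_mod_cast hy
  have e1' := congrArg conj e1
  simp only [map_add, map_mul, map_intCast, h.conj_eq] at e1'
  have e4' : (x : ℂ) * (1 - x) - y * z - m = 0 := by exact_mod_cast e4
  -- `c = a ā / y`
  set c : ℂ := a * conj a / y with hc
  have hc0 : c ≠ 0 := div_ne_zero (mul_ne_zero ha ha') hy'
  have p1 : a * conj a = c * y := by rw [hc]; field_simp
  have p2 : b * conj a = c * (θ - x) := by
    rw [hc]; field_simp; linear_combination e1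
  have p3 : a * conj b = c * (1 - θ - x) := by
    rw [hc]; field_simp; linear_combination e1'
  have p4 : b * conj b = c * (-z) := by
    apply mul_left_cancel₀ (mul_ne_zero hy' hc0)
    have : (b * conj a) * (a * conj b) = (a * conj a) * (b * conj b) := by ring
    rw [p1, p2, p3] at this
    linear_combination -this - c ^ 2 * h.sq + c ^ 2 * e4' * (-1)
  have key : S * cj S = sp c * ord θ := by
    apply le_antisymm
    · refine Submodule.mul_le.2 fun v hv v' hv' => ?_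
      rw [mem_cj] at hv'
      obtain ⟨i, j, rfl⟩ := (h1 _).1 hv
      obtain ⟨k, l, e⟩ := (h1 _).1 hv'
      have e' := congrArg conj e
      simp only [map_add, map_mul, map_intCast, Complex.conj_conj] at e'
      rw [← e', mem_sp_mul]
      refine ⟨_, mem_ord28.2 ⟨i * k * y - j * k * x + i * l * (1 - x) - j * l * z, j * k - i * l, rfl⟩, ?_⟩
      push_cast
      linear_combination (-i * k) * p1 - j * k * p2 - i * l * p3 - j * l * p4
    · have q1 := mul_mem_mul haS (conj_mem_cj haS)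
      have q2 := mul_mem_mul hbS (conj_mem_cj haS)
      have q3 := mul_mem_mul haS (conj_mem_cj hbS)
      have q4 := mul_mem_mul hbS (conj_mem_cj hbS)
      have q5 : c ∈ S * cj S := by
        have := (S * cj S).add_mem ((S * cj S).sub_mem (int_mul_mem s q1) (int_mul_mem t q4))
          (int_mul_mem u ((S * cj S).add_mem q2 q3))
        have hg' : (s : ℂ) * y + t * z + u * (1 - 2 * x) = 1 := by exact_mod_cast hg
        convert this using 1
        rw [p1, p2, p3, p4]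
        linear_combination -c * hg'
      intro v hv
      obtain ⟨g, hg, rfl⟩ := mem_sp_mul.1 hv
      obtain ⟨i, j, rfl⟩ := mem_ord28.1 hg
      have := (S * cj S).add_mem (int_mul_mem (i + j * x) q5) (int_mul_mem j q2)
      convert this using 1
      rw [p2]; push_cast; ring
  refine ⟨Complex.normSq a / |(y : ℝ)|, div_pos (Complex.normSq_pos.2 ha)
    (abs_pos.2 (by exact_mod_cast hy)), ?_⟩
  rw [key]
  congr 1
  rw [hc, Complex.mul_conj]
  rcases abs_choice (y : ℝ) with e | e <;> rw [e]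
  · simp
  · simp only [sp]
    rw [show ((Complex.normSq a / -(y : ℝ) : ℝ) : ℂ) = -((Complex.normSq a : ℂ) / y) by
      push_cast; ring, ← Set.neg_singleton, span_neg]

lemma nm_unique {S : Sm} {N N' : ℝ} (h1 : Nm θ S N) (h2 : Nm θ S N') : N = N' := by
  have key : ∀ {A B : ℝ}, Nm θ S A → Nm θ S B → A ≤ B := by
    intro A B hA hB
    have : (B : ℂ) ∈ sp A * ord θ := by
      rw [← hA.eq, hB.eq]; exact mem_sp_mul.2 ⟨1, one_mem_ord θ, mul_one _⟩
    rw [mem_sp_mul' hA.ne] at this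
    obtain ⟨k, hk⟩ := h.real_mem (r := A⁻¹ * B) (by exact_mod_cast this)
    have hpos : (0 : ℝ) < k := hk ▸ mul_pos (inv_pos.2 hA.pos) hB.pos
    have h1 : (1 : ℝ) ≤ k := by exact_mod_cast (show (0 : ℤ) < k by exact_mod_cast hpos)
    have : B = A * k := by rw [← hk]; field_simp [hA.pos.ne']
    nlinarith [hA.pos]
  exact le_antisymm (key h1 h2) (key h2 h1)

lemma nm_int {S : Sm} {N : ℝ} (hN : Nm θ S N) {z : ℂ} (hz : z ∈ S) :
    ∃ n : ℕ, z * conj z = N * n := by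
  have := hN.mem hz hz
  rw [Complex.mul_conj] at this
  obtain ⟨k, hk⟩ := h.real_mem (r := N⁻¹ * Complex.normSq z) (by exact_mod_cast this)
  have h0 : (0 : ℝ) ≤ k := hk ▸ mul_nonneg (inv_pos.2 hN.pos).le (Complex.normSq_nonneg z)
  obtain ⟨n, rfl⟩ := Int.eq_ofNat_of_zero_le (show (0 : ℤ) ≤ k by exact_mod_cast h0)
  refine ⟨n, ?_⟩
  rw [Complex.mul_conj]
  have : Complex.normSq z = N * n := by
    rw [show (n : ℝ) = N⁻¹ * Complex.normSq z by rw [hk]; simp]; field_simp [hN.pos.ne']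
  exact_mod_cast this

lemma nm_mul {S T : Sm} {N M : ℝ} (h1 : Nm θ S N) (h2 : Nm θ T M) : Nm θ (S * T) (N * M) := by
  refine ⟨mul_pos h1.pos h2.pos, ?_⟩
  rw [cj_mul, mul_mul_mul_comm, h1.eq, h2.eq, mul_mul_mul_comm, sp_mul_sp, h.ord_mul_ord]
  push_cast; rfl

lemma nm_sp {S : Sm} {N : ℝ} (h1 : Nm θ S N) {a : ℂ} (ha : a ≠ 0) :
    Nm θ (sp a * S) (Complex.normSq a * N) := by
  refine ⟨mul_pos (Complex.normSq_pos.2 ha) h1.pos, ?_⟩
  rw [cj_mul, cj_sp, mul_mul_mul_comm, sp_mul_sp, h1.eq, ← mul_assoc, sp_mul_sp, Complex.mul_conj]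
  push_cast; rfl

lemma nm_ord : Nm θ (ord θ) 1 :=
  ⟨one_pos, by rw [h.cj_ord, h.ord_mul_ord, Complex.ofReal_one, sp_one_mul]⟩

lemma nm_cj {S : Sm} {N : ℝ} (h1 : Nm θ S N) : Nm θ (cj S) N :=
  ⟨h1.pos, by rw [cj_cj, mul_comm, h1.eq]⟩

lemma ol_mul {S T : Sm} (hS : OL θ S) (hT : OL θ T) : OL θ (S * T) := by
  refine ⟨?_, fun z hz => ?_⟩
  · obtain ⟨N, hN⟩ := h.exists_nm hS
    obtain ⟨s, hs, hs0⟩ := hS.lat.exists_ne
    obtain ⟨n, hn⟩ := h.nm_int hN hs
    have hn0 : n ≠ 0 := by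
      rintro rfl
      simp [hs0] at hn
    refine (hT.sp_mul hs0).lat.of_le hn0 ?_ fun z hz => ?_
    · exact mul_le_mul_left ((span_singleton_le_iff_mem _ _).2 hs) T
    · refine Submodule.mul_induction_on hz (fun u hu v hv => ?_) fun u v hu hv => ?_
      · refine mem_sp_mul.2 ⟨_, hT.mul_mem (hN.mem hu hs) hv, ?_⟩
        have := hN.ne
        field_simp
        linear_combination u * v * hn
      · rw [mul_add]; exact Submodule.add_mem _ hu hv
  · refine Submodule.mul_induction_on hz (fun u hu v hv => ?_) fun u v hu hv => ?_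
    · rw [← mul_assoc]; exact mul_mem_mul (hS.mul u hu) hv
    · rw [mul_add]; exact Submodule.add_mem _ hu hv

end Qd

end Crest.Agent.T15.Cm
end
end

-- ▼ part T15/Cl_28

/-!
# Row 15, block Q (helper28): `clStmt : ClStmt` (class group and genus character)
-/

set_option autoImplicit false
set_option linter.unusedSectionVars false

noncomputable section

namespace Crest.Agent.T15.Cm

open Submodule ComplexConjugate

namespace Qd

variable {θ : ℂ} {m : ℤ} {D : ℕ} (h : Qd θ m D)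

/-- the lattices with multiplication by `θ` -/
@[ext] structure Gp (_ : Qd θ m D) : Type where
  /-- the lattice -/
  val : Sm
  ol : OL θ val

instance : Mul h.Gp := ⟨fun S T => ⟨S.1 * T.1, h.ol_mul S.2 T.2⟩⟩
instance : One h.Gp := ⟨⟨ord θ, h.ol_ord⟩⟩

/-- the norm -/
def nr (S : h.Gp) : ℝ := (h.exists_nm S.2).choose

lemma nr_spec (S : h.Gp) : Nm θ S.1 (h.nr S) := (h.exists_nm S.2).choose_spec

instance : Inv h.Gp :=
  ⟨fun S => ⟨sp (h.nr S : ℂ)⁻¹ * cj S.1, (h.ol_cj S.2).sp_mul (inv_ne_zero (h.nr_spec S).ne)⟩⟩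

lemma val_mul (S T : h.Gp) : (S * T).1 = S.1 * T.1 := rfl
lemma val_one : (1 : h.Gp).1 = ord θ := rfl
lemma val_inv (S : h.Gp) : (S⁻¹).1 = sp (h.nr S : ℂ)⁻¹ * cj S.1 := rfl

instance : Group h.Gp := Group.ofLeftAxioms
  (fun a b c => Gp.ext (mul_assoc a.1 b.1 c.1))
  (fun a => Gp.ext a.2.ord_mul28)
  (fun a => Gp.ext (by
    rw [val_mul, val_inv, val_one, mul_assoc, mul_comm (cj a.1), (h.nr_spec a).eq, ← mul_assoc,
      sp_mul_sp, inv_mul_cancel₀ (h.nr_spec a).ne, sp_one_mul]))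

instance : CommGroup h.Gp := { mul_comm := fun a b => Gp.ext (mul_comm a.1 b.1) }

/-- principal lattices -/
def prin : ℂˣ →* h.Gp where
  toFun a := ⟨sp a * ord θ, h.ol_ord.sp_mul a.ne_zero⟩
  map_one' := Gp.ext (by simp [val_one, sp_one_mul])
  map_mul' a b := Gp.ext (by
    rw [val_mul]; dsimp only
    rw [mul_mul_mul_comm, sp_mul_sp, h.ord_mul_ord, Units.val_mul])

lemma val_prin_mul (a : ℂˣ) (S : h.Gp) : (h.prin a * S).1 = sp a * S.1 := by
  rw [val_mul]
  show sp a * ord θ * S.1 = _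
  rw [mul_assoc, S.2.ord_mul28]

/-- the class group -/
abbrev Cl : Type := h.Gp ⧸ h.prin.range

open Classical in
/-- the class -/
def cl (S : Sm) : h.Cl := if hS : OL θ S then QuotientGroup.mk (⟨S, hS⟩ : h.Gp) else 1

lemma cl_val (S : h.Gp) : h.cl S.1 = QuotientGroup.mk S := by
  unfold cl; rw [dif_pos S.2]


lemma mk_eq_iff (S T : h.Gp) :
    (QuotientGroup.mk S : h.Cl) = QuotientGroup.mk T ↔ ∃ a : ℂ, a ≠ 0 ∧ T.1 = sp a * S.1 := by
  rw [QuotientGroup.eq]
  constructor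
  · rintro ⟨a, ha⟩
    refine ⟨a, a.ne_zero, ?_⟩
    rw [← val_prin_mul, ha, mul_comm, mul_inv_cancel_left]
  · rintro ⟨a, ha, e⟩
    refine ⟨Units.mk0 a ha, ?_⟩
    have : T = h.prin (Units.mk0 a ha) * S := Gp.ext (by rw [val_prin_mul, e]; rfl)
    rw [this, mul_comm (h.prin _), inv_mul_cancel_left]

lemma cl_sp {S : Sm} (hS : OL θ S) {a : ℂ} (ha : a ≠ 0) : h.cl (sp a * S) = h.cl S := by
  have := (h.mk_eq_iff ⟨S, hS⟩ ⟨_, hS.sp_mul ha⟩).2 ⟨a, ha, rfl⟩
  rw [← cl_val, ← cl_val] at this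
  exact this.symm

lemma cl_cj {S : Sm} (hS : OL θ S) : h.cl (cj S) = (h.cl S)⁻¹ := by
  have e := h.cl_val (Inv.inv (α := h.Gp) ⟨S, hS⟩)
  rw [val_inv, h.cl_sp (h.ol_cj hS) (inv_ne_zero (h.nr_spec _).ne), QuotientGroup.mk_inv,
    ← cl_val] at e
  exact e

lemma qu_eq (T b : h.Gp) : qu T.1 b.1 = (T * b⁻¹).1 := by
  ext z
  rw [mem_qu]
  constructor
  · intro hz
    have h1 : z ∈ sp z * (b * b⁻¹).1 := by
      rw [mul_inv_cancel, val_one]; exact mem_sp_mul.2 ⟨1, one_mem_ord θ, mul_one _⟩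
    rw [val_mul, ← mul_assoc] at h1
    refine mul_le_mul_left (show sp z * b.1 ≤ T.1 from fun v hv => ?_) _ h1
    obtain ⟨w, hw, rfl⟩ := mem_sp_mul.1 hv
    rw [mul_comm]; exact hz w hw
  · intro hz β hβ
    have h1 : β * z ∈ (b * (T * b⁻¹)).1 := mul_mem_mul hβ hz
    rwa [mul_comm T, mul_inv_cancel_left] at h1

include h in
/-- a shortest vector, normalised to `1` -/
lemma exists_short {S : Sm} (hS : OL θ S) (P : ℂ → Prop) (hP : ∃ z ∈ S, z ≠ 0 ∧ P z) :
    ∃ a ∈ S, a ≠ 0 ∧ P a ∧ ∀ z ∈ S, P z → Complex.normSq z < Complex.normSq a → z = 0 := by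
  classical
  obtain ⟨N, hN⟩ := h.exists_nm hS
  have hex : ∃ n : ℕ, ∃ z ∈ S, z ≠ 0 ∧ P z ∧ z * conj z = N * n := by
    obtain ⟨z, hz, h0, hp⟩ := hP
    obtain ⟨n, hn⟩ := h.nm_int hN hz
    exact ⟨n, z, hz, h0, hp, hn⟩
  obtain ⟨a, ha, h0, hp, hn⟩ := Nat.find_spec hex
  refine ⟨a, ha, h0, hp, fun z hz hpz hlt => ?_⟩
  by_contra hz0
  obtain ⟨n, hn'⟩ := h.nm_int hN hz
  have := Nat.find_min' hex ⟨z, hz, hz0, hpz, hn'⟩
  rw [Complex.mul_conj] at hn hn'
  have e1 : Complex.normSq a = N * (Nat.find hex : ℕ) := by exact_mod_cast hn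
  have e2 : Complex.normSq z = N * n := by exact_mod_cast hn'
  have e3 : ((Nat.find hex : ℕ) : ℝ) ≤ n := by exact_mod_cast this
  nlinarith [hN.pos]

include h in
lemma exists_coord (z : ℂ) : ∃ s t : ℝ, z = s + t * θ := by
  refine ⟨z.re - z.im / θ.im * θ.re, z.im / θ.im, Complex.ext ?_ ?_⟩
  · simp [-Complex.ofReal_div]
  · simp [-Complex.ofReal_div, h.im_ne]

include h in
/-- Hurwitz: every lattice is homothetic to one between `O` and `O / D!` -/
lemma exists_between {S : Sm} (hS : OL θ S) : ∃ a : ℂ, a ≠ 0 ∧ ord θ ≤ sp a * S ∧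
    ∀ z ∈ sp a * S, ((D.factorial : ℕ) : ℂ) * z ∈ ord θ := by
  obtain ⟨a, ha, h0, -, hmin⟩ := h.exists_short hS (fun _ => True) (by
    obtain ⟨a, ha, h0⟩ := hS.lat.exists_ne
    exact ⟨a, ha, h0, trivial⟩)
  have hT := hS.sp_mul (inv_ne_zero h0)
  have h1 : (1 : ℂ) ∈ sp a⁻¹ * S := mem_sp_mul.2 ⟨a, ha, inv_mul_cancel₀ h0⟩
  have hle : ord θ ≤ sp a⁻¹ * S := fun g hg => by simpa using hT.mul_mem hg h1
  refine ⟨a⁻¹, inv_ne_zero h0, hle, fun z hz => ?_⟩
  obtain ⟨s, t, rfl⟩ := h.exists_coord z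
  obtain ⟨j, k, hk0, hk1, hjk⟩ := Real.exists_int_int_abs_mul_sub_le t h.pos
  set ε : ℝ := k * t - j with hε
  set i : ℤ := round (k * s + ε / 2) with hi
  have hi' : |k * s + ε / 2 - i| ≤ 1 / 2 := abs_sub_round _
  set v : ℂ := k * (s + t * θ) - (i + j * θ) with hv
  have hvT : v ∈ sp a⁻¹ * S := Submodule.sub_mem _ (int_mul_mem k hz) (hle (mem_ord28.2 ⟨i, j, rfl⟩))
  have hre : v.re = k * s + ε / 2 - i := by simp [hv, hε, h.re_im.1]; ring
  have him : v.im = ε * θ.im := by simp [hv, hε]; ring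
  have hn : Complex.normSq v < 1 := by
    rw [Complex.normSq_apply, hre, him]
    have hD : (0 : ℝ) < D := by exact_mod_cast h.pos
    have a1 : (k * s + ε / 2 - i) * (k * s + ε / 2 - i) ≤ 1 / 4 := by
      have := abs_le.1 hi'; nlinarith
    have a2 : |ε| * (D + 1) ≤ 1 := by rwa [← le_div_iff₀ (by positivity)]
    have a3 : ε * ε * (D + 1) ^ 2 ≤ 1 := by
      have := abs_nonneg ε
      have e := abs_mul_abs_self ε
      have : (|ε| * (D + 1)) ^ 2 ≤ 1 := pow_le_one₀ (by positivity) a2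
      nlinarith
    have a4 : ε * θ.im * (ε * θ.im) = ε * ε * D / 4 := by rw [← h.re_im.2]; ring
    have a5 : ε * ε * D ≤ 1 := by nlinarith [mul_self_nonneg ε, sq_nonneg (D : ℝ)]
    rw [a4]; linarith
  have hv0 : v = 0 := by
    rw [mem_sp_mul' (inv_ne_zero h0), inv_inv] at hvT
    have := hmin _ hvT trivial (by
      rw [map_mul]; nlinarith [Complex.normSq_pos.2 h0, Complex.normSq_nonneg v])
    exact (mul_eq_zero.1 this).resolve_left h0
  obtain ⟨k', rfl⟩ := Int.eq_ofNat_of_zero_le hk0.le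
  obtain ⟨c, hc⟩ := Nat.dvd_factorial (show 0 < k' by exact_mod_cast hk0)
    (show k' ≤ D by exact_mod_cast hk1)
  have : ((D.factorial : ℕ) : ℂ) * (s + t * θ) = (c : ℤ) * (i + j * θ) := by
    rw [hc]; push_cast at hv ⊢; linear_combination (c : ℂ) * hv0 - c * hv
  rw [this]
  exact int_mul_mem _ (mem_ord28.2 ⟨i, j, rfl⟩)

instance finite_cl : Finite h.Cl := by
  classical
  set M := D.factorial with hM
  have hM0 : 0 < M := Nat.factorial_pos D
  have hM' : (M : ℂ) ≠ 0 := by exact_mod_cast hM0.ne'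
  have key : ∀ g : h.Cl, ∃ T : h.Gp, QuotientGroup.mk T = g ∧ ord θ ≤ T.1 ∧
      ∀ z ∈ T.1, (M : ℂ) * z ∈ ord θ := by
    intro g
    obtain ⟨S, rfl⟩ := QuotientGroup.mk_surjective g
    obtain ⟨a, ha, h1, h2⟩ := h.exists_between S.2
    exact ⟨⟨_, S.2.sp_mul ha⟩, ((h.mk_eq_iff _ _).2 ⟨a, ha, rfl⟩).symm, h1, h2⟩
  choose T h1 h2 h3 using key
  let f : h.Cl → Fin M × Fin M → Prop := fun g p =>
    (((p.1 : ℕ) : ℂ) + ((p.2 : ℕ) : ℂ) * θ) / M ∈ (T g).1
  have le : ∀ g g', f g = f g' → (T g).1 ≤ (T g').1 := by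
    intro g g' e z hz
    obtain ⟨x, y, exy⟩ := mem_ord28.1 (h3 g z hz)
    have hMz : (M : ℤ) ≠ 0 := by exact_mod_cast hM0.ne'
    have hMz' : (0 : ℤ) < M := by exact_mod_cast hM0
    obtain ⟨x0, hx0⟩ := Int.eq_ofNat_of_zero_le (Int.emod_nonneg x hMz)
    obtain ⟨y0, hy0⟩ := Int.eq_ofNat_of_zero_le (Int.emod_nonneg y hMz)
    have hx1 : x0 < M := by have := Int.emod_lt_of_pos x hMz'; omega
    have hy1 : y0 < M := by have := Int.emod_lt_of_pos y hMz'; omega
    have ex : (x : ℂ) = x0 + M * (x / M : ℤ) := by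
      have := Int.emod_add_mul_ediv x M
      rw [hx0] at this
      exact_mod_cast this.symm
    have ey : (y : ℂ) = y0 + M * (y / M : ℤ) := by
      have := Int.emod_add_mul_ediv y M
      rw [hy0] at this
      exact_mod_cast this.symm
    have ez : ((x0 : ℂ) + y0 * θ) / M = z - ((x / M : ℤ) + (y / M : ℤ) * θ) := by
      field_simp
      linear_combination exy - ex - θ * ey
    have hm : ((x / M : ℤ) : ℂ) + (y / M : ℤ) * θ ∈ ord θ := mem_ord28.2 ⟨_, _, rfl⟩
    have a1 : f g (⟨x0, hx1⟩, ⟨y0, hy1⟩) := by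
      show ((x0 : ℂ) + y0 * θ) / M ∈ _
      rw [ez]; exact Submodule.sub_mem _ hz (h2 g hm)
    rw [e] at a1
    have a2 : ((x0 : ℂ) + y0 * θ) / M ∈ (T g').1 := a1
    rw [ez] at a2
    simpa using Submodule.add_mem _ a2 (h2 g' hm)
  refine Finite.of_injective f fun g g' e => ?_
  rw [← h1 g, ← h1 g', Gp.ext (le_antisymm (le g g' e) (le g' g e.symm))]

/-! ### the genus character -/

section genus

variable (p : ℕ) [Fact p.Prime] (hp : p ∣ D)

/-- `S` represents `n` -/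
def Rep (S : h.Gp) (n : ℕ) : Prop := ∃ z ∈ S.1, z * conj z = h.nr S * n

lemma rep_of {S : h.Gp} {N : ℝ} (hN : Nm θ S.1 N) {z : ℂ} (hz : z ∈ S.1) {n : ℕ}
    (e : z * conj z = N * n) : h.Rep S n := ⟨z, hz, by rw [h.nm_unique (h.nr_spec S) hN, e]⟩

lemma exists_rep (S : h.Gp) : ∃ n, h.Rep S n ∧ ¬ p ∣ n := by
  by_contra hc
  have hc' : ∀ z ∈ S.1, ∃ k : ℤ, z * conj z = h.nr S * (p * k) := by
    intro z hz
    obtain ⟨n, hn⟩ := h.nm_int (h.nr_spec S) hz
    obtain ⟨k, rfl⟩ : p ∣ n := by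
      by_contra hd; exact hc ⟨n, ⟨z, hz, hn⟩, hd⟩
    exact ⟨k, by rw [hn]; push_cast; rfl⟩
  have key : ∀ v ∈ S.1 * cj S.1, ∃ k : ℤ, v + conj v = h.nr S * (p * k) := by
    intro v hv
    refine Submodule.mul_induction_on hv (fun z hz w hw => ?_) ?_
    · rw [mem_cj] at hw
      obtain ⟨a, ha⟩ := hc' z hz
      obtain ⟨b, hb⟩ := hc' _ hw
      obtain ⟨c, hc⟩ := hc' _ (S.1.add_mem hz hw)
      simp only [map_add, map_mul, Complex.conj_conj] at ha hb hc ⊢
      exact ⟨c - a - b, by push_cast; linear_combination hc - ha - hb⟩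
    · rintro x y ⟨a, ha⟩ ⟨b, hb⟩
      exact ⟨a + b, by rw [map_add]; push_cast; linear_combination ha + hb⟩
  obtain ⟨k, hk⟩ := key (h.nr S * θ) (by
    rw [(h.nr_spec S).eq]; exact mem_sp_mul.2 ⟨θ, self_mem_ord θ, rfl⟩)
  rw [map_mul, h.conj_eq, Complex.conj_ofReal] at hk
  have h1 : (1 : ℂ) = p * k := by
    apply mul_left_cancel₀ (h.nr_spec S).ne
    linear_combination hk
  have h2 : (1 : ℤ) = p * k := by exact_mod_cast h1
  have h3 : p ∣ 1 := by exact_mod_cast (Dvd.intro _ h2.symm : (p : ℤ) ∣ 1)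
  exact (Fact.out : p.Prime).one_lt.ne' (Nat.dvd_one.1 h3)

lemma leg_ne {n : ℕ} (hn : ¬ p ∣ n) : ((n : ℤ) : ZMod p) ≠ 0 := by
  rw [Int.cast_natCast, Ne, ZMod.natCast_eq_zero_iff]; exact hn

include hp in
lemma leg_eq (h2 : p ≠ 2) {S : h.Gp} {a b : ℕ} (ha : h.Rep S a) (hb : h.Rep S b) (ha' : ¬ p ∣ a)
    (hb' : ¬ p ∣ b) : legendreSym p a = legendreSym p b := by
  obtain ⟨z, hz, ez⟩ := ha
  obtain ⟨w, hw, ew⟩ := hb
  obtain ⟨u, v, e⟩ := h.norm_form ((h.nr_spec S).mem hz hw)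
  have hN := (h.nr_spec S).ne
  have e1 : (4 : ℂ) * (a * b) = u ^ 2 + D * v ^ 2 := by
    rw [← e]
    simp only [map_mul, map_inv₀, Complex.conj_ofReal, Complex.conj_conj]
    field_simp
    linear_combination (-(w * conj w)) * ez - h.nr S * a * ew
  have e2 : (4 : ℤ) * (a * b) = u ^ 2 + D * v ^ 2 := by exact_mod_cast e1
  have hD : (D : ZMod p) = 0 := (ZMod.natCast_eq_zero_iff _ _).2 hp
  have e3 : (4 : ZMod p) * (a * b) = (u : ZMod p) ^ 2 := by
    have := congrArg (Int.cast : ℤ → ZMod p) e2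
    push_cast at this
    rw [this, hD]; ring
  have h2' : (2 : ZMod p) ≠ 0 := by
    have := leg_ne p (n := 2) fun hd =>
      h2 ((Nat.prime_dvd_prime_iff_eq Fact.out Nat.prime_two).1 hd)
    exact_mod_cast this
  have hab : legendreSym p (a * b) = 1 := by
    rw [legendreSym.eq_one_iff p (by
      push_cast; exact mul_ne_zero (by simpa using leg_ne p ha') (by simpa using leg_ne p hb'))]
    refine ⟨u / 2, ?_⟩
    push_cast
    field_simp
    linear_combination e3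
  rw [legendreSym.mul] at hab
  rcases legendreSym.eq_one_or_neg_one p (leg_ne p ha') with e | e <;>
    rcases legendreSym.eq_one_or_neg_one p (leg_ne p hb') with e' | e' <;>
    rw [e, e'] at hab ⊢ <;> omega

/-- the value of the genus character -/
def chi0 (S : h.Gp) : ℤ := legendreSym p (h.exists_rep p S).choose

include hp in
lemma chi0_eq (h2 : p ≠ 2) {S : h.Gp} {n : ℕ} (hn : h.Rep S n) (hn' : ¬ p ∣ n) :
    h.chi0 p S = legendreSym p n :=
  h.leg_eq p hp h2 (h.exists_rep p S).choose_spec.1 hn (h.exists_rep p S).choose_spec.2 hn'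

lemma not_dvd_one : ¬ p ∣ 1 := fun hd => (Fact.out : p.Prime).one_lt.ne' (Nat.dvd_one.1 hd)

include hp in
lemma chi0_prin (h2 : p ≠ 2) (a : ℂˣ) : h.chi0 p (h.prin a) = 1 := by
  rw [h.chi0_eq p hp h2 (n := 1) (h.rep_of (h.nm_sp h.nm_ord a.ne_zero) (z := a)
    (mem_sp_mul.2 ⟨1, one_mem_ord θ, mul_one _⟩) (by rw [Complex.mul_conj]; simp)) (not_dvd_one p)]
  simp

/-- the genus character on lattices -/
def chi1 (h2 : p ≠ 2) : h.Gp →* ℤ where
  toFun := h.chi0 p
  map_one' := by rw [← map_one h.prin]; exact h.chi0_prin p hp h2 1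
  map_mul' S T := by
    obtain ⟨a, ⟨z, hz, ez⟩, ha⟩ := h.exists_rep p S
    obtain ⟨b, ⟨w, hw, ew⟩, hb⟩ := h.exists_rep p T
    rw [h.chi0_eq p hp h2 ⟨z, hz, ez⟩ ha, h.chi0_eq p hp h2 ⟨w, hw, ew⟩ hb,
      h.chi0_eq p hp h2 (n := a * b) (h.rep_of (S := S * T) (h.nm_mul (h.nr_spec S) (h.nr_spec T))
        (mul_mem_mul hz hw) (by
          rw [map_mul]; push_cast
          linear_combination (w * conj w) * ez + h.nr S * a * ew))
        (fun hd => ((Fact.out : p.Prime).dvd_mul.1 hd).elim ha hb)]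
    push_cast
    exact legendreSym.mul p _ _

/-- the genus character -/
def chi (h2 : p ≠ 2) : h.Cl →* ℤˣ :=
  QuotientGroup.lift _ (h.chi1 p hp h2).toHomUnits (by
    rintro _ ⟨a, rfl⟩
    exact Units.ext (h.chi0_prin p hp h2 a))

lemma chi_eq (h2 : p ≠ 2) {S : Sm} (hS : OL θ S) {N : ℝ} (hN : Nm θ S N) {z : ℂ} (hz : z ∈ S)
    {n : ℕ} (e : z * conj z = N * n) (hn : ¬ p ∣ n) :
    (h.chi p hp h2 (h.cl S) : ℤ) = legendreSym p n := by
  rw [h.cl_val ⟨S, hS⟩]
  exact h.chi0_eq p hp h2 (h.rep_of (S := ⟨S, hS⟩) hN hz e) hn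

end genus

include h in
/-- a class of order two contains an ambiguous lattice `T ∋ 1` with `δ T ⊆ O` -/
lemma exists_amb {S : Sm} (hS : OL θ S) (hs : h.cl S * h.cl S = 1) :
    ∃ T, OL θ T ∧ h.cl T = h.cl S ∧ cj T = T ∧ (1 : ℂ) ∈ T ∧ ∀ z ∈ T, (2 * θ - 1) * z ∈ ord θ := by
  -- Hilbert 90
  have h90 : ∃ T, OL θ T ∧ h.cl T = h.cl S ∧ cj T = T := by
    have e : h.cl S = h.cl (cj S) := by rw [h.cl_cj hS]; exact eq_inv_of_mul_eq_one_left hs
    rw [h.cl_val ⟨S, hS⟩, h.cl_val ⟨_, h.ol_cj hS⟩, h.mk_eq_iff] at e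
    obtain ⟨a, ha, e⟩ := e
    dsimp only at e
    obtain ⟨N, hN⟩ := h.exists_nm hS
    have h1 := h.nm_unique (e ▸ h.nm_cj hN) (h.nm_sp hN ha)
    have h2 : Complex.normSq a = 1 := by
      apply mul_right_cancel₀ hN.pos.ne'; linarith
    have h3 : a * conj a = 1 := by rw [Complex.mul_conj, h2]; simp
    by_cases hb : 1 + a = 0
    · refine ⟨S, hS, rfl, ?_⟩
      rw [e, show a = -1 by linear_combination hb]
      ext z; rw [mem_sp_mul' (by norm_num)]; simp
    · refine ⟨_, hS.sp_mul hb, h.cl_sp hS hb, ?_⟩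
      rw [cj_mul, cj_sp, e, ← mul_assoc, sp_mul_sp]
      congr 2
      rw [map_add, map_one]; linear_combination h3
  obtain ⟨T, hT, e1, e2⟩ := h90
  have hc : ∀ z ∈ T, conj z ∈ T := fun z hz => e2 ▸ conj_mem_cj hz
  obtain ⟨a, ha, h0, hr, hmin⟩ := h.exists_short hT (fun z => z.im = 0) (by
    obtain ⟨a, b, h1, h2⟩ := hT.lat.basis
    by_contra hne
    have key : ∀ z ∈ T, z.re = 0 := by
      intro z hz
      by_contra hz0
      refine hne ⟨z + conj z, T.add_mem hz (hc z hz), fun e => hz0 ?_, by simp⟩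
      have := congrArg Complex.re e
      simp at this; linarith
    have ha := key a ((h1 a).2 ⟨1, 0, by simp⟩)
    have hb := key b ((h1 b).2 ⟨0, 1, by simp⟩)
    have h3 := h2 b.im (-a.im) (Complex.ext (by simp [ha, hb]) (by simp; ring))
    have h4 : a = 0 := Complex.ext ha (by simpa using h3.2)
    exact one_ne_zero (h2 1 0 (by simp [h4])).1)
  obtain ⟨r, rfl⟩ : ∃ r : ℝ, a = r := ⟨a.re, Complex.ext rfl (by simpa using hr)⟩
  have hr0 : r ≠ 0 := by exact_mod_cast h0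
  have hT' := hT.sp_mul (inv_ne_zero h0)
  have e3 : cj (sp (r : ℂ)⁻¹ * T) = sp (r : ℂ)⁻¹ * T := by
    rw [cj_mul, cj_sp, e2, map_inv₀, Complex.conj_ofReal]
  have hint : ∀ z ∈ sp (r : ℂ)⁻¹ * T, ∃ k : ℤ, z + conj z = k := by
    intro z hz
    have h1 : z + conj z ∈ sp (r : ℂ)⁻¹ * T := Submodule.add_mem _ hz (e3 ▸ conj_mem_cj hz)
    rw [mem_sp_mul' (inv_ne_zero h0), inv_inv, Complex.add_conj] at h1
    set x : ℝ := 2 * z.re with hx
    have h2 := hmin _ (T.sub_mem h1 (int_mul_mem ⌊x⌋ ha)) (by simp) (by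
      rw [show (r : ℂ) * x - ⌊x⌋ * r = (r * Int.fract x : ℝ) by
        rw [Int.fract]; push_cast; ring, Complex.normSq_ofReal, Complex.normSq_ofReal]
      have a1 := Int.fract_nonneg x
      have a2 := Int.fract_lt_one x
      have a3 : 0 < r * r := mul_self_pos.2 hr0
      have a4 : Int.fract x * Int.fract x < 1 := by nlinarith
      nlinarith)
    refine ⟨⌊x⌋, ?_⟩
    rw [Complex.add_conj]
    apply mul_left_cancel₀ h0
    linear_combination h2
  refine ⟨_, hT', (h.cl_sp hT (inv_ne_zero h0)).trans e1, e3,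
    mem_sp_mul.2 ⟨r, ha, inv_mul_cancel₀ h0⟩, fun z hz => ?_⟩
  obtain ⟨u, hu⟩ := hint z hz
  obtain ⟨k, hk⟩ := hint _ (hT'.mul z hz)
  rw [map_mul, h.conj_eq] at hk
  exact mem_ord28.2 ⟨k - u, u, by push_cast; linear_combination -hk + (1 - θ) * hu⟩

end Qd

theorem clStmt : ClStmt := by
  intro p q hp hq hp8 hq8 hns δ θ hδ hθ
  have := Fact.mk hp
  have hpq : p ≠ q := by omega
  have hp2 : p ≠ 2 := by omega
  have h8 : (p * q) % 8 = 7 := by rw [Nat.mul_mod, hp8, hq8]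
  obtain ⟨m', hm'⟩ : ∃ m' : ℕ, 8 * m' = 1 + p * q := ⟨(1 + p * q) / 8, by omega⟩
  have hm'' : (8 : ℂ) * m' = 1 + p * q := by exact_mod_cast hm'
  have h : Qd θ (2 * m') (p * q) := by
    refine ⟨?_, by push_cast; exact_mod_cast (by omega : 4 * (2 * m') = 1 + p * q),
      Nat.mul_pos hp.pos hq.pos, ?_⟩
    · rw [hθ]; push_cast; linear_combination hδ / 4 + hm'' / 4
    · rw [Nat.squarefree_mul ((Nat.coprime_primes hp hq).2 hpq)]
      exact ⟨hp.squarefree, hq.squarefree⟩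
  have hpd : p ∣ p * q := dvd_mul_right p q
  have hsq := h.sq
  push_cast at hsq
  have hm2 : ∀ z, z ∈ pr2 θ ↔ ∃ x y : ℤ, x * 2 + y * θ = z := fun z => by
    simp [pr2, mem_span_pair]
  have h2 : OL θ (pr2 θ) := by
    refine ⟨isLat_of hm2 fun s t e => ?_, fun z hz => ?_⟩
    · have := h.indep (s := s * 2) (t := t) (by push_cast; exact e)
      exact ⟨by linarith [this.1], this.2⟩
    · obtain ⟨x, y, rfl⟩ := (hm2 z).1 hz
      exact (hm2 _).2 ⟨-(y * m'), 2 * x + y, by push_cast; linear_combination (-y) * hsq⟩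
  have h22 : (2 : ℂ) ∈ pr2 θ := (hm2 _).2 ⟨1, 0, by simp⟩
  have h2t : θ ∈ pr2 θ := (hm2 _).2 ⟨0, 1, by simp⟩
  have hn2 : Nm θ (pr2 θ) 2 := by
    refine ⟨two_pos, le_antisymm (Submodule.mul_le.2 fun v hv w hw => ?_) fun v hv => ?_⟩
    · rw [mem_cj] at hw
      obtain ⟨i, j, rfl⟩ := (hm2 _).1 hv
      obtain ⟨k, l, e⟩ := (hm2 _).1 hw
      have e' := congrArg conj e
      simp only [map_add, map_mul, map_intCast, Complex.conj_conj, h.conj_eq, map_ofNat] at e'
      rw [← e', mem_sp_mul]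
      refine ⟨_, mem_ord28.2 ⟨2 * i * k + i * l + j * l * m', j * k - i * l, rfl⟩, ?_⟩
      push_cast
      linear_combination (j * l) * hsq
    · obtain ⟨g, hg, rfl⟩ := mem_sp_mul.1 hv
      obtain ⟨i, j, rfl⟩ := mem_ord28.1 hg
      have q1 := mul_mem_mul h2t (conj_mem_cj h22)
      have q2 := mul_mem_mul h22 (conj_mem_cj h2t)
      rw [map_ofNat] at q1
      rw [h.conj_eq] at q2
      have := Submodule.add_mem _ (int_mul_mem (i + j) q1) (int_mul_mem i q2)
      convert this using 1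
      push_cast; ring
  have hq' : legendreSym p q = -1 := (legendreSym.eq_neg_one_iff p).2 (by simpa using hns)
  have hpq' : ¬ p ∣ q := fun hd => hpq ((Nat.prime_dvd_prime_iff_eq hp hq).1 hd)
  refine ⟨h.Cl, inferInstance, Fintype.ofFinite _, h.cl, h.chi p hpd hp2, h.ol_ord, h2,
    h.cl_val 1, fun S T hS hT => ?_, fun g => ?_, fun T b hT hb => ?_,
    fun S hS => ⟨h.ol_cj hS, h.cl_cj hS⟩, ?_, ?_⟩
  · rw [h.cl_val ⟨S, hS⟩, h.cl_val ⟨T, hT⟩, h.mk_eq_iff]
    constructor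
    · rintro ⟨a, ha, e⟩; exact ⟨a⁻¹, inv_ne_zero ha, by rw [← sp_mul_eq ha]; exact e⟩
    · rintro ⟨a, ha, e⟩; exact ⟨a⁻¹, inv_ne_zero ha, by rw [← dv_eq ha]; exact e⟩
  · obtain ⟨S, rfl⟩ := QuotientGroup.mk_surjective g
    obtain ⟨s, hs, hs0⟩ := S.2.lat.exists_ne
    have hN := h.nr_spec S
    have ha : (h.nr S : ℂ)⁻¹ * conj s ≠ 0 := mul_ne_zero (inv_ne_zero hN.ne) (by simpa using hs0)
    refine ⟨_, S.2.sp_mul ha, fun v hv => ?_, (h.cl_sp S.2 ha).trans (h.cl_val S)⟩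
    obtain ⟨w, hw, rfl⟩ := mem_sp_mul.1 hv
    convert hN.mem hw hs using 1
    ring
  · have e := h.qu_eq ⟨T, hT⟩ ⟨b, hb⟩
    dsimp only at e
    rw [e, h.cl_val, h.cl_val ⟨T, hT⟩, h.cl_val ⟨b, hb⟩]
    exact ⟨Qd.Gp.ol _, rfl⟩
  · rw [← Nat.not_even_iff_odd, even_iff_two_dvd]
    intro hd
    obtain ⟨⟨g, hg⟩, ho⟩ := exists_prime_orderOf_dvd_card' (G := (h.chi p hpd hp2).ker) 2 hd
    have hg1 : g ≠ 1 := by
      rintro rfl
      have : orderOf (⟨1, hg⟩ : (h.chi p hpd hp2).ker) = 1 := orderOf_one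
      omega
    have hg2 : g * g = 1 := by
      have := pow_orderOf_eq_one (⟨g, hg⟩ : (h.chi p hpd hp2).ker)
      rw [ho, pow_two] at this
      exact congrArg Subtype.val this
    obtain ⟨S, rfl⟩ := QuotientGroup.mk_surjective g
    rw [← h.cl_val] at hg hg1 hg2
    obtain ⟨T, hT, e1, e2, h1, hδT⟩ := h.exists_amb S.2 hg2
    rw [← e1] at hg hg1
    have hg' : (h.chi p hpd hp2 (h.cl T) : ℤ) = 1 := by rw [MonoidHom.mem_ker.1 hg]; rfl
    obtain ⟨N, hN⟩ := h.exists_nm hT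
    obtain ⟨d, he⟩ := h.nm_int hN h1
    have hd1 : (N : ℂ) * d = 1 := by simpa using he.symm
    have hd1' : N * d = 1 := by exact_mod_cast hd1
    have hδ0 : 2 * θ - 1 ≠ 0 := by
      intro e
      have := h.dsq
      rw [e, mul_zero] at this
      have h3 : ((p * q : ℕ) : ℂ) = 0 := by linear_combination this
      exact h.pos.ne' (by exact_mod_cast h3)
    have hT' := hT.sp_mul hδ0
    have hns' : Complex.normSq (2 * θ - 1) = (p * q : ℕ) := by
      have := h.dsq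
      have h3 := Complex.mul_conj (2 * θ - 1)
      simp only [map_sub, map_mul, map_ofNat, map_one, h.conj_eq] at h3
      have h4 : (Complex.normSq (2 * θ - 1) : ℂ) = (p * q : ℕ) := by linear_combination -h3 - this
      exact_mod_cast h4
    have hN' := h.nm_sp hN hδ0
    rw [hns'] at hN'
    have hle : sp (2 * θ - 1) * T ≤ ord θ := fun v hv => by
      obtain ⟨w, hw, rfl⟩ := mem_sp_mul.1 hv
      exact hδT w hw
    -- the norm of an ambiguous lattice
    have hcj : cj (sp (2 * θ - 1) * T) = sp (2 * θ - 1) * T := by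
      rw [cj_mul, cj_sp, e2]
      simp only [map_sub, map_mul, map_ofNat, map_one, h.conj_eq]
      rw [show 2 * (1 - θ) - 1 = -(2 * θ - 1) by ring, sp, ← Set.neg_singleton, span_neg, sp]
    have hmem : (((p * q : ℕ) * N : ℝ) : ℂ) ∈ sp (2 * θ - 1) * T := by
      have a1 : (((p * q : ℕ) * N : ℝ) : ℂ) ∈ sp (2 * θ - 1) * T * cj (sp (2 * θ - 1) * T) := by
        rw [hN'.eq]; exact mem_sp_mul.2 ⟨1, one_mem_ord θ, mul_one _⟩
      rw [hcj] at a1
      have a2 := mul_le_mul_left hle (sp (2 * θ - 1) * T) a1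
      rwa [hT'.ord_mul28] at a2
    obtain ⟨k, hk⟩ := h.real_mem (hle hmem)
    have hdk : (p * q : ℕ) = (d : ℤ) * k := by
      have : ((p * q : ℕ) : ℝ) = d * k := by rw [← hk]; linear_combination (-(p * q : ℕ)) * hd1'
      exact_mod_cast this
    have hdd : d ∣ p * q := by exact_mod_cast (Dvd.intro _ hdk.symm : (d : ℤ) ∣ (p * q : ℕ))
    have hone : ∀ {U : Sm}, OL θ U → (1 : ℂ) ∈ U → U ≤ ord θ → h.cl U = 1 := by
      intro U hU a1 a2
      rw [le_antisymm a2 fun g hg => by simpa using hU.mul_mem hg a1]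
      exact h.cl_val 1
    obtain ⟨d1, d2, a1, a2, rfl⟩ := (Nat.dvd_mul).1 hdd
    rcases (Nat.dvd_prime hp).1 a1 with rfl | rfl <;> rcases (Nat.dvd_prime hq).1 a2 with rfl | rfl
    · refine hg1 (hone hT h1 fun z hz => ?_)
      have := hN.mem hz h1
      rwa [show (N : ℂ) = 1 by simpa using hd1, inv_one, map_one, one_mul, mul_one] at this
    · rw [h.chi_eq p hpd hp2 hT hN h1 he (by simpa using hpq'), one_mul, hq'] at hg'
      omega
    · have hNq : ((d1 * q : ℕ) : ℝ) * N = q := by push_cast at hd1' ⊢; linear_combination q * hd1'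
      rw [hNq] at hmem hN'
      rw [← h.cl_sp hT hδ0, h.chi_eq d1 hpd hp2 hT' hN' hmem (n := q)
        (by rw [Complex.conj_ofReal]; simp) hpq', hq'] at hg'
      omega
    · have hN1 : ((d1 * d2 : ℕ) : ℝ) * N = 1 := by linear_combination hd1'
      rw [hN1] at hmem
      exact hg1 ((h.cl_sp hT hδ0).symm.trans (hone hT' (by simpa using hmem) hle))
  · apply Units.ext
    rw [h.chi_eq p hpd hp2 h2 hn2 h22 (n := 2) (by rw [map_ofNat]; simp)
      (fun hd => hp2 ((Nat.prime_dvd_prime_iff_eq hp Nat.prime_two).1 hd))]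
    rw [show ((2 : ℕ) : ℤ) = 2 from rfl, legendreSym.at_two hp2, ZMod.χ₈_nat_eq_if_mod_eight]
    simp [hp8, show p % 2 = 1 by omega]

end Crest.Agent.T15.Cm
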