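import Crest.Agent.T15.CmB_13

-- ▼ part T15/CmC_13
section

/-!
# Row 15, block Q (helper13), part C: a point of `s⁴ + b² = 1` attached to a chain of five
2-isogenies; Landen's transformation and the reversal of the chain
-/

set_option autoImplicit false
set_option linter.unusedSectionVars false

noncomputable section

namespace Crest.Agent.T15.Cm

variable {S : Sm}

/-- a nonzero point of order two -/
structure Hp (S : Sm) (ω : ℂ) : Prop where
  two : 2 * ω ∈ S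
  ne : ω ∉ S

lemma IsLat.root (h : IsLat S) {ω : ℂ} (hω : Hp S ω) :
    4 * wp S ω ^ 3 - g2 S * wp S ω - g3 S = 0 := by
  rw [← h.dwp_sq hω.ne, (h.dwp_eq_zero_iff hω.ne).2 hω.two]; ring

lemma Hp.sub_iff {ω z : ℂ} (hω : Hp S ω) : z - ω ∈ S ↔ z + ω ∈ S := by
  constructor
  · intro h; convert S.add_mem h hω.two using 1; ring
  · intro h; convert S.sub_mem h hω.two using 1; ring

lemma IsLat.wp_ne (h : IsLat S) {ω z : ℂ} (hω : Hp S ω) (hz : z ∉ S) (hz' : z + ω ∉ S) :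
    wp S z - wp S ω ≠ 0 := by
  rw [sub_ne_zero, Ne, h.wp_eq_iff hz hω.ne, hω.sub_iff, or_self]
  exact hz'

/-- translation by a half period -/
theorem IsLat.hp (h : IsLat S) {ω z : ℂ} (hω : Hp S ω) (hz : z ∉ S) (hz' : z + ω ∉ S) :
    (wp S (z + ω) - wp S ω) * (wp S z - wp S ω) = 3 * wp S ω ^ 2 - g2 S / 4 := by
  have hne := h.wp_ne hω hz hz'
  have r := h.root hω
  have s := h.dwp_sq hz
  have d0 := (h.dwp_eq_zero_iff hω.ne).2 hω.two
  obtain ⟨L, rfl⟩ := h
  have := R023.Unif630.wp_add_formula (L := L) (z := z) (b := ω)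
    ⟨hz, hω.ne, hz', mt hω.sub_iff.1 hz'⟩
  rw [← wp_lat, ← dwp_lat] at this
  rw [this, d0]
  field_simp
  linear_combination 4 * s + 4 * r

section two

variable (h : IsLat S) {x y : ℂ} (hx : Hp S x) (hy : Hp S y) (hxy : x - y ∉ S)
include h hx hy hxy

lemma IsLat.e_ne : wp S x - wp S y ≠ 0 := h.wp_ne hy hx.ne (mt hy.sub_iff.2 hxy)

lemma IsLat.g2_eq : g2 S = 4 * (wp S x ^ 2 + wp S x * wp S y + wp S y ^ 2) := by
  apply mul_left_cancel₀ (h.e_ne hx hy hxy)
  linear_combination h.root hy - h.root hx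

lemma IsLat.g3_eq : g3 S = -4 * wp S x * wp S y * (wp S x + wp S y) := by
  have := h.root hx
  rw [h.g2_eq hx hy hxy] at this
  linear_combination -this

lemma IsLat.disc_eq : g2 S ^ 3 - 27 * g3 S ^ 2 =
    16 * ((wp S x - wp S y) * (2 * wp S x + wp S y) * (wp S x + 2 * wp S y)) ^ 2 := by
  rw [h.g2_eq hx hy hxy, h.g3_eq hx hy hxy]; ring

lemma IsLat.e_ne' : 2 * wp S x + wp S y ≠ 0 := by
  intro e
  apply h.disc_ne
  rw [h.disc_eq hx hy hxy, e]; ring

lemma IsLat.hp_add : Hp S (x + y) :=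
  ⟨by convert S.add_mem hx.two hy.two using 1; ring, mt hy.sub_iff.2 hxy⟩

lemma IsLat.e3 : wp S (x + y) = -wp S x - wp S y := by
  have h1 := h.hp hy hx.ne (mt hy.sub_iff.2 hxy)
  rw [h.g2_eq hx hy hxy] at h1
  apply mul_right_cancel₀ (h.e_ne hx hy hxy)
  linear_combination h1

lemma IsLat.two_tors {z : ℂ} (hz : 2 * z ∈ S) :
    z ∈ S ∨ z - x ∈ S ∨ z - y ∈ S ∨ z - (x + y) ∈ S := by
  by_cases h0 : z ∈ S
  · exact Or.inl h0
  right
  have r := h.root ⟨hz, h0⟩
  rw [h.g2_eq hx hy hxy, h.g3_eq hx hy hxy] at r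
  have r' : (wp S z - wp S x) * ((wp S z - wp S y) * (wp S z - wp S (x + y))) = 0 := by
    rw [h.e3 hx hy hxy]; linear_combination r / 4
  have k : ∀ {t}, Hp S t → wp S z - wp S t = 0 → z - t ∈ S := fun ht e => by
    by_contra hn
    exact h.wp_ne ht h0 (mt ht.sub_iff.2 hn) e
  rcases mul_eq_zero.1 r' with e | e
  · exact Or.inl (k hx e)
  rcases mul_eq_zero.1 e with e | e
  · exact Or.inr (Or.inl (k hy e))
  · exact Or.inr (Or.inr (k (h.hp_add hx hy hxy) e))

end two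

/-- `S + ℤ ω` -/
def adj (S : Sm) (ω : ℂ) : Sm := S ⊔ Submodule.span ℤ {ω}

lemma Hp.mem_adj {ω z : ℂ} (hω : Hp S ω) : z ∈ adj S ω ↔ z ∈ S ∨ z - ω ∈ S := by
  constructor
  · intro hz
    obtain ⟨a, ha, b, hb, rfl⟩ := Submodule.mem_sup.1 hz
    obtain ⟨k, rfl⟩ := Submodule.mem_span_singleton.1 hb
    obtain ⟨j, rfl | rfl⟩ := Int.even_or_odd' k
    · left
      have := S.add_mem ha (S.smul_mem j hω.two)
      simp only [zsmul_eq_mul] at this ⊢
      convert this using 1; push_cast; ring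
    · right
      have := S.add_mem ha (S.smul_mem j hω.two)
      simp only [zsmul_eq_mul] at this ⊢
      convert this using 1; push_cast; ring
  · rintro (hz | hz)
    · exact Submodule.mem_sup_left hz
    · have := Submodule.add_mem_sup hz (Submodule.mem_span_singleton_self (R := ℤ) ω)
      rwa [sub_add_cancel] at this

lemma Hp.lat_adj {ω : ℂ} (hω : Hp S ω) (h : IsLat S) : IsLat (adj S ω) :=
  h.of_le (N := 2) two_ne_zero le_sup_left fun z hz => by
    rcases hω.mem_adj.1 hz with e | e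
    · simpa [two_mul] using S.add_mem e e
    · convert S.add_mem (S.add_mem e e) hω.two using 1; push_cast; ring

lemma Hp.wp_adj {ω : ℂ} (hω : Hp S ω) (h : IsLat S) (z : ℂ) :
    wp (adj S ω) z = wp S z + wp S (z + ω) - wp S ω := by
  have rp : Reps S (adj S ω) (![0, ω] : Fin 2 → ℂ) := by
    refine ⟨le_sup_left, ?_, ?_, fun z hz => ?_⟩
    · intro i; fin_cases i
      · exact Submodule.zero_mem _
      · exact hω.mem_adj.2 (Or.inr (by simp))
    · intro i j; fin_cases i <;> fin_cases j <;> simp [hω.ne]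
    · rcases hω.mem_adj.1 hz with e | e
      · exact ⟨0, by simpa using e⟩
      · exact ⟨1, by simpa using e⟩
  rw [rp.wp h (hω.lat_adj h)]
  simp only [Fin.sum_univ_two, Matrix.cons_val_zero, Matrix.cons_val_one, add_zero,
    h.wp_mem S.zero_mem]
  ring

/-- a cyclic subgroup of order 8 and one of order 4 meeting trivially -/
structure Ch (S : Sm) (u v : ℂ) : Prop where
  lat : IsLat S
  hu : Hp S (4 * u)
  hv : Hp S (2 * v)
  huv : 4 * u - 2 * v ∉ S

/-- `℘` of `S + 4uℤ` -/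
def p1 (S : Sm) (u z : ℂ) : ℂ := wp S z + wp S (z + 4 * u) - wp S (4 * u)

def al (S : Sm) (u v : ℂ) : ℂ := (wp S (2 * u) - wp S (4 * u)) / (wp S (4 * u) - wp S (2 * v))

def be (S : Sm) (u v : ℂ) : ℂ := (wp S v - wp S (2 * v)) / (wp S (4 * u) - wp S (2 * v))

def a1 (S : Sm) (u v : ℂ) : ℂ := (p1 S u u - p1 S u (2 * u)) / (p1 S u (2 * u) - p1 S u (2 * v))

def ss (S : Sm) (u v : ℂ) : ℂ := a1 S u v * (1 + al S u v) / 2

/-- a point of order four -/
lemma IsLat.four (h : IsLat S) {z : ℂ} (hz : Hp S (2 * z)) :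
    (wp S z - wp S (2 * z)) ^ 2 = 3 * wp S (2 * z) ^ 2 - g2 S / 4 := by
  have h0 : z ∉ S := fun e => hz.ne (by simpa [two_mul] using S.add_mem e e)
  have h1 : z + 2 * z + z ∈ S := by convert hz.two using 1; ring
  have h2 := h.hp hz h0 (fun e => h0 (by simpa using S.sub_mem h1 e))
  rw [h.wp_congr' h1] at h2
  linear_combination h2

namespace Ch

variable {u v : ℂ} (c : Ch S u v)
include c

lemma hu' : Hp S (2 * (2 * u)) := by rw [show 2 * (2 * u) = 4 * u by ring]; exact c.hu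

lemma l1 : IsLat (adj S (4 * u)) := c.hu.lat_adj c.lat

lemma p1_eq : p1 S u = wp (adj S (4 * u)) := funext fun z => (c.hu.wp_adj c.lat z).symm

lemma h2u : Hp (adj S (4 * u)) (2 * u) := by
  refine ⟨c.hu.mem_adj.2 (Or.inr (by rw [show 2 * (2 * u) - 4 * u = 0 by ring]; exact S.zero_mem)), ?_⟩
  rw [c.hu.mem_adj]
  rintro (e | e)
  · exact c.hu.ne (by convert S.add_mem e e using 1; ring)
  · exact c.hu.ne (by convert S.neg_mem (S.add_mem e e) using 1; ring)

lemma h2v : Hp (adj S (4 * u)) (2 * v) := by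
  refine ⟨c.hu.mem_adj.2 (Or.inl c.hv.two), ?_⟩
  rw [c.hu.mem_adj]
  rintro (e | e)
  · exact c.hv.ne e
  · exact c.huv (by convert S.neg_mem e using 1; ring)

lemma h2uv : 2 * u - 2 * v ∉ adj S (4 * u) := by
  rw [c.hu.mem_adj]
  rintro (e | e)
  · exact c.hu.ne (by convert S.add_mem (S.add_mem e e) c.hv.two using 1; ring)
  · exact c.hu.ne (by convert S.neg_mem (S.add_mem (S.add_mem e e) c.hv.two) using 1; ring)

lemma d_ne : wp S (4 * u) - wp S (2 * v) ≠ 0 := c.lat.e_ne c.hu c.hv c.huv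

lemma a_sq : (wp S (2 * u) - wp S (4 * u)) ^ 2 =
    (wp S (4 * u) - wp S (2 * v)) * (2 * wp S (4 * u) + wp S (2 * v)) := by
  have := c.lat.four c.hu'
  rw [show 2 * (2 * u) = 4 * u by ring, c.lat.g2_eq c.hu c.hv c.huv] at this
  linear_combination this

lemma b_sq : (wp S v - wp S (2 * v)) ^ 2 =
    -(wp S (4 * u) - wp S (2 * v)) * (wp S (4 * u) + 2 * wp S (2 * v)) := by
  have := c.lat.four c.hv
  rw [c.lat.g2_eq c.hu c.hv c.huv] at this
  linear_combination this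

lemma f1 : p1 S u (2 * u) = 2 * wp S (2 * u) - wp S (4 * u) := by
  rw [p1, c.lat.wp_congr' (z := 2 * u + 4 * u) (w := 2 * u) (by convert c.hu.two using 1; ring)]
  ring

lemma f2 : p1 S u (2 * v) = -2 * wp S (4 * u) := by
  rw [p1, add_comm (2 * v), c.lat.e3 c.hu c.hv c.huv]; ring

lemma d1_ne : p1 S u (2 * u) - p1 S u (2 * v) ≠ 0 := by
  rw [c.p1_eq]; exact c.l1.e_ne c.h2u c.h2v c.h2uv

lemma a1_sq : (p1 S u u - p1 S u (2 * u)) ^ 2 =
    (p1 S u (2 * u) - p1 S u (2 * v)) * (4 * (wp S (2 * u) - wp S (4 * u))) := by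
  have := c.l1.four c.h2u
  rw [c.l1.g2_eq c.h2u c.h2v c.h2uv, ← c.p1_eq] at this
  rw [this, c.f1, c.f2]; ring

lemma d1_eq : (p1 S u (2 * u) - p1 S u (2 * v)) =
    (wp S (4 * u) - wp S (2 * v)) * (1 + al S u v) ^ 2 := by
  have h1 := c.d_ne
  have h2 := c.a_sq
  rw [c.f1, c.f2, al]
  generalize wp S (2 * u) = x at *
  generalize wp S (4 * u) = e1 at *
  generalize wp S (2 * v) = e2 at *
  field_simp
  linear_combination -h2

lemma al_ne : 1 + al S u v ≠ 0 := fun e => c.d1_ne (by rw [c.d1_eq, e]; ring)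

theorem ss_sq : ss S u v ^ 2 = al S u v := by
  have h1 := c.d1_ne
  have h2 := c.d_ne
  have h3 := c.al_ne
  have : a1 S u v ^ 2 = 4 * al S u v / (1 + al S u v) ^ 2 := by
    rw [a1, div_pow, c.a1_sq, c.d1_eq]
    nth_rewrite 3 [al]
    field_simp
  rw [ss, div_pow, mul_pow, this]
  field_simp
  ring

theorem quartic : ss S u v ^ 4 + be S u v ^ 2 = 1 := by
  have h2 := c.d_ne
  rw [show ss S u v ^ 4 = (ss S u v ^ 2) ^ 2 by ring, c.ss_sq, al, be, div_pow, div_pow, c.a_sq,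
    c.b_sq]
  field_simp
  ring

theorem ss_ne : ss S u v ≠ 0 := by
  intro e
  have h1 := c.ss_sq
  rw [e, al, eq_comm, zero_pow two_ne_zero, div_eq_zero_iff, or_iff_left c.d_ne] at h1
  have h2 := c.a_sq
  rw [h1, eq_comm, zero_pow two_ne_zero, mul_eq_zero, or_iff_right c.d_ne] at h2
  exact c.lat.e_ne' c.hu c.hv c.huv h2

theorem be_ne : be S u v ≠ 0 := by
  intro h1
  rw [be, div_eq_zero_iff, or_iff_left c.d_ne] at h1
  have h2 := c.b_sq
  rw [h1, eq_comm, zero_pow two_ne_zero, mul_eq_zero, or_iff_right (neg_ne_zero.2 c.d_ne)] at h2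
  refine c.lat.e_ne' c.hv c.hu (fun e => c.huv ?_) (by linear_combination h2)
  simpa using S.neg_mem e

end Ch

/-- reversal of the chain -/
theorem Ch.rev {u w : ℂ} (c : Ch S u (2 * w)) : Ch (adj S (4 * u)) w u ∧
    ss (adj S (4 * u)) w u = -be S u (2 * w) / (1 + ss S u (2 * w) ^ 2) ∧
    be (adj S (4 * u)) w u = -2 * ss S u (2 * w) / (1 + ss S u (2 * w) ^ 2) := by
  have e4 : 2 * (2 * w) = 4 * w := by ring
  have c' : Ch (adj S (4 * u)) w u := ⟨c.l1, e4 ▸ c.h2v, c.h2u, fun e => c.h2uv (by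
    convert (adj S (4 * u)).neg_mem e using 1; ring)⟩
  have hd : adj (adj S (4 * u)) (4 * w) = dv 2 S := by
    ext z
    rw [c'.hu.mem_adj, c.hu.mem_adj, c.hu.mem_adj, mem_dv]
    constructor
    · rintro ((e | e) | (e | e))
      · convert S.add_mem e e using 1; ring
      · convert S.add_mem (S.add_mem e e) c.hu.two using 1; ring
      · convert S.add_mem (S.add_mem e e) c.hv.two using 1; ring
      · convert S.add_mem (S.add_mem (S.add_mem e e) c.hu.two) c.hv.two using 1; ring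
    · intro hz
      rcases c.lat.two_tors c.hu c.hv c.huv hz with e | e | e | e
      · exact Or.inl (Or.inl e)
      · exact Or.inl (Or.inr e)
      · exact Or.inr (Or.inl (e4 ▸ e))
      · exact Or.inr (Or.inr (by convert e using 1; ring))
  have h1 := c.d_ne
  have h2 := c.d1_ne
  have h3 := c.al_ne
  have k1 : a1 (adj S (4 * u)) w u = -be S u (2 * w) := by
    rw [a1, c'.p1_eq, hd, wp_dv two_ne_zero, wp_dv two_ne_zero, wp_dv two_ne_zero, be,
      show 2 * (2 * u) = 4 * u by ring, ← mul_sub, ← mul_sub, mul_div_mul_left _ _ (by norm_num),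
      ← div_neg, neg_sub]
  have hv0 : 2 * w ∉ S := fun e => c.hv.ne (by convert S.add_mem e e using 1; ring)
  have hv1 : 2 * w + 4 * u ∉ S := fun e =>
    c.hv.ne (by convert S.sub_mem (S.add_mem e e) c.hu.two using 1; ring)
  have k0 : p1 S u (2 * w) = wp S (2 * (2 * w)) - (wp S (4 * u) - wp S (2 * (2 * w))) := by
    have t1 := c.lat.hp c.hu hv0 hv1
    rw [c.lat.g2_eq c.hu c.hv c.huv] at t1
    apply mul_right_cancel₀ (c.lat.wp_ne c.hu hv0 hv1)
    rw [p1]
    linear_combination t1 + c.b_sq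
  have k2 : 1 + al (adj S (4 * u)) w u = 2 / (1 + al S u (2 * w)) := by
    have t := c.a_sq
    rw [al, ← c.p1_eq, ← e4, k0, ← neg_sub (p1 S u (2 * u)), c.d1_eq, c.f2, eq_div_iff h3]
    have t3 : al S u (2 * w) * (wp S (4 * u) - wp S (2 * (2 * w))) =
        wp S (2 * u) - wp S (4 * u) := by rw [al, div_mul_cancel₀ _ h1]
    generalize al S u (2 * w) = A at *
    generalize wp S (2 * u) = x at *
    generalize wp S (4 * u) = e1 at *
    generalize wp S (2 * (2 * w)) = e2 at *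
    have t4 : A ^ 2 * (e1 - e2) = 2 * e1 + e2 := by
      apply mul_left_cancel₀ h1
      rw [← t, ← t3]; ring
    field_simp
    linear_combination t4
  refine ⟨c', ?_, ?_⟩
  · rw [ss, k1, k2, c.ss_sq]
    field_simp
  · rw [c.ss_sq, be, ← c.p1_eq, ← e4, ss, ← neg_sub (p1 S u (2 * u)) (p1 S u (2 * (2 * w))),
      div_neg, ← a1]
    field_simp

/-! ### invariance -/

theorem Tr.ss {σ : ℂ ≃+* ℂ} {S' : Sm} (h : Tr σ S S') {u v u' v' : ℂ} (ru : Rl σ S S' u u')
    (rv : Rl σ S S' v v') : ss S' u' v' = σ (ss S u v) ∧ be S' u' v' = σ (be S u v) := by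
  have u2 : Rl σ S S' (2 * u) (2 * u') := by simpa using h.nmul ru 2
  have u4 : Rl σ S S' (4 * u) (4 * u') := by simpa using h.nmul ru 4
  have v2 : Rl σ S S' (2 * v) (2 * v') := by simpa using h.nmul rv 2
  simp only [Cm.ss, a1, al, be, p1, map_div₀, map_mul, map_add, map_sub, map_one, map_ofNat,
    h.wp_eq ru, h.wp_eq rv, h.wp_eq u2, h.wp_eq u4, h.wp_eq v2, h.wp_eq (h.add ru u4),
    h.wp_eq (h.add u2 u4), h.wp_eq (h.add v2 u4), and_self]

theorem ss_dv {a : ℂ} (ha : a ≠ 0) (S : Sm) (u v : ℂ) :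
    ss (dv a S) u v = ss S (a * u) (a * v) ∧ be (dv a S) u v = be S (a * u) (a * v) := by
  have h2 := pow_ne_zero 2 ha
  simp only [ss, a1, al, be, p1, wp_dv ha, mul_add a, mul_left_comm a, ← mul_sub (a ^ 2),
    ← mul_add (a ^ 2), mul_div_mul_left _ _ h2, and_self]

theorem Ch.congr {u v u' v' : ℂ} (c : Ch S u v) (k : ℤ) (hu : u' - (2 * k + 1) * u ∈ S)
    (hv : v' - v ∈ S ∨ v' + v ∈ S) : ss S u' v' = ss S u v ∧ be S u' v' = be S u v := by
  have m : ∀ (n : ℤ) {z}, z ∈ S → n * z ∈ S := fun n z hz => by simpa using S.smul_mem n hz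
  have e4 : 4 * u' - 4 * u ∈ S := by
    convert S.add_mem (m 4 hu) (m k c.hu.two) using 1; push_cast; ring
  have w4 : wp S (4 * u') = wp S (4 * u) := c.lat.wp_congr e4
  have w2 : wp S (2 * u') = wp S (2 * u) := by
    obtain ⟨j, rfl | rfl⟩ := Int.even_or_odd' k
    · exact c.lat.wp_congr (by convert S.add_mem (m 2 hu) (m j c.hu.two) using 1; push_cast; ring)
    · exact c.lat.wp_congr' (by
        convert S.add_mem (m 2 hu) (m (j + 1) c.hu.two) using 1; push_cast; ring)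
  have wv : wp S v' = wp S v := hv.elim c.lat.wp_congr c.lat.wp_congr'
  have e2 : 2 * v' - 2 * v ∈ S := by
    rcases hv with e | e
    · convert m 2 e using 1; push_cast; ring
    · convert S.sub_mem (m 2 e) c.hv.two using 1; push_cast; ring
  have wv2 : wp S (2 * v') = wp S (2 * v) := c.lat.wp_congr e2
  have hp : p1 S u' = p1 S u := funext fun z => by
    rw [p1, p1, w4, c.lat.wp_congr (z := z + 4 * u') (w := z + 4 * u) (by convert e4 using 1; ring)]
  have le : S ≤ adj S (4 * u) := le_sup_left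
  have m1 : ∀ n : ℤ, n * (4 * u) ∈ adj S (4 * u) := fun n => by
    simpa using (adj S (4 * u)).smul_mem n (c.hu.mem_adj.2 (Or.inr (by simp)))
  have q1 : p1 S u u' = p1 S u u := by
    rw [c.p1_eq]
    obtain ⟨j, rfl | rfl⟩ := Int.even_or_odd' k
    · exact c.l1.wp_congr (by convert add_mem (le hu) (m1 j) using 1; push_cast; ring)
    · exact c.l1.wp_congr' (by convert add_mem (le hu) (m1 (j + 1)) using 1; push_cast; ring)
  have q2 : p1 S u (2 * u') = p1 S u (2 * u) := by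
    rw [c.p1_eq]
    exact c.l1.wp_congr (by convert add_mem (le (m 2 hu)) (m1 k) using 1; push_cast; ring)
  have q3 : p1 S u (2 * v') = p1 S u (2 * v) := by
    rw [c.p1_eq]
    exact c.l1.wp_congr (le e2)
  simp only [ss, a1, al, be, hp, q1, q2, q3, w4, w2, wv, wv2, and_self]

end Crest.Agent.T15.Cm
end
end

-- ▼ part T15/CmG_13

/-!
# Row 15, block Q (helper13), part G: generators of the `𝔭³`-torsion and the CM points
-/

set_option autoImplicit false
set_option linter.unusedSectionVars false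

noncomputable section

namespace Crest.Agent.T15.Cm

variable {S : Sm} {θ : ℂ} {r r' : ℤ}

/-- `u` generates the kernel of `(8, θ - r)` on `ℂ / S` -/
structure Gn (θ : ℂ) (r : ℤ) (S : Sm) (u : ℂ) : Prop where
  h8 : 8 * u ∈ S
  h4 : 4 * u ∉ S
  hr : (θ - r) * u ∈ S

lemma zm {z : ℂ} (n : ℤ) (hz : z ∈ S) : n * z ∈ S := by simpa using S.smul_mem n hz

lemma Gn.hp {u : ℂ} (h : Gn θ r S u) : Hp S (4 * u) :=
  ⟨by convert h.h8 using 1; ring, h.h4⟩

lemma Gn.hp' {u : ℂ} (h : Gn θ r S u) : Hp S (2 * (2 * u)) := by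
  rw [show 2 * (2 * u) = 4 * u by ring]; exact h.hp

lemma Gn.not {w : ℂ} (h : Gn θ r' S w) (hr : r + r' = 1) : (θ - r) * (4 * w) ∉ S := by
  intro e
  apply h.h4
  have e' : (r' : ℂ) = 1 - r := by rw [← Int.cast_one, ← hr]; push_cast; ring
  convert S.add_mem (S.sub_mem e (zm 4 h.hr)) (zm r h.h8) using 1
  rw [e']; push_cast; ring

lemma OL.sub (hS : OL θ S) (r : ℤ) {z : ℂ} (hz : z ∈ S) : (θ - r) * z ∈ S := by
  convert hS.lin (-r) 1 hz using 1; push_cast; ring

section two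

variable (hS : OL θ S) (hr : r + r' = 1) {u w : ℂ} (hu : Gn θ r S u) (hw : Gn θ r' S w)
include hS hr hu hw

lemma Gn.ne : 4 * u - 2 * (2 * w) ∉ S := fun e => hw.not hr (by
  convert S.sub_mem (zm 4 hu.hr) (hS.sub r e) using 1; push_cast; ring)

lemma Gn.ch : Ch S u (2 * w) := ⟨hS.lat, hu.hp, hw.hp', hu.ne hS hr hw⟩

lemma Gn.two {z : ℂ} (h2 : 2 * z ∈ S) (hz : (θ - r) * z ∈ S) : z ∈ S ∨ z - 4 * u ∈ S := by
  rcases hS.lat.two_tors hu.hp hw.hp' (hu.ne hS hr hw) h2 with e | e | e | e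
  · exact Or.inl e
  · exact Or.inr e
  · exact absurd (by convert S.sub_mem hz (hS.sub r e) using 1; ring) (hw.not hr)
  · exact absurd (by
      convert S.sub_mem (S.sub_mem hz (hS.sub r e)) (zm 4 hu.hr) using 1; push_cast; ring)
      (hw.not hr)

lemma Gn.two' {z : ℂ} (h2 : 2 * z ∈ S) (hz : (θ - r) * z ∈ S) : ∃ x : ℤ, z - x * (4 * u) ∈ S := by
  rcases hu.two hS hr hw h2 hz with e | e
  · exact ⟨0, by simpa using e⟩
  · exact ⟨1, by simpa using e⟩

lemma Gn.four {z : ℂ} (h4 : 4 * z ∈ S) (hz : (θ - r) * z ∈ S) : ∃ x : ℤ, z - x * (2 * u) ∈ S := by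
  obtain ⟨x, hx⟩ := hu.two' hS hr hw (z := 2 * z) (by convert h4 using 1; ring)
    (by convert zm 2 hz using 1; push_cast; ring)
  obtain ⟨y, hy⟩ := hu.two' hS hr hw (z := z - x * (2 * u)) (by convert hx using 1; ring)
    (by convert S.sub_mem hz (zm (2 * x) hu.hr) using 1; push_cast; ring)
  exact ⟨x + 2 * y, by convert hy using 1; push_cast; ring⟩

lemma Gn.eight {z : ℂ} (h8 : 8 * z ∈ S) (hz : (θ - r) * z ∈ S) : ∃ x : ℤ, z - x * u ∈ S := by
  obtain ⟨x, hx⟩ := hu.four hS hr hw (z := 2 * z) (by convert h8 using 1; ring)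
    (by convert zm 2 hz using 1; push_cast; ring)
  obtain ⟨y, hy⟩ := hu.two' hS hr hw (z := z - x * u) (by convert hx using 1; ring)
    (by convert S.sub_mem hz (zm x hu.hr) using 1; ring)
  exact ⟨x + 4 * y, by convert hy using 1; push_cast; ring⟩

lemma Gn.odd {z : ℂ} (hz : Gn θ r S z) : ∃ k : ℤ, z - (2 * k + 1) * u ∈ S := by
  obtain ⟨x, hx⟩ := hu.eight hS hr hw hz.h8 hz.hr
  obtain ⟨j, rfl | rfl⟩ := Int.even_or_odd' x
  · exact absurd (by convert S.add_mem (zm 4 hx) (zm j hu.h8) using 1; push_cast; ring) hz.h4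
  · exact ⟨j, by convert hx using 1; push_cast; ring⟩

lemma Gn.pm {z : ℂ} (h4 : Hp S (2 * z)) (hz : (θ - r) * z ∈ S) : z - 2 * u ∈ S ∨ z + 2 * u ∈ S := by
  obtain ⟨x, hx⟩ := hu.four hS hr hw (z := z) (by convert h4.two using 1; ring) hz
  obtain ⟨j, rfl | rfl⟩ := Int.even_or_odd' x
  · exact absurd (by convert S.add_mem (zm 2 hx) (zm j hu.h8) using 1; push_cast; ring) h4.ne
  obtain ⟨i, rfl | rfl⟩ := Int.even_or_odd' j
  · exact Or.inl (by convert S.add_mem hx (zm i hu.h8) using 1; push_cast; ring)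
  · exact Or.inr (by convert S.add_mem hx (zm (i + 1) hu.h8) using 1; push_cast; ring)

end two

/-- the arithmetic data -/
structure Dt (θ : ℂ) (m : ℕ) (r r' : ℤ) : Prop where
  hm : m ≠ 0
  hθ : θ ^ 2 = θ - m
  hr : r + r' = 1
  h8 : (8 : ℤ) ∣ r * r' - m

variable {m : ℕ}

lemma Dt.symm (d : Dt θ m r r') : Dt θ m r' r :=
  ⟨d.hm, d.hθ, by rw [add_comm, d.hr], by rw [mul_comm]; exact d.h8⟩

theorem Dt.exists_gn (d : Dt θ m r r') (hS : OL θ S) : ∃ u, Gn θ r S u := by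
  obtain ⟨k, hk⟩ := d.h8
  have hr : (r : ℂ) + r' = 1 := by exact_mod_cast d.hr
  have hk' : (r : ℂ) * r' - m = 8 * k := by exact_mod_cast hk
  have hθ := d.hθ
  by_contra hn
  have key : ∀ a ∈ S, (θ - r') / 2 * a ∈ S := fun a ha => by
    by_contra h4
    refine hn ⟨(θ - r') * a / 8, ?_, ?_, ?_⟩
    · convert hS.sub r' ha using 1; ring
    · convert h4 using 2; ring
    · convert zm k ha using 1
      linear_combination (a / 8) * hθ + (a / 8) * hk' - (a * θ / 8) * hr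
  obtain ⟨x, y, hxy, hi⟩ := hS.lat.basis
  obtain ⟨m1, n1, e1⟩ := (hxy _).1 (key x ((hxy _).2 ⟨1, 0, by simp⟩))
  obtain ⟨m2, n2, e2⟩ := (hxy _).1 (key y ((hxy _).2 ⟨0, 1, by simp⟩))
  have hx : x ≠ 0 := fun e => one_ne_zero (hi 1 0 (by simp [e])).1
  have hy : y ≠ 0 := fun e => one_ne_zero (hi 0 1 (by simp [e])).2
  have e3 : ((θ - r') / 2 - m1) * ((θ - r') / 2 - n2) = n1 * m2 := by
    apply mul_right_cancel₀ (mul_ne_zero hx hy)
    have a1 : ((θ - r') / 2 - m1) * x = n1 * y := by linear_combination -e1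
    have a2 : ((θ - r') / 2 - n2) * y = m2 * x := by linear_combination -e2
    linear_combination (((θ - r') / 2 - n2) * y) * a1 + (n1 * y) * a2
  set A : ℤ := 1 - 2 * r' - 2 * m1 - 2 * n2 with hA
  set B : ℤ := 4 * n1 * m2 + m - (r' + 2 * m1) * (r' + 2 * n2) with hB
  have e4 : θ * A = B := by
    rw [hA, hB]; push_cast
    linear_combination 4 * e3 - hθ
  have e5 : (2 * B - A) ^ 2 + (4 * m - 1) * A ^ 2 = 0 := by
    have : ((2 * B - A : ℂ)) ^ 2 + (4 * m - 1) * (A : ℂ) ^ 2 = 0 := by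
      rw [← e4]; linear_combination 4 * (A : ℂ) ^ 2 * hθ
    exact_mod_cast this
  have hA0 : A ≠ 0 := by omega
  have hm : (1 : ℤ) ≤ m := by have := d.hm; omega
  have := mul_pos (show (0 : ℤ) < 4 * m - 1 by omega) (pow_pos (abs_pos.2 hA0) 2)
  rw [sq_abs] at this
  nlinarith [sq_nonneg (2 * B - A)]

/-- a chosen generator -/
def gen (θ : ℂ) (r : ℤ) (S : Sm) : ℂ := Classical.epsilon (Gn θ r S)

lemma Dt.gen (d : Dt θ m r r') (hS : OL θ S) : Gn θ r S (gen θ r S) :=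
  Classical.epsilon_spec (d.exists_gn hS)

/-- the CM point -/
def sP (θ : ℂ) (r r' : ℤ) (S : Sm) : ℂ := ss S (gen θ r S) (2 * gen θ r' S)

/-- the CM point -/
def bP (θ : ℂ) (r r' : ℤ) (S : Sm) : ℂ := be S (gen θ r S) (2 * gen θ r' S)

namespace Dt

variable (d : Dt θ m r r') (hS : OL θ S)
include d hS

lemma ch : Ch S (Cm.gen θ r S) (2 * Cm.gen θ r' S) := (d.gen hS).ch hS d.hr (d.symm.gen hS)

theorem pt : sP θ r r' S ^ 4 + bP θ r r' S ^ 2 = 1 ∧ sP θ r r' S ≠ 0 ∧ bP θ r r' S ≠ 0 :=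
  ⟨(d.ch hS).quartic, (d.ch hS).ss_ne, (d.ch hS).be_ne⟩

theorem eq' {u v : ℂ} (hu : Gn θ r S u) (hv : Hp S (2 * v)) (hv' : (θ - r') * v ∈ S) :
    sP θ r r' S = ss S u v ∧ bP θ r r' S = be S u v := by
  obtain ⟨k, hk⟩ := (d.gen hS).odd hS d.hr (d.symm.gen hS) hu
  have := (d.ch hS).congr k hk ((d.symm.gen hS).pm hS d.symm.hr (d.gen hS) hv hv')
  exact ⟨this.1.symm, this.2.symm⟩

theorem eq {u w : ℂ} (hu : Gn θ r S u) (hw : Gn θ r' S w) :
    sP θ r r' S = ss S u (2 * w) ∧ bP θ r r' S = be S u (2 * w) :=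
  d.eq' hS hu hw.hp' (by convert zm 2 hw.hr using 1; push_cast; ring)

theorem scale {a : ℂ} (ha : a ≠ 0) :
    sP θ r r' (dv a S) = sP θ r r' S ∧ bP θ r r' (dv a S) = bP θ r r' S := by
  have k : ∀ {t : ℤ} {u}, Gn θ t (dv a S) u → Gn θ t S (a * u) := fun h =>
    ⟨by rw [mul_left_comm]; exact h.h8, by rw [mul_left_comm]; exact h.h4,
      by rw [mul_left_comm]; exact h.hr⟩
  have e := d.eq hS (k (d.gen (hS.dv ha))) (k (d.symm.gen (hS.dv ha)))
  rw [e.1, e.2, sP, bP, (ss_dv ha _ _ _).1, (ss_dv ha _ _ _).2, mul_left_comm a]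
  exact ⟨rfl, rfl⟩

theorem gal {σ : ℂ ≃+* ℂ} {S' : Sm} (hσ : σ θ = θ) (h : Tr σ S S') :
    sP θ r r' S' = σ (sP θ r r' S) ∧ bP θ r r' S' = σ (bP θ r r' S) := by
  have k : ∀ {t : ℤ} {u u'}, Rl σ S S' u u' → Gn θ t S u → Gn θ t S' u' := fun {t u u'} ρ g =>
    ⟨by simpa using (h.nmul ρ 8).mem_iff.1 (by simpa using g.h8),
      fun e => g.h4 (by simpa using (h.nmul ρ 4).mem_iff.2 (by simpa using e)), by
      have := (h.lin d.hm d.hθ hσ hS (-t) 1 ρ).mem_iff.1 (by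
        convert g.hr using 1; push_cast; ring)
      convert this using 1; push_cast; ring⟩
  obtain ⟨u, hu⟩ := h.ex (Cm.gen θ r S)
  obtain ⟨w, hw⟩ := h.ex (Cm.gen θ r' S)
  have e := d.eq (h.theta d.hm d.hθ hσ hS).1 (k hu (d.gen hS)) (k hw (d.symm.gen hS))
  rw [e.1, e.2]
  exact h.ss hu (by simpa using h.nmul hw 2)

theorem conj (hc : cc θ = 1 - θ) (hS' : OL θ (cj S)) :
    sP θ r' r (cj S) = cc (sP θ r r' S) ∧ bP θ r' r (cj S) = cc (bP θ r r' S) := by
  have k0 : ∀ z, cc z ∈ cj S ↔ z ∈ S := fun z => (rl_cj S z).mem_iff.symm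
  have k : ∀ {t t' : ℤ} {u}, t + t' = 1 → Gn θ t S u → Gn θ t' (cj S) (cc u) :=
    fun {t t' u} ht g => by
      have ht' : (t : ℂ) + t' = 1 := by exact_mod_cast ht
      refine ⟨?_, fun e => g.h4 ((k0 _).1 ?_), ?_⟩
      · have := (k0 _).2 g.h8
        rwa [map_mul, map_ofNat] at this
      · rwa [map_mul, map_ofNat]
      · have := (k0 _).2 (S.neg_mem g.hr)
        rw [map_neg, map_mul, map_sub, hc, map_intCast] at this
        convert this using 1
        linear_combination -(cc u) * ht'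
  have e := d.symm.eq hS' (k d.hr (d.gen hS)) (k d.symm.hr (d.symm.gen hS))
  rw [e.1, e.2]
  have t := tr_cj hS.lat hS'.lat
  exact t.ss (rl_cj S _) (by simpa using t.nmul (rl_cj S _) 2)

theorem rev (he : Even r) (hS' : OL θ (qu S (pr2 θ))) :
    sP θ r' r (qu S (pr2 θ)) = -bP θ r r' S / (1 + sP θ r r' S ^ 2) ∧
    bP θ r' r (qu S (pr2 θ)) = -2 * sP θ r r' S / (1 + sP θ r r' S ^ 2) := by
  obtain ⟨j, hj⟩ := he
  have hj' : (r : ℂ) = j + j := by exact_mod_cast hj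
  have hu := d.gen hS
  have hw := d.symm.gen hS
  have hq : qu S (pr2 θ) = adj S (4 * Cm.gen θ r S) := by
    ext z
    rw [hu.hp.mem_adj, mem_qu]
    constructor
    · intro hz
      have h2 := hz 2 (mem_pr2.2 ⟨1, 0, by simp⟩)
      have h3 := hz θ (mem_pr2.2 ⟨0, 1, by simp⟩)
      exact hu.two hS d.hr hw h2 (by
        convert S.sub_mem h3 (zm j h2) using 1; rw [hj']; ring)
    · intro hz β hβ
      obtain ⟨a, b, rfl⟩ := mem_pr2.1 hβ
      rcases hz with e | e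
      · convert hS.lin (a * 2) b e using 1; push_cast; ring
      · convert S.add_mem (S.add_mem (hS.lin (a * 2) b e) (zm (a + b * j) hu.h8))
          (zm (4 * b) hu.hr) using 1
        rw [hj']; push_cast; ring
  rw [hq] at hS' ⊢
  obtain ⟨c', h1, h2⟩ := (d.ch hS).rev
  have le : S ≤ adj S (4 * Cm.gen θ r S) := le_sup_left
  have e := d.symm.eq' hS' (u := Cm.gen θ r' S) ⟨le hw.h8, c'.hu.ne, le hw.hr⟩ c'.hv (le hu.hr)
  rw [e.1, e.2]
  exact ⟨h1, h2⟩

end Dt

end Crest.Agent.T15.Cm
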