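import Mathlib
import Crest.Agent.T15.HyB_90
import Crest.Agent.T15.Wp1_31
import Crest.Agent.T15.FlR_23
import Crest.Agent.T15.Sp_90
import Crest.Agent.T15.Src_71
import Crest.Agent.T15.Wp3_31

-- ▼ part T15/F3Def_90
section

/-!
# Row 15, block F (helper90): flatness at `3` of a hyperelliptic Jacobian of compact type, words

`Gp` general point of a chart, `Chart`, `Mov` (moving lemma), `SrcStmt` (flatness from the moving
lemma and the Weil pairing).
-/

set_option autoImplicit false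
set_option linter.all false

namespace Crest.Agent.T15.F3

open Polynomial WithZero Module
open scoped NNReal
open Crest.Agent.R013.RR7_948 Crest.Agent.R013.RR8_948 Crest.Agent.R013.RR9_948
open Crest.Agent.R013.RR11_948 Crest.Agent.R013.RR12_948 Crest.Agent.R013.PicD_398
open Crest.Agent.R013.Frob1_914 Crest.Agent.T15.Hy

section

variable {C K : Type*} [Field C] [IsAlgClosed C] [Field K] [Algebra C K]
  [Algebra (RatFunc C) K] [IsScalarTower C (RatFunc C) K] [FiniteDimensional (RatFunc C) K]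
  [Algebra.IsSeparable (RatFunc C) K] (v : Valuation C ℝ≥0)

/-- `x(P)` is integral and not congruent to an element of `S` -/
def Gp (x : K) (S : Finset C) (P : Pl C K) : Prop :=
  P.v x ≤ 1 ∧ v (Disc.ev P x) ≤ 1 ∧ ∀ s ∈ S, 1 ≤ v (Disc.ev P x - s)

/-- an integral equation `w ^ 2 = F(x)` whose reduction is not a square -/
structure Chart (F : C[X]) (x w : K) : Prop where
  hyp : Hyp F x w
  int : ∀ i, v (F.coeff i) ≤ 1
  nsq : ∀ A B : C[X], (∀ i, v (A.coeff i) ≤ 1) → (∀ i, v (B.coeff i) ≤ 1) →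
    (∀ i, v ((A ^ 2 - B ^ 2 * F).coeff i) < 1) → ∀ i, v (A.coeff i) < 1 ∧ v (B.coeff i) < 1

/-- the moving lemma for the charts `x j` -/
def Mov {ι : Type*} [Fintype ι] (x : ι → K) : Prop :=
  ∃ N : ι → Finset C, (∀ j l, j ≠ l → ∀ P : Pl C K, Gp v (x l) (N l) P → ¬ Gp v (x j) (N j) P) ∧
    ∀ z ∈ Pic0 C K, ∀ S : ι → Finset C, ∃ P Q : ι → Pl C K,
      (∀ j, Gp v (x j) (S j) (P j) ∧ Gp v (x j) (S j) (Q j)) ∧
      z = cls (∑ j, (Finsupp.single (P j) 1 - Finsupp.single (Q j) 1))

end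


end Crest.Agent.T15.F3
end

-- ▼ part T15/F3Src_90
section

/-!
# Row 15, block F (helper90): the Weil pairing is integral on charts (`flat_of_mov`)
-/

set_option autoImplicit false
set_option linter.all false

namespace Crest.Agent.T15.F3

open Polynomial WithZero Module
open scoped NNReal
open Crest.Agent.R013.RR7_948 Crest.Agent.R013.RR8_948 Crest.Agent.R013.RR9_948
open Crest.Agent.R013.RR11_948 Crest.Agent.R013.RR12_948 Crest.Agent.R013.PicD_398
open Crest.Agent.R013.GR2_921 Crest.Agent.R013.Frob1_914 Crest.Agent.T15.Hy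
open Crest.Agent.T15.Disc Crest.Agent.T15.FlR

variable {Om K : Type*} [Field Om] [IsAlgClosed Om] [Field K] [Algebra Om K]
  [Algebra (RatFunc Om) K] [IsScalarTower Om (RatFunc Om) K] [FiniteDimensional (RatFunc Om) K]
  [Algebra.IsSeparable (RatFunc Om) K] {v : Valuation Om ℝ≥0}

/-- integral polynomial -/
def Itg (v : Valuation Om ℝ≥0) (p : Om[X]) : Prop := ∀ i, v (p.coeff i) ≤ 1

theorem int_map (p : v.integer[X]) : Itg v (p.map v.integer.subtype) := fun i => by
  rw [coeff_map]; exact (p.coeff i).2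

theorem Itg.eval_le {p : Om[X]} (hp : Itg v p) {a : Om} (ha : v a ≤ 1) : v (p.eval a) ≤ 1 := by
  rw [eval_eq_sum_range]
  apply Valuation.map_sum_le
  intro i _
  rw [map_mul, map_pow]
  exact mul_le_one' (hp i) (pow_le_one' ha i)

/-- `a` is not congruent to the `x`-coordinates of the zeros and poles of `f` -/
def Far (v : Valuation Om ℝ≥0) (x f : K) (a : Om) : Prop :=
  ∀ R : Pl Om K, R.v x ≤ 1 → divf (k := Om) f R ≠ 0 → 1 ≤ v (a - ev R x)

theorem one_le_of_congr {a a' t : Om} (h : 1 ≤ v (a - t)) (h' : v (a' - a) < 1) : 1 ≤ v (a' - t) := by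
  have : a' - t = (a - t) + (a' - a) := by ring
  rw [this, Valuation.map_add_eq_of_lt_left _ (lt_of_lt_of_le h' h)]
  exact h

theorem Far.congr {x f : K} {a a' : Om} (h : Far v x f a) (h' : v (a' - a) < 1) : Far v x f a' :=
  fun R h1 h2 => one_le_of_congr (h R h1 h2) h'

theorem Chart.key {F : Om[X]} {x w : K} (h : Chart v F x w) {f : K} (hf : f ≠ 0) :
    ∃ (s : Om) (A B c : Om[X]), s ≠ 0 ∧ Itg v A ∧ Itg v B ∧ Itg v c ∧
      f * aeval x c = algebraMap Om K s * el x w A B ∧
      ∀ a, v a ≤ 1 → Far v x f a → v (c.eval a) = 1 ∧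
        v (A.eval a ^ 2 - B.eval a ^ 2 * F.eval a) = 1 := by
  classical
  set T := (divf (k := Om) f).support.filter fun R => R.v x ≤ 1 with hT
  set c0 : Om[X] := ∏ R ∈ T, (X - C (ev R x)) ^ (divf (k := Om) f R).natAbs with hc0
  have hc00 : c0 ≠ 0 := Finset.prod_ne_zero_iff.mpr fun R _ => pow_ne_zero _ (X_sub_C_ne_zero _)
  have hroot : ∀ t, c0.eval t = 0 → ∃ R : Pl Om K, R.v x ≤ 1 ∧ divf (k := Om) f R ≠ 0 ∧ t = ev R x := by
    intro t ht
    rw [hc0, eval_prod, Finset.prod_eq_zero_iff] at ht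
    obtain ⟨R, hR, h0⟩ := ht
    rw [hT, Finset.mem_filter, Finsupp.mem_support_iff] at hR
    refine ⟨R, hR.2, hR.1, ?_⟩
    rw [eval_pow] at h0
    simpa [sub_eq_zero] using (pow_eq_zero_iff'.mp h0).1
  obtain ⟨A0, B0, he⟩ := h.hyp.exists_el (f := f * aeval x c0) fun P hP => by
    by_cases h0 : divf (k := Om) f P = 0
    · rw [map_mul, (v_eq_one_iff hf P).mpr h0, one_mul]; exact v_aeval_le_one P hP _
    · have h1 : P ∈ T := by rw [hT, Finset.mem_filter, Finsupp.mem_support_iff]; exact ⟨h0, hP⟩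
      rw [hc0, ← Finset.mul_prod_erase _ _ h1, map_mul (aeval x), ← mul_assoc, map_mul]
      refine mul_le_one' ?_ (v_aeval_le_one P hP _)
      have h2 := (v_lt_one_iff (h.hyp.x_sub_ne (ev P x)) P).mp (ev_spec P hP)
      simp only [map_pow, map_sub, aeval_X, aeval_C]
      rw [v_le_one_iff (mul_ne_zero hf (pow_ne_zero _ (h.hyp.x_sub_ne _))),
        divf_mul hf (pow_ne_zero _ (h.hyp.x_sub_ne _)), divf_pow (h.hyp.x_sub_ne _),
        Finsupp.add_apply, Finsupp.smul_apply, nsmul_eq_mul]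
      have h3 : -divf (k := Om) f P ≤ ((divf (k := Om) f P).natAbs : ℤ) := by omega
      have h4 : (0 : ℤ) ≤ ((divf (k := Om) f P).natAbs : ℤ) := by omega
      nlinarith
  have h0 : A0 ≠ 0 ∨ B0 ≠ 0 := by
    by_contra hcon
    push Not at hcon
    rw [hcon.1, hcon.2, el_zero, map_zero] at he
    exact mul_ne_zero hf (h.hyp.aeval_ne hc00) he
  obtain ⟨s, A, B, hs, rfl, rfl, h1⟩ := exists_prim v A0 B0 h0
  obtain ⟨s', c, d, hs', hc, hd, h2⟩ := exists_prim v c0 0 (Or.inl hc00)
  have hd' : d.map v.integer.subtype = 0 :=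
    (mul_eq_zero.mp hd.symm).resolve_left (by simpa using hs')
  have hc1 : ∃ i, (c.map v.integer.subtype).coeff i = 1 := by
    rcases h2 with ⟨i, hi⟩ | ⟨i, hi⟩
    · exact ⟨i, by simp [coeff_map, hi]⟩
    · have := congrArg (coeff · i) hd'
      simp [coeff_map, hi] at this
  have hs'' : algebraMap Om K s' ≠ 0 := by simpa using hs'
  have he' : f * aeval x (c.map v.integer.subtype) = algebraMap Om K (s / s') *
      el x w (A.map v.integer.subtype) (B.map v.integer.subtype) := by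
    rw [hc] at he
    simp only [el, map_mul, aeval_C] at he
    rw [map_div₀]
    unfold el
    field_simp
    linear_combination he
  have hroot' : ∀ t, (c.map v.integer.subtype).eval t = 0 →
      ∃ R : Pl Om K, R.v x ≤ 1 ∧ divf (k := Om) f R ≠ 0 ∧ t = ev R x := fun t ht =>
    hroot t (by rw [hc, eval_mul, ht, mul_zero])
  refine ⟨s / s', _, _, _, div_ne_zero hs hs', int_map A, int_map B, int_map c, he', ?_⟩
  intro a ha hfar
  constructor
  · refine le_antisymm ((int_map c).eval_le ha) ?_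
    obtain ⟨i, hi⟩ := hc1
    have := coeff_le_eval v ha (c.map v.integer.subtype) (fun t ht => by
      obtain ⟨R, h3, h4, rfl⟩ := hroot' t ht
      exact hfar R h3 h4) i
    rwa [hi, map_one] at this
  · refine le_antisymm ?_ ?_
    · refine (Valuation.map_sub _ _ _).trans (max_le ?_ ?_)
      · rw [map_pow]; exact pow_le_one' ((int_map A).eval_le ha) 2
      · rw [map_mul, map_pow]
        exact mul_le_one' (pow_le_one' ((int_map B).eval_le ha) 2) (Itg.eval_le h.int ha)
    · obtain ⟨i, hi⟩ : ∃ i, 1 ≤ v (((A.map v.integer.subtype) ^ 2 -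
          (B.map v.integer.subtype) ^ 2 * F).coeff i) := by
        by_contra hcon
        push Not at hcon
        have h3 := h.nsq _ _ (int_map A) (int_map B) hcon
        rcases h1 with ⟨i, hi⟩ | ⟨i, hi⟩
        · have := (h3 i).1; simp [coeff_map, hi] at this
        · have := (h3 i).2; simp [coeff_map, hi] at this
      refine hi.trans ?_
      have := coeff_le_eval v ha ((A.map v.integer.subtype) ^ 2 -
          (B.map v.integer.subtype) ^ 2 * F) (fun t ht => by
        obtain ⟨β, hβ⟩ := IsAlgClosed.exists_pow_nat_eq (F.eval t) two_pos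
        have h3 : ∃ β', β' ^ 2 = F.eval t ∧ (A.map v.integer.subtype).eval t +
            (B.map v.integer.subtype).eval t * β' = 0 := by
          have h4 : ((A.map v.integer.subtype).eval t + (B.map v.integer.subtype).eval t * β) *
              ((A.map v.integer.subtype).eval t + (B.map v.integer.subtype).eval t * (-β)) = 0 := by
            have h5 := ht.eq_zero
            simp only [eval_sub, eval_mul, eval_pow, ← hβ] at h5
            linear_combination h5
          rcases mul_eq_zero.mp h4 with h5 | h5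
          · exact ⟨β, hβ, h5⟩
          · exact ⟨-β, by rw [neg_sq, hβ], h5⟩
        obtain ⟨β', hβ', h4⟩ := h3
        have hR := h.hyp.at_pt hβ'
        by_cases h5 : (c.map v.integer.subtype).eval t = 0
        · obtain ⟨R, h6, h7, rfl⟩ := hroot' t h5
          exact hfar R h6 h7
        · have h6 := hfar _ hR.x_le (by
            intro h7
            have h8 := congrArg (pt x w t β').v he'
            rw [map_mul, map_mul, (v_eq_one_iff hf _).mpr h7, hR.aeval_eq_one h5,
              Pl.const _ _ (div_ne_zero hs hs'), one_mul, one_mul] at h8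
            exact absurd (hR.el_lt_iff.mpr h4) (by rw [← h8]; exact lt_irrefl _))
          rwa [ev_eq _ hR.1] at h6) i
      simpa only [eval_sub, eval_mul, eval_pow] using this

theorem ev_of_eq {x w f : K} {Q : Pl Om K} {a b s : Om} {A B c : Om[X]} (hQ : At Q x w a b)
    (he : f * aeval x c = algebraMap Om K s * el x w A B) (hs : s ≠ 0) (hc : c.eval a ≠ 0)
    (hAB : A.eval a + B.eval a * b ≠ 0) :
    Q.v f = 1 ∧ ev Q f / s = (A.eval a + B.eval a * b) / c.eval a := by
  have h1 := congrArg Q.v he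
  rw [map_mul, map_mul, hQ.aeval_eq_one hc, Q.const _ hs, hQ.el_eq_one hAB, mul_one, mul_one] at h1
  refine ⟨h1, ?_⟩
  have h2 := congrArg (ev Q) he
  rw [ev_mul Q h1.le (v_aeval_le_one Q hQ.x_le c), ev_mul Q (v_const_le Q s) (hQ.el_le A B),
    ev_const, ev_eq Q (hQ.el_sub A B), ev_eq Q (v_aeval_sub Q hQ.1 c)] at h2
  field_simp
  linear_combination h2

theorem SI_aeval (e : SI Om K Om K) (x : K) (p : Om[X]) :
    e.f (aeval x p) = aeval (e.f x) (p.map (e.s : Om →+* Om)) :=
  Polynomial.map_aeval_eq_aeval_map (φ := (e.s : Om →+* Om)) (ψ := (e.f : K →+* K))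
    (by ext c; simp [e.comm]) p x

theorem unit_of_mul {a b : Om} (ha : v a ≤ 1) (hb : v b ≤ 1) (h : v (a * b) = 1) : v a = 1 := by
  refine le_antisymm ha ?_
  rw [← h, map_mul]
  exact mul_le_of_le_one_right' hb

section act

variable {G : Type*} [Group G] [MulSemiringAction G Om] {e : G → SI Om K Om K}

theorem map_mem_RR (hs : ∀ g a, (e g).s a = g • a) {p : Om[X]} (hp : Itg v p) {a : Om} (ha : v a ≤ 1) :
    (fun g => (p.map ((e g).s : Om →+* Om)).eval a) ∈ RR v G := by
  have := sum_mem' (Finset.range (p.natDegree + 1)) (F := fun i (g : G) => (g • p.coeff i) * a ^ i)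
    fun i _ => mul_mem' (G := G) (smul_mem (hp i)) (pow_mem' (const_mem ha) i)
  convert this using 2 with g
  rw [eval_map, eval₂_eq_sum_range]
  simp [hs]

theorem eval_mem_RR {p : Om[X]} (hp : Itg v p) {a : Om} (ha : v a ≤ 1) :
    (fun g : G => p.eval (g • a)) ∈ RR v G := by
  have := sum_mem' (Finset.range (p.natDegree + 1)) (F := fun i (g : G) => p.coeff i * (g • a) ^ i)
    fun i _ => mul_mem' (const_mem (hp i)) (pow_mem' (smul_mem ha) i)
  convert this using 2 with g
  rw [eval_eq_sum_range]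

theorem Chart.ur {F : Om[X]} {x w : K} (h : Chart v F x w)
    (hiso : ∀ (g : G) (a : Om), v (g • a) = v a) (hres : ∀ (g : G) (a : Om), v a ≤ 1 → v (g • a - a) < 1)
    (horb : ∀ a : Om, (Set.range fun g : G => g • a).Finite) (hs : ∀ g a, (e g).s a = g • a)
    (hfix : ∀ g, (e g).f x = x ∧ (e g).f w = w) {f : K} (hf : f ≠ 0) :
    ∃ s : Om, s ≠ 0 ∧ ∀ Q : Pl Om K, Q.v x ≤ 1 → v (ev Q x) ≤ 1 → Far v x f (ev Q x) →
      (∀ g, Q.v ((e g).f f) = 1 ∧ ((e g).pl Q).v f = 1) ∧
      UR v G (fun g => ev Q ((e g).f f) / g • s) ∧ UR v G (fun g => ev ((e g).pl Q) f / s) := by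
  obtain ⟨s, A, B, c, hs0, hA, hB, hc, he, hu⟩ := h.key hf
  refine ⟨s, hs0, fun Q hQ ha hfar => ?_⟩
  have hAt := h.hyp.at_ev hQ
  set a := ev Q x
  set b := ev Q w
  have hb2 := hAt.sq h.hyp.sq
  have hb : v b ≤ 1 := by
    have := Itg.eval_le h.int ha
    rw [← hb2, map_pow] at this
    exact (pow_le_one_iff (by norm_num)).mp this
  have hmap : ∀ (g : G) (p : Om[X]) (t : Om),
      (p.map ((e g).s : Om →+* Om)).eval (g • t) = g • p.eval t := by
    intro g p t
    rw [← hs, ← hs, eval_map]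
    exact eval₂_hom ((e g).s : Om →+* Om) t
  have hF : ∀ g, F.map ((e g).s : Om →+* Om) = F := by
    intro g
    have h1 := SI_aeval (e g) x F
    rw [← h.hyp.sq, map_pow, (hfix g).1, (hfix g).2, h.hyp.sq] at h1
    exact (sub_eq_zero.mp (h.hyp.tr _ (by rw [map_sub, ← h1, sub_self])))
  -- the values at `g • (a, b)`
  have hval : ∀ g : G, v (c.eval (g • a)) = 1 ∧ v (A.eval (g • a) + B.eval (g • a) * g • b) = 1 ∧
      v (A.eval (g • a) + B.eval (g • a) * g • b) = 1 := by
    intro g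
    have h1 : v (g • a) ≤ 1 := by rw [hiso]; exact ha
    have h2 : v (g • b) ≤ 1 := by rw [hiso]; exact hb
    obtain ⟨h3, h4⟩ := hu _ h1 (hfar.congr (hres g a ha))
    have h5 : F.eval (g • a) = (g • b) ^ 2 := by
      conv_lhs => rw [← hF g]
      rw [hmap, ← hb2, smul_pow']
    have h6 : v (B.eval (g • a) * g • b) ≤ 1 := by
      rw [map_mul]; exact mul_le_one' (hB.eval_le h1) h2
    have h7 : v (A.eval (g • a) + B.eval (g • a) * g • b) = 1 := by
      refine unit_of_mul (b := A.eval (g • a) - B.eval (g • a) * g • b)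
        ((Valuation.map_add _ _ _).trans (max_le (hA.eval_le h1) h6))
        ((Valuation.map_sub _ _ _).trans (max_le (hA.eval_le h1) h6)) ?_
      rw [← h4, h5]; congr 1; ring
    exact ⟨h3, h7, h7⟩
  have hne : ∀ {t : Om}, v t = 1 → t ≠ 0 := by
    rintro t ht rfl; simp at ht
  have hval' : ∀ g : G, v ((c.map ((e g).s : Om →+* Om)).eval a) = 1 ∧
      v ((A.map ((e g).s : Om →+* Om)).eval a + (B.map ((e g).s : Om →+* Om)).eval a * b) = 1 := by
    intro g
    obtain ⟨h1, h2, -⟩ := hval g⁻¹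
    constructor
    · conv_lhs => rw [← smul_inv_smul g a]
      rw [hmap, hiso, h1]
    · conv_lhs => rw [← smul_inv_smul g a, ← smul_inv_smul g b]
      rw [hmap, hmap, ← smul_mul', ← smul_add, hiso, h2]
  have e1 : ∀ g : G, Q.v ((e g).f f) = 1 ∧ ev Q ((e g).f f) / g • s =
      ((A.map ((e g).s : Om →+* Om)).eval a + (B.map ((e g).s : Om →+* Om)).eval a * b) /
        (c.map ((e g).s : Om →+* Om)).eval a := by
    intro g
    refine ev_of_eq hAt ?_ ((smul_ne_zero_iff_ne g).mpr hs0) (hne (hval' g).1) (hne (hval' g).2)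
    have h1 := congrArg (e g).f he
    simp only [el, map_mul, map_add, SI_aeval, (hfix g).1, (hfix g).2, (e g).comm, hs] at h1
    exact h1
  have e2 : ∀ g : G, ((e g).pl Q).v f = 1 ∧ ev ((e g).pl Q) f / s =
      (A.eval (g • a) + B.eval (g • a) * g • b) / c.eval (g • a) := by
    intro g
    have h1 := hAt.SI (e g)
    rw [(hfix g).1, (hfix g).2, hs, hs] at h1
    exact ev_of_eq h1 he hs0 (hne (hval g).1) (hne (hval g).2.1)
  refine ⟨fun g => ⟨(e1 g).1, (e2 g).1⟩, ?_, ?_⟩
  · simp only [fun g => (e1 g).2]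
    exact UR.div horb ⟨add_mem' (map_mem_RR hs hA ha) (mul_mem' (map_mem_RR hs hB ha) (const_mem hb)),
      fun g => (hval' g).2⟩ ⟨map_mem_RR hs hc ha, fun g => (hval' g).1⟩
  · simp only [fun g => (e2 g).2]
    exact UR.div horb ⟨add_mem' (eval_mem_RR hA ha) (mul_mem' (eval_mem_RR hB ha) (smul_mem hb)),
      fun g => (hval g).2.1⟩ ⟨eval_mem_RR hc ha, fun g => (hval g).1⟩

end act

theorem supp_sum {ι : Type*} [Fintype ι] {P Q : ι → Pl Om K} {R : Pl Om K}
    (h : (∑ j, (Finsupp.single (P j) 1 - Finsupp.single (Q j) 1) : Pl Om K →₀ ℤ) R ≠ 0) :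
    ∃ j, R = P j ∨ R = Q j := by
  classical
  by_contra hcon
  push Not at hcon
  apply h
  rw [Finsupp.finsetSum_apply]
  refine Finset.sum_eq_zero fun j _ => ?_
  rw [Finsupp.sub_apply, Finsupp.single_apply, Finsupp.single_apply, if_neg (hcon j).1.symm,
    if_neg (hcon j).2.symm, sub_zero]

theorem ev_sum {ι : Type*} (s : Finset ι) (f : K) {P Q : ι → Pl Om K}
    (h : ∀ j, (P j).v f = 1 ∧ (Q j).v f = 1) :
    (Wp.ev f (∑ j ∈ s, (Finsupp.single (P j) 1 - Finsupp.single (Q j) 1)) : Om) =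
      ∏ j ∈ s, ev (P j) f / ev (Q j) f := by
  classical
  induction s using Finset.induction_on with
  | empty => simp
  | insert j s hj ih =>
    rw [Finset.sum_insert hj, Finset.prod_insert hj, Wp.ev_add, Units.val_mul, ih, Wp.ev_sub,
      Wp.ev_single, Wp.ev_single, zpow_one, zpow_one, Units.val_div_eq_div_val,
      coe_nrm_eq (h j).1, coe_nrm_eq (h j).2]

theorem wp_UR {G : Type*} [Group G] [MulSemiringAction G Om] {e : G → SI Om K Om K}
    (hiso : ∀ (g : G) (a : Om), v (g • a) = v a) (hres : ∀ (g : G) (a : Om), v a ≤ 1 → v (g • a - a) < 1)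
    (horb : ∀ a : Om, (Set.range fun g : G => g • a).Finite) (hs : ∀ g a, (e g).s a = g • a)
    {ι : Type*} [Fintype ι] {F : ι → Om[X]} {x w : ι → K} (hc : ∀ j, Chart v (F j) (x j) (w j))
    (hfix : ∀ g j, (e g).f (x j) = x j ∧ (e g).f (w j) = w j) (hm : Mov v x) {n : ℕ} (hn : n ≠ 0)
    {z y : Pic Om K} (hz : n • z = 0) (hy : n • y = 0) :
    UR v G (fun g => (Wp.wp n ((e g).pic z) y : Om)) := by
  classical
  obtain ⟨N, hN, hmov⟩ := hm
  have hP0 : ∀ {z : Pic Om K}, n • z = 0 → z ∈ Pic0 Om K := by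
    intro z hz
    have := congrArg (degPic (k := Om) (K := K)) hz
    rw [map_nsmul, map_zero] at this
    exact mem_Pic0.mpr (by simpa [hn] using this)
  obtain ⟨P, Q, hPQ, rfl⟩ := hmov z (hP0 hz) N
  obtain ⟨P', Q', hPQ', rfl⟩ := hmov y (hP0 hy) fun j => N j ∪
    (Finset.univ.image (fun l => ev (P l) (x j)) ∪ Finset.univ.image fun l => ev (Q l) (x j))
  obtain ⟨f, hf, hfD⟩ := Wp.exists_fun hz
  obtain ⟨f', hf', hfE⟩ := Wp.exists_fun hy
  choose s hs0 hu using fun j => (hc j).ur hiso hres horb hs (fun g => hfix g j) hf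
  choose s' hs0' hu' using fun j => (hc j).ur hiso hres horb hs (fun g => hfix g j) hf'
  have far1 : ∀ j (R' : Pl Om K), Gp v (x j) (N j ∪ (Finset.univ.image (fun l => ev (P l) (x j)) ∪
      Finset.univ.image fun l => ev (Q l) (x j))) R' → Far v (x j) f (ev R' (x j)) := by
    intro j R' hR' R _ hR
    rw [hfD, Finsupp.smul_apply] at hR
    obtain ⟨l, rfl | rfl⟩ := supp_sum (right_ne_zero_of_smul hR)
    · exact hR'.2.2 _ (by simp)
    · exact hR'.2.2 _ (by simp)
  have far2 : ∀ j (R0 : Pl Om K), Gp v (x j) (N j) R0 → (R0 = P j ∨ R0 = Q j) →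
      Far v (x j) f' (ev R0 (x j)) := by
    intro j R0 hR0 hR0' R hR1 hR
    rw [hfE, Finsupp.smul_apply] at hR
    obtain ⟨l, hl⟩ := supp_sum (right_ne_zero_of_smul hR)
    have hG : Gp v (x l) (N l ∪ (Finset.univ.image (fun l' => ev (P l') (x l)) ∪
        Finset.univ.image fun l' => ev (Q l') (x l))) R := by
      rcases hl with rfl | rfl
      · exact (hPQ' l).1
      · exact (hPQ' l).2
    by_cases hjl : j = l
    · subst hjl
      rw [Valuation.map_sub_swap]
      rcases hR0' with rfl | rfl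
      · exact hG.2.2 _ (by simp)
      · exact hG.2.2 _ (by simp)
    · have h1 := hN j l hjl R ⟨hG.1, hG.2.1, fun t ht => hG.2.2 t (Finset.mem_union_left _ ht)⟩
      by_cases h2 : v (ev R (x j)) ≤ 1
      · have h3 : ∃ t ∈ N j, v (ev R (x j) - t) < 1 := by
          by_contra hcon
          push Not at hcon
          exact h1 ⟨hR1, h2, hcon⟩
        obtain ⟨t, ht, ht'⟩ := h3
        rw [Valuation.map_sub_swap]
        have h4 := hR0.2.2 t ht
        rw [Valuation.map_sub_swap] at h4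
        exact one_le_of_congr h4 ht'
      · push Not at h2
        rw [Valuation.map_sub_eq_of_lt_right _ (lt_of_le_of_lt hR0.2.1 h2)]
        exact h2.le
  have a1 := fun j => hu j _ (hPQ' j).1.1 (hPQ' j).1.2.1 (far1 j _ (hPQ' j).1)
  have a2 := fun j => hu j _ (hPQ' j).2.1 (hPQ' j).2.2.1 (far1 j _ (hPQ' j).2)
  have b1 := fun j => hu' j _ (hPQ j).1.1 (hPQ j).1.2.1 (far2 j _ (hPQ j).1 (Or.inl rfl))
  have b2 := fun j => hu' j _ (hPQ j).2.1 (hPQ j).2.2.1 (far2 j _ (hPQ j).2 (Or.inr rfl))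
  have c1 := UR.prod Finset.univ fun j _ => (a1 j).2.1.div horb (a2 j).2.1
  have c2 := UR.prod Finset.univ fun j _ => (b1 j).2.2.div horb (b2 j).2.2
  convert c1.div horb c2 using 2 with g
  have hfg : (e g).f f ≠ 0 := by simpa using hf
  have hdiv : divf (k := Om) ((e g).f f) =
      n • (e g).D (∑ j, (Finsupp.single (P j) 1 - Finsupp.single (Q j) 1)) := by
    rw [(e g).divf_f hf, hfD, map_nsmul]
  rw [SI.pic_cls, Wp.wp_eq hc_of_isAlgClosed hn (f := (e g).f f) (g := f') hfg hf' hdiv hfE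
    (fun R => by
      by_cases hR : (∑ j, (Finsupp.single (P' j) 1 - Finsupp.single (Q' j) 1) : Pl Om K →₀ ℤ) R = 0
      · exact Or.inr hR
      · left
        have h1 : R.v ((e g).f f) = 1 := by
          obtain ⟨l, rfl | rfl⟩ := supp_sum hR
          · exact ((a1 l).1 g).1
          · exact ((a2 l).1 g).1
        have h2 := (v_eq_one_iff hfg R).mp h1
        rw [hdiv, Finsupp.smul_apply] at h2
        simpa [hn] using h2), Units.val_div_eq_div_val,
    ev_sum _ _ fun j => ⟨((a1 j).1 g).1, ((a2 j).1 g).1⟩]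
  simp only [map_sum, map_sub, SI.D_single]
  rw [ev_sum _ _ fun j => ⟨((b1 j).1 g).2, ((b2 j).1 g).2⟩]
  congr 1
  · refine Finset.prod_congr rfl fun j _ => ?_
    rw [div_div_div_cancel_right₀ ((smul_ne_zero_iff_ne g).mpr (hs0 j))]
  · refine Finset.prod_congr rfl fun j _ => ?_
    rw [div_div_div_cancel_right₀ (hs0' j)]

theorem flat_of_mov [CharZero Om] {G : Type*} [Group G] [MulSemiringAction G Om] {e : G → SI Om K Om K}
    (hiso : ∀ (g : G) (a : Om), v (g • a) = v a) (hres : ∀ (g : G) (a : Om), v a ≤ 1 → v (g • a - a) < 1)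
    (horb : ∀ a : Om, (Set.range fun g : G => g • a).Finite) (hs : ∀ g a, (e g).s a = g • a)
    {ι : Type*} [Fintype ι] {F : ι → Om[X]} {x w : ι → K} (hc : ∀ j, Chart v (F j) (x j) (w j))
    (hfix : ∀ g j, (e g).f (x j) = x j ∧ (e g).f (w j) = w j) (hm : Mov v x) {n : ℕ} (hn : n ≠ 0)
    (hnd : ∀ u : Pic Om K, n • u = 0 → u ≠ 0 → ∃ y : Pic Om K, n • y = 0 ∧ Wp.wp n u y ≠ 1)
    {V : Type*} [AddCommGroup V] [Finite V] (i : V →+ Pic Om K) (hi : Function.Injective i)
    (hV : ∀ u, n • i u = 0) {ρ : G → V → V} (hr : ∀ g u, i (ρ g u) = (e g).pic (i u)) :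
    Flat v G ρ := by
  refine flat_of_sep fun u hu => ?_
  obtain ⟨y, hy, hne⟩ := hnd (i u) (hV u) (fun h0 => hu (hi (by rw [h0, map_zero])))
  let χ : AddChar V Om :=
    { toFun := fun v => (Wp.wp n (i v) y : Om)
      map_zero_eq_one' := by rw [map_zero, Wp.wp_zero_left hc_of_isAlgClosed hn hy, Units.val_one]
      map_add_eq_mul' := fun a b => by
        rw [map_add, Wp.wp_add_left hc_of_isAlgClosed hn (hV a) (hV b) hy, Units.val_mul] }
  refine ⟨χ, fun h1 => hne (Units.ext h1), fun u' => ?_⟩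
  have := (wp_UR hiso hres horb hs hc hfix hm hn (hV u') hy).1
  convert this using 2 with g
  show (Wp.wp n (i (ρ g u')) y : Om) = _
  rw [hr]


end Crest.Agent.T15.F3
end

-- ▼ part T15/F3Mov_90
section

/-!
# Row 15, block F (helper90): the moving lemma, the chain of three elliptic curves, flatness
-/

set_option autoImplicit false
set_option linter.all false

namespace Crest.Agent.T15.F3

open Polynomial WithZero Module
open scoped NNReal
open Crest.Agent.R013.RR7_948 Crest.Agent.R013.RR8_948 Crest.Agent.R013.RR9_948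
open Crest.Agent.R013.RR11_948 Crest.Agent.R013.RR12_948 Crest.Agent.R013.PicD_398
open Crest.Agent.R013.GR2_921 Crest.Agent.R013.Frob1_914 Crest.Agent.T15.Hy
open Crest.Agent.T15.Disc Crest.Agent.T15.FlR

section residue

variable {Om : Type*} [Field Om] {Γ : Type*} [LinearOrderedCommGroupWithZero Γ] (v : Valuation Om Γ)

theorem rd_residue : Rd (IsLocalRing.residue v.integer) where
  surj := IsLocalRing.residue_surjective
  ker := fun a => by
    rw [IsLocalRing.residue_eq_zero_iff, IsLocalRing.mem_maximalIdeal, mem_nonunits_iff,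
      (Valuation.integer.integers v).isUnit_iff_valuation_eq_one]
    exact ⟨fun h => lt_of_le_of_ne a.2 h, fun h => h.ne⟩

theorem isAlgClosed_of_rd [IsAlgClosed Om] {k : Type*} [Field k] {r : v.integer →+* k} (h : Rd r) :
    IsAlgClosed k := by
  apply IsAlgClosed.of_exists_root
  intro p hp hirr
  obtain ⟨q, rfl, hdeg, hq⟩ := lifts_and_degree_eq_and_monic
    ((mem_lifts p).mpr (map_surjective r h.surj p)) hp
  obtain ⟨t, ht⟩ := IsAlgClosed.exists_root (q.map v.integer.subtype) (by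
    rw [hq.degree_map, hdeg]; exact (degree_pos_of_irreducible hirr).ne')
  have h1 : v t ≤ 1 := (Valuation.integer.integers v).mem_of_integral
    ⟨q, hq, by rw [← eval_map]; exact ht⟩
  refine ⟨r ⟨t, h1⟩, ?_⟩
  have h2 : q.eval ⟨t, h1⟩ = 0 := Subtype.ext (by
    have := ht.eq_zero
    rw [eval_map, show t = v.integer.subtype ⟨t, h1⟩ from rfl, eval₂_at_apply] at this
    exact this)
  rw [eval_map, eval₂_at_apply, h2, map_zero]

end residue

variable {Om K : Type*} [Field Om] [IsAlgClosed Om] [Field K] [Algebra Om K]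
  [Algebra (RatFunc Om) K] [IsScalarTower Om (RatFunc Om) K] [FiniteDimensional (RatFunc Om) K]
  [Algebra.IsSeparable (RatFunc Om) K] {v : Valuation Om ℝ≥0}
  {k : Type*} [Field k] [IsAlgClosed k] {r : v.integer →+* k}

theorem exists_sum (n : ℕ) : ∀ D : Pl Om K →₀ ℤ, 0 ≤ D → degD D = n →
    ∃ R : Fin n → Pl Om K, D = ∑ i, Finsupp.single (R i) 1 := by
  classical
  induction n with
  | zero => exact fun D h1 h2 => ⟨Fin.elim0, by simpa using eq_zero_of_nonneg h1 h2⟩
  | succ n ih =>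
    intro D h1 h2
    obtain ⟨P, hP⟩ : ∃ P, D P ≠ 0 := by
      by_contra hcon
      push Not at hcon
      rw [show D = 0 from Finsupp.ext hcon, degD_zero] at h2
      omega
    obtain ⟨R, hR⟩ := ih (D - Finsupp.single P 1) (by
      intro Q
      have h3 := h1 Q
      simp only [Finsupp.sub_apply, Finsupp.single_apply, Finsupp.coe_zero, Pi.zero_apply] at h3 ⊢
      split_ifs with h4
      · subst h4; omega
      · omega) (by rw [degD_sub, h2, degD_single, degP_eq_one]; push_cast; ring)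
    refine ⟨Fin.cons P R, ?_⟩
    rw [Fin.sum_univ_succ]
    simp only [Fin.cons_zero, Fin.cons_succ, ← hR]
    abel

section one

variable {κ : Type*} [Field κ] [Algebra k κ]
  [Algebra (RatFunc k) κ] [IsScalarTower k (RatFunc k) κ] [FiniteDimensional (RatFunc k) κ]
  [Algebra.IsSeparable (RatFunc k) κ]
  {F : v.integer[X]} {H E : k[X]} {x w : K} {xb wb : κ}

theorem chart_of_spD (h : SpD r F H E x w xb wb) : Chart v (F.map v.integer.subtype) x w where
  hyp := h.hyp
  int := int_map F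
  nsq := fun A B hA hB hN => by
    have key : ∀ D : Om[X], (∀ i, v (D.coeff i) ≤ 1) → ∃ D' : v.integer[X],
        D'.map v.integer.subtype = D := fun D hD =>
      (mem_lifts D).mp ((lifts_iff_coeff_lifts _).mpr fun i => ⟨⟨_, hD i⟩, rfl⟩)
    obtain ⟨A, rfl⟩ := key A hA
    obtain ⟨B, rfl⟩ := key B hB
    have h1 : (A ^ 2 - B ^ 2 * F).map r = 0 := by
      ext i
      rw [coeff_map, coeff_zero, h.rd.ker]
      have := hN i
      rwa [← Polynomial.map_pow, ← Polynomial.map_pow, ← Polynomial.map_mul, ← Polynomial.map_sub,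
        coeff_map] at this
    have d1 := el_norm h.sq_red' (A.map r) (B.map r)
    simp only [Polynomial.map_sub, Polynomial.map_mul, Polynomial.map_pow] at h1
    rw [h1, map_zero, SpD.el_red, SpD.el_red, ← Polynomial.map_neg] at d1
    have h2 : A.map r = 0 ∧ B.map r = 0 := by
      by_contra hcon
      rw [not_and_or] at hcon
      exact mul_ne_zero (h.red_ne hcon) (h.red_ne (B := -B) (by simpa using hcon)) d1
    intro i
    have h3 := congrArg (coeff · i) h2.1
    have h4 := congrArg (coeff · i) h2.2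
    simp only [coeff_map, coeff_zero, h.rd.ker] at h3 h4
    simp only [coeff_map]
    exact ⟨h3, h4⟩

theorem exists_bad (h : SpD r F H E x w xb wb) (S : Finset Om) :
    ∃ B : Finset (Pl k κ), (∀ P, sp r H x w xb wb P ∉ B → Gp v x S P) ∧
      ∀ p ∉ B, ∃ P, sp r H x w xb wb P = p := by
  classical
  have hfin : ∀ t : k, {p : Pl k κ | p.v (xb - algebraMap k κ t) ≠ 1}.Finite := fun t =>
    R013.RR11_948.finite_ne_one (h.hyb.x_sub_ne t)
  refine ⟨insert (oo k xb) ((S.image (rC r) ∪ H.roots.toFinset).biUnion fun t => (hfin t).toFinset),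
    ?_, ?_⟩
  · intro P hP
    simp only [Finset.mem_insert, Finset.mem_biUnion, Set.Finite.mem_toFinset, Set.mem_setOf_eq,
      not_or, not_exists, not_and, not_not] at hP
    obtain ⟨a, b, hA⟩ := (h.sp_cases P).resolve_right hP.1
    refine ⟨hA.x_le, by rw [ev_eq P hA.1]; exact a.2, fun s hs => ?_⟩
    rw [ev_eq P hA.1]
    by_contra hlt
    push Not at hlt
    have h1 : v s ≤ 1 := by
      have : s = a - (a - s) := by ring
      rw [this]
      exact (Valuation.map_sub _ _ _).trans (max_le a.2 hlt.le)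
    have h2 : r a = rC r s := by
      rw [show s = ((⟨s, h1⟩ : v.integer) : Om) from rfl, rC_coe, h.rd.eq_iff]; exact hlt
    have h3 := hP.2 (rC r s) (Finset.mem_union_left _ (Finset.mem_image_of_mem _ hs))
    rw [h.sp_at hA, ← h2] at h3
    exact absurd (h.hyb.at_pt (h.sq_red (h.sq_int hA))).1 (by rw [h3]; exact lt_irrefl _)
  · intro p hp
    simp only [Finset.mem_insert, Finset.mem_biUnion, Set.Finite.mem_toFinset, Set.mem_setOf_eq,
      not_or, not_exists, not_and, not_not] at hp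
    have h2 : p.v xb ≤ 1 := by
      by_contra h3
      exact hp.1 (h.hyb.inf_unique h.odd (not_le.mp h3) h.oo_spec)
    have hA := h.hyb.at_ev h2
    have h3 : H.eval (ev p xb) ≠ 0 := by
      intro h4
      have := hp.2 (ev p xb) (Finset.mem_union_right _ (by simp [h.H0, h4]))
      exact absurd hA.1 (by rw [this]; exact lt_irrefl _)
    obtain ⟨a, ha⟩ := h.rd.surj (ev p xb)
    obtain ⟨P, b, -, hP⟩ := h.exists_lift (hA.sq h.hyb.sq) h3 ha
    exact ⟨P, by rw [hP, h.hyb.pt_eq hA]⟩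

end one

/-- **the moving lemma** -/
theorem mov_of {ι : Type*} [Fintype ι] {F : ι → v.integer[X]} {H E : ι → k[X]} [∀ j, HF (E j)]
    {x w : ι → K} (h : ∀ j, SpD r (F j) (H j) (E j) (x j) (w j) (Hf.x (E j)) (Hf.w (E j)))
    (h3 : ∀ j, 3 ≤ (E j).natDegree) (hg : gen Om K ≤ Fintype.card ι) (N : ι → Finset Om)
    (hN : ∀ j l, j ≠ l → ∀ P : Pl Om K, Gp v (x l) (N l) P → ¬ Gp v (x j) (N j) P)
    (hc : ∀ j l, j ≠ l → ∀ P P' : Pl Om K, Gp v (x l) (N l) P → Gp v (x l) (N l) P' →
      sp r (H j) (x j) (w j) (Hf.x (E j)) (Hf.w (E j)) P =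
        sp r (H j) (x j) (w j) (Hf.x (E j)) (Hf.w (E j)) P') : Mov v x := by
  classical
  refine ⟨N, hN, fun z hz S => ?_⟩
  have mono : ∀ {j : ι} {P : Pl Om K}, Gp v (x j) (S j ∪ N j) P →
      Gp v (x j) (S j) P ∧ Gp v (x j) (N j) P := fun hP =>
    ⟨⟨hP.1, hP.2.1, fun t ht => hP.2.2 t (Finset.mem_union_left _ ht)⟩,
      ⟨hP.1, hP.2.1, fun t ht => hP.2.2 t (Finset.mem_union_right _ ht)⟩⟩
  choose B hB hB' using fun j => exists_bad (h j) (S j ∪ N j)
  choose p0 hp0 using fun j => exists_notMem (B j)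
  choose P0 hP0 using fun j => hB' j _ (hp0 j)
  have hP0' : ∀ j, Gp v (x j) (N j) (P0 j) := fun j => (mono (hB j _ (by rw [hP0]; exact hp0 j))).2
  have hfin : ∀ j, {q : Pl k (Hf (E j)) | ∃ β : ι → B j,
      ∑ i, cls (Finsupp.single (β i : Pl k (Hf (E j))) (1 : ℤ)) = (h j).spPic z +
        (cls (Finsupp.single q 1) +
          ∑ l ∈ Finset.univ.erase j, (h j).spPic (cls (Finsupp.single (P0 l) 1)))}.Finite := by
    intro j
    rw [Set.setOf_exists]
    refine Set.finite_iUnion fun β => Set.Subsingleton.finite fun q hq q' hq' => ?_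
    exact (h j).hyb.eq_of_cls (h3 j) (add_right_cancel (add_left_cancel (hq.symm.trans hq')))
  choose q hq using fun j => exists_notMem (B j ∪ (hfin j).toFinset)
  simp only [Finset.mem_union, not_or, Set.Finite.mem_toFinset, Set.mem_setOf_eq] at hq
  choose Q hQ using fun j => hB' j _ (hq j).1
  have hQ' : ∀ j, Gp v (x j) (S j ∪ N j) (Q j) := fun j => hB j _ (by rw [hQ]; exact (hq j).1)
  obtain ⟨D, rfl⟩ := cls_surjective z
  have hD : degD D = 0 := hz
  have hdeg : degD (D + ∑ j, Finsupp.single (Q j) 1) = Fintype.card ι := by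
    rw [degD_add, hD, zero_add]
    have : ∀ s : Finset ι, degD (∑ j ∈ s, Finsupp.single (Q j) (1 : ℤ)) = s.card := by
      intro s
      induction s using Finset.induction_on with
      | empty => simp [degD_zero]
      | insert a s ha ih =>
        rw [Finset.sum_insert ha, degD_add, ih, degD_single, degP_eq_one,
          Finset.card_insert_of_notMem ha]
        push_cast; ring
    exact this _
  obtain ⟨f, hf, hfD⟩ := exists_mem_LD (D := D + ∑ j, Finsupp.single (Q j) 1)
    (by rw [hdeg]; exact_mod_cast hg)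
  rw [mem_LD_iff hf] at hfD
  obtain ⟨R0, hR0⟩ := exists_sum (Fintype.card ι) _ hfD (by
    rw [degD_add, degD_divf hf, hdeg]; simp)
  set R : ι → Pl Om K := fun i => R0 (Fintype.equivFin ι i) with hR
  have hsum : ∑ i, cls (Finsupp.single (R i) (1 : ℤ)) =
      cls D + ∑ j, cls (Finsupp.single (Q j) 1) := by
    have := congrArg cls hR0
    simp only [map_add, map_sum, cls_divf hf] at this
    rw [Equiv.sum_comp (Fintype.equivFin ι) fun i => cls (Finsupp.single (R0 i) (1 : ℤ)), ← this]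
    simp
  have hex : ∀ j, ∃ i, Gp v (x j) (S j ∪ N j) (R i) := by
    intro j
    by_contra hcon
    push Not at hcon
    have h1 : ∀ i, sp r (H j) (x j) (w j) (Hf.x (E j)) (Hf.w (E j)) (R i) ∈ B j := by
      intro i
      by_contra h2
      exact hcon i (hB j _ h2)
    refine (hq j).2 ⟨fun i => ⟨_, h1 i⟩, ?_⟩
    have h2 := congrArg (h j).spPic hsum
    simp only [map_add, map_sum, SpD.spPic_single] at h2 ⊢
    rw [h2, ← Finset.add_sum_erase _ _ (Finset.mem_univ j), hQ]
    congr 2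
    refine Finset.sum_congr rfl fun l hl => ?_
    rw [hc j l (Finset.ne_of_mem_erase hl).symm _ _ (mono (hQ' l)).2 (hP0' l)]
  choose σ hσ using hex
  have hinj : Function.Injective σ := by
    intro j l hjl
    by_contra hne
    exact hN j l hne _ (mono (hσ l)).2 (hjl ▸ (mono (hσ j)).2)
  refine ⟨fun j => R (σ j), Q, fun j => ⟨(mono (hσ j)).1, (mono (hQ' j)).1⟩, ?_⟩
  simp only [map_sum, map_sub, Finset.sum_sub_distrib]
  rw [← Equiv.sum_comp (Equiv.ofBijective σ (Finite.injective_iff_bijective.mp hinj))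
    (fun i => cls (Finsupp.single (R i) (1 : ℤ)))] at hsum
  simp only [Equiv.ofBijective_apply] at hsum
  rw [hsum]; abel

end Crest.Agent.T15.F3
end

-- ▼ part T15/F3Ch_90

/-!
# Row 15, block F (helper90): flatness for `w ^ 2 = c z (z ^ 2 - a0) (z ^ 2 - a1) (z ^ 2 - a2)` whose
reduction is a chain of three elliptic curves
-/

set_option autoImplicit false
set_option linter.all false

namespace Crest.Agent.T15.F3

open Polynomial WithZero Module
open scoped NNReal
open Crest.Agent.R013.RR7_948 Crest.Agent.R013.RR8_948 Crest.Agent.R013.RR9_948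
open Crest.Agent.R013.RR11_948 Crest.Agent.R013.RR12_948 Crest.Agent.R013.PicD_398
open Crest.Agent.R013.GR2_921 Crest.Agent.R013.Frob1_914 Crest.Agent.T15.Hy
open Crest.Agent.T15.Disc Crest.Agent.T15.FlR

section ell

variable {k : Type*} [Field k]

/-- the components `w ^ 2 = u x (x ^ 2 - a)` -/
noncomputable def Eb (u a : k) : k[X] := C u * X * (X ^ 2 - C a)

theorem Eb_deg {u : k} (a : k) (hu : u ≠ 0) : (Eb u a).natDegree = 3 := by
  unfold Eb
  rw [natDegree_mul (mul_ne_zero (by simpa using hu) X_ne_zero) (X_pow_sub_C_ne_zero two_pos a),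
    natDegree_C_mul_X _ hu, natDegree_X_pow_sub_C]
  rfl

theorem Eb_HF {u a : k} (h2 : (2 : k) ≠ 0) (hu : u ≠ 0) (ha : a ≠ 0) : HF (Eb u a) where
  two := h2
  pos := by rw [Eb_deg a hu]; norm_num
  sep := by
    unfold Eb
    rw [mul_assoc]
    refine Separable.unit_mul (isUnit_C.mpr hu.isUnit) (Separable.mul separable_X
      (separable_X_pow_sub_C a (by exact_mod_cast h2) ha) ⟨C a⁻¹ * X, -C a⁻¹, ?_⟩)
    have : (C a⁻¹ * C a : k[X]) = 1 := by rw [← map_mul, inv_mul_cancel₀ ha, map_one]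
    linear_combination this

end ell

variable {Om : Type*} [Field Om] [IsAlgClosed Om] {v : Valuation Om ℝ≥0}

section chd

variable {k : Type*} [Field k] (r : v.integer →+* k)

/-- the chart `z = p x`, `w = s y` reduces to `y ^ 2 = H ^ 2 u x (x ^ 2 - a)` -/
def ChD (Fc : Om[X]) (p s : Om) : Prop :=
  ∃ (F : v.integer[X]) (H : k[X]) (u a : k), u ≠ 0 ∧ a ≠ 0 ∧
    Fc.comp (C 0 + C p * X) = C (s ^ 2) * F.map v.integer.subtype ∧ F.map r = H ^ 2 * Eb u a ∧
    H ≠ 0 ∧ ∀ t, H.eval t = 0 → t = 0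

variable {r} (hr : Rd r) {c a0 a1 a2 p s : Om}
include hr

theorem r_ne {x : Om} (h : v x = 1) : r ⟨x, h.le⟩ ≠ 0 := by
  rw [Ne, hr.ker]; exact h.not_lt

theorem r_eq {x : Om} (h : v x < 1) : r ⟨x, h.le⟩ = 0 := by
  rw [hr.ker]; exact h

theorem chD0 (hc : c ≠ 0) (ha : a0 ≠ 0) (h01 : v a0 < v a1) (h12 : v a1 < v a2)
    (hp : v p ^ 2 = v a0) (hs : v s ^ 2 = v c * v p ^ 3 * v a1 * v a2) :
    ChD r (C c * X * (X ^ 2 - C a0) * (X ^ 2 - C a1) * (X ^ 2 - C a2)) p s := by
  have b0 : 0 < v a0 := by simpa [pos_iff_ne_zero] using ha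
  have b1 := b0.trans h01
  have b2 := b1.trans h12
  have p0 : v p ≠ 0 := fun h => by rw [h] at hp; simp [← hp] at b0
  have c0 : v c ≠ 0 := by simpa using hc
  have s0 : v s ≠ 0 := fun h => by
    rw [h] at hs; simp [c0, p0, b1.ne', b2.ne'] at hs
  have hu : v (c * p ^ 3 * a1 * a2 / s ^ 2) = 1 := by
    simp only [map_div₀, map_mul, map_pow, ← hs]; exact div_self (pow_ne_zero _ s0)
  have hal : v (a0 / p ^ 2) = 1 := by
    simp only [map_div₀, map_pow, hp]; exact div_self b0.ne'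
  have h1 : v (p ^ 2 / a1) < 1 := by
    simp only [map_div₀, map_pow, hp]; exact (div_lt_one₀ b1).mpr h01
  have h2 : v (p ^ 2 / a2) < 1 := by
    simp only [map_div₀, map_pow, hp]; exact (div_lt_one₀ b2).mpr (h01.trans h12)
  refine ⟨C ⟨_, hu.le⟩ * X * (X ^ 2 - C ⟨_, hal.le⟩) * (C ⟨_, h1.le⟩ * X ^ 2 - 1) *
    (C ⟨_, h2.le⟩ * X ^ 2 - 1), 1, _, _, r_ne hr hu, r_ne hr hal, ?_, ?_, one_ne_zero, by simp⟩
  · have := (v.ne_zero_iff).mp p0
    have := (v.ne_zero_iff).mp s0
    have := (v.ne_zero_iff).mp b1.ne'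
    have := (v.ne_zero_iff).mp b2.ne'
    refine Polynomial.funext fun t => ?_
    simp [eval_comp]
    field_simp
  · simp [Eb, r_eq hr h1, r_eq hr h2]

theorem chD1 (hc : c ≠ 0) (ha : a0 ≠ 0) (h01 : v a0 < v a1) (h12 : v a1 < v a2)
    (hp : v p ^ 2 = v a1) (hs : v s ^ 2 = v c * v p ^ 5 * v a2) :
    ChD r (C c * X * (X ^ 2 - C a0) * (X ^ 2 - C a1) * (X ^ 2 - C a2)) p s := by
  have b0 : 0 < v a0 := by simpa [pos_iff_ne_zero] using ha
  have b1 := b0.trans h01
  have b2 := b1.trans h12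
  have p0 : v p ≠ 0 := fun h => by rw [h] at hp; simp [← hp] at b1
  have c0 : v c ≠ 0 := by simpa using hc
  have s0 : v s ≠ 0 := fun h => by
    rw [h] at hs; simp [c0, p0, b1.ne', b2.ne'] at hs
  have hu : v (c * p ^ 5 * a2 / s ^ 2) = 1 := by
    simp only [map_div₀, map_mul, map_pow, ← hs]; exact div_self (pow_ne_zero _ s0)
  have hal : v (a1 / p ^ 2) = 1 := by
    simp only [map_div₀, map_pow, hp]; exact div_self b1.ne'
  have h1 : v (a0 / p ^ 2) < 1 := by
    simp only [map_div₀, map_pow, hp]; exact (div_lt_one₀ b1).mpr h01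
  have h2 : v (p ^ 2 / a2) < 1 := by
    simp only [map_div₀, map_pow, hp]; exact (div_lt_one₀ b2).mpr h12
  refine ⟨C ⟨_, hu.le⟩ * X * (X ^ 2 - C ⟨_, h1.le⟩) * (X ^ 2 - C ⟨_, hal.le⟩) *
    (C ⟨_, h2.le⟩ * X ^ 2 - 1), X, _, _, neg_ne_zero.mpr (r_ne hr hu), r_ne hr hal, ?_, ?_,
    X_ne_zero, by simp⟩
  · have := (v.ne_zero_iff).mp p0
    have := (v.ne_zero_iff).mp s0
    have := (v.ne_zero_iff).mp b2.ne'
    refine Polynomial.funext fun t => ?_
    simp [eval_comp]
    field_simp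
  · simp [Eb, r_eq hr h1, r_eq hr h2]
    ring

theorem chD2 (hc : c ≠ 0) (ha : a0 ≠ 0) (h01 : v a0 < v a1) (h12 : v a1 < v a2)
    (hp : v p ^ 2 = v a2) (hs : v s ^ 2 = v c * v p ^ 7) :
    ChD r (C c * X * (X ^ 2 - C a0) * (X ^ 2 - C a1) * (X ^ 2 - C a2)) p s := by
  have b0 : 0 < v a0 := by simpa [pos_iff_ne_zero] using ha
  have b1 := b0.trans h01
  have b2 := b1.trans h12
  have p0 : v p ≠ 0 := fun h => by rw [h] at hp; simp [← hp] at b2
  have c0 : v c ≠ 0 := by simpa using hc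
  have s0 : v s ≠ 0 := fun h => by
    rw [h] at hs; simp [c0, p0, b1.ne', b2.ne'] at hs
  have hu : v (c * p ^ 7 / s ^ 2) = 1 := by
    simp only [map_div₀, map_mul, map_pow, ← hs]; exact div_self (pow_ne_zero _ s0)
  have hal : v (a2 / p ^ 2) = 1 := by
    simp only [map_div₀, map_pow, hp]; exact div_self b2.ne'
  have h1 : v (a0 / p ^ 2) < 1 := by
    simp only [map_div₀, map_pow, hp]; exact (div_lt_one₀ b2).mpr (h01.trans h12)
  have h2 : v (a1 / p ^ 2) < 1 := by
    simp only [map_div₀, map_pow, hp]; exact (div_lt_one₀ b2).mpr h12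
  refine ⟨C ⟨_, hu.le⟩ * X * (X ^ 2 - C ⟨_, h1.le⟩) * (X ^ 2 - C ⟨_, h2.le⟩) *
    (X ^ 2 - C ⟨_, hal.le⟩), X ^ 2, _, _, r_ne hr hu, r_ne hr hal, ?_, ?_,
    pow_ne_zero _ X_ne_zero, by simp⟩
  · have := (v.ne_zero_iff).mp p0
    have := (v.ne_zero_iff).mp s0
    refine Polynomial.funext fun t => ?_
    simp [eval_comp]
    field_simp
  · simp [Eb, r_eq hr h1, r_eq hr h2]
    ring

end chd

variable {K : Type*} [Field K] [Algebra Om K]
  [Algebra (RatFunc Om) K] [IsScalarTower Om (RatFunc Om) K] [FiniteDimensional (RatFunc Om) K]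
  [Algebra.IsSeparable (RatFunc Om) K]

/-- flatness from charts centred at `0` of different radii, as many as the genus -/
theorem flat_of_chD [CharZero Om] {ι : Type*} [Fintype ι] {Fc : Om[X]} {z w : K} (h : Hyp Fc z w)
    (h2 : v 2 = 1) (hg : R013.RR11_948.gen Om K ≤ Fintype.card ι) {p s : ι → Om}
    (hp : ∀ j, p j ≠ 0) (hs0 : ∀ j, s j ≠ 0) (hpp : ∀ j l, v (p j) = v (p l) → j = l)
    (hch : ∀ j, ChD (IsLocalRing.residue v.integer) Fc (p j) (s j))
    {G : Type*} [Group G] [MulSemiringAction G Om] {e : G → SI Om K Om K}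
    (hiso : ∀ (g : G) (a : Om), v (g • a) = v a)
    (hres : ∀ (g : G) (a : Om), v a ≤ 1 → v (g • a - a) < 1)
    (horb : ∀ a : Om, (Set.range fun g : G => g • a).Finite) (hs : ∀ g a, (e g).s a = g • a)
    (hz : ∀ g, (e g).f z = z) (hw : ∀ g, (e g).f w = w)
    (hfix : ∀ (g : G) j, g • p j = p j ∧ g • s j = s j) {n : ℕ} (hn : n ≠ 0)
    {V : Type*} [AddCommGroup V] [Finite V] (i : V →+ Pic Om K) (hi : Function.Injective i)
    (hV : ∀ u, n • i u = 0) {ρ : G → V → V} (hr : ∀ g u, i (ρ g u) = (e g).pic (i u)) :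
    Flat v G ρ := by
  classical
  have rd := rd_residue v
  haveI := isAlgClosed_of_rd v rd
  set r := IsLocalRing.residue v.integer with hr'
  choose F H u a hu ha hF hred H0 hroot using hch
  have k2 : (2 : IsLocalRing.ResidueField v.integer) ≠ 0 := by
    rw [← map_ofNat r 2, Ne, rd.ker]
    exact (show v ((2 : v.integer) : Om) = 1 from h2).not_lt
  haveI : ∀ j, HF (Eb (u j) (a j)) := fun j => Eb_HF k2 (hu j) (ha j)
  have hp' : ∀ j, algebraMap Om K (p j) ≠ 0 := fun j => by simpa using hp j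
  have hs' : ∀ j, algebraMap Om K (s j) ≠ 0 := fun j => by simpa using hs0 j
  have hS : ∀ j, SpD r (F j) (H j) (Eb (u j) (a j)) (z / algebraMap Om K (p j))
      (w / algebraMap Om K (s j)) (Hf.x _) (Hf.w _) := fun j =>
    ⟨rd, h.chart (c := 0) (hp j) (hs0 j) (by rw [map_zero, zero_add, mul_div_cancel₀ _ (hp' j)])
      (by rw [mul_div_cancel₀ _ (hs' j)]) (hF j), Hf.hyp _, hred j, H0 j,
      fun t ht => by simp [hroot j t ht, Eb], by rw [Eb_deg _ (hu j)]; decide⟩
  have key : ∀ j l (P : Pl Om K), Gp v (z / algebraMap Om K (p l)) {0} P →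
      P.v (z / algebraMap Om K (p j)) ≤ 1 ∧
        v (ev P (z / algebraMap Om K (p j))) = v (p l) / v (p j) := by
    intro j l P hP
    have e1 : z / algebraMap Om K (p j) = (p l / p j) • (z / algebraMap Om K (p l)) := by
      have := hp' j
      have := hp' l
      rw [Algebra.smul_def, map_div₀]; field_simp
    have e2 : v (ev P (z / algebraMap Om K (p l))) = 1 :=
      le_antisymm hP.2.1 (by simpa using hP.2.2 0 (by simp))
    rw [e1, ev_smul P _ hP.1, map_mul, e2, mul_one, map_div₀, Algebra.smul_def, map_mul]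
    exact ⟨mul_le_one' (v_const_le P _) hP.1, rfl⟩
  have pv : ∀ j, v (p j) ≠ 0 := fun j => by simpa using hp j
  refine flat_of_mov hiso hres horb hs (fun j => chart_of_spD (hS j)) (fun g j => ?_)
    (mov_of hS (fun j => (Eb_deg _ (hu j)).ge) hg (fun _ => {0}) ?_ ?_) hn
    (fun y hy h0 => Wp.exists_wp_ne_one' (by exact_mod_cast hn) (Wp.divH Om hn) hy h0) i hi hV hr
  · simp only [map_div₀, hz, hw, SI.comm, hs, (hfix g j).1, (hfix g j).2, and_self]
  · intro j l hjl P hl hj
    have e1 := (key j l P hl).2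
    rw [(key j j P hj).2, div_self (pv j), eq_comm, div_eq_one_iff_eq (pv j)] at e1
    exact hjl (hpp _ _ e1).symm
  · intro j l hjl P P' hP hP'
    rcases lt_trichotomy (v (p l) / v (p j)) 1 with h1 | h1 | h1
    · have : ∀ Q : Pl Om K, Gp v (z / algebraMap Om K (p l)) {0} Q →
          sp r (H j) (z / algebraMap Om K (p j)) (w / algebraMap Om K (s j))
            (Hf.x (Eb (u j) (a j))) (Hf.w _) Q = pt (Hf.x _) (Hf.w _) 0 0 := by
        intro Q hQ
        obtain ⟨k1, k2⟩ := key j l Q hQ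
        obtain ⟨α, β, hA⟩ := (hS j).exists_int k1 (by rw [k2]; exact h1.le)
        have e1 : r α = 0 := by rw [rd.ker, ← ev_eq Q hA.1, k2]; exact h1
        have e2 := (hS j).sq_red ((hS j).sq_int hA)
        rw [(hS j).sp_at hA]
        rw [e1] at e2 ⊢
        rw [show r β / (H j).eval 0 = 0 by simpa [Eb] using e2]
      rw [this P hP, this P' hP']
    · rw [div_eq_one_iff_eq (pv j)] at h1
      exact absurd (hpp _ _ h1).symm hjl
    · unfold sp
      rw [if_neg (fun h3 => h1.not_ge ((key j l P hP).2 ▸ h3.2)),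
        if_neg (fun h3 => h1.not_ge ((key j l P' hP').2 ▸ h3.2))]

/-- **flatness at a chain of three elliptic curves** -/
theorem flat_chain [CharZero Om] {c a0 a1 a2 : Om} {z w : K}
    (h : Hyp (C c * X * (X ^ 2 - C a0) * (X ^ 2 - C a1) * (X ^ 2 - C a2)) z w)
    (h2 : v 2 = 1) (ha : a0 ≠ 0) (h01 : v a0 < v a1) (h12 : v a1 < v a2)
    {p0 p1 p2 s0 s1 s2 : Om} (hp0 : v p0 ^ 2 = v a0) (hp1 : v p1 ^ 2 = v a1)
    (hp2 : v p2 ^ 2 = v a2) (hs0 : v s0 ^ 2 = v c * v p0 ^ 3 * v a1 * v a2)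
    (hs1 : v s1 ^ 2 = v c * v p1 ^ 5 * v a2) (hs2 : v s2 ^ 2 = v c * v p2 ^ 7)
    {G : Type*} [Group G] [MulSemiringAction G Om] {e : G → SI Om K Om K}
    (hiso : ∀ (g : G) (a : Om), v (g • a) = v a)
    (hres : ∀ (g : G) (a : Om), v a ≤ 1 → v (g • a - a) < 1)
    (horb : ∀ a : Om, (Set.range fun g : G => g • a).Finite) (hs : ∀ g a, (e g).s a = g • a)
    (hz : ∀ g, (e g).f z = z) (hw : ∀ g, (e g).f w = w)
    (hfix : ∀ g : G, g • p0 = p0 ∧ g • p1 = p1 ∧ g • p2 = p2 ∧ g • s0 = s0 ∧ g • s1 = s1 ∧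
      g • s2 = s2) {n : ℕ} (hn : n ≠ 0)
    {V : Type*} [AddCommGroup V] [Finite V] (i : V →+ Pic Om K) (hi : Function.Injective i)
    (hV : ∀ u, n • i u = 0) {ρ : G → V → V} (hr : ∀ g u, i (ρ g u) = (e g).pic (i u)) :
    Flat v G ρ := by
  have hc : c ≠ 0 := fun h0 => h.F_ne (by simp [h0])
  have c0 : v c ≠ 0 := by simpa using hc
  have b0 : 0 < v a0 := by simpa [pos_iff_ne_zero] using ha
  have b1 := b0.trans h01
  have b2 := b1.trans h12
  have q0 : v p0 ≠ 0 := fun h => by rw [h] at hp0; simp [← hp0] at b0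
  have q1 : v p1 ≠ 0 := fun h => by rw [h] at hp1; simp [← hp1] at b1
  have q2 : v p2 ≠ 0 := fun h => by rw [h] at hp2; simp [← hp2] at b2
  have t0 : v s0 ≠ 0 := fun h => by rw [h] at hs0; simp [c0, q0, b1.ne', b2.ne'] at hs0
  have t1 : v s1 ≠ 0 := fun h => by rw [h] at hs1; simp [c0, q1, b1.ne', b2.ne'] at hs1
  have t2 : v s2 ≠ 0 := fun h => by rw [h] at hs2; simp [c0, q2, b1.ne', b2.ne'] at hs2
  have n01 : v p0 ≠ v p1 := fun h => h01.ne (by rw [← hp0, ← hp1, h])
  have n12 : v p1 ≠ v p2 := fun h => h12.ne (by rw [← hp2, ← hp1, h])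
  have n02 : v p0 ≠ v p2 := fun h => (h01.trans h12).ne (by rw [← hp0, ← hp2, h])
  refine flat_of_chD (p := ![p0, p1, p2]) (s := ![s0, s1, s2]) h h2
    (by simpa using h.gen_le (g := 3) (by compute_degree!)) ?_ ?_ ?_ ?_ hiso hres horb hs hz hw ?_
    hn i hi hV hr
  · rw [v.ne_zero_iff] at q0 q1 q2
    intro j; fin_cases j <;> simpa using ‹_›
  · rw [v.ne_zero_iff] at t0 t1 t2
    intro j; fin_cases j <;> simpa using ‹_›
  · intro j l; fin_cases j <;> fin_cases l <;> simp [n01, n12, n02, n01.symm, n12.symm, n02.symm]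
  · intro j; fin_cases j
    · exact chD0 (rd_residue v) hc ha h01 h12 hp0 hs0
    · exact chD1 (rd_residue v) hc ha h01 h12 hp1 hs1
    · exact chD2 (rd_residue v) hc ha h01 h12 hp2 hs2
  · intro g j; fin_cases j <;> simp [hfix g]

end Crest.Agent.T15.F3
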