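import Mathlib
import Crest.Agent.R272.Poi_307
import Crest.Agent.T15.MDef_7
import Crest.Agent.R018.FDE_389

-- ▼ part T15/ThA_59
section

/-!
# Row 15, block C (helper59): binary theta series with a linear harmonic factor, analytic part

`ff σ z = z e(σ |z|²)`; lattices `Lt` in `ℂ` with their dual for `bf z w = 2 Re (z w̄)`;
Poisson summation `poisson`; the series `Z L φ h τ = ∑ φ x ff τ (h + x)` is holomorphic on the
upper half plane and tends to `0` at `i∞`.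
-/

set_option autoImplicit false

noncomputable section

open MeasureTheory Complex Filter Topology
open scoped Real
open Crest.Agent.R272.Poi307

namespace Crest.Agent.T15.Th

/-- `e(z) = exp (2 π i z)` -/
def ee (z : ℂ) : ℂ := cexp (2 * π * I * z)

theorem ee_add (z w : ℂ) : ee (z + w) = ee z * ee w := by
  unfold ee; rw [mul_add, Complex.exp_add]

theorem ee_int (n : ℤ) : ee n = 1 := by
  unfold ee
  rw [show 2 * π * I * (n : ℂ) = n * (2 * π * I) by ring]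
  exact Complex.exp_int_mul_two_pi_mul_I n


theorem ee_add_int (z : ℂ) (n : ℤ) : ee (z + n) = ee z := by rw [ee_add, ee_int, mul_one]

theorem norm_ee (z : ℂ) : ‖ee z‖ = Real.exp (-(2 * π * z.im)) := by
  unfold ee
  rw [Complex.norm_exp]
  congr 1
  simp

theorem norm_ee_real (r : ℝ) : ‖ee r‖ = 1 := by
  rw [norm_ee]; simp

/-- the bilinear form `2 Re (z w̄)` -/
def bf (z w : ℂ) : ℝ := 2 * (z.re * w.re + z.im * w.im)

theorem normSq_add' (z w : ℂ) : normSq (z + w) = normSq z + bf z w + normSq w := by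
  simp only [normSq_apply, bf, add_re, add_im]; ring

theorem bf_add_left (z z' w : ℂ) : bf (z + z') w = bf z w + bf z' w := by
  simp only [bf, add_re, add_im]; ring


theorem bf_mul_left (r : ℝ) (z w : ℂ) : bf (r * z) w = r * bf z w := by
  simp only [bf, re_ofReal_mul, im_ofReal_mul]; ring

theorem bf_mul_right (r : ℝ) (z w : ℂ) : bf z (r * w) = r * bf z w := by
  simp only [bf, re_ofReal_mul, im_ofReal_mul]; ring


theorem bf_self (z : ℂ) : bf z z = 2 * normSq z := by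
  simp only [bf, normSq_apply]

theorem abs_bf_le (z w : ℂ) : |bf z w| ≤ 2 * ‖z‖ * ‖w‖ := by
  have h : bf z w = 2 * (z * (starRingEnd ℂ) w).re := by simp [bf]
  rw [h, abs_mul, abs_two, mul_assoc]
  refine mul_le_mul_of_nonneg_left ((abs_re_le_norm _).trans ?_) zero_le_two
  rw [norm_mul, RCLike.norm_conj]

/-- the Gaussian with a linear factor -/
def ff (σ z : ℂ) : ℂ := z * ee (σ * normSq z)

theorem norm_ff (σ z : ℂ) : ‖ff σ z‖ = ‖z‖ * Real.exp (-(2 * π * σ.im) * ‖z‖ ^ 2) := by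
  unfold ff
  rw [norm_mul, norm_ee, normSq_eq_norm_sq]
  congr 2
  rw [mul_comm σ, im_ofReal_mul]
  ring

theorem continuous_ff (σ : ℂ) : Continuous (ff σ) := by
  unfold ff ee
  fun_prop

theorem ff_scale (σ : ℂ) (r : ℝ) (z : ℂ) : ff σ (r * z) = r * ff (σ * r ^ 2) z := by
  unfold ff
  rw [map_mul, normSq_ofReal]
  push_cast
  rw [show σ * (r * r * (normSq z : ℂ)) = σ * r ^ 2 * normSq z by ring]
  ring

theorem ff_add (σ σ' z : ℂ) : ff (σ + σ') z = ee (σ * normSq z) * ff σ' z := by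
  unfold ff
  rw [add_mul, ee_add]
  ring

/-! ### the Fourier transform -/

theorem integrable_g0 {b : ℂ} (hb : b.re < 0) (c : ℂ) :
    Integrable fun x : ℝ => cexp (b * x ^ 2 + c * x) := by
  simpa using integrable_cexp_quadratic' hb c 0

theorem integrable_g1 {b : ℂ} (hb : b.re < 0) (c : ℂ) :
    Integrable fun x : ℝ => (x : ℂ) * cexp (b * x ^ 2 + c * x) := by
  refine ((integrable_g0 hb (c + 1)).norm.add (integrable_g0 hb (c - 1)).norm).mono'
    (Continuous.aestronglyMeasurable (by fun_prop)) (Eventually.of_forall fun x => ?_)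
  have h1 : (b * x ^ 2 + (c + 1) * x).re = (b * x ^ 2 + c * x).re + x := by
    rw [show b * x ^ 2 + (c + 1) * x = b * x ^ 2 + c * x + x by ring, add_re, ofReal_re]
  have h2 : (b * x ^ 2 + (c - 1) * x).re = (b * x ^ 2 + c * x).re + -x := by
    rw [show b * x ^ 2 + (c - 1) * x = b * x ^ 2 + c * x - x by ring, sub_re, ofReal_re]; ring
  simp only [Pi.add_apply, norm_mul, Complex.norm_exp, h1, h2, Real.exp_add, norm_real,
    Real.norm_eq_abs]
  have h3 : |x| ≤ Real.exp x + Real.exp (-x) := by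
    have := Real.add_one_le_exp x
    have := Real.add_one_le_exp (-x)
    have := Real.exp_pos x
    have := Real.exp_pos (-x)
    rw [abs_le]; constructor <;> linarith
  have := Real.exp_pos (b * x ^ 2 + c * x).re
  nlinarith

theorem integral_g0 {b : ℂ} (hb : b.re < 0) (c : ℂ) :
    ∫ x : ℝ, cexp (b * x ^ 2 + c * x) = (π / -b) ^ (1 / 2 : ℂ) * cexp (-(c ^ 2 / (4 * b))) := by
  simpa using integral_cexp_quadratic hb c 0

theorem integral_g1 {b : ℂ} (hb : b.re < 0) (c : ℂ) :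
    ∫ x : ℝ, (x : ℂ) * cexp (b * x ^ 2 + c * x) =
      -c / (2 * b) * ∫ x : ℝ, cexp (b * x ^ 2 + c * x) := by
  have hb0 : b ≠ 0 := fun h => by simp [h] at hb
  have h := integral_eq_zero_of_hasDerivAt_of_integrable
    (f := fun x : ℝ => cexp (b * x ^ 2 + c * x))
    (f' := fun x : ℝ => 2 * b * ((x : ℂ) * cexp (b * x ^ 2 + c * x)) + c * cexp (b * x ^ 2 + c * x))
    (fun x => by
      have h1 : HasDerivAt (fun z : ℂ => cexp (b * z ^ 2 + c * z))
          (cexp (b * x ^ 2 + c * x) * (b * (2 * x) + c)) (x : ℂ) := by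
        refine HasDerivAt.cexp (HasDerivAt.add ?_ ?_)
        · simpa using (hasDerivAt_pow 2 (x : ℂ)).const_mul b
        · simpa using (hasDerivAt_id (x : ℂ)).const_mul c
      refine h1.comp_ofReal.congr_deriv ?_
      ring)
    (((integrable_g1 hb c).const_mul _).add ((integrable_g0 hb c).const_mul _))
    (integrable_g0 hb c)
  rw [integral_add ((integrable_g1 hb c).const_mul _) ((integrable_g0 hb c).const_mul _),
    integral_const_mul, integral_const_mul] at h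
  generalize (∫ x : ℝ, (x : ℂ) * cexp (b * x ^ 2 + c * x)) = A at h ⊢
  generalize (∫ x : ℝ, cexp (b * x ^ 2 + c * x)) = B at h ⊢
  field_simp
  linear_combination h

/-- the Fourier transform of `ff σ` -/
theorem fourier_ff {σ : ℂ} (hσ : 0 < σ.im) (κ : ℂ) :
    ∫ v : Fin 2 → ℝ, ee (-bf (v 0 + v 1 * I) κ) * ff σ (v 0 + v 1 * I) =
      I / (2 * σ ^ 2) * ff (-1 / σ) κ := by
  have hσ0 : σ ≠ 0 := fun h => by simp [h] at hσ
  have hπ : (π : ℂ) ≠ 0 := ofReal_ne_zero.2 Real.pi_ne_zero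
  set b : ℂ := 2 * π * I * σ with hbdef
  have hb : b.re < 0 := by
    have : b.re = -(2 * π * σ.im) := by simp [hbdef]
    rw [this]
    have := Real.pi_pos
    have : 0 < 2 * π * σ.im := by positivity
    linarith
  set c0 : ℂ := -(4 * π * I * κ.re) with hc0
  set c1 : ℂ := -(4 * π * I * κ.im) with hc1
  have e1 : ∀ v : Fin 2 → ℝ, ee (-bf (v 0 + v 1 * I) κ) * ff σ (v 0 + v 1 * I) =
      (fun p : ℝ × ℝ => ((p.1 : ℂ) * cexp (b * p.1 ^ 2 + c0 * p.1)) * cexp (b * p.2 ^ 2 + c1 * p.2)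
        + I * (cexp (b * p.1 ^ 2 + c0 * p.1) * ((p.2 : ℂ) * cexp (b * p.2 ^ 2 + c1 * p.2))))
        (MeasurableEquiv.finTwoArrow v) := by
    intro v
    have h0 : (MeasurableEquiv.finTwoArrow v : ℝ × ℝ) = (v 0, v 1) := rfl
    rw [h0]
    have h1 : ee (-bf (v 0 + v 1 * I) κ) * ee (σ * normSq (v 0 + v 1 * I)) =
        cexp (b * (v 0) ^ 2 + c0 * v 0) * cexp (b * (v 1) ^ 2 + c1 * v 1) := by
      rw [← ee_add, ← Complex.exp_add, ee, normSq_add_mul_I]
      congr 1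
      simp only [bf, add_re, ofReal_re, mul_re, I_re, mul_zero, ofReal_im, I_im, mul_one, sub_self,
        add_zero, add_im, mul_im, zero_add, hbdef, hc0, hc1]
      push_cast
      ring
    unfold ff
    linear_combination ((v 0 : ℂ) + v 1 * I) * h1
  rw [funext e1, (volume_preserving_finTwoArrow ℝ).integral_comp'
    (fun p : ℝ × ℝ => ((p.1 : ℂ) * cexp (b * p.1 ^ 2 + c0 * p.1)) * cexp (b * p.2 ^ 2 + c1 * p.2)
      + I * (cexp (b * p.1 ^ 2 + c0 * p.1) * ((p.2 : ℂ) * cexp (b * p.2 ^ 2 + c1 * p.2)))),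
    Measure.volume_eq_prod,
    integral_add ((integrable_g1 hb c0).mul_prod (integrable_g0 hb c1))
      (((integrable_g0 hb c0).mul_prod (integrable_g1 hb c1)).const_mul _), integral_const_mul,
    integral_prod_mul (fun x : ℝ => (x : ℂ) * cexp (b * x ^ 2 + c0 * x))
      (fun x : ℝ => cexp (b * x ^ 2 + c1 * x)),
    integral_prod_mul (fun x : ℝ => cexp (b * x ^ 2 + c0 * x))
      (fun x : ℝ => (x : ℂ) * cexp (b * x ^ 2 + c1 * x)),
    integral_g1 hb, integral_g1 hb, integral_g0 hb, integral_g0 hb]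
  have hb0 : b ≠ 0 := fun h => by simp [h] at hb
  have h2 : (π / -b) ^ (1 / 2 : ℂ) * (π / -b) ^ (1 / 2 : ℂ) = π / -b := by
    rw [← cpow_add _ _ (div_ne_zero hπ (neg_ne_zero.2 hb0))]
    norm_num
  have h3 : cexp (-(c0 ^ 2 / (4 * b))) * cexp (-(c1 ^ 2 / (4 * b))) =
      ee (-1 / σ * normSq κ) := by
    rw [← Complex.exp_add, ee, normSq_apply]
    congr 1
    rw [hc0, hc1, hbdef]
    push_cast
    field_simp
    ring_nf
  have h4 : -c0 / (2 * b) + I * (-c1 / (2 * b)) = κ / σ := by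
    conv_rhs => rw [← re_add_im κ]
    rw [hc0, hc1, hbdef]
    field_simp
    ring
  have h5 : (π : ℂ) / -b = I / (2 * σ) := by
    rw [hbdef]
    field_simp
    rw [I_sq]
  unfold ff
  calc _ = (-c0 / (2 * b) + I * (-c1 / (2 * b))) * ((π / -b) ^ (1 / 2 : ℂ) * (π / -b) ^ (1 / 2 : ℂ))
        * (cexp (-(c0 ^ 2 / (4 * b))) * cexp (-(c1 ^ 2 / (4 * b)))) := by ring
    _ = _ := by
      rw [h2, h3, h4, h5]
      field_simp

/-! ### lattices -/

/-- a lattice in `ℂ` with a basis -/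
structure Lt where
  w0 : ℂ
  w1 : ℂ
  hδ : w0.re * w1.im - w0.im * w1.re ≠ 0

namespace Lt

variable (L : Lt)

/-- the oriented covolume -/
def δ : ℝ := L.w0.re * L.w1.im - L.w0.im * L.w1.re

theorem δ_ne : L.δ ≠ 0 := L.hδ

/-- real coordinates -/
def lr (v : Fin 2 → ℝ) : ℂ := v 0 * L.w0 + v 1 * L.w1

/-- the lattice points -/
def l (x : Fin 2 → ℤ) : ℂ := x 0 * L.w0 + x 1 * L.w1

theorem lr_ic (x : Fin 2 → ℤ) : L.lr (ic x) = L.l x := by simp [lr, l]

theorem lr_add (v w : Fin 2 → ℝ) : L.lr (v + w) = L.lr v + L.lr w := by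
  simp only [lr, Pi.add_apply]; push_cast; ring

theorem l_add (v w : Fin 2 → ℤ) : L.l (v + w) = L.l v + L.l w := by
  simp only [l, Pi.add_apply]; push_cast; ring

theorem l_smul (n : ℤ) (v : Fin 2 → ℤ) : L.l (n • v) = n * L.l v := by
  simp only [l, Pi.smul_apply, smul_eq_mul]; push_cast; ring

theorem continuous_lr : Continuous L.lr := by
  unfold lr; fun_prop

/-- the dual lattice -/
def dual : Lt where
  w0 := ((2 * L.δ)⁻¹ : ℝ) * (-I * L.w1)
  w1 := ((2 * L.δ)⁻¹ : ℝ) * (I * L.w0)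
  hδ := by
    have h := L.δ_ne
    have : (((2 * L.δ)⁻¹ : ℝ) * (-I * L.w1)).re * (((2 * L.δ)⁻¹ : ℝ) * (I * L.w0)).im -
        (((2 * L.δ)⁻¹ : ℝ) * (-I * L.w1)).im * (((2 * L.δ)⁻¹ : ℝ) * (I * L.w0)).re =
        (2 * L.δ)⁻¹ ^ 2 * L.δ := by
      simp only [re_ofReal_mul, im_ofReal_mul]
      simp [δ]
      ring
    rw [this]
    positivity

theorem bf_lr_dual (v k : Fin 2 → ℝ) : bf (L.lr v) (L.dual.lr k) = v 0 * k 0 + v 1 * k 1 := by
  have h := L.δ_ne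
  have e : L.dual.lr k = ((2 * L.δ)⁻¹ : ℝ) * (k 0 * (-I * L.w1) + k 1 * (I * L.w0)) := by
    simp only [lr, dual]; ring
  rw [e, bf_mul_right, inv_mul_eq_iff_eq_mul₀ (by positivity)]
  simp [bf, lr, δ]
  ring

theorem bf_l_dual (x k : Fin 2 → ℤ) :
    bf (L.l x) (L.dual.l k) = ((x 0 * k 0 + x 1 * k 1 : ℤ) : ℝ) := by
  rw [← lr_ic, ← lr_ic, bf_lr_dual]; simp

/-- the coordinates of a complex number -/
def co (z : ℂ) : Fin 2 → ℝ := ![bf z L.dual.w0, bf z L.dual.w1]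

theorem lr_co (z : ℂ) : L.lr (L.co z) = z := by
  have h := L.δ_ne
  have e : L.lr (L.co z) = ((2 * L.δ)⁻¹ : ℝ) *
      (bf z (-I * L.w1) * L.w0 + bf z (I * L.w0) * L.w1) := by
    simp only [lr, co, dual, bf_mul_right, Matrix.cons_val_zero, Matrix.cons_val_one]
    push_cast; ring
  have h2 : (bf z (-I * L.w1) * L.w0 + bf z (I * L.w0) * L.w1 : ℂ) = ((2 * L.δ : ℝ) : ℂ) * z := by
    apply Complex.ext
    · simp only [add_re, re_ofReal_mul]; simp [bf, δ]; ring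
    · simp only [add_im, im_ofReal_mul]; simp [bf, δ]; ring
  rw [e, h2, ← mul_assoc, ← ofReal_mul, inv_mul_cancel₀ (by positivity), ofReal_one, one_mul]

theorem co_lr (v : Fin 2 → ℝ) : L.co (L.lr v) = v := by
  have h0 : L.dual.w0 = L.dual.lr ![1, 0] := by simp [lr]
  have h1 : L.dual.w1 = L.dual.lr ![0, 1] := by simp [lr]
  funext i
  fin_cases i
  · simp [co, h0, bf_lr_dual]
  · simp [co, h1, bf_lr_dual]

theorem exists_norm_le : ∃ K : ℝ, 1 ≤ K ∧ ∀ v, ‖v‖ ≤ K * ‖L.lr v‖ := by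
  refine ⟨2 * ‖L.dual.w0‖ + 2 * ‖L.dual.w1‖ + 1, by
    have := norm_nonneg L.dual.w0; have := norm_nonneg L.dual.w1; linarith, fun v => ?_⟩
  have h0 := abs_bf_le (L.lr v) L.dual.w0
  have h1 := abs_bf_le (L.lr v) L.dual.w1
  have := norm_nonneg L.dual.w0
  have := norm_nonneg L.dual.w1
  have := norm_nonneg (L.lr v)
  conv_lhs => rw [← L.co_lr v]
  rw [pi_norm_le_iff_of_nonneg (by positivity)]
  intro i
  fin_cases i
  · simp only [co, Fin.zero_eta, Matrix.cons_val_zero, Real.norm_eq_abs]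
    nlinarith [mul_nonneg (norm_nonneg L.dual.w1) (norm_nonneg (L.lr v))]
  · simp only [co, Fin.mk_one, Matrix.cons_val_one, Matrix.cons_val_zero, Real.norm_eq_abs]
    nlinarith [mul_nonneg (norm_nonneg L.dual.w0) (norm_nonneg (L.lr v))]

theorem exists_dec {σ : ℂ} (hσ : 0 < σ.im) :
    ∃ C : ℝ, 0 ≤ C ∧ Dec C 3 (fun v => ff σ (L.lr v)) := by
  obtain ⟨K, hK, h⟩ := L.exists_norm_le
  have hπ := Real.pi_pos
  set a : ℝ := 2 * π * σ.im with ha
  have ha0 : 0 < a := by positivity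
  refine ⟨K ^ 3 * (24 * Real.exp (1 + 1 / (4 * a))), by positivity, fun v => ?_⟩
  rw [inv_pow, ← div_eq_mul_inv, le_div_iff₀ (by positivity), norm_ff]
  set t := ‖L.lr v‖ with ht
  have ht0 : 0 ≤ t := norm_nonneg _
  have h1 : 1 + ‖v‖ ≤ K * (1 + t) := by have := h v; linarith
  have h2 := Real.pow_div_factorial_le_exp (x := 1 + t) (by positivity) 4
  rw [div_le_iff₀ (by positivity)] at h2
  have h3 : Real.exp (-a * t ^ 2) * Real.exp (1 + t) ≤ Real.exp (1 + 1 / (4 * a)) := by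
    rw [← Real.exp_add]
    refine Real.exp_le_exp.2 ?_
    have : 0 ≤ a * (t - 1 / (2 * a)) ^ 2 := by positivity
    have e : a * (t - 1 / (2 * a)) ^ 2 = a * t ^ 2 - t + 1 / (4 * a) := by
      field_simp; ring
    rw [e] at this
    linarith
  calc t * Real.exp (-a * t ^ 2) * (1 + ‖v‖) ^ 3
      ≤ (1 + t) * Real.exp (-a * t ^ 2) * (K * (1 + t)) ^ 3 := by gcongr; linarith
    _ = K ^ 3 * (Real.exp (-a * t ^ 2) * (1 + t) ^ 4) := by ring
    _ ≤ K ^ 3 * (Real.exp (-a * t ^ 2) * (Real.exp (1 + t) * (Nat.factorial 4 : ℕ))) := by gcongr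
    _ = K ^ 3 * (24 * (Real.exp (-a * t ^ 2) * Real.exp (1 + t))) := by
        simp only [Nat.factorial]; push_cast; ring
    _ ≤ _ := by gcongr

theorem summable_ff {σ : ℂ} (hσ : 0 < σ.im) (h : ℂ) :
    Summable fun x : Fin 2 → ℤ => ‖ff σ (h + L.l x)‖ := by
  obtain ⟨C, hC, hD⟩ := L.exists_dec hσ
  have := (summable_shift hC (by simp) hD (L.co h)).norm
  simpa only [lr_add, lr_co, lr_ic] using this

theorem integral_lr (F : ℂ → ℂ) :
    ∫ v : Fin 2 → ℝ, F (L.lr v) = (|L.δ|⁻¹ : ℝ) * ∫ v : Fin 2 → ℝ, F (v 0 + v 1 * I) := by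
  set A : Matrix (Fin 2) (Fin 2) ℝ := !![L.w0.re, L.w1.re; L.w0.im, L.w1.im] with hA
  have hdet : A.det = L.δ := by
    rw [hA, Matrix.det_fin_two_of, δ]; ring
  have hne : A.det ≠ 0 := hdet ▸ L.δ_ne
  have h := Real.map_matrix_volume_pi_eq_smul_volume_pi hne
  have hemb : MeasurableEmbedding (Matrix.toLin' A) :=
    (Matrix.toLinearEquiv' A (Matrix.invertibleOfIsUnitDet A (Ne.isUnit hne))
      ).toContinuousLinearEquiv.toHomeomorph.measurableEmbedding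
  have e : ∀ v : Fin 2 → ℝ, L.lr v = (Matrix.toLin' A v) 0 + (Matrix.toLin' A v) 1 * I := by
    intro v
    apply Complex.ext <;>
      simp [lr, hA, Matrix.toLin'_apply, Matrix.mulVec, dotProduct, Fin.sum_univ_two, mul_comm]
  have := hemb.integral_map (μ := volume) (fun v : Fin 2 → ℝ => F (v 0 + v 1 * I))
  rw [h, integral_smul_measure, ENNReal.toReal_ofReal (abs_nonneg _), hdet, abs_inv] at this
  simp_rw [e]
  rw [← this, real_smul]

/-- the constant of the Poisson formula -/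
def cst : ℂ := (|L.δ|⁻¹ : ℝ) * (I / 2)

/-- **Poisson summation.** -/
theorem poisson {σ : ℂ} (hσ : 0 < σ.im) (h : ℂ) :
    ∑' x : Fin 2 → ℤ, ff σ (h + L.l x) =
      L.cst / σ ^ 2 * ∑' k : Fin 2 → ℤ, ee (bf h (L.dual.l k)) * ff (-1 / σ) (L.dual.l k) := by
  have hσ0 : σ ≠ 0 := fun h => by simp [h] at hσ
  have hσ' : 0 < (-1 / σ).im := by
    rw [neg_div, one_div, neg_im, inv_im, neg_div, neg_neg]
    exact div_pos hσ (normSq_pos.2 hσ0)
  obtain ⟨C, hC, hD⟩ := L.exists_dec hσ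
  have hch : ∀ (k : Fin 2 → ℤ) (v : Fin 2 → ℝ), ch k v = ee (bf (L.lr v) (L.dual.l k)) := by
    intro k v
    rw [← lr_ic, bf_lr_dual, ch, ee, dot, Fin.sum_univ_two]
    simp only [ic_apply]
    congr 2
    push_cast; ring
  have hF : ∀ k : Fin 2 → ℤ, FTp (fun v => ff σ (L.lr v)) k =
      L.cst / σ ^ 2 * ff (-1 / σ) (L.dual.l k) := by
    intro k
    have e : ∀ v, ch (-k) v * ff σ (L.lr v) =
        (fun z => ee (-bf z (L.dual.l k)) * ff σ z) (L.lr v) := by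
      intro v
      have : L.dual.l (-k) = ((-1 : ℝ) : ℂ) * L.dual.l k := by simp [l]; ring
      rw [hch, this, bf_mul_right]
      simp
    rw [FTp, funext e, L.integral_lr (fun z => ee (-bf z (L.dual.l k)) * ff σ z), fourier_ff hσ, cst]
    field_simp
  have hs : Summable (FTp (fun v => ff σ (L.lr v))) := by
    rw [funext hF]
    have := (L.dual.summable_ff hσ' 0).of_norm
    simp only [zero_add] at this
    exact this.mul_left _
  have key := (poisson_pi (g := fun v => ff σ (L.lr v)) ((continuous_ff σ).comp L.continuous_lr) hC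
    (by simp) hD hs (L.co h)).tsum_eq
  simp only [lr_add, lr_co, lr_ic] at key
  rw [← key, ← tsum_mul_left]
  refine tsum_congr fun k => ?_
  rw [hF, hch, lr_co]
  ring

/-! ### series with bounded coefficients -/

/-- theta series with coefficients -/
def Z (φ : (Fin 2 → ℤ) → ℂ) (h τ : ℂ) : ℂ := ∑' x : Fin 2 → ℤ, φ x * ff τ (h + L.l x)

theorem norm_term_le {φ : (Fin 2 → ℤ) → ℂ} {C : ℝ} (hφ : ∀ x, ‖φ x‖ ≤ C) (h : ℂ) {y : ℝ} {τ : ℂ}
    (hτ : y ≤ τ.im) (x : Fin 2 → ℤ) :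
    ‖φ x * ff τ (h + L.l x)‖ ≤ C * ‖ff (y * I) (h + L.l x)‖ := by
  rw [norm_mul]
  refine mul_le_mul (hφ x) ?_ (norm_nonneg _) ((norm_nonneg _).trans (hφ x))
  rw [norm_ff, norm_ff]
  have : ((y : ℂ) * I).im = y := by simp
  rw [this]
  have := Real.pi_pos
  gcongr

theorem summable_Z {φ : (Fin 2 → ℤ) → ℂ} {C : ℝ} (hφ : ∀ x, ‖φ x‖ ≤ C) (h : ℂ) {τ : ℂ}
    (hτ : 0 < τ.im) : Summable fun x => φ x * ff τ (h + L.l x) :=
  Summable.of_norm_bounded ((L.summable_ff (σ := τ.im * I) (by simpa using hτ) h).mul_left C)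
    (L.norm_term_le hφ h le_rfl)

theorem differentiableOn_Z {φ : (Fin 2 → ℤ) → ℂ} {C : ℝ} (hφ : ∀ x, ‖φ x‖ ≤ C) (h : ℂ) :
    DifferentiableOn ℂ (L.Z φ h) {τ | 0 < τ.im} := by
  intro z hz
  have hz' : 0 < z.im := hz
  have hU : IsOpen {w : ℂ | z.im / 2 < w.im} := isOpen_lt continuous_const Complex.continuous_im
  have h1 : DifferentiableOn ℂ (L.Z φ h) {w : ℂ | z.im / 2 < w.im} := by
    refine differentiableOn_tsum_of_summable_norm
      ((L.summable_ff (σ := ((z.im / 2 : ℝ) : ℂ) * I) (by simpa using hz') h).mul_left C)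
      (fun x => ?_) hU fun x w hw => L.norm_term_le hφ h (le_of_lt hw) x
    refine Differentiable.differentiableOn ?_
    unfold ff ee
    fun_prop
  exact (h1.differentiableAt (hU.mem_nhds (show z.im / 2 < z.im by linarith))).differentiableWithinAt

theorem isZero_Z {φ : (Fin 2 → ℤ) → ℂ} {C : ℝ} (hφ : ∀ x, ‖φ x‖ ≤ C) (h : ℂ) :
    UpperHalfPlane.IsZeroAtImInfty fun τ : UpperHalfPlane => L.Z φ h τ := by
  have him : Tendsto (fun τ : UpperHalfPlane => (τ : ℂ).im) UpperHalfPlane.atImInfty atTop :=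
    tendsto_comap
  have := tendsto_tsum_of_dominated_convergence (𝓕 := UpperHalfPlane.atImInfty)
    (f := fun (τ : UpperHalfPlane) (x : Fin 2 → ℤ) => φ x * ff τ (h + L.l x)) (g := fun _ => 0)
    ((L.summable_ff (σ := ((1 : ℝ) : ℂ) * I) (by simp) h).mul_left C) (fun x => ?_)
    ((him.eventually_ge_atTop 1).mono fun τ hτ x => L.norm_term_le hφ h hτ x)
  · rw [tsum_zero] at this
    exact this
  · rw [tendsto_zero_iff_norm_tendsto_zero]
    simp only [norm_mul, norm_ff]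
    rcases eq_or_ne (h + L.l x) 0 with h0 | h0
    · simp [h0]
    · have h1 : 0 < 2 * π * ‖h + L.l x‖ ^ 2 := by
        have := Real.pi_pos
        have := norm_pos_iff.2 h0
        positivity
      have h2 := Real.tendsto_exp_neg_atTop_nhds_zero.comp (him.const_mul_atTop h1)
      have h3 := (h2.const_mul ‖h + L.l x‖).const_mul ‖φ x‖
      simp only [mul_zero] at h3
      refine h3.congr fun τ => ?_
      simp only [Function.comp]
      congr 3
      ring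

end Lt

end Crest.Agent.T15.Th
end
end

-- ▼ part T15/ThB_59
section

/-!
# Row 15, block C (helper59): binary theta series, the transformation law

`Tz L h τ = ∑_{x ∈ L} ff τ (h + x)`; `gen_law` (any matrix with `c > 0`), `law0` (`N ∣ c`, `d > 0`,
with the Gauss sum `G0`), `G0_prime` (its value for a prime), `isZero_slash`.
-/

set_option autoImplicit false

noncomputable section

open Complex Filter Topology
open scoped Real MatrixGroups ModularForm

namespace Crest.Agent.T15.Th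

/-! ### residues modulo `c` -/

/-- lift of a residue vector -/
def lf {c : ℕ} (r : Fin 2 → ZMod c) : Fin 2 → ℤ := fun i => ((r i).val : ℤ)

/-- division with remainder -/
def spl (c : ℕ) [NeZero c] : (Fin 2 → ZMod c) × (Fin 2 → ℤ) ≃ (Fin 2 → ℤ) where
  toFun p := lf p.1 + (c : ℤ) • p.2
  invFun x := (fun i => (x i : ZMod c), fun i => x i / c)
  left_inv p := by
    have hc : (c : ℤ) ≠ 0 := by exact_mod_cast NeZero.ne c
    refine Prod.ext (funext fun i => ?_) (funext fun i => ?_)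
    · simp [lf]
    · simp only [lf, Pi.add_apply, Pi.smul_apply, smul_eq_mul]
      rw [Int.add_mul_ediv_left _ _ hc, Int.ediv_eq_zero_of_lt (Int.natCast_nonneg _)
        (by exact_mod_cast ZMod.val_lt _), zero_add]
  right_inv x := by
    funext i
    simp only [lf, Pi.add_apply, Pi.smul_apply, smul_eq_mul, ZMod.val_intCast]
    exact Int.emod_add_mul_ediv _ _

theorem tsum_spl (c : ℕ) [NeZero c] {F : (Fin 2 → ℤ) → ℂ} (hF : Summable F) :
    ∑' x, F x = ∑ r : Fin 2 → ZMod c, ∑' y : Fin 2 → ℤ, F (lf r + (c : ℤ) • y) := by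
  rw [← (spl c).tsum_eq]
  exact (((spl c).summable_iff.2 hF).tsum_prod).trans (tsum_fintype _)

theorem sum_shift (c : ℕ) [NeZero c] {F : (Fin 2 → ℤ) → ℂ} (hF : ∀ x y, F (x + (c : ℤ) • y) = F x)
    (t : Fin 2 → ℤ) : ∑ r : Fin 2 → ZMod c, F (lf r) = ∑ r : Fin 2 → ZMod c, F (lf r + t) := by
  rw [← Equiv.sum_comp (Equiv.addRight (fun i => (t i : ZMod c)))]
  refine Finset.sum_congr rfl fun r _ => ?_
  have h := (spl c).apply_symm_apply (lf r + t)
  rw [← h]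
  refine ((hF _ _).trans ?_).symm
  congr 2
  funext i
  simp [spl, lf]

theorem im_moeb {a b c d : ℤ} (h : a * d - b * c = 1) {τ : ℂ} (hτ : 0 < τ.im) :
    c * τ + d ≠ 0 ∧ 0 < ((a * τ + b) / (c * τ + d)).im := by
  have h0 : c * τ + d ≠ 0 := by
    intro h0
    have h1 := congrArg im h0
    simp only [add_im, mul_im, intCast_re, intCast_im, zero_mul, add_zero, zero_im,
      mul_eq_zero, hτ.ne', or_false, Int.cast_eq_zero] at h1
    subst h1
    have h2 : d = 0 := by simpa using h0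
    subst h2
    simp at h
  refine ⟨h0, ?_⟩
  have h1 : ((a : ℝ) * d - b * c) = 1 := by exact_mod_cast h
  rw [div_im, ← sub_div]
  refine div_pos ?_ (normSq_pos.2 h0)
  simp only [add_im, mul_im, intCast_re, intCast_im, zero_mul, add_zero, add_re, mul_re, sub_zero]
  have : (a : ℝ) * τ.im * (c * τ.re + d) - (a * τ.re + b) * (c * τ.im) = (a * d - b * c) * τ.im := by
    ring
  rw [this, h1, one_mul]
  exact hτ

namespace Lt

variable (L : Lt)

/-- theta series of a coset -/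
def Tz (h τ : ℂ) : ℂ := ∑' x : Fin 2 → ℤ, ff τ (h + L.l x)

/-- the quadratic form is integral -/
def Int : Prop := ∀ x, ∃ n : ℤ, normSq (L.l x) = n

/-- `h` lies in the dual lattice -/
def Dl (h : ℂ) : Prop := ∀ x, ∃ n : ℤ, bf h (L.l x) = n

/-- level -/
def Lev (N : ℤ) : Prop := ∀ k, ∃ n : ℤ, N * normSq (L.dual.l k) = n

variable {L}

theorem Int.dl (hI : L.Int) (x : Fin 2 → ℤ) : L.Dl (L.l x) := by
  intro y
  obtain ⟨n1, h1⟩ := hI x
  obtain ⟨n2, h2⟩ := hI y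
  obtain ⟨n3, h3⟩ := hI (x + y)
  rw [l_add, normSq_add', h1, h2] at h3
  exact ⟨n3 - n1 - n2, by push_cast; linarith⟩

theorem Dl.add {h h' : ℂ} (h1 : L.Dl h) (h2 : L.Dl h') : L.Dl (h + h') := by
  intro y
  obtain ⟨n1, e1⟩ := h1 y
  obtain ⟨n2, e2⟩ := h2 y
  exact ⟨n1 + n2, by rw [bf_add_left, e1, e2]; push_cast; rfl⟩

theorem Dl.mul {h : ℂ} (h1 : L.Dl h) (a : ℤ) : L.Dl (a * h) := by
  intro y
  obtain ⟨n1, e1⟩ := h1 y
  exact ⟨a * n1, by rw [← ofReal_intCast, bf_mul_left, e1]; push_cast; rfl⟩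

theorem Dl.exists {h : ℂ} (h1 : L.Dl h) : ∃ k, h = L.dual.l k := by
  obtain ⟨n0, e0⟩ := h1 ![1, 0]
  obtain ⟨n1, e1⟩ := h1 ![0, 1]
  refine ⟨![n0, n1], ?_⟩
  have f0 := L.bf_l_dual ![1, 0] ![n0, n1]
  have f1 := L.bf_l_dual ![0, 1] ![n0, n1]
  generalize L.dual.l ![n0, n1] = κ at f0 f1
  simp only [l, Matrix.cons_val_zero, Matrix.cons_val_one, Int.cast_one, one_mul, Int.cast_zero,
    zero_mul, add_zero, zero_add, bf] at e0 e1 f0 f1
  have hδ := L.hδ
  apply Complex.ext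
  · apply mul_right_cancel₀ hδ
    linear_combination (L.w1.im / 2) * (e0 - f0) - (L.w0.im / 2) * (e1 - f1)
  · apply mul_right_cancel₀ hδ
    linear_combination (L.w0.re / 2) * (e1 - f1) - (L.w1.re / 2) * (e0 - f0)

theorem Lev.mem {N : ℤ} (hN : L.Lev N) {c : ℤ} (hc : N ∣ c) (k : Fin 2 → ℤ) :
    ∃ t, c * L.dual.l k = L.l t := by
  obtain ⟨c, rfl⟩ := hc
  have key : ∀ k', ∃ n : ℤ, bf (N * L.dual.l k) (L.dual.l k') = n := by
    intro k'
    obtain ⟨n1, h1⟩ := hN k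
    obtain ⟨n2, h2⟩ := hN k'
    obtain ⟨n3, h3⟩ := hN (k + k')
    rw [l_add, normSq_add'] at h3
    exact ⟨n3 - n1 - n2, by rw [← ofReal_intCast, bf_mul_left]; push_cast; linarith⟩
  obtain ⟨n0, e0⟩ := key ![1, 0]
  obtain ⟨n1, e1⟩ := key ![0, 1]
  refine ⟨c • ![n0, n1], ?_⟩
  have e := L.lr_co (N * L.dual.l k)
  simp only [l, Matrix.cons_val_zero, Matrix.cons_val_one, Int.cast_one, one_mul, Int.cast_zero,
    zero_mul, add_zero, zero_add] at e0 e1
  rw [l_smul]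
  push_cast
  rw [mul_comm (N : ℂ), mul_assoc, ← e]
  simp only [lr, co, l, Matrix.cons_val_zero, Matrix.cons_val_one, e0, e1, ofReal_intCast]

theorem Tz_eq_Z (h τ : ℂ) : L.Tz h τ = L.Z (fun _ => 1) h τ := by simp [Tz, Z]

theorem Tz_add_l (h τ : ℂ) (t : Fin 2 → ℤ) : L.Tz (h + L.l t) τ = L.Tz h τ := by
  unfold Tz
  rw [← (Equiv.addLeft t).tsum_eq (fun x => ff τ (h + L.l x))]
  simp only [Equiv.coe_addLeft, l_add, add_assoc]

theorem Tz_add_int (hI : L.Int) {h : ℂ} (hh : L.Dl h) {m : ℤ} (hm : normSq h = m) (τ : ℂ) (k : ℤ) :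
    L.Tz h (τ + k) = L.Tz h τ := by
  refine tsum_congr fun x => ?_
  obtain ⟨n1, e1⟩ := hI x
  obtain ⟨n2, e2⟩ := hh x
  rw [add_comm τ, ff_add, normSq_add', e1, e2, hm]
  have : (k : ℂ) * (((m : ℝ) + (n2 : ℝ) + (n1 : ℝ) : ℝ) : ℂ) = ((k * (m + n2 + n1) : ℤ) : ℂ) := by
    push_cast; ring
  rw [this, ee_int, one_mul]

variable (L)

/-- the summand of the finite sum in the transformation law -/
def ph (a d : ℤ) (c : ℕ) (g κ : ℂ) : ℂ := ee (((a * normSq g + bf g κ + d * normSq κ) / c : ℝ) : ℂ)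

/-- the coefficients in the transformation law -/
def Ph (a d : ℤ) (c : ℕ) [NeZero c] (h : ℂ) (k : Fin 2 → ℤ) : ℂ :=
  ∑ r : Fin 2 → ZMod c, ph a d c (h + L.l (lf r)) (L.dual.l k)

theorem norm_Ph (a d : ℤ) (c : ℕ) [NeZero c] (h : ℂ) (k : Fin 2 → ℤ) :
    ‖L.Ph a d c h k‖ ≤ Fintype.card (Fin 2 → ZMod c) := by
  refine (norm_sum_le _ _).trans ?_
  simp only [ph, norm_ee_real, Finset.sum_const, Finset.card_univ, nsmul_eq_mul, mul_one, le_refl]

variable {L}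

/-- transformation under a matrix with positive lower left entry -/
theorem gen_law (hI : L.Int) {h : ℂ} (hh : L.Dl h) {a b d : ℤ} {c : ℕ} [NeZero c]
    (hdet : a * d - b * c = 1) {τ : ℂ} (hτ : 0 < τ.im) :
    L.Tz h ((a * τ + b) / (c * τ + d)) =
      L.cst * (c * τ + d) ^ 2 / c * L.dual.Z (L.Ph a d c h) 0 τ := by
  obtain ⟨h0, h1⟩ := im_moeb hdet hτ
  rw [Int.cast_natCast] at h0 h1
  have hc : (c : ℂ) ≠ 0 := by exact_mod_cast NeZero.ne c
  have hcR : (c : ℝ) ≠ 0 := by exact_mod_cast NeZero.ne c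
  have hdetC : (a : ℂ) * d - b * c = 1 := by exact_mod_cast hdet
  set σ : ℂ := -1 / (c * (c * τ + d)) with hσ
  have e1 : (a * τ + b) / (c * τ + d) = a / c + σ := by
    have h2 : (a * τ + b : ℂ) = (a * (c * τ + d) - 1) / c := by
      rw [eq_div_iff hc]; linear_combination -hdetC
    rw [hσ, h2]
    generalize (c : ℂ) * τ + d = u at h0
    field_simp
    ring
  have hσ1 : 0 < σ.im := by
    have : (a / c + σ : ℂ).im = σ.im := by
      rw [add_im, ← ofReal_intCast, ← ofReal_natCast, ← ofReal_div, ofReal_im, zero_add]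
    rwa [e1, this] at h1
  have hσ2 : 0 < (σ * (c : ℝ) ^ 2).im := by
    rw [← ofReal_pow, im_mul_ofReal]
    positivity
  have e2 : -1 / (σ * (c : ℝ) ^ 2) = d / c + τ := by
    rw [hσ]; push_cast; field_simp; ring
  have e3 : ∀ (g : ℂ), L.Dl g → ∑' y : Fin 2 → ℤ, ff (a / c + σ) (g + L.l ((c : ℤ) • y)) =
      L.cst * (c * τ + d) ^ 2 / c *
        ∑' k : Fin 2 → ℤ, ph a d c g (L.dual.l k) * ff τ (0 + L.dual.l k) := by
    intro g hg
    have f1 : ∀ y : Fin 2 → ℤ, ff (a / c + σ) (g + L.l ((c : ℤ) • y)) =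
        ee (a / c * normSq g) * c * ff (σ * (c : ℝ) ^ 2) (((c : ℝ)⁻¹ : ℝ) * g + L.l y) := by
      intro y
      obtain ⟨n1, g1⟩ := hI y
      obtain ⟨n2, g2⟩ := hg y
      have g3 : g + L.l ((c : ℤ) • y) = (c : ℝ) * (((c : ℝ)⁻¹ : ℝ) * g + L.l y) := by
        rw [l_smul]; push_cast; field_simp
      have g4 : ee (a / c * normSq (g + L.l ((c : ℤ) • y))) = ee (a / c * normSq g) := by
        rw [l_smul, ← ofReal_intCast (c : ℤ), normSq_add', bf_mul_right, map_mul, normSq_ofReal,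
          g1, g2, ← ee_add_int (a / c * normSq g) (a * n2 + a * c * n1)]
        congr 1
        push_cast
        field_simp
        ring
      rw [ff_add, g4, g3, ff_scale]
      push_cast
      ring
    simp_rw [f1]
    rw [tsum_mul_left, L.poisson hσ2, e2, ← tsum_mul_left, ← tsum_mul_left, ← tsum_mul_left]
    refine tsum_congr fun k => ?_
    have g5 : ph a d c g (L.dual.l k) = ee (a / c * normSq g) *
        ee (bf (((c : ℝ)⁻¹ : ℝ) * g) (L.dual.l k)) * ee (d / c * normSq (L.dual.l k)) := by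
      rw [← ee_add, ← ee_add, ph, bf_mul_left]
      congr 1
      push_cast
      field_simp
    rw [ff_add, g5, zero_add, hσ]
    push_cast
    field_simp
  rw [e1, Tz, tsum_spl c (L.summable_ff (e1 ▸ h1) h).of_norm]
  simp_rw [l_add, ← add_assoc, fun r : Fin 2 → ZMod c => e3 _ (hh.add (hI.dl (lf r)))]
  rw [← Finset.mul_sum, Z, ← Summable.tsum_finsetSum fun r _ =>
    L.dual.summable_Z (C := 1) (fun k => by rw [ph, norm_ee_real]) 0 hτ]
  simp only [Ph, Finset.sum_mul]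

/-- the Gauss sum of the lattice -/
def G0 (L : Lt) (b : ℤ) (d : ℕ) [NeZero d] : ℂ :=
  ∑ r : Fin 2 → ZMod d, ee ((b * normSq (L.l (lf r)) / d : ℝ) : ℂ)

theorem ph_per (hI : L.Int) {g : ℂ} (hg : L.Dl g) (a d : ℤ) (c : ℕ) [NeZero c] (k y : Fin 2 → ℤ) :
    ph a d c (g + L.l ((c : ℤ) • y)) (L.dual.l k) = ph a d c g (L.dual.l k) := by
  have hc : (c : ℂ) ≠ 0 := by exact_mod_cast NeZero.ne c
  obtain ⟨n1, g1⟩ := hI y
  obtain ⟨n2, g2⟩ := hg y
  rw [ph, ph, l_smul, ← ofReal_intCast (c : ℤ), normSq_add', bf_mul_right, map_mul, normSq_ofReal,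
    g1, g2, bf_add_left, bf_mul_left, bf_l_dual,
    ← ee_add_int (((a * normSq g + bf g (L.dual.l k) + d * normSq (L.dual.l k)) / c : ℝ) : ℂ)
      (a * n2 + a * c * n1 + (y 0 * k 0 + y 1 * k 1))]
  congr 1
  push_cast
  field_simp
  ring

theorem Ph_eq (hI : L.Int) {N : ℤ} (hN : L.Lev N) {h : ℂ} (hh : L.Dl h) {m : ℤ} (hm : normSq h = m)
    {a b c : ℤ} {d : ℕ} [NeZero d] (hdet : a * d - b * c = 1) (hc : N ∣ c) (k : Fin 2 → ℤ) :
    L.Ph b (-c) d h k = L.G0 b d * ee (bf (a * h) (L.dual.l k)) := by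
  have hd : (d : ℂ) ≠ 0 := by exact_mod_cast NeZero.ne d
  have hdetC : (a : ℂ) * d - b * c = 1 := by exact_mod_cast hdet
  obtain ⟨t, ht⟩ := hN.mem hc k
  obtain ⟨k0, hk0⟩ := hh.exists
  obtain ⟨t0, ht0⟩ := hN.mem (hc.mul_left b) k0
  rw [← hk0] at ht0
  obtain ⟨n0, hn0⟩ : ∃ n : ℤ, c * normSq (L.dual.l k) = n := by
    obtain ⟨c, rfl⟩ := hc
    obtain ⟨n, hn⟩ := hN k
    exact ⟨c * n, by push_cast; rw [← hn]; ring⟩
  have hn0C : (c : ℂ) * normSq (L.dual.l k) = n0 := by exact_mod_cast hn0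
  -- first shift
  have s1 : L.Ph b (-c) d h k = (∑ r : Fin 2 → ZMod d, ph b 0 d (h + L.l (lf r)) (L.dual.l 0)) *
      ee (bf (a * h) (L.dual.l k)) := by
    rw [Ph, sum_shift d (F := fun x => ph b (-c) d (h + L.l x) (L.dual.l k))
      (fun x y => by rw [l_add, ← add_assoc, ph_per hI (hh.add (hI.dl x))]) t, Finset.sum_mul]
    refine Finset.sum_congr rfl fun r _ => ?_
    have l0 : L.dual.l 0 = 0 := by simp [l]
    have b0 : ∀ z, bf z 0 = 0 := fun z => by simp [bf]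
    rw [l_add, ← add_assoc, ← ht, ph, ph, ← ee_add, ← ofReal_intCast c, ← ofReal_intCast a,
      normSq_add' _ (_ * _), bf_mul_right, map_mul, normSq_ofReal, bf_add_left _ (_ * _),
      bf_mul_left, bf_self, bf_mul_left, l0, b0, bf_add_left, bf_l_dual,
      ← ee_add_int (_ + _) (a * (lf r 0 * k 0 + lf r 1 * k 1) + a * n0)]
    congr 1
    push_cast
    rw [← hn0C]
    field_simp
    linear_combination (-(bf h (L.dual.l k) : ℂ) - (lf r 0 * k 0 + lf r 1 * k 1) -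
      c * normSq (L.dual.l k)) * hdetC
  rw [s1]
  congr 1
  rw [sum_shift d (F := fun x => ph b 0 d (h + L.l x) (L.dual.l 0))
    (fun x y => by rw [l_add, ← add_assoc, ph_per hI (hh.add (hI.dl x))]) t0, G0]
  refine Finset.sum_congr rfl fun r _ => ?_
  have l0 : L.dual.l 0 = 0 := by simp [l]
  have b0 : ∀ z, bf z 0 = 0 := fun z => by simp [bf]
  have e : h + L.l (lf r + t0) = ((a * d : ℝ) : ℂ) * h + L.l (lf r) := by
    rw [l_add, ← ht0]; push_cast; linear_combination (-h) * hdetC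
  obtain ⟨n2, g2⟩ := hh (lf r)
  rw [e, ph, l0, b0, normSq_add', bf_mul_left, map_mul, normSq_ofReal, hm, g2,
    ← ee_add_int ((b * normSq (L.l (lf r)) / d : ℝ) : ℂ) (b * a * a * d * m + a * b * n2)]
  congr 1
  push_cast
  field_simp
  ring

/-- transformation under `Γ₀(N)`, positive lower right entry -/
theorem law0 (hI : L.Int) {N : ℤ} (hN : L.Lev N) {h : ℂ} (hh : L.Dl h) {m : ℤ} (hm : normSq h = m)
    {a b c : ℤ} {d : ℕ} [NeZero d] (hdet : a * d - b * c = 1) (hc : N ∣ c) {τ : ℂ}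
    (hτ : 0 < τ.im) :
    L.Tz h ((a * τ + b) / (c * τ + d)) = (c * τ + d) ^ 2 * (L.G0 b d / d) * L.Tz (a * h) τ := by
  have hτ0 : τ ≠ 0 := fun h => by simp [h] at hτ
  have hd : (d : ℂ) ≠ 0 := by exact_mod_cast NeZero.ne d
  have hτ' : 0 < (-1 / τ).im := by
    rw [neg_div, one_div, neg_im, inv_im, neg_div, neg_neg]
    exact div_pos hτ (normSq_pos.2 hτ0)
  obtain ⟨h0, -⟩ := im_moeb hdet hτ
  rw [Int.cast_natCast] at h0
  have key := gen_law hI hh (a := b) (b := -a) (d := -c) (c := d) (by linarith) hτ'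
  have e0 : (d : ℂ) * (-1 / τ) + ((-c : ℤ) : ℂ) = -(c * τ + d) / τ := by
    push_cast; field_simp; ring
  have e1 : (b * (-1 / τ) + ((-a : ℤ) : ℂ)) / (d * (-1 / τ) + ((-c : ℤ) : ℂ)) =
      (a * τ + b) / (c * τ + d) := by
    rw [e0]; push_cast; field_simp; ring
  rw [e1, e0] at key
  rw [key, Tz, L.poisson hτ, Z]
  simp_rw [Ph_eq hI hN hh hm hdet hc, zero_add, mul_assoc (L.G0 b d), tsum_mul_left]
  field_simp

theorem isZero_slash (hI : L.Int) {h : ℂ} (hh : L.Dl h) (γ : SL(2, ℤ)) :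
    UpperHalfPlane.IsZeroAtImInfty
      ((fun τ : UpperHalfPlane => L.Tz h τ) ∣[(2 : ℤ)] γ) := by
  have hdet : γ 0 0 * γ 1 1 - γ 0 1 * γ 1 0 = 1 := by
    have := γ.det_coe
    rwa [Matrix.det_fin_two] at this
  have hsl : ∀ τ : UpperHalfPlane, ((fun τ : UpperHalfPlane => L.Tz h τ) ∣[(2 : ℤ)] γ) τ =
      L.Tz h ((γ 0 0 * (τ : ℂ) + γ 0 1) / (γ 1 0 * (τ : ℂ) + γ 1 1)) /
        (γ 1 0 * (τ : ℂ) + γ 1 1) ^ 2 := by
    intro τ
    rw [ModularForm.SL_slash_apply, UpperHalfPlane.coe_specialLinearGroup_apply,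
      ModularGroup.denom_apply, zpow_neg, div_eq_mul_inv _ (_ ^ 2)]
    simp
  rw [funext hsl]
  generalize γ 0 0 = a, γ 0 1 = b, γ 1 0 = c, γ 1 1 = d at hdet
  have pos : ∀ (a b d : ℤ) (c : ℕ), c ≠ 0 → a * d - b * c = 1 → UpperHalfPlane.IsZeroAtImInfty
      fun τ : UpperHalfPlane => L.Tz h ((a * (τ : ℂ) + b) / (c * (τ : ℂ) + d)) /
        (c * (τ : ℂ) + d) ^ 2 := by
    intro a b d c hc hdet
    have : NeZero c := ⟨hc⟩
    have h1 := (L.dual.isZero_Z (L.norm_Ph a d c h) 0).const_mul (L.cst / c)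
    rw [mul_zero] at h1
    refine h1.congr fun τ => ?_
    have h0 := (im_moeb hdet τ.im_pos).1
    rw [Int.cast_natCast] at h0
    rw [gen_law hI hh hdet τ.im_pos]
    field_simp
  rcases lt_trichotomy c 0 with hc | rfl | hc
  · obtain ⟨c, rfl⟩ := Int.exists_eq_neg_ofNat hc.le
    refine (pos (-a) (-b) (-d) c (by omega) (by linarith)).congr fun τ => ?_
    push_cast
    rw [show (c : ℂ) * τ + -d = -(-c * τ + d) by ring,
      show -(a : ℂ) * τ + -b = -(a * τ + b) by ring, neg_div_neg_eq, neg_sq]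
  · have had : a * d = 1 := by linarith
    have hd : (d : ℂ) ^ 2 = 1 := by
      rcases Int.eq_one_or_neg_one_of_mul_eq_one' had with h | h <;> simp [h.2]
    have hadC : (a : ℂ) * d = 1 := by exact_mod_cast had
    refine (L.isZero_Z (φ := fun x => ee (((b * d * normSq (h + L.l x) : ℝ)) : ℂ)) (C := 1)
      (fun x => by rw [norm_ee_real]) h).congr fun τ => ?_
    have hd0 : (d : ℂ) ≠ 0 := right_ne_zero_of_mul_eq_one hadC
    have e : ((a : ℂ) * τ + b) / d = b * d + τ := by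
      rw [div_eq_iff hd0]
      linear_combination (-(b : ℂ) - a * τ) * hd + (d * τ) * hadC
    simp only [Int.cast_zero, zero_mul, zero_add, hd, div_one, e, Tz, Z, ff_add]
    push_cast
    rfl
  · obtain ⟨c, rfl⟩ := Int.eq_ofNat_of_zero_le hc.le
    exact pos a b d c (by omega) hdet

end Lt

end Crest.Agent.T15.Th
end
end

-- ▼ part T15/ThC_59
section

/-!
# Row 15, block C (helper59): binary theta series, the Gauss sum and the law under `Γ₀(N)`
-/

set_option autoImplicit false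

noncomputable section

open Complex Filter Topology
open scoped Real MatrixGroups ModularForm NumberTheorySymbols

namespace Crest.Agent.T15.Th

section Gauss

variable {p : ℕ} [Fact p.Prime]

/-- the quadratic character with complex values -/
def qc (p : ℕ) [Fact p.Prime] : MulChar (ZMod p) ℂ :=
  (quadraticChar (ZMod p)).ringHomComp (Int.castRingHom ℂ)

theorem qc_apply (x : ZMod p) : qc p x = (quadraticChar (ZMod p) x : ℤ) := rfl

theorem sum_sq (hp : p ≠ 2) {t : ZMod p} (ht : t ≠ 0) :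
    ∑ x : ZMod p, ZMod.stdAddChar (t * x ^ 2) = qc p t * gaussSum (qc p) ZMod.stdAddChar := by
  have hchar : ringChar (ZMod p) ≠ 2 := by rwa [ZMod.ringChar_zmod_n]
  have h1 : ∑ x : ZMod p, ZMod.stdAddChar (t * x ^ 2) =
      ∑ y : ZMod p, (qc p y + 1) * ZMod.stdAddChar (t * y) := by
    rw [← Finset.sum_fiberwise' Finset.univ (fun x : ZMod p => x ^ 2)
      (fun y => (ZMod.stdAddChar (t * y) : ℂ))]
    refine Finset.sum_congr rfl fun y _ => ?_
    rw [Finset.sum_const, nsmul_eq_mul]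
    congr 1
    have := quadraticChar_card_sqrts hchar y
    rw [Set.toFinset_ofPred] at this
    rw [qc_apply]
    exact_mod_cast this
  have h2 : ∑ y : ZMod p, (ZMod.stdAddChar (t * y) : ℂ) = 0 := by
    have := AddChar.sum_mulShift t (ZMod.isPrimitive_stdAddChar p)
    simp only [ht, if_false, Nat.cast_zero] at this
    simpa only [mul_comm] using this
  have h3 := gaussSum_mulShift (qc p) ZMod.stdAddChar (Units.mk0 t ht)
  have h4 : qc p t * qc p t = 1 := by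
    rw [← map_mul, qc_apply, ← sq, quadraticChar_sq_one' ht]; simp
  rw [h1]
  simp_rw [add_mul, one_mul]
  rw [Finset.sum_add_distrib, h2, add_zero, ← h3, Units.val_mk0, ← mul_assoc, h4, one_mul]
  rfl

theorem sum_form (hp : p ≠ 2) {α β γ b : ZMod p} (hα : α ≠ 0) (hb : b ≠ 0)
    (hD : β ^ 2 - 4 * α * γ ≠ 0) :
    ∑ r : Fin 2 → ZMod p, ZMod.stdAddChar (b * (α * r 0 ^ 2 + β * r 0 * r 1 + γ * r 1 ^ 2)) =
      p * qc p (β ^ 2 - 4 * α * γ) := by
  have hchar : ringChar (ZMod p) ≠ 2 := by rwa [ZMod.ringChar_zmod_n]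
  have h2 : (2 : ZMod p) ≠ 0 := Ring.two_ne_zero hchar
  have h4 : (4 : ZMod p) ≠ 0 := by
    rw [show (4 : ZMod p) = 2 * 2 by norm_num]; exact mul_ne_zero h2 h2
  set D := β ^ 2 - 4 * α * γ with hDdef
  have e1 : ∑ r : Fin 2 → ZMod p,
      (ZMod.stdAddChar (b * (α * r 0 ^ 2 + β * r 0 * r 1 + γ * r 1 ^ 2)) : ℂ) =
      ∑ y : ZMod p, ∑ x : ZMod p,
        (ZMod.stdAddChar (b * (α * x ^ 2 + β * x * y + γ * y ^ 2)) : ℂ) := by
    rw [Finset.sum_comm, ← Fintype.sum_prod_type', ← (finTwoArrowEquiv (ZMod p)).sum_comp]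
    rfl
  have e2 : ∀ y : ZMod p, ∑ x : ZMod p,
      (ZMod.stdAddChar (b * (α * x ^ 2 + β * x * y + γ * y ^ 2)) : ℂ) =
      (qc p (b * α) * gaussSum (qc p) ZMod.stdAddChar) *
        ZMod.stdAddChar ((-(b * α * D) * (2 * α)⁻¹ ^ 2) * y ^ 2) := by
    intro y
    rw [← sum_sq hp (mul_ne_zero hb hα), Finset.sum_mul,
      ← Equiv.sum_comp (Equiv.addRight (-(β * y / (2 * α))))]
    refine Finset.sum_congr rfl fun x _ => ?_
    rw [← AddChar.map_add_eq_mul]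
    congr 1
    rw [hDdef, Equiv.coe_addRight]
    field_simp
    ring
  have hne : -(b * α * D) * (2 * α)⁻¹ ^ 2 ≠ 0 :=
    mul_ne_zero (neg_ne_zero.2 (mul_ne_zero (mul_ne_zero hb hα) hD))
      (pow_ne_zero _ (inv_ne_zero (mul_ne_zero h2 hα)))
  have hq : qc p ≠ 1 := by
    rw [qc, ne_eq, MulChar.ringHomComp_eq_one_iff (RingHom.injective_int _)]
    exact quadraticChar_ne_one hchar
  have hg := gaussSum_sq hq ((quadraticChar_isQuadratic (ZMod p)).comp _)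
    (ZMod.isPrimitive_stdAddChar p)
  rw [ZMod.card] at hg
  have h5 : qc p (b * α) * qc p (-(b * α * D) * (2 * α)⁻¹ ^ 2) * qc p (-1) = qc p D := by
    rw [← map_mul, ← map_mul, show b * α * (-(b * α * D) * (2 * α)⁻¹ ^ 2) * -1 =
      D * (b * α * (2 * α)⁻¹) ^ 2 by ring, map_mul, qc_apply (_ ^ 2), quadraticChar_sq_one'
      (mul_ne_zero (mul_ne_zero hb hα) (inv_ne_zero (mul_ne_zero h2 hα)))]
    simp
  rw [e1]
  simp_rw [e2]
  rw [← Finset.mul_sum, sum_sq hp hne, ← h5]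
  linear_combination (qc p (b * α) * qc p (-(b * α * D) * (2 * α)⁻¹ ^ 2)) * hg

end Gauss

namespace Lt

variable {L : Lt}

/-- the coefficients of the quadratic form -/
def Frm (L : Lt) (α β γ : ℤ) : Prop :=
  ∀ x, normSq (L.l x) = ((α * x 0 ^ 2 + β * x 0 * x 1 + γ * x 1 ^ 2 : ℤ) : ℝ)

theorem Frm.int {α β γ : ℤ} (h : L.Frm α β γ) : L.Int := fun x => ⟨_, h x⟩

theorem Frm.pos {α β γ : ℤ} (h : L.Frm α β γ) : α ≠ 0 := by
  rintro rfl
  have h1 := h ![1, 0]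
  simp only [l, Matrix.cons_val_zero, Matrix.cons_val_one, Int.cast_one, one_mul, Int.cast_zero,
    zero_mul, add_zero, mul_zero, ne_eq, OfNat.ofNat_ne_zero, not_false_eq_true, zero_pow,
    map_eq_zero] at h1
  exact L.hδ (by simp [h1])

theorem G0_prime {α β γ : ℤ} (h : L.Frm α β γ) {p : ℕ} [Fact p.Prime] (hp : p ≠ 2) {b : ℤ}
    (hα : ¬ (p : ℤ) ∣ α) (hb : ¬ (p : ℤ) ∣ b) (hD : ¬ (p : ℤ) ∣ β ^ 2 - 4 * α * γ) :
    L.G0 b p = p * (J(β ^ 2 - 4 * α * γ | p) : ℤ) := by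
  have := sum_form hp (α := (α : ZMod p)) (β := β) (γ := γ) (b := b)
    (by rwa [Ne, ZMod.intCast_zmod_eq_zero_iff_dvd]) (by rwa [Ne, ZMod.intCast_zmod_eq_zero_iff_dvd])
    (by rw [← ZMod.intCast_zmod_eq_zero_iff_dvd] at hD; exact_mod_cast hD)
  rw [← jacobiSym.legendreSym.to_jacobiSym, legendreSym, ← qc_apply]
  push_cast
  rw [← this, G0]
  refine Finset.sum_congr rfl fun r _ => ?_
  have e := ZMod.stdAddChar_coe (N := p)
    (b * (α * lf r 0 ^ 2 + β * lf r 0 * lf r 1 + γ * lf r 1 ^ 2))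
  have e0 : ∀ i, ((lf r i : ℤ) : ZMod p) = r i := fun i => by simp [lf]
  push_cast at e
  rw [e0, e0] at e
  rw [e, h, ee]
  congr 1
  push_cast
  ring

theorem law1 {α β γ D f N : ℤ} (h : L.Frm α β γ) (hD : β ^ 2 - 4 * α * γ = D * f ^ 2)
    (hD0 : D ≠ 0) (hf : f ≠ 0) (hN : L.Lev N) (h4 : 4 * D ∣ N) {z : ℂ} (hz : L.Dl z) {m : ℤ}
    (hm : normSq z = m) {a b c d : ℤ} (hdet : a * d - b * c = 1) (hc : N ∣ c) (hc0 : c ≠ 0) {n : ℕ}
    (hn : (n : ℤ) ≡ d [ZMOD N]) {τ : ℂ} (hτ : 0 < τ.im) :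
    L.Tz z ((a * τ + b) / (c * τ + d)) = (c * τ + d) ^ 2 * (J(D | n) : ℤ) * L.Tz (a * z) τ := by
  have hcop : IsCoprime d (c.natAbs : ℤ) := by
    rw [Int.natCast_natAbs, IsCoprime.abs_right_iff]
    exact ⟨a, -b, by linarith⟩
  obtain ⟨p, hp1, hp2, hp3⟩ := Nat.forall_exists_prime_gt_and_zmodEq
    (2 + α.natAbs + (D * f ^ 2).natAbs) (Int.natAbs_ne_zero.2 hc0) hcop
  have : Fact p.Prime := ⟨hp2⟩
  rw [Int.natCast_natAbs, Int.modEq_abs] at hp3
  obtain ⟨k, hk⟩ := hp3.symm.dvd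
  have hp : (p : ℤ) = d + c * k := by linarith
  have hdet' : a * p - (b + a * k) * c = 1 := by rw [hp]; linarith
  have hτ' : 0 < (τ - k).im := by simpa using hτ
  have key := law0 h.int hN hz hm hdet' hc hτ'
  have hpC : (p : ℂ) = d + c * k := by exact_mod_cast hp
  have hp0 : (p : ℂ) ≠ 0 := by exact_mod_cast hp2.ne_zero
  have hnd : ∀ x : ℤ, x ≠ 0 → x.natAbs < p → ¬ (p : ℤ) ∣ x := fun x hx hlt hd =>
    absurd (Nat.le_of_dvd (Int.natAbs_pos.2 hx) (Int.natCast_dvd.1 hd)) (not_le.2 hlt)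
  have hDf : ¬ (p : ℤ) ∣ D * f ^ 2 := hnd _ (mul_ne_zero hD0 (pow_ne_zero _ hf)) (by omega)
  have hb : ¬ (p : ℤ) ∣ b + a * k := by
    intro hd
    have : (p : ℤ) ∣ 1 := by
      rw [← hdet']
      exact (dvd_mul_left _ _).sub (hd.mul_right _)
    exact hp2.one_lt.ne' (by exact_mod_cast Int.eq_one_of_dvd_one (Int.natCast_nonneg p) this)
  rw [G0_prime h (by omega) (hnd _ h.pos (by omega)) hb (hD ▸ hDf), hD, jacobiSym.mul_left,
    jacobiSym.sq_one' (by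
      rw [Int.gcd_comm, ← Int.isCoprime_iff_gcd_eq_one]
      exact (Nat.prime_iff_prime_int.1 hp2).irreducible.coprime_iff_not_dvd.2
        fun hd => hDf ((hd.trans (dvd_pow_self f two_ne_zero)).mul_left _)), mul_one] at key
  have hpo : Odd p := hp2.odd_of_ne_two (by omega)
  have hpn : (n : ℤ) ≡ p [ZMOD (4 * D)] :=
    (hn.of_dvd h4).trans (hp3.of_dvd (h4.trans hc)).symm
  have hpn' : n ≡ p [MOD (4 * D.natAbs)] := by
    rw [← Int.natCast_modEq_iff]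
    push_cast
    rw [show (4 : ℤ) * |D| = |4 * D| by rw [abs_mul]; rfl, Int.modEq_abs]
    exact hpn
  have hno : Odd n := by
    have := hpn'.of_dvd (show 2 ∣ 4 * D.natAbs by omega)
    rw [Nat.odd_iff] at hpo ⊢
    rw [← hpo]; exact this
  have hJ : J(D | p) = J(D | n) := by
    rw [jacobiSym.mod_right D hpo, jacobiSym.mod_right D hno, hpn']
  have hm' : normSq (a * z) = ((a * a * m : ℤ) : ℝ) := by
    rw [map_mul, hm, normSq_intCast]; push_cast; ring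
  have hT := Tz_add_int h.int (hz.mul a) hm' (τ - k) k
  rw [sub_add_cancel] at hT
  have e1 : (c : ℂ) * (τ - k) + p = c * τ + d := by rw [hpC]; ring
  have e2 : (a : ℂ) * (τ - k) + ((b + a * k : ℤ) : ℂ) = a * τ + b := by push_cast; ring
  rw [e1, e2, hJ, ← hT, mul_div_cancel_left₀ _ hp0] at key
  exact key

/-- **transformation law under `Γ₀(N)`** -/
theorem law {α β γ D f N : ℤ} (h : L.Frm α β γ) (hD : β ^ 2 - 4 * α * γ = D * f ^ 2)
    (hD0 : D ≠ 0) (hf : f ≠ 0) (hN : L.Lev N) (hN0 : N ≠ 0) (h4 : 4 * D ∣ N) {z : ℂ} (hz : L.Dl z)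
    {m : ℤ} (hm : normSq z = m) {a b c d : ℤ} (hdet : a * d - b * c = 1) (hc : N ∣ c) {n : ℕ}
    (hn : (n : ℤ) ≡ d [ZMOD N]) {τ : ℂ} (hτ : 0 < τ.im) :
    L.Tz z ((a * τ + b) / (c * τ + d)) = (c * τ + d) ^ 2 * (J(D | n) : ℤ) * L.Tz (a * z) τ := by
  rcases eq_or_ne c 0 with rfl | hc0
  swap
  · exact law1 h hD hD0 hf hN h4 hz hm hdet hc hc0 hn hτ
  have hd0 : d ≠ 0 := by rintro rfl; simp at hdet
  obtain ⟨h0, h1⟩ := im_moeb (a := 1) (b := 0) (c := N) (d := 1) (by ring) hτ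
  have k1 := law1 h hD hD0 hf hN h4 hz hm (a := a - b * N) (b := b) (c := -(d * N)) (d := d)
    (by linarith) (dvd_neg.2 (dvd_mul_left _ _)) (neg_ne_zero.2 (mul_ne_zero hd0 hN0)) hn h1
  have hm' : normSq (((a - b * N : ℤ) : ℂ) * z) = (((a - b * N) * (a - b * N) * m : ℤ) : ℝ) := by
    rw [map_mul, hm, normSq_intCast]; push_cast; ring
  have k2 := law1 h hD hD0 hf hN h4 (hz.mul (a - b * N)) hm' (a := 1) (b := 0) (c := N) (d := 1)
    (by ring) dvd_rfl hN0 (n := 1) rfl hτ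
  obtain ⟨k0, hk0⟩ := hz.exists
  obtain ⟨t, ht⟩ := hN.mem (c := -(b * N)) (dvd_neg.2 (dvd_mul_left _ _)) k0
  have e0 : ((1 : ℤ) : ℂ) * (((a - b * N : ℤ) : ℂ) * z) = a * z + L.l t := by
    rw [← ht, ← hk0]; push_cast; ring
  rw [e0, Tz_add_l, jacobiSym.one_right] at k2
  rw [k2] at k1
  simp only [Int.cast_one, Int.cast_zero, one_mul, add_zero, zero_mul, zero_add, mul_one]
    at k1 h0 ⊢
  have e1 : ((-(d * N) : ℤ) : ℂ) * (τ / (N * τ + 1)) + d = d / (N * τ + 1) := by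
    push_cast; field_simp; ring
  have e2 : ((a - b * N : ℤ) : ℂ) * (τ / (N * τ + 1)) + b = (a * τ + b) / (N * τ + 1) := by
    push_cast; field_simp; ring
  rw [e1, e2, div_div_div_cancel_right₀ h0] at k1
  rw [k1]
  field_simp

theorem law_slash {α β γ D f N : ℤ} (h : L.Frm α β γ) (hD : β ^ 2 - 4 * α * γ = D * f ^ 2)
    (hD0 : D ≠ 0) (hf : f ≠ 0) (hN : L.Lev N) (hN0 : N ≠ 0) (h4 : 4 * D ∣ N) {z : ℂ} (hz : L.Dl z)
    {m : ℤ} (hm : normSq z = m) (g : SL(2, ℤ)) (hc : N ∣ g 1 0) {n : ℕ}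
    (hn : (n : ℤ) ≡ g 1 1 [ZMOD N]) (τ : UpperHalfPlane) :
    ((fun τ : UpperHalfPlane => L.Tz z τ) ∣[(2 : ℤ)] g) τ =
      (J(D | n) : ℤ) * L.Tz (g 0 0 * z) τ := by
  have hdet : g 0 0 * g 1 1 - g 0 1 * g 1 0 = 1 := by
    have := g.det_coe
    rwa [Matrix.det_fin_two] at this
  have hsl : ((fun τ : UpperHalfPlane => L.Tz z τ) ∣[(2 : ℤ)] g) τ =
      L.Tz z ((g 0 0 * (τ : ℂ) + g 0 1) / (g 1 0 * (τ : ℂ) + g 1 1)) /
        (g 1 0 * (τ : ℂ) + g 1 1) ^ 2 := by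
    rw [ModularForm.SL_slash_apply, UpperHalfPlane.coe_specialLinearGroup_apply,
      ModularGroup.denom_apply, zpow_neg, div_eq_mul_inv _ (_ ^ 2)]
    simp
  have h0 := (im_moeb hdet τ.im_pos).1
  rw [hsl, law h hD hD0 hf hN hN0 h4 hz hm hdet hc hn τ.im_pos]
  field_simp

/-- the level of a form `f (α x² + β x y + γ y²)` divides `f (β² - 4 α γ)` -/
theorem Frm.lev {α β γ f : ℤ} (h : L.Frm (f * α) (f * β) (f * γ)) :
    L.Lev (f * (β ^ 2 - 4 * α * γ)) := by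
  have h0 := h ![1, 0]
  have h1 := h ![0, 1]
  have h2 := h ![1, 1]
  simp only [l, Matrix.cons_val_zero, Matrix.cons_val_one, Int.cast_one, one_mul, Int.cast_zero,
    zero_mul, add_zero, zero_add, normSq_apply, add_re, add_im] at h0 h1 h2
  push_cast at h0 h1 h2
  have hδ := L.δ_ne
  have hf : (f : ℝ) ≠ 0 := by
    have := h.pos
    exact_mod_cast left_ne_zero_of_mul this
  have hd : 4 * L.δ ^ 2 = -(f : ℝ) ^ 2 * (β ^ 2 - 4 * α * γ) := by
    have : 4 * L.δ ^ 2 = 4 * (L.w0.re * L.w0.re + L.w0.im * L.w0.im) *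
        (L.w1.re * L.w1.re + L.w1.im * L.w1.im) -
        (((L.w0.re + L.w1.re) * (L.w0.re + L.w1.re) + (L.w0.im + L.w1.im) * (L.w0.im + L.w1.im)) -
          (L.w0.re * L.w0.re + L.w0.im * L.w0.im) - (L.w1.re * L.w1.re + L.w1.im * L.w1.im)) ^ 2 := by
      rw [δ]; ring
    rw [this, h0, h1, h2]
    ring
  intro k
  refine ⟨-(γ * k 0 ^ 2 - β * k 0 * k 1 + α * k 1 ^ 2), ?_⟩
  have e : L.dual.l k = ((2 * L.δ)⁻¹ : ℝ) * (I * L.l ![k 1, -k 0]) := by
    simp only [l, dual, Matrix.cons_val_zero, Matrix.cons_val_one]; push_cast; ring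
  rw [e, map_mul, map_mul, normSq_I, normSq_ofReal, h]
  simp only [Matrix.cons_val_zero, Matrix.cons_val_one]
  push_cast
  field_simp
  linear_combination (γ * k 0 ^ 2 - β * k 0 * k 1 + α * k 1 ^ 2) * hd

end Lt

end Crest.Agent.T15.Th
end
end

-- ▼ part T15/ThD_59
section

/-!
# Row 15, block C (helper59): imaginary quadratic fields, ideals as lattices

`IQ σ`: `M` is quadratic and `σ : M →+* ℂ` is not real.  For ideals `𝔞, 𝔪 ≠ 0` the lattice `𝔪 𝔞`
with the form `N(x) / N(𝔞)` has discriminant `D N(𝔪)²` and level dividing `D N(𝔪)`.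
-/

set_option autoImplicit false

noncomputable section

open Complex Filter Topology NumberField Module Ideal
open scoped Real MatrixGroups ModularForm NumberTheorySymbols

namespace Crest.Agent.T15.Th

variable {M : Type*} [Field M] [NumberField M]

/-- `M` is imaginary quadratic, embedded by `σ` -/
structure IQ (σ : M →+* ℂ) : Prop where
  two : finrank ℚ M = 2
  nre : ComplexEmbedding.conjugate σ ≠ σ


variable {σ : M →+* ℂ}

theorem IQ.univ (H : IQ σ) [DecidableEq (M →ₐ[ℚ] ℂ)] : (Finset.univ : Finset (M →ₐ[ℚ] ℂ)) =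
    {σ.toRatAlgHom, (ComplexEmbedding.conjugate σ).toRatAlgHom} ∧
    σ.toRatAlgHom ≠ (ComplexEmbedding.conjugate σ).toRatAlgHom := by
  have hne : σ.toRatAlgHom ≠ (ComplexEmbedding.conjugate σ).toRatAlgHom := fun e =>
    H.nre (RingHom.ext fun x => (DFunLike.congr_fun e x).symm)
  refine ⟨(Finset.eq_univ_of_card _ ?_).symm, hne⟩
  rw [Finset.card_pair hne, AlgHom.card, H.two]

theorem IQ.norm (H : IQ σ) (x : 𝓞 M) : (absNorm (span {x}) : ℝ) = normSq (σ x) := by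
  classical
  have h := Algebra.norm_eq_prod_embeddings ℚ ℂ (x : M)
  rw [H.univ.1, Finset.prod_pair H.univ.2, ← Algebra.coe_norm_int] at h
  have h2 : ((Algebra.norm ℤ x : ℤ) : ℂ) = (normSq (σ x) : ℂ) := by
    rw [← mul_conj]
    simpa using h
  have h3 : ((Algebra.norm ℤ x : ℤ) : ℝ) = normSq (σ x) := by exact_mod_cast h2
  rw [absNorm_span_singleton, Nat.cast_natAbs, Int.cast_abs, h3, abs_of_nonneg (normSq_nonneg _)]

theorem IQ.trace (H : IQ σ) (x : 𝓞 M) : ((Algebra.trace ℤ (𝓞 M) x : ℤ) : ℝ) = 2 * (σ x).re := by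
  classical
  have h := trace_eq_sum_embeddings ℂ (K := ℚ) (x := (x : M))
  rw [H.univ.1, Finset.sum_pair H.univ.2, ← Algebra.coe_trace_int] at h
  have h2 : ((Algebra.trace ℤ (𝓞 M) x : ℤ) : ℂ) = ((2 * (σ x).re : ℝ) : ℂ) := by
    rw [← add_conj]
    simpa using h
  exact_mod_cast h2

theorem IQ.rank (H : IQ σ) : finrank ℤ (𝓞 M) = 2 := by rw [RingOfIntegers.rank, H.two]

/-- the oriented area -/
def dl (z w : ℂ) : ℝ := z.re * w.im - z.im * w.re

theorem IQ.discr_eq (H : IQ σ) (b : Basis (Fin 2) ℤ (𝓞 M)) :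
    (discr M : ℝ) = -4 * dl (σ (b 0)) (σ (b 1)) ^ 2 := by
  rw [← discr_eq_discr M b, Algebra.discr_def, Matrix.det_fin_two]
  simp only [Algebra.traceMatrix_apply, Algebra.traceForm_apply]
  push_cast
  simp only [H.trace, dl, map_mul, RingOfIntegers.coe_eq_algebraMap, mul_re]
  ring

theorem IQ.exists_basis (H : IQ σ) {I : Ideal (𝓞 M)} (hI : I ≠ ⊥) :
    ∃ b : Basis (Fin 2) ℤ I, -4 * dl (σ (b 0 : 𝓞 M)) (σ (b 1 : 𝓞 M)) ^ 2 =
      discr M * (absNorm I : ℝ) ^ 2 := by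
  let b0 : Basis (Fin 2) ℤ (𝓞 M) := finBasisOfFinrankEq ℤ (𝓞 M) H.rank
  let b : Basis (Fin 2) ℤ I := I.selfBasis b0 hI
  refine ⟨b, ?_⟩
  have h1 := natAbs_det_basis_change b0 I b
  rw [Basis.det_apply, Matrix.det_fin_two] at h1
  simp only [Basis.toMatrix_apply, Function.comp] at h1
  have e : ∀ x : 𝓞 M, σ x = (b0.repr x 0 : ℝ) * σ (b0 0) + (b0.repr x 1 : ℝ) * σ (b0 1) := by
    intro x
    conv_lhs => rw [← b0.sum_repr x]
    simp [Fin.sum_univ_two]
  rw [H.discr_eq b0, ← h1, Nat.cast_natAbs, Int.cast_abs, sq_abs, e (b 0), e (b 1)]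
  simp only [dl, add_re, add_im, re_ofReal_mul, im_ofReal_mul]
  push_cast
  ring


namespace Lt

theorem normSq_l (L : Lt) (x : Fin 2 → ℤ) : normSq (L.l x) =
    normSq L.w0 * x 0 ^ 2 + bf L.w0 L.w1 * x 0 * x 1 + normSq L.w1 * x 1 ^ 2 := by
  rw [l, normSq_add', map_mul, map_mul, normSq_intCast, normSq_intCast, ← ofReal_intCast,
    ← ofReal_intCast, bf_mul_left, bf_mul_right]
  ring

theorem Lev.mul {L : Lt} {N N' : ℤ} (h : L.Lev N) (hN : N ∣ N') : L.Lev N' := by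
  obtain ⟨c, rfl⟩ := hN
  intro k
  obtain ⟨n, hn⟩ := h k
  exact ⟨c * n, by push_cast; rw [← hn]; ring⟩

end Lt

/-- the scaled embedding `x ↦ σ x / √(N 𝔞)` -/
def sc (σ : M →+* ℂ) (𝔞 : Ideal (𝓞 M)) (x : 𝓞 M) : ℂ := ((√(absNorm 𝔞 : ℝ))⁻¹ : ℝ) * σ x

theorem sc_add (𝔞 : Ideal (𝓞 M)) (x y : 𝓞 M) : sc σ 𝔞 (x + y) = sc σ 𝔞 x + sc σ 𝔞 y := by
  simp [sc, mul_add]

theorem sc_int (𝔞 : Ideal (𝓞 M)) (a : ℤ) (x : 𝓞 M) : sc σ 𝔞 (a * x) = a * sc σ 𝔞 x := by
  simp [sc, mul_left_comm]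

theorem absNorm_pos {𝔞 : Ideal (𝓞 M)} (h : 𝔞 ≠ ⊥) : (0 : ℝ) < absNorm 𝔞 := by
  exact_mod_cast Nat.pos_of_ne_zero (absNorm_eq_zero_iff.not.2 h)

theorem IQ.normSq_sc (H : IQ σ) (𝔞 : Ideal (𝓞 M)) (x : 𝓞 M) :
    normSq (sc σ 𝔞 x) = (absNorm (span {x}) : ℝ) / absNorm 𝔞 := by
  rw [sc, map_mul, normSq_ofReal, ← H.norm, ← mul_inv, Real.mul_self_sqrt (Nat.cast_nonneg _),
    div_eq_inv_mul]

theorem IQ.normSq_sc_mem (H : IQ σ) {𝔞 : Ideal (𝓞 M)} (ha : 𝔞 ≠ ⊥) {𝔪 : Ideal (𝓞 M)} {x : 𝓞 M}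
    (hx : x ∈ 𝔪 * 𝔞) : ∃ n : ℤ, normSq (sc σ 𝔞 x) = absNorm 𝔪 * n := by
  obtain ⟨n, hn⟩ := absNorm_dvd_absNorm_of_le ((span_singleton_le_iff_mem _).2 hx)
  refine ⟨n, ?_⟩
  have := absNorm_pos ha
  rw [H.normSq_sc, hn, map_mul]
  push_cast
  field_simp

theorem IQ.int_sc (H : IQ σ) {𝔞 : Ideal (𝓞 M)} (ha : 𝔞 ≠ ⊥) {x : 𝓞 M}
    (hx : x ∈ 𝔞) : ∃ n : ℤ, normSq (sc σ 𝔞 x) = n := by
  simpa using H.normSq_sc_mem ha (𝔪 := 1) (x := x) (by simpa using hx)

/-- the lattice of `𝔪 𝔞` -/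
theorem IQ.exists_lt (H : IQ σ) {𝔞 𝔪 : Ideal (𝓞 M)} (ha : 𝔞 ≠ ⊥) (hm : 𝔪 ≠ ⊥) :
    ∃ (L : Lt) (e : (Fin 2 → ℤ) ≃ (𝔪 * 𝔞 : Ideal (𝓞 M))) (α β γ : ℤ),
      (∀ y, L.l y = sc σ 𝔞 (e y)) ∧
      L.Frm (absNorm 𝔪 * α) (absNorm 𝔪 * β) (absNorm 𝔪 * γ) ∧
      β ^ 2 - 4 * α * γ = discr M := by
  obtain ⟨b, hb⟩ := H.exists_basis (I := 𝔪 * 𝔞) (mul_ne_zero hm ha)
  have hA := absNorm_pos ha
  have hf := absNorm_pos hm
  have hD : (discr M : ℝ) ≠ 0 := by exact_mod_cast discr_ne_zero M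
  have hs : ((√(absNorm 𝔞 : ℝ))⁻¹) ^ 2 = (absNorm 𝔞 : ℝ)⁻¹ := by
    rw [inv_pow, Real.sq_sqrt hA.le]
  have hδ : dl (sc σ 𝔞 (b 0)) (sc σ 𝔞 (b 1)) =
      (absNorm 𝔞 : ℝ)⁻¹ * dl (σ (b 0 : 𝓞 M)) (σ (b 1 : 𝓞 M)) := by
    simp only [dl, sc, re_ofReal_mul, im_ofReal_mul, ← hs]; ring
  have hδ2 : -4 * dl (sc σ 𝔞 (b 0)) (sc σ 𝔞 (b 1)) ^ 2 = discr M * (absNorm 𝔪 : ℝ) ^ 2 := by
    rw [map_mul] at hb
    push_cast at hb
    rw [hδ, mul_pow, mul_left_comm, hb]
    field_simp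
  let L : Lt := ⟨sc σ 𝔞 (b 0), sc σ 𝔞 (b 1), fun h => by
    have : dl (sc σ 𝔞 (b 0)) (sc σ 𝔞 (b 1)) = 0 := h
    rw [this] at hδ2
    exact mul_ne_zero hD (pow_ne_zero 2 hf.ne') (by rw [← hδ2]; ring)⟩
  obtain ⟨α, hα⟩ := H.normSq_sc_mem ha (b 0).2
  obtain ⟨γ, hγ⟩ := H.normSq_sc_mem ha (b 1).2
  obtain ⟨s, hs⟩ := H.normSq_sc_mem ha (add_mem (b 0).2 (b 1).2)
  rw [sc_add, normSq_add', hα, hγ] at hs
  have hβ : bf (sc σ 𝔞 (b 0)) (sc σ 𝔞 (b 1)) = absNorm 𝔪 * (s - α - γ) := by linarith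
  refine ⟨L, b.equivFun.symm.toEquiv, α, s - α - γ, γ, fun y => ?_, fun y => ?_, ?_⟩
  · simp only [Lt.l, L, LinearEquiv.coe_toEquiv, Basis.equivFun_symm_apply, Fin.sum_univ_two,
      Submodule.coe_add, ← sc_int, ← sc_add]
    simp
  · rw [Lt.normSq_l]
    simp only [L, hα, hγ, hβ]
    push_cast
    ring
  · have h1 : bf (sc σ 𝔞 (b 0)) (sc σ 𝔞 (b 1)) ^ 2 -
        4 * normSq (sc σ 𝔞 (b 0)) * normSq (sc σ 𝔞 (b 1)) =
        -4 * dl (sc σ 𝔞 (b 0)) (sc σ 𝔞 (b 1)) ^ 2 := by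
      simp only [bf, normSq_apply, dl]; ring
    rw [hδ2, hα, hγ, hβ] at h1
    have h2 : ((s - α - γ) ^ 2 - 4 * α * γ : ℝ) = discr M :=
      mul_right_cancel₀ (pow_ne_zero 2 hf.ne') (by linear_combination h1)
    exact_mod_cast h2

/-- cosets of an ideal -/
def cosE (I : Ideal (𝓞 M)) : (𝓞 M ⧸ I) × I ≃ 𝓞 M :=
  Equiv.ofBijective (fun p => p.1.out + p.2) ⟨by
    rintro ⟨q, y⟩ ⟨q', y'⟩ h
    have h1 : q = q' := by
      have := congrArg (Ideal.Quotient.mk I) h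
      simpa [Ideal.Quotient.eq_zero_iff_mem.2 y.2, Ideal.Quotient.eq_zero_iff_mem.2 y'.2] using this
    subst h1
    exact Prod.ext rfl (Subtype.ext (add_left_cancel h)), fun x =>
    ⟨(Ideal.Quotient.mk I x, ⟨x - (Ideal.Quotient.mk I x).out,
      Ideal.Quotient.eq.1 (Ideal.Quotient.mk_out _).symm⟩), by simp⟩⟩

/-- summation over the ring of integers by cosets of `𝔪 𝔞` -/
theorem hasSum_cosets {𝔞 𝔟 : Ideal (𝓞 M)} [Fintype (𝓞 M ⧸ 𝔟)] {L : Lt} {e : (Fin 2 → ℤ) ≃ 𝔟}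
    (he : ∀ y, L.l y = sc σ 𝔞 (e y)) {φ : 𝓞 M → ℂ} (hφ : ∀ x, ∀ y ∈ 𝔟, φ (x + y) = φ x) {τ : ℂ}
    (hτ : 0 < τ.im) : HasSum (fun x => φ x * ff τ (sc σ 𝔞 x))
      (∑ q : 𝓞 M ⧸ 𝔟, φ q.out * L.Tz (sc σ 𝔞 q.out) τ) := by
  let E : (𝓞 M ⧸ 𝔟) × (Fin 2 → ℤ) ≃ 𝓞 M := (Equiv.prodCongr (Equiv.refl _) e).trans (cosE 𝔟)
  have hE : ∀ q y, φ (E (q, y)) * ff τ (sc σ 𝔞 (E (q, y))) =
      φ q.out * ff τ (sc σ 𝔞 q.out + L.l y) := by
    intro q y
    have : E (q, y) = q.out + e y := rfl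
    rw [this, hφ _ _ (e y).2, sc_add, he]
  have hs : Summable ((fun x => φ x * ff τ (sc σ 𝔞 x)) ∘ E) := by
    refine Summable.of_norm ((summable_prod_of_nonneg fun _ => norm_nonneg _).2
      ⟨fun q => ?_, Summable.of_finite⟩)
    simp only [Function.comp, hE, norm_mul]
    exact (L.summable_ff hτ _).mul_left _
  rw [← E.hasSum_iff]
  convert hs.hasSum using 1
  rw [hs.tsum_prod, tsum_fintype]
  simp only [Function.comp, hE, tsum_mul_left, Lt.Tz]

theorem IQ.finite_units (H : IQ σ) : Finite (𝓞 M)ˣ := by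
  obtain ⟨L, e, -, -, -, he, -⟩ := H.exists_lt (𝔞 := 1) (𝔪 := 1) one_ne_zero one_ne_zero
  have : Finite (𝓞 M ⧸ (1 * 1 : Ideal (𝓞 M))) :=
    Ideal.finiteQuotientOfFreeOfNeBot _ (mul_ne_zero one_ne_zero one_ne_zero)
  let _ := Fintype.ofFinite (𝓞 M ⧸ (1 * 1 : Ideal (𝓞 M)))
  have h1 := (hasSum_cosets he (φ := fun _ => 1) (fun _ _ _ => rfl) (τ := I)
    (by simp)).summable.norm.comp_injective (Units.val_injective (α := 𝓞 M))
  refine Finite.of_summable_const (b := Real.exp (-(2 * π))) (Real.exp_pos _) (h1.congr fun u => ?_)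
  have h2 : ‖sc σ 1 (u : 𝓞 M)‖ = 1 := by
    have := H.normSq_sc 1 (u : 𝓞 M)
    rw [span_singleton_eq_top.2 u.isUnit, normSq_eq_norm_sq] at this
    simp only [absNorm_top, Nat.cast_one, one_eq_top, ne_eq, one_ne_zero, not_false_eq_true,
      div_self] at this
    exact (sq_eq_sq₀ (norm_nonneg _) zero_le_one).1 (by simpa using this)
  simp only [Function.comp, one_mul, norm_ff, h2, I_im, mul_one, one_pow]

end Crest.Agent.T15.Th
end
end

-- ▼ part T15/ThE_59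
section

/-!
# Row 15, block C (helper59): the theta series of a Hecke character is a cusp form of weight 2

`X : HC σ 𝔪` is a Hecke character of type `(1,0)`; `X.theta τ = ∑_I ψ(I) e(N(I) τ)`;
`X.slash` (law under `Γ₀(N)`, `D N(𝔪) ∣ N`, `4 D ∣ N`), `X.cf1 : CuspForm (Gamma1 N) 2`,
`X.cf0 : CuspForm (Gamma0 N) 2` (trivial nebentypus), `X.hasSum_q`, `X.qExpansion_cf`.
-/

set_option autoImplicit false
set_option linter.unusedSectionVars false
set_option maxHeartbeats 400000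

noncomputable section

open Complex Filter Topology NumberField Module Ideal
open scoped Real MatrixGroups ModularForm NumberTheorySymbols nonZeroDivisors

namespace Crest.Agent.T15.Th

/-- holomorphic, cuspidal, with multiplier `κ` on `Γ₀(N)` -/
structure Good (N : ℤ) (κ : ℕ → ℂ) (S : ℂ → ℂ) : Prop where
  diff : DifferentiableOn ℂ S {τ | 0 < τ.im}
  zero : ∀ g : SL(2, ℤ),
    UpperHalfPlane.IsZeroAtImInfty ((fun τ : UpperHalfPlane => S τ) ∣[(2 : ℤ)] g)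
  law : ∀ g : SL(2, ℤ), N ∣ g 1 0 → ∀ n : ℕ, (n : ℤ) ≡ g 1 1 [ZMOD N] → ∀ τ : UpperHalfPlane,
    ((fun τ : UpperHalfPlane => S τ) ∣[(2 : ℤ)] g) τ = κ n * S τ

theorem slash_sum {ι : Type*} (s : Finset ι) (c : ι → ℂ) (S : ι → ℂ → ℂ) (g : SL(2, ℤ))
    (τ : UpperHalfPlane) :
    ((fun τ : UpperHalfPlane => ∑ i ∈ s, c i * S i τ) ∣[(2 : ℤ)] g) τ =
      ∑ i ∈ s, c i * ((fun τ : UpperHalfPlane => S i τ) ∣[(2 : ℤ)] g) τ := by
  simp only [ModularForm.SL_slash_apply, Finset.sum_mul, mul_assoc]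

theorem zero_sum {ι : Type*} (s : Finset ι) (c : ι → ℂ) (S : ι → ℂ → ℂ) (g : SL(2, ℤ))
    (h : ∀ i ∈ s, UpperHalfPlane.IsZeroAtImInfty ((fun τ : UpperHalfPlane => S i τ) ∣[(2 : ℤ)] g)) :
    UpperHalfPlane.IsZeroAtImInfty
      ((fun τ : UpperHalfPlane => ∑ i ∈ s, c i * S i τ) ∣[(2 : ℤ)] g) := by
  rw [funext (slash_sum s c S g)]
  have := tendsto_finsetSum s fun i hi => (h i hi).const_mul (c i)
  simp only [mul_zero, Finset.sum_const_zero] at this
  exact this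

theorem Good.sum {N : ℤ} {κ : ℕ → ℂ} {ι : Type*} (s : Finset ι) (c : ι → ℂ) {S : ι → ℂ → ℂ}
    (h : ∀ i, Good N κ (S i)) : Good N κ fun τ => ∑ i ∈ s, c i * S i τ where
  diff := DifferentiableOn.fun_sum fun i _ => (h i).diff.const_mul _
  zero g := zero_sum s c S g fun i _ => (h i).zero g
  law g hg n hn τ := by
    rw [slash_sum, Finset.mul_sum]
    exact Finset.sum_congr rfl fun i _ => by rw [(h i).law g hg n hn, mul_left_comm]

theorem Good.congr {N : ℤ} {κ : ℕ → ℂ} {S S' : ℂ → ℂ} (h : Good N κ S)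
    (e : ∀ τ : ℂ, 0 < τ.im → S' τ = S τ) : Good N κ S' := by
  have e' : (fun τ : UpperHalfPlane => S' τ) = fun τ : UpperHalfPlane => S τ :=
    funext fun τ => e τ τ.im_pos
  exact ⟨h.diff.congr e, fun g => e' ▸ h.zero g, fun g hg n hn τ => by
    rw [e', h.law g hg n hn, e τ τ.im_pos]⟩

/-- the cusp form on a subgroup on which the function is invariant -/
def Good.cf {N : ℤ} {κ : ℕ → ℂ} {S : ℂ → ℂ} (h : Good N κ S) (Γ : Subgroup SL(2, ℤ))
    [Γ.FiniteIndex] (hΓ : ∀ g ∈ Γ, (fun τ : UpperHalfPlane => S τ) ∣[(2 : ℤ)] g =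
      fun τ : UpperHalfPlane => S τ) : CuspForm (Γ : Subgroup (GL (Fin 2) ℝ)) 2 where
  toFun τ := S τ
  slash_action_eq' := by
    rintro _ ⟨g, hg, rfl⟩
    exact hΓ g hg
  holo' := by
    rw [UpperHalfPlane.mdifferentiable_iff]
    refine h.diff.congr fun z hz => ?_
    simp [UpperHalfPlane.ofComplex_apply_of_im_pos hz]
  zero_at_cusps' hc := by
    rw [Subgroup.IsArithmetic.isCusp_iff_isCusp_SL2Z] at hc
    rw [OnePoint.isZeroAt_iff_forall_SL2Z hc]
    exact fun γ _ => h.zero γ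

variable {M : Type*} [Field M] [NumberField M]

/-- a Hecke character of infinity type `σ` and modulus `𝔪` -/
structure HC (σ : M →+* ℂ) (𝔪 : Ideal (𝓞 M)) where
  ψ : Ideal (𝓞 M) →* ℂ
  ε : (𝓞 M ⧸ 𝔪) →* ℂ
  span : ∀ x : 𝓞 M, ψ (span {x}) = σ x * ε (Ideal.Quotient.mk 𝔪 x)

/-- the level `4 |D| N(𝔪)` -/
def lev (𝔪 : Ideal (𝓞 M)) : ℕ := 4 * (discr M).natAbs * absNorm 𝔪

theorem lev_ne_zero {𝔪 : Ideal (𝓞 M)} (hm : 𝔪 ≠ ⊥) : lev 𝔪 ≠ 0 :=
  mul_ne_zero (mul_ne_zero (by norm_num) (Int.natAbs_ne_zero.2 (discr_ne_zero M)))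
    (absNorm_eq_zero_iff.not.2 hm)

/-- admissible levels: multiples of `D N(𝔪)` and of `4 D` -/
def Lv (𝔪 : Ideal (𝓞 M)) (N : ℕ) : Prop :=
  discr M * absNorm 𝔪 ∣ (N : ℤ) ∧ 4 * discr M ∣ (N : ℤ)

theorem lv_of_dvd {𝔪 : Ideal (𝓞 M)} {N : ℕ} (hN : lev 𝔪 ∣ N) : Lv 𝔪 N := by
  have hNZ : ((4 * |discr M| * absNorm 𝔪 : ℤ)) ∣ (N : ℤ) := by
    have := Int.natCast_dvd_natCast.2 hN
    simpa [lev] using this
  exact ⟨(mul_dvd_mul_right ((self_dvd_abs _).mul_left _) _).trans hNZ,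
    ((mul_dvd_mul_left _ (self_dvd_abs _)).mul_right _).trans hNZ⟩

theorem exists_rep {𝔪 : Ideal (𝓞 M)} (hm : 𝔪 ≠ ⊥) (c : ClassGroup (𝓞 M)) :
    ∃ 𝔞 : (Ideal (𝓞 M))⁰, ClassGroup.mk0 𝔞 = c ∧ 𝔪 ⊔ 𝔞.1 = ⊤ := by
  obtain ⟨⟨J, hJ⟩, hc⟩ := ClassGroup.mk0_surjective c⁻¹
  have hJ0 : J ≠ 0 := mem_nonZeroDivisors_iff_ne_zero.1 hJ
  have key : ∀ a : 𝓞 M, a ≠ 0 → J * 𝔪 ⊔ Ideal.span {a} = J →
      ∃ 𝔞 : (Ideal (𝓞 M))⁰, ClassGroup.mk0 𝔞 = c ∧ 𝔪 ⊔ 𝔞.1 = ⊤ := by
    intro a ha h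
    obtain ⟨𝔞, h𝔞⟩ : J ∣ Ideal.span {a} := dvd_iff_le.2 (le_sup_right.trans h.le)
    have h0 : 𝔞 ≠ 0 := by
      rintro rfl
      exact ha (span_singleton_eq_bot.1 (by simpa using h𝔞))
    refine ⟨⟨𝔞, mem_nonZeroDivisors_iff_ne_zero.2 h0⟩, ?_, ?_⟩
    · have h1 := (ClassGroup.mk0_eq_one_iff (mem_nonZeroDivisors_iff_ne_zero.2
        (mul_ne_zero hJ0 h0))).2 (h𝔞 ▸ ⟨a, rfl⟩)
      have h2 : ClassGroup.mk0 ⟨J, hJ⟩ *
          ClassGroup.mk0 ⟨𝔞, mem_nonZeroDivisors_iff_ne_zero.2 h0⟩ = 1 := by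
        rw [← map_mul]; exact h1
      rw [hc] at h2
      exact (inv_mul_eq_one.1 h2).symm
    · rw [h𝔞, ← Ideal.mul_sup] at h
      exact mul_left_cancel₀ hJ0 (by rw [h, mul_top])
  obtain ⟨a, ha⟩ := IsDedekindDomain.exists_sup_span_eq (I := J * 𝔪) (J := J) Ideal.mul_le_left
    (mul_ne_zero hJ0 hm)
  rcases eq_or_ne a 0 with rfl | h0
  · obtain ⟨b, hb, hb0⟩ := Submodule.exists_mem_ne_zero_of_ne_bot hJ0
    refine key b hb0 ?_
    have : J * 𝔪 = J := by simpa using ha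
    rw [this, sup_eq_left, span_singleton_le_iff_mem]
    exact hb
  · exact key a h0 ha

namespace HC

variable {σ : M →+* ℂ} {𝔪 : Ideal (𝓞 M)} (X : HC σ 𝔪)

theorem ψ_bot : X.ψ ⊥ = 0 := by
  have := X.span 0
  simpa using this

theorem ψ_ne_zero {𝔞 : Ideal (𝓞 M)} (ha : 𝔞 ≠ ⊥) (h : 𝔪 ⊔ 𝔞 = ⊤) : X.ψ 𝔞 ≠ 0 := by
  have : ∃ x ∈ 𝔞, x ≠ 0 ∧ Ideal.Quotient.mk 𝔪 x = 1 := by
    obtain ⟨y, hy, x, hx, hxy⟩ := Submodule.mem_sup.1 ((eq_top_iff_one _).1 h)
    have h1 : Ideal.Quotient.mk 𝔪 x = 1 := by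
      rw [← map_one (Ideal.Quotient.mk 𝔪), ← hxy, map_add, Ideal.Quotient.eq_zero_iff_mem.2 hy,
        zero_add]
    rcases eq_or_ne x 0 with rfl | h0
    · obtain ⟨b, hb, hb0⟩ := Submodule.exists_mem_ne_zero_of_ne_bot ha
      refine ⟨b, hb, hb0, ?_⟩
      rw [map_zero] at h1
      rw [← mul_one (Ideal.Quotient.mk 𝔪 b), ← h1, mul_zero]
    · exact ⟨x, hx, h0, h1⟩
  obtain ⟨x, hx, h0, h1⟩ := this
  obtain ⟨𝔟, h𝔟⟩ : 𝔞 ∣ Ideal.span {x} := dvd_iff_le.2 ((span_singleton_le_iff_mem _).2 hx)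
  have h2 := X.span x
  rw [h1, map_one, mul_one, h𝔟, map_mul] at h2
  refine left_ne_zero_of_mul (b := X.ψ 𝔟) ?_
  rw [h2]
  simpa using h0

/-- the theta series -/
def theta (τ : ℂ) : ℂ := ∑' I : Ideal (𝓞 M), X.ψ I * ee (absNorm I * τ)

/-- the nebentypus -/
def neb (n : ℕ) : ℂ := (J(discr M | n) : ℤ) * X.ε n

open Classical in
theorem exists_S (H : IQ σ) (hm : 𝔪 ≠ ⊥) {N : ℕ} (hN0 : N ≠ 0) (hN : Lv 𝔪 N) {𝔞 : Ideal (𝓞 M)}
    (ha : 𝔞 ≠ ⊥) : ∃ S : ℂ → ℂ, Good N X.neb S ∧ ∀ τ : ℂ, 0 < τ.im →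
      HasSum (fun x : 𝓞 M => (if x ∈ 𝔞 then X.ε (Ideal.Quotient.mk 𝔪 x) else 0) * ff τ (sc σ 𝔞 x))
        (S τ) := by
  obtain ⟨L, e, α, β, γ, he, hF, hD⟩ := H.exists_lt ha hm
  have : Finite (𝓞 M ⧸ 𝔪 * 𝔞) := Ideal.finiteQuotientOfFreeOfNeBot _ (mul_ne_zero hm ha)
  let _ := Fintype.ofFinite (𝓞 M ⧸ 𝔪 * 𝔞)
  set φ : 𝓞 M → ℂ := fun x => if x ∈ 𝔞 then X.ε (Ideal.Quotient.mk 𝔪 x) else 0 with hφdef
  have hφ : ∀ x, ∀ y ∈ 𝔪 * 𝔞, φ (x + y) = φ x := by
    intro x y hy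
    simp only [hφdef, 𝔞.add_mem_iff_left (mul_le_right hy), map_add,
      Ideal.Quotient.eq_zero_iff_mem.2 (mul_le_left hy), add_zero]
  have hDl : ∀ x ∈ 𝔞, L.Dl (sc σ 𝔞 x) := by
    intro x hx y
    have hy : (e y : 𝓞 M) ∈ 𝔞 := mul_le_right (e y).2
    obtain ⟨n1, h1⟩ := H.int_sc ha hx
    obtain ⟨n2, h2⟩ := H.int_sc ha hy
    obtain ⟨n3, h3⟩ := H.int_sc ha (add_mem hx hy)
    rw [sc_add, normSq_add', h1, h2, ← he] at h3
    exact ⟨n3 - n1 - n2, by push_cast; linarith⟩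
  have hT : ∀ (x : 𝓞 M) (τ : ℂ), L.Tz (sc σ 𝔞 (Ideal.Quotient.mk (𝔪 * 𝔞) x).out) τ =
      L.Tz (sc σ 𝔞 x) τ := by
    intro x τ
    have h1 : (Ideal.Quotient.mk (𝔪 * 𝔞) x).out - x ∈ 𝔪 * 𝔞 :=
      Ideal.Quotient.eq.1 (Ideal.Quotient.mk_out _)
    rw [← Lt.Tz_add_l (sc σ 𝔞 x) τ (e.symm ⟨_, h1⟩), he, ← sc_add]
    simp
  let F : Finset (𝓞 M ⧸ 𝔪 * 𝔞) := Finset.univ.filter fun q => q.out ∈ 𝔞
  have hsum : ∀ G : (𝓞 M ⧸ 𝔪 * 𝔞) → ℂ, ∑ q, φ q.out * G q = ∑ q ∈ F, φ q.out * G q := by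
    intro G
    rw [Finset.sum_filter]
    refine Finset.sum_congr rfl fun q _ => ?_
    split_ifs with h
    · rfl
    · simp [hφdef, h]
  have hf0 : (absNorm 𝔪 : ℤ) ≠ 0 := by exact_mod_cast absNorm_eq_zero_iff.not.2 hm
  have hlev : L.Lev N := hF.lev.mul (by
    rw [hD, mul_comm]
    exact hN.1)
  have h4 : 4 * discr M ∣ (N : ℤ) := hN.2
  have hNm : ∀ c : ℤ, (N : ℤ) ∣ c → (c : 𝓞 M) ∈ 𝔪 := by
    intro c hc
    obtain ⟨k, rfl⟩ := ((dvd_mul_left _ _).trans hN.1).trans hc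
    push_cast
    exact mul_mem_right _ _ (absNorm_mem 𝔪)
  refine ⟨fun τ => ∑ q ∈ F, φ q.out * L.Tz (sc σ 𝔞 q.out) τ, ⟨?_, fun g => ?_, ?_⟩, fun τ hτ => ?_⟩
  · refine DifferentiableOn.fun_sum fun q _ => DifferentiableOn.const_mul ?_ _
    rw [funext (Lt.Tz_eq_Z (L := L) (sc σ 𝔞 q.out))]
    exact L.differentiableOn_Z (C := 1) (by simp) _
  · exact zero_sum F _ (fun q τ => L.Tz (sc σ 𝔞 q.out) τ) g fun q hq =>
      Lt.isZero_slash hF.int (hDl _ (Finset.mem_filter.1 hq).2) g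
  · intro g hg n hn τ
    have hdet : g 0 0 * g 1 1 - g 0 1 * g 1 0 = 1 := by
      have := g.det_coe
      rwa [Matrix.det_fin_two] at this
    have hc : ((g 0 1 * g 1 0 : ℤ) : 𝓞 M) ∈ 𝔪 := hNm _ (hg.mul_left _)
    have hn' : (n : 𝓞 M ⧸ 𝔪) = ((g 1 1 : ℤ) : 𝓞 M ⧸ 𝔪) := by
      have := Ideal.Quotient.eq_zero_iff_mem.2 (hNm _ hn.dvd)
      rw [map_intCast] at this
      push_cast at this
      exact (sub_eq_zero.1 this).symm
    have had : ((g 0 0 : ℤ) : 𝓞 M ⧸ 𝔪) * ((g 1 1 : ℤ) : 𝓞 M ⧸ 𝔪) = 1 := by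
      have := Ideal.Quotient.eq_zero_iff_mem.2 hc
      rw [map_intCast] at this
      rw [← Int.cast_mul, eq_add_of_sub_eq hdet, Int.cast_add, this, Int.cast_one, add_zero]
    have hmem : ∀ (a : ℤ), ∀ q ∈ F, (a : 𝓞 M ⧸ 𝔪 * 𝔞) * q ∈ F := by
      intro a q hq
      have h1 : ((a : 𝓞 M ⧸ 𝔪 * 𝔞) * q).out - a * q.out ∈ 𝔪 * 𝔞 :=
        Ideal.Quotient.eq.1 (by simp)
      have h2 := add_mem (mul_le_right h1) (mul_mem_left 𝔞 (a : 𝓞 M) (Finset.mem_filter.1 hq).2)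
      rw [sub_add_cancel] at h2
      exact Finset.mem_filter.2 ⟨Finset.mem_univ _, h2⟩
    have hinv : ∀ q ∈ F, ((g 0 0 : ℤ) : 𝓞 M ⧸ 𝔪 * 𝔞) * ((g 1 1 : ℤ) * q) = q := by
      intro q hq
      have h1 := Ideal.Quotient.eq_zero_iff_mem.2 (mul_mem_mul hc (Finset.mem_filter.1 hq).2)
      rw [map_mul, map_intCast, Ideal.Quotient.mk_out] at h1
      rw [← mul_assoc, ← Int.cast_mul, eq_add_of_sub_eq hdet, Int.cast_add, add_mul, h1,
        Int.cast_one, one_mul, add_zero]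
    rw [slash_sum F _ (fun q τ => L.Tz (sc σ 𝔞 q.out) τ), Finset.mul_sum]
    refine Finset.sum_nbij' (fun q => ((g 0 0 : ℤ) : 𝓞 M ⧸ 𝔪 * 𝔞) * q)
      (fun q => ((g 1 1 : ℤ) : 𝓞 M ⧸ 𝔪 * 𝔞) * q) (hmem _) (hmem _)
      (fun q hq => by rw [mul_left_comm]; exact hinv q hq) hinv fun q hq => ?_
    have hq' := (Finset.mem_filter.1 hq).2
    obtain ⟨m, hm'⟩ := H.int_sc ha hq'
    have e1 : ((g 0 0 : ℤ) : 𝓞 M ⧸ 𝔪 * 𝔞) * q = Ideal.Quotient.mk (𝔪 * 𝔞) (g 0 0 * q.out) := by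
      simp
    have e2 : φ (Ideal.Quotient.mk (𝔪 * 𝔞) (g 0 0 * q.out)).out = φ (g 0 0 * q.out) := by
      have h1 : (Ideal.Quotient.mk (𝔪 * 𝔞) (g 0 0 * q.out)).out - g 0 0 * q.out ∈ 𝔪 * 𝔞 :=
        Ideal.Quotient.eq.1 (Ideal.Quotient.mk_out _)
      rw [← hφ (g 0 0 * q.out) _ h1, add_sub_cancel]
    have e3 : φ q.out = X.ε n * φ (g 0 0 * q.out) := by
      simp only [hφdef, hq', mul_mem_left 𝔞 _ hq', if_true, map_mul (Ideal.Quotient.mk 𝔪),
        map_intCast]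
      rw [← map_mul, hn', ← mul_assoc, mul_comm ((g 1 1 : ℤ) : 𝓞 M ⧸ 𝔪), had, one_mul]
    rw [Lt.law_slash hF (D := discr M) (f := absNorm 𝔪) (by rw [← hD]; ring) (discr_ne_zero M) hf0
      hlev (by exact_mod_cast hN0) h4 (hDl _ hq') hm' g hg hn τ, e1, hT, e2, e3, sc_int, neb]
    ring
  · have := hasSum_cosets he hφ hτ
    rw [hsum] at this
    exact this

open Classical in
theorem hasSum_class (H : IQ σ) {𝔞 : Ideal (𝓞 M)} (ha : 𝔞 ≠ ⊥) {τ S : ℂ}
    (h : HasSum (fun x : 𝓞 M => (if x ∈ 𝔞 then X.ε (Ideal.Quotient.mk 𝔪 x) else 0) *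
      ff τ (sc σ 𝔞 x)) S) :
    HasSum (fun I : Ideal (𝓞 M) => if (𝔞 * I).IsPrincipal then
      (Nat.card (𝓞 M)ˣ * (((√(absNorm 𝔞 : ℝ))⁻¹ : ℝ) * X.ψ 𝔞)) * (X.ψ I * ee (absNorm I * τ))
        else 0) S := by
  have := H.finite_units
  let _ := Fintype.ofFinite (𝓞 M)ˣ
  let P := {I : Ideal (𝓞 M) // I ≠ ⊥ ∧ (𝔞 * I).IsPrincipal}
  have hgen : ∀ I : P, ∃ x : 𝓞 M, Ideal.span {x} = 𝔞 * I.1 := fun I =>
    ⟨_, I.2.2.span_singleton_generator⟩
  choose gen hgen using hgen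
  let g : P × (𝓞 M)ˣ → 𝓞 M := fun p => gen p.1 * p.2
  have hg : ∀ p, Ideal.span {g p} = 𝔞 * p.1.1 := fun p => by
    rw [← hgen, span_singleton_mul_right_unit p.2.isUnit]
  have hg0 : ∀ I : P, gen I ≠ 0 := fun I h0 => mul_ne_zero ha I.2.1 (by rw [← hgen, h0]; simp)
  have hinj : Function.Injective g := by
    rintro ⟨I, u⟩ ⟨I', u'⟩ e
    have h1 : I = I' := Subtype.ext (mul_left_cancel₀ ha (by
      rw [← hg (I, u), ← hg (I', u'), e]))
    subst h1
    exact Prod.ext rfl (Units.ext (mul_left_cancel₀ (hg0 I) e))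
  have h1 := (hinj.hasSum_iff (fun x hx => ?_)).2 h
  · have h2 : HasSum (fun I : P => (Nat.card (𝓞 M)ˣ * (((√(absNorm 𝔞 : ℝ))⁻¹ : ℝ) * X.ψ 𝔞)) *
        (X.ψ I.1 * ee (absNorm I.1 * τ))) S := by
      refine h1.prod_fiberwise fun I => ?_
      convert hasSum_fintype _ using 1
      rw [Finset.sum_congr rfl (g := fun _ => (((√(absNorm 𝔞 : ℝ))⁻¹ : ℝ) * X.ψ 𝔞) *
        (X.ψ I.1 * ee (absNorm I.1 * τ))), Finset.sum_const, Finset.card_univ, nsmul_eq_mul,
        Nat.card_eq_fintype_card, mul_assoc]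
      intro u _
      have hx : g (I, u) ∈ 𝔞 := mul_le_left (hg (I, u) ▸ mem_span_singleton_self _)
      have h3 := X.span (g (I, u))
      have hA : (absNorm 𝔞 : ℝ) ≠ 0 := (absNorm_pos ha).ne'
      rw [hg, map_mul] at h3
      simp only [Function.comp, hx, if_true, ff, H.normSq_sc, hg, map_mul, Nat.cast_mul,
        mul_div_cancel_left₀ _ hA, ofReal_natCast, mul_comm τ]
      rw [sc]
      linear_combination (-(((√(absNorm 𝔞 : ℝ))⁻¹ : ℝ) : ℂ) * ee (absNorm I.1 * τ)) * h3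
    refine (Subtype.val_injective.hasSum_iff (fun I hI => ?_)).1 (h2.congr_fun fun I => ?_)
    · split_ifs with h3
      · by_cases h0 : I = ⊥
        · rw [h0, ψ_bot]; ring
        · exact absurd ⟨⟨I, h0, h3⟩, rfl⟩ hI
      · rfl
    · simp only [Function.comp, I.2.2, if_true]
  · split_ifs with h2
    · rcases eq_or_ne x 0 with rfl | h0
      · simp [sc, ff]
      · obtain ⟨I, hI⟩ : 𝔞 ∣ Ideal.span {x} := dvd_iff_le.2 ((span_singleton_le_iff_mem _).2 h2)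
        have hI0 : I ≠ ⊥ := by
          rintro rfl
          exact h0 (span_singleton_eq_bot.1 (by simpa using hI))
        obtain ⟨u, hu⟩ := span_singleton_eq_span_singleton.1
          ((hgen ⟨I, hI0, hI ▸ ⟨x, rfl⟩⟩).trans hI.symm)
        exact absurd ⟨(⟨I, hI0, hI ▸ ⟨x, rfl⟩⟩, u), hu⟩ hx
    · exact zero_mul _

theorem main (H : IQ σ) (hm : 𝔪 ≠ ⊥) {N : ℕ} (hN0 : N ≠ 0) (hN : Lv 𝔪 N) :
    Good N X.neb X.theta ∧
      ∀ τ : ℂ, 0 < τ.im → Summable fun I : Ideal (𝓞 M) => X.ψ I * ee (absNorm I * τ) := by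
  classical
  choose 𝔞 h𝔞 hcop using exists_rep hm
  have h0 : ∀ c, (𝔞 c).1 ≠ ⊥ := fun c => mem_nonZeroDivisors_iff_ne_zero.1 (𝔞 c).2
  choose S hS hsum using fun c => X.exists_S H hm hN0 hN (h0 c)
  have := H.finite_units
  set w : ClassGroup (𝓞 M) → ℂ := fun c =>
    Nat.card (𝓞 M)ˣ * (((√(absNorm (𝔞 c).1 : ℝ))⁻¹ : ℝ) * X.ψ (𝔞 c).1) with hw
  have hw0 : ∀ c, w c ≠ 0 := fun c =>
    mul_ne_zero (by exact_mod_cast Nat.card_pos.ne') (mul_ne_zero (ofReal_ne_zero.2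
      (inv_ne_zero (Real.sqrt_pos.2 (absNorm_pos (h0 c))).ne')) (X.ψ_ne_zero (h0 c) (hcop c)))
  have key : ∀ τ : ℂ, 0 < τ.im → HasSum (fun I : Ideal (𝓞 M) => X.ψ I * ee (absNorm I * τ))
      (∑ c, (w c)⁻¹ * S c τ) := by
    intro τ hτ
    refine (hasSum_sum fun c _ =>
      (X.hasSum_class H (h0 c) (hsum c τ hτ)).mul_left (w c)⁻¹).congr_fun fun I => ?_
    rcases eq_or_ne I ⊥ with rfl | hI
    · simp [ψ_bot]
    · have hI' := mem_nonZeroDivisors_iff_ne_zero.2 hI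
      have hiff : ∀ c, ((𝔞 c).1 * I).IsPrincipal ↔ c = (ClassGroup.mk0 ⟨I, hI'⟩)⁻¹ := by
        intro c
        rw [← ClassGroup.mk0_eq_one_iff (mul_mem (𝔞 c).2 hI'), eq_inv_iff_mul_eq_one]
        conv_rhs => rw [← h𝔞 c, ← map_mul]
        rfl
      simp only [hiff, mul_ite, mul_zero, Finset.sum_ite_eq', Finset.mem_univ, if_true]
      exact (inv_mul_cancel_left₀ (hw0 _) _).symm
  exact ⟨(Good.sum Finset.univ _ hS).congr fun τ hτ => (key τ hτ).tsum_eq,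
    fun τ hτ => (key τ hτ).summable⟩

/-- **transformation law** under `Γ₀(N)` -/
theorem slash (H : IQ σ) (hm : 𝔪 ≠ ⊥) {N : ℕ} [NeZero N] (hN : Lv 𝔪 N) {g : SL(2, ℤ)}
    (hg : g ∈ CongruenceSubgroup.Gamma0 N) {n : ℕ} (hn : ((g 1 1 : ℤ) : ZMod N) = n) :
    (fun τ : UpperHalfPlane => X.theta τ) ∣[(2 : ℤ)] g =
      X.neb n • fun τ : UpperHalfPlane => X.theta τ := by
  funext τ
  refine (X.main H hm (NeZero.ne N) hN).1.law g ?_ n ?_ τ
  · exact (ZMod.intCast_zmod_eq_zero_iff_dvd _ _).1 (CongruenceSubgroup.Gamma0_mem.1 hg)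
  · rw [← ZMod.intCast_eq_intCast_iff, hn, Int.cast_natCast]



/-- the theta series as a cusp form on `Γ₀(N)` when the nebentypus is trivial -/
def cf0 (H : IQ σ) (hm : 𝔪 ≠ ⊥) (N : ℕ) [NeZero N] (hN : Lv 𝔪 N)
    (hneb : ∀ n : ℕ, n.Coprime N → X.neb n = 1) :
    CuspForm (CongruenceSubgroup.Gamma0 N : Subgroup (GL (Fin 2) ℝ)) 2 :=
  (X.main H hm (NeZero.ne N) hN).1.cf _ fun g hg => by
    have hdet : g 0 0 * g 1 1 - g 0 1 * g 1 0 = 1 := by
      have := g.det_coe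
      rwa [Matrix.det_fin_two] at this
    have hu : IsUnit ((g 1 1 : ℤ) : ZMod N) := by
      refine IsUnit.of_mul_eq_one_right ((g 0 0 : ℤ) : ZMod N) ?_
      rw [← Int.cast_mul, eq_add_of_sub_eq hdet, Int.cast_add, Int.cast_mul,
        CongruenceSubgroup.Gamma0_mem.1 hg, mul_zero, add_zero, Int.cast_one]
    rw [X.slash H hm hN hg (ZMod.natCast_zmod_val _).symm, hneb, one_smul]
    rw [← ZMod.isUnit_iff_coprime, ZMod.natCast_zmod_val]
    exact hu



/-- the coefficients `a n = ∑_{N I = n} ψ I` -/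
def a (n : ℕ) : ℂ := ∑ I ∈ (finite_setOfPred_absNorm_eq (S := 𝓞 M) n).toFinset, X.ψ I

theorem hasSum_q (H : IQ σ) (hm : 𝔪 ≠ ⊥) (τ : UpperHalfPlane) :
    HasSum (fun n : ℕ => X.a n • Function.Periodic.qParam 1 τ ^ n) (X.theta τ) := by
  have h := ((X.main H hm (lev_ne_zero hm) (lv_of_dvd dvd_rfl)).2 τ τ.im_pos).hasSum
  rw [← (Equiv.sigmaFiberEquiv fun I : Ideal (𝓞 M) => absNorm I).hasSum_iff] at h
  refine h.sigma fun n => ?_
  have e : Function.Periodic.qParam 1 τ ^ n = ee (n * τ) := by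
    rw [Function.Periodic.qParam, ee, ← Complex.exp_nat_mul]
    congr 1
    push_cast
    ring
  have : Finite {I : Ideal (𝓞 M) // absNorm I = n} := finite_setOfPred_absNorm_eq (S := 𝓞 M) n
  let _ := Fintype.ofFinite {I : Ideal (𝓞 M) // absNorm I = n}
  convert hasSum_fintype _ using 1
  rw [a, e, smul_eq_mul, Finset.sum_mul, Finset.sum_subtype (p := fun I => absNorm I = n)
    (F := inferInstance) _ (fun I => by simp) (fun I => X.ψ I * ee (n * τ))]
  refine Finset.sum_congr rfl fun I _ => ?_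
  simp [I.2]


end HC

end Crest.Agent.T15.Th
end
end

-- ▼ part T15/ThF_59
section

/-!
# Row 15, block C (helper59): Hecke recursion of the coefficients, decomposition law

`ac ψ n = ∑_{N I = n} ψ I` for `ψ` with values in any commutative ring; `Dec` (the three types of
decomposition), `ac_rec`, `IQ.card_nf`, `HC.rec`.
-/

set_option autoImplicit false
set_option linter.unusedSectionVars false
set_option maxHeartbeats 400000

noncomputable section

open Complex NumberField Module Ideal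
open scoped NumberTheorySymbols

namespace Crest.Agent.T15.Th

variable {M : Type*} [Field M] [NumberField M]

variable (M) in
/-- the ideals of norm `n` -/
def nf (n : ℕ) : Finset (Ideal (𝓞 M)) := (finite_setOfPred_absNorm_eq (S := 𝓞 M) n).toFinset

theorem mem_nf {n : ℕ} {I : Ideal (𝓞 M)} : I ∈ nf M n ↔ absNorm I = n := by simp [nf]

section ac

variable {A B : Type*} [CommRing A] [CommRing B]

/-- the coefficients of the theta series -/
def ac (ψ : Ideal (𝓞 M) →* A) (n : ℕ) : A := ∑ I ∈ nf M n, ψ I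

theorem map_ac (f : A →+* B) (ψ : Ideal (𝓞 M) →* A) (n : ℕ) :
    f (ac ψ n) = ac ((f : A →* B).comp ψ) n := by
  simp [ac]

theorem ac_zero (ψ : Ideal (𝓞 M) →* A) : ac ψ 0 = ψ ⊥ := by
  have : nf M 0 = {⊥} := by ext I; simp [mem_nf, absNorm_eq_zero_iff]
  rw [ac, this, Finset.sum_singleton]

theorem ac_one (ψ : Ideal (𝓞 M) →* A) : ac ψ 1 = 1 := by
  have : nf M 1 = {1} := by ext I; simp [mem_nf, absNorm_eq_one_iff]
  rw [ac, this, Finset.sum_singleton, map_one]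

open Classical in
theorem sum_dvd (ψ : Ideal (𝓞 M) →* A) {J : Ideal (𝓞 M)} (hJ : J ≠ ⊥) (m : ℕ) :
    ∑ I ∈ (nf M m).filter (J ∣ ·), ψ I =
      if absNorm J ∣ m then ψ J * ac ψ (m / absNorm J) else 0 := by
  have hN : 0 < absNorm J := Nat.pos_of_ne_zero (absNorm_eq_zero_iff.not.2 hJ)
  split_ifs with h
  · obtain ⟨n, rfl⟩ := h
    rw [Nat.mul_div_cancel_left _ hN, ac, Finset.mul_sum]
    refine (Finset.sum_bij (fun I _ => J * I) (fun I hI => ?_) (fun I _ I' _ e => ?_)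
      (fun I hI => ?_) (fun I _ => (map_mul ψ _ _).symm)).symm
    · rw [Finset.mem_filter, mem_nf, map_mul, mem_nf.1 hI]
      exact ⟨rfl, dvd_mul_right _ _⟩
    · exact mul_left_cancel₀ hJ e
    · obtain ⟨h1, I', rfl⟩ := Finset.mem_filter.1 hI
      rw [mem_nf, map_mul] at h1
      exact ⟨I', mem_nf.2 (Nat.eq_of_mul_eq_mul_left hN h1), rfl⟩
  · refine Finset.sum_eq_zero fun I hI => absurd ?_ h
    obtain ⟨h1, h2⟩ := Finset.mem_filter.1 hI
    exact mem_nf.1 h1 ▸ map_dvd absNorm h2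

end ac

theorem absNorm_nat (h2 : finrank ℚ M = 2) (n : ℕ) : absNorm (span {(n : 𝓞 M)}) = n ^ 2 := by
  rw [absNorm_span_natCast, RingOfIntegers.rank, h2]

theorem max_of_norm {l : ℕ} (hl : l.Prime) {P : Ideal (𝓞 M)} (hP : absNorm P = l) : P.IsMaximal :=
  (isPrime_of_irreducible_absNorm (hP ▸ hl)).isMaximal
    (absNorm_eq_zero_iff.not.1 (hP ▸ hl.ne_zero))

theorem exists_max {l : ℕ} (hl : l.Prime) {I : Ideal (𝓞 M)} (h : l ∣ absNorm I) :
    ∃ P : Ideal (𝓞 M), P.IsMaximal ∧ (l : 𝓞 M) ∈ P ∧ P ∣ I := by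
  obtain ⟨P, h1, h2, h3⟩ := exists_isMaximal_dvd_of_dvd_absNorm' hl I h
  refine ⟨P, h1, ?_, h3⟩
  have : (l : ℤ) ∈ P.under ℤ := h2 ▸ mem_span_singleton_self _
  simpa [Ideal.mem_comap] using this

/-- decomposition of a prime in a quadratic field -/
theorem decomp (h2 : finrank ℚ M = 2) {l : ℕ} (hl : l.Prime) :
    (nf M l = ∅ ∧ (span {(l : 𝓞 M)}).IsMaximal) ∨
    ∃ P Q : Ideal (𝓞 M), absNorm P = l ∧ absNorm Q = l ∧ span {(l : 𝓞 M)} = P * Q ∧
      ∀ R : Ideal (𝓞 M), R.IsMaximal → (l : 𝓞 M) ∈ R → R = P ∨ R = Q := by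
  rcases (nf M l).eq_empty_or_nonempty with h | ⟨P, hP⟩
  · refine Or.inl ⟨h, ?_⟩
    obtain ⟨P, h1, -, Q, h3⟩ := exists_max hl (I := span {(l : 𝓞 M)})
      (by rw [absNorm_nat h2]; exact dvd_pow_self _ two_ne_zero)
    have h4 := congrArg absNorm h3
    rw [absNorm_nat h2, map_mul] at h4
    obtain ⟨i, hi, h5⟩ := (Nat.dvd_prime_pow hl).1 (Dvd.intro _ h4.symm)
    interval_cases i
    · exact absurd (absNorm_eq_one_iff.1 h5) h1.ne_top
    · have := mem_nf.2 (h5.trans (pow_one l))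
      rw [h] at this
      exact absurd this (Finset.notMem_empty _)
    · rw [h5] at h4
      have h6 : absNorm Q = 1 :=
        (Nat.eq_of_mul_eq_mul_left (pow_pos hl.pos 2) ((mul_one _).trans h4)).symm
      rw [h3, absNorm_eq_one_iff.1 h6, mul_top]
      exact h1
  · rw [mem_nf] at hP
    obtain ⟨Q, hQ⟩ : P ∣ span {(l : 𝓞 M)} :=
      dvd_iff_le.2 ((span_singleton_le_iff_mem _).2 (hP ▸ absNorm_mem P))
    have h4 := congrArg absNorm hQ
    rw [absNorm_nat h2, map_mul, hP, sq] at h4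
    have hQ' : absNorm Q = l := (Nat.eq_of_mul_eq_mul_left hl.pos h4).symm
    refine Or.inr ⟨P, Q, hP, hQ', hQ, fun R hR hl' => ?_⟩
    have h5 : P * Q ≤ R := hQ ▸ (span_singleton_le_iff_mem _).2 hl'
    rcases hR.isPrime.mul_le.1 h5 with h6 | h6
    · exact Or.inl ((max_of_norm hl hP).eq_of_le hR.ne_top h6).symm
    · exact Or.inr ((max_of_norm hl hQ').eq_of_le hR.ne_top h6).symm

open Classical in
theorem nf_eq {l : ℕ} (hl : l.Prime) {P Q : Ideal (𝓞 M)} (hP : absNorm P = l) (hQ : absNorm Q = l)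
    (h : ∀ R : Ideal (𝓞 M), R.IsMaximal → (l : 𝓞 M) ∈ R → R = P ∨ R = Q) : nf M l = {P, Q} := by
  ext R
  rw [mem_nf, Finset.mem_insert, Finset.mem_singleton]
  refine ⟨fun hR => h R (max_of_norm hl hR) (hR ▸ absNorm_mem R), ?_⟩
  rintro (rfl | rfl) <;> assumption

/-- **Hecke recursion** -/
theorem ac_rec {A : Type*} [CommRing A] (h2 : finrank ℚ M = 2) (ψ : Ideal (𝓞 M) →* A) {l : ℕ}
    (hl : l.Prime) (n : ℕ) :
    ac ψ (l * n) + (if l ∣ n then (((nf M l).card : A) - 1) * ψ (span {(l : 𝓞 M)}) * ac ψ (n / l)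
      else 0) = ac ψ l * ac ψ n := by
  classical
  have hl0 : span {(l : 𝓞 M)} ≠ ⊥ :=
    absNorm_eq_zero_iff.not.1 (by rw [absNorm_nat h2]; exact pow_ne_zero _ hl.ne_zero)
  have hsq := sum_dvd ψ hl0 (l * n)
  simp only [absNorm_nat h2, sq, Nat.mul_dvd_mul_iff_left hl.pos,
    Nat.mul_div_mul_left _ _ hl.pos] at hsq
  have hex : ∀ I ∈ nf M (l * n), ∃ P : Ideal (𝓞 M), P.IsMaximal ∧ (l : 𝓞 M) ∈ P ∧ P ∣ I :=
    fun I hI => exists_max hl (mem_nf.1 hI ▸ dvd_mul_right _ _)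
  rcases decomp h2 hl with ⟨h, hmax⟩ | ⟨P, Q, hP, hQ, hPQ, h⟩
  · rw [Finset.filter_true_of_mem fun I hI => by
      obtain ⟨P, h1, h3, h4⟩ := hex I hI
      rwa [hmax.eq_of_le h1.ne_top ((span_singleton_le_iff_mem _).2 h3)]] at hsq
    rw [ac, hsq, ac.eq_1 ψ l, h]
    split_ifs <;> simp
  · have hP0 : P ≠ ⊥ := absNorm_eq_zero_iff.not.1 (hP ▸ hl.ne_zero)
    have hQ0 : Q ≠ ⊥ := absNorm_eq_zero_iff.not.1 (hQ ▸ hl.ne_zero)
    have h1 := sum_dvd ψ hP0 (l * n)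
    have h3 := sum_dvd ψ hQ0 (l * n)
    rw [hP, if_pos (dvd_mul_right _ _), Nat.mul_div_cancel_left _ hl.pos] at h1
    rw [hQ, if_pos (dvd_mul_right _ _), Nat.mul_div_cancel_left _ hl.pos] at h3
    have hU : (nf M (l * n)).filter (P ∣ ·) ∪ (nf M (l * n)).filter (Q ∣ ·) = nf M (l * n) := by
      rw [← Finset.filter_or]
      refine Finset.filter_true_of_mem fun I hI => ?_
      obtain ⟨R, h4, h5, h6⟩ := hex I hI
      rcases h R h4 h5 with rfl | rfl
      · exact Or.inl h6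
      · exact Or.inr h6
    rw [ac.eq_1 ψ l, nf_eq hl hP hQ h]
    rcases eq_or_ne P Q with rfl | hne
    · rw [Finset.union_self] at hU
      rw [hU] at h1
      rw [ac, h1]
      simp
    · have hI : (nf M (l * n)).filter (P ∣ ·) ∩ (nf M (l * n)).filter (Q ∣ ·) =
          (nf M (l * n)).filter (span {(l : 𝓞 M)} ∣ ·) := by
        rw [← Finset.filter_and]
        refine Finset.filter_congr fun I _ => ?_
        have := max_of_norm hl hP
        have := max_of_norm hl hQ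
        rw [hPQ]
        exact ⟨fun h => (isCoprime_of_isMaximal hne).mul_dvd h.1 h.2,
          fun h => ⟨(dvd_mul_right _ _).trans h, (dvd_mul_left _ _).trans h⟩⟩
      have h4 := Finset.sum_union_inter (s₁ := (nf M (l * n)).filter (P ∣ ·))
        (s₂ := (nf M (l * n)).filter (Q ∣ ·)) (f := fun I => ψ I)
      rw [hU, hI, hsq, h1, h3] at h4
      rw [Finset.card_pair hne, Finset.sum_pair hne, add_mul, ← h4, ac]
      split_ifs
      · norm_num
      · rfl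

variable {σ : M →+* ℂ}

/-- an integral basis `1, θ` -/
theorem IQ.exists_theta (H : IQ σ) : ∃ (θ : 𝓞 M) (t n : ℤ), θ ^ 2 = t * θ - n ∧
    t ^ 2 - 4 * n = discr M ∧ (∀ x : 𝓞 M, ∃ a b : ℤ, x = a + b * θ) ∧
    ∀ a b : ℤ, (a : 𝓞 M) + b * θ = 0 → a = 0 ∧ b = 0 := by
  let b : Basis (Fin 2) ℤ (𝓞 M) := finBasisOfFinrankEq ℤ (𝓞 M) H.rank
  have e : ∀ x : 𝓞 M, ∃ u v : ℤ, x = u * b 0 + v * b 1 := fun x =>
    ⟨b.repr x 0, b.repr x 1, by
      conv_lhs => rw [← b.sum_repr x]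
      simp [Fin.sum_univ_two]⟩
  obtain ⟨u, v, huv⟩ := e 1
  have hcop : IsCoprime u v := by
    rw [Int.isCoprime_iff_gcd_eq_one]
    obtain ⟨u', hu'⟩ := Int.gcd_dvd_left u v
    obtain ⟨v', hv'⟩ := Int.gcd_dvd_right u v
    generalize Int.gcd u v = g at hu' hv'
    have h1 : (1 : 𝓞 M) ∈ span {(g : 𝓞 M)} := mem_span_singleton'.2
      ⟨u' * b 0 + v' * b 1, by rw [huv, hu', hv']; push_cast; ring⟩
    have h3 := absNorm_nat H.two g
    rw [(eq_top_iff_one _).2 h1, absNorm_top] at h3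
    exact (Nat.pow_eq_one.1 h3.symm).resolve_right two_ne_zero
  obtain ⟨r, s, hrs⟩ := hcop
  have hrs' : (r : 𝓞 M) * u + s * v = 1 := by exact_mod_cast congrArg (Int.cast : ℤ → 𝓞 M) hrs
  set θ : 𝓞 M := -s * b 0 + r * b 1 with hθ
  have hb0 : b 0 = r - v * θ := by
    rw [hθ]; linear_combination (-b 0) * hrs' - r * huv
  have hb1 : b 1 = s + u * θ := by
    rw [hθ]; linear_combination (-b 1) * hrs' - s * huv
  have e' : ∀ x : 𝓞 M, ∃ a b : ℤ, x = a + b * θ := by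
    intro x
    obtain ⟨p, q, rfl⟩ := e x
    exact ⟨p * r + q * s, q * u - p * v, by rw [hb0, hb1]; push_cast; ring⟩
  obtain ⟨n, t, hn⟩ := e' (θ ^ 2)
  have hD := H.discr_eq b
  have hrsR : (r : ℝ) * u + s * v = 1 := by exact_mod_cast hrs
  have hD2 : (discr M : ℝ) = -4 * (σ θ).im ^ 2 := by
    rw [hD, hb0, hb1]
    simp only [dl, RingOfIntegers.coe_eq_algebraMap, map_sub, map_add, map_mul, map_intCast,
      sub_re, add_re, mul_re, intCast_re, intCast_im, sub_im, add_im, mul_im]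
    congr 2
    linear_combination (σ (algebraMap (𝓞 M) M θ)).im * hrsR
  have him : (σ θ).im ≠ 0 := by
    intro h0
    rw [h0] at hD2
    have h1 : (discr M : ℝ) = 0 := by rw [hD2]; ring
    exact discr_ne_zero M (by exact_mod_cast h1)
  refine ⟨θ, t, -n, by rw [hn]; push_cast; ring, ?_, e', fun a c h => ?_⟩
  · have h1 := congrArg (fun x : 𝓞 M => σ x) hn
    simp only [RingOfIntegers.coe_eq_algebraMap, map_pow, map_add, map_mul, map_intCast] at h1 hD2 him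
    generalize σ (algebraMap (𝓞 M) M θ) = z at h1 hD2 him
    have h3 := congrArg re h1
    have h4 := congrArg im h1
    simp only [sq, mul_re, add_re, intCast_re, intCast_im, mul_im, add_im] at h3 h4
    have h5 : (t : ℝ) = 2 * z.re := mul_right_cancel₀ him (by linarith)
    have : ((t : ℝ) ^ 2 - 4 * (-n)) = discr M := by
      rw [hD2]; rw [h5] at h3 ⊢; linarith
    exact_mod_cast this
  · have h1 := congrArg (fun x : 𝓞 M => σ x) h
    simp only [RingOfIntegers.coe_eq_algebraMap, map_add, map_mul, map_intCast, map_zero] at h1 him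
    have h4 := congrArg im h1
    simp only [add_im, intCast_im, mul_im, intCast_re, zero_mul, add_zero, zero_add, zero_im,
      mul_eq_zero, him, or_false, Int.cast_eq_zero] at h4
    subst h4
    exact ⟨by simpa using h1, rfl⟩

theorem exists_int {l : ℕ} (hl : l.Prime) {P : Ideal (𝓞 M)} (hP : absNorm P = l) (x : 𝓞 M) :
    ∃ r : ℤ, x - r ∈ P := by
  have : Finite (𝓞 M ⧸ P) := (absNorm_ne_zero_iff P).1 (hP ▸ hl.ne_zero)
  let _ := Fintype.ofFinite (𝓞 M ⧸ P)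
  have : NeZero l := ⟨hl.ne_zero⟩
  let e := ZMod.ringEquivOfPrime (𝓞 M ⧸ P) hl (by
    rw [← hP, absNorm_apply, Submodule.cardQuot_apply, Nat.card_eq_fintype_card])
  obtain ⟨k, hk⟩ := e.surjective (Ideal.Quotient.mk P x)
  obtain ⟨r, rfl⟩ := ZMod.intCast_surjective k
  exact ⟨r, Ideal.Quotient.eq.1 (by rw [← hk, map_intCast, map_intCast])⟩

theorem int_mem {l : ℕ} (hl : l.Prime) {P : Ideal (𝓞 M)} (hP : P ≠ ⊤) (h : (l : 𝓞 M) ∈ P) {r : ℤ}
    (hr : (r : 𝓞 M) ∈ P) : (l : ℤ) ∣ r := by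
  by_contra hn
  obtain ⟨a, b, hab⟩ := (Nat.prime_iff_prime_int.1 hl).irreducible.coprime_iff_not_dvd.2 hn
  refine hP ((eq_top_iff_one _).2 ?_)
  have : (1 : 𝓞 M) = a * l + b * r := by exact_mod_cast congrArg (Int.cast : ℤ → 𝓞 M) hab.symm
  rw [this]
  exact add_mem (mul_mem_left _ _ h) (mul_mem_left _ _ hr)

/-- **decomposition law** -/
theorem IQ.card_nf (H : IQ σ) {l : ℕ} (hl : l.Prime) (hl2 : l ≠ 2) :
    ((nf M l).card : ℤ) = 1 + J(discr M | l) := by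
  classical
  have := Fact.mk hl
  obtain ⟨θ, t, n, hθ, hD, hgen, huniq⟩ := H.exists_theta
  have hspan : ∀ a b : ℤ, (a : 𝓞 M) + b * θ ∈ span {(l : 𝓞 M)} → (l : ℤ) ∣ a ∧ (l : ℤ) ∣ b := by
    intro a b h
    obtain ⟨y, hy⟩ := mem_span_singleton'.1 h
    obtain ⟨c, d, rfl⟩ := hgen y
    obtain ⟨h1, h2⟩ := huniq (a - l * c) (b - l * d) (by push_cast; linear_combination -hy)
    exact ⟨⟨c, by linarith⟩, ⟨d, by linarith⟩⟩
  have hl2' : ¬ (l : ℤ) ∣ 2 := fun h =>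
    hl2 ((Nat.prime_dvd_prime_iff_eq hl Nat.prime_two).1 (by exact_mod_cast h))
  have hδ : ((-t : ℤ) + (2 : ℤ) * θ : 𝓞 M) ^ 2 = (discr M : ℤ) := by
    rw [← hD]; push_cast; linear_combination 4 * hθ
  rw [← jacobiSym.legendreSym.to_jacobiSym]
  rcases decomp H.two hl with ⟨h, hmax⟩ | ⟨P, Q, hP, hQ, hPQ, h⟩
  · have : legendreSym l (discr M) = -1 := by
      rw [legendreSym.eq_neg_one_iff]
      rintro ⟨r, hr⟩
      obtain ⟨r, rfl⟩ := ZMod.intCast_surjective r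
      rw [← Int.cast_mul, ZMod.intCast_eq_intCast_iff_dvd_sub] at hr
      obtain ⟨k, hk⟩ := hr
      have h1 : (((-t - r : ℤ) : 𝓞 M) + (2 : ℤ) * θ) * (((-t + r : ℤ) : 𝓞 M) + (2 : ℤ) * θ) ∈
          span {(l : 𝓞 M)} := by
        refine mem_span_singleton'.2 ⟨-k, ?_⟩
        have hk' : (r : 𝓞 M) * r - (discr M : ℤ) = l * k := by
          exact_mod_cast congrArg (Int.cast : ℤ → 𝓞 M) hk
        push_cast at hδ hk' ⊢
        linear_combination hk' - hδ
      rcases hmax.isPrime.mem_or_mem h1 with h2 | h2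
      · exact hl2' (hspan _ _ h2).2
      · exact hl2' (hspan _ _ h2).2
    rw [h, this]
    rfl
  · have hPm := max_of_norm hl hP
    have hQm := max_of_norm hl hQ
    obtain ⟨r, hr⟩ := exists_int hl hP θ
    rw [nf_eq hl hP hQ h]
    rcases eq_or_ne P Q with rfl | hne
    · have h1 : (θ - r) * (θ - r) ∈ span {(l : 𝓞 M)} := hPQ ▸ mul_mem_mul hr hr
      have h2 : (θ - r) * (θ - r) = ((r ^ 2 - n : ℤ) : 𝓞 M) + (t - 2 * r : ℤ) * θ := by
        push_cast; linear_combination hθ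
      obtain ⟨h3, h4⟩ := hspan _ _ (h2 ▸ h1)
      have h5 : (l : ℤ) ∣ discr M := by
        rw [← hD, show t ^ 2 - 4 * n = (t - 2 * r) * (t + 2 * r) + 4 * (r ^ 2 - n) by ring]
        exact (h4.mul_right _).add (h3.mul_left _)
      rw [(legendreSym.eq_zero_iff l _).2 ((ZMod.intCast_zmod_eq_zero_iff_dvd _ _).2 h5)]
      simp
    · have hlP : (l : 𝓞 M) ∈ P := hP ▸ absNorm_mem P
      have hlQ : (l : 𝓞 M) ∈ Q := hQ ▸ absNorm_mem Q
      have h0 : ((discr M : ℤ) : ZMod l) ≠ 0 := by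
        rw [Ne, ZMod.intCast_zmod_eq_zero_iff_dvd]
        rintro ⟨k, hk⟩
        have h1 : ((-t : ℤ) + (2 : ℤ) * θ : 𝓞 M) ^ 2 = l * k := by rw [hδ, hk]; push_cast; rfl
        have h2 := hPm.isPrime.mem_of_pow_mem 2 (h1 ▸ mul_mem_right _ _ hlP)
        have h3 := hQm.isPrime.mem_of_pow_mem 2 (h1 ▸ mul_mem_right _ _ hlQ)
        have h4 : ((-t : ℤ) + (2 : ℤ) * θ : 𝓞 M) ∈ span {(l : 𝓞 M)} := by
          rw [hPQ, mul_eq_inf_of_isCoprime (isCoprime_of_isMaximal hne)]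
          exact ⟨h2, h3⟩
        exact hl2' (hspan _ _ h4).2
      have h1 : legendreSym l (discr M) = 1 := by
        rw [legendreSym.eq_one_iff l h0]
        refine ⟨((2 * r - t : ℤ) : ZMod l), ?_⟩
        rw [← Int.cast_mul, ZMod.intCast_eq_intCast_iff_dvd_sub]
        refine int_mem hl hPm.ne_top hlP ?_
        have : (((2 * r - t) * (2 * r - t) - discr M : ℤ) : 𝓞 M) =
            (θ - r) * (4 * (t - θ - r)) := by
          push_cast at hδ ⊢
          linear_combination hδ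
        rw [this]
        exact mul_mem_right _ _ hr
      rw [Finset.card_pair hne, h1]
      rfl

/-- Hecke recursion with the Jacobi symbol -/
theorem IQ.ac_rec (H : IQ σ) {A : Type*} [CommRing A] (ψ : Ideal (𝓞 M) →* A) {l : ℕ}
    (hl : l.Prime) (hl2 : l ≠ 2) (n : ℕ) :
    ac ψ (l * n) + (if l ∣ n then (J(discr M | l) : ℤ) * ψ (span {(l : 𝓞 M)}) * ac ψ (n / l)
      else 0) = ac ψ l * ac ψ n := by
  have h : ((nf M l).card : A) - 1 = (J(discr M | l) : ℤ) := by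
    have := congrArg (Int.cast : ℤ → A) (H.card_nf hl hl2)
    push_cast at this
    rw [this]; ring
  rw [← h]
  exact Th.ac_rec H.two ψ hl n

namespace HC

variable {𝔪 : Ideal (𝓞 M)} (X : HC σ 𝔪)

theorem a_eq (n : ℕ) : X.a n = ac X.ψ n := rfl

theorem a_zero : X.a 0 = 0 := by rw [a_eq, ac_zero, ψ_bot]

theorem a_one : X.a 1 = 1 := ac_one _

theorem a_rec (H : IQ σ) {l : ℕ} (hl : l.Prime) (hl2 : l ≠ 2) (n : ℕ) :
    X.a (l * n) + (if l ∣ n then X.neb l * l * X.a (n / l) else 0) = X.a l * X.a n := by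
  have h := H.ac_rec X.ψ hl hl2 n
  rw [X.span] at h
  simp only [map_natCast] at h
  simp only [a_eq, neb, ← h]
  split_ifs <;> ring

end HC

end Crest.Agent.T15.Th
end
end

-- ▼ part T15/ThG_59
section

/-!
# Row 15, block C (helper59): the leaf `ThStmt` (theta series of `ℚ(i)`)
-/

set_option autoImplicit false
set_option maxHeartbeats 400000

noncomputable section

open Complex NumberField Module Ideal
open scoped NumberTheorySymbols nonZeroDivisors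

namespace Crest.Agent.T15.Th

open Crest.Agent.T15.C

/-- coordinates of a Gaussian integer -/
def ziE : Zi ≃ₗ[ℤ] (Fin 2 → ℤ) where
  toFun x := ![x.re, x.im]
  invFun v := ⟨v 0, v 1⟩
  map_add' x y := by funext i; fin_cases i <;> simp
  map_smul' c x := by funext i; fin_cases i <;> simp
  left_inv x := rfl
  right_inv v := by funext i; fin_cases i <;> rfl

theorem exists_field : ∃ (K : Type) (_ : Field K) (_ : NumberField K) (σ : K →+* ℂ)
    (e : Zi ≃+* 𝓞 K), IQ σ ∧ (∀ x, σ (e x) = GaussianInt.toComplex x) ∧ discr K = -4 := by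
  have : Module.Finite ℤ Zi := Module.Finite.equiv ziE.symm
  let K := FractionRing Zi
  let : Algebra ℤ K := Ring.toIntAlgebra K
  have : CharZero K := charZero_of_injective_algebraMap (IsFractionRing.injective Zi K)
  have : IsScalarTower ℤ ℚ K := IsScalarTower.of_algebraMap_eq' (RingHom.ext_int _ _)
  have : NumberField K := { to_finiteDimensional := Module.Finite.of_isLocalization ℤ Zi ℤ⁰ }
  let e : Zi ≃+* 𝓞 K := (RingOfIntegers.equiv Zi).symm
  have he : ∀ x, ((e x : 𝓞 K) : K) = algebraMap Zi K x := fun x =>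
    IsIntegralClosure.algebraMap_equiv ℤ Zi K (𝓞 K) x
  let σ : K →+* ℂ := IsFractionRing.lift GaussianInt.toComplex_injective
  have hσ : ∀ x, σ (e x) = GaussianInt.toComplex x := fun x => by
    rw [he]; exact IsFractionRing.lift_algebraMap _ x
  let b : Basis (Fin 2) ℤ (𝓞 K) := Basis.ofEquivFun (e.symm.toAddEquiv.toIntLinearEquiv.trans ziE)
  have H : IQ σ := by
    refine ⟨by rw [← RingOfIntegers.rank, finrank_eq_card_basis b]; simp, fun h => ?_⟩
    have h1 := congrArg (fun f : K →+* ℂ => (f (e ii)).im) h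
    simp only [ComplexEmbedding.conjugate_coe_eq, conj_im, hσ] at h1
    have h2 : (GaussianInt.toComplex ii).im = 1 := by simp [GaussianInt.toComplex_def]
    rw [h2] at h1
    norm_num at h1
  refine ⟨K, inferInstance, inferInstance, σ, e, H, hσ, ?_⟩
  have hb0 : b 0 = e 1 := by
    rw [Basis.coe_ofEquivFun]; rfl
  have hb1 : b 1 = e ii := by
    rw [Basis.coe_ofEquivFun]; rfl
  have h := H.discr_eq b
  rw [hb0, hb1, hσ, hσ] at h
  have h3 : Th.dl (GaussianInt.toComplex 1) (GaussianInt.toComplex ii) = 1 := by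
    simp [Th.dl, GaussianInt.toComplex_def]
  rw [h3] at h
  exact_mod_cast h.trans (by norm_num : (-4 * 1 ^ 2 : ℝ) = ((-4 : ℤ) : ℝ))

theorem unit_eq {x : Zi} (h : IsUnit x) : ∃ k : ℕ, x = ii ^ k := by
  have h1 := (Zsqrtd.norm_eq_one_iff' (by norm_num) x).2 h
  obtain ⟨a, b⟩ := x
  rw [Zsqrtd.norm_def] at h1
  simp only at h1
  have ha : a ≤ 1 := by nlinarith [mul_self_nonneg b]
  have ha' : -1 ≤ a := by nlinarith [mul_self_nonneg b]
  have hb : b ≤ 1 := by nlinarith [mul_self_nonneg a]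
  have hb' : -1 ≤ b := by nlinarith [mul_self_nonneg a]
  interval_cases a <;> interval_cases b <;> first
    | omega
    | exact ⟨0, by decide⟩
    | exact ⟨1, by decide⟩
    | exact ⟨2, by decide⟩
    | exact ⟨3, by decide⟩

variable {m : ℕ} {ε : Zi → Zi}

theorem psi_assoc (h : Eps m ε) {x y : Zi} (hxy : Associated x y) : x * ε x = y * ε y := by
  obtain ⟨u, rfl⟩ := hxy
  obtain ⟨k, hk⟩ := unit_eq u.isUnit
  rw [hk]
  clear hk
  induction k with
  | zero => simp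
  | succ k ih =>
    rw [pow_succ, ← mul_assoc, h.mul, ih]
    linear_combination (-(x * ii ^ k * ε (x * ii ^ k))) * h.ei

theorem eps_zero (h : Eps m ε) {x : Zi} (hx : ¬ x.norm.natAbs.Coprime m) : ε x = 0 := by
  refine h.zero x fun hc => hx ?_
  have h1 : IsCoprime (star x) (m : Zi) := by
    obtain ⟨u, v, huv⟩ := hc
    exact ⟨star u, star v, by
      have := congrArg star huv
      simpa [mul_comm] using this⟩
  obtain ⟨u, v, huv⟩ := hc.mul_left h1
  rw [← Zsqrtd.norm_eq_mul_conj] at huv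
  have h2 := congrArg Zsqrtd.re huv
  rw [← Nat.isCoprime_iff_coprime, GaussianInt.natCast_natAbs_norm]
  exact ⟨u.re, v.re, by simpa using h2⟩

theorem thStmt : ThStmt := by
  classical
  intro m ε h
  obtain ⟨K, _, _, σ, e, H, hσ, hD⟩ := exists_field
  have hgen : ∀ I : Ideal (𝓞 K), ∃ x : Zi, span {e x} = I := by
    intro I
    obtain ⟨x, hx⟩ := (IsPrincipalIdealRing.principal (I.comap e)).principal
    refine ⟨x, ?_⟩
    rw [← Set.image_singleton, ← map_span, ← map_comap_of_surjective e e.surjective I, hx]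
  choose gen hgen using hgen
  have hass : ∀ x y : Zi, span {e x} = span {e y} → Associated x y := fun x y hxy => by
    simpa using (span_singleton_eq_span_singleton.1 hxy).map e.symm
  have hg : ∀ x : Zi, gen (span {e x}) * ε (gen (span {e x})) = x * ε x := fun x =>
    psi_assoc h (hass _ _ (hgen _))
  let ψ : Ideal (𝓞 K) →* Zi :=
    { toFun I := gen I * ε (gen I)
      map_one' := by
        rw [one_eq_top, ← span_singleton_one, ← map_one e, hg, h.one, mul_one]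
      map_mul' I J := by
        conv_lhs => rw [← hgen I, ← hgen J, span_singleton_mul_span_singleton, ← map_mul, hg, h.mul]
        ring }
  have hψ : ∀ x : Zi, ψ (span {e x}) = x * ε x := hg
  have hN : ∀ x : Zi, absNorm (span {e x}) = x.norm.natAbs := by
    intro x
    have := H.norm (e x)
    rw [hσ, ← GaussianInt.intCast_real_norm, ← GaussianInt.natCast_natAbs_norm] at this
    exact_mod_cast this
  have hper : ∀ x : Zi, ε (e.symm (Ideal.Quotient.mk (span {(m : 𝓞 K)}) (e x)).out) = ε x := by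
    intro x
    obtain ⟨y, hy⟩ := mem_span_singleton'.1 (Ideal.Quotient.eq.1
      (Ideal.Quotient.mk_out (Ideal.Quotient.mk (span {(m : 𝓞 K)}) (e x))))
    rw [← h.per x (e.symm y), eq_add_of_sub_eq hy.symm]
    congr 1
    simp [add_comm, mul_comm]
  let X : HC σ (span {(m : 𝓞 K)}) :=
    { ψ := (GaussianInt.toComplex : Zi →* ℂ).comp ψ
      ε :=
        { toFun q := GaussianInt.toComplex (ε (e.symm q.out))
          map_one' := by rw [← map_one (Ideal.Quotient.mk _), ← map_one e, hper, h.one, map_one]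
          map_mul' p q := by
            obtain ⟨p, rfl⟩ := Ideal.Quotient.mk_surjective p
            obtain ⟨q, rfl⟩ := Ideal.Quotient.mk_surjective q
            obtain ⟨p, rfl⟩ := e.surjective p
            obtain ⟨q, rfl⟩ := e.surjective q
            rw [← map_mul, ← map_mul, hper, hper, hper, h.mul, map_mul] }
      span x := by
        obtain ⟨x, rfl⟩ := e.surjective x
        simp only [MonoidHom.coe_comp, Function.comp, MonoidHom.coe_coe, hψ, MonoidHom.coe_mk,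
          OneHom.coe_mk, hper, hσ, map_mul] }
  have hXa : ∀ n, X.a n = GaussianInt.toComplex (ac ψ n) := fun n => (map_ac _ _ n).symm
  have hstar : ∀ n, star (ac ψ n) = ac ψ n := by
    intro n
    have hc : ∀ I, span {e (star (gen (span {e (star (gen I))})))} = I := by
      intro I
      conv_rhs => rw [← hgen I]
      obtain ⟨u, hu⟩ := hass _ _ (hgen (span {e (star (gen I))}))
      have h1 : star (gen (span {e (star (gen I))})) * star (u : Zi) = gen I := by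
        rw [← star_mul', hu, star_star]
      conv_rhs => rw [← h1, map_mul]
      exact (span_singleton_mul_right_unit (u.isUnit.star.map e) _).symm
    have hm : ∀ I ∈ nf K n, span {e (star (gen I))} ∈ nf K n := fun I hI => by
      rw [mem_nf, hN, Zsqrtd.norm_conj, ← hN, hgen, mem_nf.1 hI]
    rw [ac, star_sum]
    refine Finset.sum_nbij' (fun I => span {e (star (gen I))}) (fun I => span {e (star (gen I))})
      hm hm (fun I _ => hc I) (fun I _ => hc I) fun I _ => ?_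
    rw [hψ, h.conj, ← star_mul']
    rfl
  have hre : ∀ n, (((ac ψ n).re : ℤ) : Zi) = ac ψ n := by
    intro n
    have h1 := congrArg Zsqrtd.im (hstar n)
    rw [Zsqrtd.im_star] at h1
    ext
    · simp
    · simp only [Zsqrtd.im_intCast]; omega
  have hXa' : ∀ n, (((ac ψ n).re : ℤ) : ℂ) = X.a n := fun n => by
    rw [hXa, ← hre, map_intCast, Zsqrtd.re_intCast]
  have hm0 : span {(m : 𝓞 K)} ≠ ⊥ :=
    absNorm_eq_zero_iff.not.1 (by rw [absNorm_nat H.two]; exact pow_ne_zero _ h.pos)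
  have hJ : ∀ n : ℕ, Odd n → J(discr K | n) = ZMod.χ₄ (n : ZMod 4) := fun n hn => by
    rw [hD, show (-4 : ℤ) = -1 * 4 by norm_num, jacobiSym.mul_left, jacobiSym.at_neg_one hn,
      jacobiSym.at_four hn, mul_one]
  have hneb : ∀ n : ℕ, n.Coprime (4 * m ^ 2) → X.neb n = 1 := by
    intro n hn
    have h1 : n.Coprime m := hn.coprime_dvd_right ((dvd_pow_self m two_ne_zero).mul_left 4)
    have h2 : Odd n := Nat.coprime_two_right.1 (h1.coprime_dvd_right h.two)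
    have h3 : X.ε n = ((ZMod.χ₄ (n : ZMod 4) : ℤ) : ℂ) := by
      have h4 := hper n
      rw [map_natCast e, map_natCast] at h4
      change GaussianInt.toComplex (ε (e.symm (n : 𝓞 K ⧸ span {(m : 𝓞 K)}).out)) = _
      rw [h4, h.int n h1, map_intCast]
    rw [HC.neb, h3, hJ n h2, ← Int.cast_mul, ZMod.χ₄_eq_neg_one_pow (Nat.odd_iff.1 h2), ← mul_pow]
    simp
  have hzero : ∀ n, ¬ n.Coprime m → ac ψ n = 0 := fun n hn =>
    Finset.sum_eq_zero fun I hI => by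
      rw [← hgen I, hψ, eps_zero h (by rw [← hN, hgen, mem_nf.1 hI]; exact hn), mul_zero]
  have : NeZero (4 * m ^ 2) := ⟨mul_ne_zero (by norm_num) (pow_ne_zero _ h.pos)⟩
  have hL : Lv (span {(m : 𝓞 K)}) (4 * m ^ 2) := by
    obtain ⟨k, rfl⟩ := h.two
    refine ⟨⟨-1, ?_⟩, ⟨-(k : ℤ) ^ 2, ?_⟩⟩
    · rw [hD, absNorm_nat H.two]; push_cast; ring
    · rw [hD]; push_cast; ring
  refine ⟨fun n => (ac ψ n).re, ⟨⟨X.cf0 H hm0 _ hL hneb, fun z => ?_⟩, ?_, ?_, fun l hl hlN n => ?_⟩,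
    fun n hn => by simp only [hzero n hn, Zsqrtd.re_zero], fun p hp hp4 => ?_, fun x hx => ?_⟩
  · refine (X.hasSum_q H hm0 z).congr_fun fun n => ?_
    simp only [hXa']
    rw [smul_eq_mul, Function.Periodic.qParam, ← Complex.exp_nat_mul]
    congr 2
    push_cast
    ring
  · simp only [hXa', X.a_zero]
  · simp only [hXa', X.a_one]
  · have hl2 : l ≠ 2 := by
      rintro rfl
      exact hlN (Dvd.dvd.mul_right (by norm_num) _)
    have := X.a_rec H hl hl2 n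
    rw [hneb l ((Nat.Prime.coprime_iff_not_dvd hl).2 hlN), one_mul] at this
    simpa only [hXa'] using this
  · have h1 := H.card_nf hp (by omega)
    rw [hJ p (Nat.odd_iff.2 (by omega)), ZMod.χ₄_nat_three_mod_four hp4] at h1
    have h2 : nf K p = ∅ := Finset.card_eq_zero.1 (by omega)
    simp only [ac, h2, Finset.sum_empty, Zsqrtd.re_zero]
  · simp only [hre]
    by_cases hc : x.norm.natAbs.Coprime m
    swap
    · rw [hzero _ hc, eps_zero h hc]; simp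
    have hodd : Odd x.norm.natAbs := Nat.coprime_two_right.1 (hc.coprime_dvd_right h.two)
    have hP := hN x
    have hQ : absNorm (span {e (star x)}) = x.norm.natAbs := by rw [hN, Zsqrtd.norm_conj]
    have hPQ : span {((x.norm.natAbs : ℕ) : 𝓞 K)} = span {e x} * span {e (star x)} := by
      rw [span_singleton_mul_span_singleton, ← map_mul, ← Zsqrtd.norm_eq_mul_conj,
        ← map_natCast e, GaussianInt.natCast_natAbs_norm]
    have hnf := nf_eq hx hP hQ fun R hR hl' => by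
      have h5 : span {e x} * span {e (star x)} ≤ R := hPQ ▸ (span_singleton_le_iff_mem _).2 hl'
      rcases hR.isPrime.mul_le.1 h5 with h6 | h6
      · exact Or.inl ((max_of_norm hx hP).eq_of_le hR.ne_top h6).symm
      · exact Or.inr ((max_of_norm hx hQ).eq_of_le hR.ne_top h6).symm
    have hne : span {e x} ≠ span {e (star x)} := by
      intro he
      have h1 := H.card_nf hx (by rintro h2; rw [h2] at hodd; exact absurd hodd (by decide))
      rw [hnf, ← he, hJ _ hodd, ZMod.χ₄_eq_neg_one_pow (Nat.odd_iff.1 hodd)] at h1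
      simp only [Finset.mem_singleton, Finset.insert_eq_of_mem, Finset.card_singleton,
        Nat.cast_one, left_eq_add] at h1
      exact pow_ne_zero _ (by norm_num) h1
    rw [ac, hnf, Finset.sum_pair hne, hψ, hψ, h.conj, star_mul']

end Crest.Agent.T15.Th
end
end

-- ▼ part T15/ModI_44

/-!
# Row 15, block C (helper44): `ModI` from `EpsStmt`, `ThStmt`, `XiStmt`
-/

set_option autoImplicit false

noncomputable section

namespace Crest.Agent.T15.C

open NumberField Crest.Agent.R018.Placesx484 Crest.Agent.T15.Ps Crest.Agent.T15.Ex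

namespace Md44

/-! ### induction from the stabiliser of `δ` -/

section Ind

variable {δ : Om}

lemma ne_neg (hδ : δ ^ 2 = -1) : δ ≠ -δ := fun h => by
  have h2 : (2 : Om) * δ = 0 := by linear_combination h
  rcases mul_eq_zero.1 h2 with h3 | h3
  · exact two_ne_zero h3
  · rw [h3] at hδ; norm_num at hδ

lemma dich (hδ : δ ^ 2 = -1) (g : Gam) : g δ = δ ∨ g δ = -δ :=
  sq_eq_sq_iff_eq_or_eq_neg.1 (by rw [← map_pow, hδ, map_neg, map_one])


lemma ne_of_neg (hδ : δ ^ 2 = -1) {g : Gam} (h : g δ = -δ) : g δ ≠ δ := fun h' =>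
  ne_neg hδ (h'.symm.trans h)

lemma inv_neg {c : Gam} (hc : c δ = -δ) : c⁻¹ δ = -δ := by
  have : c⁻¹ (c δ) = δ := c.symm_apply_apply δ
  rw [hc, map_neg] at this
  exact neg_eq_iff_eq_neg.1 this

lemma conj_fix {c g : Gam} (hc : c δ = -δ) (hg : g δ = δ) : (c⁻¹ * g * c) δ = δ := by
  rw [AlgEquiv.mul_apply, AlgEquiv.mul_apply, hc, map_neg, hg, map_neg, inv_neg hc, neg_neg]

variable {A : Type} [CommRing A]

/-- a character of the stabiliser of `δ`, extended by zero -/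
structure Ch (δ : Om) (F : Gam → A) : Prop where
  one : F 1 = 1
  mul : ∀ g h : Gam, g δ = δ → h δ = δ → F (g * h) = F g * F h
  zero : ∀ g : Gam, g δ = -δ → F g = 0

variable {F : Gam → A} {c : Gam}

lemma Ch.mul' (hF : Ch δ F) (hδ : δ ^ 2 = -1) {g : Gam} (hg : g δ = δ) (h : Gam) :
    F (g * h) = F g * F h := by
  rcases dich hδ h with hh | hh
  · exact hF.mul g h hg hh
  · rw [hF.zero h hh, hF.zero (g * h) (by rw [AlgEquiv.mul_apply, hh, map_neg, hg]), mul_zero]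

lemma Ch.split (hF : Ch δ F) (hδ : δ ^ 2 = -1) (hc : c δ = -δ) (g h : Gam) :
    F (g * h) = F g * F h + F (g * c) * F (c⁻¹ * h) := by
  rcases dich hδ g with hg | hg
  · rw [hF.mul' hδ hg, hF.zero (g * c) (by rw [AlgEquiv.mul_apply, hc, map_neg, hg]), zero_mul,
      add_zero]
  · rw [hF.zero g hg, zero_mul, zero_add, ← hF.mul' hδ (g := g * c)
      (by rw [AlgEquiv.mul_apply, hc, map_neg, hg, neg_neg])]
    congr 1
    group

/-- the induced representation -/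
def Ch.ind (hF : Ch δ F) (hδ : δ ^ 2 = -1) (hc : c δ = -δ) : Gam →* M2 A where
  toFun g := !![F g, F (g * c); F (c⁻¹ * g), F (c⁻¹ * g * c)]
  map_one' := by
    rw [mul_one, one_mul, inv_mul_cancel, hF.one, hF.zero c hc, hF.zero _ (inv_neg hc),
      Matrix.one_fin_two]
  map_mul' g h := by
    rw [Matrix.mul_fin_two, ← hF.split hδ hc g h, mul_assoc c⁻¹ h c, ← hF.split hδ hc g (h * c),
      ← hF.split hδ hc (c⁻¹ * g) h, ← hF.split hδ hc (c⁻¹ * g) (h * c)]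
    simp only [mul_assoc]

lemma Ch.ind_fix (hF : Ch δ F) (hδ : δ ^ 2 = -1) (hc : c δ = -δ) {g : Gam} (hg : g δ = δ) :
    hF.ind hδ hc g = !![F g, 0; 0, F (c⁻¹ * g * c)] := by
  change !![F g, F (g * c); F (c⁻¹ * g), F (c⁻¹ * g * c)] = _
  rw [hF.zero (g * c) (by rw [AlgEquiv.mul_apply, hc, map_neg, hg]),
    hF.zero (c⁻¹ * g) (by rw [AlgEquiv.mul_apply, hg, inv_neg hc])]

lemma Ch.ind_neg (hF : Ch δ F) (hδ : δ ^ 2 = -1) (hc : c δ = -δ) {g : Gam} (hg : g δ = -δ) :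
    (hF.ind hδ hc g).trace = 0 ∧ (hF.ind hδ hc g).det = -F (g * g) := by
  have e : hF.ind hδ hc g = !![F g, F (g * c); F (c⁻¹ * g), F (c⁻¹ * g * c)] := rfl
  have h1 := hF.zero g hg
  have h2 := hF.zero (c⁻¹ * g * c) (by
    rw [AlgEquiv.mul_apply, AlgEquiv.mul_apply, hc, map_neg, hg, neg_neg, inv_neg hc])
  rw [e, Matrix.trace_fin_two_of, Matrix.det_fin_two_of, hF.split hδ hc g g, h1, h2]
  constructor <;> ring

end Ind

/-! ### Frobenius elements -/

lemma IsFr_conj {P : Place Om} {q : ℕ} {s : Gam} (h : IsFr P q s) (g : Gam) :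
    IsFr (g • P) q (g * s * g⁻¹) := fun x => by
  rw [Place.mem_smul_ideal, smul_sub, smul_pow', mul_smul, mul_smul, inv_smul_smul]
  exact h _

lemma IsFr_sq {P : Place Om} {q : ℕ} {s : Gam} (h : IsFr P q s) : IsFr P (q * q) (s * s) :=
  fun x => by
    have h1 := Ideal.Quotient.eq.2 (h (s • x))
    have h2 := Ideal.Quotient.eq.2 (h x)
    rw [← Ideal.Quotient.eq, mul_smul, h1, map_pow, h2, ← map_pow, ← pow_mul]

lemma In_conj {P : Place Om} {t : Gam} (h : t ∈ In P) (g : Gam) : g * t * g⁻¹ ∈ In (g • P) :=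
  fun x => by
    change (g * t * g⁻¹) • x - x ∈ (g • P).ideal
    rw [Place.mem_smul_ideal, smul_sub, mul_smul, mul_smul, inv_smul_smul]
    exact h _

variable (j : Zi →+* 𝓞 Om)

lemma ii_sq : ii ^ 2 = -1 := by decide

lemma dl_sq : dl j ^ 2 = -1 := by
  have : j ii ^ 2 = -1 := by rw [← map_pow, ii_sq, map_neg, map_one]
  exact_mod_cast congrArg (algebraMap (𝓞 Om) Om) this

variable {j}

lemma fr_pow {P : Place Om} {p : ℕ} {s : Gam} (h : IsFr P p s) (hp : P.rchar ≠ 2) {e : Zi}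
    (he : ii ^ p = e * ii) (h1 : e = 1 ∨ e = -1) : s (dl j) = (j e : 𝓞 Om) * dl j := by
  by_contra hne
  have h2 : s • j ii = -(j e * j ii) := by
    apply RingOfIntegers.coe_injective
    rw [Place.smul_coe]
    rcases dich (dl_sq j) s with h3 | h3 <;> rcases h1 with rfl | rfl <;>
      simp_all [dl]
  have h3 := h (j ii)
  rw [h2, ← map_pow, he, map_mul] at h3
  have h4 : ((4 : ℕ) : 𝓞 Om) ∈ P.ideal := by
    have h5 := P.ideal.mul_mem_left (2 * (j e * j ii)) h3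
    have h6 : (j e * j ii) ^ 2 = -1 := by
      rw [← map_mul, ← map_pow, mul_pow, ii_sq]
      rcases h1 with rfl | rfl <;> simp
    convert h5 using 1
    push_cast
    linear_combination 4 * h6
  exact hp ((Nat.prime_dvd_prime_iff_eq P.rchar_prime Nat.prime_two).1
    (P.rchar_prime.dvd_of_dvd_pow (n := 2) ((P.natCast_mem_iff 4).1 h4)))

lemma ii_four : ii ^ 4 = 1 := by decide

lemma fr_one {P : Place Om} {p : ℕ} {s : Gam} (h : IsFr P p s) (hp : P.rchar ≠ 2)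
    (h4 : p % 4 = 1) : s (dl j) = dl j := by
  have := fr_pow (j := j) h hp (e := 1) (by
    rw [← Nat.div_add_mod p 4, h4, pow_add, pow_mul, ii_four, one_pow, pow_one]) (.inl rfl)
  simpa using this

lemma fr_three {P : Place Om} {p : ℕ} {s : Gam} (h : IsFr P p s) (hp : P.rchar ≠ 2)
    (h4 : p % 4 = 3) : s (dl j) = -dl j := by
  have := fr_pow (j := j) h hp (e := -1) (by
    rw [← Nat.div_add_mod p 4, h4, pow_add, pow_mul, ii_four, one_pow, one_mul]; decide) (.inr rfl)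
  simpa using this

lemma exists_place {p : ℕ} (hp : p.Prime) : ∃ P : Place Om, P.rchar = p := by
  have h1 : Ideal.span {(p : 𝓞 Om)} ≠ ⊤ := fun h => by
    have hu := Ideal.span_singleton_eq_top.1 h
    have : IsUnit (algebraMap ℤ (𝓞 Om) p) := by simpa using hu
    have h2 := (isUnit_map_iff (algebraMap ℤ (𝓞 Om)) (p : ℤ)).1 this
    exact hp.ne_one (by simpa using Int.isUnit_iff_natAbs_eq.1 h2)
  obtain ⟨M, hM, hle⟩ := Ideal.exists_le_maximal _ h1
  have hm : (p : 𝓞 Om) ∈ M := hle (Ideal.mem_span_singleton_self _)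
  refine ⟨⟨M, hM.isPrime, fun h0 => ?_⟩, Place.rchar_eq_of_mem _ hp hm⟩
  rw [h0, Ideal.mem_bot] at hm
  exact hp.ne_zero (by exact_mod_cast hm)

lemma exists_c (j : Zi →+* 𝓞 Om) : ∃ c : Gam, c (dl j) = -dl j := by
  obtain ⟨P, hP⟩ := exists_place Nat.prime_three
  obtain ⟨s, hs⟩ := exists_isF (K := ℚ) P
  have h : IsFr P 3 s := fun x => by
    have := hs x
    rwa [R018.FDEx389.qv_rat, hP] at this
  exact ⟨s, fr_three h (by omega) rfl⟩

lemma zi_eq (x : Zi) : x = (x.re : Zi) + (x.im : Zi) * ii := by ext <;> simp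

lemma smul_j {c : Gam} (hc : c (dl j) = -dl j) (x : Zi) : c • j x = j (star x) := by
  have h : c • j ii = -j ii := by
    apply RingOfIntegers.coe_injective
    rw [Place.smul_coe]
    simpa using hc
  have h2 : star x = (x.re : Zi) - (x.im : Zi) * ii := by ext <;> simp
  rw [h2]
  conv_lhs => rw [zi_eq x]
  simp only [map_add, map_sub, map_mul, map_intCast, smul_add, smul_mul', h]
  have hz : ∀ n : ℤ, c • (n : 𝓞 Om) = n := fun n =>
    map_intCast (MulSemiringAction.toRingHom Gam (𝓞 Om) c) n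
  rw [hz, hz]; ring

lemma exists_split {P : Place Om} (h4 : P.rchar % 4 = 1) :
    ∃ x : Zi, x * star x = P.rchar ∧ x.norm.natAbs = P.rchar ∧ j x ∈ P.ideal := by
  have := Fact.mk P.rchar_prime
  obtain ⟨a, b, hab⟩ := Nat.Prime.sq_add_sq (p := P.rchar) (by omega)
  have hn : (⟨a, b⟩ : Zi).norm = P.rchar := by
    rw [Zsqrtd.norm_def, ← hab]; push_cast; ring
  have hm : (⟨a, b⟩ : Zi) * star ⟨a, b⟩ = P.rchar := by
    rw [← Zsqrtd.norm_eq_mul_conj, hn]; simp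
  have h : j ⟨a, b⟩ * j (star ⟨a, b⟩) ∈ P.ideal := by
    rw [← map_mul, hm, map_natCast]; exact P.rchar_mem
  rcases P.isPrime.mem_or_mem h with h | h
  · exact ⟨_, hm, by rw [hn]; simp, h⟩
  · exact ⟨_, by rw [star_star, mul_comm, hm], by rw [Zsqrtd.norm_conj, hn]; simp, h⟩

lemma prime_of_norm {x : Zi} (h : x.norm.natAbs.Prime) : Prime x := by
  refine Irreducible.prime ⟨fun hu => h.ne_one (Zsqrtd.norm_eq_one_iff.2 hu), fun a b hab => ?_⟩
  rw [hab, Zsqrtd.norm_mul, Int.natAbs_mul] at h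
  exact (Nat.prime_mul_iff.1 h).symm.imp (fun h => Zsqrtd.norm_eq_one_iff.1 h.2)
    fun h => Zsqrtd.norm_eq_one_iff.1 h.2

/-! ### the residual representation -/

section Res

variable {k : Type} [Field k] {ρ : Gam →* M2 k} {red : 𝓞 Om →+* k} {S : Finset ℕ}

lemma rho_conj (hD : Dih ρ red S 1 (dl j)) {c g : Gam} (hc : c (dl j) = -dl j)
    (hg : g (dl j) = dl j) : ρ (c⁻¹ * g * c) 0 0 = ρ g 1 1 := by
  have h1 := hD.anti c (ne_of_neg (dl_sq j) hc)
  have h2 := hD.diag g hg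
  have h3 : ρ c 1 0 ≠ 0 := fun h0 => by
    have := hD.det c
    rw [Matrix.det_fin_two, h1.1, h0] at this
    split_ifs at this <;> simp at this
  have h4 : (ρ c * ρ (c⁻¹ * g * c)) 1 0 = (ρ g * ρ c) 1 0 := by
    rw [← map_mul, ← map_mul]; congr 2; group
  simp only [Matrix.mul_apply, Fin.sum_univ_two, h1.2, h2.2.1, zero_mul, add_zero, zero_add] at h4
  exact mul_left_cancel₀ h3 (h4.trans (mul_comm _ _))

lemma rho_mul (hD : Dih ρ red S 1 (dl j)) {g : Gam} (hg : g (dl j) = dl j) (h : Gam) :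
    ρ (g * h) 0 0 = ρ g 0 0 * ρ h 0 0 := by
  simp only [map_mul, Matrix.mul_apply, Fin.sum_univ_two, (hD.diag g hg).1, zero_mul, add_zero]

lemma fix_of_ker (hD : Dih ρ red S 1 (dl j)) {g : Gam} (hg : ρ g = 1) : g (dl j) = dl j := by
  by_contra h
  have := (hD.anti g h).1
  rw [hg] at this
  simp at this

lemma three_dvd (h3 : red 3 = 0) {x : Zi} (h : red (j x) = 0) : (3 : Zi) ∣ x := by
  have h3' : ((3 : ℕ) : k) = 0 := by rw [← map_natCast red]; exact h3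
  have : CharP k 3 := (CharP.charP_iff_prime_eq_zero Nat.prime_three).2 h3'
  have h1 : ((x.norm : ℤ) : k) = 0 := by
    rw [← map_intCast (red.comp j), Zsqrtd.norm_eq_mul_conj, map_mul, RingHom.comp_apply, h,
      zero_mul]
  have h2 : ((3 : ℕ) : ℤ) ∣ x.norm := (CharP.intCast_eq_zero_iff k 3 _).1 h1
  rw [Zsqrtd.norm_def] at h2
  have h4 : (3 : ℤ) ∣ x.re ∧ (3 : ℤ) ∣ x.im := by
    have key : ∀ a b : ZMod 3, a * a - -1 * b * b = 0 → a = 0 ∧ b = 0 := by decide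
    have := key x.re x.im (by exact_mod_cast (ZMod.intCast_zmod_eq_zero_iff_dvd _ 3).2 h2)
    exact ⟨(ZMod.intCast_zmod_eq_zero_iff_dvd _ 3).1 this.1,
      (ZMod.intCast_zmod_eq_zero_iff_dvd _ 3).1 this.2⟩
  exact (Zsqrtd.intCast_dvd 3 x).2 h4

lemma exists_lift (h3 : red 3 = 0) {κ : k} (h : κ ^ 8 = 1) : ∃ b : Zi, red (j b) = κ := by
  set ι := red (j ii) with hι
  have h2 : ι ^ 2 = -1 := by rw [hι, ← map_pow, ← map_pow, ii_sq]; simp
  have h3' : (3 : k) = 0 := by rw [← map_ofNat red 3]; exact h3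
  have key : (κ - 1) * ((κ - -1) * ((κ - ι) * ((κ - -ι) * ((κ - (1 + ι)) * ((κ - (1 - ι)) *
      ((κ - (-1 + ι)) * (κ - (-1 - ι)))))))) = 0 := by
    have e : (κ - (1 + ι)) * ((κ - (1 - ι)) * ((κ - (-1 + ι)) * (κ - (-1 - ι)))) = κ ^ 4 + 1 := by
      linear_combination (-2 * κ ^ 2 + ι ^ 2 - 3) * h2 + h3'
    rw [e]
    linear_combination h - (κ ^ 2 - 1) * (κ ^ 4 + 1) * h2
  simp only [mul_eq_zero, sub_eq_zero] at key
  rcases key with h | h | h | h | h | h | h | h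
  exacts [⟨1, by simp [h]⟩, ⟨-1, by simp [h]⟩, ⟨ii, h.symm⟩, ⟨-ii, by simp [h, hι]⟩,
    ⟨1 + ii, by simp [h, hι]⟩, ⟨1 - ii, by simp [h, hι]⟩, ⟨-1 + ii, by simp [h, hι]⟩,
    ⟨-1 - ii, by simp [h, hι]⟩]

/-- the Teichmüller lift -/
lemma exists_teich (h3 : red 3 = 0) {A : Type} [CommRing A] (φ : Zi →+* A)
    (hA : IsNilpotent (3 : A)) : ∃ (r : ℕ) (T : k → A), ∀ b, T (red (j b)) = φ b ^ 9 ^ r := by
  classical
  obtain ⟨r, hr⟩ := hA
  refine ⟨r, fun κ => if h : ∃ b, red (j b) = κ then φ h.choose ^ 9 ^ r else 0, fun b => ?_⟩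
  have h : ∃ b', red (j b') = red (j b) := ⟨b, rfl⟩
  beta_reduce
  rw [dif_pos h]
  have h1 : ((3 : ℕ) : Zi) ∣ h.choose - b :=
    three_dvd (j := j) h3 (by rw [map_sub, map_sub, h.choose_spec, sub_self])
  obtain ⟨y, hy⟩ := dvd_sub_pow_of_dvd_sub h1 (2 * r)
  rw [show 9 ^ r = 3 ^ (2 * r) by rw [pow_mul]; rfl, ← map_pow, ← map_pow, ← sub_eq_zero,
    ← map_sub, hy, map_mul, map_pow, map_natCast, show 2 * r + 1 = r + (r + 1) by ring, pow_add]
  push_cast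
  rw [hr, zero_mul, zero_mul]

end Res

end Md44

open Md44

theorem modI (hE : EpsStmt) (hT : ThStmt) (hX : XiStmt) : ModI := by
  classical
  obtain ⟨e, hE⟩ := hE
  refine ⟨2 * e + 2, fun k _ ρ red S δ hD htr => ?_⟩
  have hδ : δ ^ 2 = -1 := by simpa using hD.sq
  obtain ⟨j, rfl⟩ : ∃ j : Zi →+* 𝓞 Om, dl j = δ := by
    have hi : IsIntegral ℤ δ := IsIntegral.of_pow two_pos (by rw [hδ]; exact isIntegral_one.neg)
    obtain ⟨d, rfl⟩ : ∃ d : 𝓞 Om, (d : Om) = δ := ⟨⟨δ, hi⟩, rfl⟩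
    refine ⟨Zsqrtd.lift ⟨d, RingOfIntegers.coe_injective ?_⟩, by simp [dl]⟩
    simpa [sq] using hδ
  obtain ⟨m, ε, hε, hm, hS, hR⟩ := hE k ρ red S j hD htr
  obtain ⟨a, ha, ha0, ha3, ha1⟩ := hT m ε hε
  obtain ⟨c, hc⟩ := exists_c j
  have hp2 : ∀ P : Place Om, P.rchar ∉ S → P.rchar ≠ 2 := fun P h h2 => h (h2 ▸ hD.two)
  have hodd : ∀ P : Place Om, P.rchar ∉ S → P.rchar % 4 = 1 ∨ P.rchar % 4 = 3 := fun P h => by
    have := P.rchar_prime.eq_two_or_odd.resolve_left (hp2 P h)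
    omega
  have hcop : ∀ P : Place Om, P.rchar ∉ S → P.rchar.Coprime m := fun P h =>
    Nat.Coprime.coprime_dvd_right hm (Nat.Coprime.pow_right _ (Nat.Coprime.prod_right fun l hl =>
      (Nat.coprime_primes P.rchar_prime (hD.prime l hl)).2 fun h' => h (h' ▸ hl)))
  -- values at split and inert Frobenius elements
  have hsplit : ∀ {B : Type} {ξ : Gam → B} {f : Zi → B}, Rec j S ξ f → ∀ (P : Place Om) (s : Gam),
      P.rchar ≠ 3 → P.rchar ∉ S → IsFr P P.rchar s → P.rchar % 4 = 1 → ∀ x : Zi,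
      x.norm.natAbs = P.rchar → j x ∈ P.ideal → ξ s = f x ∧ ξ (c⁻¹ * s * c) = f (star x) := by
    intro B ξ f h P s h3 hP hs h4 x hx hj
    have hs1 := fr_one (j := j) hs (hp2 P hP) h4
    have hx' : (star x).norm.natAbs = P.rchar := by rwa [Zsqrtd.norm_conj]
    refine ⟨h P s x (prime_of_norm (hx ▸ P.rchar_prime)) hj h3 hP hs1 (hx ▸ hs),
      h (c⁻¹ • P) _ _ (prime_of_norm (hx' ▸ P.rchar_prime)) ?_ (by rwa [Place.rchar_smul])
        (by rwa [Place.rchar_smul]) (conj_fix hc hs1) ?_⟩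
    · rwa [← smul_j (inv_neg hc), Place.smul_mem_smul_ideal]
    · simpa only [hx', inv_inv] using IsFr_conj hs c⁻¹
  refine ⟨4 * m ^ 2, a, ?_, ?_, fun l hl => ((hS l hl).trans (dvd_pow_self m two_ne_zero)).mul_left _,
    ha, fun n hn => ha0 n fun h => hn ?_, ha3, fun P s h3 hP hs => ?_, fun A _ _ i hi hA => ?_⟩
  · rw [pow_add, mul_comm 2 e, pow_mul, mul_comm]
    exact mul_dvd_mul (pow_dvd_pow_of_dvd hm 2)
      (pow_dvd_pow_of_dvd (Finset.dvd_prod_of_mem (fun l => l) hD.two) 2)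
  · exact mul_dvd_mul_left 4 (pow_dvd_pow_of_dvd hε.two 2)
  · exact ((h.coprime_dvd_right hε.two).pow_right 2).mul_right (h.pow_right 2)
  · rcases hodd P hP with h4 | h4
    · obtain ⟨x, -, hx, hj⟩ := exists_split (j := j) h4
      obtain ⟨h1, h2⟩ := hsplit hR P s h3 hP hs h4 x hx hj
      have h5 := ha1 x (hx ▸ P.rchar_prime)
      rw [Matrix.trace_fin_two, ← rho_conj hD hc (fr_one hs (hp2 P hP) h4), h1, h2, hε.conj,
        ← star_mul', ← map_add, ← map_add, ← h5, hx, map_intCast, map_intCast]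
    · have := hD.anti s (ne_of_neg hδ (fr_three hs (hp2 P hP) h4))
      rw [ha3 _ P.rchar_prime h4, Matrix.trace_fin_two, this.1, this.2]
      simp
  let φ : Zi →+* A := Zsqrtd.lift ⟨i, by simpa [sq] using hi⟩
  obtain ⟨r, T, hTe⟩ := exists_teich (j := j) hD.red3 φ hA
  have h9 : 9 ^ r % 8 = 1 := by rw [Nat.pow_mod]; simp
  obtain ⟨ξ, hξ1, hξm, ⟨U, hU, hξU⟩, hξI, hξR⟩ := hX j A φ hA (7 * 9 ^ r + 1) (by omega)
  have hT1 : T 1 = 1 := by simpa using hTe 1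
  set F : Gam → A := fun g => if g (dl j) = dl j then ξ g * T (ρ g 0 0) else 0 with hFd
  have hFe : ∀ g : Gam, g (dl j) = dl j → F g = ξ g * T (ρ g 0 0) := fun g hg => if_pos hg
  have hF : Ch (dl j) F := by
    refine ⟨by rw [hFe 1 rfl, hξ1, map_one, Matrix.one_apply_eq, hT1, mul_one], fun g h hg hh => ?_,
      fun g hg => if_neg (ne_of_neg hδ hg)⟩
    obtain ⟨b, hb⟩ := exists_lift (j := j) hD.red3 (hD.diag g hg).2.2
    obtain ⟨b', hb'⟩ := exists_lift (j := j) hD.red3 (hD.diag h hh).2.2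
    rw [hFe g hg, hFe h hh, hFe (g * h) (by rw [AlgEquiv.mul_apply, hh, hg]), hξm g h hg hh,
      rho_mul hD hg, ← hb, ← hb', ← map_mul, ← map_mul, hTe, hTe, hTe, map_mul, mul_pow]
    ring
  have hFR : Rec j S F fun x => φ (x * ε x) := by
    intro P s x hx hj h3 hP hs hf
    have h1 : ρ s 0 0 = red (j (x * ε x)) := hR P s x hx hj h3 hP hs hf
    have h8 := (hD.diag s hs).2.2
    have h2 : ε x ^ 4 = 1 := hε.unit x (by
      by_contra h
      rw [h1, hε.zero x h] at h8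
      simp at h8)
    have h5 : φ (x * ε x) ^ (8 * 9 ^ r) = 1 := by
      rw [pow_mul, ← map_pow, ← hTe, map_pow, map_pow, ← h1, h8, hT1]
    have h6 : φ (ε x) ^ (7 * 9 ^ r + 1) = 1 := by
      obtain ⟨t, ht⟩ : 4 ∣ 7 * 9 ^ r + 1 := by omega
      rw [ht, pow_mul, ← map_pow, h2, map_one, one_pow]
    have h7 : ξ s = φ x ^ (7 * 9 ^ r + 1) := hξR P s x hx hj h3 (Finset.notMem_empty _) hs hf
    rw [hFe s hs, h7, h1, hTe, ← mul_one (φ x ^ _), ← h6, ← mul_pow, ← map_mul, ← pow_add,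
      show 7 * 9 ^ r + 1 + 9 ^ r = 8 * 9 ^ r + 1 by ring, pow_succ, h5, one_mul]
  have hker : ∀ g : Gam, ρ g = 1 → ξ g = 1 → ξ (c⁻¹ * g * c) = 1 → hF.ind hδ hc g = 1 := by
    intro g hg h1 h2
    have hf := fix_of_ker hD hg
    have hg' : ρ (c⁻¹ * g * c) = 1 := by
      rw [map_mul, map_mul, hg, mul_one, ← map_mul, inv_mul_cancel, map_one]
    rw [hF.ind_fix hδ hc hf, hFe g hf, hFe _ (conj_fix hc hf), hg, hg', h1, h2,
      Matrix.one_apply_eq, hT1, mul_one, Matrix.one_fin_two]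
  refine ⟨hF.ind hδ hc, ?_, fun P h3 g hg => ?_, fun P s h3 hP hs => ?_⟩
  · refine Subgroup.isOpen_mono (H₁ := ρ.ker ⊓ (U ⊓ U.comap (MulAut.conj c⁻¹).toMonoidHom))
      (fun g hg => ?_) (hD.opn.inter (hU.inter (hU.preimage ?_)))
    · have hf := fix_of_ker hD hg.1
      exact hker g hg.1 (hξU g hg.2.1 hf) (hξU _ (by simpa using hg.2.2) (conj_fix hc hf))
    · exact (continuous_const.mul continuous_id).mul continuous_const
  · have hf := fix_of_ker hD hg.2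
    exact hker g hg.2 (hξI P h3 g hg.1 hf) (hξI (c⁻¹ • P) (by rwa [Place.rchar_smul]) _
      (by simpa using In_conj hg.1 c⁻¹) (conj_fix hc hf))
  rcases hodd P hP with h4 | h4
  · obtain ⟨x, hm', hx, hj⟩ := exists_split (j := j) h4
    obtain ⟨h1, h2⟩ := hsplit hFR P s h3 hP hs h4 x hx hj
    have h5 := ha1 x (hx ▸ P.rchar_prime)
    rw [hF.ind_fix hδ hc (fr_one hs (hp2 P hP) h4), Matrix.trace_fin_two_of,
      Matrix.det_fin_two_of, h1, h2]
    constructor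
    · rw [hε.conj, ← star_mul', ← map_add, ← h5, hx, map_intCast]
    · rw [← map_mul, mul_mul_mul_comm, ← hε.mul, hm', hε.int _ (hcop P hP),
        ZMod.χ₄_nat_one_mod_four h4]
      simp
  · have := Fact.mk P.rchar_prime
    have hs3 := fr_three (j := j) hs (hp2 P hP) h4
    obtain ⟨h1, h2⟩ := hF.ind_neg hδ hc hs3
    have h5 : F (s * s) = φ (P.rchar * ε P.rchar) := hFR P (s * s) P.rchar
      (GaussianInt.prime_of_nat_prime_of_mod_four_eq_three _ h4)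
      (by rw [map_natCast]; exact P.rchar_mem) h3 hP
      (by rw [AlgEquiv.mul_apply, hs3, map_neg, hs3, neg_neg])
      (by simpa [Zsqrtd.norm_natCast, Int.natAbs_mul] using IsFr_sq hs)
    rw [h1, h2, h5, ha3 _ P.rchar_prime h4, hε.int _ (hcop P hP), ZMod.χ₄_nat_three_mod_four h4]
    simp

end Crest.Agent.T15.C
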