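import Crest.Agent.T15.Dio_15
import Crest.Agent.T15.CmG_13
import Crest.Agent.PVc.R26.BH
import Crest.Agent.T15.FbA_98
import Crest.Agent.SW.Final
import Crest.Agent.R001.FLCor
import Crest.Agent.R007.RatDesc
import Crest.Agent.T15.Top_88

-- ▼ part T15/QDef_22
section

/-!
# Row 15, block Q: exact statements (helper22, after helper13's text, team note #3382)

`JStmt` is the output of the block: "`v_p(y) > 0` for every odd prime `p` with `v_p(w)` odd" has a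
Diophantine certificate which is complete for primes `w ≡ 1 mod 8`.
-/

set_option autoImplicit false

namespace Crest.Agent.T15.Q

/-- the genus one gadget -/
def D0 (w G : ℚ) : Prop := ∃ r A B : ℚ, 4 + r ^ 2 = w * A ^ 2 ∧ 4 - r ^ 2 = G * B ^ 2 ∧ B ≠ 0

/-- (HG) completeness of the gadget (mock Heegner points) -/
def HGStmt : Prop := ∀ p q : ℕ, p.Prime → q.Prime → p % 8 = 5 → q % 8 = 3 →
  ¬ IsSquare (q : ZMod p) → D0 p q

/-- (H1)-(H4): the CM points on `s⁴ + b² = 1`, indexed by the class group of `ℚ(√(-pq))` -/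
def CMStmt : Prop := ∀ p q : ℕ, p.Prime → q.Prime → p % 8 = 5 → q % 8 = 3 →
  ¬ IsSquare (q : ZMod p) → ∀ δ π : ℂ, δ ^ 2 = -(p * q) → π ^ 2 = p →
  ∃ (Cl : Type) (_ : CommGroup Cl) (_ : Fintype Cl) (s b : Cl → ℂ)
    (c : MulAction.stabilizer (ℂ ≃ₐ[ℚ] ℂ) δ →* Cl) (χ : Cl →* ℤˣ) (P : Cl),
    Odd (Nat.card χ.ker) ∧ χ P = -1 ∧
    (∀ a, s a ^ 4 + b a ^ 2 = 1 ∧ s a ≠ 0 ∧ b a ≠ 0) ∧
    (∀ σ a, σ.1 (s a) = s (c σ * a) ∧ σ.1 (b a) = b (c σ * a)) ∧
    (∀ a, (starRingEnd ℂ) (s a) = -b (P * a⁻¹) / (1 + s (P * a⁻¹) ^ 2) ∧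
      (starRingEnd ℂ) (b a) = -2 * s (P * a⁻¹) / (1 + s (P * a⁻¹) ^ 2)) ∧
    ∀ σ, c σ = 1 → σ.1 π = π

/-- (K4) six linear forms in three variables (complexity one) take prime values -/
def K4Stmt : Prop := ∀ g D c : ℕ, 0 < g → 6 ∣ g → 0 < D → D.Coprime g → c.Coprime g →
  ∃ x y z u v a : ℕ, x.Prime ∧ y.Prime ∧ z.Prime ∧ u.Prime ∧ v.Prime ∧ a.Prime ∧
    x ≡ c [MOD g] ∧ y ≡ c [MOD g] ∧ z ≡ c [MOD g] ∧
    u + g * x = D * z ∧ v + g * y = D * z ∧ a + g * x + g * y = D * z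

/-- **output of block Q** -/
def JStmt : Prop := ∃ J : ℚ → ℚ → Prop, Dio (fun x : ℚ × ℚ => J x.1 x.2) ∧
  (∀ w y, J w y → ∀ p : ℕ, p.Prime → p ≠ 2 → Odd (padicValRat p w) → y = 0 ∨ 0 < padicValRat p y) ∧
  ∀ l : ℕ, l.Prime → l % 8 = 1 → ∀ y : ℚ, (y = 0 ∨ 0 < padicValRat l y) → J l y

def HGGlue : Prop := CMStmt → HGStmt
def JGlue : Prop := HGStmt → K4Stmt → JStmt

end Crest.Agent.T15.Q
end

-- ▼ part T15/Cm_13
section

/-!
# Row 15, block Q (helper13): `CMStmt` from the class group leaf and the `√p` leaf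
-/

set_option autoImplicit false
set_option linter.unusedSectionVars false

noncomputable section

namespace Crest.Agent.T15.Cm

/-- (H3) `√p` lies in the field generated by `θ` and `j(ℤ[θ])` -/
def SqStmt : Prop := ∀ p q : ℕ, p.Prime → q.Prime → p % 8 = 5 → q % 8 = 3 →
  ∀ δ θ π a : ℂ, δ ^ 2 = -(p * q) → θ = (1 + δ) / 2 → π ^ 2 = p →
  ∀ σ : ℂ ≃+* ℂ, σ θ = θ → OL θ (ord θ) → a ≠ 0 → Tr σ (ord θ) (dv a (ord θ)) → σ π = π

lemma exists_dt {p q : ℕ} (hp : p % 8 = 5) (hq : q % 8 = 3) {δ θ : ℂ} (hδ : δ ^ 2 = -(p * q))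
    (hθ : θ = (1 + δ) / 2) : ∃ (m : ℕ) (r r' : ℤ), Dt θ m r r' ∧ Even r := by
  have h7 : (p * q) % 8 = 7 := by rw [Nat.mul_mod, hp, hq]
  obtain ⟨n, hn⟩ : ∃ n, p * q + 1 = 8 * n := ⟨(p * q + 1) / 8, by omega⟩
  have hn' : (p : ℂ) * q + 1 = 8 * n := by exact_mod_cast hn
  have hθ2 : θ ^ 2 = θ - (2 * n : ℕ) := by
    rw [hθ]; push_cast; linear_combination hδ / 4 - hn' / 4
  have h0 : 2 * n ≠ 0 := by omega
  have : n % 4 = 0 ∨ n % 4 = 1 ∨ n % 4 = 2 ∨ n % 4 = 3 := by omega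
  rcases this with e | e | e | e
  · exact ⟨_, 0, 1, ⟨h0, hθ2, by norm_num, by omega⟩, by decide⟩
  · exact ⟨_, 6, -5, ⟨h0, hθ2, by norm_num, by omega⟩, by decide⟩
  · exact ⟨_, 4, -3, ⟨h0, hθ2, by norm_num, by omega⟩, by decide⟩
  · exact ⟨_, 2, -1, ⟨h0, hθ2, by norm_num, by omega⟩, by decide⟩

lemma cc_theta {n : ℕ} (hn : n ≠ 0) {δ θ : ℂ} (hδ : δ ^ 2 = -n) (hθ : θ = (1 + δ) / 2) :
    cc θ = 1 - θ := by
  have h1 : cc δ ^ 2 = δ ^ 2 := by rw [← map_pow, hδ]; simp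
  have h2 : cc δ = -δ := by
    rcases sq_eq_sq_iff_eq_or_eq_neg.1 h1 with e | e
    · obtain ⟨x, rfl⟩ := Complex.conj_eq_iff_real.1 e
      have h3 : x ^ 2 = -n := by exact_mod_cast hδ
      have h4 : (0 : ℝ) < n := by positivity
      nlinarith [sq_nonneg x]
    · exact e
  rw [hθ, map_div₀, map_add, map_one, map_ofNat, h2]; ring

theorem cm_of_cl (hsq : SqStmt) (hcl : ClStmt) : Q.CMStmt := by
  intro p q hp hq hp8 hq8 hns δ π hδ hπ
  set θ : ℂ := (1 + δ) / 2 with hθ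
  obtain ⟨Cl, iG, iF, cl, χ, hO, hP, h1, hdv, hrep, hqu, hcj, hodd, hχ⟩ :=
    hcl p q hp hq hp8 hq8 hns δ θ hδ hθ
  obtain ⟨m, r, r', d, he⟩ := exists_dt hp8 hq8 hδ hθ
  have hc : cc θ = 1 - θ := cc_theta (n := p * q) (mul_ne_zero hp.ne_zero hq.ne_zero)
    (by rw [hδ]; push_cast; ring) hθ
  choose rep hr1 hr2 hr3 using hrep
  choose tr htr using fun σ : ℂ ≃+* ℂ => hO.lat.exists_tr σ
  have hcd : ∀ S a, OL θ S → a ≠ 0 → cl (dv a S) = cl S := fun S a hS ha =>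
    ((hdv _ _ hS (hS.dv ha)).2 ⟨a, ha, rfl⟩).symm
  have key : ∀ (σ : ℂ ≃+* ℂ) S S', σ θ = θ → OL θ S → Tr σ S S' → cl S' = cl (tr σ) * cl S := by
    intro σ S S' hσ hS h
    have hO' := ((htr σ).theta d.hm d.hθ hσ hO).1
    obtain ⟨b1, b2⟩ := hqu _ _ hO (hr1 (cl S)⁻¹)
    obtain ⟨c1, c2⟩ := hqu _ _ hO' (hr1 (cl S)⁻¹)
    rw [hr3, inv_inv] at b2 c2
    rw [h1, one_mul] at b2
    obtain ⟨a, ha, e⟩ := (hdv _ _ b1 hS).1 b2
    have t := ((htr σ).qu d.hm d.hθ hσ hO (hr1 (cl S)⁻¹).lat (hr2 _)).dv ha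
    rw [← e] at t
    rw [h.unique t, hcd _ _ c1 ((map_ne_zero σ).2 ha), c2]
  have inv : ∀ {t t' : ℤ} {S T}, Dt θ m t t' → OL θ S → OL θ T → cl S = cl T →
      sP θ t t' S = sP θ t t' T ∧ bP θ t t' S = bP θ t t' T := by
    intro t t' S T d hS hT e
    obtain ⟨a, ha, rfl⟩ := (hdv _ _ hT hS).1 e.symm
    exact d.scale hT ha
  have fx : ∀ σ : MulAction.stabilizer (ℂ ≃ₐ[ℚ] ℂ) δ, σ.1.toRingEquiv θ = θ := fun σ => by
    have : σ.1 δ = δ := σ.2
    change σ.1 θ = θ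
    rw [hθ, map_div₀, map_add, map_one, map_ofNat, this]
  let c : MulAction.stabilizer (ℂ ≃ₐ[ℚ] ℂ) δ →* Cl := MonoidHom.mk'
    (fun σ => cl (tr σ.1.toRingEquiv)) (fun σ τ => by
      have hO' := ((htr _).theta d.hm d.hθ (fx τ) hO).1
      obtain ⟨X, hX⟩ := hO'.lat.exists_tr σ.1.toRingEquiv
      have e : tr (σ * τ).1.toRingEquiv = X := (htr _).unique ((htr _).trans hX)
      rw [e, key _ _ _ (fx σ) hO' hX])
  refine ⟨Cl, iG, iF, fun a => sP θ r r' (rep a), fun a => bP θ r r' (rep a), c, χ, cl (pr2 θ),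
    hodd, hχ, fun a => d.pt (hr1 a), fun σ a => ?_, fun a => ?_, fun σ hσ => ?_⟩
  · obtain ⟨X, hX⟩ := (hr1 a).lat.exists_tr σ.1.toRingEquiv
    have g := d.gal (hr1 a) (fx σ) hX
    have e := inv d (hX.theta d.hm d.hθ (fx σ) (hr1 a)).1 (hr1 (c σ * a)) (by
      rw [key _ _ _ (fx σ) (hr1 a) hX, hr3, hr3]; rfl)
    exact ⟨g.1.symm.trans e.1, g.2.symm.trans e.2⟩
  · obtain ⟨c1, c2⟩ := hcj _ (hr1 a)
    obtain ⟨b1, b2⟩ := hqu _ _ (hr1 (cl (pr2 θ) * a⁻¹)) hP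
    have g := d.conj (hr1 a) hc c1
    have v := d.rev (hr1 (cl (pr2 θ) * a⁻¹)) he b1
    have e := inv d.symm c1 b1 (by rw [c2, b2, hr3, hr3, mul_right_comm, mul_inv_cancel, one_mul])
    exact ⟨g.1.symm.trans (e.1.trans v.1), g.2.symm.trans (e.2.trans v.2)⟩
  · have hO' := ((htr _).theta d.hm d.hθ (fx σ) hO).1
    obtain ⟨a, ha, e⟩ := (hdv _ _ hO hO').1 (h1.trans hσ.symm)
    exact hsq p q hp hq hp8 hq8 δ θ π a hδ hθ hπ _ (fx σ) hO ha (e ▸ htr _)

end Crest.Agent.T15.Cm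
end
end

-- ▼ part T15/FbB_98
section

/-!
# Row 15, block Q, (K4): the sifted set in residue classes and on the minor arcs (helper98)
-/

set_option autoImplicit false
set_option maxHeartbeats 400000

open Finset

namespace Crest.Agent.T15.Fb

open Crest.Agent.N41.Exp
open Crest.Agent.R5 (pd pr)

section gen
variable {S : Finset ℕ}

lemma pd_pos (hS : ∀ p ∈ S, p.Prime) {s : Finset ℕ} (hs : s ⊆ S) : 0 < pd s :=
  prod_pos fun _ hp => (hS _ (hs hp)).pos

lemma pd_dvd (hS : ∀ p ∈ S, p.Prime) {s : Finset ℕ} (hs : s ⊆ S) {n : ℕ} :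
    pd s ∣ n ↔ ∀ p ∈ s, p ∣ n :=
  ⟨fun h _ hp => (dvd_prod_of_mem _ hp).trans h, fun h =>
    prod_primes_dvd n (fun _ hp => (hS _ (hs hp)).prime) h⟩

lemma pd_inj (hS : ∀ p ∈ S, p.Prime) {s t : Finset ℕ} (hs : s ⊆ S) (ht : t ⊆ S)
    (h : pd s = pd t) : s = t := by
  rw [← Nat.primeFactors_prod (s := s) fun p hp => hS _ (hs hp),
    ← Nat.primeFactors_prod (s := t) fun p hp => hS _ (ht hp)]
  exact congrArg Nat.primeFactors h

lemma abs_sum_le (hS : ∀ p ∈ S, p.Prime) (Y : ℕ) (g : Finset ℕ → ℝ)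
    (h : ∀ s ⊆ S, g s ≠ 0 → pd s ≤ Y ∧ |g s| ≤ 1) : |∑ s ∈ S.powerset, g s| ≤ Y := by
  rw [← sum_filter_of_ne (p := fun s => pd s ≤ Y) fun s hs h0 => (h s (mem_powerset.1 hs) h0).1]
  refine (abs_sum_le_sum_abs _ _).trans ((sum_le_card_nsmul _ _ 1 fun s hs => ?_).trans ?_)
  · by_cases h0 : g s = 0
    · rw [h0, abs_zero]; exact zero_le_one
    · exact (h s (mem_powerset.1 (mem_filter.1 hs).1) h0).2
  · have h1 : (S.powerset.filter fun s => pd s ≤ Y).card ≤ (Icc 1 Y).card := by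
      refine card_le_card_of_injOn pd (fun s hs => ?_) fun s hs t ht e => ?_
      · obtain ⟨a, b⟩ := mem_filter.1 (mem_coe.1 hs)
        exact mem_coe.2 (mem_Icc.2 ⟨pd_pos hS (mem_powerset.1 a), b⟩)
      · exact pd_inj hS (mem_powerset.1 (mem_filter.1 (mem_coe.1 hs)).1)
          (mem_powerset.1 (mem_filter.1 (mem_coe.1 ht)).1) e
    rw [Nat.card_Icc, Nat.add_sub_cancel] at h1
    rw [nsmul_eq_mul, mul_one]
    exact_mod_cast h1

/-- the divisor sum of sieve weights -/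
noncomputable def wt (S : Finset ℕ) (l : Finset ℕ → ℝ) (n : ℕ) : ℝ :=
  ∑ s ∈ S.powerset, if pd s ∣ n then l s else 0

lemma wt_eq (hS : ∀ p ∈ S, p.Prime) (l : Finset ℕ → ℝ) (n : ℕ) :
    ∑ s ∈ (S.filter fun p => p ∣ n).powerset, l s = wt S l n := by
  rw [wt, ← sum_filter]
  refine sum_congr ?_ fun _ _ => rfl
  ext s
  simp only [mem_powerset, mem_filter]
  constructor
  · intro h
    have a : s ⊆ S := h.trans (filter_subset _ _)
    exact ⟨a, (pd_dvd hS a).2 fun p hp => (mem_filter.1 (h hp)).2⟩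
  · rintro ⟨a, b⟩ p hp
    exact mem_filter.2 ⟨a hp, (pd_dvd hS a).1 b p hp⟩

lemma cnt {a x : ℕ} (hax : a ≤ x) {q : ℕ} (hq : 0 < q) (ρ : ℕ) :
    |(((Ioc a x).filter (fun n => n ≡ ρ [MOD q])).card : ℝ) - ((x : ℝ) - a) / q| ≤ 1 := by
  have h := Nat.Ioc_filter_modEq_card a x hq ρ
  have hq' : (0 : ℚ) < q := by exact_mod_cast hq
  have hle : ⌊((a : ℚ) - ρ) / q⌋ ≤ ⌊((x : ℚ) - ρ) / q⌋ :=
    Int.floor_le_floor (div_le_div_of_nonneg_right (by
      have : (a : ℚ) ≤ x := by exact_mod_cast hax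
      linarith) hq'.le)
  rw [max_eq_left (by omega)] at h
  have h1 := Int.floor_le (((x : ℚ) - ρ) / q)
  have h2 := Int.lt_floor_add_one (((x : ℚ) - ρ) / q)
  have h3 := Int.floor_le (((a : ℚ) - ρ) / q)
  have h4 := Int.lt_floor_add_one (((a : ℚ) - ρ) / q)
  have h5 : ((((Ioc a x).filter (fun n => n ≡ ρ [MOD q])).card : ℤ) : ℚ) =
      (⌊((x : ℚ) - ρ) / q⌋ : ℚ) - ⌊((a : ℚ) - ρ) / q⌋ := by rw [h]; push_cast; rfl
  have h6 : ((x : ℚ) - a) / q = ((x : ℚ) - ρ) / q - ((a : ℚ) - ρ) / q := by ring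
  have h7 : |((((Ioc a x).filter (fun n => n ≡ ρ [MOD q])).card : ℤ) : ℚ) - ((x : ℚ) - a) / q| ≤ 1 := by
    rw [h5, h6, abs_le]; constructor <;> linarith
  have h8 := (Rat.cast_le (K := ℝ)).2 h7
  push_cast at h8
  exact h8

/-- the sum of a sieve divisor sum over a residue class -/
lemma wt_class (hS : ∀ p ∈ S, p.Prime) {q : ℕ} (hq : 0 < q) (hSq : ∀ p ∈ S, ¬ p ∣ q)
    (l : Finset ℕ → ℝ) (Y : ℕ) (h1 : ∀ s, |l s| ≤ 1) (h2 : ∀ s, l s ≠ 0 → pd s ≤ Y)
    {a x : ℕ} (hax : a ≤ x) (ρ : ℕ) :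
    |∑ n ∈ (Ioc a x).filter (fun n => n ≡ ρ [MOD q]), wt S l n -
      ((x : ℝ) - a) / q * ∑ s ∈ S.powerset, l s / pd s| ≤ Y := by
  simp only [wt]
  rw [sum_comm, mul_sum, ← sum_sub_distrib]
  refine abs_sum_le hS Y _ fun s hs h0 => ?_
  have hco : q.Coprime (pd s) := Nat.Coprime.prod_right fun p hp =>
    ((Nat.Prime.coprime_iff_not_dvd (hS p (hs hp))).2 (hSq p (hs hp))).symm
  obtain ⟨k, hk1, hk2⟩ := Nat.chineseRemainder hco ρ 0
  have hp0 : (0 : ℝ) < pd s := by exact_mod_cast pd_pos hS hs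
  have e : ∑ n ∈ (Ioc a x).filter (fun n => n ≡ ρ [MOD q]), (if pd s ∣ n then l s else 0) -
      ((x : ℝ) - a) / q * (l s / pd s) =
      l s * ((((Ioc a x).filter (fun n => n ≡ k [MOD q * pd s])).card : ℝ) -
        ((x : ℝ) - a) / (q * pd s : ℕ)) := by
    rw [← sum_filter, filter_filter, sum_const, nsmul_eq_mul]
    have : (Ioc a x).filter (fun n => n ≡ ρ [MOD q] ∧ pd s ∣ n) =
        (Ioc a x).filter (fun n => n ≡ k [MOD q * pd s]) := filter_congr fun n _ => by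
      rw [← Nat.modEq_and_modEq_iff_modEq_mul hco, ← Nat.modEq_zero_iff_dvd]
      exact ⟨fun h => ⟨h.1.trans hk1.symm, h.2.trans hk2.symm⟩,
        fun h => ⟨h.1.trans hk1, h.2.trans hk2⟩⟩
    rw [this]
    push_cast
    field_simp
  rw [e] at h0 ⊢
  refine ⟨h2 s (left_ne_zero_of_mul h0), ?_⟩
  rw [abs_mul]
  exact mul_le_one₀ (h1 s) (abs_nonneg _) (cnt hax (Nat.mul_pos hq (pd_pos hS hs)) k)

/-- a sieve divisor sum is a type I sum -/
lemma wt_typeI (hS : ∀ p ∈ S, p.Prime) (l : Finset ℕ → ℝ) (Y : ℕ) (h1 : ∀ s, |l s| ≤ 1)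
    (h2 : ∀ s, l s ≠ 0 → pd s ≤ Y) : ∃ f : ℕ → ℝ, (∀ d, |f d| ≤ 1) ∧ (∀ d, Y < d → f d = 0) ∧
    ∀ (v : ℕ → ℂ) (a b : ℕ), ∑ n ∈ Ioc a b, ((wt S l n : ℝ) : ℂ) * v n =
      ∑ d ∈ Ioc 0 b, ((f d : ℝ) : ℂ) *
        ∑ m ∈ (Ioc 0 b).filter (fun m => a < d * m ∧ d * m ≤ b), v (d * m) := by
  let F : ArithmeticFunction ℝ := ⟨fun d => ∑ s ∈ S.powerset.filter (fun s => pd s = d), l s,
    sum_eq_zero fun s hs => by
      obtain ⟨a, b⟩ := mem_filter.1 hs
      exact absurd b (pd_pos hS (mem_powerset.1 a)).ne'⟩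
  have hF : ∀ d, F d = ∑ s ∈ S.powerset.filter (fun s => pd s = d), l s := fun _ => rfl
  refine ⟨F, fun d => ?_, fun d hd => ?_, fun v a b => ?_⟩
  · rw [hF]
    have hc : (S.powerset.filter (fun s => pd s = d)).card ≤ 1 := card_le_one.2 fun s hs t ht =>
      pd_inj hS (mem_powerset.1 (mem_filter.1 hs).1) (mem_powerset.1 (mem_filter.1 ht).1)
        ((mem_filter.1 hs).2.trans (mem_filter.1 ht).2.symm)
    refine (abs_sum_le_sum_abs _ _).trans ((sum_le_card_nsmul _ _ 1 fun s _ => h1 s).trans ?_)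
    rw [nsmul_eq_mul, mul_one]
    exact_mod_cast hc
  · rw [hF]
    refine sum_eq_zero fun s hs => ?_
    by_contra h0
    have := h2 s h0
    have := (mem_filter.1 hs).2
    omega
  · have h := sum_conv F zeR v a b
    have e1 : ∀ n ∈ Ioc a b, (((F * zeR) n : ℝ) : ℂ) * v n = ((wt S l n : ℝ) : ℂ) * v n := by
      intro n hn
      have hn0 : n ≠ 0 := by have := (mem_Ioc.1 hn).1; omega
      congr 2
      rw [zeR, ArithmeticFunction.coe_mul_zeta_apply, wt]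
      simp only [hF, sum_filter]
      rw [sum_comm]
      refine sum_congr rfl fun s _ => ?_
      rw [sum_ite_eq]
      simp [hn0]
    rw [sum_congr rfl e1] at h
    rw [h]
    refine sum_congr rfl fun d _ => ?_
    congr 1
    refine sum_congr rfl fun m hm => ?_
    rw [zeR_apply (mem_Ioc.1 (mem_filter.1 hm).1).1.ne']
    simp

end gen

/-- the weights for a set of primes `≤ z` -/
lemma weights : ∃ C : ℝ, 1 ≤ C ∧ ∀ (z m : ℕ) (S : Finset ℕ), 1 ≤ z → (∀ p ∈ S, p.Prime ∧ p ≤ z) →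
    ∃ lp lm : Finset ℕ → ℝ,
      (∀ n, wt S lm n ≤ (if ∀ p ∈ S, ¬ p ∣ n then (1 : ℝ) else 0) ∧
        (if ∀ p ∈ S, ¬ p ∣ n then (1 : ℝ) else 0) ≤ wt S lp n) ∧
      (∀ s, |lp s| ≤ 1) ∧ (∀ s, |lm s| ≤ 1) ∧ (∀ s, lp s ≠ 0 → pd s ≤ z ^ (6 * (m + 1))) ∧
      (∀ s, lm s ≠ 0 → pd s ≤ z ^ (6 * (m + 1))) ∧
      ∑ s ∈ S.powerset, lp s / pd s - ∑ s ∈ S.powerset, lm s / pd s ≤
        C / 2 ^ m * ∏ p ∈ S, (1 - 1 / (p : ℝ)) ∧
      ∑ s ∈ S.powerset, lm s / pd s ≤ ∏ p ∈ S, (1 - 1 / (p : ℝ)) ∧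
      ∏ p ∈ S, (1 - 1 / (p : ℝ)) ≤ ∑ s ∈ S.powerset, lp s / pd s := by
  obtain ⟨C, hC, H⟩ := R26.BH.bh'
  refine ⟨C, hC, fun z m S hz hS => ?_⟩
  obtain ⟨lp, lm, a1, a2, a3, a4, a5, a6⟩ := H z m S hz hS
  refine ⟨lp, lm, fun n => ?_, fun s => (a2 s).1, fun s => (a2 s).2,
    fun s h => (a3 s (Or.inl h)).2, fun s h => (a3 s (Or.inr h)).2, ?_, a5, a6⟩
  · have h := a1 (S.filter fun p => p ∣ n) (filter_subset _ _)
    rw [wt_eq (fun p hp => (hS p hp).1), wt_eq (fun p hp => (hS p hp).1)] at h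
    simpa only [filter_eq_empty_iff] using h
  · simpa only [sub_div, sum_sub_distrib] using a4

lemma nu_eq (z n : ℕ) :
    nu z n = (V z)⁻¹ * if ∀ p ∈ Nat.primesLE z, ¬ p ∣ n then (1 : ℝ) else 0 := by
  unfold nu Rough; split_ifs <;> simp

/-- the model in residue classes to small moduli -/
lemma nu_class : ∃ C : ℝ, 1 ≤ C ∧ ∀ (z m q ρ a x : ℕ), 1 ≤ q → q ≤ z → a ≤ x →
    |∑ n ∈ (Ioc a x).filter (fun n => n ≡ ρ [MOD q]), nu z n -
      (if ρ.Coprime q then ((x : ℝ) - a) / q.totient else 0)| ≤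
      ((x : ℝ) - a) * (C / 2 ^ m) + (V z)⁻¹ * (z ^ (6 * (m + 1)) : ℕ) := by
  obtain ⟨C, hC, H⟩ := weights
  refine ⟨C, hC, fun z m q ρ a x hq hqz hax => ?_⟩
  have hxa : (0 : ℝ) ≤ (x : ℝ) - a := sub_nonneg.2 (by exact_mod_cast hax)
  have hVi : 0 < (V z)⁻¹ := inv_pos.2 (V_pos z)
  split_ifs with hco
  swap
  · rw [sum_eq_zero, sub_zero, abs_zero]
    · positivity
    intro n hn
    obtain ⟨p, hp, h1, h2⟩ := Nat.Prime.not_coprime_iff_dvd.1 hco
    refine if_neg fun hr => hr p (Nat.mem_primesLE.2 ⟨(Nat.le_of_dvd hq h2).trans hqz, hp⟩) ?_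
    exact (((mem_filter.1 hn).2.of_dvd h2).dvd_iff dvd_rfl).2 h1
  obtain ⟨S, hS⟩ : ∃ S, S = (Nat.primesLE z).filter (fun p => ¬ p ∣ q) := ⟨_, rfl⟩
  have hS1 : ∀ p ∈ S, p.Prime ∧ p ≤ z := fun p hp => by
    rw [hS] at hp
    exact (Nat.mem_primesLE.1 (mem_filter.1 hp).1).symm
  have hS2 : ∀ p ∈ S, ¬ p ∣ q := fun p hp => by
    rw [hS] at hp
    exact (mem_filter.1 hp).2
  obtain ⟨lp, lm, a1, a2, a3, a4, a5, a6, a7, a8⟩ := H z m S (hq.trans hqz) hS1
  have b1 := wt_class (fun p hp => (hS1 p hp).1) hq hS2 lp _ a2 a4 hax ρ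
  have b2 := wt_class (fun p hp => (hS1 p hp).1) hq hS2 lm _ a3 a5 hax ρ
  have e1 : ∀ n ∈ (Ioc a x).filter (fun n => n ≡ ρ [MOD q]),
      nu z n = (V z)⁻¹ * if ∀ p ∈ S, ¬ p ∣ n then (1 : ℝ) else 0 := fun n hn => by
    rw [nu_eq]
    congr 1
    refine if_congr ⟨fun h p hp => h p (by rw [hS] at hp; exact (mem_filter.1 hp).1),
      fun h p hp hd => ?_⟩ rfl rfl
    by_cases hpq : p ∣ q
    · have h1 : p ∣ ρ := (((mem_filter.1 hn).2.of_dvd hpq).dvd_iff dvd_rfl).1 hd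
      exact Nat.Prime.not_coprime_iff_dvd.2 ⟨p, Nat.prime_of_mem_primesLE hp, h1, hpq⟩ hco
    · exact h p (by rw [hS]; exact mem_filter.2 ⟨hp, hpq⟩) hd
  rw [sum_congr rfl e1, ← mul_sum]
  have c1 := sum_le_sum fun n (_ : n ∈ (Ioc a x).filter (fun n => n ≡ ρ [MOD q])) => (a1 n).1
  have c2 := sum_le_sum fun n (_ : n ∈ (Ioc a x).filter (fun n => n ≡ ρ [MOD q])) => (a1 n).2
  have hq0 : (0 : ℝ) < q := by exact_mod_cast hq
  have hφ1 : (1 : ℝ) ≤ q.totient := by exact_mod_cast Nat.totient_pos.2 hq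
  have hV : V z = (∏ p ∈ S, (1 - 1 / (p : ℝ))) * (q.totient / q) := by
    have h1 : (q.totient : ℝ) = q * ∏ p ∈ q.primeFactors, (1 - 1 / (p : ℝ)) := by
      have := congrArg (Rat.cast : ℚ → ℝ) (Nat.totient_eq_mul_prod_factors q)
      push_cast at this
      simpa only [one_div] using this
    have h2 : (Nat.primesLE z).filter (fun p => p ∣ q) = q.primeFactors := by
      ext p
      simp only [mem_filter, Nat.mem_primesLE, Nat.mem_primeFactors]
      exact ⟨fun h => ⟨h.1.2, h.2, by omega⟩,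
        fun h => ⟨⟨(Nat.le_of_dvd hq h.2.1).trans hqz, h.1⟩, h.2.1⟩⟩
    rw [V, ← prod_filter_mul_prod_filter_not (Nat.primesLE z) (fun p => p ∣ q), h2, ← hS, h1]
    field_simp
  generalize ∑ n ∈ (Ioc a x).filter (fun n => n ≡ ρ [MOD q]),
    (if ∀ p ∈ S, ¬ p ∣ n then (1 : ℝ) else 0) = T at *
  generalize ∑ n ∈ (Ioc a x).filter (fun n => n ≡ ρ [MOD q]), wt S lp n = Tp at *
  generalize ∑ n ∈ (Ioc a x).filter (fun n => n ≡ ρ [MOD q]), wt S lm n = Tm at *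
  generalize ∑ s ∈ S.powerset, lp s / pd s = Wp at *
  generalize ∑ s ∈ S.powerset, lm s / pd s = Wm at *
  generalize ∏ p ∈ S, (1 - 1 / (p : ℝ)) = W at *
  generalize ((z ^ (6 * (m + 1)) : ℕ) : ℝ) = Y at *
  have hc0 : 0 ≤ C / 2 ^ m := by positivity
  generalize C / 2 ^ m = c at *
  generalize (x : ℝ) - a = y at *
  have hW : 0 < W := by
    have := V_pos z
    rw [hV] at this
    rcases lt_or_ge 0 W with h' | h'
    · exact h'
    · exact absurd this (not_lt.2 (mul_nonpos_of_nonpos_of_nonneg h' (by positivity)))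
  have hy : 0 ≤ y / q := by positivity
  have k1 : |T - y / q * W| ≤ y / q * (c * W) + Y := by
    rw [abs_le] at b1 b2 ⊢
    have m1 := mul_le_mul_of_nonneg_left (show Wp ≤ W + c * W by linarith) hy
    have m2 := mul_le_mul_of_nonneg_left (show W - c * W ≤ Wm by linarith) hy
    constructor <;> nlinarith
  have e2 : (V z)⁻¹ * T - y / q.totient = (V z)⁻¹ * (T - y / q * W) := by
    rw [hV]; field_simp
  have e3 : (V z)⁻¹ * (y / q * (c * W)) = y * c / q.totient := by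
    rw [hV]; field_simp
  rw [e2, abs_mul, abs_of_pos hVi]
  refine (mul_le_mul_of_nonneg_left k1 hVi.le).trans ?_
  rw [mul_add, e3]
  have : y * c / q.totient ≤ y * c := div_le_self (by positivity) hφ1
  linarith

/-- the model on the minor arcs -/
lemma nu_minor : ∃ (C : ℝ) (K : ℕ), 1 ≤ C ∧ ∀ (z m a b : ℕ) (α X D : ℝ), 1 ≤ z → a ≤ b → 2 ≤ D →
    0 < X → (b : ℝ) ≤ X → Real.log b ≤ D → (z ^ (6 * (m + 1)) : ℕ) * D ^ K ≤ X →
    ¬ Appr α (D ^ K) (D ^ K / X) →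
    ‖∑ n ∈ Ioc a b, ((nu z n : ℝ) : ℂ) * e (α * n)‖ ≤
      (V z)⁻¹ * (X / D + X * (C / 2 ^ m) + 2 * (z ^ (6 * (m + 1)) : ℕ)) := by
  obtain ⟨C, hC, H⟩ := weights
  obtain ⟨K, hK⟩ := exists_svInv
  refine ⟨C, K, hC, fun z m a b α X D hz hab hD hX hb hL hY hα => ?_⟩
  have hS : ∀ p ∈ Nat.primesLE z, p.Prime := fun p hp => Nat.prime_of_mem_primesLE hp
  obtain ⟨lp, lm, a1, a2, a3, a4, a5, a6, -, -⟩ := H z m (Nat.primesLE z) hz
    fun p hp => (Nat.mem_primesLE.1 hp).symm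
  obtain ⟨f, f1, f2, f3⟩ := wt_typeI hS lp _ a2 a4
  have h1 : ‖∑ n ∈ Ioc a b, ((wt (Nat.primesLE z) lp n : ℝ) : ℂ) * e (α * n)‖ ≤ X / D := by
    by_contra hc
    rw [not_le, div_lt_iff₀ (by linarith), mul_comm, f3 (fun n => e (α * n))] at hc
    exact hα (hK α a b _ f X D hD hX hb hL f1 f2 hY hc.le)
  have hq : ∀ p ∈ Nat.primesLE z, ¬ p ∣ 1 := fun p hp => (hS p hp).not_dvd_one
  have b1 := wt_class hS one_pos hq lp _ a2 a4 hab 0
  have b2 := wt_class hS one_pos hq lm _ a3 a5 hab 0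
  simp only [Nat.modEq_one, filter_true, Nat.cast_one, div_one] at b1 b2
  have hVi : 0 < (V z)⁻¹ := inv_pos.2 (V_pos z)
  have e1 : ∑ n ∈ Ioc a b, ((nu z n : ℝ) : ℂ) * e (α * n) = (((V z)⁻¹ : ℝ) : ℂ) *
      (∑ n ∈ Ioc a b, ((wt (Nat.primesLE z) lp n : ℝ) : ℂ) * e (α * n) -
      ∑ n ∈ Ioc a b, ((wt (Nat.primesLE z) lp n -
        (if ∀ p ∈ Nat.primesLE z, ¬ p ∣ n then (1 : ℝ) else 0) : ℝ) : ℂ) * e (α * n)) := by
    rw [← sum_sub_distrib, mul_sum]
    refine sum_congr rfl fun n _ => ?_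
    rw [nu_eq]; push_cast; ring
  have h2 : ‖∑ n ∈ Ioc a b, ((wt (Nat.primesLE z) lp n -
        (if ∀ p ∈ Nat.primesLE z, ¬ p ∣ n then (1 : ℝ) else 0) : ℝ) : ℂ) * e (α * n)‖ ≤
      ∑ n ∈ Ioc a b, wt (Nat.primesLE z) lp n - ∑ n ∈ Ioc a b, wt (Nat.primesLE z) lm n := by
    rw [← sum_sub_distrib]
    refine (norm_sum_le _ _).trans (sum_le_sum fun n _ => ?_)
    rw [norm_mul, norm_e, mul_one, Complex.norm_real, Real.norm_eq_abs,
      abs_of_nonneg (sub_nonneg.2 (a1 n).2)]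
    linarith [(a1 n).1]
  rw [e1, norm_mul, Complex.norm_real, Real.norm_eq_abs, abs_of_pos hVi]
  refine mul_le_mul_of_nonneg_left ((norm_sub_le _ _).trans ?_) hVi.le
  have hc0 : 0 ≤ C / 2 ^ m := by positivity
  have hba : (0 : ℝ) ≤ (b : ℝ) - a := sub_nonneg.2 (by exact_mod_cast hab)
  have hba' : (b : ℝ) - a ≤ X := by linarith [(Nat.cast_nonneg a : (0 : ℝ) ≤ a)]
  have a7 : C / 2 ^ m * ∏ p ∈ Nat.primesLE z, (1 - 1 / (p : ℝ)) ≤ C / 2 ^ m :=
    mul_le_of_le_one_right hc0 (V_le_one z)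
  have m1 := mul_le_mul_of_nonneg_left (a6.trans a7) hba
  have m2 := mul_le_mul_of_nonneg_right hba' hc0
  rw [abs_le] at b1 b2
  rw [mul_sub] at m1
  linarith [b1.2, b2.1]

/-- Mertens: the normalisation is small -/
lemma V_inv_le : ∃ C : ℝ, 0 < C ∧ ∀ z : ℕ, 2 ≤ z → (V z)⁻¹ ≤ C * Real.log z ^ 2 := by
  obtain ⟨C, hC, h, -⟩ := R5.mertens
  have hl2 : 0 < Real.log 2 := Real.log_pos (by norm_num)
  refine ⟨Real.exp (2 * (1 / 2 + C / Real.log 2 - Real.log (Real.log 2))), Real.exp_pos _,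
    fun z hz => ?_⟩
  have hz' : (2 : ℝ) ≤ z := by exact_mod_cast hz
  have hl : 0 < Real.log z := Real.log_pos (by linarith)
  have h1 := (abs_le.1 (h 2 z le_rfl hz')).2
  have h2 : ∑ p ∈ Nat.primesLE z, 1 / (p : ℝ) ≤ 1 / 2 + ∑ p ∈ pr 2 z, 1 / (p : ℝ) := by
    have : Nat.primesLE z ⊆ insert 2 (pr 2 z) := fun p hp => by
      obtain ⟨a, b⟩ := Nat.mem_primesLE.1 hp
      rcases b.two_le.eq_or_lt with h | h
      · exact h ▸ mem_insert_self _ _
      · refine mem_insert_of_mem ?_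
        rw [pr, mem_filter, mem_Icc, Nat.floor_natCast]
        exact ⟨⟨b.pos, a⟩, b, by exact_mod_cast h⟩
    refine (sum_le_sum_of_subset_of_nonneg this fun _ _ _ => by positivity).trans ?_
    rw [sum_insert (by rw [pr, mem_filter]; simp)]
    simp
  have h3 : (V z)⁻¹ ≤ Real.exp (2 * ∑ p ∈ Nat.primesLE z, 1 / (p : ℝ)) := by
    rw [V, ← prod_inv_distrib, mul_sum, Real.exp_sum]
    refine prod_le_prod (fun p hp => ?_) fun p hp => ?_
    · exact inv_nonneg.2 (sub_nonneg.2 (R26.BH.w01 p).2)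
    · have h4 : (2 : ℝ) ≤ p := by exact_mod_cast (Nat.prime_of_mem_primesLE hp).two_le
      have h5 : 1 / (p : ℝ) ≤ 1 / 2 := one_div_le_one_div_of_le (by norm_num) h4
      have h6 : (0 : ℝ) ≤ 1 / (p : ℝ) := by positivity
      generalize 1 / (p : ℝ) = t at *
      refine le_trans ?_ (Real.add_one_le_exp _)
      rw [inv_le_iff_one_le_mul₀ (by linarith)]
      nlinarith
  refine h3.trans ?_
  rw [← Real.exp_log (pow_pos hl 2), ← Real.exp_add, Real.log_pow]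
  refine Real.exp_le_exp.2 ?_
  push_cast
  linarith

end Crest.Agent.T15.Fb
end

-- ▼ part T15/FbC_98
section

/-!
# Row 15, block Q, (K4): the primes in residue classes and the Fourier bound (helper98)
-/

set_option autoImplicit false
set_option maxHeartbeats 400000

open Finset Filter

namespace Crest.Agent.T15.Fb

open Crest.Agent.N41.Exp

lemma ev_log (c : ℝ) : ∀ᶠ N : ℕ in atTop, c ≤ Real.log N :=
  (Real.tendsto_log_atTop.comp tendsto_natCast_atTop_atTop).eventually_ge_atTop c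

lemma ev_pow (c : ℝ) (k : ℕ) : ∀ᶠ x : ℝ in atTop, c * Real.log x ^ k ≤ x := by
  have h := (Real.tendsto_pow_log_div_mul_add_atTop 1 0 k one_ne_zero).eventually_le_const
    (u := 1 / (|c| + 1)) (by positivity)
  filter_upwards [h, eventually_ge_atTop (1 : ℝ)] with x hx hx1
  have hl : 0 ≤ Real.log x ^ k := pow_nonneg (Real.log_nonneg hx1) k
  rw [one_mul, add_zero, div_le_div_iff₀ (by linarith) (by positivity)] at hx
  nlinarith [le_abs_self c]

lemma ev_sqrt (c : ℝ) (k : ℕ) : ∀ᶠ N : ℕ in atTop, c * Real.log N ^ k ≤ √(N : ℝ) := by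
  filter_upwards [tendsto_natCast_atTop_atTop.eventually (ev_pow (c ^ 2) (2 * k))] with N hN
  refine Real.le_sqrt_of_sq_le ?_
  rw [mul_pow, ← pow_mul, mul_comm k]
  exact hN

lemma ev_loglog (c : ℝ) : ∀ᶠ N : ℕ in atTop, c * Real.log (Real.log N) ^ 2 ≤ Real.log N :=
  (Real.tendsto_log_atTop.comp tendsto_natCast_atTop_atTop).eventually (ev_pow c 2)

lemma level (B' J : ℕ) : ∀ᶠ N : ℕ in atTop, ∃ m : ℕ, Real.log N ^ J ≤ 2 ^ m ∧
    ∀ z : ℕ, (z : ℝ) ≤ Real.log N ^ B' → ((z ^ (6 * (m + 1)) : ℕ) : ℝ) ≤ √(N : ℝ) := by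
  filter_upwards [ev_loglog (12 * B' * (3 * J + 1)), ev_log 3, eventually_ge_atTop 1]
    with N h1 h2 hN
  have hN0 : (0 : ℝ) < N := by exact_mod_cast hN
  obtain ⟨L, hL⟩ : ∃ L, L = Real.log N := ⟨_, rfl⟩
  rw [← hL] at h1 h2 ⊢
  have hL0 : 0 < L := by linarith
  obtain ⟨u, hu⟩ : ∃ u, u = Real.log L := ⟨_, rfl⟩
  have hu1 : 1 ≤ u := by
    rw [hu, Real.le_log_iff_exp_le hL0]
    linarith [Real.exp_one_lt_d9]
  rw [← hu] at h1
  obtain ⟨t, ht⟩ : ∃ t : ℕ, t = ⌈2 * u⌉₊ := ⟨_, rfl⟩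
  have ht1 : 2 * u ≤ t := ht ▸ Nat.le_ceil _
  have ht2 : (t : ℝ) ≤ 3 * u := by
    have : (t : ℝ) < 2 * u + 1 := ht ▸ Nat.ceil_lt_add_one (by linarith)
    linarith
  have hLe : L = Real.exp u := by rw [hu, Real.exp_log hL0]
  refine ⟨t * J, ?_, fun z hz => ?_⟩
  · rw [pow_mul]
    refine pow_le_pow_left₀ hL0.le ?_ J
    rw [hLe, ← Real.exp_log (show (0 : ℝ) < 2 by norm_num), ← Real.exp_nat_mul]
    refine Real.exp_le_exp.2 ?_
    nlinarith [Real.log_two_gt_d9]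
  · have e1 : √(N : ℝ) = Real.exp (L / 2) := by
      rw [Real.exp_half, hL, Real.exp_log hN0]
    push_cast
    refine (pow_le_pow_left₀ (Nat.cast_nonneg z) hz _).trans ?_
    rw [e1, ← pow_mul]
    conv_lhs => rw [hLe]
    rw [← Real.exp_nat_mul]
    refine Real.exp_le_exp.2 ?_
    push_cast
    have hJ : (0 : ℝ) ≤ J := Nat.cast_nonneg J
    have hB : (0 : ℝ) ≤ B' := Nat.cast_nonneg B'
    have h3 : (t : ℝ) * J + 1 ≤ (3 * J + 1) * u := by nlinarith
    have h4 := mul_le_mul_of_nonneg_left h3 (show 0 ≤ 6 * (B' : ℝ) * u by positivity)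
    nlinarith

lemma th_le_vm (n : ℕ) : th n ≤ ArithmeticFunction.vonMangoldt n := by
  unfold th; split_ifs with h
  · rw [ArithmeticFunction.vonMangoldt_apply_prime h]
  · exact ArithmeticFunction.vonMangoldt_nonneg

lemma vm_sub_th {I : Finset ℕ} {N : ℕ} (hN : 1 ≤ N) (hI : I ⊆ Ioc 0 N) :
    ∑ n ∈ I, (ArithmeticFunction.vonMangoldt n - th n) ≤ 2 * √(N : ℝ) * Real.log N := by
  refine (sum_le_sum_of_subset_of_nonneg hI fun n _ _ => sub_nonneg.2 (th_le_vm n)).trans ?_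
  have h := Chebyshev.psi_sub_theta_le (x := N) (by exact_mod_cast hN)
  rw [Chebyshev.psi, Chebyshev.theta, Nat.floor_natCast, sum_filter] at h
  rw [sum_sub_distrib]
  exact h

lemma sqrt_small {N : ℕ} {c L : ℝ} {k : ℕ} (hL : 0 < L) (h : c * L ^ k ≤ √(N : ℝ)) :
    c * √(N : ℝ) ≤ N / L ^ k := by
  rw [le_div_iff₀ (pow_pos hL k)]
  have := mul_le_mul_of_nonneg_left h (Real.sqrt_nonneg (N : ℝ))
  rw [Real.mul_self_sqrt (Nat.cast_nonneg N)] at this
  linarith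

/-- Siegel-Walfisz, uniformly in the endpoint -/
lemma th_class (A K : ℕ) : ∀ᶠ N : ℕ in atTop, ∀ q ρ x : ℕ, 1 ≤ q → (q : ℝ) ≤ Real.log N ^ K →
    x ≤ N → |∑ n ∈ (Ioc 0 x).filter (fun n => n ≡ ρ [MOD q]), th n -
      (if ρ.Coprime q then (x : ℝ) / q.totient else 0)| ≤ N / Real.log N ^ A := by
  obtain ⟨C, hC⟩ := SW.psiAP_holds ((A + 1 : ℕ) : ℝ) ((2 * K : ℕ) : ℝ)
  filter_upwards [ev_log 4, ev_log (2 ^ (A + 2) * |C|), ev_sqrt 4 (A + 1), eventually_ge_atTop 1]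
    with N h1 h2 h3 hN q ρ x hq hqL hx
  have hN0 : (0 : ℝ) < N := by exact_mod_cast hN
  have hN1 : (1 : ℝ) ≤ N := by exact_mod_cast hN
  have hs1 : 1 ≤ √(N : ℝ) := Real.one_le_sqrt.2 hN1
  have hxN : (x : ℝ) ≤ N := by exact_mod_cast hx
  have hsub : (Ioc 0 x).filter (fun n => n ≡ ρ [MOD q]) ⊆ Ioc 0 N :=
    (filter_subset _ _).trans (Ioc_subset_Ioc_right hx)
  have hd := vm_sub_th hN hsub
  have hth : ∀ n ∈ (Ioc 0 x).filter (fun n => n ≡ ρ [MOD q]), th n ≤ Real.log N :=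
    fun n hn => th_le (mem_Ioc.1 (hsub hn)).2
  obtain ⟨L, hL⟩ : ∃ L, L = Real.log N := ⟨_, rfl⟩
  rw [← hL] at h1 h2 h3 hqL hd hth ⊢
  have hL0 : 0 < L := by linarith
  have h4 : 4 * L * √(N : ℝ) ≤ N / L ^ A := sqrt_small hL0 (by rw [pow_succ] at h3; linarith)
  have h5 : L ≤ L * √(N : ℝ) := le_mul_of_one_le_right hL0.le hs1
  have h6 : √(N : ℝ) ≤ L * √(N : ℝ) := le_mul_of_one_le_left (by linarith) (by linarith)
  have hT0 : 0 ≤ ∑ n ∈ (Ioc 0 x).filter (fun n => n ≡ ρ [MOD q]), th n :=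
    sum_nonneg fun n _ => th_nonneg n
  split_ifs with hco
  swap
  · obtain ⟨p, hp, d1, d2⟩ := Nat.Prime.not_coprime_iff_dvd.1 hco
    rw [sub_zero, abs_of_nonneg hT0, ← sum_filter_of_ne (p := fun n => n = p) (fun n hn h0 =>
      ((Nat.prime_dvd_prime_iff_eq hp (prime_of_th_ne h0)).1
        ((((mem_filter.1 hn).2.of_dvd d2).dvd_iff dvd_rfl).2 d1)).symm)]
    refine (sum_le_card_nsmul _ _ L fun n hn => hth n (mem_filter.1 hn).1).trans ?_
    have hc : (((Ioc 0 x).filter (fun n => n ≡ ρ [MOD q])).filter (fun n => n = p)).card ≤ 1 :=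
      card_le_one.2 fun s hs t ht => (mem_filter.1 hs).2.trans (mem_filter.1 ht).2.symm
    have hc' : ((((Ioc 0 x).filter (fun n => n ≡ ρ [MOD q])).filter (fun n => n = p)).card : ℝ) ≤ 1 := by
      exact_mod_cast hc
    rw [nsmul_eq_mul]
    nlinarith
  have hφ1 : (1 : ℝ) ≤ q.totient := by exact_mod_cast Nat.totient_pos.2 hq
  have hx0 : (0 : ℝ) ≤ x := Nat.cast_nonneg x
  rcases le_or_gt (x : ℝ) √(N : ℝ) with hxs | hxs
  · have b1 : ∑ n ∈ (Ioc 0 x).filter (fun n => n ≡ ρ [MOD q]), th n ≤ √(N : ℝ) * L := by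
      refine (sum_le_card_nsmul _ _ L hth).trans ?_
      have hc := card_le_card (filter_subset (fun n => n ≡ ρ [MOD q]) (Ioc 0 x))
      rw [Nat.card_Ioc, Nat.sub_zero] at hc
      rw [nsmul_eq_mul]
      exact mul_le_mul_of_nonneg_right (le_trans (by exact_mod_cast hc) hxs) hL0.le
    have b2 : (x : ℝ) / q.totient ≤ x := div_le_self hx0 hφ1
    have b3 : 0 ≤ (x : ℝ) / q.totient := by positivity
    rw [abs_le]
    constructor <;> nlinarith
  · have hl : L / 2 ≤ Real.log x := by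
      rw [hL, ← Real.log_sqrt hN0.le]
      exact Real.log_le_log (by linarith) hxs.le
    have hx2 : (2 : ℝ) ≤ x := by
      have := Real.log_le_sub_one_of_pos (show (0 : ℝ) < x by linarith)
      linarith
    have key := hC x hx2 q hq (by
      rw [Real.rpow_natCast, pow_mul]
      refine hqL.trans (pow_le_pow_left₀ hL0.le ?_ K)
      nlinarith) ρ hco
    rw [Real.rpow_natCast, Nat.floor_natCast,
      show Icc 1 x = Ioc 0 x from by ext n; simp only [mem_Icc, mem_Ioc]; omega] at key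
    have b1 : C * x / Real.log x ^ (A + 1) ≤ N / L ^ A / 2 := by
      have hp : 0 < (L / 2) ^ (A + 1) := by positivity
      calc C * x / Real.log x ^ (A + 1) ≤ |C| * N / (L / 2) ^ (A + 1) := by
            refine div_le_div₀ (by positivity) ?_ hp (pow_le_pow_left₀ (by linarith) hl _)
            exact (mul_le_mul_of_nonneg_right (le_abs_self C) hx0).trans
              (mul_le_mul_of_nonneg_left hxN (abs_nonneg C))
        _ = N / L ^ A / 2 * (2 ^ (A + 2) * |C| / L) := by rw [div_pow]; field_simp; ring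
        _ ≤ N / L ^ A / 2 * 1 := by
            refine mul_le_mul_of_nonneg_left ?_ (by positivity)
            rwa [div_le_one hL0]
        _ = _ := mul_one _
    have b2 : 0 ≤ ∑ n ∈ (Ioc 0 x).filter (fun n => n ≡ ρ [MOD q]),
        (ArithmeticFunction.vonMangoldt n - th n) := sum_nonneg fun n _ => sub_nonneg.2 (th_le_vm n)
    rw [sum_sub_distrib] at hd b2
    rw [abs_le] at key ⊢
    constructor <;> nlinarith [key.1, key.2]

lemma pw_anti {N L : ℝ} (hN : 0 ≤ N) (hL : 1 ≤ L) {i j : ℕ} (h : j ≤ i) : N / L ^ i ≤ N / L ^ j :=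
  div_le_div_of_nonneg_left hN (by positivity) (pow_le_pow_right₀ hL h)

lemma pw_step {N L c : ℝ} (hN : 0 ≤ N) (hL : 0 < L) (hc : c ≤ L) (i : ℕ) :
    c * (N / L ^ (i + 1)) ≤ N / L ^ i := by
  have : N / L ^ i = L * (N / L ^ (i + 1)) := by field_simp; ring
  rw [this]
  exact mul_le_mul_of_nonneg_right hc (by positivity)

/-- **the Fourier bound** -/
theorem fb : FbStmt := by
  intro A
  obtain ⟨K0, hK0⟩ := exists_primeWeylInv 1 le_rfl
  obtain ⟨C1, K1, hC1, H1⟩ := nu_minor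
  obtain ⟨C2, hC2, H2⟩ := nu_class
  obtain ⟨C3, hC3, H3⟩ := V_inv_le
  obtain ⟨K, hK⟩ : ∃ K, K = K0 + K1 := ⟨_, rfl⟩
  obtain ⟨R, hR⟩ : ∃ R, R = 2 * ((A + 2) * K) + A := ⟨_, rfl⟩
  refine ⟨(A + 2) * K + 1, fun B' => ?_⟩
  filter_upwards [th_class (R + 1) ((A + 2) * K), level B' (R + 2), ev_log 32, ev_log (3 + C1),
    ev_log C2, ev_loglog (C3 * B' ^ 2), ev_sqrt 4 (R + 2), eventually_ge_atTop 1]
    with N hth hlev l1 l2 l3 l4 l5 hN z hz1 hz2
  obtain ⟨m, hm1, hm2⟩ := hlev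
  have hY := hm2 z hz2
  have hN0 : (0 : ℝ) < N := by exact_mod_cast hN
  have hlogb : ∀ b : ℕ, b ≤ N → Real.log b ≤ Real.log N := fun b hb => by
    rcases Nat.eq_zero_or_pos b with rfl | h
    · simpa using Real.log_natCast_nonneg N
    · exact Real.log_le_log (by exact_mod_cast h) (by exact_mod_cast hb)
  have hvt := fun (a b : ℕ) (hb : b ≤ N) => vm_sub_th (I := Ioc a b) hN
    (Ioc_subset_Ioc (Nat.zero_le a) hb)
  obtain ⟨L, hL⟩ : ∃ L, L = Real.log N := ⟨_, rfl⟩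
  rw [← hL] at hth hm1 l1 l2 l3 l4 l5 hz1 hz2 hlogb hvt ⊢
  have hL0 : 0 < L := by linarith
  have hL1 : 1 ≤ L := by linarith
  have hzL : L ≤ z := (le_self_pow₀ hL1 (by omega)).trans hz1
  have hz2' : 2 ≤ z := by
    have : (2 : ℝ) ≤ z := by linarith
    exact_mod_cast this
  have hVL : (V z)⁻¹ ≤ L := by
    refine (H3 z hz2').trans (le_trans ?_ l4)
    have h1 : Real.log z ≤ B' * Real.log L := by
      rw [← Real.log_pow]; exact Real.log_le_log (by linarith) hz2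
    have h2 := pow_le_pow_left₀ (Real.log_natCast_nonneg z) h1 2
    rw [mul_pow] at h2
    rw [mul_assoc]
    exact mul_le_mul_of_nonneg_left h2 hC3.le
  refine ⟨hVL, fun a b M r α hM hb => ?_⟩
  have hVi : 0 < (V z)⁻¹ := inv_pos.2 (V_pos z)
  obtain ⟨γ, hγ⟩ := exists_linear_twist (Ioc a b) (fun n => ((th n - nu z n : ℝ) : ℂ))
    (Polynomial.C α * Polynomial.X) M r hM
  simp only [← add_mul, ← Polynomial.C_add, lin_eval] at hγ
  refine hγ.trans ?_
  generalize α + γ = β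
  rcases lt_or_ge b a with hab | hab
  · rw [Ioc_eq_empty (by omega), sum_empty, norm_zero]; positivity
  have hbN : (b : ℝ) ≤ N := by exact_mod_cast hb
  have ha0 : (0 : ℝ) ≤ a := Nat.cast_nonneg a
  have hab' : (a : ℝ) ≤ b := by exact_mod_cast hab
  obtain ⟨D, hD⟩ : ∃ D, D = L ^ (A + 2) := ⟨_, rfl⟩
  have hLD : L ≤ D := hD ▸ le_self_pow₀ hL1 (by omega)
  have hD2 : 2 ≤ D := by linarith
  have hD1 : 1 ≤ D := by linarith
  have hs0 : 0 ≤ √(N : ℝ) := Real.sqrt_nonneg _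
  have s1 : 4 * L * √(N : ℝ) ≤ N / L ^ (R + 1) :=
    sqrt_small hL0 (by rw [pow_succ] at l5; linarith)
  have hm3 : ∀ c : ℝ, 0 ≤ c → (N : ℝ) * (c / 2 ^ m) ≤ c * (N / L ^ (R + 2)) := fun c hc => by
    have := div_le_div_of_nonneg_left hN0.le (pow_pos hL0 _) hm1
    calc (N : ℝ) * (c / 2 ^ m) = c * (N / 2 ^ m) := by ring
      _ ≤ _ := mul_le_mul_of_nonneg_left this hc
  have hVY : (V z)⁻¹ * ((z ^ (6 * (m + 1)) : ℕ) : ℝ) ≤ L * √(N : ℝ) :=
    mul_le_mul hVL hY (Nat.cast_nonneg _) hL0.le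
  have hLs : 0 ≤ L * √(N : ℝ) := by positivity
  by_cases hap : Appr β (D ^ K) (D ^ K / N)
  · have hQ : D ^ K = L ^ ((A + 2) * K) := by rw [hD, pow_mul]
    have key := major (fun n => th n - nu z n) β a b hab hap (E := 4 * (N / L ^ (R + 1)))
      (fun q ρ x hq hqQ hax hxb => by
        rw [hQ] at hqQ
        have hqz : q ≤ z := by
          have := hqQ.trans ((pow_le_pow_right₀ hL1 (Nat.le_succ _)).trans hz1)
          exact_mod_cast this
        have t1 := hth q ρ x hq hqQ (hxb.trans hb)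
        have t2 := hth q ρ a hq hqQ (hab.trans hb)
        have t3 := H2 z m q ρ a x hq hqz hax
        have t4 : ∑ n ∈ (Ioc a x).filter (fun n => n ≡ ρ [MOD q]), th n =
            ∑ n ∈ (Ioc 0 x).filter (fun n => n ≡ ρ [MOD q]), th n -
            ∑ n ∈ (Ioc 0 a).filter (fun n => n ≡ ρ [MOD q]), th n := by
          simp only [sum_filter]
          rw [← sum_Ioc_consecutive _ (Nat.zero_le a) hax]
          ring
        have t5 : (if ρ.Coprime q then ((x : ℝ) - a) / q.totient else 0) =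
            (if ρ.Coprime q then (x : ℝ) / q.totient else 0) -
            (if ρ.Coprime q then (a : ℝ) / q.totient else 0) := by
          split_ifs
          · ring
          · ring
        have t6 : ((x : ℝ) - a) * (C2 / 2 ^ m) ≤ N / L ^ (R + 1) := by
          have : (x : ℝ) ≤ N := by exact_mod_cast hxb.trans hb
          refine (mul_le_mul_of_nonneg_right (show (x : ℝ) - a ≤ N by linarith)
            (by positivity)).trans ((hm3 C2 (by linarith)).trans (pw_step hN0.le hL0 l3 _))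
        rw [sum_sub_distrib, t4]
        rw [t5] at t3
        rw [abs_le] at t1 t2 t3 ⊢
        constructor <;> linarith [t1.1, t1.2, t2.1, t2.2, t3.1, t3.2])
    refine key.trans ?_
    have hQ1 : 1 ≤ D ^ K := one_le_pow₀ hD1
    have u1 : D ^ K / N * ((b : ℝ) - a) ≤ D ^ K := by
      rw [div_mul_eq_mul_div, div_le_iff₀ hN0]
      exact mul_le_mul_of_nonneg_left (by linarith) (by linarith)
    calc D ^ K * (4 * (N / L ^ (R + 1))) * (1 + 7 * (D ^ K / N * ((b : ℝ) - a)))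
        ≤ D ^ K * (4 * (N / L ^ (R + 1))) * (8 * D ^ K) :=
          mul_le_mul_of_nonneg_left (by linarith) (by positivity)
      _ = 32 * (N / L ^ (A + 1)) := by rw [hQ, hR]; field_simp; ring
      _ ≤ _ := pw_step hN0.le hL0 l1 _
  · have mono : ∀ k, k ≤ K → ¬ Appr β (D ^ k) (D ^ k / N) := fun k hk h =>
      hap (h.mono (pow_le_pow_right₀ hD1 hk)
        (div_le_div_of_nonneg_right (pow_le_pow_right₀ hD1 hk) hN0.le))
    have v1 : ‖∑ n ∈ Ioc a b, ((ArithmeticFunction.vonMangoldt n : ℝ) : ℂ) * e (β * n)‖ ≤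
        N / D := by
      by_contra hc
      rw [not_le, div_lt_iff₀ (by linarith), mul_comm] at hc
      have := hK0 (Polynomial.C β * Polynomial.X) (lin_deg β) a b N D hD2 hN0 hbN
        ((hlogb b hb).trans hLD) (by simpa only [lin_eval] using hc.le)
      rw [lin_coeff, pow_one] at this
      exact mono K0 (by omega) this
    have v2 := H1 z m a b β N D (by omega) hab hD2 hN0 hbN ((hlogb b hb).trans hLD) (by
      have w1 : D ^ K1 ≤ √(N : ℝ) := by
        rw [hD, ← pow_mul]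
        have : L ^ ((A + 2) * K1) ≤ L ^ (R + 2) := pow_le_pow_right₀ hL1 (by
          have := Nat.mul_le_mul_left (A + 2) (show K1 ≤ K by omega)
          omega)
        have := pow_pos hL0 (R + 2)
        linarith
      have := mul_le_mul hY w1 (by positivity) hs0
      rwa [Real.mul_self_sqrt hN0.le] at this) (mono K1 (by omega))
    have v3 : ‖∑ n ∈ Ioc a b, ((ArithmeticFunction.vonMangoldt n - th n : ℝ) : ℂ) * e (β * n)‖ ≤
        2 * √(N : ℝ) * L := by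
      refine (norm_sum_le _ _).trans (le_trans (sum_le_sum fun n _ => ?_) (hvt a b hb))
      rw [norm_mul, norm_e, mul_one, Complex.norm_real, Real.norm_eq_abs,
        abs_of_nonneg (sub_nonneg.2 (th_le_vm n))]
    have e1 : ∑ n ∈ Ioc a b, ((th n - nu z n : ℝ) : ℂ) * e (β * n) =
        ∑ n ∈ Ioc a b, ((ArithmeticFunction.vonMangoldt n : ℝ) : ℂ) * e (β * n) -
        ∑ n ∈ Ioc a b, ((ArithmeticFunction.vonMangoldt n - th n : ℝ) : ℂ) * e (β * n) -
        ∑ n ∈ Ioc a b, ((nu z n : ℝ) : ℂ) * e (β * n) := by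
      rw [← sum_sub_distrib, ← sum_sub_distrib]
      refine sum_congr rfl fun n _ => ?_
      push_cast; ring
    rw [e1]
    refine (norm_sub_le _ _).trans ((add_le_add (norm_sub_le _ _) le_rfl).trans ?_)
    have w2 : (N : ℝ) / D ≤ N / L ^ (A + 1) := by rw [hD]; exact pw_anti hN0.le hL1 (by omega)
    have w3 : (V z)⁻¹ * (N / D) ≤ N / L ^ (A + 1) := by
      rw [hD]; exact pw_step hN0.le hL0 hVL _
    have w4 : (N : ℝ) / L ^ (R + 1) ≤ N / L ^ (A + 1) := pw_anti hN0.le hL1 (by omega)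
    have w5 : (V z)⁻¹ * (N * (C1 / 2 ^ m)) ≤ C1 * (N / L ^ (A + 1)) := by
      refine (mul_le_mul_of_nonneg_left (hm3 C1 (by linarith)) hVi.le).trans ?_
      rw [mul_left_comm]
      exact mul_le_mul_of_nonneg_left ((pw_step hN0.le hL0 hVL _).trans w4) (by linarith)
    have w6 := pw_step hN0.le hL0 l2 A
    rw [mul_add, mul_add, mul_left_comm _ (2 : ℝ)] at v2
    linarith

end Crest.Agent.T15.Fb
end

-- ▼ part T15/K4Def_26
section

/-!
# Row 15, block Q, leaf K4: the model of the primes and the Fourier leaf (helper26)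
-/

set_option autoImplicit false

namespace Crest.Agent.T15.K4

open Finset

/-- the logarithm on primes, zero elsewhere -/
noncomputable def lp (n : ℕ) : ℝ := if n.Prime then Real.log n else 0

/-- the density of the `z`-rough numbers -/
noncomputable def V (z : ℕ) : ℝ := ∏ p ∈ Nat.primesLE z, (1 - 1 / (p : ℝ))

/-- no prime factor `≤ z` -/
def Rough (z n : ℕ) : Prop := ∀ p : ℕ, p.Prime → p ≤ z → ¬ p ∣ n

open Classical in
/-- the model: normalised indicator of the `z`-rough numbers -/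
noncomputable def nu (z n : ℕ) : ℝ := if Rough z n then (V z)⁻¹ else 0

/-- `e(x) = exp(2 π i x)` -/
noncomputable def ee (x : ℝ) : ℂ := Complex.exp (2 * Real.pi * Complex.I * x)

/-- the sieving limit `⌊(log N)^B⌋` -/
noncomputable def zz (B N : ℕ) : ℕ := ⌊Real.log N ^ B⌋₊

/-- **Fourier leaf**: the primes and the model have the same exponential sums in every reduced
class, up to an arbitrary power of the logarithm. -/
def FbStmt : Prop := ∀ A : ℕ, ∃ B : ℕ, 1 ≤ B ∧ ∀ q r : ℕ, 0 < q → r.Coprime q →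
  ∃ C : ℝ, ∃ N₀ : ℕ, ∀ N : ℕ, N₀ ≤ N → ∀ α : ℝ,
    ‖∑ n ∈ (Icc 1 N).filter (fun n => n ≡ r [MOD q]),
      ((lp n - nu (zz B N) n : ℝ) : ℂ) * ee (n * α)‖ ≤ C * N / Real.log N ^ A

/-- glue: the Fourier leaf gives the prime pattern -/
def K4Glue : Prop := FbStmt → Q.K4Stmt

end Crest.Agent.T15.K4
end

-- ▼ part T15/Fb_98
section

/-!
# Row 15, block Q, (K4): the Fourier leaf in the words of `K4Def_26` (helper98)
-/

set_option autoImplicit false
set_option maxHeartbeats 400000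

open Finset Filter

namespace Crest.Agent.T15.Fb

lemma nu_eq_k4 (z n : ℕ) : K4.nu z n = nu z n := by
  have h : K4.Rough z n ↔ Rough z n :=
    ⟨fun h p hp => h p (Nat.mem_primesLE.1 hp).2 (Nat.mem_primesLE.1 hp).1,
      fun h p hp hz => h p (Nat.mem_primesLE.2 ⟨hz, hp⟩)⟩
  unfold K4.nu nu
  by_cases hr : Rough z n
  · rw [if_pos hr, if_pos (h.2 hr)]; rfl
  · rw [if_neg hr, if_neg fun h' => hr (h.1 h')]

theorem k4fb : K4.FbStmt := by
  intro A
  obtain ⟨B, hB⟩ := fb A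
  refine ⟨B + 1, by omega, fun q r hq _ => ?_⟩
  have h : ∀ᶠ N : ℕ in atTop, ∀ α : ℝ,
      ‖∑ n ∈ (Icc 1 N).filter (fun n => n ≡ r [MOD q]),
        ((K4.lp n - K4.nu (K4.zz (B + 1) N) n : ℝ) : ℂ) * K4.ee (n * α)‖ ≤
        1 * N / Real.log N ^ A := by
    filter_upwards [hB (B + 1), ev_log 2] with N hN hL α
    have h1 : 1 ≤ Real.log N ^ B := one_le_pow₀ (by linarith)
    have h2 := (hN (K4.zz (B + 1) N) (by
      have := Nat.lt_floor_add_one (Real.log N ^ (B + 1))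
      rw [pow_succ] at this
      rw [K4.zz, pow_succ]
      nlinarith) (Nat.floor_le (by positivity))).2 0 N q r α hq le_rfl
    rw [one_mul, show Icc 1 N = Ioc 0 N from by ext n; simp only [mem_Icc, mem_Ioc]; omega]
    simp only [nu_eq_k4, mul_comm _ α]
    exact h2
  obtain ⟨N₀, hN₀⟩ := eventually_atTop.1 h
  exact ⟨1, N₀, hN₀⟩

end Crest.Agent.T15.Fb
end

-- ▼ part T15/K4A_26
section

/-!
# K4: bilinear bound from a Fourier bound, counting lemma for the complete graph on 4 points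
-/

set_option autoImplicit false

namespace Crest.Agent.T15.K4

open Finset

lemma ee_add (x y : ℝ) : ee (x + y) = ee x * ee y := by
  unfold ee; rw [← Complex.exp_add]; congr 1; push_cast; ring


lemma ee_zero : ee 0 = 1 := by simp [ee]

lemma ee_neg (x : ℝ) : ee (-x) = (starRingEnd ℂ) (ee x) := by
  unfold ee
  rw [← Complex.exp_conj]
  congr 1
  simp [Complex.conj_ofReal, map_ofNat]

lemma ee_nat_mul (t : ℕ) (x : ℝ) : ee (t * x) = ee x ^ t := by
  unfold ee; rw [← Complex.exp_nat_mul]; congr 1; push_cast; ring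

lemma ee_int (k : ℤ) : ee k = 1 := by
  unfold ee
  have : 2 * Real.pi * Complex.I * ((k : ℝ) : ℂ) = k * (2 * Real.pi * Complex.I) := by
    push_cast; ring
  rw [this, Complex.exp_int_mul_two_pi_mul_I]

lemma ee_ne_one {x : ℝ} (h0 : x ≠ 0) (h1 : |x| < 1) : ee x ≠ 1 := by
  unfold ee
  intro h
  obtain ⟨k, hk⟩ := Complex.exp_eq_one_iff.1 h
  have h2 : (x : ℂ) = k := by
    have h3 : (2 * Real.pi * Complex.I : ℂ) ≠ 0 := Complex.two_pi_I_ne_zero
    apply mul_left_cancel₀ h3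
    rw [hk]; ring
  have h4 : x = k := by exact_mod_cast h2
  rw [h4] at h0 h1
  have h5 : |k| < 1 := by exact_mod_cast h1
  have h6 : k ≠ 0 := by intro h; apply h0; rw [h]; simp
  have := abs_pos.2 h6
  omega

/-- orthogonality -/
lemma orth (P : ℕ) (k : ℤ) (hk : |k| < P) :
    ∑ t ∈ range P, ee (k * (t / P)) = if k = 0 then (P : ℂ) else 0 := by
  have hP : (0 : ℝ) < P := by
    have : (0 : ℤ) < P := lt_of_le_of_lt (abs_nonneg k) hk
    exact_mod_cast this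
  split_ifs with h
  · subst h; simp [ee_zero]
  · have h1 : ∀ t : ℕ, ee (k * (t / P)) = ee (k / P) ^ t := by
      intro t; rw [← ee_nat_mul]; congr 1; ring
    simp_rw [h1]
    have h2 : ee (k / P) ≠ 1 := by
      apply ee_ne_one
      · have : (k : ℝ) ≠ 0 := by exact_mod_cast h
        positivity
      · rw [abs_div, abs_of_pos hP, div_lt_one hP]
        exact_mod_cast hk
    rw [geom_sum_eq h2, ← ee_nat_mul]
    have h3 : (P : ℝ) * (k / P) = k := by field_simp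
    rw [h3, ee_int]; simp

/-- Parseval -/
lemma parseval (n P : ℕ) (hP : n ≤ P) (u : ℕ → ℝ) :
    ∑ t ∈ range P, ‖∑ x ∈ range n, (u x : ℂ) * ee (x * (t / P))‖ ^ 2 =
      P * ∑ x ∈ range n, u x ^ 2 := by
  have h1 : ∀ t : ℕ, ((‖∑ x ∈ range n, (u x : ℂ) * ee (x * (t / P))‖ ^ 2 : ℝ) : ℂ) =
      ∑ x ∈ range n, ∑ y ∈ range n, (u x : ℂ) * u y * ee ((((x : ℤ) - y : ℤ) : ℝ) * (t / P)) := by
    intro t
    rw [← Complex.normSq_eq_norm_sq, ← Complex.mul_conj, map_sum, Finset.sum_mul_sum]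
    refine sum_congr rfl fun x _ => sum_congr rfl fun y _ => ?_
    rw [map_mul, Complex.conj_ofReal, ← ee_neg]
    have : ((((x : ℤ) - y : ℤ) : ℝ)) * (t / P) = x * (t / P) + -(y * (t / P)) := by
      push_cast; ring
    rw [this, ee_add]; ring
  apply Complex.ofReal_injective
  push_cast
  have h2 : ∀ t ∈ range P, (((‖∑ x ∈ range n, (u x : ℂ) * ee (x * (t / P))‖ : ℝ) : ℂ)) ^ 2 =
      ∑ x ∈ range n, ∑ y ∈ range n, (u x : ℂ) * u y * ee ((((x : ℤ) - y : ℤ) : ℝ) * (t / P)) := by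
    intro t _
    rw [← h1 t]; push_cast; rfl
  rw [sum_congr rfl h2, sum_comm, mul_sum]
  refine sum_congr rfl fun x hx => ?_
  rw [sum_comm]
  have h3 : ∀ y ∈ range n, ∑ t ∈ range P, (u x : ℂ) * u y * ee ((((x : ℤ) - y : ℤ) : ℝ) * (t / P)) =
      if y = x then (P : ℂ) * (u x : ℂ) ^ 2 else 0 := by
    intro y hy
    rw [← mul_sum, orth P _ (by
      have := mem_range.1 hx; have := mem_range.1 hy
      rw [abs_lt]; constructor <;> omega)]
    by_cases h : y = x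
    · subst h; simp; ring
    · have : (x : ℤ) - y ≠ 0 := by omega
      simp [h, this]
  rw [sum_congr rfl h3, sum_ite_eq' (range n) x, if_pos hx]

/-- difference kernel -/
def ker (h : ℕ → ℝ) (x y : ℕ) : ℝ := if x ≤ y then h (y - x) else 0

/-- the bilinear form of a difference kernel is bounded by the Fourier supremum -/
theorem bilin (n : ℕ) (h u v : ℕ → ℝ) (η K : ℝ)
    (hη : ∀ α : ℝ, ‖∑ m ∈ range n, (h m : ℂ) * ee (m * α)‖ ≤ η)
    (hu : ∀ x, |u x| ≤ K) (hv : ∀ x, |v x| ≤ K) :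
    |∑ x ∈ range n, ∑ y ∈ range n, u x * ker h x y * v y| ≤ η * n * K ^ 2 := by
  rcases Nat.eq_zero_or_pos n with rfl | hn
  · simp
  have hη0 : 0 ≤ η := (norm_nonneg _).trans (hη 0)
  set P := 2 * n with hPdef
  have hP : (0 : ℝ) < P := by rw [hPdef]; positivity
  set U : ℕ → ℂ := fun t => ∑ x ∈ range n, (u x : ℂ) * ee (x * (t / P)) with hU
  set W : ℕ → ℂ := fun t => ∑ x ∈ range n, (v x : ℂ) * ee (x * (t / P)) with hW
  set H : ℕ → ℂ := fun t => ∑ x ∈ range n, (h x : ℂ) * ee (x * (t / P)) with hH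
  have key : ∑ t ∈ range P, U t * H t * (starRingEnd ℂ) (W t) =
      (P : ℂ) * ((∑ x ∈ range n, ∑ y ∈ range n, u x * ker h x y * v y : ℝ) : ℂ) := by
    have h1 : ∀ t ∈ range P, U t * H t * (starRingEnd ℂ) (W t) =
        ∑ x ∈ range n, ∑ y ∈ range n, ∑ m ∈ range n,
          (u x : ℂ) * h m * v y * ee ((((x : ℤ) + m - y : ℤ) : ℝ) * (t / P)) := by
      intro t _
      simp only [hU, hH, hW]
      rw [map_sum, mul_right_comm, sum_mul_sum, sum_mul]
      refine sum_congr rfl fun x _ => ?_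
      rw [sum_mul_sum]
      refine sum_congr rfl fun y _ => sum_congr rfl fun m _ => ?_
      rw [map_mul, Complex.conj_ofReal, ← ee_neg]
      have : ((((x : ℤ) + m - y : ℤ) : ℝ)) * (t / P) =
          x * (t / P) + m * (t / P) + -(y * (t / P)) := by
        push_cast; ring
      rw [this, ee_add, ee_add]; ring
    rw [sum_congr rfl h1, sum_comm]
    push_cast
    rw [mul_sum]
    refine sum_congr rfl fun x hx => ?_
    rw [sum_comm, mul_sum]
    refine sum_congr rfl fun y hy => ?_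
    rw [sum_comm]
    have hx' := mem_range.1 hx
    have hy' := mem_range.1 hy
    have h3 : ∀ m ∈ range n, ∑ t ∈ range P,
        (u x : ℂ) * h m * v y * ee ((((x : ℤ) + m - y : ℤ) : ℝ) * (t / P)) =
        if m = y - x then (if x ≤ y then (P : ℂ) * (u x * h (y - x) * v y) else 0) else 0 := by
      intro m hm
      have hm' := mem_range.1 hm
      rw [← mul_sum, orth P _ (by rw [abs_lt]; constructor <;> omega)]
      by_cases h4 : (x : ℤ) + m - y = 0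
      · have h5 : m = y - x := by omega
        have h6 : x ≤ y := by omega
        rw [if_pos h4, if_pos h5, if_pos h6, h5]; ring
      · rw [if_neg h4]
        by_cases h5 : m = y - x
        · have h6 : ¬ x ≤ y := by omega
          rw [if_pos h5, if_neg h6]; simp
        · rw [if_neg h5]; simp
    have h7 := sum_congr rfl h3
    push_cast at h7
    rw [h7, sum_ite_eq' (range n) (y - x), if_pos (mem_range.2 (by omega))]
    unfold ker
    split_ifs <;> simp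
  have hsq : ∀ w : ℕ → ℝ, (∀ x, |w x| ≤ K) → ∑ x ∈ range n, w x ^ 2 ≤ n * K ^ 2 := by
    intro w hw
    calc ∑ x ∈ range n, w x ^ 2 ≤ ∑ _x ∈ range n, K ^ 2 :=
          sum_le_sum fun x _ => by
            rw [← sq_abs]; exact pow_le_pow_left₀ (abs_nonneg _) (hw x) 2
      _ = n * K ^ 2 := by simp
  have pU := parseval n P (by omega) u
  have pW := parseval n P (by omega) v
  have bound : ‖∑ t ∈ range P, U t * H t * (starRingEnd ℂ) (W t)‖ ≤ P * (η * n * K ^ 2) := by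
    calc _ ≤ ∑ t ∈ range P, ‖U t * H t * (starRingEnd ℂ) (W t)‖ := norm_sum_le _ _
      _ ≤ ∑ t ∈ range P, η / 2 * (‖U t‖ ^ 2 + ‖W t‖ ^ 2) := by
          refine sum_le_sum fun t _ => ?_
          rw [norm_mul, norm_mul, Complex.norm_conj]
          have h1 : ‖H t‖ ≤ η := hη _
          have h2 := norm_nonneg (U t)
          have h3 := norm_nonneg (W t)
          have h4 : ‖U t‖ * ‖H t‖ * ‖W t‖ ≤ η * (‖U t‖ * ‖W t‖) := by
            have := mul_le_mul_of_nonneg_right h1 (mul_nonneg h2 h3)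
            nlinarith
          have h5 : 2 * (‖U t‖ * ‖W t‖) ≤ ‖U t‖ ^ 2 + ‖W t‖ ^ 2 := by
            nlinarith [sq_nonneg (‖U t‖ - ‖W t‖)]
          nlinarith [mul_le_mul_of_nonneg_left h5 hη0]
      _ = η / 2 * (P * ∑ x ∈ range n, u x ^ 2 + P * ∑ x ∈ range n, v x ^ 2) := by
          rw [← mul_sum, sum_add_distrib, pU, pW]
      _ ≤ η / 2 * (P * (n * K ^ 2) + P * (n * K ^ 2)) := by
          have := hsq u hu
          have := hsq v hv
          gcongr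
      _ = P * (η * n * K ^ 2) := by ring
  rw [key, norm_mul, Complex.norm_natCast, Complex.norm_real, Real.norm_eq_abs] at bound
  exact le_of_mul_le_mul_left bound hP

/-- fourfold sum -/
def S4 (s : Finset ℕ) (F : ℕ → ℕ → ℕ → ℕ → ℝ) : ℝ :=
  ∑ a ∈ s, ∑ b ∈ s, ∑ c ∈ s, ∑ d ∈ s, F a b c d

lemma S4_12 (s : Finset ℕ) (F : ℕ → ℕ → ℕ → ℕ → ℝ) : S4 s F = S4 s fun a b c d => F b a c d :=
  sum_comm

lemma S4_23 (s : Finset ℕ) (F : ℕ → ℕ → ℕ → ℕ → ℝ) : S4 s F = S4 s fun a b c d => F a c b d :=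
  sum_congr rfl fun _ _ => sum_comm

lemma S4_34 (s : Finset ℕ) (F : ℕ → ℕ → ℕ → ℕ → ℝ) : S4 s F = S4 s fun a b c d => F a b d c :=
  sum_congr rfl fun _ _ => sum_congr rfl fun _ _ => sum_comm

lemma S4_congr (s : Finset ℕ) {F G : ℕ → ℕ → ℕ → ℕ → ℝ} (h : ∀ a b c d, F a b c d = G a b c d) :
    S4 s F = S4 s G := by
  have : F = G := by funext a b c d; exact h a b c d
  rw [this]

lemma S4_add (s : Finset ℕ) (F G : ℕ → ℕ → ℕ → ℕ → ℝ) :
    S4 s (fun a b c d => F a b c d + G a b c d) = S4 s F + S4 s G := by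
  simp only [S4, sum_add_distrib]

/-- cut bound -/
def Cut (s : Finset ℕ) (H : ℕ → ℕ → ℝ) (K β : ℝ) : Prop :=
  ∀ u v : ℕ → ℝ, (∀ x, |u x| ≤ K) → (∀ x, |v x| ≤ K) →
    |∑ x ∈ s, ∑ y ∈ s, u x * H x y * v y| ≤ β

/-- bounded kernel -/
def Bd (W : ℕ → ℕ → ℝ) (L : ℝ) : Prop := ∀ x y, |W x y| ≤ L

lemma Bd.tr {W : ℕ → ℕ → ℝ} {L : ℝ} (h : Bd W L) : Bd (fun x y => W y x) L := fun x y => h y x

lemma one_edge (s : Finset ℕ) {H A B C D E : ℕ → ℕ → ℝ} {L β : ℝ} (hH : Cut s H (L ^ 2) β)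
    (hA : Bd A L) (hB : Bd B L) (hC : Bd C L) (hD : Bd D L) (hE : Bd E L) :
    |S4 s fun a b c d => E a b * A a c * B b c * C a d * D b d * H c d| ≤
      (s.card : ℝ) ^ 2 * (L * β) := by
  have hL : 0 ≤ L := (abs_nonneg _).trans (hA 0 0)
  have h1 : ∀ a b, |∑ c ∈ s, ∑ d ∈ s, E a b * A a c * B b c * C a d * D b d * H c d| ≤ L * β := by
    intro a b
    have h2 : ∑ c ∈ s, ∑ d ∈ s, E a b * A a c * B b c * C a d * D b d * H c d =
        E a b * ∑ c ∈ s, ∑ d ∈ s, (A a c * B b c) * H c d * (C a d * D b d) := by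
      rw [mul_sum]
      refine sum_congr rfl fun c _ => ?_
      rw [mul_sum]
      exact sum_congr rfl fun d _ => by ring
    have h3 := hH (fun c => A a c * B b c) (fun d => C a d * D b d)
      (fun c => by
        rw [abs_mul, sq]; exact mul_le_mul (hA a c) (hB b c) (abs_nonneg _) hL)
      (fun d => by
        rw [abs_mul, sq]; exact mul_le_mul (hC a d) (hD b d) (abs_nonneg _) hL)
    rw [h2, abs_mul]
    exact mul_le_mul (hE a b) h3 (abs_nonneg _) hL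
  unfold S4
  calc _ ≤ ∑ a ∈ s, |∑ b ∈ s, ∑ c ∈ s, ∑ d ∈ s, E a b * A a c * B b c * C a d * D b d * H c d| :=
        abs_sum_le_sum_abs _ _
    _ ≤ ∑ _a ∈ s, ∑ _b ∈ s, L * β := sum_le_sum fun a _ =>
        (abs_sum_le_sum_abs _ _).trans (sum_le_sum fun b _ => h1 a b)
    _ = (s.card : ℝ) ^ 2 * (L * β) := by simp; ring

/-- weighted count of complete graphs on four points -/
def T4 (s : Finset ℕ) (W01 W02 W12 W03 W13 W23 : ℕ → ℕ → ℝ) : ℝ :=
  S4 s fun a b c d => W01 a b * W02 a c * W12 b c * W03 a d * W13 b d * W23 c d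

/-- **counting lemma** -/
theorem counting (s : Finset ℕ) {F1 F2 F3 F4 F5 F6 G1 G2 G3 G4 G5 G6 : ℕ → ℕ → ℝ} {L β : ℝ}
    (f2 : Bd F2 L) (f3 : Bd F3 L) (f4 : Bd F4 L) (f5 : Bd F5 L) (f6 : Bd F6 L)
    (g1 : Bd G1 L) (g2 : Bd G2 L) (g3 : Bd G3 L) (g4 : Bd G4 L) (g5 : Bd G5 L)
    (c1 : Cut s (fun x y => F1 x y - G1 x y) (L ^ 2) β)
    (c2 : Cut s (fun x y => F2 x y - G2 x y) (L ^ 2) β)
    (c3 : Cut s (fun x y => F3 x y - G3 x y) (L ^ 2) β)
    (c4 : Cut s (fun x y => F4 x y - G4 x y) (L ^ 2) β)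
    (c5 : Cut s (fun x y => F5 x y - G5 x y) (L ^ 2) β)
    (c6 : Cut s (fun x y => F6 x y - G6 x y) (L ^ 2) β) :
    T4 s G1 G2 G3 G4 G5 G6 - 6 * ((s.card : ℝ) ^ 2 * (L * β)) ≤ T4 s F1 F2 F3 F4 F5 F6 := by
  have e : T4 s F1 F2 F3 F4 F5 F6 = T4 s G1 G2 G3 G4 G5 G6 +
      T4 s (fun x y => F1 x y - G1 x y) F2 F3 F4 F5 F6 +
      T4 s G1 (fun x y => F2 x y - G2 x y) F3 F4 F5 F6 +
      T4 s G1 G2 (fun x y => F3 x y - G3 x y) F4 F5 F6 +
      T4 s G1 G2 G3 (fun x y => F4 x y - G4 x y) F5 F6 +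
      T4 s G1 G2 G3 G4 (fun x y => F5 x y - G5 x y) F6 +
      T4 s G1 G2 G3 G4 G5 (fun x y => F6 x y - G6 x y) := by
    unfold T4
    simp only [← S4_add]
    exact S4_congr s fun a b c d => by ring
  have b6 : |T4 s G1 G2 G3 G4 G5 (fun x y => F6 x y - G6 x y)| ≤ _ := one_edge s c6 g2 g3 g4 g5 g1
  have b5 : |T4 s G1 G2 G3 G4 (fun x y => F5 x y - G5 x y) F6| ≤ (s.card : ℝ) ^ 2 * (L * β) := by
    have := one_edge s c5 g1 g3.tr g4 f6 g2
    unfold T4
    rw [S4_23]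
    exact (congrArg abs (S4_congr s fun a b c d => by ring)).trans_le this
  have b4 : |T4 s G1 G2 G3 (fun x y => F4 x y - G4 x y) F5 F6| ≤ (s.card : ℝ) ^ 2 * (L * β) := by
    have := one_edge s c4 g1.tr g2.tr f5 f6 g3
    unfold T4
    rw [S4_12, S4_23]
    exact (congrArg abs (S4_congr s fun a b c d => by ring)).trans_le this
  have b3 : |T4 s G1 G2 (fun x y => F3 x y - G3 x y) F4 F5 F6| ≤ (s.card : ℝ) ^ 2 * (L * β) := by
    have := one_edge s c3 g1 f5.tr g2 f6.tr f4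
    unfold T4
    rw [S4_34, S4_23]
    exact (congrArg abs (S4_congr s fun a b c d => by ring)).trans_le this
  have b2 : |T4 s G1 (fun x y => F2 x y - G2 x y) F3 F4 F5 F6| ≤ (s.card : ℝ) ^ 2 * (L * β) := by
    have := one_edge s c2 g1.tr f4.tr f3 f6.tr f5
    unfold T4
    rw [S4_12, S4_34, S4_23]
    exact (congrArg abs (S4_congr s fun a b c d => by ring)).trans_le this
  have b1 : |T4 s (fun x y => F1 x y - G1 x y) F2 F3 F4 F5 F6| ≤ (s.card : ℝ) ^ 2 * (L * β) := by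
    have := one_edge s c1 f2.tr f4.tr f3.tr f5.tr f6
    unfold T4
    rw [S4_23, S4_12, S4_34, S4_23]
    exact (congrArg abs (S4_congr s fun a b c d => by ring)).trans_le this
  rw [e]
  have := abs_le.1 b1
  have := abs_le.1 b2
  have := abs_le.1 b3
  have := abs_le.1 b4
  have := abs_le.1 b5
  have := abs_le.1 b6
  linarith

end Crest.Agent.T15.K4
end

-- ▼ part T15/K4B_26
section

/-!
# K4: lower bound sieve for three linear forms in one variable
-/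

set_option autoImplicit false

namespace Crest.Agent.T15.K4

open Finset Crest.Agent.R001

/-- counting with several classes per prime -/
lemma crt_count (x : ℤ) (H : ℕ) (Om : ℕ → Finset ℤ) (D : Finset ℕ) :
    (∀ p ∈ D, p.Prime) → (∀ p ∈ D, ∀ a ∈ Om p, 0 ≤ a ∧ a < p) →
    ∀ d : ℕ, 0 < d → (∀ p ∈ D, ¬ p ∣ d) → ∀ v : ℤ,
    |(((Ioc x (x + H)).filter (fun t => t ≡ v [ZMOD d] ∧ ∀ p ∈ D, t % p ∈ Om p)).card : ℝ) -
      (H : ℝ) / d * ∏ p ∈ D, ((Om p).card : ℝ) / p| ≤ ∏ p ∈ D, ((Om p).card : ℝ) := by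
  classical
  induction D using Finset.induction_on with
  | empty =>
    intro _ _ d hd _ v
    simpa using FL.card_class_Ioc x H d hd v
  | insert q D hq ih =>
    intro hP hO d hd hpd v
    have hqP : q.Prime := hP q (mem_insert_self _ _)
    have hq0 : (0 : ℝ) < q := by exact_mod_cast hqP.pos
    have hcop : Nat.Coprime d q := ((Nat.Prime.coprime_iff_not_dvd hqP).2
      (hpd q (mem_insert_self _ _))).symm
    have ih' := ih (fun p hp => hP p (mem_insert_of_mem hp))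
      (fun p hp => hO p (mem_insert_of_mem hp)) (d * q) (Nat.mul_pos hd hqP.pos) (fun p hp h => by
        have hpP := hP p (mem_insert_of_mem hp)
        rcases (Nat.Prime.dvd_mul hpP).1 h with h | h
        · exact hpd p (mem_insert_of_mem hp) h
        · rw [(Nat.prime_dvd_prime_iff_eq hpP hqP).1 h] at hp; exact hq hp)
    have hcz : IsCoprime (d : ℤ) (q : ℤ) := Nat.isCoprime_iff_coprime.2 hcop
    obtain ⟨u, w, huw⟩ := hcz
    have hcz : IsCoprime (d : ℤ) (q : ℤ) := ⟨u, w, huw⟩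
    -- fibrewise decomposition
    have hfib := Finset.card_eq_sum_card_fiberwise (f := fun t : ℤ => t % q)
      (s := (Ioc x (x + H)).filter (fun t => t ≡ v [ZMOD d] ∧ ∀ p ∈ insert q D, t % p ∈ Om p))
      (t := Om q) (fun t ht => (mem_filter.1 ht).2.2 q (mem_insert_self _ _))
    have hone : ∀ a ∈ Om q,
        ((Ioc x (x + H)).filter (fun t => t ≡ v [ZMOD d] ∧ ∀ p ∈ insert q D, t % p ∈ Om p)).filter
          (fun t => t % q = a) =
        (Ioc x (x + H)).filter (fun t => t ≡ (a * (u * d) + v * (w * q)) [ZMOD (d * q : ℕ)] ∧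
          ∀ p ∈ D, t % p ∈ Om p) := by
      intro a ha
      obtain ⟨ha0, ha1⟩ := hO q (mem_insert_self _ _) a ha
      have haq : a % q = a := Int.emod_eq_of_lt ha0 ha1
      have e1 : a * (u * d) + v * (w * q) ≡ v [ZMOD d] := by
        apply Int.ModEq.symm
        rw [Int.modEq_iff_dvd]
        exact ⟨(a - v) * u, by linear_combination v * huw⟩
      have e2 : a * (u * d) + v * (w * q) ≡ a [ZMOD q] := by
        apply Int.ModEq.symm
        rw [Int.modEq_iff_dvd]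
        exact ⟨(v - a) * w, by linear_combination a * huw⟩
      rw [filter_filter]
      apply filter_congr
      intro t _
      push_cast
      rw [← Int.modEq_and_modEq_iff_modEq_mul (by simpa using hcop)]
      constructor
      · rintro ⟨⟨h1, h2⟩, h3⟩
        refine ⟨⟨h1.trans e1.symm, ?_⟩, fun p hp => h2 p (mem_insert_of_mem hp)⟩
        refine Int.ModEq.trans ?_ e2.symm
        unfold Int.ModEq
        rw [h3, haq]
      · rintro ⟨⟨h1, h2⟩, h3⟩
        have h4 : t % q = a := by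
          have := h2.trans e2
          unfold Int.ModEq at this
          rw [this, haq]
        refine ⟨⟨h1.trans e1, fun p hp => ?_⟩, h4⟩
        rcases mem_insert.1 hp with rfl | hp
        · rw [h4]; exact ha
        · exact h3 p hp
    rw [hfib, prod_insert hq, prod_insert hq]
    push_cast
    have e : (H : ℝ) / d * ((Om q).card / q * ∏ p ∈ D, ((Om p).card : ℝ) / p) =
        ∑ _a ∈ Om q, (H : ℝ) / ((d * q : ℕ) : ℝ) * ∏ p ∈ D, ((Om p).card : ℝ) / p := by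
      have hd0 : (0 : ℝ) < d := by exact_mod_cast hd
      rw [sum_const, nsmul_eq_mul]; push_cast; field_simp
    rw [e, ← sum_sub_distrib]
    refine (abs_sum_le_sum_abs _ _).trans ?_
    calc _ ≤ ∑ _a ∈ Om q, ∏ p ∈ D, ((Om p).card : ℝ) := sum_le_sum fun a ha => by
          rw [hone a ha]; exact ih' _
      _ = _ := by rw [sum_const, nsmul_eq_mul]

lemma card_root_le (p : ℕ) (hp : p.Prime) (α β : ℤ) (hα : ¬ (p : ℤ) ∣ α) :
    ((Ico (0 : ℤ) p).filter (fun a => (p : ℤ) ∣ α * a + β)).card ≤ 1 := by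
  rw [card_le_one]
  intro a ha b hb
  obtain ⟨ha1, ha2⟩ := mem_filter.1 ha
  obtain ⟨hb1, hb2⟩ := mem_filter.1 hb
  have h1 : (p : ℤ) ∣ α * (a - b) := by
    have := dvd_sub ha2 hb2
    rwa [show α * a + β - (α * b + β) = α * (a - b) by ring] at this
  have h2 : (p : ℤ) ∣ a - b :=
    ((Nat.prime_iff_prime_int.1 hp).dvd_or_dvd h1).resolve_left hα
  have h3 := mem_Ico.1 ha1
  have h4 := mem_Ico.1 hb1
  have h5 := Int.eq_zero_of_abs_lt_dvd h2 (by rw [abs_lt]; constructor <;> omega)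
  omega

/-- **three linear forms**: many values without prime factor in `P` -/
theorem sieve3 : ∃ (s : ℕ) (c : ℝ), 0 < c ∧ ∀ z : ℝ, 2 ≤ z → ∀ P : Finset ℕ,
    (∀ p ∈ P, p.Prime ∧ 5 ≤ p ∧ (p : ℝ) ≤ z) → ∀ α₁ β₁ α₂ β₂ α₃ β₃ : ℤ,
    (∀ p ∈ P, ¬ (p : ℤ) ∣ α₁ ∧ ¬ (p : ℤ) ∣ α₂ ∧ ¬ (p : ℤ) ∣ α₃) → ∀ x H : ℕ, z ^ s ≤ H →
    ∃ S : Finset ℕ, c * H / Real.log z ^ 3 ≤ S.card ∧ ∀ t ∈ S, x < t ∧ t ≤ x + H ∧ ∀ p ∈ P,
      ¬ (p : ℤ) ∣ α₁ * t + β₁ ∧ ¬ (p : ℤ) ∣ α₂ * t + β₂ ∧ ¬ (p : ℤ) ∣ α₃ * t + β₃ := by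
  classical
  obtain ⟨K, hK, hdim⟩ := FL.dim_of 3 0 (2 / 5) (by norm_num) le_rfl (by norm_num)
  obtain ⟨s, hs, H0⟩ := FL.sieve_weighted 3 K (1 / 2) (by norm_num) hK (by norm_num)
  have hl2 : 0 < Real.log 2 := Real.log_pos (by norm_num)
  obtain ⟨e, he⟩ := pow_unbounded_of_one_lt (4 * K / Real.log 2 ^ 3) (by norm_num : (1 : ℝ) < 2)
  refine ⟨2 * s + 3 + e, Real.log 2 ^ 3 / (4 * K), by positivity,
    fun z hz P hP α₁ β₁ α₂ β₂ α₃ β₃ hα x H hH => ?_⟩
  set Om : ℕ → Finset ℤ := fun p => (Ico (0 : ℤ) p).filter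
    (fun a => (p : ℤ) ∣ α₁ * a + β₁ ∨ (p : ℤ) ∣ α₂ * a + β₂ ∨ (p : ℤ) ∣ α₃ * a + β₃) with hOm
  have hO3 : ∀ p ∈ P, ((Om p).card : ℝ) ≤ 3 := by
    intro p hp
    have h1 := card_root_le p (hP p hp).1 α₁ β₁ (hα p hp).1
    have h2 := card_root_le p (hP p hp).1 α₂ β₂ (hα p hp).2.1
    have h3 := card_root_le p (hP p hp).1 α₃ β₃ (hα p hp).2.2
    have h4 : (Om p).card ≤ 3 := by
      simp only [hOm]
      rw [filter_or, filter_or]
      refine (card_union_le _ _).trans ?_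
      have := card_union_le ((Ico (0 : ℤ) p).filter (fun a => (p : ℤ) ∣ α₂ * a + β₂))
        ((Ico (0 : ℤ) p).filter (fun a => (p : ℤ) ∣ α₃ * a + β₃))
      omega
    exact_mod_cast h4
  have h5 : ∀ p ∈ P, (5 : ℝ) ≤ p := fun p hp => by exact_mod_cast (hP p hp).2.1
  set g : ℕ → ℝ := fun p => ((Om p).card : ℝ) / p with hg
  have hg0 : ∀ p ∈ P, 0 ≤ g p := fun p _ => by simp only [hg]; positivity
  have hg3 : ∀ p ∈ P, g p ≤ 3 / p := fun p hp => by
    simp only [hg]; have := h5 p hp; have := hO3 p hp; gcongr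
  have hgh : ∀ p ∈ P, g p ≤ 1 - 2 / 5 := fun p hp => by
    have h1 := h5 p hp
    have : (3 : ℝ) / p ≤ 3 / 5 := by gcongr
    linarith [hg3 p hp]
  have hg1 : ∀ p ∈ P, g p < 1 := fun p hp => by linarith [hgh p hp]
  have hd := hdim P g (fun p hp => (hP p hp).1) hg0 hgh (fun p hp => by simpa using hg3 p hp)
  have hPz : ∀ p ∈ P, 2 ≤ p ∧ (p : ℝ) ≤ z := fun p hp => ⟨(hP p hp).1.two_le, (hP p hp).2.2⟩
  have h2 := (H0 z hz P g hPz hg0 hg1 hd (Ioc (x : ℤ) (x + H)) (fun _ => 1)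
    (fun t : ℤ => P.filter (fun p : ℕ => t % (p : ℤ) ∈ Om p)) (H : ℝ) (fun _ => z ^ s)
    (fun _ _ => zero_le_one) (fun _ _ => filter_subset _ _) (Nat.cast_nonneg H) ?_).1
  · set S0 := (Ioc (x : ℤ) (x + H)).filter
      (fun t : ℤ => P.filter (fun p : ℕ => t % (p : ℤ) ∈ Om p) = ∅) with hS0
    have hlz : Real.log 2 ≤ Real.log z := Real.log_le_log (by norm_num) hz
    have hlz0 : 0 < Real.log z := by linarith
    have hV : Real.log 2 ^ 3 / (K * Real.log z ^ 3) ≤ ∏ p ∈ P, (1 - g p) := by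
      have h3 := hd 2 z le_rfl hz
      rw [filter_true_of_mem (fun p hp => ⟨by linarith [h5 p hp], (hP p hp).2.2⟩),
        prod_inv_distrib] at h3
      have h4 : 0 < ∏ p ∈ P, (1 - g p) := prod_pos fun p hp => by linarith [hg1 p hp]
      have h6 : (Real.log z / Real.log 2) ^ (3 : ℝ) = (Real.log z / Real.log 2) ^ (3 : ℕ) := by
        rw [← Real.rpow_natCast]; norm_num
      rw [h6, inv_le_comm₀ h4 (by positivity)] at h3
      refine le_trans (le_of_eq ?_) h3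
      field_simp
    have hlev := FL.card_level P (fun p hp => (hP p hp).1) (z ^ s) (by positivity)
    rw [sum_const, sum_const, nsmul_eq_mul, nsmul_eq_mul, mul_one] at h2
    have hz0 : 0 < z := by linarith
    have hlog : Real.log z ≤ z := (Real.log_le_sub_one_of_pos hz0).trans (by linarith)
    have hbig : z ^ s * z ^ s ≤ Real.log 2 ^ 3 / (4 * K) * H / Real.log z ^ 3 := by
      have h3 : z ^ (2 * s + 3 + e) = z ^ s * z ^ s * (z ^ 3 * z ^ e) := by ring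
      have h4 : (2 : ℝ) ^ e ≤ z ^ e := pow_le_pow_left₀ (by norm_num) hz e
      have h6 : Real.log z ^ 3 ≤ z ^ 3 := pow_le_pow_left₀ hlz0.le hlog 3
      rw [le_div_iff₀ (by positivity)]
      calc z ^ s * z ^ s * Real.log z ^ 3
          = Real.log 2 ^ 3 / (4 * K) *
            (z ^ s * z ^ s * (Real.log z ^ 3 * (4 * K / Real.log 2 ^ 3))) := by field_simp
        _ ≤ Real.log 2 ^ 3 / (4 * K) * (z ^ s * z ^ s * (z ^ 3 * z ^ e)) := by
            gcongr; exact he.le.trans h4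
        _ ≤ Real.log 2 ^ 3 / (4 * K) * H := by rw [← h3]; gcongr
    have hmain : 2 * (Real.log 2 ^ 3 / (4 * K) * H / Real.log z ^ 3) ≤
        (1 - 1 / 2) * (∏ p ∈ P, (1 - g p)) * H := by
      calc _ = (1 - 1 / 2) * (Real.log 2 ^ 3 / (K * Real.log z ^ 3)) * H := by field_simp; ring
        _ ≤ _ := by gcongr
    have hR := mul_le_mul_of_nonneg_right hlev (by positivity : 0 ≤ z ^ s)
    have hmem : ∀ t ∈ S0, (x : ℤ) < t ∧ t ≤ x + H ∧ ∀ p ∈ P, t % (p : ℤ) ∉ Om p := by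
      intro t ht
      obtain ⟨h3, h4⟩ := mem_filter.1 ht
      exact ⟨(mem_Ioc.1 h3).1, (mem_Ioc.1 h3).2, fun p hp => filter_eq_empty_iff.1 h4 hp⟩
    refine ⟨S0.image Int.toNat, ?_, ?_⟩
    · rw [card_image_of_injOn (fun a ha b hb h => by
        have := (hmem a ha).1; have := (hmem b hb).1; omega)]
      linarith
    · intro t ht
      obtain ⟨u, hu, rfl⟩ := mem_image.1 ht
      obtain ⟨h3, h4, h6⟩ := hmem u hu
      have hu0 : ((u.toNat : ℕ) : ℤ) = u := Int.toNat_of_nonneg (by omega)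
      refine ⟨by omega, by omega, fun p hp => ?_⟩
      rw [hu0]
      have hp0 : (0 : ℤ) < p := by exact_mod_cast (hP p hp).1.pos
      have h7 := h6 p hp
      simp only [hOm, mem_filter, mem_Ico, not_and, not_or] at h7
      have h8 := h7 ⟨Int.emod_nonneg _ hp0.ne', Int.emod_lt_of_pos _ hp0⟩
      have key : ∀ α β : ℤ, (p : ℤ) ∣ α * u + β → (p : ℤ) ∣ α * (u % p) + β := by
        intro α β h
        have e : α * (u % p) + β = α * u + β - p * (α * (u / p)) := by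
          rw [Int.emod_def]; ring
        rw [e]
        exact dvd_sub h (dvd_mul_right _ _)
      exact ⟨fun h => h8.1 (key _ _ h), fun h => h8.2.1 (key _ _ h), fun h => h8.2.2 (key _ _ h)⟩
  · intro D hD hDz
    have h3 := crt_count x H Om D (fun p hp => (hP p (hD hp)).1) (fun p _ a ha =>
      mem_Ico.1 (mem_filter.1 ha).1) 1 one_pos
      (fun p hp h => (hP p (hD hp)).1.one_lt.ne' (Nat.dvd_one.1 h)) 0
    have h4 : (Ioc (x : ℤ) (x + H)).filter
        (fun t : ℤ => D ⊆ P.filter (fun p : ℕ => t % (p : ℤ) ∈ Om p)) = (Ioc (x : ℤ) (x + H)).filter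
        (fun t : ℤ => t ≡ 0 [ZMOD (1 : ℕ)] ∧ ∀ p ∈ D, t % (p : ℤ) ∈ Om p) := by
      apply filter_congr
      intro t _
      constructor
      · intro h
        exact ⟨by simp [Int.modEq_one], fun p hp => (mem_filter.1 (h hp)).2⟩
      · intro h p hp
        exact mem_filter.2 ⟨hD hp, h.2 p hp⟩
    rw [sum_const, nsmul_eq_mul, mul_one, h4]
    have h6 : ∏ p ∈ D, ((Om p).card : ℝ) ≤ z ^ s :=
      (prod_le_prod (fun p _ => Nat.cast_nonneg _) fun p hp => by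
        linarith [hO3 p (hD hp), h5 p (hD hp)]).trans hDz
    simp only [Nat.cast_one, div_one] at h3
    rw [mul_comm]
    exact h3.trans h6

end Crest.Agent.T15.K4
end

-- ▼ part T15/K4C_26
section

/-!
# K4: main term for the model
-/

set_option autoImplicit false

namespace Crest.Agent.T15.K4

open Finset Crest.Agent.R001

/-- dilated and truncated edge function -/
def edge (q g c N : ℕ) (φ : ℕ → ℝ) (m : ℕ) : ℝ :=
  if q ∣ m ∧ m / q ∈ (Icc 1 N).filter (fun n => n ≡ c [MOD g]) then φ (m / q) else 0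

lemma edge_mul {q g c N k : ℕ} (φ : ℕ → ℝ) (hq : 0 < q) (h1 : 1 ≤ k) (h2 : k ≤ N)
    (h3 : k ≡ c [MOD g]) : edge q g c N φ (q * k) = φ k := by
  unfold edge
  rw [Nat.mul_div_cancel_left k hq, if_pos ⟨dvd_mul_right _ _, mem_filter.2 ⟨mem_Icc.2 ⟨h1, h2⟩, h3⟩⟩]

lemma edge_one {N k : ℕ} (φ : ℕ → ℝ) (h1 : 1 ≤ k) (h2 : k ≤ N) : edge 1 1 0 N φ k = φ k := by
  have := edge_mul (q := 1) (g := 1) (c := 0) φ one_pos h1 h2 Nat.modEq_one
  rwa [one_mul] at this

lemma ker_add (h : ℕ → ℝ) (a m : ℕ) : ker h a (a + m) = h m := by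
  unfold ker; rw [if_pos (Nat.le_add_right _ _), Nat.add_sub_cancel_left]

lemma ker_of_eq (h : ℕ → ℝ) {a b m : ℕ} (e : b = a + m) : ker h a b = h m := by
  rw [e, ker_add]

lemma ker_edge_nonneg (q g c N : ℕ) {φ : ℕ → ℝ} (h : ∀ k, 0 ≤ φ k) (x y : ℕ) :
    0 ≤ ker (edge q g c N φ) x y := by
  unfold ker edge
  split_ifs
  exacts [h _, le_rfl, le_rfl]

lemma ker_edge_bd (q g c N : ℕ) {φ : ℕ → ℝ} {L : ℝ} (hL : 0 ≤ L)
    (h : ∀ k, 1 ≤ k → k ≤ N → |φ k| ≤ L) : Bd (ker (edge q g c N φ)) L := by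
  intro x y
  unfold ker edge
  split_ifs with h1 h2
  · have := mem_Icc.1 (mem_filter.1 h2.2).1
    exact h _ this.1 this.2
  · simpa using hL
  · simpa using hL

lemma ker_edge_ne {q g c N x y : ℕ} (h : ker (edge q g c N lp) x y ≠ 0) :
    ∃ k, y = x + q * k ∧ k.Prime ∧ k ≡ c [MOD g] := by
  unfold ker edge at h
  split_ifs at h with h1 h2
  · refine ⟨(y - x) / q, ?_, ?_, (mem_filter.1 h2.2).2⟩
    · rw [Nat.mul_div_cancel' h2.1]; omega
    · by_contra h3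
      exact h (by simp [lp, h3])
  · exact absurd rfl h
  · exact absurd rfl h

lemma cut_edge {q g c N n : ℕ} (φ ψ : ℕ → ℝ) (hq : 0 < q) (hn : q * N < n) (η K : ℝ)
    (hη : ∀ α : ℝ, ‖∑ k ∈ (Icc 1 N).filter (fun n => n ≡ c [MOD g]),
      ((φ k - ψ k : ℝ) : ℂ) * ee (k * α)‖ ≤ η) :
    Cut (range n) (fun x y => ker (edge q g c N φ) x y - ker (edge q g c N ψ) x y) K
      (η * n * K ^ 2) := by
  intro u v hu hv
  have e : ∀ x y, ker (edge q g c N φ) x y - ker (edge q g c N ψ) x y =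
      ker (edge q g c N fun k => φ k - ψ k) x y := by
    intro x y
    unfold ker edge
    split_ifs <;> simp
  simp only [e]
  refine bilin n _ u v η K (fun α => ?_) hu hv
  refine le_of_eq_of_le (congrArg norm ?_) (hη (q * α))
  have e2 : ∀ m : ℕ, ((edge q g c N (fun k => φ k - ψ k) m : ℝ) : ℂ) * ee (m * α) =
      if q ∣ m ∧ m / q ∈ (Icc 1 N).filter (fun n => n ≡ c [MOD g]) then
        ((φ (m / q) - ψ (m / q) : ℝ) : ℂ) * ee (m * α) else 0 := by
    intro m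
    unfold edge
    split_ifs <;> simp
  simp only [e2]
  rw [← sum_filter]
  symm
  refine sum_nbij' (fun k => q * k) (fun m => m / q) ?_ ?_ ?_ ?_ ?_
  · intro k hk
    have h1 := mem_Icc.1 (mem_filter.1 hk).1
    refine mem_filter.2 ⟨mem_range.2 (lt_of_le_of_lt (Nat.mul_le_mul_left q h1.2) hn),
      dvd_mul_right _ _, ?_⟩
    rwa [Nat.mul_div_cancel_left k hq]
  · intro m hm
    exact (mem_filter.1 hm).2.2
  · intro k _
    exact Nat.mul_div_cancel_left k hq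
  · intro m hm
    exact Nat.mul_div_cancel' (mem_filter.1 hm).2.1
  · intro k _
    rw [Nat.mul_div_cancel_left k hq]
    congr 2
    push_cast; ring

lemma sum_ge_inj (s S : Finset ℕ) (Φ : ℕ → ℝ) (ι : ℕ → ℕ) (w μ : ℝ) (hΦ : ∀ x, 0 ≤ Φ x)
    (inj : Set.InjOn ι S) (maps : ∀ t ∈ S, ι t ∈ s) (hw : ∀ t ∈ S, w ≤ Φ (ι t))
    (hμ : μ ≤ S.card) (hw0 : 0 ≤ w) : μ * w ≤ ∑ x ∈ s, Φ x := by
  calc μ * w ≤ S.card * w := by gcongr
    _ = ∑ _t ∈ S, w := by rw [sum_const, nsmul_eq_mul]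
    _ ≤ ∑ t ∈ S, Φ (ι t) := sum_le_sum hw
    _ = ∑ x ∈ S.image ι, Φ x := (sum_image inj).symm
    _ ≤ ∑ x ∈ s, Φ x := sum_le_sum_of_subset_of_nonneg
        (fun x hx => by obtain ⟨t, ht, rfl⟩ := mem_image.1 hx; exact maps t ht) fun x _ _ => hΦ x

lemma V_fac {z p : ℕ} (hp : p ∈ Nat.primesLE z) : 0 < 1 - 1 / (p : ℝ) ∧ 1 - 1 / (p : ℝ) ≤ 1 := by
  have h2 : (2 : ℝ) ≤ p := by exact_mod_cast (Nat.mem_primesLE.1 hp).2.two_le
  have h3 : 1 / (p : ℝ) ≤ 1 / 2 := by gcongr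
  have h4 : 0 ≤ 1 / (p : ℝ) := by positivity
  constructor <;> linarith

lemma V_pos (z : ℕ) : 0 < V z := prod_pos fun _ hp => (V_fac hp).1

lemma one_le_V_inv (z : ℕ) : 1 ≤ (V z)⁻¹ :=
  (one_le_inv₀ (V_pos z)).2 (prod_le_one (fun _ hp => (V_fac hp).1.le) fun _ hp => (V_fac hp).2)

lemma nu_nonneg (z n : ℕ) : 0 ≤ nu z n := by
  unfold nu; split_ifs
  exacts [(inv_pos.2 (V_pos z)).le, le_rfl]

lemma one_le_nu {z n : ℕ} (h : Rough z n) : 1 ≤ nu z n := by
  unfold nu; rw [if_pos h]; exact one_le_V_inv z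

lemma V_inv_le : ∃ K : ℝ, 1 ≤ K ∧ ∀ z : ℕ, 2 ≤ z → (V z)⁻¹ ≤ K * Real.log z := by
  obtain ⟨K, hK, hdim⟩ := FL.dim_of 1 0 (1 / 2) (by norm_num) le_rfl (by norm_num)
  have hl2 : 0 < Real.log 2 := Real.log_pos (by norm_num)
  have hl3 : Real.log 2 ≤ 1 := (Real.log_le_sub_one_of_pos (by norm_num)).trans (by norm_num)
  refine ⟨K / Real.log 2, by rw [le_div_iff₀ hl2]; linarith, fun z hz => ?_⟩
  have h2 : ∀ p ∈ Nat.primesLE z, (2 : ℝ) ≤ p := fun p hp => by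
    exact_mod_cast (Nat.mem_primesLE.1 hp).2.two_le
  have hd := hdim (Nat.primesLE z) (fun p => 1 / (p : ℝ)) (fun p hp => (Nat.mem_primesLE.1 hp).2)
    (fun p _ => by positivity) (fun p hp => by
      have := h2 p hp
      have h3 : 1 / (p : ℝ) ≤ 1 / 2 := by gcongr
      linarith) (fun p _ => by simp) 2 z le_rfl (by exact_mod_cast hz)
  rw [filter_true_of_mem (fun p hp => ⟨h2 p hp, by exact_mod_cast (Nat.mem_primesLE.1 hp).1⟩),
    prod_inv_distrib, Real.rpow_one] at hd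
  refine hd.trans (le_of_eq ?_)
  ring

lemma rough_of {z g n : ℕ} (hg : ∀ p : ℕ, p.Prime → p ∣ g → ¬ p ∣ n) {x : ℤ} (e : x = n)
    (hP : ∀ p ∈ (Nat.primesLE z).filter (fun p => ¬ p ∣ g), ¬ (p : ℤ) ∣ x) : Rough z n := by
  intro p hp hz h
  by_cases h1 : p ∣ g
  · exact hg p hp h1 h
  · refine hP p (mem_filter.2 ⟨Nat.mem_primesLE.2 ⟨hz, hp⟩, h1⟩) ?_
    rw [e]; exact_mod_cast h

/-- **main term** -/
theorem main_term : ∃ (s : ℕ) (κ : ℝ), 0 < κ ∧ ∀ g D c : ℕ, 0 < g → 6 ∣ g → 0 < D → D.Coprime g →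
    c.Coprime g → c < g → ∀ z m N n : ℕ, 2 ≤ z → 1 ≤ m → (z : ℝ) ^ s ≤ m →
    N = D * g * (4 * g + 2) * m → 2 * N ≤ n →
    N * (κ * m / Real.log z ^ 3) ^ 3 ≤
      T4 (range n) (ker (edge g g c N (nu z))) (ker (edge 1 1 0 N (nu z)))
        (ker (edge 1 1 0 N (nu z))) (ker (edge D g c N (nu z))) (ker (edge 1 1 0 N (nu z)))
        (ker (edge g g c N (nu z))) := by
  obtain ⟨s, κ, hκ, hS⟩ := sieve3
  refine ⟨s, κ, hκ, fun g D c hg h6 hD hDg hcg hc z m N n hz hm hzm hN hn => ?_⟩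
  have hz' : (2 : ℝ) ≤ z := by exact_mod_cast hz
  set P := (Nat.primesLE z).filter (fun p => ¬ p ∣ g) with hP
  have hP1 : ∀ p ∈ P, p.Prime ∧ 5 ≤ p ∧ (p : ℝ) ≤ z := by
    intro p hp
    obtain ⟨h1, h2⟩ := mem_filter.1 hp
    obtain ⟨h3, h4⟩ := Nat.mem_primesLE.1 h1
    refine ⟨h4, ?_, by exact_mod_cast h3⟩
    by_contra h5
    have := h4.two_le
    have h7 : p = 2 ∨ p = 3 ∨ p = 4 := by omega
    rcases h7 with rfl | rfl | rfl
    · exact h2 (Dvd.dvd.trans (by norm_num) h6)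
    · exact h2 (Dvd.dvd.trans (by norm_num) h6)
    · exact absurd h4 (by norm_num)
  have hP2 : ∀ p ∈ P, ¬ (p : ℤ) ∣ (g : ℤ) := fun p hp h =>
    (mem_filter.1 hp).2 (by exact_mod_cast h)
  have hP3 : ∀ p ∈ P, ¬ (p : ℤ) ∣ -((g : ℤ) * g) := fun p hp h => by
    rw [dvd_neg] at h
    rcases (Nat.prime_iff_prime_int.1 (hP1 p hp).1).dvd_or_dvd h with h | h <;> exact hP2 p hp h
  have hlz : 0 < Real.log z := Real.log_pos (by linarith)
  set μ := κ * m / Real.log z ^ 3 with hμ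
  have hμ0 : 0 ≤ μ := by positivity
  have hcl : ∀ t, ∀ p : ℕ, p.Prime → p ∣ g → ¬ p ∣ c + g * t := fun t p hp h1 h2 => by
    have h3 : p ∣ c := (Nat.dvd_add_left (h1.mul_right t)).1 h2
    exact hp.one_lt.ne' (Nat.eq_one_of_dvd_coprimes hcg h3 h1)
  have hmod : ∀ t, c + g * t ≡ c [MOD g] := fun t => by
    simp [Nat.ModEq]
  have nn := fun q g c => ker_edge_nonneg q g c N (nu_nonneg z)
  have tn : ∀ a b c' d, 0 ≤ ker (edge g g c N (nu z)) a b * ker (edge 1 1 0 N (nu z)) a c' *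
      ker (edge 1 1 0 N (nu z)) b c' * ker (edge D g c N (nu z)) a d *
      ker (edge 1 1 0 N (nu z)) b d * ker (edge g g c N (nu z)) c' d := fun a b c' d =>
    mul_nonneg (mul_nonneg (mul_nonneg (mul_nonneg (mul_nonneg (nn _ _ _ _ _) (nn _ _ _ _ _))
      (nn _ _ _ _ _)) (nn _ _ _ _ _)) (nn _ _ _ _ _)) (nn _ _ _ _ _)
  have small : ∀ t, 0 < t → t ≤ 0 + m → 1 ≤ c + g * t ∧ g * (c + g * t) ≤ 2 * (g * g * m) := by
    intro t h1 h2
    have h3 : g * t ≤ g * m := Nat.mul_le_mul_left g (by omega)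
    have h4 : g ≤ g * m := Nat.le_mul_of_pos_right g hm
    have h5 : 0 < g * t := Nat.mul_pos hg h1
    refine ⟨by omega, ?_⟩
    calc g * (c + g * t) ≤ g * (2 * (g * m)) := Nat.mul_le_mul_left g (by omega)
      _ = _ := by ring
  unfold T4
  rw [S4_34, S4_23]
  unfold S4
  rw [show μ ^ 3 = μ * (μ * (μ * 1)) by ring]
  refine sum_ge_inj _ (range N) _ id _ _ (fun a => sum_nonneg fun _ _ => sum_nonneg fun _ _ =>
    sum_nonneg fun _ _ => tn _ _ _ _) (Set.injOn_id _)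
    (fun a ha => mem_range.2 (by have := mem_range.1 ha; simp only [id]; omega)) (fun a ha => ?_)
    (by simp) (by positivity)
  have ha' := mem_range.1 ha
  simp only [id]
  obtain ⟨S1, hS1, hS1'⟩ := hS z hz' P hP1 g c g c g c
    (fun p hp => ⟨hP2 p hp, hP2 p hp, hP2 p hp⟩) (4 * g * m) m hzm
  have big : ∀ t ∈ S1, 4 * (g * g * m) < D * (c + g * t) ∧ D * (c + g * t) ≤ N := by
    intro t ht
    obtain ⟨h1, h2, -⟩ := hS1' t ht
    have h3 : g * (4 * g * m + 1) ≤ g * t := Nat.mul_le_mul_left g h1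
    have h4 : g * t ≤ g * (4 * g * m + m) := Nat.mul_le_mul_left g h2
    have h5 : g ≤ g * m := Nat.le_mul_of_pos_right g hm
    have h7 : c + g * t ≤ D * (c + g * t) := Nat.le_mul_of_pos_left _ hD
    constructor
    · nlinarith
    · rw [hN]
      calc D * (c + g * t) ≤ D * (g * m + g * (4 * g * m + m)) :=
            Nat.mul_le_mul_left D (by omega)
        _ = _ := by ring
  refine sum_ge_inj _ S1 _ (fun t => a + D * (c + g * t)) _ _
    (fun _ => sum_nonneg fun _ _ => sum_nonneg fun _ _ => tn _ _ _ _)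
    (fun t _ t' _ h => by
      have h1 := Nat.eq_of_mul_eq_mul_left hD (Nat.add_left_cancel h)
      exact Nat.eq_of_mul_eq_mul_left hg (Nat.add_left_cancel h1))
    (fun t ht => mem_range.2 (by have := (big t ht).2; omega)) (fun t ht => ?_) hS1 (by positivity)
  obtain ⟨hb1, hb2⟩ := big t ht
  obtain ⟨Z, hZ⟩ : ∃ Z, Z = c + g * t := ⟨_, rfl⟩
  have rZ : Rough z Z := rough_of (hZ ▸ hcl t) (x := g * t + c) (by rw [hZ]; push_cast; ring)
    fun p hp => ((hS1' t ht).2.2 p hp).1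
  have mZ : Z ≡ c [MOD g] := hZ ▸ hmod t
  have cZ : ∀ p : ℕ, p.Prime → p ∣ g → ¬ p ∣ D * Z := fun p hp h1 h2 => by
    rcases (Nat.Prime.dvd_mul hp).1 h2 with h3 | h3
    · exact hp.one_lt.ne' (Nat.eq_one_of_dvd_coprimes hDg h3 h1)
    · exact hcl t p hp h1 (hZ ▸ h3)
  rw [← hZ] at hb1 hb2 ⊢
  have hZ1 : 1 ≤ Z := Nat.pos_of_ne_zero (by rintro rfl; simp at hb1)
  have hZN : Z ≤ N := (Nat.le_mul_of_pos_left _ hD).trans hb2
  obtain ⟨S2, hS2, hS2'⟩ := hS z hz' P hP1 g c (-(g * g)) (D * Z - g * c) g c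
    (fun p hp => ⟨hP2 p hp, hP3 p hp, hP2 p hp⟩) 0 m hzm
  refine sum_ge_inj _ S2 _ (fun t => a + g * (c + g * t)) _ _
    (fun _ => sum_nonneg fun _ _ => tn _ _ _ _)
    (fun t _ t' _ h => by
      have h1 := Nat.eq_of_mul_eq_mul_left hg (Nat.add_left_cancel h)
      exact Nat.eq_of_mul_eq_mul_left hg (Nat.add_left_cancel h1))
    (fun t ht => mem_range.2 (by
      have := (small t (hS2' t ht).1 (hS2' t ht).2.1).2; omega)) (fun t2 ht2 => ?_) hS2
    (by positivity)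
  obtain ⟨hx1, hx2⟩ := small t2 (hS2' t2 ht2).1 (hS2' t2 ht2).2.1
  obtain ⟨X, hX⟩ : ∃ X, X = c + g * t2 := ⟨_, rfl⟩
  have rX : Rough z X := rough_of (hX ▸ hcl t2) (x := g * t2 + c) (by rw [hX]; push_cast; ring)
    fun p hp => ((hS2' t2 ht2).2.2 p hp).1
  have mX : X ≡ c [MOD g] := hX ▸ hmod t2
  rw [← hX] at hx1 hx2 ⊢
  have hXN : X ≤ N := (Nat.le_mul_of_pos_left _ hg).trans (by omega)
  obtain ⟨S3, hS3, hS3'⟩ := hS z hz' P hP1 g c (-(g * g)) (D * Z - g * c) (-(g * g))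
    (D * Z - g * X - g * c) (fun p hp => ⟨hP2 p hp, hP3 p hp, hP3 p hp⟩) 0 m hzm
  refine sum_ge_inj _ S3 _ (fun t => a + D * Z - g * (c + g * t)) _ _ (fun _ => tn _ _ _ _)
    (fun t ht t' ht' h => by
      have h2 := (small t (hS3' t ht).1 (hS3' t ht).2.1).2
      have h3 := (small t' (hS3' t' ht').1 (hS3' t' ht').2.1).2
      have h4 : g * (c + g * t) = g * (c + g * t') := by simp only at h; omega
      have h1 := Nat.eq_of_mul_eq_mul_left hg h4
      exact Nat.eq_of_mul_eq_mul_left hg (Nat.add_left_cancel h1))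
    (fun t _ => mem_range.2 (by omega)) (fun t3 ht3 => ?_) hS3 zero_le_one
  obtain ⟨hy1, hy2⟩ := small t3 (hS3' t3 ht3).1 (hS3' t3 ht3).2.1
  obtain ⟨Y, hY⟩ : ∃ Y, Y = c + g * t3 := ⟨_, rfl⟩
  have rY : Rough z Y := rough_of (hY ▸ hcl t3) (x := g * t3 + c) (by rw [hY]; push_cast; ring)
    fun p hp => ((hS3' t3 ht3).2.2 p hp).1
  have mY : Y ≡ c [MOD g] := hY ▸ hmod t3
  rw [← hY] at hy1 hy2 ⊢
  have hYN : Y ≤ N := (Nat.le_mul_of_pos_left _ hg).trans (by omega)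
  obtain ⟨A, hA⟩ : ∃ A, D * Z = A + g * X + g * Y := ⟨D * Z - g * X - g * Y, by omega⟩
  have hAz : (D : ℤ) * Z = A + g * X + g * Y := by exact_mod_cast hA
  have hXz : (X : ℤ) = c + g * t2 := by exact_mod_cast hX
  have hYz : (Y : ℤ) = c + g * t3 := by exact_mod_cast hY
  have rA : Rough z A := rough_of (fun p hp h1 h2 => cZ p hp h1
      (hA ▸ dvd_add (dvd_add h2 (h1.mul_right _)) (h1.mul_right _)))
    (x := -(g * g) * t3 + (D * Z - g * X - g * c)) (by rw [hAz, hYz]; ring)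
    fun p hp => ((hS3' t3 ht3).2.2 p hp).2.2
  have rV : Rough z (A + g * X) := rough_of (fun p hp h1 h2 => cZ p hp h1
      (hA ▸ dvd_add h2 (h1.mul_right _)))
    (x := -(g * g) * t3 + (D * Z - g * c)) (by rw [hAz, hYz]; push_cast; ring)
    fun p hp => ((hS3' t3 ht3).2.2 p hp).2.1
  have rU : Rough z (A + g * Y) := rough_of (fun p hp h1 h2 => cZ p hp h1
      (by rw [hA, add_right_comm]; exact dvd_add h2 (h1.mul_right _)))
    (x := -(g * g) * t2 + (D * Z - g * c)) (by rw [hAz, hXz]; push_cast; ring)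
    fun p hp => ((hS2' t2 ht2).2.2 p hp).2.1
  rw [ker_add, ker_add, ker_of_eq _ (m := A + g * X) (by omega), ker_of_eq _ (m := A) (by omega),
    ker_of_eq _ (m := A + g * Y) (by omega), ker_of_eq _ (m := g * Y) (by omega),
    edge_mul _ hg hx1 hXN mX, edge_mul _ hg hy1 hYN mY, edge_mul _ hD hZ1 hZN mZ,
    edge_one _ (by omega) (by omega), edge_one _ (by omega) (by omega),
    edge_one _ (by omega) (by omega)]
  exact one_le_mul_of_one_le_of_one_le (one_le_mul_of_one_le_of_one_le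
    (one_le_mul_of_one_le_of_one_le (one_le_mul_of_one_le_of_one_le
    (one_le_mul_of_one_le_of_one_le (one_le_nu rX) (one_le_nu rV)) (one_le_nu rA))
    (one_le_nu rZ)) (one_le_nu rU)) (one_le_nu rY)

end Crest.Agent.T15.K4
end

-- ▼ part T15/K4D_26
section

/-!
# K4: the Fourier leaf implies the prime pattern
-/

set_option autoImplicit false

namespace Crest.Agent.T15.K4

open Finset Filter

lemma ev_log_pow (k : ℕ) {ε : ℝ} (hε : 0 < ε) : ∀ᶠ x : ℝ in atTop, Real.log x ^ k ≤ ε * x := by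
  have h := (Real.isLittleO_pow_log_id_atTop (n := k)).def hε
  filter_upwards [h, eventually_ge_atTop (0 : ℝ)] with x h1 h2
  rw [Real.norm_eq_abs, Real.norm_eq_abs, id, abs_of_nonneg h2] at h1
  exact (le_abs_self _).trans h1

lemma abs_lp_le {N k : ℕ} (h1 : 1 ≤ k) (h2 : k ≤ N) : |lp k| ≤ Real.log N := by
  have h3 : (1 : ℝ) ≤ k := by exact_mod_cast h1
  have h4 : (k : ℝ) ≤ N := by exact_mod_cast h2
  unfold lp
  split_ifs
  · rw [abs_of_nonneg (Real.log_nonneg h3)]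
    exact Real.log_le_log (by linarith) h4
  · simpa using Real.log_nonneg (h3.trans h4)

lemma abs_nu_le (z k : ℕ) : |nu z k| ≤ (V z)⁻¹ := by
  rw [abs_of_nonneg (nu_nonneg z k)]
  unfold nu
  split_ifs
  exacts [le_rfl, (inv_pos.2 (V_pos z)).le]

theorem k4Glue : K4Glue := by
  intro hF g D c₀ hg h6 hD hDg hc₀
  obtain ⟨s, κ, hκ, hM⟩ := main_term
  obtain ⟨K₂, hK₂, hV⟩ := V_inv_le
  obtain ⟨B, hB, hF⟩ := hF 15
  set c := c₀ % g with hc
  have hcg : c.Coprime g := by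
    rw [hc, Nat.Coprime, ← Nat.gcd_rec]; exact hc₀.symm
  have hcc : c ≡ c₀ [MOD g] := Nat.mod_modEq _ _
  obtain ⟨C₁, N₁, hF₁⟩ := hF g c hg hcg
  obtain ⟨C₂, N₂, hF₂⟩ := hF 1 0 one_pos (by simp)
  set K := D * g * (4 * g + 2) with hK
  have hK0 : 0 < K := by positivity
  have hK0' : (0 : ℝ) < K := by exact_mod_cast hK0
  set K' := g + D + 2 with hK'
  set C := max (max C₁ C₂) 1 with hC
  have hC0 : 0 < C := lt_of_lt_of_le one_pos (le_max_right _ _)
  set Θ : ℝ := 6 * K' ^ 3 * K₂ ^ 5 * C * K ^ 3 / κ ^ 3 with hΘ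
  have tN : Tendsto (fun m : ℕ => K * m) atTop atTop :=
    tendsto_id.const_mul_atTop' hK0
  have tR : Tendsto (fun m : ℕ => ((K * m : ℕ) : ℝ)) atTop atTop :=
    tendsto_natCast_atTop_atTop.comp tN
  have tL := Real.tendsto_log_atTop.comp tR
  obtain ⟨m, ⟨⟨⟨⟨⟨hm, h1⟩, h2⟩, h3⟩, h4⟩, h5⟩, h7⟩ := (((((((eventually_ge_atTop 1).and
    (tN.eventually_ge_atTop N₁)).and (tN.eventually_ge_atTop N₂)).and
    (tL.eventually_ge_atTop 2)).and (tL.eventually_gt_atTop Θ)).and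
    (tR.eventually (ev_log_pow B one_pos))).and
    (tR.eventually (ev_log_pow (B * s) (inv_pos.2 hK0')))).exists
  obtain ⟨N, hN⟩ : ∃ N, N = K * m := ⟨_, rfl⟩
  simp only [Function.comp] at h3 h4
  rw [← hN] at h1 h2 h3 h4 h5 h7
  have hN0 : 0 < N := by rw [hN]; positivity
  have hN0' : (0 : ℝ) < N := by exact_mod_cast hN0
  have hNr : (N : ℝ) = K * m := by exact_mod_cast hN
  set ℓ := Real.log N with hℓ
  have hℓ0 : 0 < ℓ := by linarith
  set z := zz B N with hz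
  have hz1 : (z : ℝ) ≤ ℓ ^ B := Nat.floor_le (by positivity)
  have hz2 : 2 ≤ z := Nat.le_floor (by
    push_cast
    exact h3.trans (le_self_pow₀ (by linarith) (by omega)))
  have hz2' : (2 : ℝ) ≤ z := by exact_mod_cast hz2
  have hlz0 : 0 < Real.log z := Real.log_pos (by linarith)
  have hlz : Real.log z ≤ ℓ := Real.log_le_log (by linarith) (by linarith)
  have hzs : (z : ℝ) ^ s ≤ m := by
    calc (z : ℝ) ^ s ≤ (ℓ ^ B) ^ s := by gcongr
      _ = ℓ ^ (B * s) := by rw [pow_mul]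
      _ ≤ (K : ℝ)⁻¹ * N := h7
      _ = m := by rw [hNr]; field_simp
  set n := K' * N with hn
  have hmain := hM g D c hg h6 hD hDg hcg (Nat.mod_lt _ hg) z m N n hz2 hm hzs hN
    (Nat.mul_le_mul_right N (by omega))
  set L := K₂ * ℓ with hL
  have hL0 : 0 ≤ L := by positivity
  have bF : ∀ q g c, Bd (ker (edge q g c N lp)) L := fun q g c =>
    ker_edge_bd q g c N hL0 fun k a b => (abs_lp_le a b).trans (le_mul_of_one_le_left hℓ0.le hK₂)
  have bG : ∀ q g c, Bd (ker (edge q g c N (nu z))) L := fun q g c =>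
    ker_edge_bd q g c N hL0 fun k _ _ => (abs_nu_le z k).trans ((hV z hz2).trans (by
      rw [hL]; gcongr))
  set η := C * N / ℓ ^ 15 with hη
  have f₁ : ∀ α : ℝ, ‖∑ k ∈ (Icc 1 N).filter (fun n => n ≡ c [MOD g]),
      ((lp k - nu z k : ℝ) : ℂ) * ee (k * α)‖ ≤ η := fun α => (hF₁ N h1 α).trans (by
    rw [hη]; gcongr; exact (le_max_left _ _).trans (le_max_left _ _))
  have f₂ : ∀ α : ℝ, ‖∑ k ∈ (Icc 1 N).filter (fun n => n ≡ 0 [MOD 1]),
      ((lp k - nu z k : ℝ) : ℂ) * ee (k * α)‖ ≤ η := fun α => (hF₂ N h2 α).trans (by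
    rw [hη]; gcongr; exact (le_max_right _ _).trans (le_max_left _ _))
  have lt : ∀ q, q ≤ g + D → q * N < n := fun q hq =>
    Nat.mul_lt_mul_of_pos_right (by omega) hN0
  have cg := cut_edge lp (nu z) hg (lt g (by omega)) η (L ^ 2) f₁
  have cD := cut_edge lp (nu z) hD (lt D (by omega)) η (L ^ 2) f₁
  have c1 := cut_edge lp (nu z) one_pos (lt 1 (by omega)) η (L ^ 2) f₂
  have hcount := counting (range n) (bF _ _ _) (bF _ _ _) (bF _ _ _) (bF _ _ _) (bF _ _ _)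
    (bG _ _ _) (bG _ _ _) (bG _ _ _) (bG _ _ _) (bG _ _ _) cg c1 c1 cD c1 cg
  have hpos : 0 < T4 (range n) (ker (edge g g c N lp)) (ker (edge 1 1 0 N lp))
      (ker (edge 1 1 0 N lp)) (ker (edge D g c N lp)) (ker (edge 1 1 0 N lp))
      (ker (edge g g c N lp)) := by
    have hm0 : (0 : ℝ) < m := by exact_mod_cast hm
    have e1 : (N : ℝ) * (κ * m / ℓ ^ 3) ^ 3 ≤ N * (κ * m / Real.log z ^ 3) ^ 3 := by gcongr
    have e2 : 6 * (((range n).card : ℝ) ^ 2 * (L * (η * n * (L ^ 2) ^ 2))) =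
        N * (κ * m / ℓ ^ 3) ^ 3 * (Θ / ℓ) := by
      rw [card_range, hn, hη, hL, hΘ]
      push_cast
      rw [hNr]
      field_simp
    have e3 : Θ / ℓ < 1 := (div_lt_one hℓ0).2 h4
    have e4 : 0 < (N : ℝ) * (κ * m / ℓ ^ 3) ^ 3 := by positivity
    have e5 := mul_lt_mul_of_pos_left e3 e4
    linarith
  unfold T4 S4 at hpos
  obtain ⟨a, -, ha⟩ := exists_ne_zero_of_sum_ne_zero hpos.ne'
  obtain ⟨b, -, hb⟩ := exists_ne_zero_of_sum_ne_zero ha
  obtain ⟨c', -, hc'⟩ := exists_ne_zero_of_sum_ne_zero hb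
  obtain ⟨d, -, hd⟩ := exists_ne_zero_of_sum_ne_zero hc'
  simp only [ne_eq, mul_eq_zero, not_or] at hd
  obtain ⟨⟨⟨⟨⟨d1, d2⟩, d3⟩, d4⟩, d5⟩, d6⟩ := hd
  obtain ⟨x, x1, x2, x3⟩ := ker_edge_ne d1
  obtain ⟨v, v1, v2, -⟩ := ker_edge_ne d2
  obtain ⟨A, A1, A2, -⟩ := ker_edge_ne d3
  obtain ⟨Z, Z1, Z2, Z3⟩ := ker_edge_ne d4
  obtain ⟨u, u1, u2, -⟩ := ker_edge_ne d5
  obtain ⟨y, y1, y2, y3⟩ := ker_edge_ne d6
  exact ⟨x, y, Z, u, v, A, x2, y2, Z2, u2, v2, A2, x3.trans hcc, y3.trans hcc, Z3.trans hcc,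
    by omega, by omega, by omega⟩

end Crest.Agent.T15.K4
end

-- ▼ part T15/K4_98
section

/-! # Row 15, block Q: (K4) holds (helper98) -/

set_option autoImplicit false

namespace Crest.Agent.T15.Fb

theorem k4 : Q.K4Stmt := K4.k4Glue k4fb

end Crest.Agent.T15.Fb
end

-- ▼ part T15/QJ_22
section

/-!
# Row 15, block Q: the bootstrap `HGStmt → K4Stmt → JStmt` (helper22)
-/

set_option autoImplicit false

namespace Crest.Agent.T15.Q

/-- `G` has even valuation at the odd primes where `w` has odd valuation -/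
def Ev (w G : ℚ) : Prop :=
  G ≠ 0 ∧ ∀ p : ℕ, p.Prime → p ≠ 2 → Odd (padicValRat p w) → Even (padicValRat p G)

def Sound (R : ℚ → ℚ → Prop) : Prop := ∀ w G, R w G → Ev w G

def R0 (w G : ℚ) : Prop := D0 w G ∧ G ≠ 0

def Step (R : ℚ → ℚ → Prop) (w d : ℚ) : Prop := d ≠ 0 ∧ ∃ x y z : ℚ, R w x ∧ R w y ∧ R w z ∧
  R w (d * z - 144 * w * x) ∧ R w (d * z - 144 * w * y) ∧ R w (d * z - 144 * w * x - 144 * w * y)

def Flip (R : ℚ → ℚ → Prop) (w G : ℚ) : Prop := R G w ∧ G ≠ 0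

def D2 : ℚ → ℚ → Prop := Step (Flip (Step R0))

def J (w y : ℚ) : Prop := ∃ t s N : ℚ, y = w * t ^ 2 - w * s ^ 2 ∧
  D2 w ((1 + w * t ^ 2) * N ^ 2) ∧ D2 w ((1 + w * s ^ 2) * N ^ 2)

/-! ### Diophantine -/

abbrev Dio2 (R : ℚ → ℚ → Prop) : Prop := Dio fun x : ℚ × ℚ => R x.1 x.2

theorem Dio2.app {R : ℚ → ℚ → Prop} (h : Dio2 R) {V : Type*} [AddCommGroup V] [Module ℚ V]
    {f g : V → ℚ} (hf : PolM f) (hg : PolM g) : Dio fun x => R (f x) (g x) :=
  Dio.comp (S := fun x : ℚ × ℚ => R x.1 x.2) h (g := fun x => (f x, g x)) (by fun_prop)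

theorem dio_ex3 {R : ℚ × ℚ → ℚ → ℚ → ℚ → Prop}
    (h : Dio fun p : (ℚ × ℚ) × ℚ × ℚ × ℚ => R p.1 p.2.1 p.2.2.1 p.2.2.2) :
    Dio fun x => ∃ a b c, R x a b c :=
  (Dio.ex (W := ℚ × ℚ × ℚ) (R := fun x u => R x u.1 u.2.1 u.2.2) h).congr fun _ =>
    ⟨fun ⟨_, hu⟩ => ⟨_, _, _, hu⟩, fun ⟨a, b, c, hu⟩ => ⟨(a, b, c), hu⟩⟩

theorem dio_D0 : Dio2 D0 :=
  dio_ex3 (R := fun x r A B => 4 + r ^ 2 = x.1 * A ^ 2 ∧ 4 - r ^ 2 = x.2 * B ^ 2 ∧ B ≠ 0)
    ((Dio.eq (by fun_prop) (by fun_prop)).and ((Dio.eq (by fun_prop) (by fun_prop)).and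
      (Dio.ne_zero (by fun_prop))))

theorem dio_R0 : Dio2 R0 := dio_D0.and (Dio.ne_zero (by fun_prop))

theorem dio_step {R : ℚ → ℚ → Prop} (h : Dio2 R) : Dio2 (Step R) :=
  (Dio.ne_zero (by fun_prop)).and (dio_ex3
    (R := fun p x y z => R p.1 x ∧ R p.1 y ∧ R p.1 z ∧ R p.1 (p.2 * z - 144 * p.1 * x) ∧
      R p.1 (p.2 * z - 144 * p.1 * y) ∧ R p.1 (p.2 * z - 144 * p.1 * x - 144 * p.1 * y))
    ((h.app (by fun_prop) (by fun_prop)).and ((h.app (by fun_prop) (by fun_prop)).and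
      ((h.app (by fun_prop) (by fun_prop)).and ((h.app (by fun_prop) (by fun_prop)).and
        ((h.app (by fun_prop) (by fun_prop)).and (h.app (by fun_prop) (by fun_prop))))))))

theorem dio_flip {R : ℚ → ℚ → Prop} (h : Dio2 R) : Dio2 (Flip R) :=
  (h.app (by fun_prop) (by fun_prop)).and (Dio.ne_zero (by fun_prop))

theorem dio_D2 : Dio2 D2 := dio_step (dio_flip (dio_step dio_R0))

theorem dio_J : Dio2 J :=
  dio_ex3 (R := fun p t s N => p.2 = p.1 * t ^ 2 - p.1 * s ^ 2 ∧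
      D2 p.1 ((1 + p.1 * t ^ 2) * N ^ 2) ∧ D2 p.1 ((1 + p.1 * s ^ 2) * N ^ 2))
    ((Dio.eq (by fun_prop) (by fun_prop)).and ((dio_D2.app (by fun_prop) (by fun_prop)).and
      (dio_D2.app (by fun_prop) (by fun_prop))))

/-! ### soundness -/

section val
variable {p : ℕ} [Fact p.Prime]

omit [Fact p.Prime] in
theorem ne_of_odd {w : ℚ} (h : Odd (padicValRat p w)) : w ≠ 0 := by
  rintro rfl; simp at h

theorem val_mul_sq {w t : ℚ} (hw : w ≠ 0) (ht : t ≠ 0) :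
    padicValRat p (w * t ^ 2) = padicValRat p w + 2 * padicValRat p t := by
  rw [padicValRat.mul hw (pow_ne_zero 2 ht), padicValRat.pow]; rfl

theorem lt_of_parity {a j : ℚ} (ha : a ≠ 0) (hs : a + j ≠ 0) (ea : Even (padicValRat p a))
    (oj : Odd (padicValRat p j)) (es : Even (padicValRat p (a + j))) :
    padicValRat p a < padicValRat p j := by
  rcases lt_trichotomy (padicValRat p a) (padicValRat p j) with h | h | h
  · exact h
  · exact absurd (h ▸ ea) (Int.not_even_iff_odd.2 oj)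
  · rw [add_comm, padicValRat.add_eq_of_lt (by rwa [add_comm]) (ne_of_odd oj) ha h] at es
    exact absurd es (Int.not_even_iff_odd.2 oj)

theorem val_two_pow (hp : p ≠ 2) (k : ℕ) : padicValRat p (2 ^ k) = 0 := by
  have : padicValRat p ((2 : ℕ) : ℚ) = 0 := by
    rw [padicValRat.of_nat, padicValNat_primes hp]; rfl
  rw [padicValRat.pow]; simp_all

end val

theorem sound_R0 : Sound R0 := by
  rintro w G ⟨⟨r, A, B, h1, h2, hB⟩, hG⟩
  refine ⟨hG, fun p hp h2' ow => ?_⟩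
  have := Fact.mk hp
  by_contra oG
  rw [Int.not_even_iff_odd] at oG
  have n1 : 4 + r ^ 2 ≠ 0 := by positivity
  have hA : A ≠ 0 := by rintro rfl; simp [h1] at n1
  have o1 : Odd (padicValRat p (4 + r ^ 2)) := by
    rw [h1, val_mul_sq (ne_of_odd ow) hA]; exact ow.add_even (even_two_mul _)
  have o2 : Odd (padicValRat p (4 - r ^ 2)) := by
    rw [h2, val_mul_sq hG hB]; exact oG.add_even (even_two_mul _)
  have v4 : padicValRat p 4 = 0 := by simpa [show (2 : ℚ) ^ 2 = 4 by norm_num] using val_two_pow h2' 2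
  have v8 : padicValRat p 8 = 0 := by simpa [show (2 : ℚ) ^ 3 = 8 by norm_num] using val_two_pow h2' 3
  -- `4 = (4 + r²) - r²`
  have hr : r ≠ 0 := by rintro rfl; simp [v4] at o1
  have er : Even (padicValRat p (r ^ 2)) := by rw [padicValRat.pow]; exact even_two_mul _
  have l1 := lt_of_parity (p := p) (a := -4) (j := 4 + r ^ 2) (by norm_num)
    (by simpa using hr) (by simp [v4]) o1 (by simp)
  have e4 : -4 + (4 - r ^ 2) = -r ^ 2 := by ring
  have l2 := lt_of_parity (p := p) (a := -4) (j := 4 - r ^ 2) (by norm_num)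
    (by rw [e4]; simpa using hr) (by simp [v4]) o2 (by rwa [e4, padicValRat.neg])
  have := padicValRat.min_le_padicValRat_add (p := p) (q := 4 + r ^ 2) (r := 4 - r ^ 2) (by norm_num)
  rw [show 4 + r ^ 2 + (4 - r ^ 2) = 8 by ring, v8] at this
  simp only [padicValRat.neg, v4] at l1 l2
  omega

theorem sound_step {R : ℚ → ℚ → Prop} (h : Sound R) : Sound (Step R) := by
  rintro w d ⟨hd, x, y, z, hx, hy, hz, hu, hv, ha⟩
  refine ⟨hd, fun p hp h2 ow => ?_⟩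
  have := Fact.mk hp
  obtain ⟨x0, ex⟩ := h _ _ hx
  obtain ⟨y0, ey⟩ := h _ _ hy
  obtain ⟨z0, ez⟩ := h _ _ hz
  obtain ⟨u0, eu⟩ := h _ _ hu
  obtain ⟨v0, ev⟩ := h _ _ hv
  obtain ⟨a0, ea⟩ := h _ _ ha
  have w0 := ne_of_odd ow
  have og : ∀ {x : ℚ}, x ≠ 0 → Even (padicValRat p x) → Odd (padicValRat p (144 * w * x)) := by
    intro x x0 ex
    rw [show 144 * w * x = w * x * 12 ^ 2 by ring, val_mul_sq (mul_ne_zero w0 x0) (by norm_num),
      padicValRat.mul w0 x0]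
    exact (ow.add_even ex).add_even (even_two_mul _)
  set a := d * z - 144 * w * x - 144 * w * y with hadef
  have e1 : a + 144 * w * x = d * z - 144 * w * y := by rw [hadef]; ring
  have e2 : a + 144 * w * y = d * z - 144 * w * x := by rw [hadef]; ring
  have l1 := lt_of_parity a0 (e1 ▸ v0) (ea p hp h2 ow) (og x0 (ex p hp h2 ow)) (e1 ▸ ev p hp h2 ow)
  have l2 := lt_of_parity a0 (e2 ▸ u0) (ea p hp h2 ow) (og y0 (ey p hp h2 ow)) (e2 ▸ eu p hp h2 ow)
  have s1 := padicValRat.add_eq_of_lt (p := p) (e1 ▸ v0) a0 (ne_of_odd (og x0 (ex p hp h2 ow))) l1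
  have e3 : a + 144 * w * x + 144 * w * y = d * z := by rw [hadef]; ring
  have s2 := padicValRat.add_eq_of_lt (p := p) (e3 ▸ mul_ne_zero hd z0) (e1 ▸ v0)
    (ne_of_odd (og y0 (ey p hp h2 ow))) (s1 ▸ l2)
  rw [e3, s1, padicValRat.mul hd z0] at s2
  have := ea p hp h2 ow
  rw [← s2] at this
  exact (Int.even_add.1 this).2 (ez p hp h2 ow)

theorem sound_flip {R : ℚ → ℚ → Prop} (h : Sound R) : Sound (Flip R) := fun _ _ ⟨h1, h2⟩ =>
  ⟨h2, fun p hp h2' ow => by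
    by_contra o
    exact Int.not_even_iff_odd.2 ow ((h _ _ h1).2 p hp h2' (Int.not_even_iff_odd.1 o))⟩

theorem sound_D2 : Sound D2 := sound_step (sound_flip (sound_step sound_R0))

theorem pos_of_D2 {w t N : ℚ} (h : D2 w ((1 + w * t ^ 2) * N ^ 2)) {p : ℕ} (hp : p.Prime) (h2 : p ≠ 2)
    (ow : Odd (padicValRat p w)) : w * t ^ 2 = 0 ∨ 0 < padicValRat p (w * t ^ 2) := by
  have := Fact.mk hp
  obtain ⟨h0, he⟩ := sound_D2 _ _ h
  have he := he p hp h2 ow
  have h1 := left_ne_zero_of_mul h0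
  have hN : N ≠ 0 := by rintro rfl; simp at h0
  rw [val_mul_sq h1 hN] at he
  by_cases ht : t = 0
  · simp [ht]
  · right
    have := lt_of_parity (p := p) one_ne_zero h1 (by simp)
      (by rw [val_mul_sq (ne_of_odd ow) ht]; exact ow.add_even (even_two_mul _))
      ((Int.even_add.1 he).2 (even_two_mul _))
    simpa using this

theorem sound_J {w y : ℚ} (h : J w y) {p : ℕ} (hp : p.Prime) (h2 : p ≠ 2)
    (ow : Odd (padicValRat p w)) : y = 0 ∨ 0 < padicValRat p y := by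
  have := Fact.mk hp
  obtain ⟨t, s, N, rfl, ht, hs⟩ := h
  by_cases h0 : w * t ^ 2 - w * s ^ 2 = 0
  · exact Or.inl h0
  right
  rcases pos_of_D2 ht hp h2 ow with a | a <;> rcases pos_of_D2 hs hp h2 ow with b | b
  · simp [a, b] at h0
  · simpa [a] using b
  · simpa [b] using a
  · have := padicValRat.min_le_padicValRat_add (p := p) (q := w * t ^ 2) (r := -(w * s ^ 2))
      (by rwa [← sub_eq_add_neg])
    rw [padicValRat.neg, ← sub_eq_add_neg] at this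
    omega

/-! ### completeness -/

theorem step_of (K : K4Stmt) {R : ℚ → ℚ → Prop} {w c D : ℕ} (hw : 0 < w) (hD : 0 < D)
    (h1 : D.Coprime (144 * w)) (h2 : c.Coprime (144 * w))
    (hR : ∀ q : ℕ, q.Prime → (q ≡ c [MOD 144 * w] ∨ q ≡ D * c [MOD 144 * w]) → R w q) :
    Step R w D := by
  obtain ⟨x, y, z, u, v, a, px, py, pz, pu, pv, pa, cx, cy, cz, eu, ev, ea⟩ :=
    K (144 * w) D c (by positivity) (Dvd.dvd.mul_right (by norm_num) _) hD h1 h2
  have hz := cz.mul_left D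
  have m : ∀ {q k : ℕ}, q + 144 * w * k = D * z → q ≡ D * c [MOD 144 * w] := fun {q k} e => by
    rw [← e] at hz
    exact (Nat.ModEq.symm (by simp [Nat.ModEq])).trans hz
  refine ⟨by positivity, x, y, z, hR x px (.inl cx), hR y py (.inl cy), hR z pz (.inl cz), ?_, ?_, ?_⟩
  · convert hR u pu (.inr (m eu)) using 1
    rw [sub_eq_iff_eq_add]; exact_mod_cast eu.symm
  · convert hR v pv (.inr (m ev)) using 1
    rw [sub_eq_iff_eq_add]; exact_mod_cast ev.symm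
  · convert hR a pa (.inr (m (k := x + y) (by rw [mul_add, ← add_assoc, ea]))) using 1
    rw [sub_sub, sub_eq_iff_eq_add, ← add_assoc]; exact_mod_cast ea.symm

theorem cop144 {p : ℕ} (hp : p.Prime) (h : p % 8 = 5 ∨ p % 8 = 1) : Nat.Coprime 144 p := by
  have h2 : Nat.Coprime 2 p := (Nat.coprime_primes Nat.prime_two hp).2 (by omega)
  have h3 : Nat.Coprime 3 p := (Nat.coprime_primes Nat.prime_three hp).2 (by omega)
  simpa using (h2.pow_left 4).mul_left (h3.pow_left 2)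

theorem mod_split {w c D q : ℕ} (hD : D % 8 = 1)
    (h : q ≡ c [MOD 144 * w] ∨ q ≡ D * c [MOD 144 * w]) :
    q % 8 = c % 8 ∧ ((q : ZMod w) = c ∨ (q : ZMod w) = D * c) := by
  rcases h with h | h
  · exact ⟨h.of_dvd (Dvd.dvd.mul_right (by norm_num) _),
      .inl ((ZMod.natCast_eq_natCast_iff _ _ _).2 (h.of_mul_left _))⟩
  · refine ⟨?_, .inr (by exact_mod_cast (ZMod.natCast_eq_natCast_iff _ _ _).2 (h.of_mul_left _))⟩
    have : q % 8 = D * c % 8 := h.of_dvd (Dvd.dvd.mul_right (by norm_num) _)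
    rw [this, Nat.mul_mod, hD]; simp

/-- level one -/
theorem D1_of (H : HGStmt) (K : K4Stmt) {p D : ℕ} (hp : p.Prime) (h5 : p % 8 = 5) (hD : D % 8 = 1)
    (h1 : D.Coprime (144 * p)) (hs : IsSquare (D : ZMod p)) : Step R0 p D := by
  have := Fact.mk hp
  obtain ⟨c, c1, c2⟩ := Nat.chineseRemainder (cop144 hp (.inl h5)) 19 2
  have c2' : (c : ZMod p) = 2 := by exact_mod_cast (ZMod.natCast_eq_natCast_iff _ _ _).2 c2
  have n2 : ¬ IsSquare (2 : ZMod p) := by rw [ZMod.exists_sq_eq_two_iff (by omega)]; omega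
  refine step_of K (c := c) hp.pos (by omega) h1 (Nat.Coprime.mul_right ?_ ?_) fun q hq h => ?_
  · rw [Nat.Coprime, c1.gcd_eq]; norm_num
  · rw [Nat.Coprime, c2.gcd_eq]; exact (Nat.coprime_primes Nat.prime_two hp).2 (by omega)
  obtain ⟨m8, mz⟩ := mod_split hD h
  have c8 : c % 8 = 19 % 8 := c1.of_dvd (by norm_num)
  refine ⟨H p q hp hq h5 (by omega) ?_, by exact_mod_cast hq.ne_zero⟩
  rcases mz with e | e <;> rw [e, c2']
  · exact n2
  · obtain ⟨k, hk⟩ := hs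
    have k0 : k ≠ 0 := by
      rintro rfl
      rw [mul_zero, ZMod.natCast_eq_zero_iff] at hk
      exact hp.one_lt.ne' (Nat.eq_one_of_dvd_coprimes h1 hk (dvd_mul_left _ _))
    rintro ⟨m, hm⟩
    exact n2 ⟨m / k, by rw [hk] at hm; field_simp; linear_combination hm⟩

/-- level two -/
theorem D2_of (H : HGStmt) (K : K4Stmt) {l D : ℕ} (hl : l.Prime) (h1 : l % 8 = 1) (hD : D % 8 = 1)
    (hc : D.Coprime (144 * l)) (hs : IsSquare (D : ZMod l)) : D2 l D := by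
  have := Fact.mk hl
  obtain ⟨c, c1, c2⟩ := Nat.chineseRemainder (cop144 hl (.inr h1)) 5 1
  have c2' : (c : ZMod l) = 1 := by exact_mod_cast (ZMod.natCast_eq_natCast_iff _ _ _).2 c2
  refine step_of K (c := c) hl.pos (by omega) hc (Nat.Coprime.mul_right ?_ ?_) fun p hp h => ?_
  · rw [Nat.Coprime, c1.gcd_eq]; norm_num
  · rw [Nat.Coprime, c2.gcd_eq]; simp
  obtain ⟨m8, mz⟩ := mod_split hD h
  have c8 : c % 8 = 5 % 8 := c1.of_dvd (by norm_num)
  have := Fact.mk hp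
  refine ⟨D1_of H K hp (by omega) h1 (Nat.Coprime.mul_right (cop144 hl (.inr h1)).symm
    ((Nat.coprime_primes hl hp).2 (by omega))) ?_, by exact_mod_cast hp.ne_zero⟩
  rw [← ZMod.exists_sq_eq_prime_iff_of_mod_four_eq_one (by omega) (by omega)]
  rcases mz with e | e <;> rw [e, c2']
  · exact IsSquare.one
  · simpa using hs

theorem D2_form (H : HGStmt) (K : K4Stmt) {l N : ℕ} (hl : l.Prime) (h1 : l % 8 = 1) (hN : ¬ l ∣ N)
    (k : ℤ) : D2 l ((24 * N) ^ 2 + l * (1 + 144 * k) ^ 2) := by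
  have := Fact.mk hl
  obtain ⟨T, hT⟩ : ∃ T : ℕ, (T : ℤ) = (1 + 144 * k) ^ 2 := ⟨_, Int.toNat_of_nonneg (sq_nonneg _)⟩
  have T1 : T % 144 = 1 := by
    have : (T : ℤ) = 1 + 144 * (2 * k + 144 * k ^ 2) := by rw [hT]; ring
    omega
  have hm : (24 * N) ^ 2 + l * T ≡ l [MOD 144] := by
    have : l * T ≡ l * 1 [MOD 144] := Nat.ModEq.mul_left _ T1
    rw [show (24 * N) ^ 2 = 144 * (4 * N ^ 2) by ring]
    simpa [Nat.ModEq] using this
  have h := D2_of H K (D := (24 * N) ^ 2 + l * T) hl h1 ?_ (Nat.Coprime.mul_right ?_ ?_) ?_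
  · convert h using 1
    have : (T : ℚ) = (1 + 144 * k) ^ 2 := by exact_mod_cast hT
    push_cast; rw [this]
  · exact Eq.trans (hm.of_dvd (by norm_num : 8 ∣ 144)) h1
  · rw [Nat.Coprime, hm.gcd_eq]; exact (cop144 hl (.inr h1)).symm
  · rw [Nat.coprime_add_mul_left_left]
    refine Nat.Coprime.pow_left _ (Nat.Coprime.mul_left ?_ ((hl.coprime_iff_not_dvd.2 hN).symm))
    exact Nat.Coprime.coprime_dvd_left (by norm_num) (cop144 hl (.inr h1))
  · exact ⟨24 * N, by push_cast; simp [sq]⟩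

theorem J_of (H : HGStmt) (K : K4Stmt) {l : ℕ} (hl : l.Prime) (h1 : l % 8 = 1) {y : ℚ}
    (hy : y = 0 ∨ 0 < padicValRat l y) : J l y := by
  have := Fact.mk hl
  have l0 : (l : ℚ) ≠ 0 := by exact_mod_cast hl.ne_zero
  set c : ℚ := y / l with hc
  have hN : ¬ l ∣ c.den := by
    intro hd
    have c0 : c ≠ 0 := by
      intro e; rw [e] at hd; exact hl.one_lt.ne' (by simpa using hd)
    have y0 : y ≠ 0 := by rintro rfl; simp [hc] at c0
    have v : 0 ≤ padicValRat l c := by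
      rw [hc, padicValRat.div y0 l0, padicValRat.self hl.one_lt]
      have := hy.resolve_left y0; omega
    have n : ¬ (l : ℤ) ∣ c.num := fun h => hl.one_lt.ne' (Nat.eq_one_of_dvd_coprimes c.reduced
      (Int.natCast_dvd.1 h) hd)
    have := one_le_padicValNat_of_dvd c.den_nz hd
    rw [padicValRat_def, padicValInt.eq_zero_of_not_dvd n] at v
    omega
  have d0 : (c.den : ℚ) ≠ 0 := by exact_mod_cast c.den_nz
  have e : (c.num : ℚ) = c * c.den := by rw [Rat.mul_den_eq_num]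
  refine ⟨(1 + 144 * (c.num * c.den)) / (24 * c.den), (1 + 144 * (-(c.num * c.den))) / (24 * c.den),
    24 * c.den, ?_, ?_, ?_⟩
  · have : y = l * c := by rw [hc]; field_simp
    rw [e]; nth_rw 1 [this]; field_simp; ring
  · convert D2_form H K hl h1 hN (c.num * c.den) using 1
    push_cast; field_simp
  · convert D2_form H K hl h1 hN (-(c.num * c.den)) using 1
    push_cast; field_simp

theorem jGlue : JGlue := fun H K =>
  ⟨J, dio_J, fun _ _ h _ hp h2 ow => sound_J h hp h2 ow, fun _ hl h1 _ hy => J_of H K hl h1 hy⟩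

end Crest.Agent.T15.Q
end

-- ▼ part T15/QHa_22
section

/-!
# Row 15, block Q: the arithmetic end of (H5) (helper22)
-/

set_option autoImplicit false

namespace Crest.Agent.T15.Q

theorem isSquare_of_even {U : ℕ} (hU : U ≠ 0) (h : ∀ l : ℕ, l.Prime → Even (padicValNat l U)) :
    IsSquare U := by
  obtain ⟨a, b, e, hs⟩ := Nat.sq_mul_squarefree U
  have a0 : a ≠ 0 := hs.ne_zero
  have b0 : b ≠ 0 := by rintro rfl; simp at e; exact hU e.symm
  have : a = 1 := by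
    by_contra h1
    obtain ⟨l, hl, hd⟩ := Nat.exists_prime_and_dvd h1
    have := Fact.mk hl
    have h2 := h l hl
    rw [← e, padicValNat.mul (pow_ne_zero 2 b0) a0, padicValNat.pow] at h2
    have l1 := one_le_padicValNat_of_dvd a0 hd
    have l2 : ¬ 2 ≤ padicValNat l a := fun h => by
      have := (padicValNat_dvd_iff_le a0).2 h
      exact hl.not_isUnit (hs l (by rwa [← sq]))
    obtain ⟨k, hk⟩ := h2
    omega
  exact ⟨b, by rw [← e, this]; ring⟩

/-- `a² - p b²` has even `2`-adic valuation for `p ≡ 5 mod 8` -/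
theorem even_val_norm {p : ℕ} (hp : p % 8 = 5) {A B : ℚ} (h : A ^ 2 - p * B ^ 2 ≠ 0) :
    Even (padicValRat 2 (A ^ 2 - p * B ^ 2)) := by
  have p0 : (p : ℚ) ≠ 0 := by exact_mod_cast (by omega : p ≠ 0)
  have vp : padicValRat 2 p = 0 := by
    rw [padicValRat.of_nat, padicValNat.eq_zero_of_not_dvd (by omega)]; rfl
  by_cases hB : B = 0
  · simp [hB]
  have e : A ^ 2 - p * B ^ 2 = (((A / B).num ^ 2 - p * (A / B).den ^ 2 : ℤ) : ℚ) *
      (B / (A / B).den) ^ 2 := by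
    have d0 : ((A / B).den : ℚ) ≠ 0 := by exact_mod_cast (A / B).den_nz
    have : ((A / B).num : ℚ) = A / B * (A / B).den := by rw [Rat.mul_den_eq_num]
    push_cast; rw [this]; field_simp
  have hc := (A / B).reduced
  generalize (A / B).num = m at e hc
  have d0 : ((A / B).den : ℚ) ≠ 0 := by exact_mod_cast (A / B).den_nz
  generalize (A / B).den = d at e hc d0
  rw [e] at h ⊢
  have h0 := left_ne_zero_of_mul h
  rw [val_mul_sq h0 (div_ne_zero hB d0), padicValRat.of_int]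
  refine Even.add ?_ (even_two_mul _)
  obtain ⟨k, rfl⟩ : ∃ k, p = 8 * k + 5 := ⟨p / 8, by omega⟩
  by_cases h2 : (2 : ℤ) ∣ m ^ 2 - (8 * k + 5 : ℕ) * d ^ 2
  · have om : Odd m ∧ Odd d := by
      rcases Int.even_or_odd' m with ⟨a, rfl | rfl⟩ <;> rcases Nat.even_or_odd' d with ⟨c, rfl | rfl⟩
      · exact absurd (Nat.eq_one_of_dvd_coprimes hc (by simp [Int.natAbs_mul]) (dvd_mul_right 2 c))
          (by norm_num)
      · exfalso; push_cast at h2; ring_nf at h2; omega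
      · exfalso; push_cast at h2; ring_nf at h2; omega
      · exact ⟨⟨a, rfl⟩, ⟨c, rfl⟩⟩
    obtain ⟨⟨a, rfl⟩, ⟨c, rfl⟩⟩ := om
    obtain ⟨u, hu⟩ := Int.even_mul_succ_self a
    obtain ⟨v, hv⟩ := Int.even_mul_succ_self (c : ℤ)
    have e2 : (2 * a + 1) ^ 2 - ((8 * k + 5 : ℕ) : ℤ) * ((2 * c + 1 : ℕ) : ℤ) ^ 2 =
        (2 * (u - k * (8 * v + 1) - 5 * v - 1) + 1) * 2 ^ 2 := by
      push_cast; linear_combination 4 * hu - 4 * (8 * k + 5) * hv
    have o : ¬ ((2 : ℕ) : ℤ) ∣ 2 * (u - k * (8 * v + 1) - 5 * v - 1) + 1 := by omega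
    have := val_mul_sq (p := 2) (w := ((2 * (u - k * (8 * v + 1) - 5 * v - 1) + 1 : ℤ) : ℚ)) (t := 2)
      (by exact_mod_cast (by omega : 2 * (u - k * (8 * v + 1) - 5 * v - 1) + 1 ≠ 0)) two_ne_zero
    rw [padicValRat.of_int, padicValInt.eq_zero_of_not_dvd o] at this
    rw [← padicValRat.of_int, e2, Int.cast_mul, Int.cast_pow, Int.cast_ofNat, this]
    simp
  · rw [padicValInt.eq_zero_of_not_dvd (by exact_mod_cast h2)]; simp

theorem exists_sqrt_neg {n : ℤ} (hn : n % 8 = 7) (k : ℕ) : ∃ d : ℤ, Odd d ∧ 2 ^ (k + 3) ∣ d ^ 2 + n := by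
  induction k with
  | zero => exact ⟨1, odd_one, by omega⟩
  | succ k ih =>
    obtain ⟨d, ⟨e, he⟩, c, hc⟩ := ih
    rcases Int.even_or_odd' c with ⟨a, rfl | rfl⟩
    · exact ⟨d, ⟨e, he⟩, a, by rw [hc]; ring⟩
    · refine ⟨d + 2 ^ (k + 2), ⟨e + 2 ^ (k + 1), by rw [he]; ring⟩, a + e + 1 + 2 ^ k, ?_⟩
      subst he
      linear_combination hc

/-- a rational norm from `K(√p)` to `K = ℚ(√(-n))`, `2` split in `K`, has even `2`-adic valuation -/
theorem even_val_of_norm {p : ℕ} (hp : p % 8 = 5) {n : ℤ} (hn : n % 8 = 7) {a1 a2 b1 b2 ρ : ℚ}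
    (h0 : ρ ≠ 0) (h1 : ρ = a1 ^ 2 - n * a2 ^ 2 - p * (b1 ^ 2 - n * b2 ^ 2))
    (h2 : a1 * a2 = p * (b1 * b2)) : Even (padicValRat 2 ρ) := by
  set c := a2 ^ 2 - p * b2 ^ 2 with hc
  obtain ⟨d, -, e, he⟩ := exists_sqrt_neg hn (padicValRat 2 ρ - padicValRat 2 c).natAbs
  set k := (padicValRat 2 ρ - padicValRat 2 c).natAbs + 3 with hk
  have he' : (d : ℚ) ^ 2 + n = 2 ^ k * e := by exact_mod_cast he
  have key : (a1 + a2 * d) ^ 2 - p * (b1 + b2 * d) ^ 2 = ρ + 2 ^ k * e * c := by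
    rw [← he', h1, hc]; linear_combination 2 * d * h2
  by_cases hz : 2 ^ k * e * c = 0
  · rw [hz, add_zero] at key
    exact key ▸ even_val_norm hp (key ▸ h0)
  have c0 : c ≠ 0 := right_ne_zero_of_mul hz
  have e0 : (e : ℚ) ≠ 0 := right_ne_zero_of_mul (left_ne_zero_of_mul hz)
  have hlt : padicValRat 2 ρ < padicValRat 2 (2 ^ k * e * c) := by
    have v2 : padicValRat 2 (2 : ℚ) = 1 := padicValRat.self (p := 2) one_lt_two
    rw [padicValRat.mul (left_ne_zero_of_mul hz) c0, padicValRat.mul (by positivity) e0,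
      padicValRat.pow, v2, padicValRat.of_int]
    omega
  have hs : ρ + 2 ^ k * e * c ≠ 0 := fun h => by
    rw [eq_neg_of_add_eq_zero_left h, padicValRat.neg] at hlt; exact lt_irrefl _ hlt
  rw [← padicValRat.add_eq_of_lt hs h0 hz hlt, ← key]
  exact even_val_norm hp (key ▸ hs)

theorem D0_of {p q : ℕ} (hp : p.Prime) (hq : q.Prime) (h5 : p % 8 = 5) (h3 : q % 8 = 3) {r w : ℚ}
    (h : (4 + r ^ 2) * (4 - r ^ 2) = p * q * w ^ 2) (h2 : Even (padicValRat 2 (4 + r ^ 2))) :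
    D0 p q := by
  have n1 : 4 + r ^ 2 ≠ 0 := by positivity
  have n2 : 4 - r ^ 2 ≠ 0 := fun e => by
    have v2 : padicValRat 2 (2 : ℚ) = 1 := padicValRat.self (p := 2) one_lt_two
    rw [show 4 + r ^ 2 = 2 ^ 3 by linarith, padicValRat.pow, v2] at h2
    exact absurd h2 (by decide)
  have p0 : (p : ℚ) ≠ 0 := by exact_mod_cast hp.ne_zero
  have q0 : (q : ℚ) ≠ 0 := by exact_mod_cast hq.ne_zero
  have w0 : w ≠ 0 := by rintro rfl; simp [n1, n2] at h
  have d0 : (r.den : ℚ) ≠ 0 := by exact_mod_cast r.den_nz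
  have em : (r.num : ℚ) = r * r.den := by rw [Rat.mul_den_eq_num]
  obtain ⟨U, hU⟩ : ∃ U : ℕ, (U : ℤ) = 4 * r.den ^ 2 + r.num ^ 2 :=
    ⟨_, Int.toNat_of_nonneg (by positivity)⟩
  have eU : (U : ℚ) = (4 + r ^ 2) * r.den ^ 2 := by
    have : (U : ℚ) = 4 * r.den ^ 2 + r.num ^ 2 := by exact_mod_cast hU
    rw [this, em]; ring
  have U0 : U ≠ 0 := by
    have : (U : ℚ) ≠ 0 := eU ▸ mul_ne_zero n1 (pow_ne_zero 2 d0)
    exact_mod_cast this
  have vU : ∀ l : ℕ, l.Prime → (Even (padicValNat l U) ↔ Even (padicValRat l (4 + r ^ 2))) := by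
    intro l hl
    have := Fact.mk hl
    rw [← Int.even_coe_nat, ← padicValRat.of_nat, eU, val_mul_sq n1 d0]
    simp [Int.even_add]
  have vs : ∀ l : ℕ, l.Prime → padicValRat l (4 + r ^ 2) + padicValRat l (4 - r ^ 2) =
      padicValNat l p + padicValNat l q + 2 * padicValRat l w := by
    intro l hl
    have := Fact.mk hl
    rw [← padicValRat.mul n1 n2, h, val_mul_sq (mul_ne_zero p0 q0) w0, padicValRat.mul p0 q0]
    simp
  -- the denominator is a unit modulo a prime dividing `4 d² ± m²`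
  have den : ∀ l : ℕ, l.Prime → ∀ c : ZMod l, (r.num : ZMod l) ^ 2 = c * (r.den : ZMod l) ^ 2 →
      (r.den : ZMod l) ≠ 0 := by
    intro l hl c e h0
    have := Fact.mk hl
    rw [h0, zero_pow two_ne_zero, mul_zero, pow_eq_zero_iff two_ne_zero,
      ZMod.intCast_zmod_eq_zero_iff_dvd] at e
    exact hl.one_lt.ne' (Nat.eq_one_of_dvd_coprimes r.reduced (Int.natCast_dvd.1 e)
      ((ZMod.natCast_eq_zero_iff _ _).1 h0))
  have Fp := Fact.mk hp
  have Fq := Fact.mk hq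
  have ev : ∀ l : ℕ, l.Prime → l ≠ p → Even (padicValNat l U) := by
    intro l hl hlp
    have := Fact.mk hl
    by_cases e2 : l = 2
    · subst e2; exact (vU 2 hl).2 h2
    by_cases eq : l = q
    · subst eq
      by_contra ho
      have hd : l ∣ U := by
        by_contra hd; exact ho (by simp [padicValNat.eq_zero_of_not_dvd hd])
      have z : ((4 * r.den ^ 2 + r.num ^ 2 : ℤ) : ZMod l) = 0 := by
        rw [← hU, Int.cast_natCast]; exact (ZMod.natCast_eq_zero_iff _ _).2 hd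
      push_cast at z
      have d1 := den l hl (-4) (by linear_combination z)
      have t : (2 : ZMod l) ≠ 0 := by
        intro h; exact e2 ((Nat.prime_dvd_prime_iff_eq hl Nat.prime_two).1
          ((ZMod.natCast_eq_zero_iff 2 l).1 (by exact_mod_cast h)))
      exact ZMod.mod_four_ne_three_of_sq_eq_neg_sq' (x := r.num) (mul_ne_zero t d1)
        (by linear_combination z) (by omega)
    rw [vU l hl]
    by_contra ho
    rw [Int.not_even_iff_odd] at ho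
    have h1 := (sound_R0 _ _ ⟨⟨r, 1, 1, by ring, by ring, one_ne_zero⟩, n2⟩).2 l hl e2 ho
    have h4 := vs l hl
    rw [padicValNat_primes hlp, padicValNat_primes eq] at h4
    obtain ⟨a, ha⟩ := ho
    obtain ⟨b, hb⟩ := h1
    omega
  have op : Odd (padicValNat p U) := by
    by_contra ho
    rw [Nat.not_odd_iff_even] at ho
    obtain ⟨k, hk⟩ := isSquare_of_even U0 fun l hl => by
      by_cases e : l = p
      · exact e ▸ ho
      · exact ev l hl e
    have h4 := vs p hp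
    rw [padicValNat_self, padicValNat_primes (by omega)] at h4
    have e' : ((4 * r.den ^ 2 - r.num ^ 2 : ℤ) : ℚ) = (4 - r ^ 2) * r.den ^ 2 := by
      push_cast; rw [em]; ring
    have hd : (p : ℤ) ∣ 4 * r.den ^ 2 - r.num ^ 2 := by
      by_contra hd
      have := padicValInt.eq_zero_of_not_dvd hd
      have h6 := val_mul_sq (p := p) n2 d0
      rw [← e', padicValRat.of_int, this] at h6
      obtain ⟨a, ha⟩ := (vU p hp).1 ho
      omega
    have z := (ZMod.intCast_zmod_eq_zero_iff_dvd _ _).2 hd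
    have z' : ((k * k : ℕ) : ZMod p) = ((4 * r.den ^ 2 + r.num ^ 2 : ℤ) : ZMod p) := by
      rw [← hU, hk, Int.cast_natCast]
    push_cast at z z'
    have d1 := den p hp 4 (by linear_combination -z)
    have t : (2 : ZMod p) ≠ 0 := by
      intro h
      have := (Nat.prime_dvd_prime_iff_eq hp Nat.prime_two).1
        ((ZMod.natCast_eq_zero_iff 2 p).1 (by exact_mod_cast h))
      omega
    have : IsSquare (2 : ZMod p) := ⟨k / (2 * r.den), by field_simp; linear_combination z - z'⟩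
    rw [ZMod.exists_sq_eq_two_iff (by omega)] at this
    omega
  obtain ⟨k, hk⟩ := isSquare_of_even (mul_ne_zero hp.ne_zero U0) fun l hl => by
    have := Fact.mk hl
    rw [padicValNat.mul hp.ne_zero U0]
    by_cases e : l = p
    · subst e; rw [padicValNat_self]; exact odd_one.add_odd op
    · rw [padicValNat_primes e, zero_add]; exact ev l hl e
  have hk' : (p : ℚ) * ((4 + r ^ 2) * r.den ^ 2) = k * k := by rw [← eU]; exact_mod_cast hk
  have k0 : (k : ℚ) ≠ 0 := fun e => by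
    rw [e, mul_zero] at hk'; exact mul_ne_zero p0 (mul_ne_zero n1 (pow_ne_zero 2 d0)) hk'
  have hA : 4 + r ^ 2 = p * (k / (p * r.den)) ^ 2 := by field_simp; linear_combination hk'
  refine ⟨r, k / (p * r.den), w / (k / (p * r.den)), hA, ?_, by positivity⟩
  have A0 : (k / (p * r.den) : ℚ) ≠ 0 := by positivity
  generalize (k / (p * r.den) : ℚ) = A at hA A0
  rw [hA] at h
  field_simp at h ⊢
  linear_combination h

end Crest.Agent.T15.Q
end

-- ▼ part T15/QHb_22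
section

/-!
# Row 15, block Q: the curve `Y² = X³ + 4X` and the field `ℚ(δ)` (helper22)
-/

set_option autoImplicit false

noncomputable section

namespace Crest.Agent.T15.Q.Hg

open WeierstrassCurve WeierstrassCurve.Affine

def EE : Affine ℚ := ⟨0, 0, 0, 4, 0⟩
abbrev EC : Affine ℂ := EE⁄ℂ

theorem EC_eq : EC = ⟨0, 0, 0, 4, 0⟩ := by
  ext <;> simp [EC, EE, Affine.baseChange, WeierstrassCurve.baseChange, WeierstrassCurve.map]

@[simp] theorem b1 : EE.a₁ = 0 := rfl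
@[simp] theorem b2 : EE.a₂ = 0 := rfl
@[simp] theorem b3 : EE.a₃ = 0 := rfl
@[simp] theorem b4 : EE.a₄ = 4 := rfl
@[simp] theorem b6 : EE.a₆ = 0 := rfl
@[simp] theorem a1 : EC.a₁ = 0 := by rw [EC_eq]
@[simp] theorem a2 : EC.a₂ = 0 := by rw [EC_eq]
@[simp] theorem a3 : EC.a₃ = 0 := by rw [EC_eq]
@[simp] theorem a4 : EC.a₄ = 4 := by rw [EC_eq]
@[simp] theorem a6 : EC.a₆ = 0 := by rw [EC_eq]

theorem ns_iff {x y : ℂ} : EC.Nonsingular x y ↔ y ^ 2 = x ^ 3 + 4 * x := by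
  rw [← equation_iff_nonsingular_of_Δ_ne_zero, equation_iff]
  · simp
  · simp [WeierstrassCurve.Δ, b₂, b₄, b₆, b₈]

def pt (x y : ℂ) (h : y ^ 2 = x ^ 3 + 4 * x) : EC.Point := .some x y (ns_iff.2 h)

def T : EC.Point := pt 2 (-4) (by norm_num)
def T2 : EC.Point := pt 0 0 (by norm_num)

theorem T_add_T : T + T = T2 := by
  have h : (-4 : ℂ) ≠ EC.negY 2 (-4) := by simp [negY]; norm_num
  rw [T, T2, pt, pt, Point.add_self_of_Y_ne h]
  simp only [Point.some.injEq, addY, slope_of_Y_ne rfl h]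
  simp [negY]; norm_num

theorem T2_add_T2 : T2 + T2 = 0 := Point.add_self_of_Y_eq (by simp [negY])

theorem T2_ne : T2 ≠ 0 := Point.some_ne_zero _

theorem odd_smul {h : ℕ} (ho : Odd h) : (h * 2) • T = T2 := by
  obtain ⟨k, rfl⟩ := ho
  rw [mul_nsmul', two_nsmul, T_add_T, add_nsmul, mul_nsmul, two_nsmul, T2_add_T2, one_nsmul,
    nsmul_zero, zero_add]

theorem T2_sub {x y : ℂ} (h : EC.Nonsingular x y) (hx : x ≠ 0) :
    ∃ h', T2 - .some x y h = .some (4 / x) (4 * y / x ^ 2) h' := by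
  have e := ns_iff.1 h
  refine ⟨ns_iff.2 (by field_simp; linear_combination e), ?_⟩
  rw [sub_eq_add_neg, Point.neg_some, T2, pt, Point.add_of_X_ne hx.symm]
  simp only [Point.some.injEq, addY, slope_of_X_ne hx.symm]
  simp only [negY, addX, negAddY, a1, a2, a3]
  have := neg_ne_zero.2 hx
  simp only [zero_sub, zero_mul, sub_zero, add_zero, neg_neg]
  constructor <;> field_simp
  · linear_combination e
  · linear_combination y * e

/-- the point attached to `s⁴ + b² = 1` -/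
def PP (s b : ℂ) (h : s ^ 4 + b ^ 2 = 1) (hs : s ≠ 0) : EC.Point :=
  pt (2 * (1 + b) / s ^ 2) (4 * (1 + b) / s ^ 3) (by field_simp; linear_combination (-8 * (1 + b)) * h)

theorem T_sub_PP {s b s' b' : ℂ} (h : s ^ 4 + b ^ 2 = 1) (hs : s ≠ 0) (hb : b ≠ 0)
    (h' : s' ^ 4 + b' ^ 2 = 1) (hs' : s' ≠ 0) (e1 : s' = -b / (1 + s ^ 2))
    (e2 : b' = -2 * s / (1 + s ^ 2)) : T - PP s b h hs = PP s' b' h' hs' := by
  have n1 : 1 + s ^ 2 ≠ 0 := fun e => hb (pow_eq_zero_iff two_ne_zero |>.1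
    (by linear_combination h + (1 - s ^ 2) * e))
  have n2 : 1 - s ^ 2 ≠ 0 := fun e => hb (pow_eq_zero_iff two_ne_zero |>.1
    (by linear_combination h + (1 + s ^ 2) * e))
  have n3 : 1 + b - s ^ 2 ≠ 0 := fun e => by
    have : 2 * s ^ 2 * (1 - s ^ 2) = 0 := by linear_combination -h + (b - 1 + s ^ 2) * e
    simp [hs, n2] at this
  have hx : (2 : ℂ) ≠ 2 * (1 + b) / s ^ 2 := fun e => n3 (by field_simp at e; linear_combination -e)
  have hsl : (-4 - -(4 * (1 + b) / s ^ 3)) / (2 - 2 * (1 + b) / s ^ 2) =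
      2 * (s ^ 3 - 1 - b) / (s * (1 + b - s ^ 2)) := by
    have : s ^ 2 - (1 + b) ≠ 0 := fun e => n3 (by linear_combination -e)
    field_simp; ring
  subst e1 e2
  rw [sub_eq_add_neg, PP, PP, T, pt, pt, pt, Point.neg_some, Point.add_of_X_ne hx]
  simp only [Point.some.injEq, addY, slope_of_X_ne hx]
  simp only [negY, addX, negAddY, a1, a2, a3, zero_mul, sub_zero, add_zero, hsl]
  clear hsl hx hs' h'
  constructor <;> field_simp <;> clear hs hb n1 n2 n3 <;> grind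

/-- the product of the three abscissae is the square of the intercept -/
theorem sum_sq {x₁ y₁ x₂ y₂ X Y : ℂ} {h₁ : EC.Nonsingular x₁ y₁} {h₂ : EC.Nonsingular x₂ y₂}
    {h : EC.Nonsingular X Y} (e : Point.some x₁ y₁ h₁ + .some x₂ y₂ h₂ = .some X Y h) :
    ∃ ν : ℂ, ν ^ 2 = x₁ * x₂ * X ∧ ∀ σ : ℂ →ₐ[ℚ] ℂ,
      (σ x₁ = x₁ ∧ σ y₁ = y₁) ∧ (σ x₂ = x₂ ∧ σ y₂ = y₂) ∨
        (σ x₁ = x₂ ∧ σ y₁ = y₂) ∧ (σ x₂ = x₁ ∧ σ y₂ = y₁) → σ ν = ν := by
  have hxy : ¬(x₁ = x₂ ∧ y₁ = EC.negY x₂ y₂) := fun h => by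
    rw [Point.add_of_Y_eq h.1 h.2] at e; exact Point.some_ne_zero _ e.symm
  rw [Point.add_some hxy, Point.some.injEq] at e
  refine ⟨y₁ - EC.slope x₁ x₂ y₁ y₂ * x₁, ?_, ?_⟩
  · have := congrArg (Polynomial.eval 0) (addPolynomial_slope h₁.1 h₂.1 hxy)
    rw [addPolynomial_eq, e.1] at this
    simp [Cubic.toPoly] at this
    linear_combination this
  · rintro σ (⟨⟨a, b⟩, c, d⟩ | ⟨⟨a, b⟩, c, d⟩) <;>
      rw [map_sub, map_mul, ← baseChange_slope (W' := EE) σ, a, b, c, d]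
    by_cases hx : x₁ = x₂
    · have := Y_eq_of_Y_ne h₁.1 h₂.1 hx fun h => hxy ⟨hx, h⟩
      subst hx this; rfl
    · rw [slope_of_X_ne hx, slope_of_X_ne (Ne.symm hx)]
      have := sub_ne_zero.2 hx
      have := sub_ne_zero.2 (Ne.symm hx)
      field_simp; ring

/-! ### the imaginary quadratic field -/

variable {δ : ℂ} {n : ℚ}

theorem conj_delta (hn : 0 < n) (h : δ ^ 2 = -n) : (starRingEnd ℂ) δ = -δ := by
  have h1 := congrArg Complex.re h
  have h2 := congrArg Complex.im h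
  simp [sq] at h1 h2
  have : (0 : ℝ) < n := by exact_mod_cast hn
  have : δ.re = 0 := by
    by_contra h0
    have : δ.im = 0 := by
      have : δ.re * δ.im = 0 := by linarith
      exact (mul_eq_zero.1 this).resolve_left h0
    rw [this] at h1; nlinarith [sq_nonneg δ.re]
  apply Complex.ext <;> simp [this]

theorem indep (hn : 0 < n) (h : δ ^ 2 = -n) {a b : ℚ} (e : (a : ℂ) + b * δ = 0) : a = 0 ∧ b = 0 := by
  have e' := congrArg (starRingEnd ℂ) e
  simp only [map_add, map_mul, map_ratCast, conj_delta hn h, map_zero] at e'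
  have d0 : δ ≠ 0 := by rintro rfl; simp at h; exact hn.ne' h
  refine ⟨?_, ?_⟩
  · exact_mod_cast (by linear_combination (e + e') / 2 : (a : ℂ) = 0)
  · have : (b : ℂ) * δ = 0 := by linear_combination (e - e') / 2
    exact_mod_cast (mul_eq_zero.1 this).resolve_right d0

def KK (hn : 0 < n) (h : δ ^ 2 = -n) : Subfield ℂ where
  carrier := {x | ∃ a b : ℚ, x = a + b * δ}
  mul_mem' := by
    rintro _ _ ⟨a, b, rfl⟩ ⟨c, d, rfl⟩
    exact ⟨a * c - n * b * d, a * d + b * c, by push_cast; linear_combination b * d * h⟩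
  one_mem' := ⟨1, 0, by simp⟩
  add_mem' := by
    rintro _ _ ⟨a, b, rfl⟩ ⟨c, d, rfl⟩
    exact ⟨a + c, b + d, by push_cast; ring⟩
  zero_mem' := ⟨0, 0, by simp⟩
  neg_mem' := by
    rintro _ ⟨a, b, rfl⟩
    exact ⟨-a, -b, by push_cast; ring⟩
  inv_mem' := by
    rintro _ ⟨a, b, rfl⟩
    by_cases e : (a : ℂ) + b * δ = 0
    · exact ⟨0, 0, by simp [e]⟩
    have : a ^ 2 + n * b ^ 2 ≠ 0 := fun h0 => by
      have ha : a = 0 := by nlinarith [sq_nonneg a, mul_nonneg hn.le (sq_nonneg b)]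
      have hb : b = 0 := by simpa [ha, hn.ne'] using h0
      simp [ha, hb] at e
    have : (a : ℂ) ^ 2 + n * b ^ 2 ≠ 0 := by exact_mod_cast this
    refine ⟨a / (a ^ 2 + n * b ^ 2), -b / (a ^ 2 + n * b ^ 2), ?_⟩
    push_cast
    rw [eq_comm, ← mul_eq_one_iff_eq_inv₀ e]
    field_simp; linear_combination -(b : ℂ) ^ 2 * h

theorem fixK (hn : 0 < n) (h : δ ^ 2 = -n) {x : ℂ}
    (hx : ∀ σ : MulAction.stabilizer (ℂ ≃ₐ[ℚ] ℂ) δ, σ.1 x = x) : ∃ a b : ℚ, x = a + b * δ :=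
  R007.RatAlg.mem_of_fixed (KK hn h) x fun σ hσ =>
    hx ⟨AlgEquiv.ofRingEquiv (f := σ) fun q => map_ratCast σ q, hσ δ ⟨0, 1, by simp⟩⟩

end Crest.Agent.T15.Q.Hg
end
end

-- ▼ part T15/QHG_22
section

/-!
# Row 15, block Q: (H5), `CMStmt → HGStmt` (helper22)
-/

set_option autoImplicit false

noncomputable section

namespace Crest.Agent.T15.Q.Hg

open WeierstrassCurve WeierstrassCurve.Affine

variable {δ π : ℂ}

abbrev Gs (δ : ℂ) := MulAction.stabilizer (ℂ ≃ₐ[ℚ] ℂ) δ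

def act (σ : ℂ →ₐ[ℚ] ℂ) : EC.Point →+ EC.Point := Point.map (W' := EE) σ

def cj : ℂ →ₐ[ℚ] ℂ := (Complex.conjAe.restrictScalars ℚ).toAlgHom

theorem cj_apply (x : ℂ) : cj x = (starRingEnd ℂ) x := rfl

theorem act_some (σ : ℂ →ₐ[ℚ] ℂ) {x y : ℂ} (h : EC.Nonsingular x y) :
    ∃ h', act σ (.some x y h) = .some (σ x) (σ y) h' := ⟨_, rfl⟩

theorem act_eq {σ : ℂ →ₐ[ℚ] ℂ} {x y x' y' : ℂ} {h : EC.Nonsingular x y} {h' : EC.Nonsingular x' y'} :
    act σ (.some x y h) = .some x' y' h' ↔ σ x = x' ∧ σ y = y' := by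
  obtain ⟨_, e⟩ := act_some σ h
  rw [e, Point.some.injEq]

theorem act_PP (σ : ℂ →ₐ[ℚ] ℂ) {s b s' b' : ℂ} (h : s ^ 4 + b ^ 2 = 1) (hs : s ≠ 0)
    (h' : s' ^ 4 + b' ^ 2 = 1) (hs' : s' ≠ 0) (e1 : σ s = s') (e2 : σ b = b') :
    act σ (PP s b h hs) = PP s' b' h' hs' :=
  act_eq.2 ⟨by simp [e1, e2, map_ofNat], by simp [e1, e2, map_ofNat]⟩

/-- the end of the argument: two conjugate points whose sum is sent to `T₂ - ·` by conjugation -/
theorem D0_of_points {p q : ℕ} (hp : p.Prime) (hq : q.Prime) (h5 : p % 8 = 5) (h3 : q % 8 = 3)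
    (hδ : δ ^ 2 = -(p * q)) (hπ : π ^ 2 = p) {y1 y2 : EC.Point} (σ0 : Gs δ)
    (h0 : act σ0.1 y1 = y2)
    (hσ : ∀ σ : Gs δ, (σ.1 π = π ∧ act σ.1 y1 = y1 ∧ act σ.1 y2 = y2) ∨
      (σ.1 π = -π ∧ act σ.1 y1 = y2 ∧ act σ.1 y2 = y1))
    (hc : act cj (y1 + y2) = T2 - (y1 + y2)) : D0 p q := by
  have hn : (0 : ℚ) < (p * q : ℕ) := by exact_mod_cast Nat.mul_pos hp.pos hq.pos
  have hδ' : δ ^ 2 = -((p * q : ℕ) : ℚ) := by rw [hδ]; push_cast; ring
  have π0 : π ≠ 0 := by rintro rfl; exact hp.ne_zero (by simpa using hπ.symm)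
  have n0 : y1 + y2 ≠ 0 := fun e => by rw [e, map_zero, sub_zero] at hc; exact T2_ne hc.symm
  have hfix : ∀ σ : Gs δ, act σ.1 (y1 + y2) = y1 + y2 := fun σ => by
    rcases hσ σ with ⟨-, a, b⟩ | ⟨-, a, b⟩ <;> rw [map_add, a, b]
    exact add_comm _ _
  obtain _ | ⟨x₁, y₁, h₁⟩ := y1
  · exact absurd (by rw [← h0, ← Point.zero_def, map_zero, add_zero]) n0
  obtain ⟨h₂, e₂⟩ := act_some σ0.1 h₁
  obtain rfl := e₂.symm.trans h0
  have x0 : x₁ ≠ 0 := by
    rintro rfl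
    have : y₁ = 0 := by simpa using ns_iff.1 h₁
    subst this
    exact n0 (Point.add_of_Y_eq (by simp) (by simp [negY]))
  have x0' : (σ0.1 : ℂ →ₐ[ℚ] ℂ) x₁ ≠ 0 := by simpa using x0
  generalize (σ0.1 : ℂ →ₐ[ℚ] ℂ) x₁ = x₂, (σ0.1 : ℂ →ₐ[ℚ] ℂ) y₁ = y₂ at *
  obtain ⟨X, Y, h, e⟩ : ∃ X Y h, Point.some x₁ y₁ h₁ + .some x₂ y₂ h₂ = .some X Y h := by
    revert n0
    generalize Point.some x₁ y₁ h₁ + Point.some x₂ y₂ h₂ = z
    rcases z with _ | ⟨X, Y, h⟩
    · exact fun h => absurd rfl h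
    · exact fun _ => ⟨X, Y, h, rfl⟩
  obtain ⟨ν, hν, fν⟩ := sum_sq e
  simp only [act_eq] at hσ
  rw [e] at hc hfix
  simp only [act_eq] at hfix
  have eq := ns_iff.1 h
  have X0 : X ≠ 0 := by
    rintro rfl
    have : Y = 0 := by simpa using eq
    subst this
    have e1 : act cj (.some 0 0 h) = .some 0 0 h := act_eq.2 ⟨map_zero _, map_zero _⟩
    rw [e1, show T2 = .some 0 0 h from rfl, sub_self] at hc
    exact Point.some_ne_zero _ hc
  obtain ⟨h', e'⟩ := T2_sub h X0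
  rw [e', act_eq, cj_apply, cj_apply] at hc
  have ν0 : ν ≠ 0 := by rintro rfl; simp [x0, x0', X0] at hν
  have fν' : ∀ σ : Gs δ, σ.1 ν = ν := fun σ => fν σ.1 ((hσ σ).imp (·.2) (·.2))
  -- the elements of `K`
  obtain ⟨r, r', hr⟩ := fixK hn hδ' (x := Y / X) fun σ => by
    rw [map_div₀]; exact congrArg₂ _ (hfix σ).2 (hfix σ).1
  obtain ⟨α, β, hX⟩ := fixK hn hδ' (x := X) fun σ => (hfix σ).1
  obtain ⟨a1, a2, hA⟩ := fixK hn hδ' (x := (x₁ + x₂) / 2 * ((X + 2) / ν)) fun σ => by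
    have := (hfix σ).1
    rcases hσ σ with ⟨-, ⟨a, -⟩, b, -⟩ | ⟨-, ⟨a, -⟩, b, -⟩ <;>
      change σ.1 _ = _ at a b this <;> simp [map_ofNat, a, b, this, fν' σ, add_comm]
  obtain ⟨b1, b2, hB⟩ := fixK hn hδ' (x := (x₁ - x₂) / (2 * π) * ((X + 2) / ν)) fun σ => by
    have := (hfix σ).1
    rcases hσ σ with ⟨c, ⟨a, -⟩, b, -⟩ | ⟨c, ⟨a, -⟩, b, -⟩ <;>
      change σ.1 _ = _ at a b this <;> simp [map_ofNat, a, b, c, this, fν' σ]
    left; field_simp; ring
  have cδ := conj_delta hn hδ'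
  have r0 : r' = 0 := by
    have : (starRingEnd ℂ) (Y / X) = Y / X := by rw [map_div₀, hc.1, hc.2]; field_simp
    rw [hr] at this
    simp only [map_add, map_mul, map_ratCast, cδ] at this
    exact (indep hn hδ' (a := 0) (b := r') (by push_cast; linear_combination -this / 2)).2
  rw [r0, Rat.cast_zero, zero_mul, add_zero] at hr
  have hr2 : (r : ℂ) ^ 2 = X + 4 / X := by rw [← hr]; field_simp; linear_combination eq
  have cX : 4 / X = α - β * δ := by
    rw [← hc.1, hX]; simp only [map_add, map_mul, map_ratCast, cδ]; ring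
  have m : (4 + r ^ 2) * (4 - r ^ 2) = p * q * (2 * β) ^ 2 := by
    have e4 : (α + β * δ) * (α - β * δ) = 4 := by rw [← cX, ← hX]; field_simp
    rw [cX, hX] at hr2
    have : ((4 + r ^ 2) * (4 - r ^ 2) : ℂ) = p * q * (2 * β) ^ 2 := by
      linear_combination (-(r : ℂ) ^ 2 - 2 * α) * hr2 - 4 * e4 - 4 * β ^ 2 * hδ
    exact_mod_cast this
  refine D0_of hp hq h5 h3 m ?_
  have key : (4 + r ^ 2 : ℂ) = (a1 + a2 * δ) ^ 2 - p * (b1 + b2 * δ) ^ 2 := by
    rw [← hA, ← hB, hr2, ← hπ, mul_pow, mul_pow, div_pow (X + 2), hν]; field_simp; ring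
  have := indep hn hδ' (a := a1 ^ 2 - p * q * a2 ^ 2 - p * (b1 ^ 2 - p * q * b2 ^ 2) - (4 + r ^ 2))
    (b := 2 * (a1 * a2 - p * (b1 * b2)))
    (by push_cast; linear_combination -key - (a2 ^ 2 - p * b2 ^ 2) * hδ)
  refine even_val_of_norm h5 (n := p * q) ?_ (a1 := a1) (a2 := a2) (b1 := b1) (b2 := b2)
    (by positivity) (by push_cast; linear_combination -this.1) (by linear_combination this.2 / 2)
  have : p * q % 8 = 7 := by rw [Nat.mul_mod, h5, h3]
  omega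

theorem sign_pi {p : ℕ} (hπ : π ^ 2 = p) (σ : ℂ ≃ₐ[ℚ] ℂ) : σ π = π ∨ σ π = -π :=
  sq_eq_sq_iff_eq_or_eq_neg.1 (by rw [← map_pow, hπ, map_natCast])

theorem pow_neg {σ : ℂ ≃ₐ[ℚ] ℂ} (h : σ π = -π) (k : ℕ) : (σ ^ k) π = (-1) ^ k * π := by
  induction k with
  | zero => simp
  | succ k ih => rw [pow_succ, AlgEquiv.mul_apply, h, map_neg, ih]; ring

end Hg

open Hg in
theorem hgGlue : HGGlue := by
  intro H p q hp hq h5 h3 hn
  obtain ⟨δ, hδ⟩ := IsAlgClosed.exists_pow_nat_eq (-(p * q : ℂ)) two_pos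
  obtain ⟨π, hπ⟩ := IsAlgClosed.exists_pow_nat_eq (p : ℂ) two_pos
  obtain ⟨Cl, _, _, s, b, c, χ, P, ho, hP, hsb, hσ, hc, hk⟩ := H p q hp hq h5 h3 hn δ π hδ hπ
  classical
  have π0 : π ≠ 0 := by rintro rfl; exact hp.ne_zero (by simpa using hπ.symm)
  have πn : -π ≠ π := fun e => π0 (by linear_combination -e / 2)
  have hA : ∀ σ, χ (c σ) = 1 → σ.1 π = π := fun σ h => by
    refine (sign_pi hπ σ.1).resolve_right fun e => πn ?_
    have h1 : (⟨c σ, h⟩ : χ.ker) ^ Nat.card χ.ker = 1 := pow_card_eq_one'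
    have h2 := hk (σ ^ Nat.card χ.ker) (by rw [map_pow]; exact congrArg Subtype.val h1)
    rwa [Subgroup.coe_pow, pow_neg e, ho.neg_one_pow, neg_one_mul] at h2
  obtain ⟨σ0, h0⟩ : ∃ σ0 : Gs δ, σ0.1 π ≠ π := by
    by_contra h
    push Not at h
    have hn : (0 : ℚ) < (p * q : ℕ) := by exact_mod_cast Nat.mul_pos hp.pos hq.pos
    have hδ' : δ ^ 2 = -((p * q : ℕ) : ℚ) := by rw [hδ]; push_cast; ring
    obtain ⟨u, v, e⟩ := fixK hn hδ' h
    have := indep hn hδ' (a := u ^ 2 - p * q * v ^ 2 - p) (b := 2 * (u * v))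
      (by push_cast; rw [e] at hπ; linear_combination hπ - v ^ 2 * hδ)
    have p0 : (0 : ℚ) < p := by exact_mod_cast hp.pos
    have q0 : (0 : ℚ) < q := by exact_mod_cast hq.pos
    rcases mul_eq_zero.1 (by linarith [this.2] : u * v = 0) with rfl | rfl
    · nlinarith [this.1, mul_nonneg (mul_pos p0 q0).le (sq_nonneg v)]
    · exact hp.prime.not_isSquare (Rat.isSquare_natCast_iff.1 ⟨u, by linarith [this.1]⟩)
  have c0 : χ (c σ0) = -1 := (Int.units_eq_one_or _).resolve_left fun h => h0 (hA _ h)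
  have hB : ∀ σ, χ (c σ) = -1 → σ.1 π = -π := fun σ h => by
    refine (sign_pi hπ σ.1).resolve_left fun e => h0 ?_
    have := hA (σ0 * σ) (by rw [map_mul, map_mul, c0, h]; simp)
    rwa [Subgroup.coe_mul, AlgEquiv.mul_apply, e] at this
  let Q : Cl → EC.Point := fun a => PP (s a) (b a) (hsb a).1 (hsb a).2.1
  let y : ℤˣ → EC.Point := fun e => ∑ a with χ a = e, Q a
  have hy : ∀ (σ : Gs δ) e, act σ.1 (y e) = y (χ (c σ) * e) := fun σ e => by
    simp only [y, map_sum]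
    refine Finset.sum_equiv (Equiv.mulLeft (c σ)) (fun a => by simp) fun a _ => ?_
    exact act_PP _ _ _ _ _ (hσ σ a).1 (hσ σ a).2
  have tot : y 1 + y (-1) = ∑ a, Q a := by
    rw [← Finset.sum_filter_add_sum_filter_not Finset.univ fun a => χ a = 1]
    simp only [y, Int.units_ne_iff_eq_neg]
  have card : Fintype.card Cl = Nat.card χ.ker * 2 := by
    have : χ.range = ⊤ := by
      rw [eq_top_iff]; rintro e -
      rcases Int.units_eq_one_or e with rfl | rfl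
      · exact one_mem _
      · exact ⟨P, hP⟩
    rw [← Nat.card_eq_fintype_card, ← χ.ker.card_mul_index, Subgroup.index_ker, this]
    simp
  refine D0_of_points hp hq h5 h3 hδ hπ (y1 := y 1) (y2 := y (-1)) σ0 (by rw [hy, c0, mul_one])
    (fun σ => ?_) ?_
  · rcases Int.units_eq_one_or (χ (c σ)) with h | h
    · exact .inl ⟨hA σ h, by rw [hy, h, one_mul], by rw [hy, h, one_mul]⟩
    · exact .inr ⟨hB σ h, by rw [hy, h, mul_one], by rw [hy, h]; simp⟩
  · have e : ∀ a, act cj (Q a) = T - Q (P * a⁻¹) := fun a => by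
      rw [T_sub_PP _ _ (hsb _).2.2 (s' := cj (s a)) (b' := cj (b a))
        (by rw [← map_pow, ← map_pow, ← map_add, (hsb a).1, map_one])
        (by simpa using (hsb a).2.1) (hc a).1 (hc a).2]
      exact act_PP _ _ _ _ _ rfl rfl
    rw [tot, map_sum, Finset.sum_congr rfl fun a _ => e a, Finset.sum_sub_distrib, Finset.sum_const,
      Finset.card_univ, card, odd_smul ho]
    congr 1
    exact Fintype.sum_equiv ((Equiv.inv Cl).trans (Equiv.mulLeft P)) _ _ fun _ => rfl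

end Crest.Agent.T15.Q
end
end

-- ▼ part T15/QTop_22

/-!
# Row 15, block Q: `Top.QStmt` from `JStmt` and the prime `2` (helper22)
-/

set_option autoImplicit false

namespace Crest.Agent.T15.Q

theorem q_of_J (hJ : JStmt) (h2 : Top.QFix 2) : Top.QStmt := by
  obtain ⟨J, dJ, sJ, cJ⟩ := hJ
  refine ⟨fun x => J x.1 x.2 ∧ (x.1 - 1 = 0 ∨ 0 < padicValRat 2 (x.1 - 1)), dJ.and
    (Dio.comp (S := fun y : ℚ => y = 0 ∨ 0 < padicValRat 2 y) h2 (g := fun x : ℚ × ℚ => x.1 - 1)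
      (by fun_prop)), ?_, ?_⟩
  · rintro w y ⟨h, h'⟩ p hp ow
    dsimp only at h h'
    by_cases e : p = 2
    · subst e
      exfalso
      have w0 := ne_of_odd ow
      rcases h' with h' | h'
      · rw [sub_eq_zero.1 h'] at ow; simp at ow
      · have := padicValRat.add_eq_of_lt (p := 2) (q := 1) (r := w - 1) (by simpa using w0) one_ne_zero
          (by rintro e; simp [e] at h') (by simpa using h')
        rw [add_sub_cancel] at this
        rw [this] at ow; simp at ow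
    · exact sJ w y h p hp e ow
  · intro l hl h1 y hy
    refine ⟨cJ l hl h1 y ((Top.inJ_prime hl y).1 hy), .inr ?_⟩
    have h1l := hl.one_lt
    have : ((l : ℚ) - 1) = ((l - 1 : ℕ) : ℚ) := by push_cast [h1l.le]; ring
    simp only [this, padicValRat.of_nat]
    exact_mod_cast one_le_padicValNat_of_dvd (p := 2) (by omega) (by omega)

theorem q_of (H : HGStmt) (K : K4Stmt) (h2 : Top.QFix 2) : Top.QStmt := q_of_J (jGlue H K) h2

theorem q_top (C : CMStmt) (K : K4Stmt) (h2 : Top.QFix 2) : Top.QStmt := q_of (hgGlue C) K h2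

end Crest.Agent.T15.Q
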