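import Mathlib

/-!
# Row 15, block F (helper86): the two-dimensional representation of a QM module, I

`T` is free of rank four over `ℤ₃` with `j₂² = α` (`α ≡ 2 mod 3`, e.g. `2` or `-1`), `j₃² = 3`,
`j₂ j₃ = - j₃ j₂`; a group `G` acts,
normalising `j₂, j₃`.  Then `T` is free of rank one over `ℍ = ℤ₃⟨j₂, j₃⟩` and `G` acts by a cocycle.
-/

set_option autoImplicit false

noncomputable section

namespace Crest.Agent.T15.Rho

open scoped Quaternion

/-- reduction modulo `3` -/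
abbrev r3 : ℤ_[3] →+* ZMod 3 := PadicInt.toZMod

lemma r3_eq_zero {a : ℤ_[3]} : r3 a = 0 ↔ (3 : ℤ_[3]) ∣ a := by
  rw [← RingHom.mem_ker, PadicInt.ker_toZMod, PadicInt.maximalIdeal_eq_span_p,
    Ideal.mem_span_singleton]; rfl

lemma isUnit_iff {a : ℤ_[3]} : IsUnit a ↔ r3 a ≠ 0 := by
  rw [Ne, ← RingHom.mem_ker, PadicInt.ker_toZMod, IsLocalRing.mem_maximalIdeal, mem_nonunits_iff,
    not_not]

/-- the maximal order of the division quaternion algebra over `ℚ₃` -/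
abbrev H (α : ℤ_[3]) : Type := ℍ[ℤ_[3], α, 3]

variable {α : ℤ_[3]}

/-- reduced norm -/
def nr (x : H α) : ℤ_[3] := x.re ^ 2 - α * x.imI ^ 2 - 3 * x.imJ ^ 2 + 3 * α * x.imK ^ 2

lemma nr_mul (x y : H α) : nr (x * y) = nr x * nr y := by
  simp only [nr, QuaternionAlgebra.re_mul, QuaternionAlgebra.imI_mul, QuaternionAlgebra.imJ_mul,
    QuaternionAlgebra.imK_mul]; ring



lemma star_mul_self (x : H α) : star x * x = nr x • (1 : H α) := by
  ext <;> simp [nr] <;> ring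

instance : Fact (r3 2 = 2) := ⟨map_ofNat _ 2⟩
instance : Fact (r3 (-1) = 2) := ⟨by rw [map_neg, map_one]; rfl⟩

lemma three_ne : (3 : ℤ_[3]) ≠ 0 := by norm_num

section

variable [hα : Fact (r3 α = 2)]

lemma three_dvd {a b : ℤ_[3]} (h : (3 : ℤ_[3]) ∣ a ^ 2 - α * b ^ 2) : 3 ∣ a ∧ 3 ∣ b := by
  rw [← r3_eq_zero] at h
  rw [← r3_eq_zero, ← r3_eq_zero]
  simp only [map_sub, map_mul, map_pow, hα.out] at h
  generalize r3 a = u at h ⊢
  generalize r3 b = v at h ⊢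
  revert u v; decide

lemma nr_dvd {x : H α} (h : nr x = 0) : ∃ y : H α, x = (3 : ℤ_[3]) • y ∧ nr y = 0 := by
  obtain ⟨⟨a, ha⟩, ⟨b, hb⟩⟩ := three_dvd (α := α) (a := x.re) (b := x.imI)
    ⟨x.imJ ^ 2 - α * x.imK ^ 2, by unfold nr at h; linear_combination h⟩
  obtain ⟨⟨c, hc⟩, ⟨d, hd⟩⟩ := three_dvd (α := α) (a := x.imJ) (b := x.imK)
    ⟨a ^ 2 - α * b ^ 2, mul_left_cancel₀ three_ne (by
      unfold nr at h; rw [ha, hb] at h; linear_combination -h)⟩
  refine ⟨⟨a, b, c, d⟩, by ext <;> simp [ha, hb, hc, hd], ?_⟩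
  have h9 : (9 : ℤ_[3]) ≠ 0 := by norm_num
  refine mul_left_cancel₀ h9 ?_
  unfold nr at h ⊢; rw [ha, hb, hc, hd] at h; linear_combination h

omit hα in
lemma eq_zero_of_dvd {a : ℤ_[3]} (h : ∀ n : ℕ, (3 : ℤ_[3]) ^ n ∣ a) : a = 0 := by
  by_contra ha
  obtain ⟨n, hn⟩ := FiniteMultiplicity.of_not_isUnit
    (a := (3 : ℤ_[3])) (by rw [isUnit_iff, not_not, r3_eq_zero]) ha
  exact hn (h _)

/-- the norm form is anisotropic -/
lemma eq_zero_of_nr {x : H α} (h : nr x = 0) : x = 0 := by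
  have key : ∀ n : ℕ, ∃ y : H α, x = (3 : ℤ_[3]) ^ n • y ∧ nr y = 0 := by
    intro n
    induction n with
    | zero => exact ⟨x, by simp, h⟩
    | succ n ih =>
      obtain ⟨y, hy, hy0⟩ := ih
      obtain ⟨z, hz, hz0⟩ := nr_dvd hy0
      exact ⟨z, by rw [hy, hz, smul_smul, pow_succ], hz0⟩
  ext
  all_goals
    refine eq_zero_of_dvd fun n => ?_
    obtain ⟨y, rfl, -⟩ := key n
    simp

instance : NoZeroDivisors (H α) where
  eq_zero_or_eq_zero_of_mul_eq_zero {a b} h := by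
    have : nr a * nr b = 0 := by rw [← nr_mul, h]; simp [nr]
    exact (mul_eq_zero.1 this).imp eq_zero_of_nr eq_zero_of_nr

end

/-- the automorphism `i ↦ a i`, `j ↦ b j` -/
def cj (a b : ℤˣ) (x : H α) : H α := ⟨x.re, a • x.imI, b • x.imJ, (a * b) • x.imK⟩


lemma cj_star (a b : ℤˣ) (x : H α) : cj a b (star x) = star (cj a b x) := by
  ext <;> simp [cj]

@[simp] lemma cj_one (x : H α) : cj 1 1 x = x := by ext <;> simp [cj]

variable (α) (G : Type*) [Group G] (T : Type*) [AddCommGroup T] [Module ℤ_[3] T]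

/-- a `ℤ₃[G]`-module with twisted quaternionic multiplication and a pairing -/
structure QM where
  act : G →* Module.End ℤ_[3] T
  j2 : Module.End ℤ_[3] T
  j3 : Module.End ℤ_[3] T
  h2 : ∀ x, j2 (j2 x) = α • x
  h3 : ∀ x, j3 (j3 x) = (3 : ℤ_[3]) • x
  h23 : ∀ x, j3 (j2 x) = -j2 (j3 x)
  χa : G →* ℤˣ
  χb : G →* ℤˣ
  c2 : ∀ σ x, act σ (j2 x) = χa σ • j2 (act σ x)
  c3 : ∀ σ x, act σ (j3 x) = χb σ • j3 (act σ x)
  cyc : G →* ℤ_[3]ˣ
  e : T →ₗ[ℤ_[3]] T →ₗ[ℤ_[3]] ℤ_[3]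
  alt : ∀ x, e x x = 0
  ne : e ≠ 0
  he : ∀ σ x y, e (act σ x) (act σ y) = cyc σ * e x y
  η : ℤˣ
  ad2 : ∀ x y, e (j2 x) y = η • e x (j2 y)
  ad3 : ∀ x y, e (j3 x) y = e x (j3 y)

variable {α G T}

namespace QM

variable (Q : QM α G T)

/-- the action of `ℍ` -/
def ι : H α →ₐ[ℤ_[3]] Module.End ℤ_[3] T :=
  QuaternionAlgebra.Basis.liftHom
    { i := Q.j2, j := Q.j3, k := Q.j2 * Q.j3
      i_mul_i := by ext x; simp [Q.h2]
      j_mul_j := by ext x; simp [Q.h3]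
      i_mul_j := rfl
      j_mul_i := by ext x; simp [Q.h23] }

lemma ι_apply (h : H α) (x : T) :
    Q.ι h x = h.re • x + h.imI • Q.j2 x + h.imJ • Q.j3 x + h.imK • Q.j2 (Q.j3 x) := by
  simp [ι, QuaternionAlgebra.Basis.lift, Algebra.algebraMap_eq_smul_one]

lemma act_ι (σ : G) (h : H α) (x : T) :
    Q.act σ (Q.ι h x) = Q.ι (cj (Q.χa σ) (Q.χb σ) h) (Q.act σ x) := by
  simp only [ι_apply, map_add, map_smul, Q.c2, Q.c3, cj]
  rcases Int.units_eq_one_or (Q.χa σ) with ha | ha <;>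
    rcases Int.units_eq_one_or (Q.χb σ) with hb | hb <;> simp [ha, hb]

/-- the orbit map -/
def orb (t : T) : H α →ₗ[ℤ_[3]] T := (LinearMap.applyₗ t).comp Q.ι.toLinearMap

lemma orb_apply (t : T) (h : H α) : Q.orb t h = Q.ι h t := rfl

variable [Module.Free ℤ_[3] T] [Module.Finite ℤ_[3] T]

omit [Module.Finite ℤ_[3] T] in
lemma j3_inj {x : T} (h : Q.j3 x = 0) : x = 0 := by
  have := Q.h3 x
  rw [h, map_zero] at this
  exact (smul_eq_zero.1 this.symm).resolve_left three_ne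

theorem exists_gen [Fact (r3 α = 2)] (hr : Module.finrank ℤ_[3] T = 4) : ∃ t : T, Function.Bijective (Q.orb t) := by
  classical
  let b := Module.finBasisOfFinrankEq ℤ_[3] T hr
  obtain ⟨t, ht⟩ : ∃ t : T, ∀ u, t ≠ Q.j3 u := by
    by_contra hc
    push Not at hc
    obtain ⟨u, hu⟩ := hc (b 0)
    obtain ⟨v, hv⟩ := hc u
    have h1 : b 0 = (3 : ℤ_[3]) • v := by rw [hu, hv, Q.h3]
    have h2 := congrArg (fun z => b.repr z 0) h1
    simp only [Module.Basis.repr_self, Finsupp.single_eq_same, map_smul, Finsupp.smul_apply,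
      smul_eq_mul] at h2
    have : r3 1 = 0 := r3_eq_zero.2 ⟨_, h2⟩
    simp at this
  have k1 : ∀ a c : ℤ_[3], ∀ u, a • t + c • Q.j2 t = Q.j3 u → 3 ∣ a ∧ 3 ∣ c := by
    intro a c u h
    refine three_dvd (α := α) ?_
    by_contra hd
    rw [← r3_eq_zero, ← Ne, ← isUnit_iff] at hd
    obtain ⟨w, hw⟩ := hd.exists_left_inv
    refine ht (w • (a • u + c • Q.j2 u)) ?_
    have h2 := congrArg Q.j2 h
    rw [map_add, map_smul, map_smul, Q.h2] at h2
    rw [map_smul, map_add, map_smul, map_smul, Q.h23, ← h2, ← h]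
    calc t = (w * (a ^ 2 - α * c ^ 2)) • t := by rw [hw, one_smul]
      _ = _ := by module
  have k2 : ∀ (h : H α) (u : T), Q.orb t h = (3 : ℤ_[3]) • u →
      3 ∣ h.re ∧ 3 ∣ h.imI ∧ 3 ∣ h.imJ ∧ 3 ∣ h.imK := by
    intro h u hu
    rw [orb_apply, ι_apply] at hu
    obtain ⟨⟨a, ha⟩, ⟨c, hc⟩⟩ := k1 h.re h.imI (Q.j3 u - h.imJ • t + h.imK • Q.j2 t) (by
      rw [map_add, map_sub, map_smul, map_smul, Q.h3, Q.h23, ← hu]; module)
    obtain ⟨h3, h4⟩ := k1 h.imJ (-h.imK) (u - a • t - c • Q.j2 t) (by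
      rw [← sub_eq_zero]
      refine Q.j3_inj ?_
      rw [map_sub, Q.h3, map_add, map_smul, map_smul, Q.h23, smul_sub, smul_sub, ← hu, ha, hc]
      module)
    exact ⟨⟨a, ha⟩, ⟨c, hc⟩, h3, (dvd_neg.1 h4)⟩
  refine ⟨t, ?_⟩
  let bH := QuaternionAlgebra.basisOneIJK α 0 3
  have hdet : IsUnit (LinearMap.toMatrix bH b (Q.orb t)).det := by
    rw [isUnit_iff, RingHom.map_det]
    intro h0
    obtain ⟨v, hv0, hv⟩ := Matrix.exists_mulVec_eq_zero_iff.2 h0
    have hs : Function.Surjective r3 := ZMod.ringHom_surjective _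
    choose w hw using fun i => hs (v i)
    have h1 : ∀ i, (3 : ℤ_[3]) ∣ b.repr (Q.orb t (bH.equivFun.symm w)) i := fun i => by
      rw [← r3_eq_zero, ← LinearMap.toMatrix_mulVec_repr bH b]
      have := congrFun hv i
      simp only [Matrix.mulVec, dotProduct, RingHom.mapMatrix_apply, Matrix.map_apply,
        Pi.zero_apply] at this
      simp only [Matrix.mulVec, dotProduct, map_sum, map_mul]
      rw [← this]
      refine Finset.sum_congr rfl fun j _ => ?_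
      rw [← hw j, ← Module.Basis.equivFun_apply, LinearEquiv.apply_symm_apply]
    choose u hu using h1
    obtain ⟨h1, h2, h3, h4⟩ := k2 (bH.equivFun.symm w) (b.equivFun.symm u) (by
      apply b.equivFun.injective
      ext i
      rw [map_smul, LinearEquiv.apply_symm_apply, Module.Basis.equivFun_apply, hu]; simp)
    have hc : ∀ i, (bH.repr (bH.equivFun.symm w)) i = w i := fun i => by
      rw [← Module.Basis.equivFun_apply, LinearEquiv.apply_symm_apply]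
    refine hv0 (funext fun i => ?_)
    rw [← hw i, ← hc i, Pi.zero_apply, r3_eq_zero]
    generalize bH.equivFun.symm w = z at h1 h2 h3 h4
    fin_cases i
    · simpa [bH] using h1
    · simpa [bH] using h2
    · simpa [bH] using h3
    · simpa [bH] using h4
  exact (LinearEquiv.ofIsUnitDet hdet).bijective

end QM

end Crest.Agent.T15.Rho
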