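import Crest.Agent.R013.TP1_928
import Crest.Agent.T15.RhoA_86
import Crest.Agent.T15.Rat_42
import Crest.Agent.T15.RhoD_86
import Crest.Agent.T15.Disc_71
import Crest.Agent.T15.Wp4_31
import Crest.Agent.T15.CDef_7
import Mathlib
import Crest.Agent.T15.Rk4_31

-- ▼ part T15/Eb_64
section

/-!
# Row 15, blocks F / Ht (helper64): the Frobenius clauses on the `3`-power torsion

* `eblock_alg`, `eblock_y` : Cayley-Hamilton on the image of `j ^ 2 - 3`;
* `eblock`, `ablock` : transfer from the Tate module to the torsion.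
-/

set_option autoImplicit false

namespace Crest.Agent.T15.Eb

open Module

section alg

variable {R : Type*} [CommRing R] [IsDomain R] [IsPrincipalIdealRing R]
  {W : Type*} [AddCommGroup W] [Module R W] [Module.Finite R W] [Module.IsTorsionFree R W]

/-- Cayley-Hamilton on a stable submodule of rank at most two carrying a non-degenerate
alternating form. -/
theorem ch_two (V : Submodule R W) (hV : finrank R V ≤ 2) (e : W →ₗ[R] W →ₗ[R] R)
    (alt : ∀ x, e x x = 0) (nd : ∀ x ∈ V, (∀ y ∈ V, e x y = 0) → x = 0) (s : Module.End R W)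
    (hs : ∀ x ∈ V, s x ∈ V) (c : R) (he : ∀ x y, e (s x) (s y) = c * e x y) :
    ∃ τ : R, ∀ x ∈ V, s (s x) - τ • s x + c • x = 0 := by
  have swap : ∀ x y, e y x = -e x y := fun x y => by
    have := alt (x + y)
    simp only [map_add, LinearMap.add_apply, alt] at this
    linear_combination this
  have hf : Module.Free R V := inferInstance
  obtain h | h | h : finrank R V = 0 ∨ finrank R V = 1 ∨ finrank R V = 2 := by omega
  · refine ⟨0, fun x hx => ?_⟩
    have : Subsingleton V := Module.finrank_zero_iff.1 h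
    have h0 : x = 0 := congrArg Subtype.val (Subsingleton.elim (⟨x, hx⟩ : V) 0)
    simp [h0]
  · let b := Module.finBasisOfFinrankEq R V h
    refine ⟨0, fun x hx => ?_⟩
    have hr : ∀ y (hy : y ∈ V), y = b.repr ⟨y, hy⟩ 0 • (b 0 : W) := fun y hy => by
      have := congrArg Subtype.val (b.sum_repr ⟨y, hy⟩)
      simpa using this.symm
    have h0 : x = 0 := nd x hx fun y hy => by
      rw [hr x hx, hr y hy]; simp [alt]
    simp [h0]
  · let b := Module.finBasisOfFinrankEq R V h
    have hr : ∀ y ∈ V, ∃ a a' : R, y = a • (b 0 : W) + a' • (b 1 : W) := fun y hy => by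
      have := congrArg Subtype.val (b.sum_repr ⟨y, hy⟩)
      rw [Fin.sum_univ_two] at this
      exact ⟨_, _, this.symm⟩
    obtain ⟨p, q, h0⟩ := hr _ (hs _ (b 0).2)
    obtain ⟨r, t, h1⟩ := hr _ (hs _ (b 1).2)
    have hne : e (b 0) (b 1) ≠ 0 := fun h' => by
      have : (b 0 : W) = 0 := nd _ (b 0).2 fun y hy => by
        obtain ⟨a, a', rfl⟩ := hr y hy
        simp [alt, h']
      exact b.ne_zero 0 (Subtype.ext this)
    have hd : p * t - q * r = c := by
      have := he (b 0) (b 1)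
      rw [h0, h1] at this
      simp only [map_add, map_smul, LinearMap.add_apply, LinearMap.smul_apply, alt, smul_eq_mul,
        swap (b 0 : W) (b 1)] at this
      apply mul_right_cancel₀ hne
      linear_combination this
    refine ⟨p + t, fun x hx => ?_⟩
    obtain ⟨a, a', rfl⟩ := hr x hx
    simp only [map_add, map_smul, h0, h1, ← hd]
    module

/-- the `E`-block: Cayley-Hamilton on the image of `j ^ 2 - q` -/
theorem eblock_alg (q : R) (hq : q ≠ 0) (j : Module.End R W) (hj : ∀ x, j (j (j x)) = q • j x)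
    (T : Submodule R W) (hT : ∀ x ∈ T, j (j x) = q • x) (hr : finrank R W ≤ finrank R T + 2)
    (e : W →ₗ[R] W →ₗ[R] R) (alt : ∀ x, e x x = 0) (nd : ∀ x, (∀ y, e x y = 0) → x = 0)
    (ad : ∀ x y, e (j x) y = e x (j y)) (s : Module.End R W) (hs : ∀ x, s (j x) = j (s x))
    (c : R) (he : ∀ x y, e (s x) (s y) = c * e x y) :
    ∃ τ : R, ∀ x, j (j (s (s x) - τ • s x + c • x)) = q • (s (s x) - τ • s x + c • x) := by
  set N : Module.End R W := j * j - q • 1 with hN
  have hNa : ∀ x, N x = j (j x) - q • x := fun x => by simp [hN]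
  have h1 : finrank R (LinearMap.range N) + finrank R (LinearMap.ker N) = finrank R W := by
    rw [← (LinearMap.quotKerEquivRange N).finrank_eq]
    exact Submodule.finrank_quotient_add_finrank _
  have h2 : finrank R T ≤ finrank R (LinearMap.ker N) :=
    Submodule.finrank_mono fun x hx => by rw [LinearMap.mem_ker, hNa, hT x hx, sub_self]
  have hnd : ∀ x ∈ LinearMap.range N, (∀ y ∈ LinearMap.range N, e x y = 0) → x = 0 := by
    rintro _ ⟨z, rfl⟩ h
    refine nd _ fun y => ?_
    have h3 := h _ ⟨y, rfl⟩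
    have h4 : j (N z) = 0 := by rw [hNa, map_sub, map_smul, hj, sub_self]
    rw [hNa y, map_sub, map_smul, ← ad, h4, map_zero, LinearMap.zero_apply, zero_sub, neg_eq_zero,
      smul_eq_mul] at h3
    exact (mul_eq_zero.1 h3).resolve_left hq
  obtain ⟨τ, hτ⟩ := ch_two (LinearMap.range N) (by omega) e alt hnd s
    (by rintro _ ⟨x, rfl⟩; exact ⟨s x, by simp [hNa, hs]⟩) c he
  refine ⟨τ, fun x => ?_⟩
  have := hτ _ ⟨x, rfl⟩
  rw [← sub_eq_zero, ← this]
  simp only [hNa, map_add, map_sub, map_smul, hs]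
  module

end alg

section three

variable {W : Type*} [AddCommGroup W] [Module ℤ_[3] W] [Module.Finite ℤ_[3] W]
  [Module.IsTorsionFree ℤ_[3] W]

/-- the part where `j ^ 2 = 3` has rank at least four -/
theorem four_le (y j : Module.End ℤ_[3] W) (hy : ∀ x, y (y x) = -x)
    (hyj : ∀ x, j (y x) = -y (j x)) (hj : ∀ x, j (j (j x)) = (3 : ℤ_[3]) • j x) (hne : j ≠ 0) :
    ∃ T : Submodule ℤ_[3] W, (∀ x, x ∈ T ↔ j (j x) = (3 : ℤ_[3]) • x) ∧ 4 ≤ finrank ℤ_[3] T := by
  obtain ⟨z, hz⟩ : ∃ z, j z ≠ 0 := by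
    by_contra h
    push Not at h
    exact hne (LinearMap.ext h)
  let T := LinearMap.ker (j * j - (3 : ℤ_[3]) • 1)
  have hT : ∀ x, x ∈ T ↔ j (j x) = (3 : ℤ_[3]) • x := fun x => by
    simp [T, sub_eq_zero]
  refine ⟨T, hT, ?_⟩
  set x := j z with hx
  have h0 : j (j x) = (3 : ℤ_[3]) • x := hj z
  let v : Fin 4 → T := ![⟨x, (hT _).2 h0⟩, ⟨y x, (hT _).2 (by simp [hyj, h0])⟩,
    ⟨j x, (hT _).2 (hj x)⟩, ⟨y (j x), (hT _).2 (by simp [hyj, hj])⟩]
  have hv : LinearIndependent ℤ_[3] v := by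
    rw [Fintype.linearIndependent_iff]
    intro c hc
    have h1 : c 0 • x + c 1 • y x + c 2 • j x + c 3 • y (j x) = 0 := by
      have := congrArg Subtype.val hc
      rw [Fin.sum_univ_four] at this
      exact this
    have h2 := congrArg y h1
    have h3 := congrArg j h1
    have h4 := congrArg y h3
    simp only [map_add, map_smul, map_zero, map_neg, hy, hyj, h0] at h2 h3 h4
    have h5 : Rho.nr (⟨c 0, c 1, c 2, c 3⟩ : Rho.H (-1)) • x = 0 := by
      simp only [Rho.nr]
      linear_combination (norm := module) c 0 • h1 - c 1 • h2 - c 2 • h3 - c 3 • h4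
    have h6 := Rho.eq_zero_of_nr ((smul_eq_zero.1 h5).resolve_right hz)
    intro i
    fin_cases i
    · exact congrArg QuaternionAlgebra.re h6
    · exact congrArg QuaternionAlgebra.imI h6
    · exact congrArg QuaternionAlgebra.imJ h6
    · exact congrArg QuaternionAlgebra.imK h6
  simpa using hv.fintype_card_le_finrank

/-- the `E`-block on a module of rank at most six -/
theorem eblock_y (hr : finrank ℤ_[3] W ≤ 6) (y j : Module.End ℤ_[3] W) (hy : ∀ x, y (y x) = -x)
    (hyj : ∀ x, j (y x) = -y (j x)) (hj : ∀ x, j (j (j x)) = (3 : ℤ_[3]) • j x) (hne : j ≠ 0)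
    (e : W →ₗ[ℤ_[3]] W →ₗ[ℤ_[3]] ℤ_[3]) (alt : ∀ x, e x x = 0)
    (nd : ∀ x, (∀ y, e x y = 0) → x = 0) (ad : ∀ x y, e (j x) y = e x (j y))
    (s : Module.End ℤ_[3] W) (hs : ∀ x, s (j x) = j (s x)) (c : ℤ_[3])
    (he : ∀ x y, e (s x) (s y) = c * e x y) :
    ∃ τ : ℤ_[3], ∀ x,
      j (j (s (s x) - τ • s x + c • x)) = (3 : ℤ_[3]) • (s (s x) - τ • s x + c • x) := by
  obtain ⟨T, hT, h4⟩ := four_le y j hy hyj hj hne
  exact eblock_alg 3 Rho.three_ne j hj T (fun x hx => (hT x).1 hx) (by omega) e alt nd ad s hs c he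

end three

section tate

open Crest.Agent.R013.TP_928

variable {p : ℕ} [hp : Fact p.Prime] {A : Type*} [AddCommGroup A]

/-- the integer approximations of a `p`-adic integer -/
noncomputable def ap (τ : ℤ_[p]) (m : ℕ) : ℤ := rp τ m

theorem ap_smul (τ : ℤ_[p]) (u : Tate p A) (m : ℕ) : (τ • u) m = ap τ m • u m := by
  rw [Tate.smul_apply, ap, natCast_zsmul]

theorem dvd_sub_ap (τ : ℤ_[p]) (m : ℕ) : ((p : ℕ) : ℤ_[p]) ^ m ∣ τ - (ap τ m : ℤ) := by
  rw [← Ideal.mem_span_singleton, ← PadicInt.ker_toZModPow, RingHom.mem_ker, map_sub, ap,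
    Int.cast_natCast, map_natCast, natCast_rp, sub_self]

theorem eq_zero_of_dvd (x : ℤ_[p]) (h : ∀ m, ((p : ℕ) : ℤ_[p]) ^ m ∣ x) : x = 0 :=
  PadicInt.ext_of_toZModPow.1 fun n => by
    rw [map_zero, ← RingHom.mem_ker, PadicInt.ker_toZModPow, Ideal.mem_span_singleton]
    exact h n

/-- a rational relation between the approximations holds in the limit -/
theorem limit_ap (τ : ℤ_[p]) {u v : ℤ} (h : ∀ m, (p : ℤ) ^ m ∣ u - ap τ m * v) :
    (v : ℤ_[p]) * τ = u :=
  Rat.limit_eq p eq_zero_of_dvd (ap τ) τ (dvd_sub_ap τ) u v h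

/-- the last clause of the link: `a = φ τ * s` -/
theorem limit_mul {O : Type*} [CommRing O] (φ : ℤ_[p] →+* O) (τ : ℤ_[p]) (s : O) {u v : ℤ}
    (h : ∀ m, (p : ℤ) ^ m ∣ u - ap τ m * v) : (v : O) * (φ τ * s) = u * s := by
  have := congrArg φ (limit_ap τ h)
  rw [map_mul, map_intCast, map_intCast] at this
  rw [← mul_assoc, this]

/-- **E-block**, transfer to the torsion -/
theorem eblock_of (hl : ∀ m (ξ : A), (p ^ m) • ξ = 0 → ∃ u : Tate p A, u m = ξ) (J S : A →+ A)
    (q l : ℕ) (τ : ℤ_[p])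
    (h : ∀ x : Tate p A, Tate.map J (Tate.map J (Tate.map S (Tate.map S x) - τ • Tate.map S x +
      (l : ℤ_[p]) • x)) = (q : ℤ_[p]) • (Tate.map S (Tate.map S x) - τ • Tate.map S x +
      (l : ℤ_[p]) • x)) (m : ℕ) (ξ : A) (hξ : (p ^ m) • ξ = 0) :
    J (J (S (S ξ) - ap τ m • S ξ + l • ξ)) = q • (S (S ξ) - ap τ m • S ξ + l • ξ) := by
  obtain ⟨u, rfl⟩ := hl m ξ hξ
  have := congrArg (fun w : Tate p A => w m) (h u)
  simpa only [Tate.map_apply, Tate.add_apply, Tate.sub_apply, Tate.natCast_smul_apply,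
    ap_smul τ] using this



end tate

end Crest.Agent.T15.Eb
end

-- ▼ part T15/EbB_64
section

/-!
# Row 15, blocks F / Ht (helper64): Frobenius clauses in the words `Rho.WQ`, smoothness of `Pic`

* `wq_E`, `wq_A`, `wq_tr` : the clauses of the link;
* `cyc_frob` : the cyclotomic character at a Frobenius;
* `exists_fix_pic`, `exists_fix_fin`, `exists_open_fin` : open kernels.
-/

set_option autoImplicit false

namespace Crest.Agent.T15.Eb

open Module WithZero
open Crest.Agent.R013.TP_928 Crest.Agent.T15.Rho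
open Crest.Agent.R013.RR7_948 Crest.Agent.R013.RR8_948 Crest.Agent.R013.RR9_948
open Crest.Agent.R013.RR11_948 Crest.Agent.R013.PicD_398 Crest.Agent.R013.Frob1_914
open Crest.Agent.R013.GR2_921
open Crest.Agent.R018.Placesx484

section wq

variable {G A : Type*} [Group G] [AddCommGroup A] (R : WQ G (Tate 3 A))
  (hl : ∀ m (ξ : A), (3 ^ m) • ξ = 0 → ∃ u : Tate 3 A, u m = ξ) {J S : A →+ A}
  (hJ : ∀ u, R.j u = Tate.map J u) {σ : G} (hS : ∀ u, R.act σ u = Tate.map S u) {l : ℕ}
  (hc : (R.cyc σ : ℤ_[3]) = l)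

include hl hJ hS hc


/-- **A-block** -/
theorem wq_A (F : Fr R.qm) (m : ℕ) (ξ : A) (hξ : (3 ^ m) • ξ = 0) :
    J (S (S ξ) - ap (F.cc σ) m • (if R.χ σ = 1 then S ξ else J (S ξ)) + l • ξ) = 0 := by
  obtain ⟨u, rfl⟩ := hl m ξ hξ
  have := congrArg (fun w : Tate 3 A => w m) (R.quad F σ u)
  rw [sub_add_eq_add_sub]
  split_ifs at this ⊢ with h <;>
  simpa only [hJ, hS, hc, Tate.map_apply, Tate.add_apply, Tate.sub_apply, Tate.zero_apply,
    Tate.natCast_smul_apply, ap_smul (F.cc σ)] using this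


end wq

section frob

open Crest.Agent.T15.C

/-- the cyclotomic character at a Frobenius -/
theorem cyc_frob {p : ℕ} [hp : Fact p.Prime] {P : Place Om} {q : ℕ} {g : Gam} (hg : IsFr P q g)
    (hP : P.rchar ≠ p) {s : Om ≃+* Om} (hs : ∀ a, s a = g a) : Wp.cyc p s = q := by
  rw [← sub_eq_zero]
  refine eq_zero_of_dvd _ fun n => ?_
  rw [← Ideal.mem_span_singleton]
  have hz : IsPrimitiveRoot ((Wp.zt p Om n : Omˣ) : Om) (p ^ n) :=
    IsPrimitiveRoot.coe_units_iff.2 (Wp.zt_prim p Om n)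
  refine Wp.cyc_sub_mem s hz ?_
  rw [hs]
  refine P.frob_root (g := g) hg (fun h => hP ?_) hz.pow_eq_one
  exact (Nat.prime_dvd_prime_iff_eq P.rchar_prime hp.out).1 (P.rchar_prime.dvd_of_dvd_pow h)


/-- the same from the characterisation of the character -/
theorem cyc_eq {p : ℕ} [hp : Fact p.Prime] {P : Place Om} {q : ℕ} {g : Gam} (hg : IsFr P q g)
    (hP : P.rchar ≠ p) {c : ℤ_[p]} (hc : ∀ (n a : ℕ) (ζ : Om), IsPrimitiveRoot ζ (p ^ n) →
      g ζ = ζ ^ a → ((p : ℕ) : ℤ_[p]) ^ n ∣ c - a) : c = q := by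
  rw [← sub_eq_zero]
  refine eq_zero_of_dvd _ fun n => ?_
  have hz : IsPrimitiveRoot ((Wp.zt p Om n : Omˣ) : Om) (p ^ n) :=
    IsPrimitiveRoot.coe_units_iff.2 (Wp.zt_prim p Om n)
  refine hc n q _ hz ?_
  refine P.frob_root (g := g) hg (fun h => hP ?_) hz.pow_eq_one
  exact (Nat.prime_dvd_prime_iff_eq P.rchar_prime hp.out).1 (P.rchar_prime.dvd_of_dvd_pow h)

/-- the fixer of a finite set contains an open subgroup -/
theorem exists_open (S : Finset Om) :
    ∃ U : Subgroup Gam, IsOpen (U : Set Gam) ∧ ∀ g ∈ U, ∀ a ∈ S, g a = a := by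
  have : FiniteDimensional ℚ (IntermediateField.adjoin ℚ (S : Set Om)) :=
    IntermediateField.finiteDimensional_adjoin fun x _ => Algebra.IsIntegral.isIntegral x
  exact ⟨(IntermediateField.adjoin ℚ (S : Set Om)).fixingSubgroup,
    IntermediateField.fixingSubgroup_isOpen _, fun g hg a ha =>
      (IntermediateField.mem_fixingSubgroup_iff _ _).1 hg a (IntermediateField.subset_adjoin _ _ ha)⟩


end frob

section smooth

variable {k K : Type*} [Field k] [Field K] [Algebra k K]

/-- an element is fixed as soon as the generators and finitely many constants are -/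
theorem exists_fix {T : Set K} (hT : IntermediateField.adjoin k T = ⊤) (f : K) :
    ∃ S : Finset k, ∀ e : SI k K k K, (∀ t ∈ T, e.f t = t) → (∀ a ∈ S, e.s a = a) → e.f f = f := by
  classical
  have hf : f ∈ IntermediateField.adjoin k T := hT ▸ IntermediateField.mem_top
  induction hf using IntermediateField.adjoin_induction with
  | mem x hx => exact ⟨∅, fun e h _ => h x hx⟩
  | algebraMap c => exact ⟨{c}, fun e _ h => by rw [e.comm, h c (by simp)]⟩
  | add x y _ _ hx hy =>
    obtain ⟨S, hS⟩ := hx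
    obtain ⟨S', hS'⟩ := hy
    exact ⟨S ∪ S', fun e h h' => by
      rw [map_add, hS e h fun a ha => h' a (by simp [ha]), hS' e h fun a ha => h' a (by simp [ha])]⟩
  | inv x _ hx =>
    obtain ⟨S, hS⟩ := hx
    exact ⟨S, fun e h h' => by rw [map_inv₀, hS e h h']⟩
  | mul x y _ _ hx hy =>
    obtain ⟨S, hS⟩ := hx
    obtain ⟨S', hS'⟩ := hy
    exact ⟨S ∪ S', fun e h h' => by
      rw [map_mul, hS e h fun a ha => h' a (by simp [ha]), hS' e h fun a ha => h' a (by simp [ha])]⟩

variable [IsAlgClosed k] [Algebra (RatFunc k) K] [IsScalarTower k (RatFunc k) K]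
  [FiniteDimensional (RatFunc k) K] [Algebra.IsSeparable (RatFunc k) K]

/-- a function whose only pole is `P` -/
theorem exists_pole_only (P : Pl k K) : ∃ f : K, 1 < P.v f ∧ ∀ Q : Pl k K, Q ≠ P → Q.v f ≤ 1 := by
  classical
  set D : Pl k K →₀ ℤ := Finsupp.single P (gen k K + 1) with hD
  have h1 := ell_ge (k := k) (K := K) hc_of_isAlgClosed D
  rw [hD, degD_single, degP_eq_one, ← hD] at h1
  have hQ : ∀ f ∈ LD D, ∀ Q : Pl k K, Q ≠ P → Q.v f ≤ 1 := fun f hf Q hQ => by
    have := mem_LD.1 hf Q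
    rwa [hD, Finsupp.single_eq_of_ne hQ, exp_zero] at this
  by_contra hc
  push Not at hc
  have hle : LD D ≤ LD (0 : Pl k K →₀ ℤ) := fun f hf => mem_LD.2 fun Q => by
    rw [Finsupp.zero_apply, exp_zero]
    by_cases h : Q = P
    · subst h
      by_contra h'
      obtain ⟨Q', h2, h3⟩ := hc f (not_le.1 h')
      exact absurd (hQ f hf Q' h2) (not_le.2 h3)
    · exact hQ f hf Q h
  have := LD_finite (0 : Pl k K →₀ ℤ)
  have h2 := Submodule.finrank_mono hle
  have h3 := ell_zero (k := k) (K := K) hc_of_isAlgClosed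
  unfold ell at h1 h3
  push_cast at h1
  omega

variable {T : Set K} (hT : IntermediateField.adjoin k T = ⊤)

include hT

theorem exists_fix_pl (P : Pl k K) :
    ∃ S : Finset k, ∀ e : SI k K k K, (∀ t ∈ T, e.f t = t) → (∀ a ∈ S, e.s a = a) → e.pl P = P := by
  obtain ⟨f, h1, h2⟩ := exists_pole_only P
  obtain ⟨S, hS⟩ := exists_fix hT f
  refine ⟨S, fun e h h' => ?_⟩
  by_contra hne
  have := h2 _ hne
  rw [← hS e h h', e.pl_v_apply] at this
  exact absurd h1 (not_lt.2 this)

theorem exists_fix_D (D : Pl k K →₀ ℤ) :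
    ∃ S : Finset k, ∀ e : SI k K k K, (∀ t ∈ T, e.f t = t) → (∀ a ∈ S, e.s a = a) → e.D D = D := by
  classical
  induction D using Finsupp.induction_linear with
  | zero => exact ⟨∅, fun e _ _ => map_zero _⟩
  | add x y hx hy =>
    obtain ⟨S, hS⟩ := hx
    obtain ⟨S', hS'⟩ := hy
    exact ⟨S ∪ S', fun e h h' => by
      rw [map_add, hS e h fun a ha => h' a (by simp [ha]), hS' e h fun a ha => h' a (by simp [ha])]⟩
  | single P n =>
    obtain ⟨S, hS⟩ := exists_fix_pl hT P
    exact ⟨S, fun e h h' => by rw [e.D_single, hS e h h']⟩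

/-- every class is fixed as soon as the generators and finitely many constants are -/
theorem exists_fix_pic (x : Pic k K) :
    ∃ S : Finset k, ∀ e : SI k K k K, (∀ t ∈ T, e.f t = t) → (∀ a ∈ S, e.s a = a) → e.pic x = x := by
  obtain ⟨D, rfl⟩ := cls_surjective x
  obtain ⟨S, hS⟩ := exists_fix_D hT D
  exact ⟨S, fun e h h' => by rw [e.pic_cls, hS e h h']⟩


end smooth

section op

open Crest.Agent.T15.C

variable {K : Type*} [Field K] [Algebra Om K] [Algebra (RatFunc Om) K]
  [IsScalarTower Om (RatFunc Om) K] [FiniteDimensional (RatFunc Om) K]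
  [Algebra.IsSeparable (RatFunc Om) K]


end op

end Crest.Agent.T15.Eb
end

-- ▼ part T15/Rk5_31

/-!
# Row 15, block F (helper31): the Tate module in genus three (the body of `FA.TaStmt`)
-/

set_option autoImplicit false

namespace Crest.Agent.T15.Rk

open Polynomial Crest.Agent.R013.PicD_398 Crest.Agent.R013.TP_928

theorem ta {k K : Type} [Field k] [IsAlgClosed k] [CharZero k] [Algebra.IsAlgebraic ℚ k] [Field K]
    [Algebra k K] [Algebra (RatFunc k) K] [IsScalarTower k (RatFunc k) K]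
    [FiniteDimensional (RatFunc k) K] [Algebra.IsSeparable (RatFunc k) K] {F : k[X]} {x w : K}
    (h : Hy.Hyp F x w) (hd : F.natDegree = 7) :
    Module.Finite ℤ_[3] (Tate 3 (Pic k K)) ∧ Module.finrank ℤ_[3] (Tate 3 (Pic k K)) = 6 ∧
      (∀ n : ℕ, Finite {y : Pic k K // 3 ^ n • y = 0}) ∧
      ∀ (n : ℕ) (y : Pic k K), 3 ^ n • y = 0 → ∃ u : Tate 3 (Pic k K), u n = y :=
  ⟨rkStmt.finite_alg h 3, rkStmt.finrank_alg (g := 3) h (by omega) (by omega) 3,
    fun n => rkStmt.finite_tors_alg h (pow_ne_zero n (by norm_num)), lf_pic 3⟩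

end Crest.Agent.T15.Rk
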