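import Crest.Agent.T15.TopH_88
import Crest.Agent.T15.ArtDef_34
import Crest.Agent.T24.HnLocA_73
import Crest.Agent.T24.HnSu_7
import Crest.Agent.T15.ArtO_49
import Crest.Agent.T24.AsaA_53
import Crest.Agent.R018.TameF_31
import Crest.Agent.T15.MDef_7
import Crest.Agent.T15.CUnr_25
import Crest.Agent.T15.Zer0_7
import Crest.Agent.R018.FDE_389

-- ▼ part T15/Ext_41
section

/-!
# Row 15: the leaves `EmbStmt` and `ExtStmt` (helper41)
-/

set_option autoImplicit false
set_option linter.unusedSectionVars false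

noncomputable section

namespace Crest.Agent.T15.Ext

open IsLocalRing Cardinal QuadraticAlgebra

/-- a domain of characteristic `0` and cardinality at most the continuum embeds in `ℂ` -/
theorem exists_emb (O : Type) [CommRing O] [IsDomain O] [CharZero O] (h : #O ≤ 𝔠) :
    ∃ j : O →+* ℂ, Function.Injective j := by
  let A := MvPolynomial ℝ O
  let K := FractionRing A
  let L := AlgebraicClosure K
  have hA : #A = 𝔠 := by
    refine le_antisymm ?_ ?_
    · refine MvPolynomial.cardinalMk_le_max.trans ?_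
      rw [mk_real]
      exact max_le (max_le h le_rfl) aleph0_le_continuum
    · rw [← mk_real]
      exact mk_le_of_injective (MvPolynomial.X_injective (R := O) (σ := ℝ))
  have hK : #K = 𝔠 := by rw [← hA]; exact FractionRing.cardinalMk A
  have hL : #L = 𝔠 := by
    refine le_antisymm ?_ ?_
    · refine (Algebra.IsAlgebraic.cardinalMk_le_max K L).trans ?_
      rw [hK]
      exact max_le le_rfl aleph0_le_continuum
    · rw [← hK]
      exact mk_le_of_injective (algebraMap K L).injective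
  have : CharZero K := IsFractionRing.charZero_of_isFractionRing A
  have : CharZero L := charZero_of_injective_ringHom (algebraMap K L).injective
  obtain ⟨ψ⟩ := IsAlgClosed.ringEquiv_of_equiv_of_charZero (K := L) (L := ℂ)
    (by rw [hL]; exact aleph0_lt_continuum) (Cardinal.eq.1 (by rw [hL, mk_complex]))
  refine ⟨ψ.toRingHom.comp ((algebraMap K L).comp ((algebraMap A K).comp MvPolynomial.C)), ?_⟩
  exact ψ.injective.comp ((algebraMap K L).injective.comp
    ((IsFractionRing.injective A K).comp (MvPolynomial.C_injective ℝ O)))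

/-- a Noetherian local ring with finite residue field has cardinality at most the continuum -/
theorem mk_le (O : Type) [CommRing O] [IsLocalRing O] [IsNoetherianRing O]
    [Finite (ResidueField O)] : #O ≤ 𝔠 := by
  have : Finite (O ⧸ maximalIdeal O) := ‹Finite (ResidueField O)›
  have hf : ∀ n : ℕ, Finite (O ⧸ maximalIdeal O ^ n) := fun n =>
    Ideal.finite_quotient_pow (IsNoetherian.noetherian _) n
  have he : ∀ n : ℕ, ∃ e : O ⧸ maximalIdeal O ^ n → ℕ, Function.Injective e := fun n =>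
    Countable.exists_injective_nat _
  choose e he using he
  have hi : Function.Injective fun (x : O) (n : ℕ) => e n (Ideal.Quotient.mk _ x) := by
    intro x y hxy
    have : x - y ∈ ⨅ n : ℕ, maximalIdeal O ^ n := by
      rw [Ideal.mem_iInf]
      exact fun n => Ideal.Quotient.eq.1 (he n (congrFun hxy n))
    rw [Ideal.iInf_pow_eq_bot_of_isLocalRing _ (maximalIdeal.isMaximal O).ne_top] at this
    exact sub_eq_zero.1 this
  refine (mk_le_of_injective hi).trans ?_
  rw [← power_def, mk_nat, aleph0_power_aleph0]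

/-- `O[i]` -/
abbrev Gi (O : Type) [CommRing O] : Type := QuadraticAlgebra O (-1) 0

section
variable {O : Type} [CommRing O] [IsDomain O] [IsDiscreteValuationRing O]

theorem norm_gi (z : Gi O) : z.norm = z.re ^ 2 + z.im ^ 2 := by
  rw [norm_def]; ring

/-- `-1` is not a square in the residue field -/
def NS (O : Type) [CommRing O] [IsLocalRing O] : Prop := ∀ x : ResidueField O, x ^ 2 ≠ -1

theorem ns_of_card (h : Nat.card (ResidueField O) = 3) : NS O := by
  have : Finite (ResidueField O) := Nat.finite_of_card_ne_zero (by omega)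
  have := Fintype.ofFinite (ResidueField O)
  intro x hx
  have h2 := (FiniteField.isSquare_neg_one_iff (F := ResidueField O)).1 ⟨x, by rw [← hx]; ring⟩
  rw [← Nat.card_eq_fintype_card, h] at h2
  exact h2 rfl

theorem NS.unit (h : NS O) {x y : O} (hu : IsUnit x ∨ IsUnit y) : IsUnit (x ^ 2 + y ^ 2) := by
  wlog hx : IsUnit x generalizing x y
  · rw [add_comm]; exact this hu.symm (hu.resolve_left hx)
  rw [← residue_ne_zero_iff_isUnit] at hx ⊢
  intro e
  refine h (residue O y / residue O x) ?_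
  simp only [map_add, map_pow] at e
  field_simp
  linear_combination e

theorem NS.isUnit (h : NS O) {z : Gi O} (hu : IsUnit z.re ∨ IsUnit z.im) : IsUnit z := by
  rw [isUnit_iff_norm_isUnit, norm_gi]; exact h.unit hu

theorem NS.fac (h : NS O) {p : O} (hp : Irreducible p) {z : Gi O} (hz : z ≠ 0) :
    ∃ (n : ℕ) (u : Gi O), IsUnit u ∧ z = algebraMap O (Gi O) p ^ n * u := by
  have key : ∀ x y : O, x ≠ 0 → x ∣ y → ∃ (n : ℕ) (a b : O), IsUnit a ∧ x = p ^ n * a ∧
      y = p ^ n * b := by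
    rintro x _ hx ⟨c, rfl⟩
    obtain ⟨n, u, rfl⟩ := IsDiscreteValuationRing.eq_unit_mul_pow_irreducible hx hp
    exact ⟨n, u, u * c, u.isUnit, by ring, by ring⟩
  have h0 : ¬ (z.re = 0 ∧ z.im = 0) := fun e => hz (by ext <;> simp [e.1, e.2])
  rcases ValuationRing.dvd_total z.re z.im with d | d
  · obtain ⟨n, a, b, ha, e1, e2⟩ := key _ _ (fun e => h0 ⟨e, by simpa [e] using d⟩) d
    refine ⟨n, ⟨a, b⟩, h.isUnit (Or.inl ha), ?_⟩
    rw [← map_pow]
    ext <;> simp [-map_pow, e1, e2]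
  · obtain ⟨n, a, b, ha, e1, e2⟩ := key _ _ (fun e => h0 ⟨by simpa [e] using d, e⟩) d
    refine ⟨n, ⟨b, a⟩, h.isUnit (Or.inr ha), ?_⟩
    rw [← map_pow]
    ext <;> simp [-map_pow, e1, e2]

theorem NS.dom (h : NS O) : IsDomain (Gi O) := by
  obtain ⟨p, hp⟩ := IsDiscreteValuationRing.exists_irreducible O
  have : NoZeroDivisors (Gi O) := ⟨fun {a b} e => by
    by_contra hc
    push Not at hc
    obtain ⟨n, u, hu, rfl⟩ := h.fac hp hc.1
    obtain ⟨m, v, hv, rfl⟩ := h.fac hp hc.2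
    have e' : algebraMap O (Gi O) (p ^ (n + m)) * (u * v) = 0 := by
      rw [← e, map_pow]; ring
    rw [(hu.mul hv).mul_left_eq_zero, ← map_zero (algebraMap O (Gi O)), algebraMap_inj] at e'
    exact pow_ne_zero _ hp.ne_zero e'⟩
  exact NoZeroDivisors.to_isDomain _

theorem not_unit {p : O} (hp : ¬ IsUnit p) : ¬ IsUnit (algebraMap O (Gi O) p) := by
  rw [isUnit_iff_norm_isUnit, QuadraticAlgebra.norm_algebraMap, isUnit_pow_iff two_ne_zero]; exact hp

theorem NS.irr (h : NS O) {p : O} (hp : Irreducible p) : Irreducible (algebraMap O (Gi O) p) := by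
  have := h.dom
  have h0 : algebraMap O (Gi O) p ≠ 0 := fun e => hp.ne_zero (by
    rwa [← map_zero (algebraMap O (Gi O)), algebraMap_inj] at e)
  refine ⟨not_unit hp.not_isUnit, fun a b e => ?_⟩
  obtain ⟨n, u, hu, rfl⟩ := h.fac hp (z := a) (fun e' => h0 (by rw [e, e', zero_mul]))
  obtain ⟨m, v, hv, rfl⟩ := h.fac hp (z := b) (fun e' => h0 (by rw [e, e', mul_zero]))
  rcases n with _ | n
  · left; simpa using hu
  rcases m with _ | m
  · right; simpa using hv
  exfalso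
  refine not_unit hp.not_isUnit (IsUnit.of_mul_eq_one
    (algebraMap O (Gi O) p ^ (n + m) * (u * v)) (mul_left_cancel₀ h0 ?_))
  linear_combination -e

theorem NS.dvr (h : NS O) : @IsDiscreteValuationRing (Gi O) _ h.dom := by
  have := h.dom
  obtain ⟨p, hp⟩ := IsDiscreteValuationRing.exists_irreducible O
  refine IsDiscreteValuationRing.ofHasUnitMulPowIrreducibleFactorization ⟨_, h.irr hp, fun hx => ?_⟩
  obtain ⟨n, u, hu, rfl⟩ := h.fac hp hx
  exact ⟨n, associated_mul_unit_right _ _ hu⟩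

theorem mem_pow_iff {R : Type} [CommRing R] [IsDomain R] [IsDiscreteValuationRing R] {p : R}
    (hp : Irreducible p) (n : ℕ) (x y : R) :
    x ≡ y [SMOD (maximalIdeal R ^ n • ⊤ : Submodule R R)] ↔ p ^ n ∣ x - y := by
  rw [SModEq.sub_mem, smul_eq_mul, Ideal.mul_top, hp.maximalIdeal_eq, Ideal.span_singleton_pow,
    Ideal.mem_span_singleton]

theorem NS.cpl (h : NS O) [IsDomain (Gi O)] [IsDiscreteValuationRing (Gi O)]
    [hc : IsAdicComplete (maximalIdeal O) O] : IsAdicComplete (maximalIdeal (Gi O)) (Gi O) := by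
  obtain ⟨p, hp⟩ := IsDiscreteValuationRing.exists_irreducible O
  have hq := h.irr hp
  have : IsPrecomplete (maximalIdeal (Gi O)) (Gi O) := ⟨fun f hf => by
    simp only [mem_pow_iff hq, ← map_pow, algebraMap_dvd_iff, re_sub, im_sub] at hf ⊢
    obtain ⟨x, hx⟩ := hc.toIsPrecomplete.prec (f := fun n => (f n).re)
      fun hmn => (mem_pow_iff hp _ _ _).2 (hf hmn).1
    obtain ⟨y, hy⟩ := hc.toIsPrecomplete.prec (f := fun n => (f n).im)
      fun hmn => (mem_pow_iff hp _ _ _).2 (hf hmn).2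
    exact ⟨⟨x, y⟩, fun n => ⟨(mem_pow_iff hp _ _ _).1 (hx n), (mem_pow_iff hp _ _ _).1 (hy n)⟩⟩⟩
  exact ⟨⟩

instance : IsLocalHom (algebraMap O (Gi O)) := ⟨fun a ha => by
  by_contra hc
  exact not_unit hc ha⟩

theorem exists_lift (j : O →+* ℂ) : ∃ j' : Gi O →+* ℂ, ∀ x, j' (algebraMap O (Gi O) x) = j x := by
  let := j.toAlgebra
  exact ⟨(QuadraticAlgebra.lift (R := O) (a := -1) (b := 0) (A := ℂ) ⟨Complex.I, by simp⟩).toRingHom,
    fun x => AlgHom.commutes _ x⟩

end

end Crest.Agent.T15.Ext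

namespace Crest.Agent.T15.Top

open IsLocalRing Ext

theorem Coef.exists_emb (O : Type) [CommRing O] [IsDomain O] [IsDiscreteValuationRing O]
    [h : Coef O] : ∃ j : O →+* ℂ, Function.Injective j :=
  have := h.cz
  have := h.fin
  Ext.exists_emb O (Ext.mk_le O)

theorem embStmt : EmbStmt := fun O _ _ _ _ => ⟨(Coef.exists_emb O).choose⟩

theorem extStmt : ExtStmt := by
  intro O _ _ _ hO h3
  have h := ns_of_card h3
  have := h.dom
  have := h.dvr
  have := hO.cz
  have := hO.cpl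
  have := hO.fin
  have hC : Coef (Gi O) :=
    { cz := inferInstance
      cpl := h.cpl
      fin := ResidueField.finite_of_finite (R := O) hO.fin
      h3 := by
        have := map_nonunit (algebraMap O (Gi O)) 3 hO.h3
        rwa [map_ofNat] at this }
  refine ⟨Gi O, inferInstance, inferInstance, inferInstance, hC, inferInstance, inferInstance,
    QuadraticAlgebra.omega, ?_, ⟨QuadraticAlgebra.basis _ _⟩, exists_lift⟩
  rw [sq, QuadraticAlgebra.omega_mul_omega_eq_mk]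
  ext <;> simp [QuadraticAlgebra.re_one, QuadraticAlgebra.im_one]

end Crest.Agent.T15.Top
end
end

-- ▼ part T15/ExA_49
section

/-!
# Row 15, existence theorem, part A (helper49): local `p`-th power classes and `S`-units mod `p`
-/

set_option autoImplicit false

noncomputable section

open scoped NumberField
open IsDedekindDomain WithZero Module

namespace Crest.Agent.T15.Ex

open Crest.Agent.T24.Hn Crest.Agent.T24.Hn.Loc

section Close

variable {F Γ : Type*} [Field F] [LinearOrderedCommGroupWithZero Γ] (v : Valuation F Γ) {ζ : F}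
  {n : ℕ}

theorem v_root {m : ℕ} (hm : m ≠ 0) {η : F} (h : η ^ m = 1) : v η = 1 := by
  have h1 : v η ^ m = 1 := by rw [← map_pow, h, map_one]
  rcases lt_trichotomy (v η) 1 with h2 | h2 | h2
  · exact absurd h1 (pow_lt_one₀ zero_le h2 hm).ne
  · exact h2
  · exact absurd h1 (one_lt_pow₀ h2 hm).ne'

theorem v_pw (hζ : IsPrimitiveRoot ζ (n + 1)) (i : ℕ) : v (ζ ^ i) = 1 := by
  rw [map_pow, v_root v n.succ_ne_zero hζ.pow_eq_one, one_pow]

theorem v_prod (hζ : IsPrimitiveRoot ζ (n + 1)) :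
    ∏ k ∈ Finset.range n, v (1 - ζ ^ (k + 1)) = v ((n + 1 : ℕ) : F) := by
  rw [← map_prod, hζ.prod_one_sub_pow_eq_order]
  push_cast
  rfl

/-- an approximate root of unity is close to a root of unity -/
theorem close (hζ : IsPrimitiveRoot ζ (n + 1)) (x : F) :
    ∃ i < n + 1, v (x - ζ ^ i) * v ((n + 1 : ℕ) : F) ≤ v (x ^ (n + 1) - 1) := by
  obtain ⟨i, hi, hm⟩ := Finset.exists_min_image (Finset.range (n + 1)) (fun i => v (x - ζ ^ i))
    ⟨0, by simp⟩
  refine ⟨i, Finset.mem_range.1 hi, ?_⟩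
  have e : (ζ ^ i) ^ (n + 1) = 1 := by rw [← pow_mul, mul_comm, pow_mul, hζ.pow_eq_one, one_pow]
  have h1 := congrArg (Polynomial.eval x) (X_pow_sub_C_eq_prod hζ n.succ_pos e)
  simp only [Polynomial.eval_sub, Polynomial.eval_pow, Polynomial.eval_X, Polynomial.eval_C,
    Polynomial.eval_prod] at h1
  rw [h1, Finset.prod_range_succ', pow_zero, one_mul, map_mul, mul_comm, ← v_prod v hζ, map_prod]
  refine mul_le_mul' (Finset.prod_le_prod' fun k _ => ?_) le_rfl
  have h2 : v (x - ζ ^ i) ≤ v (x - ζ ^ (k + 1) * ζ ^ i) := by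
    rw [← pow_add, ← pow_mod_orderOf ζ (k + 1 + i), ← hζ.eq_orderOf]
    exact hm _ (Finset.mem_range.2 (Nat.mod_lt _ n.succ_pos))
  have h3 : 1 - ζ ^ (k + 1) = ((x - ζ ^ (k + 1) * ζ ^ i) - (x - ζ ^ i)) / ζ ^ i := by
    have := pow_ne_zero i (hζ.ne_zero n.succ_ne_zero)
    field_simp
    ring
  rw [h3, map_div₀, v_pw v hζ, div_one]
  exact v.map_sub_le le_rfl h2

theorem root_eq_one (hζ : IsPrimitiveRoot ζ (n + 1)) {η : F} (hη : η ^ (n + 1) = 1)
    (h : v (η - 1) < v ((n + 1 : ℕ) : F)) : η = 1 := by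
  obtain ⟨j, hj, rfl⟩ := hζ.eq_pow_of_pow_eq_one hη
  rcases j with _ | k
  · simp
  exfalso
  refine absurd h (not_lt.2 ?_)
  rw [← v_prod v hζ, ← Finset.mul_prod_erase _ _ (Finset.mem_range.2 (by omega : k < n)),
    v.map_sub_swap]
  refine (mul_le_mul' le_rfl (Finset.prod_le_one' fun i _ => ?_)).trans (mul_one _).le
  exact v.map_sub_le (map_one v).le (v_pw v hζ _).le

end Close

section Grp

variable {G G' : Type*} [CommGroup G] [CommGroup G'] (p : ℕ)

/-- the `p`-th powers of a subgroup -/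
abbrev pw (B : Subgroup G) : Subgroup G := B.map (powMonoidHom p)

theorem relIndex_pw_sup (U H : Subgroup G) (hle : H ≤ U) (hfin : H.relIndex U ≠ 0) :
    (pw p U ⊔ H).relIndex U = H.relIndex (H.comap (powMonoidHom p) ⊓ U) := by
  have h1 : pw p U ⊔ H ≤ U := by
    refine sup_le ?_ hle
    rintro _ ⟨x, hx, rfl⟩
    exact U.pow_mem hx p
  have h2 := Subgroup.relIndex_mul_relIndex H (pw p U ⊔ H) U le_sup_right h1
  rw [Subgroup.relIndex_sup_right, ← Subgroup.relIndex_comap] at h2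
  have h3 := Subgroup.relIndex_inf_mul_relIndex H (H.comap (powMonoidHom p)) U
  have h4 : H ⊓ H.comap (powMonoidHom p) = H :=
    inf_eq_left.mpr fun x hx => H.pow_mem hx p
  rw [h4] at h3
  have h5 : (H.comap (powMonoidHom p)).relIndex U ≠ 0 := by
    intro h0
    rw [h0, zero_mul] at h2
    exact hfin h2.symm
  apply Nat.eq_of_mul_eq_mul_left (Nat.pos_of_ne_zero h5)
  rw [h2, mul_comm, h3]

theorem pw_le (B : Subgroup G) : pw p B ≤ B := by
  rintro _ ⟨y, hy, rfl⟩
  exact pow_mem hy p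

theorem map_pw (f : G →* G') (B : Subgroup G) : (pw p B).map f = pw p (B.map f) := by
  ext x
  constructor
  · rintro ⟨_, ⟨y, hy, rfl⟩, rfl⟩
    exact ⟨f y, ⟨y, hy, rfl⟩, by simp⟩
  · rintro ⟨_, ⟨y, hy, rfl⟩, rfl⟩
    exact ⟨y ^ p, ⟨y, hy, rfl⟩, by simp⟩

theorem pw_index_mul (f : G →* G') (h2 : ∀ y : G', y ^ p = 1 → y = 1) (B : Subgroup G) :
    (pw p B).relIndex B =
      (pw p (B.map f)).relIndex (B.map f) * (pw p (f.ker ⊓ B)).relIndex (f.ker ⊓ B) := by
  rw [R018.HerbAx530.relIndex_eq_mul f (pw_le p B), map_pw]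
  congr 2
  ext x
  constructor
  · rintro ⟨hx, y, hy, rfl⟩
    refine ⟨y, ⟨?_, hy⟩, rfl⟩
    apply h2
    rw [← map_pow]
    exact hx
  · rintro ⟨y, ⟨hy, hy'⟩, rfl⟩
    exact ⟨pow_mem hy p, y, hy', rfl⟩

theorem pw_index_free [Module.Free ℤ (Additive G)] [Module.Finite ℤ (Additive G)]
    (H : Subgroup G) (hH : H.index ≠ 0) :
    (pw p H).relIndex H = p ^ finrank ℤ (Additive G) := by
  rw [← Subgroup.relIndex_toAddSubgroup]
  have h1 : Subgroup.toAddSubgroup (pw p H) =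
      (Subgroup.toAddSubgroup H).map (nsmulAddMonoidHom (α := Additive G) p) := by
    ext x
    constructor
    · rintro ⟨y, hy, hx⟩
      exact ⟨Additive.ofMul y, hy, hx⟩
    · rintro ⟨y, hy, hx⟩
      exact ⟨Additive.toMul y, hy, hx⟩
  have : (Subgroup.toAddSubgroup H).FiniteIndex := ⟨by rwa [Subgroup.index_toAddSubgroup]⟩
  rw [h1, AddSubgroup.relIndex_map_nsmul, AddSubgroup.finrank_eq_of_finiteIndex]

theorem pw_index_inj (f : G →* G') (hf : Function.Injective f) (B : Subgroup G) :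
    (pw p (B.map f)).relIndex (B.map f) = (pw p B).relIndex B := by
  rw [← map_pw, Subgroup.relIndex_map_map_of_injective _ _ hf]

end Grp

section Loc

variable {F : Type*} [Field F] [NumberField F] (v : Pl F)

/-- the exponent of `v` in `c` -/
def ex (c : ℕ) : ℕ := (-log (v.valuation F (c : F))).toNat

theorem val_nat_le (c : ℕ) : v.valuation F (c : F) ≤ 1 := by
  simpa using val_int_le v (c : 𝓞 F)

theorem val_nat {c : ℕ} (hc : c ≠ 0) : v.valuation F (c : F) = exp (-(ex v c : ℤ)) := by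
  have h0 : v.valuation F (c : F) ≠ 0 := by simp [hc]
  have h1 : log (v.valuation F (c : F)) ≤ 0 := by
    rw [← exp_le_exp, exp_log h0]; exact val_nat_le v c
  rw [ex, Int.toNat_of_nonneg (by omega), neg_neg, exp_log h0]

theorem Pr_mono {a b : ℕ} (h : a ≤ b) : Loc.Pr v b ≤ Loc.Pr v a := fun x hx => by
  rw [mem_Pr] at *
  refine hx.trans_le ?_
  rw [exp_le_exp]; omega

/-- approximate `p`-th powers -/
def Cu (p m : ℕ) : Subgroup Fˣ := pw p ⊤ ⊔ Loc.Pr v m

variable {n : ℕ} {ζ : F}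

theorem relIndex_Cu_Un (hζ : IsPrimitiveRoot ζ (n + 1)) (m : ℕ) :
    (Cu v (n + 1) (m + ex v (n + 1))).relIndex (Un v) ≠ 0 ∧
    (Cu v (n + 1) (m + ex v (n + 1))).relIndex (Un v) ≤
      (n + 1) * Nat.card (𝓞 F ⧸ v.asIdeal ^ ex v (n + 1)) := by
  classical
  set e := ex v (n + 1) with he
  have hfin := relIndex_Pr_Un v (m + e)
  refine ⟨fun h0 => hfin (Subgroup.relIndex_eq_zero_of_le_left le_sup_right h0), ?_⟩
  have hle : pw (n + 1) (Un v) ⊔ Loc.Pr v (m + e) ≤ Cu v (n + 1) (m + e) :=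
    sup_le_sup_right (Subgroup.map_mono le_top) _
  have h1 := Subgroup.relIndex_le_of_le_left (L := Un v) hle fun h0 =>
    hfin (Subgroup.relIndex_eq_zero_of_le_left le_sup_right h0)
  rw [relIndex_pw_sup _ _ _ (Pr_le_Un v _) hfin] at h1
  refine h1.trans ?_
  set K := (Loc.Pr v (m + e)).comap (powMonoidHom (n + 1)) ⊓ Un v with hK
  have h2 := Subgroup.relIndex_inf_mul_relIndex (Loc.Pr v (m + e)) (Loc.Pr v m) K
  rw [inf_eq_left.mpr (Pr_mono v (Nat.le_add_right m e))] at h2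
  have h4 := relIndex_Pr v (Loc.Pr v m) (Pr_le_Un v _) (m + 1) e (m + e) (by omega)
    fun x hx => by
      have := lt_exp_iff.mp ((mem_Pr v).mp hx)
      convert this using 2
      push_cast; ring
  have h5 := Subgroup.relIndex_le_of_le_right (H := Loc.Pr v (m + e))
    (inf_le_left : Loc.Pr v m ⊓ K ≤ Loc.Pr v m) h4.1
  choose i hi hc using fun x : Fˣ => close (v.valuation F) hζ (x : F)
  have h7 : ∀ x ∈ K, v.valuation F ((x : F) - ζ ^ i x) < exp (-(m : ℤ)) := fun x hx => by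
    have h8 := (hc x).trans_lt (by simpa using (mem_Pr v).mp hx.1 :
      v.valuation F ((x : F) ^ (n + 1) - 1) < exp (-((m + e : ℕ) : ℤ)))
    rw [val_nat v n.succ_ne_zero, ← he, ← lt_div_iff₀ (zero_lt_iff.mpr exp_ne_zero), ← exp_sub]
      at h8
    convert h8 using 2
    push_cast; ring
  have h6 := (relIndex_le_card (Loc.Pr v m) K (fun x => (⟨i x, hi x⟩ : Fin (n + 1)))
    fun x hx y hy hxy => by
      have h9 : i x = i y := congrArg Fin.val hxy
      have e1 : ((x⁻¹ * y : Fˣ) : F) - 1 = (((y : F) - ζ ^ i y) - ((x : F) - ζ ^ i x)) / x := by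
        have := x.ne_zero
        rw [h9, Units.val_mul, Units.val_inv_eq_inv_val]; field_simp; ring
      rw [mem_Pr, e1, map_div₀, (mem_Un v).mp hx.2, div_one]
      exact (v.valuation F).map_sub_lt (h7 y hy) (h7 x hx)).2
  rw [Nat.card_eq_fintype_card, Fintype.card_fin] at h6
  rw [← h2, mul_comm]
  exact Nat.mul_le_mul h6 (h5.trans h4.2)

theorem index_Un_sup (n m : ℕ) :
    (Un v ⊔ Cu v (n + 1) m).index ≠ 0 ∧ (Un v ⊔ Cu v (n + 1) m).index ≤ n + 1 := by
  have := relIndex_le_card (Un v ⊔ Cu v (n + 1) m) ⊤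
    (fun x => ((log (v.valuation F (x : F)) : ℤ) : ZMod (n + 1))) fun x _ y _ hxy => by
      obtain ⟨k, hk⟩ := (ZMod.intCast_eq_intCast_iff_dvd_sub _ _ _).1 hxy
      obtain ⟨c, hc⟩ := exists_val_eq v k
      have h2 : x⁻¹ * y / c ^ (n + 1) ∈ Un v := by
        rw [mem_Un, Units.val_div_eq_div_val, Units.val_mul, Units.val_inv_eq_inv_val,
          Units.val_pow_eq_pow_val, map_div₀, map_mul, map_inv₀, map_pow, hc,
          ← exp_log (val_unit_ne v x), ← exp_log (val_unit_ne v y), ← exp_neg, ← exp_add,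
          ← exp_nsmul, ← exp_sub, ← exp_zero]
        congr 1
        rw [nsmul_eq_mul]
        omega
      have := mul_mem (Subgroup.mem_sup_left h2 : _ ∈ Un v ⊔ Cu v (n + 1) m)
        (Subgroup.mem_sup_right (Subgroup.mem_sup_left ⟨c, trivial, rfl⟩))
      simpa using this
  simpa using this

theorem index_Cu (hζ : IsPrimitiveRoot ζ (n + 1)) (m : ℕ) (hm : ex v (n + 1) ≤ m) :
    (Cu v (n + 1) m).index ≠ 0 ∧
      (Cu v (n + 1) m).index ≤ (n + 1) ^ 2 * Nat.card (𝓞 F ⧸ v.asIdeal ^ ex v (n + 1)) := by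
  obtain ⟨m, rfl⟩ := Nat.exists_eq_add_of_le' hm
  have h1 := Subgroup.relIndex_mul_index
    (le_sup_right : Cu v (n + 1) (m + ex v (n + 1)) ≤ Un v ⊔ Cu v (n + 1) (m + ex v (n + 1)))
  rw [Subgroup.relIndex_sup_right] at h1
  rw [← h1]
  refine ⟨mul_ne_zero (relIndex_Cu_Un v hζ m).1 (index_Un_sup v n _).1, ?_⟩
  calc _ ≤ ((n + 1) * Nat.card (𝓞 F ⧸ v.asIdeal ^ ex v (n + 1))) * (n + 1) :=
        Nat.mul_le_mul (relIndex_Cu_Un v hζ m).2 (index_Un_sup v n _).2
    _ = _ := by ring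

theorem prod_card_le' (S : Finset (Pl F)) {c : ℕ} (hc : c ≠ 0) :
    ∏ v ∈ S, Nat.card (𝓞 F ⧸ v.asIdeal ^ ex v c) ≤ c ^ Module.finrank ℚ F := by
  have h1 : ∏ v ∈ S, v.asIdeal ^ ex v c ∣ Ideal.span {(c : 𝓞 F)} := by
    refine Finset.prod_dvd_of_coprime (fun v _ w _ hvw => ?_) fun v _ => ?_
    · exact IsCoprime.pow (Ideal.isCoprime_iff_sup_eq.mpr
        (v.isMaximal.coprime_of_ne w.isMaximal fun h => hvw (HeightOneSpectrum.ext h)))
    · rw [Ideal.dvd_span_singleton, ← val_int_le_pow_iff]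
      simpa using (val_nat v hc).le
  have h2 := map_dvd Ideal.absNorm h1
  rw [Ideal.absNorm_span_natCast, NumberField.RingOfIntegers.rank, map_prod] at h2
  exact Nat.le_of_dvd (by positivity) h2

/-- the semi-local index -/
theorem index_iInf (hζ : IsPrimitiveRoot ζ (n + 1)) (S : Finset (Pl F)) (m : Pl F → ℕ)
    (hm : ∀ v, ex v (n + 1) ≤ m v) :
    (⨅ v : S, Cu v.1 (n + 1) (m v)).index ≠ 0 ∧
      (⨅ v : S, Cu v.1 (n + 1) (m v)).index ≤ (n + 1) ^ (2 * S.card + Module.finrank ℚ F) := by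
  refine ⟨Subgroup.index_iInf_ne_zero fun v => (index_Cu v.1 hζ _ (hm v)).1,
    (Subgroup.index_iInf_le _).trans ?_⟩
  calc _ ≤ ∏ v : S, (n + 1) ^ 2 * Nat.card (𝓞 F ⧸ v.1.asIdeal ^ ex v.1 (n + 1)) :=
        Finset.prod_le_prod' fun v _ => (index_Cu v.1 hζ _ (hm v)).2
    _ = ∏ v ∈ S, (n + 1) ^ 2 * Nat.card (𝓞 F ⧸ v.asIdeal ^ ex v (n + 1)) :=
        Finset.prod_coe_sort S fun v => (n + 1) ^ 2 * Nat.card (𝓞 F ⧸ v.asIdeal ^ ex v (n + 1))
    _ ≤ _ := by
        rw [Finset.prod_mul_distrib, Finset.prod_const, pow_add, pow_mul]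
        exact Nat.mul_le_mul_left _ (prod_card_le' S n.succ_ne_zero)

end Loc

section SU

open Crest.Agent.R018.MinkUx824 Crest.Agent.R018.Selmerx380 Crest.Agent.R018.SLatx824
open Crest.Agent.R018.SLatBx824

variable {F : Type*} [Field F] [NumberField F] {n : ℕ} {ζ : F}

theorem pw_units (hζ : IsPrimitiveRoot ζ (n + 1)) :
    (pw (n + 1) (⊤ : Subgroup (𝓞 F)ˣ)).relIndex ⊤ =
      (n + 1) ^ Fintype.card (NumberField.InfinitePlace F) := by
  have h2 : ∀ y : (𝓞 F)ˣ ⧸ NumberField.Units.torsion F, y ^ (n + 1) = 1 → y = 1 := by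
    intro y hy
    obtain ⟨u, rfl⟩ := QuotientGroup.mk_surjective y
    rw [← QuotientGroup.mk_pow, QuotientGroup.eq_one_iff] at hy
    rw [QuotientGroup.eq_one_iff]
    exact IsOfFinOrder.of_pow hy n.succ_ne_zero
  rw [pw_index_mul (G' := (𝓞 F)ˣ ⧸ NumberField.Units.torsion F) _
    (QuotientGroup.mk' (NumberField.Units.torsion F)) h2, pw_index_free,
    NumberField.Units.finrank_modTorsion, QuotientGroup.ker_mk', inf_top_eq]
  · have h3 : (pw (n + 1) (NumberField.Units.torsion F)).relIndex (NumberField.Units.torsion F) =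
        n + 1 := by
      have h4 := pw_index_inj (n + 1) (NumberField.Units.torsion F).subtype Subtype.val_injective ⊤
      rw [← MonoidHom.range_eq_map, Subgroup.range_subtype] at h4
      rw [h4, Subgroup.relIndex_top_right, pw, ← MonoidHom.range_eq_map,
        IsCyclic.index_powMonoidHom_range]
      exact Nat.gcd_eq_right (NumberField.Units.dvd_torsionOrder_of_isPrimitiveRoot hζ)
    rw [h3, NumberField.Units.rank, ← pow_succ, Nat.sub_add_cancel Fintype.card_pos]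
  · rw [← MonoidHom.range_eq_map, MonoidHom.range_eq_top.mpr (QuotientGroup.mk'_surjective _)]
    simp

/-- the `S`-unit theorem modulo `p`-th powers -/
theorem pw_sunits (hζ : IsPrimitiveRoot ζ (n + 1)) (S : Finset (Pl F)) :
    (pw (n + 1) ((S : Set (Pl F)).unit F)).relIndex ((S : Set (Pl F)).unit F) =
      (n + 1) ^ (S.card + Fintype.card (NumberField.InfinitePlace F)) := by
  classical
  have h2 : ∀ y : Multiplicative (S → ℤ), y ^ (n + 1) = 1 → y = 1 := by
    intro y hy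
    have h := congrArg Multiplicative.toAdd hy
    rw [toAdd_pow, toAdd_one] at h
    have : Multiplicative.toAdd y = 0 := by
      funext q
      have := congrFun h q
      simp only [Pi.smul_apply, nsmul_eq_mul, Pi.zero_apply, mul_eq_zero] at this
      exact this.resolve_left (by positivity)
    rw [← ofAdd_toAdd y, this, ofAdd_zero]
  have hk : (ordS S).ker ⊓ (S : Set (Pl F)).unit F = (⊤ : Subgroup (𝓞 F)ˣ).map (iu F) := by
    rw [← MonoidHom.range_eq_map]
    ext x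
    rw [mem_iu_range_iff, Subgroup.mem_inf, mem_unit_iff, MonoidHom.mem_ker]
    constructor
    · rintro ⟨h, h'⟩ w
      by_cases hw : w ∈ S
      · exact congrFun (congrArg Multiplicative.toAdd h) ⟨w, hw⟩
      · exact h' w hw
    · intro h
      refine ⟨?_, fun w _ => h w⟩
      rw [← ofAdd_zero]
      exact congrArg Multiplicative.ofAdd (funext fun q => h q.1)
  have : Module.Free ℤ (Additive (Multiplicative (S → ℤ))) :=
    Module.Free.of_equiv (AddEquiv.additiveMultiplicative (S → ℤ)).symm.toIntLinearEquiv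
  have : Module.Finite ℤ (Additive (Multiplicative (S → ℤ))) :=
    Module.Finite.equiv (AddEquiv.additiveMultiplicative (S → ℤ)).symm.toIntLinearEquiv
  have hr : finrank ℤ (Additive (Multiplicative (S → ℤ))) = S.card := by
    rw [(AddEquiv.additiveMultiplicative (S → ℤ)).toIntLinearEquiv.finrank_eq]
    simp
  have hi : (((S : Set (Pl F)).unit F).map (ordS S)).index ≠ 0 := by
    have hne : NeZero (hL F) := ⟨hL_pos.ne'⟩
    let ρ : Multiplicative (S → ℤ) →* Multiplicative (S → ZMod (hL F)) :=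
      AddMonoidHom.toMultiplicative ((Int.castAddHom (ZMod (hL F))).compLeft S)
    have h1 : ρ.ker.index ≠ 0 := by
      rw [Subgroup.index_ker]
      exact Nat.card_pos.ne'
    intro h0
    apply h1
    refine Nat.eq_zero_of_zero_dvd (h0 ▸ Subgroup.index_dvd_of_le ?_)
    intro z hz
    have h3 : ∀ q : S, ∃ c : ℤ, Multiplicative.toAdd z q = hL F * c := by
      intro q
      have h4 : ((Multiplicative.toAdd z q : ℤ) : ZMod (hL F)) = 0 :=
        congrFun (congrArg Multiplicative.toAdd (MonoidHom.mem_ker.mp hz)) q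
      rwa [ZMod.intCast_zmod_eq_zero_iff_dvd] at h4
    choose c hc using h3
    choose y hy using fun q : S => exists_gen (L := F) q.1
    have h5 : ∀ w, ord (𝓞 F) w (∏ q, y q ^ c q) =
        ∑ q : S, c q * (if w = q then (hL F : ℤ) else 0) := by
      intro w
      rw [ord_prod]
      simp only [ord_zpow, hy]
    refine ⟨∏ q, y q ^ c q, ?_, ?_⟩
    · rw [SetLike.mem_coe, mem_unit_iff]
      intro w hw
      rw [h5]
      apply Finset.sum_eq_zero
      intro q _
      rw [if_neg, mul_zero]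
      rintro rfl
      exact hw q.2
    · rw [← ofAdd_toAdd z]
      refine congrArg Multiplicative.ofAdd (funext fun w => ?_)
      rw [h5, hc, Finset.sum_eq_single w]
      · simp [mul_comm]
      · intro q _ hq
        rw [if_neg, mul_zero]
        intro h
        exact hq (Subtype.ext h.symm)
      · simp
  rw [pw_index_mul _ (ordS S) h2, hk, pw_index_inj _ (iu F) iu_inj, pw_units hζ,
    pw_index_free _ _ hi, hr, pow_add]

end SU

end Crest.Agent.T15.Ex
end
end

-- ▼ part T15/ExB_49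
section

/-!
# Row 15, existence theorem, part B (helper49): the Kummer case (`μ_N ⊆ K`, exponent `N`)
-/

set_option autoImplicit false

noncomputable section

open NumberField IsDedekindDomain WithZero
open scoped Pointwise

namespace Crest.Agent.T15.Ex

open Crest.Agent.T15.Art Crest.Agent.R018.Placesx484 Crest.Agent.R018.Selmerx380
open Crest.Agent.T24.Hn (Kill)
open Crest.Agent.T24.Hn.Loc (mem_Pr)

section Ray

variable {K : Type*} [Field K] [NumberField K] {A : Type*} [CommGroup A]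

/-- `f` is a ray class character with modulus supported on `T` -/
def Ray (T : Finset (Pr K)) (f : Pr K → A) : Prop :=
  ∃ c : ℕ, c ≠ 0 ∧ ∀ a : Kˣ,
    (∀ w ∈ T, w.valuation K ((a : K) - 1) < w.valuation K (c : K)) → ev f a = 1

theorem val_mul_le (w : Pr K) (c d : ℕ) :
    w.valuation K ((c * d : ℕ) : K) ≤ w.valuation K (c : K) := by
  rw [Nat.cast_mul, map_mul]
  exact mul_le_of_le_one_right' (val_nat_le w d)

theorem Ray.mul {T : Finset (Pr K)} {f g : Pr K → A} (hf : Ray T f) (hg : Ray T g) :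
    Ray T fun w => f w * g w := by
  obtain ⟨c, hc, h⟩ := hf
  obtain ⟨d, hd, h'⟩ := hg
  refine ⟨c * d, mul_ne_zero hc hd, fun a ha => ?_⟩
  rw [ev_mul, h a fun w hw => (ha w hw).trans_le (val_mul_le w c d),
    h' a fun w hw => (ha w hw).trans_le (mul_comm c d ▸ val_mul_le w d c), mul_one]

theorem Ray.map {B : Type*} [CommGroup B] {T : Finset (Pr K)} {f : Pr K → A} (hf : Ray T f)
    (l : A →* B) : Ray T fun w => l (f w) := by
  obtain ⟨c, hc, h⟩ := hf
  exact ⟨c, hc, fun a ha => by rw [← map_ev, h a ha, map_one]⟩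

theorem mul_approx (S : Finset (Pr K)) (b : Pr K → Kˣ) (m : Pr K → ℕ) :
    ∃ c : Kˣ, ∀ w ∈ S, c / b w ∈ T24.Hn.Loc.Pr w (m w) := by
  have h0 : ∀ w : Pr K, w.valuation K (b w : K) ≠ 0 := fun w => by simp
  choose M hM using fun w : Pr K => T24.Asa.exists_exp_le
    (mul_ne_zero (h0 w) (exp_ne_zero (a := -((m w + 1 : ℕ) : ℤ))))
  obtain ⟨x, hx, -⟩ := T24.Asa.approx_fin S (fun w => (b w : K)) (S.sup M)
  have h1 : ∀ w ∈ S, w.valuation K (x / b w - 1) < exp (-(m w : ℤ)) := fun w hw => by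
    have e : x / b w - 1 = (x - b w) / b w := by field_simp
    rw [e, map_div₀, div_lt_iff₀ (zero_lt_iff.2 (h0 w)), mul_comm]
    refine ((hx w hw).trans ((T24.Asa.exp_neg_anti (Finset.le_sup hw)).trans (hM w))).trans_lt ?_
    refine mul_lt_mul_of_pos_left ?_ (zero_lt_iff.2 (h0 w))
    rw [exp_lt_exp]; push_cast; omega
  by_cases hx0 : x = 0
  · refine ⟨1, fun w hw => absurd ((h1 w hw).trans_le (T24.Asa.exp_neg_le_one _)) ?_⟩
    simp [hx0]
  · exact ⟨Units.mk0 x hx0, fun w hw => by simpa [mem_Pr] using h1 w hw⟩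

theorem ev_kill {S : Finset (Pr K)} {f : Pr K → A} {p : ℕ} (hf : ∀ w, f w ^ p = 1) {m : Pr K → ℕ}
    (h : ∀ a : Kˣ, (∀ w ∈ S, a ∈ T24.Hn.Loc.Pr w (m w)) → ev f a = 1) :
    ∀ a : Kˣ, (∀ w ∈ S, a ∈ Cu w p (m w)) → ev f a = 1 := fun a ha => by
  have h1 : ∀ w : Pr K, ∃ b : Kˣ, w ∈ S → a / b ^ p ∈ T24.Hn.Loc.Pr w (m w) := fun w => by
    by_cases hw : w ∈ S
    · obtain ⟨_, ⟨b, -, rfl⟩, y, hy, rfl⟩ := Subgroup.mem_sup.1 (ha w hw)
      exact ⟨b, fun _ => by simpa using hy⟩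
    · exact ⟨1, fun h => absurd h hw⟩
  choose b hb using h1
  obtain ⟨c, hc⟩ := mul_approx S b m
  have h2 := h (a / c ^ p) fun w hw => by
    have := div_mem (hb w hw) (pow_mem (hc w hw) p)
    rwa [div_pow, div_div_div_cancel_right] at this
  have h3 : ev f c ^ p = 1 := ev_mem (f := f) (powMonoidHom p : A →* A).ker hf c
  rwa [map_div, map_pow, h3, div_one] at h2

theorem ev_one (a : Kˣ) : ev (fun _ => (1 : A)) a = 1 := ev_mem ⊥ (fun _ => rfl) a

theorem ev_sunit {S : Finset (Pr K)} {f : Pr K → A} (h1 : ∀ w ∈ S, f w = 1) :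
    (S : Set (Pr K)).unit K ≤ (ev f).ker := fun u hu => by
  rw [MonoidHom.mem_ker, ev_congr (g := fun _ => 1) fun w hw => h1 w (by
    by_contra h
    exact hw ((R018.SLatx824.mem_unit_iff _ u).1 hu w h))]
  exact ev_one u

theorem eq_of_ev {S : Finset (Pr K)} (hK : Kill S) {f g : Pr K → A} (hf : ∀ w ∈ S, f w = 1)
    (hg : ∀ w ∈ S, g w = 1) (h : ev f = ev g) : f = g := by
  classical
  funext w
  by_cases hw : w ∈ S
  · rw [hf w hw, hg w hw]
  obtain ⟨x, hx⟩ := hK.ord (fun v => if v = w then 1 else 0)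
    ((Set.finite_singleton w).subset fun v hv => by simpa using hv)
  have key : ∀ f : Pr K → A, (∀ w ∈ S, f w = 1) → ev f x = f w := fun f hf => by
    rw [ev_apply, finprod_eq_single _ w fun v hv => ?_, hx w hw, if_pos rfl, zpow_one]
    by_cases hv' : v ∈ S
    · rw [hf v hv', one_zpow]
    · rw [hx v hv', if_neg hv, zpow_zero]
  rw [← key f hf, ← key g hg, h]

theorem kill_avoid (w : Pr K) : ∃ S : Finset (Pr K), Kill S ∧ w ∉ S := by
  classical
  obtain ⟨S, hS⟩ := T24.Hn.exists_kill K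
  obtain ⟨x, hx⟩ := exists_ord_eq_one (K := K) w
  obtain ⟨S', hS'⟩ := exists_supp x
  refine ⟨(S ∪ S').erase w, fun n hn => ?_, Finset.notMem_erase _ _⟩
  obtain ⟨y, hy⟩ := hS.ord (fun v => -n v) (by simpa using hn)
  refine ⟨y * x ^ (-n w - ord (𝓞 K) w y), fun v hv => ?_⟩
  rw [valuation_eq_exp, ord_mul, R018.SLatBx824.ord_zpow]
  congr 1
  by_cases h : v = w
  · rw [h, hx]; ring
  · have h1 : v ∉ S ∪ S' := fun h' => hv (Finset.mem_erase.2 ⟨h, h'⟩)
    have h2 : ord (𝓞 K) v x = 0 := by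
      by_contra h2
      exact h1 (Finset.mem_union_right _ (hS' v h2))
    rw [hy v fun h' => h1 (Finset.mem_union_left _ h'), h2]; ring

end Ray

section Kummer

variable {K E : Type*} [Field K] [Field E] [Algebra K E] {n : ℕ} {ζ : K}

theorem fix_root (hζ : IsPrimitiveRoot ζ (n + 1)) (g : E ≃ₐ[K] E) {η : E} (hη : η ^ (n + 1) = 1) :
    g η = η := by
  obtain ⟨i, -, rfl⟩ := (hζ.map_of_injective (algebraMap K E).injective).eq_pow_of_pow_eq_one hη
  rw [← map_pow, AlgEquiv.commutes]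

theorem quot_pow {u : K} {r : E} (hr0 : r ≠ 0) (hr : r ^ (n + 1) = algebraMap K E u)
    (g : E ≃ₐ[K] E) : (g r / r) ^ (n + 1) = 1 := by
  rw [div_pow, ← map_pow, hr, AlgEquiv.commutes, ← hr, div_self (pow_ne_zero _ hr0)]

/-- the Kummer character -/
def kum (hζ : IsPrimitiveRoot ζ (n + 1)) {u : K} {r : E} (hr0 : r ≠ 0)
    (hr : r ^ (n + 1) = algebraMap K E u) : (E ≃ₐ[K] E) →* Eˣ :=
  MonoidHom.mk' (fun g => Units.mk0 (g r / r) (div_ne_zero (by simpa using hr0) hr0)) fun g h => by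
    ext
    have := fix_root hζ g (quot_pow hr0 hr h)
    rw [map_div₀] at this
    have h1 : g r ≠ 0 := by simpa using hr0
    simp only [Units.val_mk0, Units.val_mul, AlgEquiv.mul_apply, ← this]
    field_simp

variable (hζ : IsPrimitiveRoot ζ (n + 1)) {u : K} {r : E} (hr0 : r ≠ 0)
  (hr : r ^ (n + 1) = algebraMap K E u)

theorem kum_val (g : E ≃ₐ[K] E) : (kum hζ hr0 hr g : E) = g r / r := rfl

theorem kum_pow (g : E ≃ₐ[K] E) : kum hζ hr0 hr g ^ (n + 1) = 1 :=
  Units.ext (by rw [Units.val_pow_eq_pow_val, kum_val, quot_pow hr0 hr, Units.val_one])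

theorem kum_opn [Algebra.IsIntegral K E] : IsOpen ((kum hζ hr0 hr).ker : Set (E ≃ₐ[K] E)) :=
  Subgroup.isOpen_mono (H₁ := MulAction.stabilizer (E ≃ₐ[K] E) r) (fun g hg => Units.ext (by
    rw [kum_val, show g r = r from hg, div_self hr0, Units.val_one]))
    (stabilizer_isOpen_of_isIntegral r)

variable [NumberField K] [CharZero E] [Algebra.IsAlgebraic ℚ E]

theorem v_equiv (P : Place E) : (P.v.comap (algebraMap K E)).IsEquiv ((pr K P).valuation K) :=
  Valuation.isEquiv_iff_val_le_one.2 fun {x} =>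
    (Place.v_res_le_one_iff K P x).symm.trans (Place.numberField_val_iff _ x)

theorem v_lt_iff (P : Place E) (x y : K) : P.v (algebraMap K E x) < P.v (algebraMap K E y) ↔
    (pr K P).valuation K x < (pr K P).valuation K y := (v_equiv (K := K) P).lt_iff_lt

theorem v_eq_one (P : Place E) {x : K} (h : (pr K P).valuation K x = 1) :
    P.v (algebraMap K E x) = 1 := (v_equiv (K := K) P).eq_one_iff_eq_one.2 h

theorem kum_inertia (P : Place E) (hu : (pr K P).valuation K u = 1)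
    (hp : (pr K P).valuation K ((n + 1 : ℕ) : K) = 1) :
    P.ideal.inertia (E ≃ₐ[K] E) ≤ (kum hζ hr0 hr).ker := fun g hg => by
  have h1 : P.v r = 1 := Place.pow_eq_one_aux n.succ_ne_zero (by rw [← map_pow, hr, v_eq_one P hu])
  have h2 : P.v ((n + 1 : ℕ) : E) = 1 := by rw [← map_natCast (algebraMap K E), v_eq_one P hp]
  refine Units.ext (root_eq_one P.v (hζ.map_of_injective (algebraMap K E).injective)
    (quot_pow hr0 hr g) ?_)
  rw [kum_val, h2, div_sub_one hr0, map_div₀, h1, div_one]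
  exact P.v_smul_sub_lt_one hg r h1.le

theorem kum_split (P : Place E) {b : K} (hb : b ≠ 0) (h : (pr K P).valuation K (u / b ^ (n + 1) - 1) <
    (pr K P).valuation K (((n + 1) * (n + 1) : ℕ) : K)) {g : E ≃ₐ[K] E} (hg : g • P = P) :
    kum hζ hr0 hr g = 1 := by
  have hζ' := hζ.map_of_injective (algebraMap K E).injective
  have hb' : algebraMap K E b ≠ 0 := by simpa using hb
  obtain ⟨i, -, hi⟩ := close P.v hζ' (r / algebraMap K E b)
  rw [← v_lt_iff, map_sub, map_div₀, map_one, map_pow, ← hr, ← div_pow, map_natCast, Nat.cast_mul,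
    map_mul] at h
  have h0 : 0 < P.v ((n + 1 : ℕ) : E) := zero_lt_iff.2 (by
    rw [Valuation.ne_zero_iff]; exact Nat.cast_ne_zero.2 n.succ_ne_zero)
  have h1 := lt_of_mul_lt_mul_right (hi.trans_lt h) h0.le
  have h2 : P.v (r / algebraMap K E b) = 1 := by
    have := P.v.map_add_eq_of_lt_right (x := r / algebraMap K E b - algebraMap K E ζ ^ i)
      (y := algebraMap K E ζ ^ i) (by
        rw [v_pw P.v hζ']; exact h1.trans_le (P.v_natCast_le_one _))
    rwa [sub_add_cancel, v_pw P.v hζ'] at this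
  have h3 : P.v (g r / algebraMap K E b - algebraMap K E ζ ^ i) < P.v ((n + 1 : ℕ) : E) := by
    rw [← P.v_smul_eq g hg, AlgEquiv.smul_def, map_sub, map_div₀, map_pow, AlgEquiv.commutes,
      AlgEquiv.commutes] at h1
    exact h1
  refine Units.ext (root_eq_one P.v hζ' (quot_pow hr0 hr g) ?_)
  have e : g r / r - 1 = ((g r / algebraMap K E b - algebraMap K E ζ ^ i) -
      (r / algebraMap K E b - algebraMap K E ζ ^ i)) / (r / algebraMap K E b) := by
    field_simp
    ring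
  rw [kum_val, e, map_div₀, h2, div_one]
  exact P.v.map_sub_lt h3 h1

end Kummer

section Base

attribute [local irreducible] ex

variable {K E : Type} [Field K] [NumberField K] [IsTotallyComplex K] [Field E] [CharZero E]
  [IsAlgClosed E] [Algebra.IsAlgebraic ℚ E] [Algebra K E] [IsGalois K E] {n : ℕ} {ζ : K}

omit [IsAlgClosed E] [Algebra.IsAlgebraic ℚ E] in
theorem Av.ray (hA : ArtStmt) {A : Type} [CommGroup A] {ξ : (E ≃ₐ[K] E) →* A}
    (ho : IsOpen (ξ.ker : Set (E ≃ₐ[K] E))) {T : Finset (Pr K)} {f : Pr K → A}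
    (h1 : ∀ w ∈ T, f w = 1) (h : Av T f ξ) : Ray T f := by
  obtain ⟨N, hN, hξ⟩ := exists_pow_eq_one ξ ho
  exact ⟨N * N, mul_ne_zero hN hN, fun a ha => artin_av hA ho hN hξ h1 h a fun w hw => by
    simpa [sq] using ha w hw⟩

/-- semi-local approximate powers -/
def HS (S : Finset (Pr K)) (p C : ℕ) : Subgroup Kˣ := ⨅ w : S, Cu w.1 p (ex w.1 C)

/-- `S`-units -/
def US (S : Finset (Pr K)) : Subgroup Kˣ := (S : Set (Pr K)).unit K

omit [IsTotallyComplex K] in
theorem mem_HS {S : Finset (Pr K)} {p C : ℕ} {a : Kˣ} :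
    a ∈ HS S p C ↔ ∀ w ∈ S, a ∈ Cu w p (ex w C) := by
  rw [HS, Subgroup.mem_iInf]
  exact Subtype.forall

omit [IsTotallyComplex K] in
theorem mem_Pr_ex {C : ℕ} (hC : C ≠ 0) {w : Pr K} {a : Kˣ} (ha : a ∈ T24.Hn.Loc.Pr w (ex w C)) :
    w.valuation K ((a : K) - 1) < w.valuation K (C : K) := by
  rw [val_nat w hC]; exact ha

theorem count (hζ : IsPrimitiveRoot ζ (n + 1)) (S : Finset (Pr K)) {c : ℕ} (hc : c ≠ 0)
    (hloc : HS S (n + 1) ((n + 1) * c) ⊓ US S ≤ pw (n + 1) (US S)) :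
    (US S ⊔ HS S (n + 1) ((n + 1) * c)).index ≠ 0 ∧
      (US S ⊔ HS S (n + 1) ((n + 1) * c)).index ≤ (pw (n + 1) (US S)).relIndex (US S) := by
  have hex : ∀ w : Pr K, ex w (n + 1) ≤ ex w ((n + 1) * c) := fun w => by
    have := val_mul_le w (n + 1) c
    rw [val_nat w (mul_ne_zero (Nat.add_one_ne_zero n) hc), val_nat w (Nat.add_one_ne_zero n),
      exp_le_exp] at this
    exact_mod_cast neg_le_neg_iff.1 this
  obtain ⟨hi0, hi⟩ : (HS S (n + 1) ((n + 1) * c)).index ≠ 0 ∧ (HS S (n + 1) ((n + 1) * c)).index ≤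
      (n + 1) ^ (2 * S.card + Module.finrank ℚ K) := by
    rw [HS]
    exact index_iInf hζ S (fun w => ex w ((n + 1) * c)) hex
  have hs : (pw (n + 1) (US S)).relIndex (US S) =
      (n + 1) ^ (S.card + Fintype.card (InfinitePlace K)) := pw_sunits hζ S
  have hle : pw (n + 1) (US S) ≤ HS S (n + 1) ((n + 1) * c) :=
    fun a ha => mem_HS.2 fun w _ => Subgroup.mem_sup_left (Subgroup.map_mono le_top ha)
  generalize HS S (n + 1) ((n + 1) * c) = H at *
  generalize US S = U at *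
  have hrel : H.relIndex U = (pw (n + 1) U).relIndex U := by
    rw [← Subgroup.inf_relIndex_right H U, le_antisymm hloc (le_inf hle (pw_le _ U))]
  have hcnt := Subgroup.relIndex_mul_index (le_sup_right : H ≤ U ⊔ H)
  rw [Subgroup.relIndex_sup_right, hrel, hs] at hcnt
  refine ⟨fun h0 => hi0 (by rw [← hcnt, h0, mul_zero]), ?_⟩
  have h1 : Module.finrank ℚ K = 2 * Fintype.card (InfinitePlace K) := by
    rw [IsTotallyComplex.finrank, InfinitePlace.card_eq_nrRealPlaces_add_nrComplexPlaces,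
      IsTotallyComplex.nrRealPlaces_eq_zero, zero_add]
  rw [← hcnt, h1, ← mul_add, two_mul, pow_add _ (_ + _)] at hi
  rw [hs]
  exact Nat.le_of_mul_le_mul_left hi (by positivity)

omit [IsTotallyComplex K] [CharZero E] [IsAlgClosed E] [Algebra.IsAlgebraic ℚ E] in
theorem kum_inj (hζ : IsPrimitiveRoot ζ (n + 1)) {S : Finset (Pr K)} {u v : Kˣ} (hu : u ∈ US S)
    (hv : v ∈ US S) {r s : E} (hr0 : r ≠ 0) (hs0 : s ≠ 0) (hr : r ^ (n + 1) = algebraMap K E u)
    (hs : s ^ (n + 1) = algebraMap K E v) (h : kum hζ hr0 hr = kum hζ hs0 hs) :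
    u⁻¹ * v ∈ pw (n + 1) (US S) := by
  obtain ⟨y, hy⟩ := (InfiniteGalois.mem_range_algebraMap_iff_fixed (k := K) (s / r)).2 fun g => by
    have h2 : g r / r = g s / s := congrArg (fun x : Eˣ => (x : E)) (DFunLike.congr_fun h g)
    have h3 : g r ≠ 0 := by simpa using hr0
    rw [map_div₀]
    field_simp
    field_simp at h2
    linear_combination -h2
  have hy0 : y ≠ 0 := fun h0 => by
    rw [h0, map_zero] at hy
    exact div_ne_zero hs0 hr0 hy.symm
  have h4 : Units.mk0 y hy0 ^ (n + 1) = u⁻¹ * v := Units.ext ((algebraMap K E).injective (by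
    rw [Units.val_pow_eq_pow_val, Units.val_mk0, map_pow, hy, div_pow, hr, hs, Units.val_mul,
      Units.val_inv_eq_inv_val, map_mul, map_inv₀, div_eq_inv_mul]))
  refine ⟨_, fun w hw => Place.pow_eq_one_aux n.succ_ne_zero ?_, h4⟩
  rw [← map_pow, ← Units.val_pow_eq_pow_val, h4]
  exact (mul_mem (inv_mem hu) hv : _ ∈ US S) w hw

omit [IsTotallyComplex K] [IsAlgClosed E] in
theorem kum_av (hζ : IsPrimitiveRoot ζ (n + 1)) {S : Finset (Pr K)}
    (hp : ∀ w, w ∉ S → w.valuation K ((n + 1 : ℕ) : K) = 1) {u : Kˣ} (hu : u ∈ US S) {r : E}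
    (hr0 : r ≠ 0) (hr : r ^ (n + 1) = algebraMap K E u) : ∃ F : Pr K → Eˣ, (∀ w ∈ S, F w = 1) ∧
      Av S F (kum hζ hr0 hr) ∧ ∀ w, F w ^ (n + 1) = 1 := by
  obtain ⟨F, h1, h2⟩ := exists_av S (kum hζ hr0 hr) fun P hP =>
    kum_inertia hζ hr0 hr P (hu _ hP) (hp _ hP)
  refine ⟨F, h1, h2, fun w => ?_⟩
  by_cases hw : w ∈ S
  · rw [h1 w hw, one_pow]
  · obtain ⟨P, rfl⟩ := exists_pr (E := E) w
    obtain ⟨φ, hφ⟩ := exists_isF (K := K) P
    rw [← h2 P hw φ hφ, kum_pow]

omit [IsTotallyComplex K] [CharZero E] [Algebra.IsAlgebraic ℚ E] [IsGalois K E] [NumberField K] in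
theorem exists_rt (n : ℕ) (u : Kˣ) : ∃ r : E, r ≠ 0 ∧ r ^ (n + 1) = algebraMap K E u := by
  obtain ⟨r, hr⟩ := IsAlgClosed.exists_pow_nat_eq (algebraMap K E u) n.succ_pos
  refine ⟨r, fun h0 => ?_, hr⟩
  rw [h0, zero_pow n.succ_ne_zero, eq_comm, map_eq_zero] at hr
  exact u.ne_zero hr

variable (E) in
include E in
/-- `S`-units which are local powers at `S` are powers -/
theorem loc_pow (hA : ArtStmt) (hζ : IsPrimitiveRoot ζ (n + 1)) {S : Finset (Pr K)} (hK : Kill S)
    (hp : ∀ w, w ∉ S → w.valuation K ((n + 1 : ℕ) : K) = 1) {c : ℕ} (hc : c ≠ 0) :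
    HS S (n + 1) ((n + 1) * ((n + 1) * c)) ⊓ US S ≤ pw (n + 1) (US S) := fun u hu => by
  obtain ⟨r, hr0, hr⟩ := exists_rt (E := E) n u
  obtain ⟨F, hF1, hF, -⟩ := kum_av hζ hp hu.2 hr0 hr
  have h2 : Av ∅ F (kum hζ hr0 hr) := fun P _ φ hφ => by
    by_cases hP : pr K P ∈ S
    · obtain ⟨_, ⟨b, -, rfl⟩, y, hy, hby⟩ := Subgroup.mem_sup.1 (mem_HS.1 hu.1 _ hP)
      rw [hF1 _ hP]
      refine kum_split hζ hr0 hr P b.ne_zero ?_ hφ.smul_eq
      have e : (u : K) / (b : K) ^ (n + 1) = y := by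
        rw [← hby]; simp
      rw [e]
      refine (mem_Pr_ex (by positivity) hy).trans_le ?_
      rw [← mul_assoc]
      exact val_mul_le _ _ c
    · exact hF P hP φ hφ
  have h3 : F = fun _ => 1 := eq_of_ev hK hF1 (fun _ _ => rfl)
    (MonoidHom.ext fun a => (artin_av hA (kum_opn hζ hr0 hr) n.succ_ne_zero (kum_pow hζ hr0 hr)
      (by simp) h2 a (by simp)).trans (ev_one a).symm)
  have h4 : kum hζ hr0 hr = 1 := h2.unique (η := 1) (fun P _ φ _ => by rw [h3]; rfl)
    (kum_opn hζ hr0 hr) (by simp)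
  have h6 : (1 : E) ^ (n + 1) = algebraMap K E (1 : Kˣ) := by simp
  have h5 : kum hζ one_ne_zero h6 = 1 := MonoidHom.ext fun g => Units.ext (by simp [kum_val])
  simpa using kum_inj hζ (one_mem _) hu.2 one_ne_zero hr0 h6 hr (h5.trans h4.symm)

theorem surj_aux {G E : Type*} [CommGroup G] [Field E] [CharZero E] [IsAlgClosed E]
    (N U V : Subgroup G) (h0 : N.index ≠ 0) (h : N.index ≤ V.relIndex U) (Φ : U → G →* Eˣ)
    (hΦ : ∀ u, N ≤ (Φ u).ker) (hi : ∀ u v : U, Φ u = Φ v → (u : G)⁻¹ * v ∈ V) (χ : G →* Eˣ)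
    (hχ : N ≤ χ.ker) : ∃ u, Φ u = χ := by
  have : Finite (G ⧸ N) := Nat.finite_of_card_ne_zero h0
  have : NeZero ((Monoid.exponent (G ⧸ N) : ℕ) : E) :=
    ⟨Nat.cast_ne_zero.2 Monoid.exponent_ne_zero_of_finite⟩
  have hc := CommGroup.card_monoidHom_of_hasEnoughRootsOfUnity (G ⧸ N) E
  have : Finite (G ⧸ N →* Eˣ) := Nat.finite_of_card_ne_zero (hc ▸ h0)
  have hinj : Function.Injective fun q : U ⧸ V.subgroupOf U =>
      QuotientGroup.lift N (Φ q.out) (hΦ _) := fun q q' h => by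
    rw [← q.out_eq, ← q'.out_eq]
    exact QuotientGroup.eq.2 (Subgroup.mem_subgroupOf.2 (hi _ _
      (MonoidHom.ext fun a => DFunLike.congr_fun h (QuotientGroup.mk a))))
  obtain ⟨q, hq⟩ := (hinj.bijective_of_nat_card_le (hc ▸ h)).2 (QuotientGroup.lift N χ hχ)
  exact ⟨q.out, MonoidHom.ext fun a => DFunLike.congr_fun hq (QuotientGroup.mk a)⟩

theorem base_kill (hA : ArtStmt) (hζ : IsPrimitiveRoot ζ (n + 1)) {S : Finset (Pr K)} (hK : Kill S)
    (hp : ∀ w, w ∉ S → w.valuation K ((n + 1 : ℕ) : K) = 1) {f : Pr K → Eˣ}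
    (h1 : ∀ w ∈ S, f w = 1) (hf : ∀ w, f w ^ (n + 1) = 1) (hR : Ray S f) :
    ∃ ξ : (E ≃ₐ[K] E) →* Eˣ, IsOpen (ξ.ker : Set (E ≃ₐ[K] E)) ∧ Av S f ξ := by
  obtain ⟨c, hc, hR⟩ := hR
  obtain ⟨hG0, hG⟩ := count hζ S (mul_ne_zero n.succ_ne_zero hc) (loc_pow E hA hζ hK hp hc)
  choose r hr0 hr using exists_rt (K := K) (E := E) n
  choose F hF1 hF hFp using fun u : US S => kum_av hζ hp u.2 (hr0 u) (hr u)
  have hker : ∀ {g : Pr K → Eˣ}, (∀ w ∈ S, g w = 1) → (∀ w, g w ^ (n + 1) = 1) →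
      (∀ a : Kˣ, (∀ w ∈ S, w.valuation K ((a : K) - 1) <
        w.valuation K (((n + 1) * ((n + 1) * c) : ℕ) : K)) → ev g a = 1) →
      US S ⊔ HS S (n + 1) ((n + 1) * ((n + 1) * c)) ≤ (ev g).ker := fun g1 gp gr =>
    sup_le (ev_sunit g1) fun b hb =>
      ev_kill gp (m := fun w => ex w ((n + 1) * ((n + 1) * c))) (fun a ha =>
        gr a fun w hw => mem_Pr_ex (by positivity) (ha w hw)) b (mem_HS.1 hb)
  obtain ⟨u, hu⟩ := surj_aux _ _ _ hG0 hG (fun u => ev (F u))
    (fun u => hker (hF1 u) (hFp u) fun a ha => artin_av hA (kum_opn hζ (hr0 u) (hr u))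
      n.succ_ne_zero (kum_pow hζ (hr0 u) (hr u)) (hF1 u) (hF u) a fun w hw => (ha w hw).trans_le (by
        rw [← mul_assoc, ← map_pow, ← Nat.cast_pow, sq]; exact val_mul_le w _ c))
    (fun u v h => kum_inj hζ u.2 v.2 (hr0 u) (hr0 v) (hr u) (hr v)
      ((hF u).unique (by rw [eq_of_ev hK (hF1 u) (hF1 v) h]; exact hF v)
        (kum_opn hζ (hr0 u) (hr u)) (kum_opn hζ (hr0 v) (hr v))))
    (ev f) (hker h1 hf fun a ha => hR a fun w hw => (ha w hw).trans_le (by
      rw [← mul_assoc, mul_comm]; exact val_mul_le w _ _))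
  exact ⟨_, kum_opn hζ (hr0 u) (hr u), by rw [← eq_of_ev hK (hF1 u) h1 hu]; exact hF u⟩

/-- the existence theorem in the Kummer case -/
theorem base (hA : ArtStmt) (hζ : IsPrimitiveRoot ζ (n + 1)) {T : Finset (Pr K)}
    (hp : ∀ w, w ∉ T → w.valuation K ((n + 1 : ℕ) : K) = 1) {f : Pr K → Eˣ}
    (hf : ∀ w, f w ^ (n + 1) = 1) (hR : Ray T f) :
    ∃ ξ : (E ≃ₐ[K] E) →* Eˣ, IsOpen (ξ.ker : Set (E ≃ₐ[K] E)) ∧ Av T f ξ := by
  classical
  have key : ∀ S : Finset (Pr K), Kill S → ∃ ξ : (E ≃ₐ[K] E) →* Eˣ,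
      IsOpen (ξ.ker : Set (E ≃ₐ[K] E)) ∧ Av (T ∪ S) f ξ := fun S hS => by
    obtain ⟨c, hc, hR⟩ := hR
    obtain ⟨ξ, h2, h3⟩ := base_kill (E := E) hA hζ (hS.mono Finset.subset_union_right)
      (fun w hw => hp w fun h => hw (Finset.mem_union_left _ h))
      (f := fun w => if w ∈ T ∪ S then 1 else f w) (fun w hw => if_pos hw)
      (fun w => by split_ifs; exacts [one_pow _, hf w]) ⟨c, hc, fun a ha => by
        rw [← hR a fun w hw => ha w (Finset.mem_union_left _ hw)]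
        refine ev_congr fun w hw => if_neg fun h => hw ?_
        rw [ord_eq_zero_iff]
        exact T24.Hn.Loc.val_eq_one_of_lt w ((ha w h).trans_le (val_nat_le w c))⟩
    exact ⟨ξ, h2, h3.mono le_rfl fun w hw => if_neg hw⟩
  obtain ⟨S, hS⟩ := T24.Hn.exists_kill K
  obtain ⟨ξ, h2, h3⟩ := key S hS
  refine ⟨ξ, h2, fun P hP φ hφ => ?_⟩
  obtain ⟨S', hS', hw⟩ := kill_avoid (pr K P)
  obtain ⟨η, h4, h5⟩ := key S' hS'
  rw [(h3.mono (S := T ∪ S ∪ (T ∪ S')) Finset.subset_union_left fun _ _ => rfl).unique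
    (h5.mono Finset.subset_union_right fun _ _ => rfl) h2 h4]
  exact h5 P (by simp [hP, hw]) φ hφ

end Base

end Crest.Agent.T15.Ex
end
end

-- ▼ part T15/TameA_25
section

/-!
# Row 15, block C (helper25): the tame reciprocity law over a field with enough roots of unity
-/

set_option autoImplicit false

noncomputable section

open NumberField IsDedekindDomain WithZero
open scoped Pointwise

namespace Crest.Agent.T15.Tame

open Crest.Agent.T15.Art Crest.Agent.T15.Ex Crest.Agent.R018.Placesx484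
  Crest.Agent.R018.Selmerx380

section basic

variable {F E : Type*} [Field F] [NumberField F] [Field E] [CharZero E] [Algebra.IsAlgebraic ℚ E]
  [Algebra F E] [IsGalois F E]

theorem isF_val {P : Place E} {φ : E ≃ₐ[F] E} (h : IsF P φ) {x : E} (hx : P.v x ≤ 1) :
    P.v (φ x - x ^ P.qv F) < 1 := by
  obtain ⟨a, s, hs, e⟩ := (P.v_le_one_iff x).1 hx
  have h1 : P.v (algebraMap (𝓞 E) E s) = 1 :=
    le_antisymm (P.v_int_le_one s) (not_lt.1 fun h => hs ((P.v_int_lt_one_iff s).1 h))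
  have h2 : P.v (φ (algebraMap (𝓞 E) E s)) = 1 := (Place.v_smul_eq φ P h.smul_eq _).trans h1
  have ha := (P.v_int_lt_one_iff _).2 (h a)
  have hs' := (P.v_int_lt_one_iff _).2 (h s)
  rw [map_sub, Place.smul_coe, map_pow, AlgEquiv.smul_def] at ha hs'
  have e2 : (φ x - x ^ P.qv F) * φ (algebraMap (𝓞 E) E s) =
      (φ (algebraMap (𝓞 E) E a) - algebraMap (𝓞 E) E a ^ P.qv F) -
        x ^ P.qv F * (φ (algebraMap (𝓞 E) E s) - algebraMap (𝓞 E) E s ^ P.qv F) := by
    rw [← e, map_mul, mul_pow]; ring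
  have h3 := congrArg P.v e2
  rw [map_mul, h2, mul_one] at h3
  rw [h3]
  refine P.v.map_sub_lt ha ?_
  rw [map_mul, map_pow]
  exact (mul_le_of_le_one_left' (pow_le_one' hx _)).trans_lt hs'

theorem isF_unit {P : Place E} {φ : E ≃ₐ[F] E} (h : IsF P φ) {x : E} (hx : P.v x = 1) :
    P.v (φ x / x - x ^ (P.qv F - 1)) < 1 := by
  have hx0 : x ≠ 0 := by rintro rfl; simp at hx
  have e : φ x / x - x ^ (P.qv F - 1) = (φ x - x ^ P.qv F) / x := by
    rw [← pow_sub_one_mul (Place.one_lt_qv (F := F) P).ne_bot x]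
    field_simp
  rw [e, map_div₀, hx, div_one]
  exact isF_val h hx.le

omit [Algebra.IsAlgebraic ℚ E] [CharZero E] in
theorem v_pow_sub {Γ : Type*} [LinearOrderedCommGroupWithZero Γ] (v : Valuation E Γ) {x y : E}
    (hx : v x ≤ 1) (hy : v y ≤ 1) (h : v (x - y) < 1) (k : ℕ) : v (x ^ k - y ^ k) < 1 := by
  induction k with
  | zero => simp
  | succ k ih =>
    have e : x ^ (k + 1) - y ^ (k + 1) = x * (x ^ k - y ^ k) + (x - y) * y ^ k := by ring
    rw [e]
    refine v.map_add_lt ?_ ?_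
    · rw [map_mul]; exact (mul_le_of_le_one_left' hx).trans_lt ih
    · rw [map_mul, map_pow]; exact (mul_le_of_le_one_right' (pow_le_one' hy _)).trans_lt h

omit [IsGalois F E] in
theorem val_nat_iff (P : Place E) (m : ℕ) :
    (pr F P).valuation F (m : F) = 1 ↔ ¬ P.rchar ∣ m := by
  rw [← P.v_natCast_eq_one_iff, ← map_natCast (algebraMap F E)]
  exact (v_equiv (K := F) P).eq_one_iff_eq_one.symm

variable {n : ℕ} {ζ : F}

theorem dvd_qv (hζ : IsPrimitiveRoot ζ (n + 1)) {P : Place E} (hP : ¬ P.rchar ∣ n + 1) :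
    n + 1 ∣ P.qv F - 1 := by
  obtain ⟨φ, hφ⟩ := exists_isF (K := F) P
  have hζ' := hζ.map_of_injective (algebraMap F E).injective
  have h := Place.frob_root P hφ hP hζ'.pow_eq_one
  rw [AlgEquiv.smul_def, AlgEquiv.commutes,
    ← pow_sub_one_mul (Place.one_lt_qv (F := F) P).ne_bot] at h
  exact hζ'.dvd_of_pow_eq_one _ (mul_eq_right₀ (hζ'.ne_zero n.succ_ne_zero) |>.1 h.symm)

theorem ord_of_big (w : Pr F) {b : Fˣ} {x : Fˣ} (hb : (b : F) = 1 - x)
    (h : 1 < w.valuation F (x : F)) : ord (𝓞 F) w b = ord (𝓞 F) w x := by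
  have : w.valuation F (b : F) = w.valuation F (x : F) := by
    rw [hb, Valuation.map_sub_eq_of_lt_right _ (by rwa [map_one])]
  rwa [valuation_eq_exp, valuation_eq_exp, exp_inj, neg_inj] at this

/-- the Steinberg relation -/
theorem stein (hζ : IsPrimitiveRoot ζ (n + 1)) {a : Fˣ} {r : E} (hr0 : r ≠ 0)
    (hr : r ^ (n + 1) = algebraMap F E a) {T : Finset (Pr F)} {f : Pr F → Eˣ}
    (h1 : ∀ w ∈ T, f w = 1) (hav : Av T f (kum hζ hr0 hr))
    (hp : ∀ w, w ∉ T → w.valuation F ((n + 1 : ℕ) : F) = 1)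
    (ha : ∀ w, w ∉ T → w.valuation F (a : F) = 1) {b c : Fˣ}
    (hb : (b : F) = 1 - (c ^ (n + 1) * a : Fˣ)) : ev f b = 1 := by
  refine finprod_eq_one_of_forall_eq_one fun w => ?_
  by_cases hw : w ∈ T
  · rw [h1 w hw, one_zpow]
  obtain ⟨P, rfl⟩ := exists_pr (E := E) w
  obtain ⟨φ, hφ⟩ := exists_isF (K := F) P
  rw [← hav P hw φ hφ]
  rcases lt_trichotomy ((pr F P).valuation F ((c ^ (n + 1) * a : Fˣ) : F)) 1 with h | h | h
  · rw [(ord_eq_zero_iff _ _).2 (by rw [hb, Valuation.map_one_sub_of_lt _ h]), zpow_zero]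
  · by_cases h2 : (pr F P).valuation F (b : F) = 1
    · rw [(ord_eq_zero_iff _ _).2 h2, zpow_zero]
    have h3 : (pr F P).valuation F (b : F) < 1 :=
      lt_of_le_of_ne (by rw [hb]; exact Valuation.map_sub_le _ (by simp) h.le) h2
    have hP := (val_nat_iff P _).1 (hp _ hw)
    have hx : (algebraMap F E c * r) ^ (n + 1) = algebraMap F E ((c ^ (n + 1) * a : Fˣ) : F) := by
      rw [mul_pow, hr]; simp
    have hx1 : P.v (algebraMap F E c * r) = 1 :=
      Place.pow_eq_one_aux n.succ_ne_zero (by rw [← map_pow, hx, v_eq_one P h])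
    have h4 : P.v ((algebraMap F E c * r) ^ (n + 1) - 1) < 1 := by
      have := (v_lt_iff P (b : F) 1).2 (by rwa [map_one])
      rwa [map_one, map_one, hb, map_sub, map_one, ← hx, Valuation.map_sub_swap] at this
    obtain ⟨k, hk⟩ := dvd_qv (F := F) hζ hP
    have h5 := v_pow_sub P.v (by rw [map_pow, hx1, one_pow]) (by simp) h4 k
    have h6 := isF_unit hφ hx1
    rw [map_mul, AlgEquiv.commutes, mul_div_mul_left _ _ (by simp), hk, pow_mul] at h6
    have h7 := P.v.map_add_lt h6 h5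
    rw [sub_add_sub_cancel, one_pow] at h7
    have h8 : kum hζ hr0 hr φ = 1 :=
      Units.ext (P.root_eq_of_sub hP (quot_pow hr0 hr φ) (one_pow _) h7)
    rw [h8, one_zpow]
  · rw [ord_of_big _ hb h, ord_mul, ord_pow, (ord_eq_zero_iff _ _).2 (ha _ hw), add_zero, zpow_mul,
      zpow_natCast, kum_pow, one_zpow]

omit [IsGalois F E] in
theorem ev_update {A : Type*} [CommGroup A] [DecidableEq (Pr F)] (f : Pr F → A) (w : Pr F)
    (b : Fˣ) : ev f b = ev (Function.update f w 1) b * f w ^ ord (𝓞 F) w b := by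
  have h : ev (fun v => if v = w then f w else 1) b = f w ^ ord (𝓞 F) w b := by
    rw [ev_apply, finprod_eq_single _ w fun v hv => by simp [hv]]
    simp
  rw [← h, ← ev_mul]
  congr 2
  funext v
  by_cases hv : v = w
  · simp [hv]
  · simp [hv]

omit [NumberField F] [CharZero E] [Algebra.IsAlgebraic ℚ E] in
theorem inertia_le_of {A : Type*} [CommGroup A] {ξ : (E ≃ₐ[F] E) →* A} {P Q : Place E}
    (h : P.ideal.inertia (E ≃ₐ[F] E) ≤ ξ.ker) (hQ : pr F Q = pr F P) :
    Q.ideal.inertia (E ≃ₐ[F] E) ≤ ξ.ker := fun t ht => by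
  obtain ⟨g, rfl⟩ := Place.exists_smul_eq_of_res_eq (M := F) _ _ (pr_eq_iff.1 hQ.symm)
  have h1 : g⁻¹ * t * g ∈ P.ideal.inertia (E ≃ₐ[F] E) := fun x => by
    have := (Place.mem_smul_ideal g P _).1 (ht (g • x))
    rw [smul_sub, inv_smul_smul, ← mul_smul, ← mul_smul] at this
    exact this
  have h2 := h h1
  rwa [MonoidHom.mem_ker, map_mul, map_mul, map_inv, inv_mul_cancel_comm] at h2

end basic

section main

variable {F E : Type} [Field F] [NumberField F] [IsTotallyComplex F] [Field E] [CharZero E]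
  [Algebra.IsAlgebraic ℚ E] [Algebra F E] [IsGalois F E] {n : ℕ} {ζ : F}

omit [IsTotallyComplex F] in
theorem exists_aux (S : Finset (Pr F)) (w : Pr F) (hw : w ∉ S) {π : Fˣ} (hπ : ord (𝓞 F) w π = 1)
    (u : Fˣ) (n : ℕ) {M : F} (hM : M ≠ 0) : ∃ c : Fˣ, ord (𝓞 F) w c = -2 ∧ ∀ v ∈ S,
      v.valuation F ((c ^ (n + 1) * π : Fˣ) : F) < v.valuation F M ∧
      v.valuation F ((c ^ (n + 1) * (π * u) : Fˣ) : F) < v.valuation F M := by
  classical
  have h0 : ∀ v : Pr F, min (v.valuation F (M / π)) (v.valuation F (M / (π * u : Fˣ))) ≠ 0 :=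
    fun v => by simp [hM]
  choose m hm using fun v => T24.Asa.exists_exp_le (h0 v)
  obtain ⟨x, hx, -⟩ := T24.Asa.approx_fin (insert w S)
    (fun v => if v = w then ((π ^ 2)⁻¹ : Fˣ) else 0) (S.sup m + 1)
  have h1 : w.valuation F x = exp (2 : ℤ) := by
    have h := hx w (Finset.mem_insert_self _ _)
    rw [if_pos rfl] at h
    have h2 : w.valuation F (((π ^ 2)⁻¹ : Fˣ) : F) = exp (2 : ℤ) := by
      rw [valuation_eq_exp, ord_inv, ord_pow, hπ]; rfl
    rw [← h2]
    refine Valuation.map_eq_of_sub_lt _ (h.trans_lt ?_)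
    rw [h2, exp_lt_exp]
    omega
  have hx0 : x ≠ 0 := by rintro rfl; simp at h1; exact exp_ne_zero h1.symm
  refine ⟨Units.mk0 x hx0, ?_, fun v hv => ?_⟩
  · have := valuation_eq_exp (R := 𝓞 F) w (Units.mk0 x hx0)
    rw [Units.val_mk0, h1, exp_inj] at this
    omega
  · have h := hx v (Finset.mem_insert_of_mem hv)
    rw [if_neg (ne_of_mem_of_not_mem hv hw), sub_zero] at h
    have hle := Finset.le_sup (f := m) hv
    have h2 : v.valuation F x ^ (n + 1) < exp (-(m v : ℤ)) := by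
      refine (pow_le_of_le_one zero_le (h.trans (T24.Asa.exp_neg_le_one _)) n.succ_ne_zero).trans_lt
        (h.trans_lt ?_)
      rw [exp_lt_exp]
      omega
    have key : ∀ a : Fˣ, exp (-(m v : ℤ)) ≤ v.valuation F (M / a) →
        v.valuation F ((Units.mk0 x hx0 ^ (n + 1) * a : Fˣ) : F) < v.valuation F M := fun a ha => by
      have h3 := h2.trans_le ha
      rw [map_div₀, lt_div_iff₀ (zero_lt_iff.2 (by simp))] at h3
      simpa using h3
    exact ⟨key _ ((hm v).trans (min_le_left _ _)), key _ ((hm v).trans (min_le_right _ _))⟩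

theorem tame_kum (hA : ArtStmt) (hζ : IsPrimitiveRoot ζ (n + 1)) {ψ : (E ≃ₐ[F] E) →* Eˣ}
    (ho : IsOpen (ψ.ker : Set (E ≃ₐ[F] E))) {N : ℕ} (hN : N ≠ 0) (hψ : ∀ g, ψ g ^ N = 1)
    {T : Finset (Pr F)} {f : Pr F → Eˣ} (h1 : ∀ w ∈ T, f w = 1) (hav : Av T f ψ) {P : Place E}
    (hPN : ¬ P.rchar ∣ N) (hPn : ¬ P.rchar ∣ n + 1) {π : Fˣ}
    (hπ : ord (𝓞 F) (pr F P) π = 1) {y : E} (hy0 : y ≠ 0) (hy : y ^ (n + 1) = algebraMap F E π)
    {m : ℕ} (hm : ∀ t ∈ P.ideal.inertia (E ≃ₐ[F] E), ψ t * kum hζ hy0 hy t ^ m = 1) {u : Fˣ}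
    (hu : (pr F P).valuation F (u : F) = 1)
    (hu' : ∀ w ∈ T, w ≠ pr F P → w.valuation F ((u : F) - 1) < w.valuation F (N : F) ^ 2)
    {x : E} (hx0 : x ≠ 0) (hx : x ^ (n + 1) = algebraMap F E u) {φ : E ≃ₐ[F] E} (hφ : IsF P φ) :
    ev f u * kum hζ hx0 hx φ ^ m = 1 := by
  classical
  set w₀ := pr F P with hw₀
  have hn0 : ((n + 1 : ℕ) : F) ≠ 0 := by exact_mod_cast n.succ_ne_zero
  obtain ⟨S, hS⟩ := exists_supp π
  obtain ⟨S', hS'⟩ := exists_supp u
  obtain ⟨S'', hS''⟩ := exists_supp (Units.mk0 _ hn0)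
  set R := (T ∪ S ∪ S' ∪ S'').erase w₀ with hR
  have hw0 : w₀ ∉ R := Finset.notMem_erase _ _
  have hmem : ∀ w, w ∉ R → w ≠ w₀ → w ∉ T ∧ w.valuation F (π : F) = 1 ∧ w.valuation F (u : F) = 1 ∧
      w.valuation F ((n + 1 : ℕ) : F) = 1 := fun w hw hne => by
    simp only [hR, Finset.mem_erase, Finset.mem_union, not_and, not_or] at hw
    obtain ⟨⟨⟨a, b⟩, c⟩, d⟩ := hw hne
    exact ⟨a, (ord_eq_zero_iff _ _).1 (by_contra fun h => b (hS w h)),
      (ord_eq_zero_iff _ _).1 (by_contra fun h => c (hS' w h)),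
      (ord_eq_zero_iff w (Units.mk0 _ hn0)).1 (by_contra fun h => d (hS'' w h))⟩
  have hmem' : ∀ w, w ∉ insert w₀ R → w ∉ R ∧ w ≠ w₀ := fun w hw =>
    ⟨fun h => hw (Finset.mem_insert_of_mem h), fun h => hw (h ▸ Finset.mem_insert_self _ _)⟩
  have hpR : ∀ w, w ∉ R → w.valuation F ((n + 1 : ℕ) : F) = 1 := fun w hw => by
    by_cases h : w = w₀
    · rw [h]; exact (val_nat_iff P _).2 hPn
    · exact (hmem w hw h).2.2.2
  have huR : ∀ w, w ∉ R → w.valuation F (u : F) = 1 := fun w hw => by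
    by_cases h : w = w₀
    · rw [h]; exact hu
    · exact (hmem w hw h).2.2.1
  have hπR : ∀ w, w ∉ insert w₀ R → w.valuation F (π : F) = 1 := fun w hw =>
    (hmem w (hmem' w hw).1 (hmem' w hw).2).2.1
  have hM0 : N * (n + 1) ≠ 0 := mul_ne_zero hN n.succ_ne_zero
  obtain ⟨c, hc, hcR⟩ := exists_aux R w₀ hw0 hπ u n (M := ((N * (n + 1) : ℕ) : F) ^ 2)
    (pow_ne_zero _ (by exact_mod_cast hM0))
  simp only [map_pow] at hcR
  have hM1 : ∀ w : Pr F, w.valuation F ((N * (n + 1) : ℕ) : F) ^ 2 ≤ 1 := fun w =>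
    pow_le_one' (val_nat_le w _) _
  have o0 : ord (𝓞 F) w₀ (c ^ (n + 1) * π) = 1 + (n + 1 : ℕ) * (-2) := by
    rw [ord_mul, ord_pow, hc, hπ, add_comm]
  have o1 : ord (𝓞 F) w₀ (c ^ (n + 1) * (π * u)) = 1 + (n + 1 : ℕ) * (-2) := by
    rw [← mul_assoc, ord_mul, o0, (ord_eq_zero_iff _ _).2 hu, add_zero]
  have big : ∀ a : Fˣ, ord (𝓞 F) w₀ a = 1 + (n + 1 : ℕ) * (-2) → 1 < w₀.valuation F (a : F) :=
    fun a ha => by
      rw [valuation_eq_exp, ha, ← exp_zero, exp_lt_exp]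
      push_cast
      omega
  have hb : ∀ a : Fˣ, 1 < w₀.valuation F (a : F) → ∃ b : Fˣ, (b : F) = 1 - a := fun a ha =>
    ⟨Units.mk0 (1 - a) fun h => by rw [← sub_eq_zero.1 h, map_one] at ha; exact ha.false, rfl⟩
  obtain ⟨b₀, hb₀⟩ := hb _ (big _ o0)
  obtain ⟨b₁, hb₁⟩ := hb _ (big _ o1)
  have v0 : ∀ w ∈ R, w.valuation F (b₀ : F) = 1 := fun w hw => by
    rw [hb₀, Valuation.map_one_sub_of_lt _ ((hcR w hw).1.trans_le (hM1 w))]
  have d1 : ∀ w ∈ R, w.valuation F ((b₁ : F) - 1) < w.valuation F ((N * (n + 1) : ℕ) : F) ^ 2 :=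
    fun w hw => by rw [hb₁, sub_sub_cancel_left, Valuation.map_neg]; exact (hcR w hw).2
  have d2 : ∀ w ∈ R, w.valuation F (((b₁ / b₀ : Fˣ) : F) - 1) <
      w.valuation F ((N * (n + 1) : ℕ) : F) ^ 2 := fun w hw => by
    rw [Units.val_div_eq_div_val, div_sub_one b₀.ne_zero, map_div₀, v0 w hw, div_one, hb₀, hb₁,
      sub_sub_sub_cancel_left]
    exact Valuation.map_sub_lt _ (hcR w hw).1 (hcR w hw).2
  have d3 : ∀ w ∈ insert w₀ R, ord (𝓞 F) w (b₁ / b₀) = 0 := fun w hw => by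
    rcases Finset.mem_insert.1 hw with rfl | hw
    · rw [ord_div, ord_of_big _ hb₀ (big _ o0), ord_of_big _ hb₁ (big _ o1), o0, o1, sub_self]
    · refine (ord_eq_zero_iff _ _).2 ?_
      simpa using Valuation.map_one_add_of_lt _ ((d2 w hw).trans_le (hM1 w))
  obtain ⟨fπ, hπ1, hπa, hπp⟩ := kum_av hζ (S := insert w₀ R) (fun w hw => hpR w (hmem' w hw).1)
    hπR hy0 hy
  obtain ⟨fu, hu1, hua, hup⟩ := kum_av hζ hpR huR hx0 hx
  have hyx : (y * x) ^ (n + 1) = algebraMap F E (π * u : Fˣ) := by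
    rw [mul_pow, hx, hy, Units.val_mul, map_mul]
  have s0 := stein hζ hy0 hy hπ1 hπa (fun w hw => hpR w (hmem' w hw).1) hπR hb₀
  have s1 := stein hζ (mul_ne_zero hy0 hx0) hyx (T := insert w₀ R)
    (f := fun w => fπ w * Function.update fu w₀ 1 w) (fun w hw => by
      rw [hπ1 w hw, one_mul]
      by_cases h : w = w₀
      · simp [h]
      · rw [Function.update_of_ne h, hu1 w ((Finset.mem_insert.1 hw).resolve_left h)])
    (fun Q hQ s hs => by
      beta_reduce
      rw [Function.update_of_ne (hmem' _ hQ).2, ← hπa Q hQ s hs, ← hua Q (hmem' _ hQ).1 s hs]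
      ext
      change s (y * x) / (y * x) = s y / y * (s x / x)
      rw [map_mul, mul_div_mul_comm])
    (fun w hw => hpR w (hmem' w hw).1)
    (fun w hw => by rw [Units.val_mul, map_mul, hπR w hw, huR w (hmem' w hw).1, one_mul]) hb₁
  have s2 := artin_av hA (kum_opn hζ hx0 hx) n.succ_ne_zero (kum_pow hζ hx0 hx) hu1 hua b₁
    fun w hw => (d1 w hw).trans_le (pow_le_pow_left' (mul_comm N _ ▸ val_mul_le w _ N) _)
  rw [ev_update fu w₀, ord_of_big _ hb₁ (big _ o1), o1, zpow_add, zpow_one, zpow_mul, zpow_natCast,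
    hup, one_zpow, mul_one, ← hua P hw0 φ hφ] at s2
  have s3 : ev fπ (b₁ / b₀) = kum hζ hx0 hx φ := by
    rw [ev_mul] at s1
    rw [map_div, s0, div_one, eq_inv_of_mul_eq_one_left s1, eq_inv_of_mul_eq_one_right s2]
  obtain ⟨f', hf1, hf'⟩ := exists_av R (ψ * kum hζ hy0 hy ^ m) fun Q hQ => by
    by_cases h : pr F Q = w₀
    · exact inertia_le_of (fun t ht => hm t ht) h
    · intro t ht
      rw [MonoidHom.mem_ker, MonoidHom.mul_apply, MonoidHom.pow_apply,
        hav.inertia_le (hmem _ hQ h).1 ht, hπa.inertia_le (by simp [hQ, h]) ht, one_pow, one_mul]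
  have s4 := artin_av hA (opn_mul ho (Subgroup.isOpen_mono (fun g hg => by
      rw [MonoidHom.mem_ker, MonoidHom.pow_apply, hg, one_pow]) (kum_opn hζ hy0 hy))) hM0
    (fun g => by
      rw [MonoidHom.mul_apply, MonoidHom.pow_apply, mul_pow, pow_mul, hψ, one_pow, one_mul,
        ← pow_mul, ← mul_assoc, mul_comm, pow_mul, kum_pow, one_pow]) hf1 hf' _ d2
  have s5 : ev f' (b₁ / b₀) = ev f (b₁ / b₀) * ev fπ (b₁ / b₀) ^ m := by
    rw [← powMonoidHom_apply, map_ev, ← ev_mul]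
    refine ev_congr fun w hw => ?_
    have hw' : w ∉ insert w₀ R := fun h => hw (d3 w h)
    obtain ⟨Q, rfl⟩ := exists_pr (E := E) w
    obtain ⟨s, hs⟩ := exists_isF (K := F) Q
    rw [← hf' Q (hmem' _ hw').1 s hs, ← hπa Q hw' s hs,
      ← hav Q (hmem _ (hmem' _ hw').1 (hmem' _ hw').2).1 s hs]
    rfl
  have s6 := artin_av hA ho hN hψ h1 hav (b₁ / b₀ / u) fun w hw => by
    by_cases h : w = w₀
    · subst h
      have e : ((b₁ / b₀ / u : Fˣ) : F) - 1 = (1 - u) / (b₀ * u) := by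
        rw [Units.val_div_eq_div_val, Units.val_div_eq_div_val, div_div,
          div_sub_one (mul_ne_zero b₀.ne_zero u.ne_zero), hb₀, hb₁]
        congr 1
        push_cast
        ring
      rw [e, (val_nat_iff P _).2 hPN, one_pow, map_div₀, map_mul, hu, mul_one,
        div_lt_one₀ (zero_lt_iff.2 (by simp))]
      refine (Valuation.map_sub_le _ (by simp) hu.le).trans_lt (big _ ?_)
      rw [ord_of_big _ hb₀ (big _ o0), o0]
    · have h2 := hu' w hw h
      have h3 : w.valuation F (u : F) = 1 := by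
        simpa using Valuation.map_one_add_of_lt _ (h2.trans_le (pow_le_one' (val_nat_le w _) _))
      rw [Units.val_div_eq_div_val, div_sub_one u.ne_zero, map_div₀, h3, div_one,
        ← sub_sub_sub_cancel_right _ _ 1]
      exact Valuation.map_sub_lt _ ((d2 w (by simp [hR, hw, h])).trans_le
        (pow_le_pow_left' (val_mul_le w N _) _)) h2
  rw [map_div, div_eq_one] at s6
  rw [← s6, ← s3, ← s5, s4]

end main

end Crest.Agent.T15.Tame
end
end

-- ▼ part T15/Tame_25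
section

/-!
# Row 15, block C (helper25): the leaf `TameStmt`
-/

set_option autoImplicit false

noncomputable section

open NumberField IsDedekindDomain WithZero
open scoped Pointwise

namespace Crest.Agent.T15.Tame

open Crest.Agent.T15.Art Crest.Agent.T15.Ex Crest.Agent.R018.Placesx484
  Crest.Agent.R018.Selmerx380 Crest.Agent.R018.Tamex31 Crest.Agent.R018.SLatx824

section basic

variable {F E : Type*} [Field F] [Field E] [Algebra F E]

theorem openKer_of {A : Type*} [Group A] {ψ : (E ≃ₐ[F] E) →* A}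
    (ho : IsOpen (ψ.ker : Set (E ≃ₐ[F] E))) (V : Subgroup (E ≃ₐ[F] E)) :
    OpenKer (ψ.comp V.subtype) := by
  obtain ⟨L, hL, h⟩ := (krullTopology_mem_nhds_one_iff F E _).1 (ho.mem_nhds ψ.ker.one_mem)
  exact ⟨L, hL, fun u hu => h fun x => hu x x.2⟩

theorem isOpen_comap (L : Type*) [Field L] [Algebra F L] [Algebra L E] [IsScalarTower F L E]
    [Algebra.IsIntegral L E] {U : Subgroup (E ≃ₐ[F] E)} (hU : IsOpen (U : Set (E ≃ₐ[F] E))) :
    IsOpen ((U.comap (AlgEquiv.restrictScalarsHom F) : Subgroup (E ≃ₐ[L] E)) : Set (E ≃ₐ[L] E)) := by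
  obtain ⟨M, hM, h⟩ := (krullTopology_mem_nhds_one_iff F E _).1 (hU.mem_nhds U.one_mem)
  let b := Module.finBasis F M
  refine Subgroup.isOpen_mono (H₁ := ⨅ i, MulAction.stabilizer (E ≃ₐ[L] E) (b i : E))
    (fun g hg => h fun x => ?_) ?_
  · have : (g.restrictScalars F).toLinearMap.comp M.val.toLinearMap = M.val.toLinearMap :=
      b.ext fun i => Subgroup.mem_iInf.1 hg i
    exact LinearMap.congr_fun this x
  · rw [Subgroup.coe_iInf]
    exact isOpen_iInter_of_finite fun i => stabilizer_isOpen_of_isIntegral _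

variable [NumberField F] [CharZero E] [Algebra.IsAlgebraic ℚ E] [IsGalois F E]

omit [NumberField F] [IsGalois F E] in
theorem inertia_unit {P : Place E} {t : E ≃ₐ[F] E} (ht : t ∈ P.ideal.inertia (E ≃ₐ[F] E)) {e : E}
    (he : P.v e = 1) : P.v (t e / e - 1) < 1 := by
  have h0 : e ≠ 0 := by rintro rfl; simp at he
  rw [div_sub_one h0, map_div₀, he, div_one]
  exact P.v_smul_sub_lt_one ht e he.le

/-- a character of `G_F` of order prime to the residue characteristic is killed by `q - 1` on the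
inertia group -/
theorem pow_qv {ψ : (E ≃ₐ[F] E) →* Eˣ} (ho : IsOpen (ψ.ker : Set (E ≃ₐ[F] E))) {N : ℕ}
    (hψ : ∀ g, ψ g ^ N = 1) {P : Place E} (hPN : ¬ P.rchar ∣ N) {t : E ≃ₐ[F] E}
    (ht : t ∈ P.ideal.inertia (E ≃ₐ[F] E)) : ψ t ^ (P.qv F - 1) = 1 := by
  have hψ' : ∀ g, (ψ g : E) ^ N = 1 := fun g => by
    rw [← Units.val_pow_eq_pow_val, hψ, Units.val_one]
  obtain ⟨x, hx0, hx⟩ := exists_resolvent _ (openKer_of ho (P.ideal.inertia (E ≃ₐ[F] E)))
    fun a b => P.inertia_root a.2 hPN (hψ' _)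
  obtain ⟨φ, hφ⟩ := exists_isF (K := F) P
  have h1 := hx ⟨_, C.conj_inertia ((MulAction.stabilizer _ P).inv_mem hφ.smul_eq) ht⟩
  have h2 : φ (ψ t) = ψ t ^ P.qv F := P.frob_root hφ hPN (hψ' t)
  have h3 : t (φ x) = ψ t ^ P.qv F * φ x := by
    have := congrArg φ h1
    simp only [inv_inv, MonoidHom.comp_apply, Subgroup.subtype_apply, map_mul, map_inv,
      inv_mul_cancel_comm, AlgEquiv.mul_apply, h2] at this
    rw [← this, ← AlgEquiv.mul_apply φ, mul_inv_cancel, AlgEquiv.one_apply]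
  have h4 : t x = ψ t * x := hx ⟨t, ht⟩
  have h5 := inertia_unit ht (e := φ x / x) (by
    rw [map_div₀, show P.v (φ x) = P.v x from P.v_smul_eq φ hφ.smul_eq x,
      div_self ((map_ne_zero _).2 hx0)])
  have e : t (φ x / x) / (φ x / x) = ψ t ^ (P.qv F - 1) := by
    have : φ x ≠ 0 := by simpa using hx0
    rw [map_div₀, h3, h4, ← pow_sub_one_mul (Place.one_lt_qv (F := F) P).ne_bot (ψ t : E)]
    field_simp
  rw [e] at h5
  exact Units.ext (P.root_eq_of_sub hPN (by
    rw [Units.val_pow_eq_pow_val, ← pow_mul, mul_comm, pow_mul, hψ', one_pow]) (one_pow _) h5)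

theorem exists_exp {n : ℕ} {ζ : F} (hζ : IsPrimitiveRoot ζ (n + 1)) {ψ : (E ≃ₐ[F] E) →* Eˣ}
    (ho : IsOpen (ψ.ker : Set (E ≃ₐ[F] E))) {P : Place E} (hPn : ¬ P.rchar ∣ n + 1)
    (hψ : ∀ t ∈ P.ideal.inertia (E ≃ₐ[F] E), ψ t ^ (n + 1) = 1) {π : Fˣ}
    (hπ : ord (𝓞 F) (pr F P) π = 1) {y : E} (hy0 : y ≠ 0) (hy : y ^ (n + 1) = algebraMap F E π) :
    ∃ m : ℕ, ∀ t ∈ P.ideal.inertia (E ≃ₐ[F] E), ψ t * kum hζ hy0 hy t ^ m = 1 := by
  obtain ⟨a, b, hab, h⟩ := char_dependent (rankOne P) (V := P.ideal.inertia (E ≃ₐ[F] E))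
    (fun g hg => (mem_inS_val P g).2 hg) (val_natCast_eq_one P hPn) (openKer_of ho _)
    (openKer_of (kum_opn hζ hy0 hy) _) (fun t => hψ t t.2) fun t => kum_pow hζ hy0 hy t
  have hζ' := hζ.map_of_injective (algebraMap F E).injective
  obtain ⟨τ, hτ, hτy⟩ := exists_inertia_root P (n + 1) hPn _ y hζ' π
    (by rw [show ord (𝓞 F) (hos (P.res F)) π = 1 from hπ]; exact isCoprime_one_left) hy
  have hκ : IsPrimitiveRoot (kum hζ hy0 hy τ) (n + 1) := IsPrimitiveRoot.coe_units_iff.1 (by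
    rwa [kum_val, hτy, mul_div_cancel_right₀ _ hy0])
  have hcop : IsCoprime a ((n + 1 : ℕ) : ℤ) := by
    obtain ⟨e, he⟩ := Int.gcd_dvd_right a ((n + 1 : ℕ) : ℤ)
    obtain ⟨a', ha'⟩ := Int.gcd_dvd_left a ((n + 1 : ℕ) : ℤ)
    have h1 : (ψ τ ^ a * kum hζ hy0 hy τ ^ b) ^ e = 1 := by
      rw [show ψ τ ^ a * kum hζ hy0 hy τ ^ b = 1 from h ⟨τ, hτ⟩, one_zpow]
    have h2 : a * e = ((n + 1 : ℕ) : ℤ) * a' := by
      linear_combination e * ha' - a' * he
    rw [mul_zpow, ← zpow_mul, h2, zpow_mul, zpow_natCast, hψ τ hτ, one_zpow, one_mul, ← zpow_mul,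
      hκ.zpow_eq_one_iff_dvd] at h1
    have he0 : e ≠ 0 := by
      rintro rfl
      rw [mul_zero] at he
      omega
    have h3 : (Int.gcd a ((n + 1 : ℕ) : ℤ) : ℤ) ∣ b := by
      rw [← mul_dvd_mul_iff_right he0, ← he]; exact h1
    exact Int.isCoprime_iff_gcd_eq_one.2 (by
      simpa using Int.isUnit_iff_natAbs_eq.1 (hab.isUnit_of_dvd' (Int.gcd_dvd_left _ _) h3))
  obtain ⟨i, j, hij⟩ := hcop
  refine ⟨(b * i % (n + 1 : ℕ)).toNat, fun t ht => ?_⟩
  have h1 : (ψ t ^ a * kum hζ hy0 hy t ^ b) ^ i = 1 := by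
    rw [show ψ t ^ a * kum hζ hy0 hy t ^ b = 1 from h ⟨t, ht⟩, one_zpow]
  have h2 : a * i = 1 + ((n + 1 : ℕ) : ℤ) * -j := by linear_combination hij
  rw [mul_zpow, ← zpow_mul, ← zpow_mul, h2, zpow_add, zpow_mul, zpow_natCast, hψ t ht, one_zpow,
    mul_one, zpow_one, ← Int.mul_ediv_add_emod (b * i) (n + 1 : ℕ), zpow_add, zpow_mul,
    zpow_natCast, kum_pow, one_zpow, one_mul] at h1
  rwa [← zpow_natCast, Int.toNat_of_nonneg (Int.emod_nonneg _ (by omega))]

omit [Algebra.IsAlgebraic ℚ E] in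
theorem av_res (L : Type*) [Field L] [NumberField L] [Algebra F L] [Algebra L E]
    [IsScalarTower F L E] {A : Type*} [CommGroup A] {T : Finset (Pr F)} {f : Pr F → A}
    {ξ : (E ≃ₐ[F] E) →* A} (h : Av T f ξ) {T' : Finset (Pr L)}
    (hT : ∀ W : Pr L, W.under (𝓞 F) ∈ T → W ∈ T') :
    Av T' (nf L f) (ξ.comp (AlgEquiv.restrictScalarsHom F)) := fun Q hQ s hs => by
  have hu : (pr L Q).under (𝓞 F) = pr F Q :=
    HeightOneSpectrum.ext (congrArg Place.ideal (Place.res_res F L Q))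
  have hQ' : pr F Q ∉ T := fun h => hQ (hT _ (hu ▸ h))
  have : (pr L Q).asIdeal.LiesOver (pr F Q).asIdeal := ⟨by rw [← hu]; rfl⟩
  have := (pr L Q).isPrime
  obtain ⟨φ, hφ⟩ := exists_isF (K := F) Q
  have h1 : (s.restrictScalars F) * (φ ^ (pr L Q).asIdeal.inertiaDeg (𝓞 F))⁻¹ ∈
      Q.ideal.inertia (E ≃ₐ[F] E) := fun x => by
    have h2 := C.pow_act Q hφ ((pr L Q).asIdeal.inertiaDeg (𝓞 F))
      ((φ ^ (pr L Q).asIdeal.inertiaDeg (𝓞 F))⁻¹ • x)
    rw [qv_eq, Ideal.absNorm_pow_inertiaDeg, ← qv_eq] at h2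
    have := Q.ideal.sub_mem (hs ((φ ^ (pr L Q).asIdeal.inertiaDeg (𝓞 F))⁻¹ • x)) h2
    rw [sub_sub_sub_cancel_right, smul_inv_smul] at this
    exact this
  have h2 := h.inertia_le hQ' h1
  rw [MonoidHom.mem_ker, map_mul, map_inv, mul_inv_eq_one, map_pow, h Q hQ' φ hφ] at h2
  rw [nf, hu]
  exact h2

omit [CharZero E] [Algebra.IsAlgebraic ℚ E] [IsGalois F E] [NumberField F] in
theorem exists_over (L : Type*) [Field L] [NumberField L] [Algebra F L] (T : Finset (Pr F)) :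
    ∃ T' : Finset (Pr L), ∀ W : Pr L, W ∈ T' ↔ W.under (𝓞 F) ∈ T := by
  have : ((fun W : Pr L => W.under (𝓞 F)) ⁻¹' T).Finite := T.finite_toSet.preimage' fun w _ =>
    (Ideal.finite_factors (I := w.asIdeal.map (algebraMap (𝓞 F) (𝓞 L)))
      (Ideal.map_ne_bot_of_ne_bot w.ne_bot)).subset fun W hW => by
        obtain rfl : W.under (𝓞 F) = w := hW
        exact Ideal.dvd_iff_le.2 Ideal.map_comap_le
  exact ⟨this.toFinset, fun W => by simp⟩

end basic

section main

variable {K E : Type} [Field K] [NumberField K] [IsTotallyComplex K] [Field E] [CharZero E]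
  [IsAlgClosed E] [Algebra.IsAlgebraic ℚ E] [Algebra K E] [IsGalois K E]

omit [IsTotallyComplex K] [IsAlgClosed E] [Algebra.IsAlgebraic ℚ E] in
theorem not_dvd (P : Place E) : ¬ P.rchar ∣ P.qv K - 1 := fun h => by
  obtain ⟨k, hk, e⟩ := Place.exists_qv_eq (F := K) P
  have h1 : P.rchar ∣ P.qv K := e ▸ dvd_pow_self _ hk.ne'
  have h2 := (Nat.dvd_sub_iff_right (Place.one_lt_qv (F := K) P).le h1).1 h
  exact P.rchar_prime.one_lt.ne' (Nat.dvd_one.1 h2)

omit [IsTotallyComplex K] [IsAlgClosed E] in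
theorem unit_of {P : Place E} {π : K} {z : E} {t : E ≃ₐ[K] E} {u : E}
    (hπ : (pr K P).valuation K π = exp (-1 : ℤ))
    (hz : P.v z ^ (P.qv K - 1) = P.v (algebraMap K E π)) (ht : t ∈ P.ideal.inertia (E ≃ₐ[K] E))
    (hu : P.v (t z / z - u) < 1) : z ≠ 0 ∧ P.v (t z / z) = 1 ∧ P.v u = 1 := by
  have hπ0 : π ≠ 0 := by rintro rfl; rw [map_zero] at hπ; exact exp_ne_zero hπ.symm
  have hz0 : z ≠ 0 := by
    rintro rfl
    have := Place.one_lt_qv (F := K) P
    rw [map_zero, zero_pow (by omega), eq_comm, map_eq_zero, map_eq_zero] at hz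
    exact hπ0 hz
  have h1 : P.v (t z / z) = 1 := by
    rw [map_div₀, show P.v (t z) = P.v z from P.v_smul_eq t (P.smul_eq_of_mem_inertia ht) z,
      div_self ((map_ne_zero _).2 hz0)]
  refine ⟨hz0, h1, ?_⟩
  rw [← h1]
  exact Valuation.map_eq_of_sub_lt _ (by rwa [h1, Valuation.map_sub_swap])

theorem tame_full (hA : ArtStmt) {P : Place E} {ζ : K} (hζ : IsPrimitiveRoot ζ (P.qv K - 1))
    {ψ : (E ≃ₐ[K] E) →* Eˣ} (ho : IsOpen (ψ.ker : Set (E ≃ₐ[K] E))) {N : ℕ} (hN : N ≠ 0)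
    (hψ : ∀ g, ψ g ^ N = 1) {T : Finset (Pr K)} {f : Pr K → Eˣ} (h1 : ∀ w ∈ T, f w = 1)
    (hav : Av T f ψ) {π : K} {z : E} {t : E ≃ₐ[K] E} {u : Kˣ} (hPN : ¬ P.rchar ∣ N)
    (hπ : (pr K P).valuation K π = exp (-1 : ℤ))
    (hz : P.v z ^ (P.qv K - 1) = P.v (algebraMap K E π)) (ht : t ∈ P.ideal.inertia (E ≃ₐ[K] E))
    (hu : P.v (t z / z - algebraMap K E u) < 1)
    (hu' : ∀ w ∈ T, w ≠ pr K P → w.valuation K ((u : K) - 1) < w.valuation K (N : K) ^ 2) :
    ev f u = ψ t := by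
  obtain ⟨hz0, hz1, hu1⟩ := unit_of hπ hz ht hu
  have hπ0 : π ≠ 0 := by rintro rfl; rw [map_zero] at hπ; exact exp_ne_zero hπ.symm
  have hPn := not_dvd (K := K) P
  have hq := fun s hs => pow_qv ho hψ hPN (t := s) hs
  obtain ⟨φ, hφ⟩ := exists_isF (K := K) P
  have hφ' := fun x hx => isF_unit hφ (x := x) hx
  obtain ⟨n, hn⟩ : ∃ n, P.qv K - 1 = n + 1 :=
    ⟨P.qv K - 2, by have := Place.one_lt_qv (F := K) P; omega⟩
  rw [hn] at hζ hz hPn hq hφ'
  have hπ1 : ord (𝓞 K) (pr K P) (Units.mk0 π hπ0) = 1 := by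
    have := valuation_eq_exp (R := 𝓞 K) (pr K P) (Units.mk0 π hπ0)
    rw [Units.val_mk0, hπ, exp_inj] at this
    omega
  obtain ⟨y, hy0, hy⟩ := exists_rt (E := E) n (Units.mk0 π hπ0)
  obtain ⟨x, hx0, hx⟩ := exists_rt (E := E) n u
  obtain ⟨m, hm⟩ := exists_exp hζ ho hPn hq hπ1 hy0 hy
  have h2 := tame_kum hA hζ ho hN hψ h1 hav hPN hPn hπ1 hy0 hy hm
    ((v_equiv (K := K) P).eq_one_iff_eq_one.1 hu1) hu' hx0 hx hφ
  have h3 : kum hζ hx0 hx φ = kum hζ hy0 hy t := by
    refine Units.ext (P.root_eq_of_sub hPn (quot_pow hx0 hx φ) (quot_pow hy0 hy t) ?_)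
    have h4 := hφ' x (Place.pow_eq_one_aux n.succ_ne_zero (by rw [← map_pow, hx, hu1]))
    have h5 := inertia_unit ht (e := y / z) (Place.pow_eq_one_aux n.succ_ne_zero (by
      rw [map_div₀, div_pow, hz, ← map_pow, hy, Units.val_mk0, div_self (by simpa using hπ0)]))
    have e : (kum hζ hx0 hx φ : E) - kum hζ hy0 hy t = (φ x / x - x ^ (n + 1)) -
        (t z / z - algebraMap K E u) - (t (y / z) / (y / z) - 1) * (t z / z) := by
      have : t z ≠ 0 := by simpa using hz0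
      rw [kum_val, kum_val, hx, map_div₀]
      field_simp
      ring
    rw [e]
    exact P.v.map_sub_lt (P.v.map_sub_lt h4 hu) (by rwa [map_mul, hz1, mul_one])
  rw [h3, ← hm t ht] at h2
  exact mul_right_cancel h2

attribute [local instance] actH

theorem tame_units (hA : ArtStmt) {P : Place E}
    {ψ : (E ≃ₐ[K] E) →* Eˣ} (ho : IsOpen (ψ.ker : Set (E ≃ₐ[K] E))) {N : ℕ} (hN : N ≠ 0)
    (hψ : ∀ g, ψ g ^ N = 1) {T : Finset (Pr K)} {f : Pr K → Eˣ} (h1 : ∀ w ∈ T, f w = 1)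
    (hav : Av T f ψ) {π : K} {z : E} {t : E ≃ₐ[K] E} {u : Kˣ} (hT : pr K P ∈ T)
    (hPN : ¬ P.rchar ∣ N) (hπ : (pr K P).valuation K π = exp (-1 : ℤ))
    (hz : P.v z ^ (P.qv K - 1) = P.v (algebraMap K E π)) (ht : t ∈ P.ideal.inertia (E ≃ₐ[K] E))
    (hu : P.v (t z / z - algebraMap K E u) < 1)
    (hu' : ∀ w ∈ T, w ≠ pr K P → w.valuation K ((u : K) - 1) < w.valuation K (N : K) ^ 2) :
    ev f u = ψ t := by
  classical
  obtain ⟨-, -, hu1⟩ := unit_of hπ hz ht hu
  have hPn := not_dvd (K := K) P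
  have hq := Place.one_lt_qv (F := K) P
  have : NeZero (P.qv K - 1) := ⟨by omega⟩
  have : NeZero ((P.qv K - 1 : ℕ) : E) := ⟨by exact_mod_cast NeZero.ne _⟩
  obtain ⟨ζ, hζ⟩ := HasEnoughRootsOfUnity.exists_primitiveRoot E (P.qv K - 1)
  let F := IntermediateField.adjoin K {ζ}
  have := hζ.intermediateField_adjoin_isCyclotomicExtension K
  have : IsGalois K F := IsCyclotomicExtension.isGalois {P.qv K - 1} K F
  have : FiniteDimensional K F :=
    IntermediateField.adjoin.finiteDimensional (Algebra.IsIntegral.isIntegral ζ)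
  have : NumberField F := NumberField.of_module_finite K F
  have : IsTotallyComplex F := isTotallyComplex_of_algebra K F
  have hfix : MulAction.stabilizer (E ≃ₐ[K] E) ζ ≤ F.fixingSubgroup :=
    (IntermediateField.le_iff_le _ _).1 (IntermediateField.adjoin_le_iff.2 (by
      rintro _ rfl g
      exact g.2))
  have hI : P.ideal.inertia (E ≃ₐ[K] E) ≤ MulAction.stabilizer (E ≃ₐ[K] E) ζ := fun g hg =>
    P.inertia_root hg hPn hζ.pow_eq_one
  set W := pr F P with hW
  have hWu : W.under (𝓞 K) = pr K P :=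
    HeightOneSpectrum.ext (congrArg Place.ideal (Place.res_res K F P))
  have : W.asIdeal.LiesOver (pr K P).asIdeal := ⟨by rw [← hWu]; rfl⟩
  have := W.isPrime
  have hst : ∀ σ : F ≃ₐ[K] F, σ • W.asIdeal = W.asIdeal → σ = 1 := fun σ hσ => by
    obtain ⟨g, hg, hg'⟩ := exists_dec_lift P σ (Place.ext hσ)
    obtain ⟨φ, hφ⟩ := exists_isF (K := K) P
    obtain ⟨j, τ, hτ, v, hv, rfl⟩ := C.dec_gen P _ (stabilizer_isOpen_of_isIntegral ζ) hφ.smul_eq
      hφ hg
    have h2 : φ ∈ MulAction.stabilizer (E ≃ₐ[K] E) ζ := by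
      rw [MulAction.mem_stabilizer_iff, P.frob_root hφ hPn hζ.pow_eq_one,
        ← pow_sub_one_mul hq.ne_bot, hζ.pow_eq_one, one_mul]
    have h3 := hfix (mul_mem (mul_mem (pow_mem h2 j) (hI hτ)) hv)
    exact AlgEquiv.ext fun x => Subtype.ext ((hg' x).symm.trans (h3 x))
  have hef := R018.FrobCountx389.card_stab' (F := K) (F ≃ₐ[K] F) W.asIdeal W.ne_bot
  rw [(Subgroup.eq_bot_iff_forall (MulAction.stabilizer (F ≃ₐ[K] F) W.asIdeal)).2 hst, Subgroup.card_bot, eq_comm, mul_eq_one] at hef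
  have hqF : P.qv F = P.qv K := by
    rw [qv_eq, qv_eq, ← Ideal.absNorm_pow_inertiaDeg (pr K P).asIdeal W.asIdeal, hef.2, pow_one]
  have hval : ∀ x : K, W.valuation F (algebraMap K F x) = (pr K P).valuation K x := fun x => by
    rw [← HeightOneSpectrum.valuation_liesOver F (pr K P) W,
      Ideal.ramificationIdx'_eq_ramificationIdx _ _ (pr K P).ne_bot, hef.1, pow_one]
  obtain ⟨T', hT'⟩ := exists_over F T
  have hN0 : (N : F) ≠ 0 := by exact_mod_cast hN
  choose m hm using fun V : Pr F => T24.Asa.exists_exp_le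
    (show V.valuation F (N : F) ^ 2 ≠ 0 by simp [hN])
  obtain ⟨u', hx, -⟩ := T24.Asa.approx_fin T' (fun V => if V = W then algebraMap K F u else 1)
    (T'.sup m + 1)
  have hN1 : ∀ V : Pr F, V.valuation F (N : F) ^ 2 ≤ 1 := fun V => pow_le_one' (val_nat_le V _) _
  have hx' : ∀ V ∈ T', V.valuation F (u' - if V = W then algebraMap K F u else 1) <
      V.valuation F (N : F) ^ 2 := fun V hV => by
    refine ((hx V hV).trans_lt ?_).trans_le (hm V)
    have := Finset.le_sup (f := m) hV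
    rw [exp_lt_exp]
    omega
  have hxW : W.valuation F (u' - algebraMap K F u) < 1 := by
    simpa using (hx' W ((hT' W).2 (hWu ▸ hT))).trans_le (hN1 W)
  have hxV : ∀ V ∈ T', V ≠ W → V.valuation F (u' - 1) < V.valuation F (N : F) ^ 2 :=
    fun V hV hne => by simpa [hne] using hx' V hV
  have hu2 : (pr K P).valuation K (u : K) = 1 := (v_equiv (K := K) P).eq_one_iff_eq_one.1 hu1
  have hu3 : W.valuation F u' = 1 := by
    rw [← hu2, ← hval]
    exact Valuation.map_eq_of_sub_lt _ (by rwa [hval, hu2])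
  have hu0 : u' ≠ 0 := by rintro rfl; simp at hu3
  let t' : E ≃ₐ[F] E := F.fixingSubgroupEquiv ⟨t, hfix (hI ht)⟩
  have h2 := tame_full (K := F) hA (P := P) (ζ := IntermediateField.AdjoinSimple.gen K ζ)
    (by rw [hqF]; exact IsPrimitiveRoot.coe_submonoidClass_iff.1 hζ)
    (ψ := ψ.comp (AlgEquiv.restrictScalarsHom K)) (isOpen_comap F ho) hN (fun g => hψ _)
    (T := T') (f := nf F f) (fun V hV => by rw [nf, h1 _ ((hT' V).1 hV), one_pow])
    (av_res F hav fun V => (hT' V).2) (π := algebraMap K F π) (z := z) (t := t')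
    (u := Units.mk0 u' hu0) hPN (by rw [hval, hπ]) (by rw [hqF]; exact hz) ht (by
      have h3 := (v_lt_iff P (u' - algebraMap K F u) 1).2 (by rw [map_one]; exact hxW)
      rw [map_one, map_one, map_sub] at h3
      have h4 := P.v.map_sub_lt hu h3
      rw [show algebraMap F E (algebraMap K F u) = algebraMap K E u from rfl,
        sub_sub_sub_cancel_right] at h4
      exact h4) hxV
  rw [ev_norm] at h2
  have h3 := artin_av hA ho hN hψ h1 hav (Units.map (Algebra.norm K) (Units.mk0 u' hu0) / u)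
    fun w hw => by
      rw [Units.val_div_eq_div_val, div_sub_one u.ne_zero, map_div₀]
      change w.valuation K (Algebra.norm K u' - u) / _ < _
      by_cases h : w = pr K P
      · subst h
        rw [hu2, div_one, (val_nat_iff P _).2 hPN, one_pow, ← hval, map_sub,
          Algebra.norm_eq_prod_automorphisms, ← Finset.mul_prod_erase _ _ (Finset.mem_univ 1)]
        have h4 := v_prod_sub_one (W.valuation F) (Finset.univ.erase 1)
          (fun σ : F ≃ₐ[K] F => σ u') one_ne_zero le_rfl fun σ hσ => by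
            have h5 := (hxV (σ⁻¹ • W) ((hT' _).2 (by
              have : (σ⁻¹ • W).under (𝓞 K) = W.under (𝓞 K) :=
                HeightOneSpectrum.ext (Ideal.under_smul _ _ _)
              rwa [this, hWu])) fun h => (Finset.mem_erase.1 hσ).1
                (inv_eq_one.1 (hst _ (congrArg HeightOneSpectrum.asIdeal h)))).trans_le (hN1 _)
            rwa [← val_smul σ, smul_inv_smul, map_sub, map_one] at h5
        have e : ∀ a b c : F, a * b - c = a * (b - 1) + (a - c) := fun a b c => by ring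
        rw [e]
        exact Valuation.map_add_lt _ (by rwa [map_mul, AlgEquiv.one_apply, hu3, one_mul]) hxW
      · have h4 := hu' w hw h
        have h5 : w.valuation K (N : K) ^ 2 ≤ 1 := pow_le_one' (val_nat_le w _) _
        have h6 : w.valuation K (u : K) = 1 := by
          simpa using Valuation.map_one_add_of_lt _ (h4.trans_le h5)
        have h7 := norm_deep w (c := (N : K) ^ 2) (by simpa using hN) (by rwa [map_pow]) u'
          fun V hV => by
            rw [map_pow, map_natCast, map_pow]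
            exact hxV V ((hT' V).2 (hV ▸ hw)) fun h' => h (by rw [← hV, h', hWu])
        rw [h6, div_one, ← sub_sub_sub_cancel_right _ _ 1]
        exact Valuation.map_sub_lt _ (by rwa [map_pow] at h7) h4
  rw [map_div, div_eq_one] at h3
  rw [← h3, h2]
  rfl

/-- **the tame reciprocity law** -/
theorem tame (hA : ArtStmt) {A : Type} [CommGroup A] {P : Place E}
    {ξ : (E ≃ₐ[K] E) →* A} (ho : IsOpen (ξ.ker : Set (E ≃ₐ[K] E))) {N : ℕ} (hN : N ≠ 0)
    (hξ : ∀ g, ξ g ^ N = 1) {T : Finset (Pr K)} {f : Pr K → A} (h1 : ∀ w ∈ T, f w = 1)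
    (hav : Av T f ξ) {π : K} {z : E} {t : E ≃ₐ[K] E} {u : Kˣ} (hT : pr K P ∈ T)
    (hPN : ¬ P.rchar ∣ N) (hπ : (pr K P).valuation K π = exp (-1 : ℤ))
    (hz : P.v z ^ (P.qv K - 1) = P.v (algebraMap K E π)) (ht : t ∈ P.ideal.inertia (E ≃ₐ[K] E))
    (hu : P.v (t z / z - algebraMap K E u) < 1)
    (hu' : ∀ w ∈ T, w ≠ pr K P → w.valuation K ((u : K) - 1) < w.valuation K (N : K) ^ 2) :
    ev f u = ξ t := by
  have hf : ∀ w, f w ∈ ξ.range := fun w => by
    by_cases hw : w ∈ T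
    · rw [h1 w hw]; exact one_mem _
    · obtain ⟨Q, rfl⟩ := exists_pr (E := E) w
      obtain ⟨φ, hφ⟩ := exists_isF (K := K) Q
      exact ⟨φ, hav Q hw φ hφ⟩
  have := Subgroup.quotient_finite_of_isOpen ξ.ker ho
  have : Finite ξ.range := Finite.of_equiv _ (QuotientGroup.quotientKerEquivRange ξ).toEquiv
  have : NeZero ((Monoid.exponent ξ.range : ℕ) : E) :=
    ⟨by exact_mod_cast Monoid.exponent_ne_zero_of_finite⟩
  let f' : Pr K → ξ.range := fun w => ⟨f w, hf w⟩
  have key : ev f' u = ξ.rangeRestrict t := by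
    by_contra hne
    obtain ⟨χ, hχ⟩ := CommGroup.exists_apply_ne_one_of_hasEnoughRootsOfUnity ξ.range E
      (div_ne_one.2 hne)
    refine hχ ?_
    rw [map_div, div_eq_one, map_ev]
    refine tame_units hA (ψ := χ.comp ξ.rangeRestrict) (Subgroup.isOpen_mono (fun g hg => ?_) ho) hN
      (fun g => ?_) (fun w hw => ?_) (fun Q hQ φ hφ => ?_) hT hPN hπ hz ht hu hu'
    · rw [MonoidHom.mem_ker, MonoidHom.comp_apply, show ξ.rangeRestrict g = 1 from Subtype.ext hg,
        map_one]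
    · rw [MonoidHom.comp_apply, ← map_pow, show ξ.rangeRestrict g ^ N = 1 from Subtype.ext (hξ g),
        map_one]
    · rw [show f' w = 1 from Subtype.ext (h1 w hw), map_one]
    · exact congrArg χ (Subtype.ext (hav Q hQ φ hφ))
  exact (map_ev ξ.range.subtype f' u).symm.trans (congrArg ξ.range.subtype key)

end main

theorem tameStmt (hA : ArtStmt) : C.TameStmt :=
  fun _ _ _ _ _ _ _ _ _ _ _ _ ho hN hξ h1 hav _ _ _ _ _ hT hPN hπ hz ht hu hu' =>
    tame hA ho hN hξ h1 hav hT hPN hπ hz ht hu hu'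

end Crest.Agent.T15.Tame
end
end

-- ▼ part T15/EpsA_73
section

/-!
# Row 15 (helper73): the quartic character `ε` from a multiplicative function on `ℤ[i]`
-/

set_option autoImplicit false

noncomputable section

namespace Crest.Agent.T15.C

theorem ii_sq : ii * ii = -1 := by decide

theorem four_cases {R : Type*} [CommRing R] [IsDomain R] {I u : R} (hI : I * I = -1)
    (h : u ^ 4 = 1) : u = 1 ∨ u = -1 ∨ u = I ∨ u = -I := by
  have : (u - 1) * ((u + 1) * ((u - I) * (u + I))) = 0 := by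
    linear_combination h - (u ^ 2 - 1) * hI
  simpa only [mul_eq_zero, sub_eq_zero, add_eq_zero_iff_eq_neg] using this

theorem mul_star_of_four {u : Zi} (h : u ^ 4 = 1) : u * star u = 1 := by
  rcases four_cases ii_sq h with rfl | rfl | rfl | rfl <;> decide

section red
variable {k : Type*} [Field k] (r : Zi →+* k) (h3 : r 3 = 0)
include h3

theorem r_three : (3 : k) = 0 := by rw [← h3, map_ofNat]

theorem r_star (x : Zi) : r (star x) = r x ^ 3 := by
  have := (CharP.charP_iff_prime_eq_zero (R := k) Nat.prime_three).2 (by exact_mod_cast r_three r h3)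
  have hI : r ii * r ii = -1 := by rw [← map_mul, ii_sq, map_neg, map_one]
  have h1 : ∀ a : ℤ, (a : k) ^ 3 = a := fun a => by
    rw [← frobenius_def, map_intCast]
  have h2 : x = x.re + x.im * ii := by ext <;> simp
  have h4 : star x = x.re - x.im * ii := by ext <;> simp
  rw [h4]
  conv_rhs => rw [h2]
  simp only [map_add, map_sub, map_mul, map_intCast]
  rw [add_pow_char, mul_pow, h1, h1]
  linear_combination (-(x.im : k) * r ii) * hI

theorem r_four (x : Zi) : r x ^ 4 = (x.norm : ℤ) := by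
  rw [← map_intCast r, Zsqrtd.norm_eq_mul_conj, map_mul, r_star r h3]; ring

theorem r_inj {u v : Zi} (hu : u ^ 4 = 1) (hv : v ^ 4 = 1) (h : r u = r v) : u = v := by
  have hI : r ii * r ii = -1 := by rw [← map_mul, ii_sq, map_neg, map_one]
  have h1 : r (u * v ^ 3) = 1 := by rw [map_mul, h, ← map_mul, ← pow_succ', hv, map_one]
  have h2 : u * v ^ 3 = 1 := by
    have h0 := r_three r h3
    rcases four_cases (u := u * v ^ 3) ii_sq (by
      rw [mul_pow, hu, ← pow_mul, mul_comm 3, pow_mul, hv, one_pow, one_mul]) with h | h | h | h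
    · exact h
    all_goals
      rw [h] at h1
      refine absurd (?_ : (1 : k) = 0) one_ne_zero
    · rw [map_neg, map_one] at h1; linear_combination h0 + h1
    · rw [h1] at hI; linear_combination h0 - hI
    · rw [map_neg, neg_eq_iff_eq_neg] at h1; rw [h1] at hI; linear_combination h0 - hI
  linear_combination v * h2 - u * hv

omit h3 in
theorem r_surj {a : k} (h : a ^ 4 = 1) : ∃ u : Zi, u ^ 4 = 1 ∧ r u = a := by
  rcases four_cases (I := r ii) (by rw [← map_mul, ii_sq, map_neg, map_one]) h with rfl | rfl | rfl | rfl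
  exacts [⟨1, by simp, map_one r⟩, ⟨-1, by decide, by simp⟩, ⟨ii, by decide, rfl⟩,
    ⟨-ii, by decide, map_neg r _⟩]

theorem r_ne {x : Zi} (h : IsCoprime x 3) : r x ≠ 0 := fun h0 => by
  obtain ⟨a, b, hab⟩ := h
  have := congrArg r hab
  simp [h0, h3] at this

/-- the character `ε` -/
theorem eps_of {m : ℕ} (hm : m ≠ 0) (h4 : 4 ∣ m) (hm3 : ¬ 3 ∣ m) (F : Zi → k)
    (mul : ∀ x y, x ≠ 0 → y ≠ 0 → F (x * y) = F x * F y) (unit : ∀ u, IsUnit u → F u = 1)
    (per : ∀ x, IsCoprime x 3 → (m : Zi) ∣ x - 1 → F x = r x)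
    (pr : ∀ x : Zi, Prime x → IsCoprime x (3 * m) → F x ^ 4 = r x ^ 4 ∧ F (star x) = F x ^ 3)
    (inert : ∀ p : ℕ, p.Prime → p % 4 = 3 → IsCoprime (p : Zi) (3 * m) → F p = -p) :
    ∃ ε : Zi → Zi, Eps m ε ∧ ∀ x : Zi, IsCoprime x (3 * m) → F x = r (x * ε x) := by
  classical
  have n0 : ∀ {x : Zi}, IsCoprime x (3 * m) → x ≠ 0 := fun h h0 =>
    r_ne r h3 h.of_mul_right_left (by rw [h0, map_zero])
  have all : ∀ x : Zi, IsCoprime x (3 * m) → F x ^ 4 = r x ^ 4 ∧ F (star x) = F x ^ 3 := fun x => by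
    induction x using UniqueFactorizationMonoid.induction_on_prime with
    | h₁ => exact fun h => absurd rfl (n0 h)
    | h₂ u hu =>
      intro _
      rw [unit u hu, unit _ hu.star, r_four r h3, (Zsqrtd.norm_eq_one_iff' (by norm_num) u).2 hu]
      simp
    | h₃ a p ha hp ih =>
      intro h
      obtain ⟨h1, h2⟩ := pr p hp h.of_mul_left_left
      obtain ⟨h5, h6⟩ := ih h.of_mul_left_right
      rw [star_mul', mul _ _ (star_ne_zero.2 hp.ne_zero) (star_ne_zero.2 ha), mul _ _ hp.ne_zero ha,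
        map_mul, mul_pow, mul_pow, mul_pow, h1, h2, h5, h6]
      exact ⟨rfl, rfl⟩
  have cong : ∀ x y : Zi, IsCoprime x (3 * m) → IsCoprime y (3 * m) → (m : Zi) ∣ x - y →
      F x * r y = F y * r x := fun x y hx hy ⟨c, hc⟩ => by
    obtain ⟨z, b, hz⟩ := hy
    have hz' : IsCoprime z (3 * m) := ⟨y, b, by rw [← hz]; ring⟩
    have hy : IsCoprime y (3 * m) := ⟨z, b, hz⟩
    have h1 := per (z * x) (hz'.mul_left hx).of_mul_right_left
      ⟨z * c - b * 3, by linear_combination z * hc + hz⟩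
    have h2 := per (z * y) (hz'.mul_left hy).of_mul_right_left ⟨-b * 3, by linear_combination hz⟩
    rw [mul _ _ (n0 hz') (n0 hx), map_mul] at h1
    rw [mul _ _ (n0 hz') (n0 hy), map_mul] at h2
    have h5 : F z ≠ 0 := fun h0 => mul_ne_zero (r_ne r h3 hz'.of_mul_right_left)
      (r_ne r h3 hy.of_mul_right_left) (by rw [← h2, h0, zero_mul])
    exact mul_left_cancel₀ h5 (by linear_combination r y * h1 - r x * h2)
  obtain ⟨c, hc⟩ : ∃ c : ℕ, m * m = 1 + 3 * c := ⟨m * m / 3, by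
    have : m % 3 = 1 ∨ m % 3 = 2 := by omega
    have h1 := Nat.mul_mod m m 3
    rcases this with h | h <;> rw [h] at h1 <;> omega⟩
  have hc' : (m : Zi) * m = 1 + 3 * c := by exact_mod_cast hc
  let t : Zi → Zi := fun x => x + m * (m * (1 - x))
  have t3 : ∀ x, t x = 1 + 3 * (c * (1 - x)) := fun x => by
    simp only [t]; linear_combination (1 - x) * hc'
  have tr : ∀ x, r (t x) = 1 := fun x => by rw [t3, map_add, map_mul, h3, map_one]; ring
  have tc : ∀ {x : Zi}, IsCoprime x m → IsCoprime (t x) (3 * m) := fun {x} h =>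
    IsCoprime.mul_right (by rw [t3]; exact isCoprime_one_left.add_mul_left_left _)
      (h.add_mul_left_left _)
  choose! u hu4 hu using fun (x : Zi) (h : IsCoprime x m) =>
    r_surj r (a := F (t x)) (by rw [(all _ (tc h)).1, tr, one_pow])
  have key : ∀ x : Zi, IsCoprime x (3 * m) → F x = r (x * u x) := fun x h => by
    have := cong x (t x) h (tc h.of_mul_right_right) ⟨-(m * (1 - x)), by simp only [t]; ring⟩
    rw [tr, mul_one] at this
    rw [this, map_mul, hu x h.of_mul_right_right, mul_comm]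
  have uper : ∀ x y : Zi, IsCoprime x m → u (x + m * y) = u x := fun x y h => by
    have h' := h.add_mul_left_left y
    refine r_inj r h3 (hu4 _ h') (hu4 _ h) ?_
    have := cong _ _ (tc h') (tc h) ⟨y - m * m * y, by simp only [t]; ring⟩
    rwa [tr, tr, mul_one, mul_one, ← hu _ h, ← hu _ h'] at this
  have umul : ∀ x y : Zi, IsCoprime x m → IsCoprime y m → u (x * y) = u x * u y := fun x y h h' => by
    refine r_inj r h3 (hu4 _ (h.mul_left h')) (by rw [mul_pow, hu4 _ h, hu4 _ h', mul_one]) ?_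
    have := cong _ _ (tc (h.mul_left h')) ((tc h).mul_left (tc h'))
      ⟨m * (1 - x * y) - x * (m * (1 - y)) - y * (m * (1 - x)) - m * (m * (1 - x)) * (m * (1 - y)),
        by simp only [t]; ring⟩
    rwa [map_mul, tr, tr, tr, mul_one, mul_one, mul_one, mul _ _ (n0 (tc h)) (n0 (tc h')), ← hu _ h,
      ← hu _ h', ← hu _ (h.mul_left h'), ← map_mul] at this
  have cst : ∀ {x : Zi}, IsCoprime x m → IsCoprime (star x) m := fun h => by
    simpa [starRingEnd_apply] using h.map (starRingEnd Zi)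
  have ust : ∀ x : Zi, IsCoprime x m → u (star x) = star (u x) := fun x h => by
    refine r_inj r h3 (hu4 _ (cst h)) (by rw [← star_pow, hu4 _ h, star_one]) ?_
    rw [r_star r h3, hu _ h, hu _ (cst h), ← (all _ (tc h)).2]
    simp [t]
  have uu : ∀ x : Zi, x ^ 4 = 1 → x * u x = 1 := fun x h => by
    have h1 : IsUnit x := IsUnit.of_pow_eq_one h four_ne_zero
    have h2 : IsCoprime x (3 * m) := by
      obtain ⟨v, rfl⟩ := h1
      exact ⟨(v⁻¹ :), 0, by simp⟩
    exact r_inj r h3 (by rw [mul_pow, h, hu4 _ h2.of_mul_right_right, mul_one]) (one_pow _)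
      (by rw [← key x h2, unit x h1, map_one])
  have u1 : u 1 = 1 := by simpa using uu 1 (one_pow _)
  have unat : ∀ n : ℕ, n.Coprime (3 * m) → u n = (ZMod.χ₄ (n : ZMod 4) : ℤ) := fun n => by
    induction n using induction_on_primes with
    | zero => intro h; simp at h
    | one => intro _; simp [u1]
    | prime_mul p a hp ih =>
      intro h
      have h1 : IsCoprime (p : Zi) (3 * m) := by
        exact_mod_cast (Nat.Coprime.coprime_mul_right h).cast (R := Zi)
      have h2 : IsCoprime (a : Zi) (3 * m) := by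
        exact_mod_cast (Nat.Coprime.coprime_mul_left h).cast (R := Zi)
      rw [Nat.cast_mul, umul _ _ h1.of_mul_right_right h2.of_mul_right_right,
        ih (Nat.Coprime.coprime_mul_left h), Nat.cast_mul, map_mul, Int.cast_mul]
      congr 1
      have := Fact.mk hp
      by_cases h5 : p % 4 = 3
      · rw [ZMod.χ₄_nat_three_mod_four h5]
        refine r_inj r h3 (hu4 _ h1.of_mul_right_right) (by decide) ?_
        have h6 := key _ h1
        rw [inert p hp h5 h1, map_mul, map_natCast] at h6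
        have h7 := r_ne r h3 h1.of_mul_right_left
        rw [map_natCast] at h7
        exact mul_left_cancel₀ h7 (by rw [← h6]; simp)
      · have h6 : p % 4 = 1 := by
          rcases hp.eq_two_or_odd with rfl | h6
          · exact absurd ((Nat.Coprime.coprime_mul_right h).coprime_dvd_right
              (((show 2 ∣ 4 by norm_num).trans h4).mul_left 3)) (by norm_num)
          · omega
        obtain ⟨b, d, hbd⟩ := Nat.Prime.sq_add_sq h5
        have h7 : (p : Zi) = (⟨b, d⟩ : Zi) * star ⟨b, d⟩ := by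
          rw [← Zsqrtd.norm_eq_mul_conj, ← hbd, Zsqrtd.norm_def]; push_cast; ring
        have h8 := h1.of_mul_right_right
        rw [h7] at h8
        rw [ZMod.χ₄_nat_one_mod_four h6, h7, umul _ _ h8.of_mul_left_left h8.of_mul_left_right,
          ust _ h8.of_mul_left_left, mul_star_of_four (hu4 _ h8.of_mul_left_left), Int.cast_one]
  refine ⟨fun x => if IsCoprime x m then u x else 0, ⟨hm, (show 2 ∣ 4 by norm_num).trans h4,
    by simp [isCoprime_one_left, u1], fun x y => ?_, fun x y => ?_, fun x h => if_neg h,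
    fun x h => by rw [if_pos h, hu4 x h], ?_, fun x => ?_, fun n hn => ?_⟩,
    fun x h => by simp only [if_pos h.of_mul_right_right, key x h]⟩
  · by_cases h : IsCoprime x m <;> by_cases h' : IsCoprime y m <;>
      simp [IsCoprime.mul_left_iff, h, h', umul]
  · by_cases h : IsCoprime x m
    · rw [if_pos h, if_pos (h.add_mul_left_left y), uper x y h]
    · rw [if_neg h, if_neg fun h' => h h'.of_add_mul_left_left]
  · rw [if_pos ⟨-ii, 0, by linear_combination -ii_sq⟩, uu ii (by decide)]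
  · by_cases h : IsCoprime x m
    · rw [if_pos h, if_pos (cst h), ust x h]
    · rw [if_neg h, if_neg fun h' => h (by simpa using cst h'), star_zero]
  · have h1 : IsCoprime (n : Zi) m := hn.cast
    have h2 := unat (n + m * (m * (1 + 2 * n))) (Nat.Coprime.mul_right (by
      rw [← mul_assoc, hc, Nat.coprime_comm, Nat.prime_three.coprime_iff_not_dvd]
      have : (1 + 3 * c) * (1 + 2 * n) = 1 + 2 * n + 3 * (c * (1 + 2 * n)) := by ring
      omega) ((Nat.coprime_add_mul_left_left _ _ _).2 hn))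
    rw [Nat.cast_add, Nat.cast_mul, uper _ _ h1, Nat.cast_add, Nat.cast_mul,
      (ZMod.natCast_eq_zero_iff m 4).2 h4, zero_mul, add_zero] at h2
    rw [if_pos h1, h2]

end red

/-- coordinates on the Gaussian integers -/
def ziBasis : Module.Basis (Fin 2) ℤ Zi := Module.Basis.ofEquivFun
  { toFun := fun x => ![x.re, x.im]
    invFun := fun v => ⟨v 0, v 1⟩
    map_add' := fun x y => by ext i; fin_cases i <;> simp
    map_smul' := fun c x => by ext i; fin_cases i <;> simp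
    left_inv := fun x => by simp
    right_inv := fun v => by ext i; fin_cases i <;> simp }

theorem zi_norm (x : Zi) : Algebra.norm ℤ x = x.norm := by
  rw [Algebra.norm_eq_matrix_det ziBasis, Matrix.det_fin_two, Zsqrtd.norm_def]
  simp [Algebra.leftMulMatrix_eq_repr_mul, ziBasis]

end Crest.Agent.T15.C
end
end

-- ▼ part T15/Eps_73
section

/-!
# Row 15 (helper73): the character `ε` of a dihedral representation (`EpsStmt`)
-/

set_option autoImplicit false

noncomputable section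

namespace Crest.Agent.T15.C

open NumberField IsDedekindDomain Crest.Agent.R018.Placesx484 Crest.Agent.T15.Ps Crest.Agent.T15.Art
  Crest.Agent.T15.Ex Crest.Agent.R018.Selmerx380

theorem exists_fr (P : Place Om) : ∃ s : Gam, IsFr P P.rchar s := by
  obtain ⟨s, -, h⟩ := Place.exists_frob (F := ℚ) P
  exact ⟨s, by rwa [R018.FDEx389.qv_rat] at h⟩

theorem IsFr.sq {P : Place Om} {q : ℕ} {s : Gam} (h : IsFr P q s) : IsFr P (q * q) (s * s) :=
  fun x => by
    have h1 := P.ideal.add_mem (h (s • x))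
      (P.ideal.mem_of_dvd (sub_dvd_pow_sub_pow (s • x) (x ^ q) q) (h x))
    rwa [sub_add_sub_cancel, ← mul_smul, ← pow_mul] at h1

theorem smul_j (j : Zi →+* 𝓞 Om) {c : Gam} (hc : c (dl j) = -dl j) (x : Zi) :
    c • j x = j (star x) := by
  have h1 : c • j ii = -j ii := RingOfIntegers.ext hc
  have h2 : x = x.re + x.im * ii := by ext <;> simp
  have h4 : star x = x.re - x.im * ii := by ext <;> simp
  rw [h4]
  conv_lhs => rw [h2]
  change MulSemiringAction.toRingHom Gam (𝓞 Om) c _ = _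
  simp only [map_add, map_sub, map_mul, map_intCast, MulSemiringAction.toRingHom_apply, h1]
  ring

theorem prime_three : Prime (3 : Zi) :=
  have := Fact.mk Nat.prime_three
  GaussianInt.prime_of_nat_prime_of_mod_four_eq_three 3 rfl

section qi
variable {j : Zi →+* 𝓞 Om} [NumberField (Ki j)] {e : Zi ≃+* 𝓞 (Ki j)}
  (he : ∀ x, algebraMap (𝓞 (Ki j)) (𝓞 Om) (e x) = j x)
include he

omit [NumberField (Ki j)] in
theorem mem_pr (P : Place Om) (x : Zi) : e x ∈ (pr (Ki j) P).asIdeal ↔ j x ∈ P.ideal := by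
  rw [← he]; exact P.mem_res _ _

theorem pr_span {P : Place Om} {x : Zi} (hx : Prime x) (h : j x ∈ P.ideal) :
    (pr (Ki j) P).asIdeal = Ideal.span {e x} := by
  have h1 := (MulEquiv.prime_iff e).2 hx
  exact ((((Ideal.span_singleton_prime h1.ne_zero).2 h1).isMaximal (by simpa using h1.ne_zero)).eq_of_le
    (pr _ P).isPrime.ne_top ((Ideal.span_singleton_le_iff_mem _).2 ((mem_pr he P x).2 h))).symm

theorem qv_norm {P : Place Om} {x : Zi} (hx : Prime x) (h : j x ∈ P.ideal) :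
    P.qv (Ki j) = x.norm.natAbs := by
  rw [qv_eq, pr_span he hx h, Ideal.absNorm_span_singleton, ← zi_norm]
  exact congrArg _ (Algebra.norm_eq_of_algEquiv e.toIntAlgEquiv x)

omit [NumberField (Ki j)] in
theorem exists_over {x : Zi} (hx : Prime x) : ∃ P : Place Om, j x ∈ P.ideal := by
  have h1 := (MulEquiv.prime_iff e).2 hx
  obtain ⟨P, hP⟩ := exists_pr (E := Om) (⟨Ideal.span {e x}, (Ideal.span_singleton_prime h1.ne_zero).2 h1,
    by simpa using h1.ne_zero⟩ : Pr (Ki j))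
  exact ⟨P, (mem_pr he P x).1 (hP ▸ Ideal.mem_span_singleton_self _)⟩

theorem val_three {P : Place Om} (h : P.rchar = 3) :
    (pr (Ki j) P).valuation (Ki j) 3 = WithZero.exp (-1 : ℤ) := by
  have h1 := (pr (Ki j) P).intValuation_singleton (r := e 3) (by simp)
    (pr_span he prime_three (by rw [map_ofNat]; exact_mod_cast (P.natCast_mem_iff 3).2 h.dvd))
  rw [← (pr (Ki j) P).valuation_of_algebraMap (K := Ki j), map_ofNat] at h1
  exact h1

theorem exists_tame {P : Place Om} (h : P.rchar = 3) {y η : Om} (hy : y ^ 8 = 3) (hη : η ^ 8 = 1) :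
    ∃ t ∈ P.ideal.inertia (Om ≃ₐ[Ki j] Om), t y = η * y := by
  have : NeZero ((8 : ℕ) : Om) := ⟨by norm_num⟩
  obtain ⟨ζ, hζ⟩ := HasEnoughRootsOfUnity.exists_primitiveRoot Om 8
  obtain ⟨i, -, rfl⟩ := hζ.eq_pow_of_pow_eq_one hη
  have h8 : ¬ P.rchar ∣ 8 := by rw [h]; norm_num
  obtain ⟨t, ht, h1⟩ := R018.Tamex31.exists_inertia_root (K := Ki j) P 8 h8 ζ y hζ
    (Units.mk0 3 three_ne_zero) (by
      have h1 := valuation_eq_exp (pr (Ki j) P) (Units.mk0 (3 : Ki j) three_ne_zero)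
      rw [Units.val_mk0, val_three he h, WithZero.exp_inj, neg_inj] at h1
      exact (show (1 : ℤ) = _ from h1) ▸ isCoprime_one_left) (by rw [hy]; rfl)
  have h2 : t ζ = ζ := P.inertia_root ht h8 hζ.pow_eq_one
  refine ⟨t ^ i, pow_mem ht i, ?_⟩
  induction i with
  | zero => simp
  | succ i ih =>
    rw [pow_succ', AlgEquiv.mul_apply, ih (by rw [← pow_mul, mul_comm, pow_mul, hζ.pow_eq_one, one_pow]),
      map_mul, map_pow, h1, h2, pow_succ, mul_assoc]

end qi

theorem rs_dl (j : Zi →+* 𝓞 Om) (g : Om ≃ₐ[Ki j] Om) : rs (Ki j) g (dl j) = dl j :=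
  g.commutes ⟨dl j, IntermediateField.mem_adjoin_simple_self ℚ _⟩

theorem exists_rs_dl (j : Zi →+* 𝓞 Om) {s : Gam} (hs : s (dl j) = dl j) : ∃ g, rs (Ki j) g = s :=
  exists_rs fun x => (IntermediateField.adjoin_simple_le_iff.2
    (show dl j ∈ IntermediateField.fixedField (MulAction.stabilizer Gam (dl j)) from fun g => g.2))
      x.2 ⟨s, hs⟩

namespace Dih

variable {k : Type} [Field k] {ρ : Gam →* M2 k} {red : 𝓞 Om →+* k} {S : Finset ℕ} {d : ℕ} {δ : Om}
  (h : Dih ρ red S d δ)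
include h

theorem mul00 {g g' : Gam} (hg : g δ = δ) : ρ (g * g') 0 0 = ρ g 0 0 * ρ g' 0 0 := by
  simp [Matrix.mul_apply, (h.diag g hg).1]

theorem mul11 {g g' : Gam} (hg : g δ = δ) : ρ (g * g') 1 1 = ρ g 1 1 * ρ g' 1 1 := by
  simp [Matrix.mul_apply, (h.diag g hg).2.1]

theorem det_sq (g : Gam) : (ρ g).det ^ 2 = 1 := by rw [h.det]; split_ifs <;> simp

theorem det_diag {g : Gam} (hg : g δ = δ) : (ρ g).det = ρ g 0 0 * ρ g 1 1 := by
  rw [Matrix.det_fin_two, (h.diag g hg).1, zero_mul, sub_zero]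

theorem sq00 {s : Gam} (hs : s δ ≠ δ) : ρ (s * s) 0 0 = -(ρ s).det := by
  simp [Matrix.mul_apply, Matrix.det_fin_two, (h.anti s hs).1]

theorem conj00 {c : Gam} (hc : c δ ≠ δ) (g : Gam) : ρ (c * g * c⁻¹) 0 0 = ρ g 1 1 := by
  have h1 := congrFun (congrFun (show ρ (c * g * c⁻¹) * ρ c = ρ c * ρ g by
    rw [← map_mul, ← map_mul, inv_mul_cancel_right]) 0) 1
  have h2 := h.det_sq c
  rw [Matrix.det_fin_two, (h.anti c hc).1] at h2
  simp only [Matrix.mul_apply, Fin.sum_univ_two, (h.anti c hc).1, (h.anti c hc).2, mul_zero, zero_mul,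
    add_zero, zero_add] at h1
  exact mul_right_cancel₀ (fun h0 => by simp [h0] at h2) (h1.trans (mul_comm _ _))

theorem three_eq : (3 : k) = 0 := by rw [← h.red3, map_ofNat]

theorem det_fr {P : Place Om} {q : ℕ} {s : Gam} (hs : IsFr P q s) (hP : P.rchar ≠ 3) (hq : ¬ 3 ∣ q) :
    (ρ s).det = q := by
  have h1 : s om = om ^ q := P.frob_root hs (n := 3)
    (fun h => hP ((Nat.prime_dvd_prime_iff_eq P.rchar_prime Nat.prime_three).1 h)) om_spec.pow_eq_one
  rw [h.det, h1, ← Nat.div_add_mod q 3, pow_add, pow_mul, om_spec.pow_eq_one, one_pow, one_mul]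
  push_cast
  rw [h.three_eq, zero_mul, zero_add]
  obtain h2 | h2 : q % 3 = 1 ∨ q % 3 = 2 := by omega
  · simp [h2]
  · rw [h2, if_neg fun h => by
      have := om_spec.pow_inj (i := 2) (j := 1) (by norm_num) (by norm_num) (by rwa [pow_one])
      omega]
    push_cast
    linear_combination -h.three_eq

theorem cube_or (htr : ∀ g, (ρ g).trace ^ 3 = (ρ g).trace) {g : Gam} (hg : g δ = δ) :
    ρ g 1 1 = ρ g 0 0 ^ 3 ∨ ρ g 0 0 ^ 2 = 1 := by
  have h1 := htr g
  have h2 := h.det_sq g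
  have h3 := (h.diag g hg).2.2
  have h0 := h.three_eq
  rw [h.det_diag hg] at h2
  rw [Matrix.trace_fin_two] at h1
  set a := ρ g 0 0
  set b := ρ g 1 1
  have h4 : (b - a ^ 3) * (b + a ^ 3) = 0 := by linear_combination a ^ 6 * h2 - b ^ 2 * h3
  refine (mul_eq_zero.1 h4).imp sub_eq_zero.1 fun h5 => ?_
  have h6 : b = -a ^ 3 := by linear_combination h5
  rw [h6] at h1
  have h7 : a * (a ^ 2 - 1) = 0 := by
    linear_combination -h1 - a * h3 + (a ^ 3 - a - a ^ 5 + a ^ 7) * h0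
  exact sub_eq_zero.1 ((mul_eq_zero.1 h7).resolve_left fun h0 => by simp [h0] at h3)

theorem cube (htr : ∀ g, (ρ g).trace ^ 3 = (ρ g).trace) {t : Gam} (ht : t δ = δ)
    (h4 : ρ t 0 0 ^ 4 = -1) {g : Gam} (hg : g δ = δ) : ρ g 1 1 = ρ g 0 0 ^ 3 := by
  have h0 : ρ t 0 0 ^ 2 ≠ 1 := fun h1 => one_ne_zero (by
    linear_combination h.three_eq - h4 + (ρ t 0 0 ^ 2 + 1) * h1 : (1 : k) = 0)
  refine (h.cube_or htr hg).elim id fun h1 => ?_
  have h2 := (h.cube_or htr (g := g * t) (by rw [AlgEquiv.mul_apply, ht, hg])).resolve_right (by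
    rwa [h.mul00 hg, mul_pow, h1, one_mul])
  rw [h.mul00 hg, h.mul11 hg, (h.cube_or htr ht).resolve_right h0, mul_pow] at h2
  exact mul_right_cancel₀ (pow_ne_zero 3 fun h5 => by simp [h5] at h4) h2

/-- the place given by the reduction map -/
def P3 : Place Om := ⟨RingHom.ker red, RingHom.ker_isPrime red, fun h0 =>
  (show ((3 : ℕ) : 𝓞 Om) ≠ 0 from Nat.cast_ne_zero.2 three_ne_zero)
    ((Ideal.mem_bot).1 (h0 ▸ (show (3 : 𝓞 Om) ∈ RingHom.ker red from h.red3)))⟩

theorem P3_rchar : h.P3.rchar = 3 :=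
  h.P3.rchar_eq_of_mem Nat.prime_three (show ((3 : ℕ) : 𝓞 Om) ∈ RingHom.ker red from h.red3)

end Dih

theorem epsStmt_of (hT : TameStmt) (hQ : QiStmt) : EpsStmt := by
  refine ⟨7, fun k _ ρ red S j h htr => ?_⟩
  classical
  obtain ⟨hfd, htc, e, he⟩ := hQ j
  have : NumberField (Ki j) := NumberField.of_module_finite ℚ _
  obtain ⟨D, hD⟩ := Finset.dvd_prod_of_mem (fun l : ℕ => l) h.two
  set m := (∏ l ∈ S, l) ^ 7 with hm
  have hm0 : m ≠ 0 := pow_ne_zero _ (Finset.prod_ne_zero_iff.2 fun l hl => (h.prime l hl).ne_zero)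
  have hmS : ∀ l ∈ S, l ∣ m := fun l hl =>
    (Finset.dvd_prod_of_mem (fun l : ℕ => l) hl).trans (dvd_pow_self _ (by norm_num))
  have hSm : ∀ p : ℕ, p.Prime → p ∣ m → p ∈ S := fun p hp h1 => by
    obtain ⟨l, hl, h2⟩ := (hp.prime.dvd_finsetProd_iff _).1 (hp.dvd_of_dvd_pow h1)
    rwa [(Nat.prime_dvd_prime_iff_eq hp (h.prime l hl)).1 h2]
  have hP : ∀ P : Place Om, j (3 * m) ∈ P.ideal ↔ P.rchar = 3 ∨ P.rchar ∈ S := fun P => by
    rw [show (3 * m : Zi) = (3 * m : ℕ) by push_cast; rfl, map_natCast, P.natCast_mem_iff, P.rchar_prime.dvd_mul,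
      Nat.prime_dvd_prime_iff_eq P.rchar_prime Nat.prime_three]
    exact or_congr_right ⟨hSm _ P.rchar_prime, hmS _⟩
  have hc : ∀ {P : Place Om} {x : Zi}, IsCoprime x (3 * m) → j x ∈ P.ideal → j (3 * m) ∉ P.ideal :=
    fun {P x} ⟨a, b, hab⟩ h1 h2 => P.one_notMem (by
      rw [← map_one j, ← hab, map_add, map_mul, map_mul j b]
      exact P.ideal.add_mem (P.ideal.mul_mem_left _ h1) (P.ideal.mul_mem_left _ h2))
  let T : Finset (Pr (Ki j)) := (Ideal.finite_factors (I := Ideal.span {e (3 * m)})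
    (by simpa using hm0)).toFinset
  have hT' : ∀ w, w ∈ T ↔ e (3 * m) ∈ w.asIdeal := fun w => by
    rw [Set.Finite.mem_toFinset, Set.mem_ofPred_eq, Ideal.dvd_span_singleton]
  let ξ₀ : (Om ≃ₐ[Ki j] Om) →* k :=
    ⟨⟨fun g => ρ (rs _ g) 0 0, by simp⟩, fun a b => by
      change ρ (rs _ (a * b)) 0 0 = _
      rw [map_mul (rs _), h.mul00 (rs_dl j a)]⟩
  have hk : ρ.ker.comap (rs _) ≤ ξ₀.toHomUnits.ker := fun g hg => Units.ext (by
    change ρ (rs _ g) 0 0 = 1
    rw [show ρ (rs _ g) = 1 from hg]; rfl)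
  obtain ⟨f, hf1, hf⟩ := exists_av T ξ₀.toHomUnits fun P hP' u hu => hk (by
    rw [hT', mem_pr he, hP, not_or] at hP'
    exact h.unr P hP'.1 hP'.2 hu)
  have e0 : ∀ {x : Zi}, x ≠ 0 → (e x : Ki j) ≠ 0 := fun hx => by simpa using hx
  let F : Zi → k := fun x => if hx : x = 0 then 0 else (ev f (Units.mk0 _ (e0 hx)) : kˣ)
  have hF : ∀ {x} (hx : x ≠ 0), F x = (ev f (Units.mk0 _ (e0 hx)) : kˣ) := fun hx => dif_neg hx
  have R : ∀ {P : Place Om} {s : Gam} {x : Zi}, Prime x → j x ∈ P.ideal → IsCoprime x (3 * m) →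
      s (dl j) = dl j → IsFr P x.norm.natAbs s → ρ s 0 0 = F x := fun {P s x} hx h1 h2 hs h3 => by
    obtain ⟨g, rfl⟩ := exists_rs_dl j hs
    rw [hF hx.ne_zero, Ex.ev_int f _ (e x) rfl, ← pr_span he hx h1, evI_prime,
      ← hf P (by rw [hT', mem_pr he]; exact hc h2 h1) g (by rw [IsF, qv_norm he hx h1]; exact h3)]
    rfl
  have hδ : dl j ^ 2 = -1 := by simpa using h.sq
  have hδ0 : -dl j ≠ dl j := fun h0 => by
    rw [self_eq_neg.1 h0.symm] at hδ; norm_num at hδ
  have inert : ∀ {P : Place Om} {s : Gam}, P.rchar % 4 = 3 → IsFr P P.rchar s → s (dl j) = -dl j :=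
    fun {P s} h1 hs => by
      have := P.frob_root hs (n := 4) (a := dl j) (fun h2 => by
        have := Nat.le_of_dvd four_pos h2
        have h3 : P.rchar = 3 := by omega
        rw [h3] at h2; norm_num at h2) (by linear_combination (dl j ^ 2 - 1) * hδ)
      rw [← Nat.div_add_mod P.rchar 4, h1, pow_add, pow_mul,
        show dl j ^ 4 = 1 by linear_combination (dl j ^ 2 - 1) * hδ, one_pow] at this
      exact this.trans (by linear_combination dl j * hδ)
  obtain ⟨c, hc3⟩ := exists_fr h.P3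
  have hcδ := inert (by rw [h.P3_rchar]) hc3
  obtain ⟨y, hy⟩ := IsAlgClosed.exists_pow_nat_eq (3 : Om) (n := 8) (by norm_num)
  have : NeZero ((8 : ℕ) : Om) := ⟨by norm_num⟩
  obtain ⟨ζ, hζ⟩ := HasEnoughRootsOfUnity.exists_primitiveRoot Om 8
  obtain ⟨ζ, rfl⟩ : ∃ z : 𝓞 Om, algebraMap (𝓞 Om) Om z = ζ := ⟨⟨ζ, hζ.isIntegral (by norm_num)⟩, rfl⟩
  have hζ' : IsPrimitiveRoot ζ 8 := hζ.of_map_of_injective RingOfIntegers.coe_injective
  have cube : ∀ {g : Gam}, g (dl j) = dl j → ρ g 1 1 = ρ g 0 0 ^ 3 := by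
    obtain ⟨t, ht, h1⟩ := exists_tame he h.P3_rchar hy hζ.pow_eq_one
    refine h.cube htr (rs_dl j t) ?_
    rw [h.fund _ ht y ζ hy h1, ← map_pow,
      (hζ'.pow (by norm_num) (show 8 = 4 * 2 from rfl)).eq_neg_one_of_two_right, map_neg, map_one]
  have r3 : red.comp j 3 = 0 := by rw [map_ofNat]; exact h.three_eq
  obtain ⟨ε, hε, key⟩ := eps_of (red.comp j) r3 hm0 ⟨32 * D ^ 7, by rw [hm, hD]; ring⟩
    (fun h3 => h.three (hSm 3 Nat.prime_three h3)) F (fun x y hx hy => by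
      rw [hF hx, hF hy, hF (mul_ne_zero hx hy), ← Units.val_mul, ← map_mul]
      congr 2; ext; simp)
    (fun u hu => by
      rw [hF hu.ne_zero, Ex.ev_int f _ (e u) rfl, Ideal.span_singleton_eq_top.2 (hu.map e), evI_top]
      rfl)
    (fun x hx ⟨z, hz⟩ => by
      have h1 := r_ne _ r3 hx
      have hx0 : x ≠ 0 := fun h0 => h1 (by rw [h0, map_zero])
      have h2 : j x ^ 8 - 1 ^ 8 ∈ h.P3.ideal := by
        change red _ = 0
        have h3 := r_star _ r3 (x * star x)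
        rw [star_mul', star_star, mul_comm (star x), map_mul, r_star _ r3 x] at h3
        simp only [map_sub, map_pow, map_one]
        exact mul_left_cancel₀ (pow_ne_zero 4 h1) (by
          simp only [RingHom.comp_apply] at h3 ⊢; linear_combination -h3)
      rw [hζ'.pow_sub_pow_eq_prod_sub_mul _ _ (by norm_num)] at h2
      obtain ⟨η, h3, h4⟩ := Ideal.IsPrime.prod_mem_iff.1 h2
      rw [mul_one] at h4
      have h5 := congrArg (algebraMap (𝓞 Om) Om) ((Polynomial.mem_nthRootsFinset (by norm_num) _).1 h3)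
      rw [map_pow, map_one] at h5
      obtain ⟨t, ht, h6⟩ := exists_tame he h.P3_rchar hy h5
      have h3P : j 3 ∈ h.P3.ideal := r3
      rw [hF hx0, hT (Ki j) kˣ ξ₀.toHomUnits 8 T f (Subgroup.isOpen_mono hk (isOpen_comap _ h.opn))
        (by norm_num) (fun g => Units.ext (h.diag _ (rs_dl j g)).2.2) hf1 hf h.P3 3 y t _
        (by rw [hT', mem_pr he, hP]; exact Or.inl h.P3_rchar) (by rw [h.P3_rchar]; norm_num)
        (val_three he h.P3_rchar) (by
          rw [qv_norm he prime_three h3P, ← map_pow]; exact congrArg _ hy) ht ?_ fun w hw hw3 => ?_]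
      · exact (h.fund _ ht y η hy h6).trans (by
          rw [eq_comm, ← sub_eq_zero]; exact (map_sub red _ _).symm.trans h4)
      · rw [h6, mul_div_cancel_right₀ _ (by rintro rfl; norm_num at hy), Valuation.map_sub_swap]
        have := (h.P3.v_int_lt_one_iff _).2 h4
        rwa [map_sub, ← he] at this
      · have h7 : e m ∈ w.asIdeal := by
          rw [hT', map_mul] at hw
          refine (w.isPrime.mem_or_mem hw).resolve_left fun h7 => hw3 (HeightOneSpectrum.ext ?_)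
          exact ((pr _ h.P3).isMaximal.eq_of_le w.isPrime.ne_top (by
            rw [pr_span he prime_three h3P]; exact (Ideal.span_singleton_le_iff_mem _).2 h7)).symm
        have h8 : e (2 * D ^ 7 * z) ∈ w.asIdeal := by
          rw [hm, hD, Nat.cast_pow, map_pow] at h7
          have := w.asIdeal.mul_mem_right (e (D ^ 6 * z)) (w.isPrime.mem_of_pow_mem _ h7)
          rw [← map_mul] at this
          convert this using 2
          push_cast; ring
        have h9 : (e x : Ki j) - 1 = ((8 : ℕ) : Ki j) ^ 2 * e (2 * D ^ 7 * z) := by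
          have : x = 1 + 8 ^ 2 * (2 * D ^ 7 * z) := by
            rw [hm, hD] at hz; push_cast at hz; linear_combination hz
          conv_lhs => rw [this]
          simp only [map_add, map_mul e (8 ^ 2), map_one, map_pow, map_ofNat]
          push_cast
          exact add_sub_cancel_left _ _
        rw [Units.val_mk0, h9, map_mul, map_pow]
        exact mul_lt_of_lt_one_right (pow_pos (zero_lt_iff.2 (by simp)) 2)
          ((w.valuation_lt_one_iff_mem _).2 h8))
    (fun x hx hxc => by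
      obtain ⟨P, h1⟩ := exists_over he hx
      obtain ⟨g, hg⟩ := exists_isF (K := Ki j) P
      rw [IsF, qv_norm he hx h1] at hg
      have h2 := R hx h1 hxc (rs_dl j g) hg
      have h3 := not_or.1 ((hP P).not.1 (hc hxc h1))
      have h4 : ((x.norm.natAbs : ℕ) : k) = red.comp j x ^ 4 := by
        rw [r_four _ r3, ← Int.cast_natCast, Int.natAbs_of_nonneg (GaussianInt.norm_nonneg x)]
      refine ⟨?_, ?_⟩
      · rw [← h2, ← h4, ← h.det_fr (s := rs _ g) hg h3.1 fun ⟨a, ha⟩ =>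
          pow_ne_zero 4 (r_ne _ r3 hxc.of_mul_right_left) (by
            rw [← h4, ha, Nat.cast_mul, Nat.cast_ofNat, h.three_eq, zero_mul]),
          h.det_diag (rs_dl j g), cube (rs_dl j g)]
        ring
      · rw [← h2, ← cube (rs_dl j g), ← h.conj00 (hcδ ▸ hδ0)]
        refine (R (P := c • P) (x := star x) ((MulEquiv.prime_iff (starRingAut : RingAut Zi)).2 hx)
          (smul_j j hcδ x ▸ (P.smul_mem_smul_ideal c _).2 h1)
          (by simpa [starRingEnd_apply] using hxc.map (starRingEnd Zi)) ?_ ?_).symm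
        · have : c⁻¹ (dl j) = -dl j := by
            rw [← neg_eq_iff_eq_neg, ← map_neg, ← hcδ]; exact c.symm_apply_apply _
          rw [AlgEquiv.mul_apply, AlgEquiv.mul_apply, this, map_neg, rs_dl, map_neg, hcδ, neg_neg]
        · rw [Zsqrtd.norm_conj]; exact Cheb.frob_conj (φ := rs _ g) hg c)
    (fun p hp h1 hpc => by
      have := Fact.mk hp
      have h2 := GaussianInt.prime_of_nat_prime_of_mod_four_eq_three p h1
      obtain ⟨P, h3⟩ := exists_over he h2
      have h4 : P.rchar = p := P.rchar_eq_of_mem hp (by rwa [map_natCast] at h3)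
      obtain ⟨s, hs⟩ := exists_fr P
      have h5 := inert (h4 ▸ h1) hs
      have h6 := (not_or.1 ((hP P).not.1 (hc hpc h3))).1
      rw [← R (s := s * s) h2 h3 hpc (by rw [AlgEquiv.mul_apply, h5, map_neg, h5, neg_neg])
        (by rw [Zsqrtd.norm_natCast, Int.natAbs_mul, Int.natAbs_natCast, ← h4]; exact hs.sq),
        h.sq00 (h5 ▸ hδ0), h.det_fr hs h6 fun h7 => h6
          ((Nat.prime_dvd_prime_iff_eq Nat.prime_three P.rchar_prime).1 h7).symm, h4])
  refine ⟨m, ε, hε, dvd_rfl, hmS, fun P s x hx h1 h2 h3 hs h4 => ?_⟩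
  have h5 : IsCoprime x (3 * m) := hx.irreducible.coprime_iff_not_dvd.2 fun ⟨a, ha⟩ =>
    not_or.2 ⟨h2, h3⟩ ((hP P).1 (by rw [ha, map_mul]; exact P.ideal.mul_mem_right _ h1))
  exact (R hx h1 h5 hs h4).trans (key x h5)

end Crest.Agent.T15.C
end
end

-- ▼ part T15/ExC_49
section

/-!
# Row 15, existence theorem (helper49): ray class characters of `p`-power order are Galois
-/

set_option autoImplicit false

noncomputable section

open NumberField IsDedekindDomain WithZero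
open scoped Pointwise

namespace Crest.Agent.T15.Ex

open Crest.Agent.T15.Art Crest.Agent.R018.Placesx484

/-- an invariant character of a normal subgroup with cyclic quotient extends -/
theorem ext_cyc {G G' C E : Type*} [Group G] [Group G'] [Group C] [IsCyclic C] [Field E]
    [CharZero E] [IsAlgClosed E] (ι : G' →* G) (hι : Function.Injective ι) (ω : G →* C)
    (hr : ι.range = ω.ker) (χ : G' →* Eˣ) (hinv : ∀ x y g, ι y = g * ι x * g⁻¹ → χ y = χ x)
    (hfin : (χ.ker.map ι).index ≠ 0) : ∃ ξ : G →* Eˣ, ∀ x, ξ (ι x) = χ x := by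
  have hc : ∀ x g, ∃ y, ι y = g * ι x * g⁻¹ := fun x g => by
    have : g * ι x * g⁻¹ ∈ ι.range := hr ▸ ω.normal_ker.conj_mem _ (hr ▸ ⟨x, rfl⟩) g
    exact this
  have hM : (χ.ker.map ι).Normal := ⟨by
    rintro _ ⟨x, hx, rfl⟩ g
    obtain ⟨y, hy⟩ := hc x g
    exact ⟨y, (hinv x y g hy).trans hx, hy⟩⟩
  set M := χ.ker.map ι with hMd
  have : Finite (G ⧸ M) := Nat.finite_of_card_ne_zero hfin
  let ω' : G ⧸ M →* C := QuotientGroup.lift M ω (hr ▸ Subgroup.map_le_range _ _)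
  have hz : ω'.ker ≤ Subgroup.center _ := fun q hq => by
    obtain ⟨a, rfl⟩ := QuotientGroup.mk_surjective q
    obtain ⟨x, rfl⟩ : a ∈ ι.range := hr ▸ hq
    rw [Subgroup.mem_center_iff]
    intro b
    obtain ⟨g, rfl⟩ := QuotientGroup.mk_surjective b
    obtain ⟨y, hy⟩ := hc x g⁻¹
    rw [← QuotientGroup.mk_mul, ← QuotientGroup.mk_mul, QuotientGroup.eq]
    refine ⟨x⁻¹ * y, ?_, by rw [map_mul, map_inv, hy]; group⟩
    rw [SetLike.mem_coe, MonoidHom.mem_ker, map_mul, map_inv, hinv x y _ hy, inv_mul_cancel]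
  let _ := commGroupOfCyclicCenterQuotient ω' hz
  have : NeZero ((Monoid.exponent (G ⧸ M) : ℕ) : E) :=
    ⟨Nat.cast_ne_zero.2 Monoid.exponent_ne_zero_of_finite⟩
  let j : G' →* G ⧸ M := (QuotientGroup.mk' M).comp ι
  obtain ⟨ξ, hξ⟩ := MonoidHom.domRestrict_surjective E j.range
    (j.rangeRestrict.liftOfSurjective j.rangeRestrict_surjective ⟨χ, fun x hx => by
      rw [MonoidHom.ker_rangeRestrict] at hx
      obtain ⟨y, hy, h⟩ := (QuotientGroup.eq_one_iff _).1 hx
      exact hι h ▸ hy⟩)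
  exact ⟨ξ.comp (QuotientGroup.mk' M), fun x => (DFunLike.congr_fun hξ (j.rangeRestrict x)).trans
    (MonoidHom.liftOfRightInverse_comp_apply _ _ _ _ x)⟩

section Tower

variable {K E : Type*} [Field K] [Field E] [Algebra K E] (L : IntermediateField K E)

/-- restriction of scalars -/
def rs : (E ≃ₐ[L] E) →* (E ≃ₐ[K] E) := MonoidHom.mk' (fun g => g.restrictScalars K) fun _ _ => rfl

theorem rs_inj : Function.Injective (rs L) := fun _ _ h => AlgEquiv.ext fun x => DFunLike.congr_fun h x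

theorem rs_range : (rs L).range = L.fixingSubgroup := by
  ext g
  exact ⟨by rintro ⟨g, rfl⟩ x; exact g.commutes x, fun h => ⟨L.fixingSubgroupEquiv ⟨g, h⟩, rfl⟩⟩

theorem rs_comap_open [Algebra.IsIntegral K E] {U : Subgroup (E ≃ₐ[K] E)}
    (hU : IsOpen (U : Set (E ≃ₐ[K] E))) : IsOpen (U.comap (rs L) : Set (E ≃ₐ[L] E)) := by
  obtain ⟨M, hM, h⟩ := (krullTopology_mem_nhds_one_iff K E _).1 (hU.mem_nhds U.one_mem)
  let b := Module.finBasis K M
  have : Algebra.IsIntegral L E := Algebra.IsIntegral.tower_top K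
  refine Subgroup.isOpen_mono (H₁ := ⨅ i, MulAction.stabilizer (E ≃ₐ[L] E) (b i : E))
    (fun g hg => h fun x => ?_) ?_
  · have : (rs L g).toLinearMap.comp M.val.toLinearMap = M.val.toLinearMap :=
      b.ext fun i => Subgroup.mem_iInf.1 hg i
    exact LinearMap.congr_fun this x
  · rw [Subgroup.coe_iInf]
    exact isOpen_iInter_of_finite fun i => stabilizer_isOpen_of_isIntegral _

theorem rs_map_open [FiniteDimensional K L] {V : Subgroup (E ≃ₐ[L] E)}
    (hV : IsOpen (V : Set (E ≃ₐ[L] E))) : IsOpen (V.map (rs L) : Set (E ≃ₐ[K] E)) := by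
  obtain ⟨M, hM, h⟩ := (krullTopology_mem_nhds_one_iff L E _).1 (hV.mem_nhds V.one_mem)
  have : FiniteDimensional K (M.restrictScalars K) := Module.Finite.trans (R := K) L M
  refine Subgroup.isOpen_mono (H₁ := (M.restrictScalars K).fixingSubgroup) (fun g hg => ?_)
    (IntermediateField.fixingSubgroup_isOpen _)
  obtain ⟨y, rfl⟩ : g ∈ (rs L).range := by
    rw [rs_range]
    exact fun x => hg ⟨x, M.algebraMap_mem x⟩
  exact ⟨y, h fun x => hg x, rfl⟩

theorem pr_under (P : Place E) : (pr L P).under (𝓞 K) = pr K P :=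
  HeightOneSpectrum.ext (congrArg Place.ideal (Place.res_res K L P))

theorem pow_act {G : Type*} [Group G] [MulSemiringAction G E] {P : Place E} {φ : G} {q : ℕ}
    (h : ∀ x : 𝓞 E, φ • x - x ^ q ∈ P.ideal) (j : ℕ) (x : 𝓞 E) :
    (φ ^ j) • x - x ^ q ^ j ∈ P.ideal := by
  induction j with
  | zero => simp
  | succ j ih =>
    have h1 := P.ideal.mem_of_dvd (sub_dvd_pow_sub_pow _ _ q) ih
    have h2 := P.ideal.add_mem (h ((φ ^ j) • x)) h1
    rwa [sub_add_sub_cancel, ← mul_smul, ← pow_succ', ← pow_mul, ← pow_succ] at h2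

variable [NumberField K] [NumberField L]

theorem exists_over (T : Finset (Pr K)) :
    ∃ T' : Finset (Pr L), ∀ W, W ∈ T' ↔ W.under (𝓞 K) ∈ T := by
  have : {W : Pr L | W.under (𝓞 K) ∈ T}.Finite := by
    refine (T.finite_toSet.biUnion fun w _ => Ideal.finite_factors
      (Ideal.map_ne_bot_of_ne_bot (S := 𝓞 L) w.ne_bot)).subset fun W hW => ?_
    exact Set.mem_biUnion hW (Ideal.dvd_iff_le.2 Ideal.map_comap_le)
  exact ⟨this.toFinset, fun W => this.mem_toFinset⟩

variable [IsGalois K L]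

theorem deg_eq (W : Pr L) :
    W.asIdeal.inertiaDeg (𝓞 K) = (W.under (𝓞 K)).asIdeal.inertiaDegIn (𝓞 L) := by
  have : W.asIdeal.LiesOver (W.under (𝓞 K)).asIdeal := ⟨rfl⟩
  have := W.isPrime
  exact (Ideal.inertiaDegIn_eq_inertiaDeg _ _ (L ≃ₐ[K] L)).symm

theorem deg_dvd (w : Pr K) : w.asIdeal.inertiaDegIn (𝓞 L) ∣ Nat.card (L ≃ₐ[K] L) := by
  have := w.isPrime
  rw [← Ideal.ncard_primesOver_mul_ramificationIdxIn_mul_inertiaDegIn w.asIdeal (𝓞 L) (L ≃ₐ[K] L)]
  exact (dvd_mul_left _ _).mul_left _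

theorem nf_pr {A : Type*} [CommGroup A] (f : Pr K → A) (P : Place E) :
    nf L f (pr L P) = f (pr K P) ^ (pr K P).asIdeal.inertiaDegIn (𝓞 L) := by
  rw [nf, deg_eq, pr_under]

theorem qv_pow (P : Place E) : P.qv L = P.qv K ^ (pr K P).asIdeal.inertiaDegIn (𝓞 L) := by
  have := (pr L P).isMaximal
  have := ((pr L P).under (𝓞 K)).isMaximal
  have : (pr L P).asIdeal.LiesOver ((pr L P).under (𝓞 K)).asIdeal := ⟨rfl⟩
  rw [qv_eq, qv_eq, ← Ideal.absNorm_relNorm (𝓞 K), Ideal.relNorm_eq_pow_of_isMaximal _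
    ((pr L P).under (𝓞 K)).asIdeal, map_pow, deg_eq, pr_under]

theorem Ray.norm {A : Type*} [CommGroup A] {T : Finset (Pr K)} {T' : Finset (Pr L)}
    (hT : ∀ W, W ∈ T' ↔ W.under (𝓞 K) ∈ T) {f : Pr K → A} (h : Ray T f) : Ray T' (nf L f) := by
  obtain ⟨c, hc, h⟩ := h
  refine ⟨c, hc, fun a ha => ?_⟩
  rw [ev_norm]
  exact h _ fun w hw => norm_deep w (Nat.cast_ne_zero.2 hc) (val_nat_le w c) _ fun W hW => by
    rw [map_natCast]; exact ha W ((hT W).2 (hW ▸ hw))

end Tower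

section Main

variable {K E : Type} [Field K] [NumberField K] [Field E] [CharZero E]
  [IsAlgClosed E] [Algebra K E] [IsGalois K E]

theorem ext_step {C : Type*} [Group C] [IsCyclic C] (ω : (E ≃ₐ[K] E) →* C)
    (L : IntermediateField K E) [NumberField L] [IsGalois K L] (hL : L.fixingSubgroup = ω.ker)
    {T : Finset (Pr K)} (hω : ∀ P : Place E, pr K P ∉ T → P.ideal.inertia (E ≃ₐ[K] E) ≤ ω.ker)
    {T' : Finset (Pr L)} (hT : ∀ W, W ∈ T' ↔ W.under (𝓞 K) ∈ T) {f : Pr K → Eˣ}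
    {χ : (E ≃ₐ[L] E) →* Eˣ} (ho : IsOpen (χ.ker : Set (E ≃ₐ[L] E))) (hχ : Av T' (nf L f) χ) :
    ∃ (ξ : (E ≃ₐ[K] E) →* Eˣ) (g : Pr K → Eˣ), IsOpen (ξ.ker : Set (E ≃ₐ[K] E)) ∧
      (∀ w ∈ T, g w = 1) ∧ Av T g ξ ∧ ∀ w, w ∉ T → g w ^ ω.ker.index = f w ^ ω.ker.index := by
  have hr : (rs L).range = ω.ker := (rs_range L).trans hL
  have hT2 : ∀ P : Place E, pr L P ∉ T' ↔ pr K P ∉ T := fun P => by rw [hT, pr_under]
  have ho1 := rs_map_open L ho
  obtain ⟨N, hN⟩ := ProfiniteGrp.exist_openNormalSubgroup_sub_open_nhds_of_one ho1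
    (χ.ker.map (rs L)).one_mem
  have hNk : ∀ x, rs L x ∈ N.toSubgroup → χ x = 1 := fun x hx => by
    obtain ⟨y, hy, h⟩ := hN hx
    exact rs_inj L h ▸ hy
  have hinv : ∀ x y g, rs L y = g * rs L x * g⁻¹ → χ y = χ x := fun x y g h => by
    obtain ⟨P, φ, h1, h2, h3⟩ := cheb_K (N.toSubgroup.comap (rs L)) (rs_comap_open L N.isOpen) T' x
    obtain ⟨ψ, hψ⟩ : g * rs L φ * g⁻¹ ∈ (rs L).range :=
      hr ▸ ω.normal_ker.conj_mem _ (hr ▸ ⟨φ, rfl⟩) g
    have h4 := hNk _ h3
    have h5 := hNk (y⁻¹ * ψ) (by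
      have := N.isNormal'.conj_mem _ h3 g
      rw [map_mul, map_inv] at this ⊢
      rw [h, hψ]
      convert this using 1
      group)
    rw [map_mul, map_inv, inv_mul_eq_one] at h4 h5
    have h6 : IsF (g • P) ψ := fun z => by
      change rs L ψ • z - _ ∈ _
      rw [hψ, qv_pow, qv_eq, pr_smul, ← qv_eq, ← qv_pow, Place.mem_smul_ideal, smul_sub, smul_pow',
        mul_smul, mul_smul, inv_smul_smul]
      exact h2 _
    rw [h4, h5, hχ P h1 φ h2, hχ _ (by rw [hT2, pr_smul, ← hT2]; exact h1) ψ h6, nf_pr, nf_pr,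
      pr_smul]
  have := Subgroup.quotient_finite_of_isOpen _ ho1
  obtain ⟨ξ, hξ⟩ := ext_cyc (rs L) (rs_inj L) ω hr χ hinv Subgroup.index_ne_zero_of_finite
  obtain ⟨g, hg1, hg⟩ := exists_av T ξ fun P hP u hu => by
    obtain ⟨y, rfl⟩ : u ∈ (rs L).range := hr ▸ hω P hP hu
    rw [MonoidHom.mem_ker, hξ]
    exact hχ.inertia_le ((hT2 P).2 hP) hu
  refine ⟨ξ, g, Subgroup.isOpen_mono (fun a ha => ?_) ho1, hg1, hg, fun w hw => ?_⟩
  · obtain ⟨y, hy, rfl⟩ := ha
    exact (hξ y).trans hy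
  obtain ⟨P, rfl⟩ := exists_pr (E := E) w
  obtain ⟨φ, hφ⟩ := exists_isF (K := K) P
  obtain ⟨ψ, hψ⟩ := exists_isF (K := L) P
  obtain ⟨y, hy⟩ : φ ^ ω.ker.index ∈ (rs L).range := hr ▸ ω.ker.pow_index_mem φ
  obtain ⟨k, hk⟩ : (pr K P).asIdeal.inertiaDegIn (𝓞 L) ∣ ω.ker.index := by
    rw [← hL, ← IntermediateField.restrictNormalHom_ker, Subgroup.index_ker,
      MonoidHom.range_eq_top.2 (AlgEquiv.restrictNormalHom_surjective E), Subgroup.card_top]
    exact deg_dvd L _
  have h1 : y * (ψ ^ k)⁻¹ ∈ P.ideal.inertia (E ≃ₐ[L] E) := fun x => by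
    have h2 := pow_act hφ ω.ker.index ((ψ ^ k)⁻¹ • x)
    have h3 := pow_act hψ k ((ψ ^ k)⁻¹ • x)
    rw [qv_pow, ← pow_mul, ← hk, smul_inv_smul] at h3
    rw [← hy] at h2
    have := P.ideal.sub_mem h2 h3
    rw [sub_sub_sub_cancel_right] at this
    rw [mul_smul]
    exact this
  have h4 := hχ.inertia_le ((hT2 P).2 hw) h1
  rw [MonoidHom.mem_ker, map_mul, map_inv, mul_inv_eq_one, map_pow, hχ P ((hT2 P).2 hw) ψ hψ, nf_pr,
    ← pow_mul, ← hk] at h4
  rw [← hg P hw φ hφ, ← map_pow, ← hy, hξ, h4]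

omit [NumberField K] [CharZero E] [IsAlgClosed E] [IsGalois K E] in
theorem mem_ker_cyc {n : ℕ} [NeZero n] {μ : E} (hμ : IsPrimitiveRoot μ n) (g : E ≃ₐ[K] E) :
    g ∈ (hμ.autToPow K).ker ↔ g μ = μ := by
  have h1 := hμ.autToPow_spec K (1 : E ≃ₐ[K] E)
  rw [map_one, AlgEquiv.one_apply] at h1
  rw [MonoidHom.mem_ker, ← hμ.autToPow_spec K g]
  refine ⟨fun h => h ▸ h1, fun h => Units.ext (ZMod.val_injective n ?_)⟩
  exact hμ.pow_inj (ZMod.val_lt _) (ZMod.val_lt _) (h.trans h1.symm)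

variable [IsTotallyComplex K] [Algebra.IsAlgebraic ℚ E]

theorem ex_units (hA : ArtStmt) {p : ℕ} (hp : p.Prime) (hp2 : p ≠ 2) {T : Finset (Pr K)}
    (hT : ∀ w, w ∉ T → w.valuation K (p : K) = 1) (m : ℕ) : ∀ f : Pr K → Eˣ, (∀ w ∈ T, f w = 1) →
    (∀ w, f w ^ p ^ m = 1) → Ray T f →
    ∃ ξ : (E ≃ₐ[K] E) →* Eˣ, IsOpen (ξ.ker : Set (E ≃ₐ[K] E)) ∧ Av T f ξ := by
  induction m with
  | zero => exact fun f _ hf _ => ⟨1, by simp, fun P _ φ _ => by simpa using (hf _).symm⟩
  | succ m ih =>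
    intro f h1 hf hR
    obtain ⟨n, hn⟩ := Nat.exists_eq_add_one_of_ne_zero (pow_ne_zero (m + 1) hp.ne_zero)
    have : NeZero (p ^ (m + 1)) := ⟨pow_ne_zero _ hp.ne_zero⟩
    have : NeZero ((p ^ (m + 1) : ℕ) : E) := ⟨Nat.cast_ne_zero.2 (NeZero.ne _)⟩
    obtain ⟨μ, hμ⟩ := HasEnoughRootsOfUnity.exists_primitiveRoot E (p ^ (m + 1))
    have := ZMod.isCyclic_units_of_prime_pow p hp hp2 (m + 1)
    have ho : IsOpen ((hμ.autToPow K).ker : Set (E ≃ₐ[K] E)) :=
      Subgroup.isOpen_mono (H₁ := MulAction.stabilizer (E ≃ₐ[K] E) μ)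
        (fun g hg => (mem_ker_cyc hμ g).2 hg) (stabilizer_isOpen_of_isIntegral μ)
    obtain ⟨hfix, hfin, hgal⟩ := facts _ ho
    have hmem : μ ∈ IntermediateField.fixedField (hμ.autToPow K).ker :=
      fun g => (mem_ker_cyc hμ g.1).1 g.2
    generalize IntermediateField.fixedField (hμ.autToPow K).ker = L at hfix hfin hgal hmem
    have : NumberField L := NumberField.of_module_finite K L
    have : IsTotallyComplex L := isTotallyComplex_of_algebra K L
    have hζ : IsPrimitiveRoot (⟨μ, hmem⟩ : L) (n + 1) :=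
      IsPrimitiveRoot.coe_submonoidClass_iff.1 (hn ▸ hμ)
    obtain ⟨T', hT'⟩ := exists_over L T
    obtain ⟨χ, hχo, hχ⟩ := base (E := E) hA hζ (T := T') (f := nf L f) (fun W hW => by
        have : W.asIdeal.LiesOver (W.under (𝓞 K)).asIdeal := ⟨rfl⟩
        rw [← hn, Nat.cast_pow, map_pow, ← map_natCast (algebraMap K L),
          ← HeightOneSpectrum.valuation_liesOver L (W.under (𝓞 K)) W, hT _ (mt (hT' W).2 hW),
          one_pow, one_pow])
      (fun W => by rw [nf, ← pow_mul, mul_comm, pow_mul, ← hn, hf, one_pow]) (hR.norm L hT')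
    obtain ⟨ξ, g, hξo, hg1, hg, hd⟩ := ext_step (hμ.autToPow K) L hfix (T := T) (fun P hP u hu =>
      (mem_ker_cyc hμ u).2 (Place.inertia_root P hu (n := p ^ (m + 1)) (fun h => by
        have h2 := v_eq_one P (hT _ hP)
        rw [map_natCast, Place.v_natCast_eq_one_iff] at h2
        exact h2 (P.rchar_prime.dvd_of_dvd_pow h)) hμ.pow_eq_one)) hT' hχo hχ
    obtain ⟨x, rfl⟩ := Nat.exists_eq_add_one_of_ne_zero hp.ne_zero
    obtain ⟨k, hk⟩ : (hμ.autToPow K).ker.index ∣ x * (x + 1) ^ m := by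
      rw [Subgroup.index_ker]
      refine (Subgroup.card_subgroup_dvd_card _).trans ?_
      rw [Nat.card_eq_fintype_card, ZMod.card_units_eq_totient, Nat.totient_prime_pow_succ hp,
        Nat.add_sub_cancel, mul_comm]
    obtain ⟨η, hηo, hη⟩ := ih (fun w => (f w * (g w)⁻¹) ^ x) (fun w hw => by simp [h1 w hw, hg1 w hw])
      (fun w => by
        by_cases hw : w ∈ T
        · simp [h1 w hw, hg1 w hw]
        · rw [← pow_mul, hk, pow_mul, mul_pow, inv_pow, hd w hw, mul_inv_cancel, one_pow])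
      ((hR.mul ((hg.ray hA hξo hg1).map invMonoidHom)).map (powMonoidHom x))
    refine ⟨invMonoidHom.comp ((η * ξ ^ x) ^ ∑ i ∈ Finset.range (m + 1), (x + 1) ^ i),
      Subgroup.isOpen_mono (H₁ := η.ker ⊓ ξ.ker) (fun a ha => ?_) (hηo.inter hξo),
      (((hη.mul (hg.pow x)).pow _).comp invMonoidHom).mono le_rfl fun w _ => ?_⟩
    · have h2 : η a = 1 := ha.1
      have h3 : ξ a = 1 := ha.2
      simp [h2, h3]
    · have := hf w
      rw [← geom_sum_mul_add, pow_succ, mul_eq_one_iff_inv_eq] at this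
      rw [invMonoidHom_apply, ← mul_pow, inv_mul_cancel_right, ← pow_mul, mul_comm, this]

/-- **Existence theorem** for ray class characters of `p`-power order -/
theorem existence (hA : ArtStmt) {p : ℕ} (hp : p.Prime) (hp2 : p ≠ 2) {T : Finset (Pr K)}
    (hT : ∀ w, w ∉ T → w.valuation K (p : K) = 1) {m : ℕ} {A : Type*} [CommGroup A] [Finite A]
    {f : Pr K → A} (h1 : ∀ w ∈ T, f w = 1) (hf : ∀ w, f w ^ p ^ m = 1) (hR : Ray T f) :
    ∃ ξ : (E ≃ₐ[K] E) →* A, IsOpen (ξ.ker : Set (E ≃ₐ[K] E)) ∧ Av T f ξ := by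
  have : NeZero ((Monoid.exponent A : ℕ) : E) :=
    ⟨Nat.cast_ne_zero.2 Monoid.exponent_ne_zero_of_finite⟩
  have : Finite (A →* Eˣ) := Nat.finite_of_card_ne_zero (by
    rw [CommGroup.card_monoidHom_of_hasEnoughRootsOfUnity]; exact Nat.card_pos.ne')
  choose ξ ho hξ using fun l : A →* Eˣ => ex_units (E := E) hA hp hp2 hT m (fun w => l (f w))
    (fun w hw => by rw [h1 w hw, map_one]) (fun w => by rw [← map_pow, hf, map_one]) (hR.map l)
  let Ξ : (E ≃ₐ[K] E) →* ((A →* Eˣ) → Eˣ) := MonoidHom.pi ξ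
  let ι : A →* ((A →* Eˣ) → Eˣ) := MonoidHom.pi fun l => l
  have hι : Function.Injective ι := (injective_iff_map_eq_one ι).2 fun a ha => by
    by_contra h
    obtain ⟨l, hl⟩ := CommGroup.exists_apply_ne_one_of_hasEnoughRootsOfUnity A E h
    exact hl (congrFun ha l)
  have hΞo : IsOpen (Ξ.ker : Set (E ≃ₐ[K] E)) :=
    Subgroup.isOpen_mono (H₁ := ⨅ l, (ξ l).ker) (fun g hg => funext (Subgroup.mem_iInf.1 hg))
      (by rw [Subgroup.coe_iInf]; exact isOpen_iInter_of_finite ho)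
  have hΞ : Av T (fun w => ι (f w)) Ξ := fun P hP φ hφ => funext fun l => hξ l P hP φ hφ
  choose a ha using fun g => show ∃ a, ι a = Ξ g by
    obtain ⟨P, φ, h2, h3, h4⟩ := cheb_av Ξ hΞo T g
    exact ⟨_, (hΞ P h2 φ h3).symm.trans h4⟩
  refine ⟨MonoidHom.mk' a fun g h => hι (by rw [map_mul, ha, ha, ha, map_mul]),
    Subgroup.isOpen_mono (fun g hg => hι ?_) hΞo, fun P hP φ hφ => hι ?_⟩
  · exact (ha g).trans (hg.trans (map_one ι).symm)
  · exact (ha φ).trans (hΞ P hP φ hφ)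

end Main

end Crest.Agent.T15.Ex
end
end

-- ▼ part T15/Xi_49

/-!
# Row 15, block C (helper49): the `3`-adic character `(x) ↦ x ^ u` of `ℚ(i)`
-/

set_option autoImplicit false

noncomputable section

open NumberField IsDedekindDomain WithZero
open scoped Pointwise

namespace Crest.Agent.T15.Ex

open Crest.Agent.T15.Art Crest.Agent.R018.Placesx484

section Gen

variable {K : Type*} [Field K] [NumberField K] [IsPrincipalIdealRing (𝓞 K)]

omit [NumberField K] in
theorem coprime_of_val {s c : 𝓞 K} (hc : c ≠ 0) (h : ∀ w : Pr K, c ∈ w.asIdeal → s ∉ w.asIdeal) :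
    IsCoprime s c := by
  refine isCoprime_of_prime_dvd (fun h => hc h.2) fun z hz h1 h2 => ?_
  exact h ⟨Ideal.span {z}, (Ideal.span_singleton_prime hz.ne_zero).2 hz, by simpa using hz.ne_zero⟩
    (Ideal.mem_span_singleton.2 h2) (Ideal.mem_span_singleton.2 h1)

theorem evI_span {A B : Type*} [CommGroup A] [CommMonoid B] (l : A →* B) (f : Pr K → A)
    (g : 𝓞 K →* B) (c : 𝓞 K) (hU : ∀ x, IsUnit x → g x = 1)
    (hf : ∀ (w : Pr K) (x : 𝓞 K), w.asIdeal = Ideal.span {x} → IsCoprime x c → l (f w) = g x)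
    (x : 𝓞 K) (hx : x ≠ 0) (hc : IsCoprime x c) : l (evI f (Ideal.span {x})) = g x := by
  induction x using UniqueFactorizationMonoid.induction_on_prime with
  | h₁ => exact absurd rfl hx
  | h₂ x hu => rw [Ideal.span_singleton_eq_top.2 hu, evI_top, map_one, hU x hu]
  | h₃ x p hx0 hp ih =>
    let w : Pr K := ⟨Ideal.span {p}, (Ideal.span_singleton_prime hp.ne_zero).2 hp,
      by simpa using hp.ne_zero⟩
    rw [← Ideal.span_singleton_mul_span_singleton, evI_mul f w.ne_bot (by simpa using hx0), map_mul,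
      ih hx0 hc.of_mul_left_right, map_mul, ← hf w p rfl hc.of_mul_left_left, evI_prime]

theorem exists_frac {c : 𝓞 K} (hc : c ≠ 0) {a : K} (h : ∀ w : Pr K, c ∈ w.asIdeal →
    w.valuation K (a - 1) ≤ w.valuation K (c : K)) :
    ∃ s t : 𝓞 K, s ≠ 0 ∧ IsCoprime s c ∧ a * s = (s + c * t : 𝓞 K) := by
  obtain ⟨t, s, hts, e⟩ := IsFractionRing.exists_reduced_fraction (𝓞 K) ((a - 1) / c)
  have hs : (s : 𝓞 K) ≠ 0 := nonZeroDivisors.ne_zero s.2
  have hs' : ((s : 𝓞 K) : K) ≠ 0 := by exact_mod_cast hs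
  have hc' : (c : K) ≠ 0 := by exact_mod_cast hc
  rw [IsFractionRing.mk'_eq_div] at e
  have e2 : (t : K) = (a - 1) / c * (s : 𝓞 K) := (div_eq_iff hs').1 e
  refine ⟨s, t, hs, coprime_of_val hc fun w hw hsw => ?_, ?_⟩
  · have h1 : w.valuation K ((a - 1) / c) ≤ 1 := by
      rw [map_div₀]; exact div_le_one_of_le₀ (h w hw) zero_le
    have h2 : w.valuation K (t : K) < 1 := by
      rw [e2, map_mul]
      exact (mul_le_of_le_one_left' h1).trans_lt ((T24.Hn.Loc.val_int_lt_iff w _).2 hsw)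
    obtain ⟨x, y, hxy⟩ := hts.isCoprime
    exact w.isPrime.ne_top ((Ideal.eq_top_iff_one _).2 (hxy ▸ add_mem
      (Ideal.mul_mem_left _ _ ((T24.Hn.Loc.val_int_lt_iff w _).1 h2)) (Ideal.mul_mem_left _ _ hsw)))
  · have e3 : ((s + c * t : 𝓞 K) : K) = (s : 𝓞 K) + c * (t : K) := by push_cast; rfl
    rw [e3, e2]
    field_simp
    ring

end Gen

theorem xi_gen (hA : ArtStmt) {K E : Type} [Field K] [NumberField K] [IsTotallyComplex K]
    [IsPrincipalIdealRing (𝓞 K)] [Field E] [CharZero E] [IsAlgClosed E] [Algebra.IsAlgebraic ℚ E]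
    [Algebra K E] [IsGalois K E] {p : ℕ} (hp : p.Prime) (hp2 : p ≠ 2) {A : Type} [CommRing A]
    [Finite A] (ψ : 𝓞 K →+* A) {k m u : ℕ} (hk : (p : A) ^ (k + 1) = 0)
    (hU : ∀ x, IsUnit x → ψ x ^ u = 1) (hF : ∀ x, IsCoprime x (p : 𝓞 K) → (ψ x ^ u) ^ p ^ m = 1) :
    ∃ ξ : (E ≃ₐ[K] E) →* Aˣ, IsOpen (ξ.ker : Set (E ≃ₐ[K] E)) ∧ ∀ P : Place E, P.rchar ≠ p →
      P.ideal.inertia (E ≃ₐ[K] E) ≤ ξ.ker ∧ ∀ x : 𝓞 K, (pr K P).asIdeal = Ideal.span {x} →
        ∀ φ, IsF P φ → (ξ φ : A) = ψ x ^ u := by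
  classical
  have hp0 : (p : 𝓞 K) ≠ 0 := Nat.cast_ne_zero.2 hp.ne_zero
  obtain ⟨T, hT⟩ : ∃ T : Finset (Pr K), ∀ w, w ∈ T ↔ (p : 𝓞 K) ∈ w.asIdeal :=
    ⟨(Ideal.finite_factors (I := Ideal.span {(p : 𝓞 K)}) (by simpa using hp.ne_zero)).toFinset,
      fun w => by simp [Ideal.dvd_span_singleton]⟩
  have hcop : ∀ (w : Pr K) (x : 𝓞 K), w.asIdeal = Ideal.span {x} →
      (IsCoprime x (p : 𝓞 K) ↔ w ∉ T) := fun w x hx => by
    rw [hT]
    refine ⟨fun ⟨a, b, h⟩ hw => w.isPrime.ne_top ((Ideal.eq_top_iff_one _).2 (h ▸ add_mem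
      (Ideal.mul_mem_left _ _ (hx ▸ Ideal.mem_span_singleton_self x)) (Ideal.mul_mem_left _ _ hw))),
      fun hw => coprime_of_val hp0 fun v hv hxv => hw ?_⟩
    rwa [w.isMaximal.eq_of_le v.isPrime.ne_top (hx ▸ (Ideal.span_singleton_le_iff_mem _).2 hxv)]
  have hex : ∀ w : Pr K, ∃ a : Aˣ, (w ∈ T → a = 1) ∧ ∀ x : 𝓞 K, w.asIdeal = Ideal.span {x} →
      IsCoprime x (p : 𝓞 K) → (a : A) = ψ x ^ u := fun w => by
    by_cases hw : w ∈ T
    · exact ⟨1, fun _ => rfl, fun x hx h => absurd hw ((hcop w x hx).1 h)⟩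
    obtain ⟨y, hy⟩ := (IsPrincipalIdealRing.principal w.asIdeal).principal
    have h1 := hF y ((hcop w y hy).2 hw)
    refine ⟨(IsUnit.of_pow_eq_one h1 (pow_ne_zero _ hp.ne_zero)).unit, fun h => absurd h hw,
      fun x hx _ => ?_⟩
    obtain ⟨e, rfl⟩ := Ideal.span_singleton_eq_span_singleton.1 (hy.symm.trans hx)
    rw [IsUnit.unit_spec, map_mul, mul_pow, hU e e.isUnit, mul_one]
  choose f hf1 hf using hex
  obtain ⟨ξ, ho, hξ⟩ := existence (E := E) hA hp hp2 (T := T) (m := m) (f := f) (fun w hw => by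
      simpa using (w.valuation_eq_one_iff_notMem (K := K)).2 (mt (hT w).2 hw)) hf1 (fun w => by
      by_cases hw : w ∈ T
      · rw [hf1 w hw, one_pow]
      obtain ⟨y, hy⟩ := (IsPrincipalIdealRing.principal w.asIdeal).principal
      exact Units.ext (by rw [Units.val_pow_eq_pow_val, hf w y hy ((hcop w y hy).2 hw),
        hF y ((hcop w y hy).2 hw), Units.val_one])) ⟨p ^ (k + 1), pow_ne_zero _ hp.ne_zero,
      fun a ha => by
        obtain ⟨s, t, hs, hc, e⟩ := exists_frac (c := (p : 𝓞 K) ^ (k + 1)) (pow_ne_zero _ hp0)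
          (a := a) fun w hw => by
            simpa using (ha w ((hT w).2 (w.isPrime.mem_of_pow_mem _ hw))).le
        have hs' : (s : K) ≠ 0 := by exact_mod_cast hs
        have hc1 : IsCoprime s (p : 𝓞 K) := hc.of_isCoprime_of_dvd_right (dvd_pow_self _ k.succ_ne_zero)
        have hc2 : IsCoprime (s + (p : 𝓞 K) ^ (k + 1) * t) (p : 𝓞 K) := by
          rw [pow_succ', mul_assoc]; exact hc1.add_mul_left_left _
        have h0 : s + (p : 𝓞 K) ^ (k + 1) * t ≠ 0 := fun h0 => by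
          rw [h0] at e
          exact mul_ne_zero a.ne_zero hs' (by simpa using e)
        have key := fun x hx hc => evI_span (Units.coeHom A) f
          ((powMonoidHom u).comp ψ.toMonoidHom) (p : 𝓞 K) hU hf x hx hc
        have h2 : ev f (a * Units.mk0 _ hs') = ev f (Units.mk0 _ hs') := Units.ext (by
          rw [ev_int f _ _ e, ev_int f _ s rfl]
          refine (key _ h0 hc2).trans (Eq.trans ?_ (key _ hs hc1).symm)
          simp [hk])
        rwa [map_mul, mul_eq_right] at h2⟩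
  refine ⟨ξ, ho, fun P hP => ?_⟩
  have hw : pr K P ∉ T := fun h => by
    have h1 : algebraMap (𝓞 K) (𝓞 E) (p : 𝓞 K) ∈ P.ideal := (hT _).1 h
    rw [map_natCast] at h1
    exact hP (Place.rchar_eq_of_mem P hp h1)
  exact ⟨hξ.inertia_le hw, fun x hx φ hφ => by
    rw [hξ P hw φ hφ, hf _ x hx ((hcop _ x hx).2 hw)]⟩

section Zi

open Crest.Agent.T15.C

theorem zi_norm (x : Zi) : Algebra.norm ℤ x = x.norm := by
  let b : Module.Basis (Fin 2) ℤ Zi := Module.Basis.ofEquivFun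
    { toFun := fun x => ![x.re, x.im]
      invFun := fun v => ⟨v 0, v 1⟩
      map_add' := fun x y => by ext i; fin_cases i <;> simp
      map_smul' := fun c x => by ext i; fin_cases i <;> simp
      left_inv := fun x => rfl
      right_inv := fun v => by ext i; fin_cases i <;> rfl }
  have h0 : b 0 = ⟨1, 0⟩ := by rw [Module.Basis.coe_ofEquivFun]; rfl
  have h1 : b 1 = ⟨0, 1⟩ := by rw [Module.Basis.coe_ofEquivFun]; rfl
  have h2 : ∀ y i, b.repr y i = ![y.re, y.im] i := fun _ _ => rfl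
  rw [Algebra.norm_eq_matrix_det b, Matrix.det_fin_two]
  simp [Algebra.leftMulMatrix_eq_repr_mul, h0, h1, h2, Zsqrtd.norm_def]

theorem zi_unit {x : Zi} (h : IsUnit x) : x ^ 4 = 1 := by
  have h1 := (Zsqrtd.norm_eq_one_iff' (by norm_num) x).2 h
  obtain ⟨a, b⟩ := x
  simp only [Zsqrtd.norm_def] at h1
  have : a ≤ 1 ∧ -1 ≤ a ∧ b ≤ 1 ∧ -1 ≤ b :=
    ⟨by nlinarith [sq_nonneg b], by nlinarith [sq_nonneg b], by nlinarith [sq_nonneg a],
      by nlinarith [sq_nonneg a]⟩
  obtain ⟨h2, h3, h4, h5⟩ := this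
  interval_cases a <;> interval_cases b <;> first | decide | simp at h1

theorem zi_pow_eight {x : Zi} (h : IsCoprime x 3) : (3 : Zi) ∣ x ^ 8 - 1 := by
  have h3 : ∀ y : Zi, (3 : Zi) ∣ y ↔ (3 : ℤ) ∣ y.re ∧ (3 : ℤ) ∣ y.im := fun y => by
    simpa using Zsqrtd.intCast_dvd 3 y
  have h1 : (3 : Zi) ∣ x - ⟨x.re % 3, x.im % 3⟩ := by
    rw [h3]; constructor <;> simp <;> omega
  have h2 : (3 : Zi) ∣ (⟨x.re % 3, x.im % 3⟩ : Zi) ^ 8 - 1 := by
    have h4 : ¬ (x.re % 3 = 0 ∧ x.im % 3 = 0) := fun h4 => by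
      have := zi_unit (h.symm.isUnit_of_dvd ((h3 x).2 ⟨by omega, by omega⟩))
      exact absurd this (by decide)
    have a1 := Int.emod_nonneg x.re (by norm_num : (3 : ℤ) ≠ 0)
    have a2 := Int.emod_lt_of_pos x.re (by norm_num : (0 : ℤ) < 3)
    have b1 := Int.emod_nonneg x.im (by norm_num : (3 : ℤ) ≠ 0)
    have b2 := Int.emod_lt_of_pos x.im (by norm_num : (0 : ℤ) < 3)
    generalize x.re % 3 = a at *
    generalize x.im % 3 = b at *
    rw [h3]
    interval_cases a <;> interval_cases b <;> first | decide | simp at h4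
  simpa using dvd_add (h1.trans (sub_dvd_pow_sub_pow _ _ 8)) h2

theorem xiStmt (hA : ArtStmt) (hQ : QiStmt) : XiStmt := by
  classical
  rintro j A _ _ φ ⟨k, hk⟩ u ⟨v, rfl⟩
  obtain ⟨hfin, htc, e, he⟩ := hQ j
  have : NumberField (Ki j) := NumberField.of_module_finite ℚ _
  have : IsPrincipalIdealRing (𝓞 (Ki j)) := IsPrincipalIdealRing.of_surjective e e.surjective
  obtain ⟨ξ, ho, hξ⟩ := xi_gen (K := Ki j) (E := Om) hA Nat.prime_three (by norm_num)
    (φ.comp e.symm.toRingHom) (k := k) (m := k) (u := 8 * v) (by simp [pow_succ, hk])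
    (fun x hx => by
      have := zi_unit (hx.map e.symm)
      simp only [RingHom.comp_apply, RingEquiv.toRingHom_eq_coe, RingEquiv.coe_toRingHom]
      rw [← map_pow, show 8 * v = 4 * (2 * v) by ring, pow_mul, this, one_pow, map_one])
    (fun x hx => by
      have h1 := map_dvd φ (zi_pow_eight (x := e.symm x) (by simpa [map_ofNat] using hx.map e.symm.toRingHom))
      rw [map_sub, map_pow, map_one, map_ofNat] at h1
      have h2 := dvd_sub_pow_of_dvd_sub (p := 3) (by simpa using h1) k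
      rw [Nat.cast_ofNat, pow_succ, hk, zero_mul, zero_dvd_iff, one_pow, sub_eq_zero] at h2
      simp only [RingHom.comp_apply, RingEquiv.toRingHom_eq_coe, RingEquiv.coe_toRingHom]
      rw [pow_mul, pow_right_comm, h2, one_pow])
  have hfix : ∀ g : Gam, g (dl j) = dl j → ∃ y, rs (Ki j) y = g := fun g hg => by
    have h1 : MulAction.stabilizer Gam (dl j) ≤ (Ki j).fixingSubgroup :=
      (IntermediateField.le_iff_le _ _).1 (IntermediateField.adjoin_simple_le_iff.2 fun g => g.2)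
    have h2 := h1 hg
    rwa [← rs_range] at h2
  let X : Gam → A := fun g => if h : ∃ y, rs (Ki j) y = g then ξ h.choose else 1
  have hX : ∀ y, X (rs (Ki j) y) = ξ y := fun y => by
    have h : ∃ z, rs (Ki j) z = rs (Ki j) y := ⟨y, rfl⟩
    simp only [X, dif_pos h, rs_inj _ h.choose_spec]
  refine ⟨X, ?_, fun g h hg hh => ?_, ⟨ξ.ker.map (rs (Ki j)), rs_map_open _ ho, ?_⟩,
    fun P hP t ht h => ?_, fun P s x hx hP h3 _ hs hF => ?_⟩
  · rw [← map_one (rs (Ki j)), hX, map_one, Units.val_one]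
  · obtain ⟨y, rfl⟩ := hfix g hg
    obtain ⟨z, rfl⟩ := hfix h hh
    rw [← map_mul, hX, hX, hX, map_mul, Units.val_mul]
  · rintro _ ⟨y, hy, rfl⟩ -
    rw [hX, show ξ y = 1 from hy, Units.val_one]
  · obtain ⟨y, rfl⟩ := hfix t h
    rw [hX, show ξ y = 1 from (hξ P hP).1 ht, Units.val_one]
  · obtain ⟨y, rfl⟩ := hfix s hs
    have hx' : Prime (e x) := (MulEquiv.prime_iff e).2 hx
    have h1 : (pr (Ki j) P).asIdeal = Ideal.span {e x} :=
      ((((Ideal.span_singleton_prime hx'.ne_zero).2 hx').isMaximal (by simpa using hx.ne_zero)).eq_of_le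
        (pr (Ki j) P).isPrime.ne_top ((Ideal.span_singleton_le_iff_mem _).2
          (show algebraMap _ (𝓞 Om) (e x) ∈ P.ideal from he x ▸ hP))).symm
    have h2 : P.qv (Ki j) = x.norm.natAbs := by
      rw [qv_eq, h1, Ideal.absNorm_span_singleton, ← zi_norm]
      exact congrArg Int.natAbs (Algebra.norm_eq_of_algEquiv e.toIntAlgEquiv x)
    rw [hX, (hξ P h3).2 _ h1 y fun z => h2 ▸ hF z]
    simp

end Zi

end Crest.Agent.T15.Ex
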