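import Crest.Agent.T15.Cl_28_Mg
import Crest.Agent.T15.QTop_22_Mg
import Crest.Agent.T15.Zl_15
import Crest.Agent.T15.Cert_15_Mg
import Crest.Agent.T15.Xi_49_Mg
import Crest.Agent.T15.Res_67
import Crest.Agent.T15.Dih_27
import Crest.Agent.T15.TwSel_6_Mg
import Crest.Agent.T15.Qi_28
import Crest.Agent.T15.ModI_44_Mg
import Crest.Agent.T15.CUnr_25
import Crest.Agent.T15.FlR_23
import Crest.Agent.T15.F3Ch_90
import Crest.Agent.T15.MoB_29
import Crest.Agent.T15.Ar_22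
import Crest.Agent.T15.TopB_88
import Crest.Agent.T15.FlG_23
import Crest.Agent.T15.FDef_67
import Crest.Agent.T15.Pack_67
import Crest.Agent.T15.Rk5_31_Mg
import Mathlib
import Crest.Agent.T15.HtDef_95
import Crest.Agent.T15.AjC_55
import Crest.Agent.T15.AxC_14
import Crest.Agent.T15.Jc_16_Mg
import Crest.Agent.T15.FaS_49
import Crest.Agent.T15.EscA_99
import Crest.Agent.T15.RatB_42
import Crest.Agent.T15.Int_42
import Crest.Agent.R007.RatDesc

-- ▼ part T15/QAll_33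
section

/-!
# Row 15, block Q: assembly (helper33)
-/

set_option autoImplicit false

namespace Crest.Agent.T15.QAll

theorem sqStmt : Cm.SqStmt := fun p q hp hq hp8 hq8 _ _ _ _ hδ hθ hπ σ hσ hO ha hT =>
  CmD.sqrtp p q hp hq hp8 hq8 hδ hθ hπ σ hσ hO ha hT

theorem cmStmt : Q.CMStmt := Cm.cm_of_cl sqStmt Cm.clStmt

/-- **block Q** -/
theorem qStmt : Top.QStmt := Q.q_top cmStmt Fb.k4 (Zl.qFix Nat.prime_two)

end Crest.Agent.T15.QAll
end

-- ▼ part T15/TopE_88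
section

/-!
# Row 15: the finished blocks plugged into the final glue (helper88)
-/

set_option autoImplicit false

noncomputable section

namespace Crest.Agent.T15.Top

theorem modI_88 : C.ModI :=
  C.modI (C.epsStmt_of (Tame.tameStmt Art.artin) Qi.qiStmt) Th.thStmt
    (Ex.xiStmt Art.artin Qi.qiStmt)

theorem final2 {Lk : LkT} {D : Nb} {G : Type} [Group G] {𝓛 : R.Lv G} (hA : PrAP.APStmt)
    (hF : AllX fun X => FStmt X Lk D) (hHt : HtStmt Lk) (hR : R.RStmt) (hZ : C.ZeroStmt)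
    (hT : AllX fun X => R.TOut X 𝓛) (hEsc : R.EscOut 𝓛) :
    ¬ ComputablePred Crest.NumberTheoryR.PolyCode.HasRatZero :=
  final (Cert.lglue_of hA T15.Lk.lkStmt) QAll.qStmt hF hHt embStmt extStmt Rb.resStmt
    (fun _ _ h3 L => Dih.dihStmt L h3) hR
    (TwAsm.twStmt_of EqU.eqStmt Tw.selStmt C.unrStmt hZ) modI_88
    (fun _ _ h3 L => FlTop.l3Out h3 L) hT hEsc

end Crest.Agent.T15.Top
end
end

-- ▼ part T15/F3A_80
section

/-!
# Row 15, block F (helper80): the certificate at `3`, valuations and fixed elements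
-/

set_option autoImplicit false

namespace Crest.Agent.T15.F3

open scoped NNReal

variable {C : Type*} [Field C] {v : Valuation C ℝ≥0}

theorem v_two_80 (h3 : v 3 < 1) : v 2 = 1 := by
  have : (2 : C) = 3 - 1 := by norm_num
  rw [this, v.map_sub_eq_of_lt_right (by simpa using h3), map_one]

theorem v_of_sq_80 {x u : C} (h : x ^ 2 = u) (hu : v u = 1) : v x = 1 := by
  rw [← pow_eq_one_iff_of_nonneg zero_le two_ne_zero, ← map_pow, h, hu]

/-- one of `x + y`, `x - y` is a unit -/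
theorem v_add_80 (h2 : v 2 = 1) {x y r : C} (h : x ^ 2 - y ^ 2 = r) (hx : v x = 1) (hy : v y ≤ 1) :
    v (x + y) = 1 ∨ v (x + y) = v r := by
  rcases (v.map_sub_le hx.le hy).eq_or_lt with h1 | h1
  · right
    have : r = (x + y) * (x - y) := by rw [← h]; ring
    rw [this, map_mul, h1, mul_one]
  · left
    have : x + y = 2 * x - (x - y) := by ring
    have h2x : v (2 * x) = 1 := by rw [map_mul, h2, hx, mul_one]
    rw [this, v.map_sub_eq_of_lt_left (h2x ▸ h1), h2x]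

/-- the valuations of the constants of the normal form at `3` -/
theorem vals3_80 (h3 : v 3 < 1) (h30 : v 3 ≠ 0) {p1 p2 p3 d1 d2 d3 t al be : C}
    (v1 : v p1 = v 3 ^ 4) (v2 : v p2 = 1) (v3 : v p3 = 1) (w1 : v d1 = 1) (w2 : v d2 = 1)
    (w3 : v d3 = 1) (vt : v t = v 3 ^ 2) (hal : al ^ 2 = -p2 ^ 3 * d2) (hbe : be ^ 2 = p3 ^ 3 * d3)
    (e1 : al ^ 2 - be ^ 2 = p1 ^ 3 * d1)
    (e2 : (be * d3 * p2) ^ 2 - (al * d2 * p3) ^ 2 = -p2 ^ 2 * p3 ^ 2 * p1 * d1 ^ 3) :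
    v al = 1 ∧ v be = 1 ∧ v (-p1 / d1) = v 3 ^ (4 * 1 : ℤ) ∧ v (-d1 / p1) = v 3 ^ (4 * (-1) : ℤ) ∧
      (v ((al + be) ^ 2 / (p1 ^ 3 * d1)) = v 3 ^ (4 * 3 : ℤ) ∨
        v ((al + be) ^ 2 / (p1 ^ 3 * d1)) = v 3 ^ (4 * (-3) : ℤ)) ∧
      ∃ m : ℤ, v (t * p1 * (d3 * p2 / al + d2 * p3 / be) / 2) = v 3 ^ (2 * m) := by
  have h2 := v_two_80 h3
  have va : v al = 1 := v_of_sq_80 hal (by simp [v2, w2])
  have vb : v be = 1 := v_of_sq_80 hbe (by simp [v3, w3])
  have a0 : al ≠ 0 := fun h => by simp [h] at va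
  have b0 : be ≠ 0 := fun h => by simp [h] at vb
  refine ⟨va, vb, by simp [v1, w1], by simp [v1, w1], ?_, ?_⟩
  · rcases v_add_80 h2 e1 va vb.le with h | h
    · right
      simp only [map_div₀, map_pow, map_mul, h, v1, w1]
      norm_num [← pow_mul]
    · left
      simp only [map_div₀, map_pow, map_mul, h, v1, w1]
      norm_num [← pow_mul]
      field_simp
  · have e : t * p1 * (d3 * p2 / al + d2 * p3 / be) / 2 =
        t * p1 * (be * d3 * p2 + al * d2 * p3) / (2 * al * be) := by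
      have : (2 : C) ≠ 0 := fun h => by simp [h] at h2
      field_simp
    rw [e]
    rcases v_add_80 h2 e2 (by simp [vb, w3, v2]) (by simp [va, w2, v3]) with h | h
    · refine ⟨3, ?_⟩
      simp only [map_div₀, map_mul, h, v1, vt, h2, va, vb]
      norm_num [← pow_add]
    · refine ⟨5, ?_⟩
      simp only [map_div₀, map_mul, map_pow, Valuation.map_neg, h, v1, vt, h2, va, vb, v2, v3, w1]
      norm_num [← pow_add]

variable {G : Type*} [Group G] [MulSemiringAction G C]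

/-- inertia fixes the square roots of fixed units -/
theorem fix_of_sq_80 (h2 : v 2 = 1) (hres : ∀ (g : G) (a : C), v a ≤ 1 → v (g • a - a) < 1) {x u : C}
    (h : x ^ 2 = u) (hu : v u = 1) {g : G} (hg : g • u = u) : g • x = x := by
  have hx := v_of_sq_80 h hu
  have : (g • x) ^ 2 = x ^ 2 := by rw [← smul_pow', h, hg]
  rcases sq_eq_sq_iff_eq_or_eq_neg.1 this with h1 | h1
  · exact h1
  · have := hres g x hx.le
    rw [h1, show -x - x = -(2 * x) by ring, Valuation.map_neg, map_mul, h2, hx, mul_one] at this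
    exact absurd this (lt_irrefl _)

/-- flatness passes to a bigger field -/
theorem flat_map_80 [IsAlgClosed C] [CharZero C] {C' : Type*} [Field C'] [IsAlgClosed C'] [CharZero C']
    {v' : Valuation C' ℝ≥0} [MulSemiringAction G C'] (j : C →+* C')
    (hj : ∀ x, v x ≤ 1 → v' (j x) ≤ 1) (hg : ∀ (g : G) (x : C), j (g • x) = g • j x)
    {V : Type*} [AddCommGroup V] [Finite V] {ρ : G → V → V} (h : FlR.Flat v G ρ) :
    FlR.Flat v' G ρ := by
  refine FlR.flat_of_sep fun u hu => ?_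
  obtain ⟨χ, hχ⟩ := FlR.exists_char (Ω := C) hu
  refine ⟨(j : C →* C').compAddChar χ, fun h1 => hχ (j.injective (by simpa using h1)), fun u => ?_⟩
  exact FlR.map_mem j hj hg (h u χ)

end Crest.Agent.T15.F3
end

-- ▼ part T15/F3Cert_80
section

/-!
# Row 15, block F (helper80): the certificate at `3`
-/

set_option autoImplicit false
set_option linter.unusedSectionVars false

namespace Crest.Agent.T15.F3

open Polynomial
open scoped NNReal
open Crest.Agent.R013.RR7_948 Crest.Agent.R013.RR8_948 Crest.Agent.R013.RR9_948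
open Crest.Agent.R013.RR11_948 Crest.Agent.R013.RR12_948 Crest.Agent.R013.PicD_398
open Crest.Agent.R013.Frob1_914 Crest.Agent.T15.Hy
open Crest.Agent.T15.C (Om Gam In)

/-- helper90's theorem on a chain of three elliptic curves -/
def ChainStmt : Prop :=
  ∀ (C K : Type) [Field C] [IsAlgClosed C] [CharZero C] [Field K] [Algebra C K]
    [Algebra (RatFunc C) K] [IsScalarTower C (RatFunc C) K] [FiniteDimensional (RatFunc C) K]
    [Algebra.IsSeparable (RatFunc C) K] (v : Valuation C ℝ≥0)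
    (G : Type) [Group G] [MulSemiringAction G C],
    (∀ (g : G) (a : C), v (g • a) = v a) → (∀ (g : G) (a : C), v a ≤ 1 → v (g • a - a) < 1) →
    (∀ a : C, (Set.range fun g : G => g • a).Finite) →
    ∀ (e : G → SI C K C K), (∀ g a, (e g).s a = g • a) →
    ∀ (c a0 a1 a2 p0 p1 p2 s0 s1 s2 : C) (z w : K), Hyp (Mo.Fm c a0 a1 a2) z w →
    v a0 < v a1 → v a1 < v a2 → a0 ≠ 0 → v 2 = 1 →
    (∀ g : G, g • p0 = p0 ∧ g • p1 = p1 ∧ g • p2 = p2 ∧ g • s0 = s0 ∧ g • s1 = s1 ∧ g • s2 = s2) →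
    v p0 ^ 2 = v a0 → v p1 ^ 2 = v a1 → v p2 ^ 2 = v a2 →
    v s0 ^ 2 = v c * v p0 ^ 3 * v a1 * v a2 → v s1 ^ 2 = v c * v p1 ^ 5 * v a2 →
    v s2 ^ 2 = v c * v p2 ^ 7 → (∀ g, (e g).f z = z ∧ (e g).f w = w) →
    ∀ (n : ℕ), n ≠ 0 →
    ∀ (V : Type) [AddCommGroup V] [Finite V] (i : V →+ Pic C K), Function.Injective i →
    (∀ u, n • i u = 0) → ∀ ρ : G → V → V, (∀ g u, i (ρ g u) = (e g).pic (i u)) → FlR.Flat v G ρ

theorem chainStmt : ChainStmt := by
  intro C K _ _ _ _ _ _ _ _ _ v G _ _ hinv hres horb e he c a0 a1 a2 p0 p1 p2 s0 s1 s2 z w h h01 h12 ha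
    h2 hfix hp0 hp1 hp2 hs0 hs1 hs2 hz n hn V _ _ i hi hV ρ hρ
  exact flat_chain h h2 ha h01 h12 hp0 hp1 hp2 hs0 hs1 hs2 hinv hres horb he (fun g => (hz g).1)
    (fun g => (hz g).2) hfix hn i hi hV hρ

section

variable {C K : Type} [Field C] [IsAlgClosed C] [CharZero C] [Field K] [Algebra C K]
  [Algebra (RatFunc C) K] [IsScalarTower C (RatFunc C) K] [FiniteDimensional (RatFunc C) K]
  [Algebra.IsSeparable (RatFunc C) K] {v : Valuation C ℝ≥0}
  {G : Type} [Group G] [MulSemiringAction G C]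

theorem chain_pow_80 (h3 : v 3 < 1) (hinv : ∀ (g : G) (a : C), v (g • a) = v a)
    (hres : ∀ (g : G) (a : C), v a ≤ 1 → v (g • a - a) < 1)
    (horb : ∀ a : C, (Set.range fun g : G => g • a).Finite) (e : G → SI C K C K)
    (he : ∀ g a, (e g).s a = g • a) {c a0 a1 a2 : C} {z w : K} (h : Hyp (Mo.Fm c a0 a1 a2) z w)
    {m m0 m1 m2 : ℤ} (hc : v c = v 3 ^ (2 * m)) (h0 : v a0 = v 3 ^ (4 * m0))
    (h1 : v a1 = v 3 ^ (4 * m1)) (h2 : v a2 = v 3 ^ (4 * m2)) (l1 : m1 < m0) (l2 : m2 < m1)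
    (hz : ∀ g, (e g).f z = z ∧ (e g).f w = w) {n : ℕ} (hn : n ≠ 0) {V : Type} [AddCommGroup V]
    [Finite V] (i : V →+ Pic C K) (hi : Function.Injective i) (hV : ∀ u, n • i u = 0)
    (ρ : G → V → V) (hρ : ∀ g u, i (ρ g u) = (e g).pic (i u)) : FlR.Flat v G ρ := by
  have p3 : 0 < v 3 := (Valuation.pos_iff v).2 three_ne_zero
  have fx : ∀ (g : G) (k : ℤ), g • (3 : C) ^ k = 3 ^ k := fun g k => by
    change MulSemiringAction.toRingHom G C g _ = _
    rw [map_zpow₀, map_ofNat]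
  refine chainStmt C K v G hinv hres horb e he c a0 a1 a2 (3 ^ (2 * m0)) (3 ^ (2 * m1)) (3 ^ (2 * m2))
    (3 ^ (m + 3 * m0 + 2 * m1 + 2 * m2)) (3 ^ (m + 5 * m1 + 2 * m2)) (3 ^ (m + 7 * m2)) z w h
    ?_ ?_ ?_ (v_two_80 h3) (fun g => ⟨fx g _, fx g _, fx g _, fx g _, fx g _, fx g _⟩) ?_ ?_ ?_ ?_ ?_ ?_
    hz n hn V i hi hV ρ hρ
  · rw [h0, h1]; exact zpow_lt_zpow_right_of_lt_one₀ p3 h3 (by omega)
  · rw [h1, h2]; exact zpow_lt_zpow_right_of_lt_one₀ p3 h3 (by omega)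
  · rintro rfl
    exact (zpow_pos p3 _).ne (by rw [← h0, map_zero])
  all_goals
    simp only [map_zpow₀, hc, h0, h1, h2, ← zpow_natCast, ← zpow_mul, ← zpow_add₀ p3.ne']
    congr 1
    push_cast
    ring

/-- flatness for the normal form with `v₃(p₁) = 4`, `v₃(t) = 2` -/
theorem flat_par_80 (h3 : v 3 < 1) (hinv : ∀ (g : G) (a : C), v (g • a) = v a)
    (hres : ∀ (g : G) (a : C), v a ≤ 1 → v (g • a - a) < 1)
    (horb : ∀ a : C, (Set.range fun g : G => g • a).Finite) (e : G → SI C K C K)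
    (he : ∀ g a, (e g).s a = g • a) (Q : Mo.Par C) (v1 : v Q.p1 = v 3 ^ 4) (v2 : v Q.p2 = 1)
    (v3 : v Q.p3 = 1) (w1 : v Q.d1 = 1) (w2 : v Q.d2 = 1) (w3 : v Q.d3 = 1) (vt : v Q.t = v 3 ^ 2)
    (f1 : ∀ g : G, g • Q.p1 = Q.p1) (f2 : ∀ g : G, g • Q.p2 = Q.p2) (f3 : ∀ g : G, g • Q.p3 = Q.p3)
    {z w : K} (h : Hyp Q.F z w)
    (hz : ∀ g, g • Q.al = Q.al → g • Q.be = Q.be → (e g).f z = z ∧ (e g).f w = w)
    {n : ℕ} (hn : n ≠ 0) {V : Type} [AddCommGroup V]
    [Finite V] (i : V →+ Pic C K) (hi : Function.Injective i) (hV : ∀ u, n • i u = 0)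
    (ρ : G → V → V) (hρ : ∀ g u, i (ρ g u) = (e g).pic (i u)) : FlR.Flat v G ρ := by
  have p3 : 0 < v 3 := (Valuation.pos_iff v).2 three_ne_zero
  obtain ⟨-, -, k1, k2, k3, m, kc⟩ := vals3_80 h3 p3.ne' v1 v2 v3 w1 w2 w3 vt Q.al_sq Q.be_sq
    (by linear_combination Q.sq_sub) (by linear_combination Q.sq_sub3)
  have hz' : ∀ g, (e g).f z = z ∧ (e g).f w = w := fun g => hz g
    (fix_of_sq_80 (v_two_80 h3) hres Q.al_sq (by simp [v2, w2])
      (by simp [Mo.Par.d2, smul_mul', smul_pow', smul_sub, f1, f2, f3]))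
    (fix_of_sq_80 (v_two_80 h3) hres Q.be_sq (by simp [v3, w3])
      (by simp [Mo.Par.d3, smul_mul', smul_pow', smul_sub, f1, f2, f3]))
  rcases k3 with k3 | k3
  · exact chain_pow_80 h3 hinv hres horb e he (c := Q.c) (a0 := Q.a3) (a1 := Q.a1) (a2 := Q.a2)
      (by convert h using 1; simp only [Mo.Par.F, Mo.Fm]; ring) kc k3 k1 k2 (by norm_num)
      (by norm_num) hz' hn i hi hV ρ hρ
  · exact chain_pow_80 h3 hinv hres horb e he (c := Q.c) (a0 := Q.a1) (a1 := Q.a2) (a2 := Q.a3)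
      h kc k1 k2 k3 (by norm_num) (by norm_num) hz' hn i hi hV ρ hρ

omit [IsAlgClosed C] [CharZero C] in
/-- a semilinear automorphism fixing `A, B², u` and the parameters fixes `z, w` -/
theorem fix_zw_80 (e : SI C K C K) (Q : Mo.Par C) (f1 : e.s Q.p1 = Q.p1) (f2 : e.s Q.p2 = Q.p2)
    (f3 : e.s Q.p3 = Q.p3) (ft : e.s Q.t = Q.t) (fa : e.s Q.al = Q.al) (fb : e.s Q.be = Q.be)
    {A B2 u : K} (hA : e.f A = A) (hB : e.f B2 = B2) (hu : e.f u = u) :
    e.f ((Q.map (algebraMap C K)).z A B2 u) = (Q.map (algebraMap C K)).z A B2 u ∧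
      e.f ((Q.map (algebraMap C K)).w A B2 u) = (Q.map (algebraMap C K)).w A B2 u := by
  have hz : e.f ((Q.map (algebraMap C K)).z A B2 u) = (Q.map (algebraMap C K)).z A B2 u := by
    simp [Mo.Par.z, Mo.Par.V', Mo.Par.R', Mo.Par.V, Mo.Par.R, Mo.Par.d2, Mo.Par.d3, e.comm, f1, f2, f3,
      ft, fa, fb, hA, hB, hu, map_ofNat]
  refine ⟨hz, ?_⟩
  simp [Mo.Par.w, hz, Mo.Par.a1, Mo.Par.a2, Mo.Par.b, Mo.Par.d1, e.comm, f1, f2, f3, fa, fb, hA]

end

theorem v_int_80 {C : Type*} [Field C] {v : Valuation C ℝ≥0} (h3 : v 3 < 1) {a : ℤ} (ha : a ≠ 0) :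
    v (a : C) = v 3 ^ padicValInt 3 a := by
  have : Fact (Nat.Prime 3) := ⟨Nat.prime_three⟩
  obtain ⟨b, hb⟩ := padicValInt_dvd (p := 3) a
  have hb3 : ¬ (3 : ℤ) ∣ b := fun ⟨c, hc⟩ => by
    have := (padicValInt_dvd_iff (p := 3) (padicValInt 3 a + 1) a).1 ⟨c, by
      nth_rewrite 1 [hb]; rw [hc]; push_cast; ring⟩
    omega
  have hv : v (b : C) = 1 := by
    have := Fl.Unr.w_natCast h3 (n := b.natAbs) fun h => hb3 (Int.natAbs_dvd_natAbs.1 h)
    rcases Int.natAbs_eq b with h | h <;> rw [h] <;> simpa using this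
  nth_rewrite 1 [hb]
  push_cast
  rw [map_mul, map_pow, hv, mul_one]

/-- **flatness at `3` of the torsion of `Pic` of the curve `Y`** -/
theorem fl_pic_zw {ι : Om →+* ℂ} {P : Top.Plc} (h3 : P.rchar = 3) (L : Fl.Loc3 ι P)
    {del : ℚ} {m p1 p2 p3 t D : ℤ} (hc : Ar.Cert del m p1 p2 p3 t D) (Q : Mo.Par Om)
    (e1 : Q.p1 = p1) (e2 : Q.p2 = p2) (e3 : Q.p3 = p3) (et : Q.t = t)
    {K : Type} [Field K] [Algebra Om K] [Algebra (RatFunc Om) K] [IsScalarTower Om (RatFunc Om) K]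
    [FiniteDimensional (RatFunc Om) K] [Algebra.IsSeparable (RatFunc Om) K] {z w : K}
    (h : Hyp Q.F z w) (e : Gam → SI Om K Om K) (he : ∀ g a, (e g).s a = g a)
    (hz : ∀ g : Gam, g Q.al = Q.al → g Q.be = Q.be → (e g).f z = z ∧ (e g).f w = w)
    {n : ℕ} (hn : n ≠ 0) {V : Type} [AddCommGroup V] [Finite V] (i : V →+ Pic Om K)
    (hi : Function.Injective i) (hV : ∀ u, n • i u = 0) (α : Gam → V → V)
    (hα : ∀ g u, i (α g u) = (e g).pic (i u)) : (Top.Lc.of h3 L).Fl α := by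
  let _ : MulSemiringAction L.G Om := MulSemiringAction.compHom Om L.rG
  have hs : ∀ (g : L.G) (a : Om), g • a = L.rG g a := fun _ _ => rfl
  have h3' : (L.w.comap ι) 3 < 1 := by simpa [map_ofNat] using L.w3
  obtain ⟨n2, n3, n4, n5, n6⟩ := hc.only_p1 (l := 3) Nat.prime_three (by norm_num) hc.three_dvd
  refine flat_map_80 (v := L.w.comap ι) ι (fun x hx => hx) (fun g x => L.iota_rG g x)
    (flat_par_80 h3' (fun g a => ?_) (fun g a ha => ?_) (fun a => ?_) (fun g => e (L.rG g))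
      (fun g a => he _ a) Q ?_ ?_ ?_ ?_ ?_ ?_ ?_ (fun g => ?_) (fun g => ?_) (fun g => ?_) h
      (fun g => hz _) hn i hi hV _ fun g => hα _)
  · simp [hs, L.iota_rG, L.w_G]
  · simpa [hs, L.iota_rG] using L.w_G_sub g ha
  · exact (FlR.finite_orbit (F := ℚ) a).subset (by rintro _ ⟨g, rfl⟩; exact ⟨L.rG g, rfl⟩)
  · rw [e1, v_int_80 h3' hc.p1_ne, hc.v3]
  · rw [e2, v_int_80 h3' hc.p2_ne, Ar.val_zero n2, pow_zero]
  · rw [e3, v_int_80 h3' hc.p3_ne, Ar.val_zero n3, pow_zero]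
  · rw [Mo.Par.d1, e2, e3, ← Int.cast_sub, v_int_80 h3' hc.d1_ne, Ar.val_zero n4, pow_zero]
  · rw [Mo.Par.d2, e1, e3, ← Int.cast_sub, v_int_80 h3' hc.d2_ne, Ar.val_zero n5, pow_zero]
  · rw [Mo.Par.d3, e1, e2, ← Int.cast_sub, v_int_80 h3' hc.d3_ne, Ar.val_zero n6, pow_zero]
  · rw [et, v_int_80 h3' hc.t_ne, hc.v3t]
  · rw [e1, hs, map_intCast]
  · rw [e2, hs, map_intCast]
  · rw [e3, hs, map_intCast]

/-- the same for `Y = ℚbar(A, B², u)` with the Galois action that fixes `A, B², u` -/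
theorem fl_pic {ι : Om →+* ℂ} {P : Top.Plc} (h3 : P.rchar = 3) (L : Fl.Loc3 ι P)
    {del : ℚ} {m p1 p2 p3 t D : ℤ} (hc : Ar.Cert del m p1 p2 p3 t D) (Q : Mo.Par Om)
    (e1 : Q.p1 = p1) (e2 : Q.p2 = p2) (e3 : Q.p3 = p3) (et : Q.t = t)
    {K : Type} [Field K] [Algebra Om K] [Algebra (RatFunc Om) K] [IsScalarTower Om (RatFunc Om) K]
    [FiniteDimensional (RatFunc Om) K] [Algebra.IsSeparable (RatFunc Om) K] {A B2 u : K}
    (h : Mo.IsY Q A B2 u) (e : Gam → SI Om K Om K) (he : ∀ g a, (e g).s a = g a)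
    (hA : ∀ g, (e g).f A = A) (hB : ∀ g, (e g).f B2 = B2) (hu : ∀ g, (e g).f u = u)
    {n : ℕ} (hn : n ≠ 0) {V : Type} [AddCommGroup V] [Finite V] (i : V →+ Pic Om K)
    (hi : Function.Injective i) (hV : ∀ u, n • i u = 0) (α : Gam → V → V)
    (hα : ∀ g u, i (α g u) = (e g).pic (i u)) : (Top.Lc.of h3 L).Fl α :=
  fl_pic_zw h3 L hc Q e1 e2 e3 et h.hyp e he (fun g ha hb => fix_zw_80 (e g) Q
    (by rw [he, e1, map_intCast]) (by rw [he, e2, map_intCast]) (by rw [he, e3, map_intCast])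
    (by rw [he, et, map_intCast]) (by rw [he, ha]) (by rw [he, hb]) (hA g) (hB g) (hu g))
    hn i hi hV α hα

end Crest.Agent.T15.F3
end

-- ▼ part T15/FAll_67
section

/-!
# Row 15, block F (helper67): the assembly
-/

set_option autoImplicit false

noncomputable section

namespace Crest.Agent.T15.FA

open Crest.Agent.R013.PicD_398 Crest.Agent.R013.Frob1_914 Crest.Agent.R013.TP_928
open Crest.Agent.T15.C (Om Gam In)
open Crest.Agent.T15.Top (Plc Lc IsFr FStmt)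
open Crest.Agent.T15.Mo (Par)
open Crest.Agent.T15.Ar (Cert)
open Crest.Agent.T15.Ht (Mdl Is MoStmt ExStmt GalStmt Lk Lim ep)
open Crest.Agent.T15.Rho Crest.Agent.T15.Eb

theorem isY {C : Type} [Field C] [CharZero C] {P : Par C} (M : Mdl P) : Mo.IsY P M.A M.B2 M.u :=
  ⟨two_ne_zero, M.eqs.k0, M.eqs.cub, M.tr, M.gen⟩

theorem opStmt : OpStmt := fun _ M x => by
  obtain ⟨S, hS⟩ := exists_fix_pic M.gen x
  obtain ⟨U, hU, h⟩ := exists_open S
  refine ⟨U, hU, fun σ hσ e he => hS e ?_ fun a ha => by rw [he.2, h σ hσ a ha]⟩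
  rintro _ (rfl | rfl | rfl)
  exacts [he.1.1, he.1.2.1, he.1.2.2.1]

theorem taStmt : TaStmt := fun P M => Rk.ta (isY M).hyp (P.natDegree_F two_ne_zero)

theorem flatStmt (ι : Om →+* ℂ) (Q : Plc) (h3 : Q.rchar = 3) (L : Fl.Loc3 ι Q) :
    FlatStmt (Lc.of h3 L) := by
  intro del m p1 p2 p3 t D P M E hc hP hE n V _ _ i α hn hi hV hα
  exact F3.fl_pic h3 L hc P hP.h1 hP.h2 hP.h3 hP.ht (isY M) E (fun g => (hE g).2)
    (fun g => (hE g).1.1) (fun g => (hE g).1.2.1) (fun g => (hE g).1.2.2.1) hn i hi hV α hα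

theorem exists_par (C : Type) [Field C] [IsAlgClosed C] [CharZero C] {del : ℚ}
    {m p1 p2 p3 t D : ℤ} (h : Cert del m p1 p2 p3 t D) : ∃ P : Par C, Is P p1 p2 p3 t := by
  obtain ⟨al, hal⟩ := IsAlgClosed.exists_pow_nat_eq (-(p2 : C) ^ 3 * ((p3 : C) - p1)) two_pos
  obtain ⟨be, hbe⟩ := IsAlgClosed.exists_pow_nat_eq ((p3 : C) ^ 3 * ((p1 : C) - p2)) two_pos
  exact ⟨⟨p1, p2, p3, t, al, be, by exact_mod_cast h.sum, by exact_mod_cast h.p1_ne,
    by exact_mod_cast h.p2_ne, by exact_mod_cast h.p3_ne, by exact_mod_cast h.d1_ne,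
    by exact_mod_cast h.d2_ne, by exact_mod_cast h.d3_ne, by exact_mod_cast h.t_ne, hal, hbe⟩,
    rfl, rfl, rfl, rfl⟩

theorem exists_ov (hG : GalStmt) {P : Par Om} {p1 p2 p3 t : ℤ} (hP : Is P p1 p2 p3 t) (M : Mdl P)
    (σ : Gam) : ∃ e, Ov M σ e := by
  obtain ⟨e, h1, h2⟩ := (hG Om P M).1 σ.toRingEquiv (by rw [hP.h1, map_intCast])
    (by rw [hP.h2, map_intCast]) (by rw [hP.ht, map_intCast])
  exact ⟨e, h1, fun c => by rw [h2]; rfl⟩

theorem lim (φ : ℤ_[3] →+* ℂ) (τ : ℤ_[3]) {s : ℂ} (hs : s ≠ 0) : Lim (ap τ) (φ τ * s) s := by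
  refine fun u v => ⟨fun h => limit_mul φ τ s (by exact_mod_cast h), fun h m => ?_⟩
  have hφ : ∀ x, φ x = 0 → x = 0 := fun x hx => by
    by_contra h0
    rw [PadicInt.unitCoeff_spec h0, map_mul, map_pow, map_natCast] at hx
    exact mul_ne_zero ((Units.isUnit _).map φ).ne_zero (pow_ne_zero _ (by norm_num)) hx
  have h1 : (u : ℤ_[3]) = v * τ := sub_eq_zero.1 (hφ _ (by
    rw [map_sub, map_mul, map_intCast, map_intCast]
    exact mul_right_cancel₀ hs (by linear_combination -h)))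
  have h2 : ((3 : ℕ) : ℤ_[3]) ^ m ∣ ((u - ap τ m * v : ℤ) : ℤ_[3]) := by
    have := (dvd_sub_ap τ m).mul_left v
    convert this using 1
    push_cast
    rw [h1]; ring
  exact_mod_cast (PadicInt.pow_p_dvd_int_iff m _).1 h2

theorem frob_i {i : Om} (hi : i ^ 2 = -1) {Q : Plc} (hQ : Q.rchar ≠ 2) {σ : Gam} (h : IsFr Q σ) :
    σ i = i ↔ Q.rchar % 4 ≠ 3 := by
  have h4 : i ^ 4 = 1 := by rw [show 4 = 2 * 2 from rfl, pow_mul, hi]; norm_num
  have e : σ i = i ^ Q.rchar := Q.frob_root h (n := 2 ^ 2) (fun e => hQ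
    ((Nat.prime_dvd_prime_iff_eq Q.rchar_prime Nat.prime_two).1
      (Q.rchar_prime.dvd_of_dvd_pow e))) h4
  rw [e, pow_eq_pow_mod _ h4]
  rcases Nat.odd_mod_four_iff.1 (Q.rchar_prime.eq_two_or_odd.resolve_left hQ) with h1 | h1 <;> rw [h1]
  · simp
  · refine iff_of_false (fun h => ?_) (by simp)
    exact two_ne_zero (show (2 : Om) = 0 by linear_combination i * h - (i ^ 2 - 1) * hi + hi)

/-- a fourth root of `l` is moved by an element of order four -/
theorem exists_four {Q : Plc} {lam : Om} (h : lam ^ 4 = Q.rchar) (hQ : Q.rchar ≠ 2) :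
    (∀ σ ∈ In Q, (σ ^ 4) lam = lam) ∧ ∃ σ ∈ In Q, (σ * σ) lam = -lam := by
  have hl : (Q.rchar : Om) ≠ 0 := Nat.cast_ne_zero.2 Q.rchar_prime.ne_zero
  have h0 : lam ≠ 0 := fun e => hl (by rw [← h, e]; norm_num)
  have key : ∀ σ ∈ In Q, ∃ ζ : Om, ζ ^ 4 = 1 ∧ σ lam = ζ * lam ∧ (σ * σ) lam = ζ ^ 2 * lam := by
    intro σ hσ
    have h1 : (σ lam / lam) ^ 4 = 1 := by rw [div_pow, ← map_pow, h, map_natCast, div_self hl]
    have h2 : σ (σ lam / lam) = σ lam / lam := Q.inertia_root hσ (n := 2 ^ 2) (fun e => hQ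
      ((Nat.prime_dvd_prime_iff_eq Q.rchar_prime Nat.prime_two).1
        (Q.rchar_prime.dvd_of_dvd_pow e))) h1
    generalize hζ : σ lam / lam = ζ at h1 h2
    have h3 : σ lam = ζ * lam := (div_eq_iff h0).1 hζ
    exact ⟨ζ, h1, h3, by rw [AlgEquiv.mul_apply, h3, map_mul, h2, h3]; ring⟩
  constructor
  · intro σ hσ
    obtain ⟨ζ, h1, -, h2⟩ := key σ hσ
    have h3 : (σ * σ) (ζ ^ 2) = ζ ^ 2 := by
      rcases sq_eq_one_iff.1 (show (ζ ^ 2) ^ 2 = 1 by rw [← pow_mul, h1]) with e | e <;>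
        rw [e] <;> simp
    rw [show σ ^ 4 = (σ * σ) * (σ * σ) by simp only [pow_succ, pow_zero, one_mul, mul_assoc],
      AlgEquiv.mul_apply, h2, map_mul, h2, h3]
    linear_combination lam * h1
  · obtain ⟨σ, hσ, h1⟩ := Rb.exists_move Q (x := lam ^ 2) (j := -1) (by decide) (by
      rw [← pow_mul, h, zpow_neg_one, mul_inv_cancel₀ hl, map_one])
    obtain ⟨ζ, h2, h3, h4⟩ := key σ hσ
    refine ⟨σ, hσ, ?_⟩
    have h5 : ζ ^ 2 - 1 ≠ 0 := fun e => h1 (by rw [map_pow, h3]; linear_combination lam ^ 2 * e)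
    rw [h4, mul_left_cancel₀ h5 (show (ζ ^ 2 - 1) * ζ ^ 2 = (ζ ^ 2 - 1) * -1 by
      linear_combination h2), neg_one_mul]

/-- **BLOCK F** from its leaves -/
theorem fStmt_of (hE : ExStmt) (hG : GalStmt) (hW : WqStmt) (hU : UnrStmt) (hR : RamStmt)
    {del : ℚ} (hd : 0 < del) {m : ℕ} (hm : 0 < m) (h17 : ¬ 17 ∣ m)
    (ι : Om →+* ℂ) (Q3 : Plc) (h3 : Q3.rchar = 3) (L : Fl.Loc3 ι Q3) :
    FStmt (Lc.of h3 L) (Lk del) (Ar.nb del hd m hm h17) := by
  refine ⟨(Ar.M0 m : ℝ), 1, fun y S hS => ?_⟩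
  obtain ⟨p1, p2, p3, t, D, hc, hy, hD⟩ := Ar.cert_le hd hm h17 hS
  obtain ⟨P, hP⟩ := exists_par Om hc
  obtain ⟨M⟩ := hE Om P
  choose E hE using exists_ov hG hP M
  obtain ⟨i, hi⟩ := IsAlgClosed.exists_pow_nat_eq (-1 : Om) two_pos
  obtain ⟨R, ha, hj, hχ, hcy⟩ := hW P M E i hE hi
  obtain ⟨hfin, hrk, htor, hl⟩ := taStmt P M
  obtain ⟨F⟩ := R.exists_fr (by omega)
  have h2 : 2 ∣ D.natAbs := Int.natCast_dvd.1 hc.two
  have h3' : ¬ 3 ∣ D.natAbs := fun h => hc.three (Int.natCast_dvd.2 h)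
  have nd : ∀ (Q : Plc) (n : ℕ), Q.rchar ≠ 3 → ¬ Q.rchar ∣ 3 ^ n := fun Q n h => Rg.not_dvd_pow h n
  obtain ⟨r0, r1, r2⟩ := pack (Lc.of h3 L) (a := fun σ => (E σ).pic.toAddMonoidHom) ha F hi hχ hcy
    (Int.natAbs_pos.2 hc.D_ne) h2 h3' htor
    (fun x => by
      obtain ⟨U, h1, h2⟩ := opStmt P M x
      exact ⟨U, h1, fun σ hσ => h2 σ hσ _ (hE σ)⟩)
    (fun Q hQ σ hσ => by
      rw [ha]
      exact LinearMap.ext fun u => Tate.ext fun n => hU _ _ _ _ _ _ _ P M Q hc hP hQ σ hσ _ (hE σ) _ _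
        (nd Q n fun e => hQ (e ▸ dvd_mul_right _ _)) (u.pow_smul_apply n))
    (fun Q hQ hQ2 => by
      obtain ⟨lam, hlam⟩ := IsAlgClosed.exists_pow_nat_eq (Q.rchar : Om) four_pos
      have key := fun σ hσ (u : Tate 3 (Pic Om M.Y)) n =>
        hR _ _ _ _ _ _ _ P M Q hc hP hQ hQ2 lam hlam σ hσ _ (hE σ) _ _
          (nd Q n fun e => h3' (e ▸ hQ)) (u.pow_smul_apply n)
      obtain ⟨f1, σ, hσ, f2⟩ := exists_four hlam hQ2
      refine ⟨fun σ hσ => ?_, σ, hσ, ?_⟩ <;> rw [ha]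
      · exact LinearMap.ext fun u => Tate.ext fun n =>
          (key _ ((In Q).pow_mem hσ 4) u n).1 (f1 σ hσ)
      · exact LinearMap.ext fun u => Tate.ext fun n => (key _ ((In Q).mul_mem hσ hσ) u n).2 f2)
    (flatStmt ι Q3 h3 L _ _ _ _ _ _ _ P M E hc hP hE)
  obtain ⟨a, hT⟩ := exists_isTr r2
  refine ⟨O3, _, _, _, inferInstance, D.natAbs, _, a, r0, r1, hT, hD, fun j =>
    ⟨m, p1, p2, p3, t, D, P, M, j O3.s3, hc, hy, hP, ?_, fun Q e hQ ⟨he, σ, hσ, hs⟩ => ?_⟩⟩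
  · rw [← map_pow, O3.s3_sq, map_ofNat]
  obtain rfl : e = E σ := (hG Om P M).2.1 _ _ he (hE σ).1
    (RingEquiv.ext fun c => (hs c).trans ((hE σ).2 c).symm)
  have hχ' : R.χ σ = 1 ↔ Q.rchar % 4 ≠ 3 :=
    (hχ σ).trans (frob_i hi (fun e => hQ ((e ▸ h2).mul_left 3)) hσ)
  have hcyc : (R.cyc σ : ℤ_[3]) = Q.rchar :=
    cyc_eq (p := 3) hσ (fun e => hQ (e ▸ dvd_mul_right _ _)) (by exact_mod_cast hcy σ)
  refine ⟨ap (F.cc σ), fun n x hx => ?_, ?_⟩
  · have := wq_A R hl (fun u => by rw [hj]) (fun u => by rw [ha σ]) hcyc F n x hx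
    refine (congrArg M.j ?_).trans (map_zero _)
    rw [← this]
    by_cases h : Q.rchar % 4 = 3
    · rw [if_neg (fun e => hχ'.1 e h), ep, if_pos h]; rfl
    · rw [if_pos (hχ'.2 h), ep, if_neg h]; rfl
  · have e : j (a Q.rchar) = (j.comp O3.c3.φ) (F.cc σ) * j O3.s3 ^ ep Q.rchar := by
      rw [← hT Q σ hQ hσ, F.trace_ρ0, map_mul, show R.qm.χa σ = R.χ σ from rfl]
      by_cases h : Q.rchar % 4 = 3
      · rw [if_neg (fun e => hχ'.1 e h), ep, if_pos h, pow_one]; rfl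
      · rw [if_pos (hχ'.2 h), ep, if_neg h, pow_zero, map_one]; rfl
    show Lim _ (j (a Q.rchar)) _
    rw [e]
    refine lim _ _ (pow_ne_zero _ fun h => ?_)
    have := congrArg j O3.s3_sq
    rw [map_pow, h, map_ofNat] at this
    norm_num at this

end Crest.Agent.T15.FA
end
end

-- ▼ part T15/LatA_58
section

/-!
# Row 15, block Ht (helper58): the quaternion span lemma and `ℤ[√3]`
-/

set_option autoImplicit false
set_option linter.unusedSectionVars false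

noncomputable section

namespace Crest.Agent.T15.Lat

open Matrix

section core
variable {R : Type*} [CommRing R]

lemma sl2_id (a b c p q r w s t : R) (h : 2 * a * p + b * r + c * q = 0) :
    (-2 * (-a ^ 2 - b * c) * (-p ^ 2 - q * r)) • (!![w, s; t, -w] : Matrix (Fin 2) (Fin 2) R)
      = ((-p ^ 2 - q * r) * (2 * w * a + s * c + t * b)) • !![a, b; c, -a]
        + ((-a ^ 2 - b * c) * (2 * w * p + s * r + t * q)) • !![p, q; r, -p]
        + (w * (b * r - c * q) + s * (c * p - a * r) + t * (a * q - b * p))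
          • (!![a, b; c, -a] * !![p, q; r, -p]) := by
  ext i j
  fin_cases i <;> fin_cases j <;> simp
  · linear_combination (a * p * w + a * r * s + b * p * t - b * r * w) * h
  · linear_combination (-a * p * s + a * q * w + b * p * w + b * q * t) * h
  · linear_combination (-a * p * t + a * r * w + c * p * w + c * r * s) * h
  · linear_combination (-a * p * w - a * q * t - c * p * s + c * q * w) * h

lemma two_sub_trace (X : Matrix (Fin 2) (Fin 2) R) :
    (!![X 0 0 - X 1 1, 2 * X 0 1; 2 * X 1 0, -(X 0 0 - X 1 1)] : Matrix (Fin 2) (Fin 2) R)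
      = (2 : R) • X - X.trace • (1 : Matrix (Fin 2) (Fin 2) R) := by
  ext i j
  fin_cases i <;> fin_cases j <;> simp [Matrix.trace_fin_two] <;> ring

/-- `1, X, Y, XY` span `64 · M₂(R)` -/
lemma core (X Y Z : Matrix (Fin 2) (Fin 2) R) (hX : X * X = -1) (hXY : Y * X = -(X * Y))
    (hZ : Z * Y = 1) (W : Matrix (Fin 2) (Fin 2) R) :
    ∃ c0 c1 c2 c3 : R, (64 : R) • W = c0 • (1 : Matrix (Fin 2) (Fin 2) R) + c1 • X + c2 • Y
      + c3 • (X * Y) := by
  have hZ' : Y * Z = 1 := mul_eq_one_comm.mp hZ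
  have t1 : 2 * X.trace = 0 := by
    have e : X = -(Z * (X * Y)) := by
      rw [← mul_neg, ← hXY, ← mul_assoc, hZ, one_mul]
    have e2 : X.trace = - X.trace := by
      conv_lhs => rw [e]
      rw [trace_neg, trace_mul_comm, mul_assoc, hZ', mul_one]
    linear_combination e2
  have t2 : 2 * Y.trace = 0 := by
    have e : Y = X * Y * X := by
      have : Y * X * X = -(X * Y) * X := by rw [hXY]
      rw [mul_assoc, hX, mul_neg, mul_one, neg_mul] at this
      exact neg_injective this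
    have e2 : Y.trace = - Y.trace := by
      conv_lhs => rw [e]
      rw [trace_mul_comm, ← mul_assoc, hX, neg_mul, one_mul, trace_neg]
    linear_combination e2
  have t3 : 2 * (X * Y).trace = 0 := by
    have e2 : (X * Y).trace = - (X * Y).trace := by
      conv_lhs => rw [trace_mul_comm, hXY]
      rw [trace_neg]
    linear_combination e2
  have hu : Z.det * Y.det = 1 := by rw [← det_mul, hZ, det_one]
  have x00 := congrFun (congrFun hX 0) 0
  have x11 := congrFun (congrFun hX 1) 1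
  simp only [Matrix.mul_apply, Fin.sum_univ_two, Matrix.neg_apply, one_apply_eq,
    trace_fin_two] at x00 x11 t1 t2 t3
  have key := sl2_id (X 0 0 - X 1 1) (2 * X 0 1) (2 * X 1 0) (Y 0 0 - Y 1 1) (2 * Y 0 1)
    (2 * Y 1 0) (W 0 0 - W 1 1) (2 * W 0 1) (2 * W 1 0)
    (by linear_combination 2 * t3 - (Y 0 0 + Y 1 1) * t1)
  have hc : -2 * (-(X 0 0 - X 1 1) ^ 2 - 2 * X 0 1 * (2 * X 1 0))
      * (-(Y 0 0 - Y 1 1) ^ 2 - 2 * Y 0 1 * (2 * Y 1 0)) = -32 * Y.det := by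
    rw [det_fin_two]
    linear_combination (4 * (-(Y 0 0 - Y 1 1) ^ 2 - 2 * Y 0 1 * (2 * Y 1 0))) * (x00 + x11)
      - ((-(Y 0 0 - Y 1 1) ^ 2 - 2 * Y 0 1 * (2 * Y 1 0)) * (X 0 0 + X 1 1)) * t1
      + (4 * (Y 0 0 + Y 1 1)) * t2
  rw [hc, two_sub_trace, two_sub_trace, two_sub_trace] at key
  obtain ⟨α, β, γ, key⟩ : ∃ α β γ : R, (-32 * Y.det) • ((2 : R) • W - W.trace • 1)
      = α • ((2 : R) • X - X.trace • 1) + β • ((2 : R) • Y - Y.trace • 1)
        + γ • (((2 : R) • X - X.trace • 1) * ((2 : R) • Y - Y.trace • 1)) := ⟨_, _, _, key⟩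
  refine ⟨32 * W.trace - Z.det * (-α * X.trace - β * Y.trace + γ * X.trace * Y.trace),
    -Z.det * (2 * α - 2 * γ * Y.trace), -Z.det * (2 * β - 2 * γ * X.trace), -Z.det * (4 * γ), ?_⟩
  have e1 : (64 : R) • W = (32 * W.trace) • (1 : Matrix (Fin 2) (Fin 2) R)
      - Z.det • ((-32 * Y.det) • ((2 : R) • W - W.trace • 1)) := by
    rw [smul_smul, show Z.det * (-32 * Y.det) = -32 by linear_combination -32 * hu]
    module
  rw [e1, key]
  simp only [sub_mul, mul_sub, smul_mul_assoc, mul_smul_comm, one_mul, mul_one]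
  module

/-- the same modulo `m`, for a stable submodule -/
lemma core_mod (m : R) (X Y Z : Matrix (Fin 2) (Fin 2) R)
    (hX : ∀ i j, m ∣ (X * X + 1) i j) (hXY : ∀ i j, m ∣ (Y * X + X * Y) i j)
    (hZ : ∀ i j, m ∣ (Z * Y - 1) i j) (N : Submodule R (Fin 2 → R)) (hm : ∀ v, m • v ∈ N)
    (hNX : ∀ v ∈ N, X *ᵥ v ∈ N) (hNY : ∀ v ∈ N, Y *ᵥ v ∈ N)
    (W : Matrix (Fin 2) (Fin 2) R) (v : Fin 2 → R) (hv : v ∈ N) : (64 : R) • (W *ᵥ v) ∈ N := by
  let φ : R →+* R ⧸ Ideal.span {m} := Ideal.Quotient.mk _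
  have hφ : ∀ M : Matrix (Fin 2) (Fin 2) R, φ.mapMatrix M = 0 ↔ ∀ i j, m ∣ M i j := by
    intro M
    rw [← Matrix.ext_iff]
    simp only [RingHom.mapMatrix_apply, map_apply, Matrix.zero_apply, φ,
      Ideal.Quotient.eq_zero_iff_mem, Ideal.mem_span_singleton]
  have h1 := (hφ _).mpr hX
  have h2 := (hφ _).mpr hXY
  have h3 := (hφ _).mpr hZ
  rw [map_add, map_mul, map_one] at h1
  rw [map_add, map_mul, map_mul] at h2
  rw [map_sub, map_mul, map_one] at h3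
  obtain ⟨c0, c1, c2, c3, hc⟩ := core _ _ _ (eq_neg_of_add_eq_zero_left h1)
    (eq_neg_of_add_eq_zero_left h2) (sub_eq_zero.mp h3) (φ.mapMatrix W)
  obtain ⟨d0, rfl⟩ := Ideal.Quotient.mk_surjective c0
  obtain ⟨d1, rfl⟩ := Ideal.Quotient.mk_surjective c1
  obtain ⟨d2, rfl⟩ := Ideal.Quotient.mk_surjective c2
  obtain ⟨d3, rfl⟩ := Ideal.Quotient.mk_surjective c3
  have hs : ∀ (d : R) (M : Matrix (Fin 2) (Fin 2) R),
      φ.mapMatrix (d • M) = φ d • φ.mapMatrix M := by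
    intro d M; ext i j; simp
  have h4 : φ.mapMatrix ((64 : R) • W - (d0 • (1 : Matrix (Fin 2) (Fin 2) R) + d1 • X + d2 • Y
      + d3 • (X * Y))) = 0 := by
    rw [map_sub, map_add, map_add, map_add, hs, hs, hs, hs, hs, map_one, map_mul, map_ofNat, hc]
    exact sub_self _
  choose U hU using (hφ _).mp h4
  have h5 : (64 : R) • W = (d0 • (1 : Matrix (Fin 2) (Fin 2) R) + d1 • X + d2 • Y
      + d3 • (X * Y)) + m • Matrix.of U := by
    rw [← sub_eq_iff_eq_add']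
    ext i j; rw [hU i j]; simp
  rw [← smul_mulVec, h5]
  simp only [add_mulVec, smul_mulVec, one_mulVec, ← mulVec_mulVec]
  exact N.add_mem (N.add_mem (N.add_mem (N.add_mem (N.smul_mem _ hv) (N.smul_mem _ (hNX v hv)))
    (N.smul_mem _ (hNY v hv))) (N.smul_mem _ (hNX _ (hNY v hv)))) (hm _)

/-- a primitive stable submodule contains `64 · R²` -/
lemma core_prim (m : R) (X Y Z : Matrix (Fin 2) (Fin 2) R)
    (hX : ∀ i j, m ∣ (X * X + 1) i j) (hXY : ∀ i j, m ∣ (Y * X + X * Y) i j)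
    (hZ : ∀ i j, m ∣ (Z * Y - 1) i j) (N : Submodule R (Fin 2 → R)) (hm : ∀ v, m • v ∈ N)
    (hNX : ∀ v ∈ N, X *ᵥ v ∈ N) (hNY : ∀ v ∈ N, Y *ᵥ v ∈ N)
    (hp : (1 : R) ∈ Ideal.span {a | ∃ v ∈ N, ∃ i, v i = a}) (x : Fin 2 → R) :
    (64 : R) • x ∈ N := by
  have : ∀ a ∈ Ideal.span {a | ∃ v ∈ N, ∃ i, v i = a}, a • ((64 : R) • x) ∈ N := by
    intro a ha
    induction ha using Submodule.span_induction with
    | mem a ha =>
      obtain ⟨v, hv, i, rfl⟩ := ha
      have := core_mod m X Y Z hX hXY hZ N hm hNX hNY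
        (Matrix.of fun k l => if l = i then x k else 0) v hv
      have e : (Matrix.of fun k l => if l = i then x k else 0) *ᵥ v = v i • x := by
        ext k; simp [mulVec, dotProduct, mul_comm]
      rwa [e, smul_comm] at this
    | zero => simp
    | add a b _ _ ha hb => rw [add_smul]; exact N.add_mem ha hb
    | smul a b _ hb => rw [smul_eq_mul, mul_smul]; exact N.smul_mem _ hb
  simpa using this 1 hp

end core

/-! ### `ℤ[√3]` is a principal ideal domain -/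

lemma three_ne_sq : ∀ n : ℤ, (3 : ℤ) ≠ n * n := by
  intro n h
  have h1 : n.natAbs * n.natAbs = 3 := by rw [← Int.natAbs_mul, ← h]; rfl
  have h2 : n.natAbs ≤ 2 := by nlinarith
  interval_cases n.natAbs <;> omega

lemma norm_ne {y : ℤ√3} (hy : y ≠ 0) : y.norm ≠ 0 := fun h =>
  hy ((Zsqrtd.norm_eq_zero three_ne_sq y).mp h)

instance : IsDomain (ℤ√3) := by
  have : NoZeroDivisors (ℤ√3) := ⟨fun {a b} h => by
    by_contra hn
    push Not at hn
    have := congrArg Zsqrtd.norm h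
    rw [Zsqrtd.norm_mul, Zsqrtd.norm_zero] at this
    exact mul_ne_zero (norm_ne hn.1) (norm_ne hn.2) this⟩
  exact NoZeroDivisors.to_isDomain _

lemma exists_round (u N : ℤ) (hN : N ≠ 0) : ∃ q : ℤ, 4 * (u - q * N) ^ 2 ≤ N ^ 2 := by
  refine ⟨round ((u : ℚ) / N), ?_⟩
  have h1 := abs_sub_round ((u : ℚ) / N)
  have hN' : (N : ℚ) ≠ 0 := by exact_mod_cast hN
  have h2 : ((u : ℚ) / N - round ((u : ℚ) / N)) ^ 2 ≤ (1 / 2) ^ 2 := by
    rw [← sq_abs]; exact pow_le_pow_left₀ (abs_nonneg _) h1 2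
  have h3 : (u : ℚ) - round ((u : ℚ) / N) * N = ((u : ℚ) / N - round ((u : ℚ) / N)) * N := by
    field_simp
  have : (4 : ℚ) * ((u : ℚ) - round ((u : ℚ) / N) * N) ^ 2 ≤ (N : ℚ) ^ 2 := by
    rw [h3, mul_pow]; nlinarith [sq_nonneg (N : ℚ)]
  exact_mod_cast this

lemma exists_rem (x y : ℤ√3) (hy : y ≠ 0) :
    ∃ q : ℤ√3, (x - q * y).norm.natAbs < y.norm.natAbs := by
  have hN := norm_ne hy
  obtain ⟨q1, h1⟩ := exists_round (x * star y).re y.norm hN
  obtain ⟨q2, h2⟩ := exists_round (x * star y).im y.norm hN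
  refine ⟨⟨q1, q2⟩, ?_⟩
  have e : (x - ⟨q1, q2⟩ * y).norm * y.norm = ((x * star y).re - q1 * y.norm) ^ 2
      - 3 * ((x * star y).im - q2 * y.norm) ^ 2 := by
    simp [Zsqrtd.norm_def]; ring
  have hpos : 0 < y.norm ^ 2 := by positivity
  have h3 : |(x - ⟨q1, q2⟩ * y).norm * y.norm| < y.norm ^ 2 := by
    rw [e, abs_lt]
    constructor <;> nlinarith [sq_nonneg ((x * star y).re - q1 * y.norm),
      sq_nonneg ((x * star y).im - q2 * y.norm)]
  rw [abs_mul, ← sq_abs y.norm, sq] at h3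
  have h4 := lt_of_mul_lt_mul_right h3 (abs_nonneg _)
  zify
  exact h4

instance : IsPrincipalIdealRing (ℤ√3) := ⟨fun I => by
  by_cases hI : I = ⊥
  · rw [hI]; exact ⟨⟨0, by simp⟩⟩
  obtain ⟨y0, hy0, hy0'⟩ := Submodule.exists_mem_ne_zero_of_ne_bot hI
  have hex : ∃ n : ℕ, ∃ y ∈ I, y ≠ 0 ∧ y.norm.natAbs = n := ⟨_, y0, hy0, hy0', rfl⟩
  classical
  obtain ⟨y, hy, hy', hn⟩ := Nat.find_spec hex
  refine ⟨⟨y, le_antisymm (fun x hx => ?_) ?_⟩⟩
  · obtain ⟨q, hq⟩ := exists_rem x y hy'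
    have hm : x - q * y ∈ I := I.sub_mem hx (I.mul_mem_left _ hy)
    have h0 : x - q * y = 0 := by
      by_contra h
      have := Nat.find_min' hex ⟨_, hm, h, rfl⟩
      omega
    exact Ideal.mem_span_singleton'.mpr ⟨q, (sub_eq_zero.mp h0).symm⟩
  · exact (Ideal.span_singleton_le_iff_mem _).mpr hy⟩

/-- coordinates on `ℤ[√3]` -/
def coordEquiv : ℤ√3 ≃ₗ[ℤ] ℤ × ℤ where
  toFun z := (z.re, z.im)
  invFun p := ⟨p.1, p.2⟩
  map_add' _ _ := rfl
  map_smul' c z := by ext <;> simp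
  left_inv _ := rfl
  right_inv _ := rfl

instance : Module.Free ℤ (ℤ√3) := Module.Free.of_equiv coordEquiv.symm

lemma finrank_O : Module.finrank ℤ (ℤ√3) = 2 := by
  rw [coordEquiv.finrank_eq]; simp

end Crest.Agent.T15.Lat
end
end

-- ▼ part T15/LatB_58
section

/-!
# Row 15, block Ht (helper58): lattice comparison (the "cyclic part")
-/

set_option autoImplicit false
set_option linter.unusedSectionVars false

noncomputable section

namespace Crest.Agent.T15.Lat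

open Matrix

section mod
variable {V Jac Γ : Type*} [AddCommGroup V] [Module ℚ V] [Module (ℤ√3) V] [SMulCommClass ℚ (ℤ√3) V]
  [AddCommGroup Jac] [Group Γ] [DistribMulAction Γ Jac]

lemma int_smul (n : ℤ) (v : V) : (n : ℤ√3) • v = (n : ℚ) • v := by
  rw [Int.cast_smul_eq_zsmul, Int.cast_smul_eq_zsmul]

lemma nat_smul (n : ℕ) (v : V) : (n : ℤ√3) • v = (n : ℚ) • v := by
  rw [Nat.cast_smul_eq_nsmul, Nat.cast_smul_eq_nsmul]

lemma norm_smul' (z : ℤ√3) (v : V) : star z • z • v = (z.norm : ℚ) • v := by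
  rw [smul_smul, mul_comm, ← Zsqrtd.norm_eq_mul_conj, int_smul]

lemma tf {z : ℤ√3} {v : V} (hz : z ≠ 0) (h : z • v = 0) : v = 0 := by
  have := norm_smul' z v
  rw [h, smul_zero] at this
  have hN : (z.norm : ℚ) ≠ 0 := by exact_mod_cast norm_ne hz
  exact (smul_eq_zero.mp this.symm).resolve_left hN

lemma smul_decomp (z : ℤ√3) (v : V) : z • v = z.re • v + z.im • (Zsqrtd.sqrtd : ℤ√3) • v := by
  have e : z = (z.re : ℤ√3) + (z.im : ℤ√3) * Zsqrtd.sqrtd := by ext <;> simp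
  conv_lhs => rw [e]
  rw [add_smul, mul_smul, Int.cast_smul_eq_zsmul, Int.cast_smul_eq_zsmul]

lemma crt (Λ I : Submodule (ℤ√3) V) (y : V) (hy : y ∈ Λ)
    (h : ∀ l e : ℕ, l.Prime → ∃ i ∈ I, ∃ x ∈ Λ, y = i + ((l ^ e : ℕ) : ℤ√3) • x) :
    ∀ n : ℕ, 0 < n → ∃ i ∈ I, ∃ x ∈ Λ, y = i + (n : ℤ√3) • x := by
  intro n
  induction n using Nat.recOnPosPrimePosCoprime with
  | zero => intro h; omega
  | one => intro _; exact ⟨0, I.zero_mem, y, hy, by simp⟩
  | prime_pow p n hp _ => intro _; exact h p n hp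
  | coprime a b ha hb hab iha ihb =>
    intro _
    obtain ⟨i1, hi1, x1, hx1, e1⟩ := iha (by omega)
    obtain ⟨i2, hi2, x2, hx2, e2⟩ := ihb (by omega)
    obtain ⟨u, v, huv⟩ : IsCoprime (a : ℤ√3) (b : ℤ√3) := Nat.Coprime.cast hab
    refine ⟨(u * a) • i2 + (v * b) • i1, I.add_mem (I.smul_mem _ hi2) (I.smul_mem _ hi1),
      u • x2 + v • x1, Λ.add_mem (Λ.smul_mem _ hx2) (Λ.smul_mem _ hx1), ?_⟩
    have : y = (u * a) • y + (v * b) • y := by rw [← add_smul, huv, one_smul]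
    conv_lhs => rw [this]
    nth_rewrite 1 [e2]
    nth_rewrite 1 [e1]
    push_cast
    module

/-- the comparison theorem for `ℤ[√3]`-modules -/
theorem lat_mod (ex : V →+ Jac) (Λ I1 : Submodule (ℤ√3) V) (b : Module.Basis (Fin 2) (ℤ√3) Λ)
    (hker : ∀ v, ex v = 0 ↔ v ∈ Λ) (jj : Jac →+ Jac)
    (hjj : ∀ v, jj (ex v) = ex ((Zsqrtd.sqrtd : ℤ√3) • v))
    (hcomm : ∀ (g : Γ) x, g • jj x = jj (g • x)) {k : ℕ} (hk : 0 < k)
    (hk1 : ∀ v ∈ I1, (k : ℤ√3) • v ∈ Λ) (hk2 : ∀ x ∈ Λ, (k : ℤ√3) • x ∈ I1)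
    (stab : ∀ (c : ℚ) (z : ℤ√3) (g : Γ), ∀ v ∈ I1, ∃ v' ∈ I1, g • ex (c • z • v) = ex (c • z • v'))
    (irr : ∀ l e : ℕ, l.Prime → ∃ σ τ : Γ, ∀ x ∈ Λ,
      σ • σ • ex (((l : ℚ) ^ e)⁻¹ • x) = - ex (((l : ℚ) ^ e)⁻¹ • x) ∧
      τ • σ • ex (((l : ℚ) ^ e)⁻¹ • x) = - (σ • τ • ex (((l : ℚ) ^ e)⁻¹ • x))) :
    ∃ (c : ℚ) (z : ℤ√3), (∀ v ∈ I1, c • z • v ∈ Λ) ∧
      ∀ x ∈ Λ, ∃ v ∈ I1, (64 : ℚ) • x = c • z • v := by
  have hkQ : (k : ℚ) ≠ 0 := by positivity
  have hkO : (k : ℤ√3) ≠ 0 := by exact_mod_cast hk.ne'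
  -- coordinates
  let emb : (Fin 2 → ℤ√3) →ₗ[ℤ√3] V := Λ.subtype ∘ₗ b.equivFun.symm.toLinearMap
  have emb_mem : ∀ u, emb u ∈ Λ := fun u => (b.equivFun.symm u).2
  have emb_sur : ∀ x ∈ Λ, ∃ u, emb u = x := fun x hx => ⟨b.equivFun ⟨x, hx⟩, by simp [emb]⟩
  have emb_inj : Function.Injective emb := Λ.injective_subtype.comp b.equivFun.symm.injective
  -- the content ideal
  obtain ⟨a, ha⟩ := (IsPrincipalIdealRing.principal
    (Ideal.span {a | ∃ u, (∃ v ∈ I1, emb u = (k : ℤ√3) • v) ∧ ∃ i, u i = a})).principal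
  have hdiv : ∀ u, (∃ v ∈ I1, emb u = (k : ℤ√3) • v) → ∃ u', u = a • u' := by
    intro u hu
    have : ∀ i, ∃ c, u i = a * c := fun i => by
      have : u i ∈ Ideal.span {a | ∃ u, (∃ v ∈ I1, emb u = (k : ℤ√3) • v) ∧ ∃ i, u i = a} :=
        Ideal.subset_span ⟨u, hu, i, rfl⟩
      rw [ha] at this
      exact Ideal.mem_span_singleton.mp this
    choose c hc using this
    exact ⟨c, funext hc⟩
  have ha0 : a ≠ 0 := by
    rintro rfl
    obtain ⟨u', hu'⟩ := hdiv ((k : ℤ√3) • (k : ℤ√3) • fun _ => 1)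
      ⟨_, hk2 _ (emb_mem fun _ => 1), by simp⟩
    have := congrFun hu' 0
    simp [hkO] at this
  have hN : (a.norm : ℚ) ≠ 0 := by exact_mod_cast norm_ne ha0
  set c : ℚ := k / a.norm with hc
  -- the scaling map
  let β : V →ₗ[ℤ√3] V :=
    { toFun := fun v => c • star a • v
      map_add' := fun v w => by rw [smul_add, smul_add]
      map_smul' := fun r v => by
        rw [RingHom.id_apply, smul_comm (star a) r v, smul_comm c r] }
  have hβ : ∀ v, β v = c • star a • v := fun v => rfl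
  have hβ1 : ∀ v u', emb (a • u') = (k : ℤ√3) • v → β v = emb u' := by
    intro v u' h
    rw [map_smul, nat_smul] at h
    have e : v = (k : ℚ)⁻¹ • a • emb u' := by rw [h, smul_smul, inv_mul_cancel₀ hkQ, one_smul]
    rw [hβ, e, ← smul_comm (k : ℚ)⁻¹ (star a), norm_smul', smul_smul, smul_smul, hc]
    field_simp
    simp
  have hβΛ : ∀ v ∈ I1, β v ∈ Λ := by
    intro v hv
    obtain ⟨u, hu⟩ := emb_sur _ (hk1 v hv)
    obtain ⟨u', rfl⟩ := hdiv u ⟨v, hv, hu⟩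
    rw [hβ1 v u' hu]; exact emb_mem _
  let I : Submodule (ℤ√3) V := I1.map β
  have hβk : ∀ x ∈ Λ, ((k * k : ℕ) : ℤ√3) • x ∈ I := by
    intro x hx
    refine ⟨(k : ℤ√3) • a • x, hk2 _ (Λ.smul_mem _ hx), ?_⟩
    rw [map_smul, hβ, norm_smul', smul_smul c, hc, div_mul_cancel₀ _ hN, ← nat_smul, smul_smul]
    push_cast; rfl
  have hprim : (1 : ℤ√3) ∈ Ideal.span {a | ∃ u, emb u ∈ I ∧ ∃ i, u i = a} := by
    have h1 : Ideal.span {a | ∃ u, (∃ v ∈ I1, emb u = (k : ℤ√3) • v) ∧ ∃ i, u i = a}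
        ≤ Ideal.span {a} * Ideal.span {a | ∃ u, emb u ∈ I ∧ ∃ i, u i = a} := by
      rw [Ideal.span_le]
      rintro _ ⟨u, ⟨v, hv, hu⟩, i, rfl⟩
      obtain ⟨u', rfl⟩ := hdiv u ⟨v, hv, hu⟩
      refine Ideal.mul_mem_mul (Ideal.mem_span_singleton_self a)
        (Ideal.subset_span ⟨u', ⟨v, hv, hβ1 v u' hu⟩, i, rfl⟩)
    have h2 : a ∈ Ideal.span {a} * Ideal.span {a | ∃ u, emb u ∈ I ∧ ∃ i, u i = a} :=
      h1 (by rw [ha]; exact Ideal.mem_span_singleton_self a)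
    obtain ⟨s, hs, hs'⟩ := Ideal.mem_span_singleton_mul.mp h2
    have : s = 1 := mul_left_cancel₀ ha0 (by rw [hs', mul_one])
    rwa [this] at hs
  -- one prime power
  have hpp : ∀ x ∈ Λ, ∀ l e : ℕ, l.Prime →
      ∃ i ∈ I, ∃ x' ∈ Λ, (64 : ℤ√3) • x = i + ((l ^ e : ℕ) : ℤ√3) • x' := by
    intro x hx l e hl
    obtain ⟨σ, τ, hστ⟩ := irr l e hl
    set m : ℕ := l ^ e with hm
    have hmq : ((l : ℚ) ^ e) = m := by rw [hm]; push_cast; rfl
    rw [hmq] at hστ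
    have hm0 : (m : ℚ) ≠ 0 := by have := hl.pos; positivity
    let E : (Fin 2 → ℤ√3) →+ Jac :=
      { toFun := fun u => ex ((m : ℚ)⁻¹ • emb u)
        map_zero' := by simp
        map_add' := fun u w => by rw [map_add, smul_add, map_add] }
    have hE : ∀ u, E u = ex ((m : ℚ)⁻¹ • emb u) := fun u => rfl
    have hE0 : ∀ u, E u = 0 ↔ ∃ u', u = (m : ℤ√3) • u' := by
      intro u
      rw [hE, hker]
      constructor
      · intro h
        obtain ⟨u', hu'⟩ := emb_sur _ h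
        refine ⟨u', emb_inj ?_⟩
        rw [map_smul, hu', nat_smul, smul_smul, mul_inv_cancel₀ hm0, one_smul]
      · rintro ⟨u', rfl⟩
        rw [map_smul, nat_smul, smul_smul, inv_mul_cancel₀ hm0, one_smul]
        exact emb_mem _
    have hEs : ∀ (z : ℤ√3) u, E (z • u) = z.re • E u + z.im • jj (E u) := by
      intro z u
      rw [hE, hE, emb.map_smul, smul_comm (m : ℚ)⁻¹ z, smul_decomp, map_add, map_zsmul, map_zsmul,
        hjj]
    have hlift : ∀ (g : Γ) u, ∃ u', g • E u = E u' := by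
      intro g u
      obtain ⟨v', _, h⟩ := stab ((m : ℚ)⁻¹ * (k : ℚ)⁻¹) 1 g _ (hk2 _ (emb_mem u))
      have e1 : ((m : ℚ)⁻¹ * (k : ℚ)⁻¹) • (1 : ℤ√3) • (k : ℤ√3) • emb u = (m : ℚ)⁻¹ • emb u := by
        rw [one_smul, nat_smul, smul_smul, mul_assoc, inv_mul_cancel₀ hkQ, mul_one]
      rw [e1, ← hE, one_smul] at h
      have e2 : ex ((k : ℚ)⁻¹ • v') = 0 := by
        have e3 : (k : ℚ)⁻¹ • v' = m • (((m : ℚ)⁻¹ * (k : ℚ)⁻¹) • v') := by
          rw [← Nat.cast_smul_eq_nsmul ℚ, smul_smul, ← mul_assoc, mul_inv_cancel₀ hm0, one_mul]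
        rw [e3, map_nsmul, ← h, ← smul_comm, ← map_nsmul, (hE0 _).mpr ⟨u, ?_⟩, smul_zero]
        rw [Nat.cast_smul_eq_nsmul]
      obtain ⟨u', hu'⟩ := emb_sur _ ((hker _).mp e2)
      exact ⟨u', by rw [h, hE, hu', smul_smul]⟩
    have hmat : ∀ g : Γ, ∃ M : Matrix (Fin 2) (Fin 2) (ℤ√3), ∀ u, g • E u = E (M *ᵥ u) := by
      intro g
      choose y hy using fun j : Fin 2 => hlift g (Pi.single j 1)
      refine ⟨Matrix.of fun i j => y j i, fun u => ?_⟩
      have e1 : u = u 0 • Pi.single 0 1 + u 1 • Pi.single 1 1 := by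
        ext i : 1; fin_cases i <;> simp
      have e2 : (Matrix.of fun i j => y j i) *ᵥ u = u 0 • y 0 + u 1 • y 1 := by
        ext i : 1; simp [mulVec, dotProduct, Fin.sum_univ_two, mul_comm]
      rw [e2, map_add, hEs, hEs, ← hy, ← hy]
      conv_lhs => rw [e1]
      rw [map_add, hEs, hEs]
      simp only [smul_add, smul_comm g (_ : ℤ), hcomm]
    have hdvd : ∀ M : Matrix (Fin 2) (Fin 2) (ℤ√3), (∀ u, E (M *ᵥ u) = 0) →
        ∀ i j, (m : ℤ√3) ∣ M i j := by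
      intro M h i j
      obtain ⟨u', hu'⟩ := (hE0 _).mp (h (Pi.single j 1))
      have := congrFun hu' i
      simp only [mulVec_single, MulOpposite.op_one, one_smul, Pi.smul_apply, smul_eq_mul] at this
      exact ⟨u' i, this⟩
    obtain ⟨X, hX⟩ := hmat σ
    obtain ⟨Y, hY⟩ := hmat τ
    obtain ⟨Z, hZ⟩ := hmat τ⁻¹
    let N : Submodule (ℤ√3) (Fin 2 → ℤ√3) := (I ⊔ Λ.map (LinearMap.lsmul _ V (m : ℤ√3))).comap emb
    have hN' : ∀ u, u ∈ N ↔ ∃ i ∈ I, ∃ x' ∈ Λ, emb u = i + (m : ℤ√3) • x' := by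
      intro u
      simp only [N, Submodule.mem_comap, Submodule.mem_sup, Submodule.mem_map,
        LinearMap.lsmul_apply]
      constructor
      · rintro ⟨i, hi, _, ⟨x', hx', rfl⟩, h⟩; exact ⟨i, hi, x', hx', h.symm⟩
      · rintro ⟨i, hi, x', hx', h⟩; exact ⟨i, hi, _, ⟨x', hx', rfl⟩, h.symm⟩
    have hst : ∀ (g : Γ) (M : Matrix (Fin 2) (Fin 2) (ℤ√3)), (∀ u, g • E u = E (M *ᵥ u)) →
        ∀ u ∈ N, M *ᵥ u ∈ N := by
      intro g M hM u hu
      obtain ⟨_, ⟨v, hv, rfl⟩, x', hx', h⟩ := (hN' u).mp hu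
      obtain ⟨v', hv', h'⟩ := stab ((m : ℚ)⁻¹ * c) (star a) g v hv
      obtain ⟨w, hw⟩ := emb_sur _ (hβΛ v' hv')
      have e1 : E u = ex (((m : ℚ)⁻¹ * c) • star a • v) := by
        rw [hE, h, smul_add, map_add, nat_smul, smul_smul (m : ℚ)⁻¹ (m : ℚ), inv_mul_cancel₀ hm0,
          one_smul, (hker _).mpr hx', add_zero, hβ, smul_smul]
      have e2 : E w = ex (((m : ℚ)⁻¹ * c) • star a • v') := by rw [hE, hw, hβ, smul_smul]
      have e3 : E (M *ᵥ u - w) = 0 := by rw [map_sub, ← hM, e1, h', e2, sub_self]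
      obtain ⟨u', hu'⟩ := (hE0 _).mp e3
      refine (hN' _).mpr ⟨β v', ⟨v', hv', rfl⟩, emb u', emb_mem _, ?_⟩
      rw [← hw, ← map_smul, ← hu', map_sub]; abel
    obtain ⟨u, rfl⟩ := emb_sur x hx
    have := core_prim (m : ℤ√3) X Y Z
      (hdvd _ fun u => by
        rw [add_mulVec, one_mulVec, map_add, ← mulVec_mulVec, ← hX, ← hX, hE,
          (hστ _ (emb_mem u)).1, neg_add_cancel])
      (hdvd _ fun u => by
        rw [add_mulVec, map_add, ← mulVec_mulVec, ← mulVec_mulVec, ← hY, ← hX, ← hX, ← hY, hE,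
          (hστ _ (emb_mem u)).2, neg_add_cancel])
      (hdvd _ fun u => by
        rw [sub_mulVec, one_mulVec, map_sub, ← mulVec_mulVec, ← hZ, ← hY, inv_smul_smul,
          sub_self])
      N (fun v => (hN' _).mpr ⟨0, I.zero_mem, emb v, emb_mem _, by simp⟩)
      (hst σ X hX) (hst τ Y hY)
      (Ideal.span_mono (by
        rintro _ ⟨u, hu, i, rfl⟩
        exact ⟨u, (hN' _).mpr ⟨_, hu, 0, Λ.zero_mem, by simp⟩, i, rfl⟩) hprim) u
    rw [hN', map_smul] at this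
    exact this
  refine ⟨c, star a, hβΛ, fun x hx => ?_⟩
  obtain ⟨i, hi, x', hx', h⟩ := crt Λ I _ (Λ.smul_mem 64 hx) (hpp x hx) (k * k) (by positivity)
  obtain ⟨v, hv, hv'⟩ : (64 : ℤ√3) • x ∈ I := by rw [h]; exact I.add_mem hi (hβk x' hx')
  refine ⟨v, hv, ?_⟩
  rw [← hβ, hv']
  exact (nat_smul 64 x).symm

end mod

section main
variable {V Jac Γ : Type*} [AddCommGroup V] [Module ℚ V]
  [AddCommGroup Jac] [Group Γ] [DistribMulAction Γ Jac]

/-- the action of `ℤ[√3]` given by an operator with `J² = 3` -/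
def act (J : V →ₗ[ℚ] V) (hJ : ∀ v, J (J v) = (3 : ℚ) • v) : ℤ√3 →+* Module.End ℚ V where
  toFun z := (z.re : ℚ) • 1 + (z.im : ℚ) • J
  map_one' := by simp
  map_zero' := by simp
  map_add' z w := by simp only [Zsqrtd.re_add, Zsqrtd.im_add, Int.cast_add]; module
  map_mul' z w := by
    ext v
    simp only [Zsqrtd.re_mul, Zsqrtd.im_mul, LinearMap.add_apply, LinearMap.smul_apply,
      Module.End.one_apply, Module.End.mul_apply, map_add, map_smul, hJ]
    push_cast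
    module

/-- **Lattice comparison.** -/
theorem lat (ex : V →+ Jac) (Λ I0 : Submodule ℤ V) [Module.Finite ℤ Λ]
    (hrk : Module.finrank ℤ Λ = 4) (hker : ∀ v, ex v = 0 ↔ v ∈ Λ)
    (J : V →ₗ[ℚ] V) (hJ : ∀ v, J (J v) = (3 : ℚ) • v) (jj : Jac →+ Jac)
    (hjj : ∀ v, jj (ex v) = ex (J v)) (hcomm : ∀ (g : Γ) x, g • jj x = jj (g • x))
    {k : ℕ} (hk : 0 < k) (hk1 : ∀ v ∈ I0, (k : ℚ) • v ∈ Λ)
    (hk2 : ∀ x ∈ Λ, ∃ v ∈ I0, ∃ w ∈ I0, (k : ℚ) • x = v + J w)
    (stab : ∀ (a b : ℚ) (g : Γ), ∀ v ∈ I0, ∃ v' ∈ I0,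
      g • ex (a • v + b • J v) = ex (a • v' + b • J v'))
    (irr : ∀ l e : ℕ, l.Prime → ∃ σ τ : Γ, ∀ x ∈ Λ,
      σ • σ • ex (((l : ℚ) ^ e)⁻¹ • x) = - ex (((l : ℚ) ^ e)⁻¹ • x) ∧
      τ • σ • ex (((l : ℚ) ^ e)⁻¹ • x) = - (σ • τ • ex (((l : ℚ) ^ e)⁻¹ • x))) :
    ∃ a b : ℚ, (∀ v ∈ I0, a • v + b • J v ∈ Λ) ∧
      ∀ x ∈ Λ, ∃ v ∈ I0, ∃ w ∈ I0,
        (64 : ℚ) • x = a • (v + J w) + b • J (v + J w) := by
  let _ : Module (ℤ√3) V := Module.compHom V (act J hJ)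
  have hs : ∀ (z : ℤ√3) (v : V), z • v = (z.re : ℚ) • v + (z.im : ℚ) • J v := fun z v => rfl
  have : SMulCommClass ℚ (ℤ√3) V := ⟨fun c z v => by
    rw [hs, hs, map_smul]; module⟩
  have hJΛ : ∀ x ∈ Λ, J x ∈ Λ := fun x hx => by
    rw [← hker, ← hjj, (hker x).mpr hx, map_zero]
  have zs : ∀ (S : Submodule ℤ V) (n : ℤ) v, v ∈ S → (n : ℚ) • v ∈ S := fun S n v hv => by
    rw [Int.cast_smul_eq_zsmul]; exact S.smul_mem n hv
  let ΛO : Submodule (ℤ√3) V :=
    { carrier := Λ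
      zero_mem' := Λ.zero_mem
      add_mem' := Λ.add_mem
      smul_mem' := fun z v hv => by
        rw [hs]; exact Λ.add_mem (zs _ _ _ hv) (zs _ _ _ (hJΛ v hv)) }
  let I1 : Submodule (ℤ√3) V :=
    { carrier := {y | ∃ v ∈ I0, ∃ w ∈ I0, y = v + J w}
      zero_mem' := ⟨0, I0.zero_mem, 0, I0.zero_mem, by simp⟩
      add_mem' := by
        rintro _ _ ⟨v, hv, w, hw, rfl⟩ ⟨v', hv', w', hw', rfl⟩
        exact ⟨v + v', I0.add_mem hv hv', w + w', I0.add_mem hw hw', by rw [map_add]; abel⟩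
      smul_mem' := by
        rintro z _ ⟨v, hv, w, hw, rfl⟩
        refine ⟨(z.re : ℚ) • v + ((3 * z.im : ℤ) : ℚ) • w, I0.add_mem (zs _ _ _ hv) (zs _ _ _ hw),
          (z.re : ℚ) • w + (z.im : ℚ) • v, I0.add_mem (zs _ _ _ hw) (zs _ _ _ hv), ?_⟩
        rw [hs]
        simp only [map_add, map_smul, hJ]
        push_cast
        module }
  let eq : ΛO ≃ₗ[ℤ] Λ :=
    { toFun := fun x => ⟨x.1, x.2⟩
      invFun := fun x => ⟨x.1, x.2⟩
      map_add' := fun _ _ => rfl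
      map_smul' := fun _ _ => rfl
      left_inv := fun _ => rfl
      right_inv := fun _ => rfl }
  have : Module.Finite ℤ ΛO := Module.Finite.equiv eq.symm
  have : Module.Finite (ℤ√3) ΛO := Module.Finite.of_restrictScalars_finite ℤ _ _
  have : Module.IsTorsionFree (ℤ√3) ΛO := by
    refine Module.IsTorsionFree.of_smul_eq_zero (fun z x h => ?_)
    by_cases hz : z = 0
    · exact Or.inl hz
    · exact Or.inr (Subtype.ext (tf hz (congrArg Subtype.val h)))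
  have hr : Module.finrank (ℤ√3) ΛO = 2 := by
    have h1 := Module.finrank_mul_finrank ℤ (ℤ√3) ΛO
    rw [finrank_O, eq.finrank_eq, hrk] at h1
    omega
  let b : Module.Basis (Fin 2) (ℤ√3) ΛO := Module.finBasisOfFinrankEq _ _ hr
  have hsq : ∀ v : V, (Zsqrtd.sqrtd : ℤ√3) • v = J v := fun v => by rw [hs]; simp
  obtain ⟨c, z, h1, h2⟩ := lat_mod (Γ := Γ) ex ΛO I1 b hker jj (fun v => by rw [hsq, hjj]) hcomm hk
    (by
      rintro _ ⟨v, hv, w, hw, rfl⟩
      rw [nat_smul, smul_add, ← map_smul]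
      exact Λ.add_mem (hk1 v hv) (hJΛ _ (hk1 w hw)))
    (fun x hx => by rw [nat_smul]; exact hk2 x hx)
    (by
      rintro c z g _ ⟨v, hv, w, hw, rfl⟩
      obtain ⟨v', hv', e1⟩ := stab (c * z.re) (c * z.im) g v hv
      obtain ⟨w', hw', e2⟩ := stab (c * z.re) (c * z.im) g w hw
      have e : ∀ v w : V, c • z • (v + J w) = ((c * z.re) • v + (c * z.im) • J v)
          + J ((c * z.re) • w + (c * z.im) • J w) := by
        intro v w
        rw [hs]; simp only [map_add, map_smul]; module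
      refine ⟨v' + J w', ⟨v', hv', w', hw', rfl⟩, ?_⟩
      rw [e, e, ex.map_add _ (J _), ex.map_add _ (J _), ← hjj, ← hjj, smul_add, hcomm, e1, e2])
    irr
  refine ⟨c * z.re, c * z.im, fun v hv => ?_, fun x hx => ?_⟩
  · have := h1 v ⟨v, hv, 0, I0.zero_mem, by simp⟩
    rw [hs, smul_add, smul_smul, smul_smul] at this
    exact this
  · obtain ⟨_, ⟨v, hv, w, hw, rfl⟩, h⟩ := h2 x hx
    exact ⟨v, hv, w, hw, by rw [h, hs, smul_add, smul_smul, smul_smul]⟩

end main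

end Crest.Agent.T15.Lat
end
end

-- ▼ part T15/HtGA_4
section

/-!
# Row 15, block Ht (helper4): lemmas for the final assembly `HtGlue`
-/

set_option autoImplicit false
set_option linter.all false

noncomputable section

namespace Crest.Agent.T15.HtG

open Polynomial Matrix CongruenceSubgroup
open scoped NNReal MatrixGroups UpperHalfPlane
open Crest.Agent.T15.Ht
open Crest.Agent.T15.C (Om Gam)
open Crest.Agent.T15.Top (Plc IsFr Mod)
open Crest.Agent.T15.Mo (Par)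
open Crest.Agent.T15.Esc (CS per)
open Crest.Agent.T15.Und (QS)
open Crest.Agent.T15.Ar (Cert)

/-! ### algebra of the plane -/

section alg

variable {R S : Type*} [Field R] [Field S]

theorem emb_apply (P : Par R) (x : Fin 2 → R) : emb P x = x 0 • v1 P + x 1 • v3 P := rfl

theorem map_Mx (P : Par R) (f : R →+* S) (i j : Fin 3) : Mx (P.map f) i j = f (Mx P i j) := by
  fin_cases i <;> fin_cases j <;> simp [Mx, map_ofNat]

theorem map_v1 (P : Par R) (f : R →+* S) (i : Fin 3) : v1 (P.map f) i = f (v1 P i) := by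
  fin_cases i <;> simp [v1, Sc3.kap, map_ofNat]

theorem map_v3 (P : Par R) (f : R →+* S) (i : Fin 3) : v3 (P.map f) i = f (v3 P i) := by
  simp [v3, mulVec, dotProduct, Fin.sum_univ_three, map_Mx, map_v1]

theorem v3_one (P : Par R) : v3 P 1 = 0 := by
  simp [v3, mulVec, dotProduct, Fin.sum_univ_three, Mx, v1]

theorem v1_one (P : Par R) : v1 P 1 = (Sc3.kap P.p2 P.p3 P.al P.be)⁻¹ := rfl

theorem three_eq [CharZero R] (P : Par R) :
    P.al ^ 2 / (P.p1 * P.p2 ^ 3) + P.be ^ 2 / (P.p1 * P.p3 ^ 3) = 3 := by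
  have h1 := P.h1; have h2 := P.h2; have h3 := P.h3
  rw [P.hal, P.hbe]
  field_simp
  have := P.p3_eq
  rw [this]
  ring

theorem Mx_v3 [CharZero R] (P : Par R) : Mx P *ᵥ v3 P = (3 : R) • v1 P := by
  have h1 := P.h1; have h2 := P.h2; have h3 := P.h3
  have h := three_eq P
  ext i
  fin_cases i
  · simp [v3, mulVec, dotProduct, Fin.sum_univ_three, Mx, v1]
  · simp only [v3, mulVec, dotProduct, Fin.sum_univ_three, Mx, v1]
    simp
    rw [← h]
    generalize (Sc3.kap P.p2 P.p3 P.al P.be)⁻¹ = κ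
    field_simp
    ring
  · simp [v3, mulVec, dotProduct, Fin.sum_univ_three, Mx, v1]

theorem emb_J2 (P : Par ℂ) (x : Fin 2 → ℂ) : emb P (J2 x) = Mx P *ᵥ emb P x := by
  rw [emb_apply, emb_apply, mulVec_add, mulVec_smul, mulVec_smul, Mx_v3, ← v3]
  simp only [J2, LinearMap.coe_mk, AddHom.coe_mk, cons_val_zero, cons_val_one, smul_smul]
  rw [add_comm, mul_comm]

theorem J2_J2 (x : Fin 2 → ℂ) : J2 (J2 x) = (3 : ℚ) • x := by
  ext i
  fin_cases i <;> simp [J2, Rat.smul_def]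

theorem map_eq_self (P : Par R) (f : R →+* R) (h1 : f P.p1 = P.p1) (h2 : f P.p2 = P.p2)
    (ht : f P.t = P.t) (ha : f P.al = P.al) (hb : f P.be = P.be) : P.map f = P := by
  have h3 : f P.p3 = P.p3 := by rw [P.p3_eq, map_sub, map_neg, h1, h2]
  cases P
  simp only [Par.map] at *
  congr

theorem Is.map {P : Par R} {p1 p2 p3 t : ℤ} (h : Is P p1 p2 p3 t) (f : R →+* S) :
    Is (P.map f) p1 p2 p3 t :=
  ⟨by simp [h.h1], by simp [h.h2], by simp [h.h3], by simp [h.ht]⟩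

theorem F_ne [CharZero R] (P : Par R) : P.F ≠ 0 := by
  have hc := P.c_ne
  unfold Par.F Mo.Fm
  refine mul_ne_zero (mul_ne_zero (mul_ne_zero (mul_ne_zero (by simpa using hc) X_ne_zero) ?_) ?_) ?_
    <;> exact X_pow_sub_C_ne_zero two_pos _

theorem exists_base {k : Type*} [Field k] [IsAlgClosed k] {F : k[X]} (hF : F ≠ 0) :
    ∃ a b : Fin 3 → k, Base F a b := by
  have hinf : {x : k | F.eval x ≠ 0}.Infinite := by
    have h1 : {x : k | F.IsRoot x}.Finite := F.finite_setOf_isRoot hF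
    exact h1.infinite_compl
  let e := hinf.natEmbedding
  let a : Fin 3 → k := fun i => e i
  have hb : ∀ i, ∃ b, b ^ 2 = F.eval (a i) := fun i => IsAlgClosed.exists_pow_nat_eq _ two_pos
  choose b hb using hb
  refine ⟨a, b, fun i j h => ?_, fun i h => ?_, hb⟩
  · exact Fin.ext (e.injective (Subtype.ext h))
  · have := hb i
    rw [h] at this
    exact (e i).2 (by rw [← this]; simp)

end alg

/-! ### linear combinations of the pair of forms -/

/-- the vector of forms `x f₀ + y f₁` -/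
def lin (x y : Fin 3 → ℂ) (f : Fin 2 → ℍ → ℂ) : Fin 3 → ℍ → ℂ := fun k => x k • f 0 + y k • f 1

theorem cf_lin {L : ℕ} {g : ℕ → ℤ} {f : Fin 2 → ℍ → ℂ} (h : Pair L g f) (x y : Fin 3 → ℂ) :
    Cf L (fun n k => x k * pc 1 g n + y k * pc 3 g n) (lin x y f) := fun k =>
  ⟨Submodule.add_mem _ (Submodule.smul_mem _ _ (h.cs 0)) (Submodule.smul_mem _ _ (h.cs 1)),
    fun z => by
      have := ((h.q1 z).mul_left (x k)).add ((h.q3 z).mul_left (y k))
      simpa only [add_mul, mul_assoc] using! this⟩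

theorem pv_lin {L : ℕ} {g : ℕ → ℤ} {f : Fin 2 → ℍ → ℂ} (h : Pair L g f) (x y : Fin 3 → ℂ)
    (γ : SL(2, ℤ)) : pv (lin x y f) γ = pv f γ 0 • x + pv f γ 1 • y := by
  ext k
  have h0 := (h.cs 0).1
  have h1 := (h.cs 1).1
  simp only [pv, lin, Pi.add_apply, Pi.smul_apply, smul_eq_mul]
  rw [Esc.per_add (h0.const_smul _) (h1.const_smul _), Esc.per_smul _ h0, Esc.per_smul _ h1]
  ring

/-- first column of `emb ∘ (a + b J)` -/
def c0 (P : Par ℂ) (a b : ℚ) : Fin 3 → ℂ := (a : ℂ) • v1 P + (b : ℂ) • v3 P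

/-- second column of `emb ∘ (a + b J)` -/
def c1 (P : Par ℂ) (a b : ℚ) : Fin 3 → ℂ := (3 * b : ℂ) • v1 P + (a : ℂ) • v3 P

theorem emb_ab (P : Par ℂ) (a b : ℚ) (v : Fin 2 → ℂ) :
    emb P (a • v + b • J2 v) = v 0 • c0 P a b + v 1 • c1 P a b := by
  rw [emb_apply]
  simp only [J2, LinearMap.coe_mk, AddHom.coe_mk, Pi.add_apply, Pi.smul_apply, cons_val_zero,
    cons_val_one, c0, c1, Rat.smul_def]
  module

theorem pv_ab {L : ℕ} {g : ℕ → ℤ} {f : Fin 2 → ℍ → ℂ} (h : Pair L g f) (P : Par ℂ) (a b : ℚ)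
    (γ : SL(2, ℤ)) :
    pv (lin (c0 P a b) (c1 P a b) f) γ = emb P (a • pv f γ + b • J2 (pv f γ)) := by
  rw [pv_lin h, emb_ab]

theorem mem_Lam {P : Par ℂ} (J : Jc P) (x : Fin 2 → ℂ) : x ∈ J.Lam ↔ J.ex (emb P x) = 0 := Iff.rfl

theorem J2_Lam {P : Par ℂ} (J : Jc P) {x : Fin 2 → ℂ} (h : x ∈ J.Lam) : J2 x ∈ J.Lam := by
  rw [mem_Lam] at *
  rw [emb_J2, ← J.j_ex, h, map_zero]

theorem pv_mem {L : ℕ} (f : Fin 2 → ℍ → ℂ) {γ : SL(2, ℤ)} (h : γ ∈ Gamma0 L) :
    pv f γ ∈ I0 L f := Submodule.subset_span ⟨γ, h, rfl⟩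

/-! ### the last inequality -/

theorem last_ineq {p1 p2 p3 D N L C C0 r : ℝ} {k : ℕ} (h2 : 1 ≤ p2) (h1 : p2 ≤ |p1|) (h3 : p2 ≤ |p3|)
    (hD : D ≠ 0) (hL : 1 ≤ L)
    (hfin : |64 * D * (p1 * p2 * p3) ^ 2| ≤ 1944 ^ 4 * (3 * L ^ 2 * N) ^ 2)
    (harch : N ^ 2 ≤ Real.exp (C * L ^ k) * |r|) (hcov : |r| ≤ C0 * |D| * p2 ^ 4) :
    Real.log p2 ≤ (1944 ^ 4 * |C0| + 4 + |C|) * L ^ (k + 1) := by
  have hD' : 0 < |D| := abs_pos.2 hD
  have e1 : 64 * |D| * p2 ^ 6 ≤ |64 * D * (p1 * p2 * p3) ^ 2| := by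
    rw [abs_mul, abs_mul, abs_pow, abs_mul, abs_mul, abs_of_pos (by linarith : 0 < p2),
      abs_of_pos (by norm_num : (0 : ℝ) < 64)]
    have : p2 ^ 6 = (p2 * p2 * p2) ^ 2 := by ring
    rw [this]
    gcongr
  have e2 : N ^ 2 ≤ Real.exp (|C| * L ^ k) * (|C0| * |D| * p2 ^ 4) := by
    refine harch.trans ?_
    gcongr
    · exact le_abs_self _
    · refine hcov.trans ?_
      gcongr
      exact le_abs_self _
  have e3 : (|D| * p2 ^ 4) * (64 * p2 ^ 2) ≤
      (|D| * p2 ^ 4) * (9 * (1944 ^ 4 * |C0| * L ^ 4 * Real.exp (|C| * L ^ k))) := by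
    calc (|D| * p2 ^ 4) * (64 * p2 ^ 2) = 64 * |D| * p2 ^ 6 := by ring
      _ ≤ 1944 ^ 4 * (3 * L ^ 2 * N) ^ 2 := e1.trans hfin
      _ = 1944 ^ 4 * 9 * L ^ 4 * N ^ 2 := by ring
      _ ≤ 1944 ^ 4 * 9 * L ^ 4 * (Real.exp (|C| * L ^ k) * (|C0| * |D| * p2 ^ 4)) := by gcongr
      _ = _ := by ring
  have e4 := le_of_mul_le_mul_left e3 (by positivity)
  set K : ℝ := 1944 ^ 4 * |C0| with hK
  have hK0 : 0 ≤ K := by positivity
  have e5 : p2 ≤ K * L ^ 4 * Real.exp (|C| * L ^ k) := by nlinarith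
  have e6 : K ≤ Real.exp K := by linarith [Real.add_one_le_exp K]
  have e7 : L ^ 4 ≤ Real.exp (4 * L) := by
    have : L ≤ Real.exp L := by linarith [Real.add_one_le_exp L]
    calc L ^ 4 ≤ Real.exp L ^ 4 := by gcongr
      _ = _ := by rw [← Real.exp_nat_mul]; norm_num
  have e8 : p2 ≤ Real.exp (K + 4 * L + |C| * L ^ k) := by
    rw [Real.exp_add, Real.exp_add]
    refine e5.trans ?_
    gcongr
  have e9 : Real.log p2 ≤ K + 4 * L + |C| * L ^ k := by
    rw [Real.log_le_iff_le_exp (by linarith)]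
    exact e8
  have a1 : 1 ≤ L ^ (k + 1) := one_le_pow₀ hL
  have a2 : L ≤ L ^ (k + 1) := le_self_pow₀ hL (by omega)
  have a3 : L ^ k ≤ L ^ (k + 1) := pow_le_pow_right₀ hL (by omega)
  have a4 := abs_nonneg C
  nlinarith

end Crest.Agent.T15.HtG
end
end

-- ▼ part T15/HtG_4
section

/-!
# Row 15, block Ht (helper4): the final assembly `HtGlue`
-/

set_option autoImplicit false
set_option linter.all false

noncomputable section

namespace Crest.Agent.T15.HtG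

open Polynomial Matrix CongruenceSubgroup
open scoped NNReal MatrixGroups UpperHalfPlane
open Crest.Agent.R013.PicD_398 Crest.Agent.R013.Frob1_914
open Crest.Agent.T15.Ht
open Crest.Agent.T15.C (Om Gam)
open Crest.Agent.T15.Top (Plc IsFr Mod)
open Crest.Agent.T15.Mo (Par)
open Crest.Agent.T15.Esc (CS per)
open Crest.Agent.T15.Und (QS)
open Crest.Agent.T15.Ar (Cert)

/-- rationality of the traces at almost all primes -/
theorem rat_step (hI : IntStmt) (hR : RatStmt) {p1 p2 p3 t : ℤ} {P : Par Om} (M : Mdl P)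
    (hP : Is P p1 p2 p3 t) {N N' : ℕ} {a : ℕ → ℂ} {s3 : ℂ} (hs : s3 ^ 2 = 3)
    (hL : ∀ (Q : Plc) (e : SI Om M.Y Om M.Y), ¬ Q.rchar ∣ 3 * N → Fr M Q e →
      ∃ τ : ℕ → ℤ, M.Rel e Q.rchar τ ∧ Lim τ (a Q.rchar) (s3 ^ ep Q.rchar))
    (hN' : 0 < N') (hd : N ∣ N') (hM : Mod N' a) :
    ∃ B : ℕ, 0 < B ∧ 3 * N' ∣ B ∧ ∀ l : ℕ, l.Prime → ¬ l ∣ B → ∃ n : ℤ, a l = n * s3 ^ ep l ∧
      ∀ (Q : Plc) (e : SI Om M.Y Om M.Y), Q.rchar = l → Fr M Q e → M.Rel e l fun _ => n := by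
  obtain ⟨B, hB, hR⟩ := hR p1 p2 p3 t P M hP
  refine ⟨3 * N' * B, by positivity, Dvd.intro _ rfl, fun l hl hQ => ?_⟩
  have h1 : ¬ l ∣ 3 * N' := fun h => hQ (h.mul_right _)
  refine hR l _ s3 hl (fun h => hQ (h.mul_left _)) hs (hI N' a _ hN' hM hl h1) ?_
  rintro Q e rfl he
  exact hL Q e (fun h => h1 (h.trans (Nat.mul_dvd_mul_left 3 hd))) he

/-- the periods of the depleted pair are torsion -/
theorem tors_step (hB : BrStmt) (ι : Om →+* ℂ) {P : Par Om} (J : Jc (P.map ι)) {L m : ℕ}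
    {g : ℕ → ℤ} {f : Fin 2 → ℍ → ℂ} {a b : Fin 3 → Om} (hL : 0 < L) (hm : 0 < m) (hf : Pair L g f)
    (hab : Base P.F a b) (hI : Integ P.F a b fun n => (m : Om) • cv P g n) :
    ∀ γ ∈ Gamma0 L, ∃ m : ℕ, 0 < m ∧ m • pv f γ ∈ J.Lam := by
  intro γ hγ
  have key : ∀ (σ : Om →+* ℂ), Cf L (fun n k => σ (((m : Om) • cv P g n) k))
      (lin (fun k => m * σ (v1 P k)) (fun k => m * σ (v3 P k)) f) := fun σ => by
    convert cf_lin hf _ _ using 3 with n k
    simp only [cv, emb_apply, Pi.smul_apply, Pi.add_apply, smul_eq_mul, cons_val_zero, cons_val_one,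
      map_mul, map_add, map_natCast, map_intCast]
    ring
  let K0 : IntermediateField ℚ Om :=
    IntermediateField.adjoin ℚ (Set.range (v1 P) ∪ Set.range (v3 P))
  have : Finite ↑(Set.range (v1 P) ∪ Set.range (v3 P)) :=
    ((Set.finite_range _).union (Set.finite_range _)).to_subtype
  have : Algebra.IsAlgebraic ℚ Om := AlgebraicClosure.isAlgebraic ℚ
  have hK : FiniteDimensional ℚ K0 := IntermediateField.finiteDimensional_adjoin fun x _ =>
    Algebra.IsIntegral.isIntegral x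
  obtain ⟨m', hm', h⟩ := hB ι P.F J.A J.cl J.ex L (fun n => (m : Om) • cv P g n) a b K0 _
    (by rw [← Par.map_F]; exact J.lt) hL hK
    (fun n k => by
      simp only [cv, emb_apply, Pi.smul_apply, Pi.add_apply, smul_eq_mul, cons_val_zero,
        cons_val_one]
      exact mul_mem (natCast_mem _ _) (add_mem
        (mul_mem (intCast_mem _ _) (IntermediateField.subset_adjoin _ _ (Or.inl ⟨k, rfl⟩)))
        (mul_mem (intCast_mem _ _) (IntermediateField.subset_adjoin _ _ (Or.inr ⟨k, rfl⟩)))))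
    hab hI (fun σ => ⟨_, key σ⟩) (key ι) γ hγ
  refine ⟨m' * m, by positivity, ?_⟩
  rw [mem_Lam, mul_smul, map_nsmul, map_nsmul, ← h, pv_lin hf]
  congr 2
  ext k
  simp only [emb_apply, Pi.smul_apply, Pi.add_apply, smul_eq_mul, nsmul_eq_mul, map_v1, map_v3,
    Pi.mul_apply, Pi.natCast_apply]
  ring

theorem fix_v {P : Par ℂ} (s : Gs P) : P.map (s.1 : ℂ →+* ℂ) = P :=
  map_eq_self P _ s.2.1 s.2.2.1 s.2.2.2.1 s.2.2.2.2.1 s.2.2.2.2.2

/-- comparison of the two lattices -/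
theorem lat_step (hS : StabStmt) {P : Par ℂ} (J : Jc P) (hI : Irr (Gs P) J.A)
    [Module.Finite ℤ J.Lam] (hr : Module.finrank ℤ J.Lam = 4) {L k : ℕ} {g : ℕ → ℤ}
    {f : Fin 2 → ℍ → ℂ} (hL : 0 < L) (hf : Pair L g f) (hk : 0 < k)
    (hk1 : ∀ v ∈ I0 L f, (k : ℚ) • v ∈ J.Lam)
    (hk2 : ∀ x ∈ J.Lam, ∃ v ∈ I0 L f, ∃ w ∈ I0 L f, (k : ℚ) • x = v + J2 w) :
    ∃ a b : ℚ, (∀ v ∈ I0 L f, a • v + b • J2 v ∈ J.Lam) ∧
      ∀ x ∈ J.Lam, ∃ v ∈ I0 L f, ∃ w ∈ I0 L f,
        (64 : ℚ) • x = a • (v + J2 w) + b • J2 (v + J2 w) := by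
  refine Lat.lat (Γ := Gs P) (J.ex.comp (emb P)) J.Lam (I0 L f) hr (fun v => Iff.rfl) J2 J2_J2 J.j
    (fun v => ?_) J.act_j hk hk1 hk2 (fun a b s v hv => ?_) (fun l e hl => ?_)
  · rw [AddMonoidHom.comp_apply, AddMonoidHom.comp_apply, J.j_ex, emb_J2]
  · have hv1 : ∀ i, s.1 (v1 P i) = v1 P i := fun i => by
      have := map_v1 P (s.1 : ℂ →+* ℂ) i
      rw [fix_v] at this; exact this.symm
    have hv3 : ∀ i, s.1 (v3 P i) = v3 P i := fun i => by
      have := map_v3 P (s.1 : ℂ →+* ℂ) i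
      rw [fix_v] at this; exact this.symm
    have st := hS P.F J.A J.cl J.ex s.1 (DistribSMul.toAddMonoidHom J.A s) L _ _ J.lt
      (by rw [← Par.map_F, fix_v]) (fun x y h => J.act_cl s x y h) hL
      (cf_lin hf (c0 P a b) (c1 P a b))
      (fun n i => by simp [c0, c1, hv1, hv3, map_ofNat])
      (fun γ hγ => by
        refine ⟨a.den * b.den * k, by have := a.den_pos; have := b.den_pos; positivity, ?_⟩
        rw [pv_ab hf, ← map_nsmul, ← map_nsmul, ← mem_Lam]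
        have h1 := hk1 _ (pv_mem f hγ)
        have e : (a.den * b.den * k) • (a • pv f γ + b • J2 (pv f γ)) =
            (a.num * b.den : ℤ) • ((k : ℚ) • pv f γ) +
              (a.den * b.num : ℤ) • J2 ((k : ℚ) • pv f γ) := by
          rw [map_smul, ← Nat.cast_smul_eq_nsmul ℚ, ← Int.cast_smul_eq_zsmul ℚ,
            ← Int.cast_smul_eq_zsmul ℚ]
          push_cast
          rw [← Rat.mul_den_eq_num, ← Rat.mul_den_eq_num]
          module
        rw [e]
        exact add_mem (Submodule.smul_mem _ _ h1) (Submodule.smul_mem _ _ (J2_Lam J h1)))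
    induction hv using Submodule.span_induction with
    | mem v hv =>
      obtain ⟨γ, hγ, rfl⟩ := hv
      obtain ⟨γ', hγ', h⟩ := st γ hγ
      rw [pv_ab hf, pv_ab hf] at h
      exact ⟨_, pv_mem f hγ', h⟩
    | zero => exact ⟨0, zero_mem _, by simp⟩
    | add v w _ _ h1 h2 =>
      obtain ⟨v', hv', h1⟩ := h1
      obtain ⟨w', hw', h2⟩ := h2
      refine ⟨v' + w', add_mem hv' hw', ?_⟩
      have e : ∀ v w : Fin 2 → ℂ, a • (v + w) + b • J2 (v + w) =
          (a • v + b • J2 v) + (a • w + b • J2 w) := fun v w => by rw [map_add]; module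
      rw [e, e, map_add, smul_add, h1, h2, ← map_add]
    | smul n v _ h1 =>
      obtain ⟨v', hv', h1⟩ := h1
      refine ⟨n • v', Submodule.smul_mem _ _ hv', ?_⟩
      have e : ∀ v : Fin 2 → ℂ, a • (n • v) + b • J2 (n • v) = n • (a • v + b • J2 v) :=
        fun v => by rw [map_zsmul]; module
      rw [e, e, map_zsmul, map_zsmul, smul_comm, h1]
  · obtain ⟨σ, τ, h⟩ := hI l e hl
    refine ⟨σ, τ, fun x hx => h _ ?_⟩
    have : ((l : ℚ) ^ e) ≠ 0 := by have := hl.pos; positivity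
    rw [← map_nsmul, ← Nat.cast_smul_eq_nsmul ℚ, smul_smul, Nat.cast_pow, mul_inv_cancel₀ this,
      one_smul]
    exact hx

theorem nf {del : ℚ} {m p1 p2 p3 t D : ℤ} {P : Par ℂ} (hc : Cert del m p1 p2 p3 t D)
    (hP : Is P p1 p2 p3 t) :
    Sc3.Nf (p1 : ℂ) p2 p3 D t P.al P.be P.c P.a1 P.a2 P.a3 := by
  have h1 : (p1 : ℂ) * p2 * p3 * ((p2 - p3) * (p3 - p1) * (p1 - p2)) = D * t ^ 2 := by
    exact_mod_cast hc.prod
  have hD : (D : ℂ) ≠ 0 := by exact_mod_cast hc.D_ne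
  have ht : (t : ℂ) ≠ 0 := by exact_mod_cast hc.t_ne
  refine ⟨by exact_mod_cast hc.sum, by linear_combination h1, by positivity, ?_, ?_, ?_, ?_, ?_, ?_⟩
  · rw [P.hal, hP.h1, hP.h2, hP.h3]; ring
  · rw [P.hbe, hP.h1, hP.h2, hP.h3]
  · simp only [Par.c, Par.d3, Par.d2, hP.h1, hP.h2, hP.h3, hP.ht]
  · simp only [Par.a1, Par.d1, hP.h1, hP.h2, hP.h3]
  · simp only [Par.a2, Par.d1, hP.h1, hP.h2, hP.h3]
  · simp only [Par.a3, Par.d1, hP.h1, hP.h2, hP.h3]

/-- one valuation, one form -/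
theorem scal_one (hS : ScalStmt) {del : ℚ} {m p1 p2 p3 t D : ℤ} {P : Par ℂ}
    (hc : Cert del m p1 p2 p3 t D) (hP : Is P p1 p2 p3 t) (J : Jc P) {L : ℕ} {g : ℕ → ℤ}
    {f : Fin 2 → ℍ → ℂ} (hg : Hk L g) (hf : Pair L g f) {a b : ℚ}
    (hab : ∀ v ∈ I0 L f, a • v + b • J2 v ∈ J.Lam) (w : Valuation ℂ ℝ≥0) :
    w ((1944 * (((L * a : ℚ)) : ℂ)) ^ 4 / ((64 * D * (p1 * p2 * p3) ^ 2 : ℚ) : ℂ)) ≤ 1 := by
  have hL : 3 ≤ L := le_trans (by norm_num) (Nat.le_of_dvd hg.pos hg.dvd)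
  have hκ : Sc3.kap P.p2 P.p3 P.al P.be ≠ 0 := mul_ne_zero (by norm_num) P.sub_ne2
  obtain ⟨h1, h2⟩ := hS P.c P.a1 P.a2 P.a3 J.A J.cl J.ex L _ _ J.lt hL
    (cf_lin hf (c0 P a b) (c1 P a b))
    ⟨Submodule.span ℤ {c0 P a b 1, c1 P a b 1}, Submodule.fg_span (by simp), fun n => by
      rw [mul_comm (c0 P a b 1), mul_comm (c1 P a b 1), ← zsmul_eq_mul, ← zsmul_eq_mul]
      exact add_mem (Submodule.smul_mem _ _ (Submodule.subset_span (by simp)))
        (Submodule.smul_mem _ _ (Submodule.subset_span (by simp)))⟩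
    (fun γ hγ => by rw [pv_ab hf, ← mem_Lam]; exact hab _ (pv_mem f hγ)) w 1
  have h := Sc3.Nf.comb w (nf hc hP) (hc.cop12.mul_right hc.cop13) h1 h2
  convert h using 4
  · rw [← hP.h2, ← hP.h3]
    simp only [pc, hg.one, c0, Pi.add_apply, Pi.smul_apply, v1_one, v3_one, smul_eq_mul]
    norm_num
    field_simp
  · push_cast; rfl

/-- the finite places -/
theorem fin_step (hS : ScalStmt) (hV : ValStmt) {del : ℚ} {m p1 p2 p3 t D : ℤ} {P : Par ℂ}
    (hc : Cert del m p1 p2 p3 t D) (hP : Is P p1 p2 p3 t) (J : Jc P) {L : ℕ} {g : ℕ → ℤ}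
    {f : Fin 2 → ℍ → ℂ} (hg : Hk L g) (hf : Pair L g f) {a b : ℚ}
    (hab : ∀ v ∈ I0 L f, a • v + b • J2 v ∈ J.Lam) (hne : a ^ 2 - 3 * b ^ 2 ≠ 0) :
    |(64 * D * (p1 * p2 * p3) ^ 2 : ℚ)| ≤ 1944 ^ 4 * (3 * L ^ 2 * (a ^ 2 - 3 * b ^ 2)) ^ 2 := by
  have hab' : ∀ v ∈ I0 L f, (3 * b) • v + a • J2 v ∈ J.Lam := fun v hv => by
    have := J2_Lam J (hab v hv)
    rw [map_add, map_smul, map_smul, J2_J2, smul_smul, add_comm, mul_comm] at this
    exact this
  have e : 3 * (L * a) ^ 2 - (L * (3 * b)) ^ 2 = 3 * L ^ 2 * (a ^ 2 - 3 * b ^ 2) := by ring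
  have hL : (L : ℚ) ≠ 0 := by exact_mod_cast hg.pos.ne'
  have h1 : (p1 : ℚ) ≠ 0 := by exact_mod_cast hc.p1_ne
  have h2 : (p2 : ℚ) ≠ 0 := by exact_mod_cast hc.p2_ne
  have h3 : (p3 : ℚ) ≠ 0 := by exact_mod_cast hc.p3_ne
  have hD : (D : ℚ) ≠ 0 := by exact_mod_cast hc.D_ne
  rw [← e]
  refine Sc3.fin_bound (K := ℂ) (Γ := ℝ≥0) (by positivity) (by rw [e]; positivity) fun l hl => ?_
  obtain ⟨w, hw⟩ := hV l hl
  exact ⟨w, hw, scal_one hS hc hP J hg hf hab w, scal_one hS hc hP J hg hf hab' w⟩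

/-- **final assembly of block Ht** -/
theorem htGlue : HtGlue := by
  intro del hG hI hR hSm hHo hJ hDep hBr hPer hSt hSc hV hCov hAr
  obtain ⟨C1, k1, hSm⟩ := hSm
  obtain ⟨C0, hCov⟩ := hCov
  obtain ⟨C2, k2, hAr⟩ := hAr
  refine ⟨(Real.log 21547 + (1944 ^ 4 * |C0| + 4 + |C2|)) * |C1| ^ (k2 + 1), k1 * (k2 + 1), ?_⟩
  rintro y N N' a ⟨m, p1, p2, p3, t, D, P, M, s3, hc, rfl, hP, hs, hL⟩ hN' hd - hM
  -- rationality
  obtain ⟨B1, hB1, hd1, hrat⟩ := rat_step hI hR M hP hs hL hN' hd (hM (RingEquiv.refl ℂ))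
  obtain ⟨L, g, f, hLe, hg, hf, hag⟩ := hSm N' B1 a s3 hN' hB1 hs hM fun l hl hlB => by
    obtain ⟨n, hn, -⟩ := hrat l hl hlB
    exact ⟨n, hn⟩
  -- integrality
  have hs0 : s3 ≠ 0 := by rintro rfl; norm_num at hs
  obtain ⟨α, β, hαβ⟩ := exists_base (F_ne P)
  obtain ⟨B, m0, hB, hm0, hInt⟩ := hHo p1 p2 p3 t P M L (B1 * L) g α β hP hg
    (Nat.mul_pos hB1 hg.pos) hαβ fun Q e hQ he => by
      obtain ⟨n, hn, h⟩ := hrat _ Q.rchar_prime fun h => hQ (h.mul_right _)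
      have := hag _ Q.rchar_prime fun h => hQ (h.trans (Nat.mul_dvd_mul_right hd1 _))
      rw [hn] at this
      have e1 : n = g Q.rchar := by exact_mod_cast mul_right_cancel₀ (pow_ne_zero _ hs0) this
      rw [← e1]
      exact h Q e rfl he
  -- the complex side
  have : Algebra.IsAlgebraic ℚ Om := AlgebraicClosure.isAlgebraic ℚ
  let ι : Om →+* ℂ := (IsAlgClosed.lift (R := ℚ) (S := Om) (M := ℂ)).toRingHom
  have hPc := Is.map hP ι
  obtain ⟨J, hirr⟩ := hJ del m p1 p2 p3 t D _ hc hPc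
  obtain ⟨L', f', hL', hf'⟩ := hDep L B g f hg.pos hB hf
  obtain ⟨hfin, hrk, x, hx, hx0, hxle⟩ := hCov m p1 p2 p3 t D _ J hc hPc
  obtain ⟨k, hk, hk1, hk2⟩ := hPer L L' B g f f' J.Lam hg hf hB hL' hf' hrk
    (fun x hx => J2_Lam J hx) (tors_step hBr ι J hL' hm0 hf' hαβ hInt)
  obtain ⟨u, v, huv1, huv2⟩ := lat_step hSt J hirr hrk hg.pos hf hk hk1 hk2
  obtain ⟨hne, harch⟩ := hAr L g f u v x hg hf (fun i => huv2 _ (hx i)) hx0
  have hfs := fin_step hSc hV hc hPc J hg hf huv1 hne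
  -- the count
  have hL1 : (1 : ℝ) ≤ L := by exact_mod_cast hg.pos
  have hlog := last_ineq (p1 := p1) (p2 := p2) (p3 := p3) (D := D)
    (N := ((u ^ 2 - 3 * v ^ 2 : ℚ) : ℝ)) (by exact_mod_cast hc.pos)
    (by exact_mod_cast hc.size.1.1) (by exact_mod_cast hc.size.2.1.1) (by exact_mod_cast hc.D_ne)
    hL1 (by exact_mod_cast hfs) harch hxle
  have hl0 : 0 ≤ Real.log 21547 := Real.log_nonneg (by norm_num)
  have h1 : 1 ≤ (L : ℝ) ^ (k2 + 1) := one_le_pow₀ hL1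
  have h2 : (L : ℝ) ≤ |C1| * (N' : ℝ) ^ k1 := hLe.trans (by gcongr; exact le_abs_self _)
  calc _ ≤ Real.log 21547 + Real.log p2 := hc.height
    _ ≤ (Real.log 21547 + (1944 ^ 4 * |C0| + 4 + |C2|)) * (L : ℝ) ^ (k2 + 1) := by nlinarith
    _ ≤ (Real.log 21547 + (1944 ^ 4 * |C0| + 4 + |C2|)) * (|C1| * (N' : ℝ) ^ k1) ^ (k2 + 1) := by
      gcongr
    _ = _ := by rw [mul_pow, ← pow_mul]; ring

end Crest.Agent.T15.HtG

/-- **final assembly of block Ht** -/
theorem Crest.Agent.T15.Ht.htGlue : Crest.Agent.T15.Ht.HtGlue := Crest.Agent.T15.HtG.htGlue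
end
end

-- ▼ part T15/JcG_28
section

/-!
# Row 15, block Ht (helper28): the glue `JcGlue`
-/

set_option autoImplicit false
set_option linter.all false

noncomputable section

namespace Crest.Agent.T15.Ht

open Polynomial Matrix
open Crest.Agent.R013.PicD_398 Crest.Agent.R013.Frob1_914
open Crest.Agent.T15.Mo (Par Eqs)

section si

variable {k K : Type*} [Field k] [Field K] [Algebra k K]

theorem si_aeval_28 (e : SI k K k K) (x : K) (p : k[X]) :
    e.f (aeval x p) = aeval (e.f x) (p.map (e.s : k →+* k)) := by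
  induction p using Polynomial.induction_on' with
  | add p q hp hq => simp [hp, hq]
  | monomial n a => simp [aeval_monomial, e.comm]

theorem si_ext_28 {F : k[X]} {x w : K} (h : Hy.Hyp F x w) {e e' : SI k K k K} (hs : e.s = e'.s)
    (hx : e.f x = e'.f x) (hw : e.f w = e'.f w) : e = e' := by
  have hf : e.f = e'.f := by
    ext f
    obtain ⟨A, B, c, hc, hf⟩ := h.gen f
    have h1 := congrArg e.f hf
    have h2 := congrArg e'.f hf
    have h3 : e'.f (aeval x c) ≠ 0 := (map_ne_zero e'.f).mpr (h.aeval_ne hc)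
    have h4 : ∀ p : k[X], e.f (aeval x p) = e'.f (aeval x p) := fun p => by
      rw [si_aeval_28, si_aeval_28, hs, hx]
    simp only [Hy.el, map_mul, map_add] at h1 h2
    rw [h4, h4, h4, hw, ← h2] at h1
    exact mul_right_cancel₀ h3 h1
  obtain ⟨s, f, _⟩ := e
  obtain ⟨s', f', _⟩ := e'
  simp only at hs hf
  subst hs hf
  rfl

end si

namespace Mdl

variable {P : Par ℂ} (M : Mdl P)

theorem fx_zw_28 {e : SI ℂ M.Y ℂ M.Y} (he : M.Fx e) (hs : e.s ∈ Gs P) :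
    e.f M.z = M.z ∧ e.f M.w = M.w := by
  obtain ⟨h1, h2, ht, ha, hb⟩ := hs
  obtain ⟨hA, hB, hu, -⟩ := he
  have h3 : e.s P.p3 = P.p3 := by rw [P.p3_eq, map_sub, map_neg, h1, h2]
  have hz : e.f M.z = M.z := by
    simp only [z, Par.z, Par.V', Par.R', Par.V, Par.R, Par.d2, Par.d3, Par.map_p1, Par.map_p2,
      Par.map_p3, Par.map_t, Par.map_al, Par.map_be, map_add, map_mul, map_div₀, map_sub, map_pow,
      map_ofNat, e.comm, h1, h2, h3, ht, ha, hb, hA, hB, hu]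
  refine ⟨hz, ?_⟩
  have hw : M.w = M.A * M.z * (M.z ^ 2 - (P.map (algebraMap ℂ M.Y)).a1) *
    (M.z ^ 2 - (P.map (algebraMap ℂ M.Y)).a2) / (M.z ^ 2 - (P.map (algebraMap ℂ M.Y)).b) := rfl
  rw [hw]
  simp only [Par.a1, Par.a2, Par.b, Par.d1, Par.map_p1, Par.map_p2,
    Par.map_p3, Par.map_t, Par.map_al, Par.map_be, map_add, map_mul, map_div₀, map_sub, map_pow,
    map_neg, map_ofNat, e.comm, h1, h2, h3, ht, ha, hb, hA, hz]

end Mdl

/-- **the glue JC** -/
theorem jcGlue : JcGlue := by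
  intro hEx hGal hMo hMat hEnd hIrr del m p1 p2 p3 t D P hC hI
  obtain ⟨M⟩ := hEx ℂ P
  obtain ⟨hG1, hG2, hG3⟩ := hGal ℂ P M
  obtain ⟨hy, hdeg, hY⟩ := hMo ℂ P M
  have hdeg' : P.F.natDegree = 2 * 3 + 1 := hdeg
  have ho : Odd P.F.natDegree := ⟨3, hdeg'⟩
  choose E hE hEs using fun s : Gs P => hG1 s.1 s.2.1 s.2.2.1 s.2.2.2.1
  have hzw : ∀ s, (E s).f M.z = M.z ∧ (E s).f M.w = M.w := fun s =>
    M.fx_zw_28 (hE s) (by rw [hEs]; exact s.2)
  have hmul : ∀ s s', E (s * s') = (E s').trans (E s) := fun s s' =>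
    si_ext_28 hy (by rw [SI.trans_s, hEs, hEs, hEs]; rfl)
      (by rw [SI.trans_f, RingEquiv.trans_apply, (hzw _).1, (hzw _).1, (hzw _).1])
      (by rw [SI.trans_f, RingEquiv.trans_apply, (hzw _).2, (hzw _).2, (hzw _).2])
  have hone : ∀ x, (E 1).pic x = x := fun x => by
    apply (E 1).pic.injective
    rw [← SI.pic_trans, ← hmul, mul_one]
  letI act : DistribMulAction (Gs P) (Pic ℂ M.Y) :=
    { smul := fun s x => (E s).pic x
      one_smul := hone
      mul_smul := fun s s' x => by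
        show (E (s * s')).pic x = (E s).pic ((E s').pic x)
        rw [hmul, SI.pic_trans]
      smul_zero := fun s => map_zero (E s).pic
      smul_add := fun s => map_add (E s).pic }
  have hsm : ∀ (s : Gs P) (x : Pic ℂ M.Y), s • x = (E s).pic x := fun _ _ => rfl
  obtain ⟨ex, hex⟩ := (Aj.dat0 hy hdeg').exists_exp
  obtain ⟨y, hyz, hyw⟩ := hY (-Complex.I) (by simp)
  let ey : SI ℂ M.Y ℂ M.Y := ⟨RingEquiv.refl ℂ, y.toRingEquiv, fun c => y.commutes c⟩
  have hII : algebraMap ℂ M.Y Complex.I * algebraMap ℂ M.Y Complex.I = -1 := by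
    rw [← map_mul, Complex.I_mul_I, map_neg, map_one]
  have hycl : ∀ a b : ℂ, b ^ 2 = P.F.eval a →
      ey.pic (Aj.cl0 M.z M.w (a, b)) = Aj.cl0 M.z M.w (-a, Complex.I * b) := by
    intro a b hb
    have h1 := (hy.at_pt hb).SI ey
    have e1 : ey.f M.z = -M.z := hyz
    have e2 : ey.f M.w = algebraMap ℂ M.Y (-Complex.I) * M.w := hyw
    have e3 : ∀ c, ey.s c = c := fun _ => rfl
    rw [e1, e2, e3, e3] at h1
    have h2 : Hy.At (ey.pl (Hy.pt M.z M.w a b)) M.z M.w (-a) (Complex.I * b) := by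
      constructor
      · have : M.z - algebraMap ℂ M.Y (-a) = -(-M.z - algebraMap ℂ M.Y a) := by
          rw [map_neg]; ring
        rw [this, Valuation.map_neg]; exact h1.1
      · have : M.w - algebraMap ℂ M.Y (Complex.I * b) = algebraMap ℂ M.Y Complex.I *
            (algebraMap ℂ M.Y (-Complex.I) * M.w - algebraMap ℂ M.Y b) := by
          rw [map_neg, map_mul]; linear_combination M.w * hII
        rw [this, map_mul, (ey.pl _).const _ Complex.I_ne_zero, one_mul]; exact h1.2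
    have h3 : ey.pl (Aj.inf ℂ M.z) = Aj.inf ℂ M.z := by
      apply Aj.eq_inf hy ho
      have h4 := Aj.inf_spec hy
      rw [← SI.pl_v_apply ey, e1, Valuation.map_neg] at h4
      exact h4
    rw [Aj.cl0, Aj.cl0, Aj.cl, Aj.cl, Aj.sp, Aj.sp, map_sub, SI.pic_cls, SI.pic_cls, SI.D_single,
      SI.D_single, h3, hy.pt_eq h2]
  refine ⟨{ A := Pic ℂ M.Y
            act := act
            cl := Aj.cl0 M.z M.w
            ex := ex
            j := M.j
            y := ey.pic.toAddMonoidHom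
            lt := ⟨Aj.mumCls hy hdeg', Aj.dat0 hy hdeg', hex⟩
            act_cl := fun s a b hb => by
              rw [hsm, Aj.pic_cl0 hy hy (E s) (hzw s).1 ho (hzw s).2 hb, hEs]
            act_j := fun s x => hG3 (E s) (hE s) x
            j_ex := hEnd P M (Mx P) (Aj.cl M.z M.w) ex hy (hMat ℂ P M) (fun _ _ => rfl)
              (Aj.isExp_cl0.mp hex)
            y_cl := hycl }, ?_⟩
  intro l n hl
  obtain ⟨e, e', hs, hs', hz, hw, hz', hw', hx⟩ := hIrr del m p1 p2 p3 t D P M.Y M.z M.w hC hI hy l n hl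
  have k1 : E ⟨e.s, hs⟩ = e := si_ext_28 hy (hEs _) (by rw [(hzw _).1, hz]) (by rw [(hzw _).2, hw])
  have k2 : E ⟨e'.s, hs'⟩ = e' :=
    si_ext_28 hy (hEs _) (by rw [(hzw _).1, hz']) (by rw [(hzw _).2, hw'])
  refine ⟨⟨e.s, hs⟩, ⟨e'.s, hs'⟩, fun x h0 => ?_⟩
  have := hx x h0
  rw [← k1, ← k2] at this
  exact this

end Crest.Agent.T15.Ht
end
end

-- ▼ part T15/KfU_23
section

/-!
# Row 15, block F (helper23): existence of the model, in the words of `Kf`

* `hom_Y` : universal property of `Y`; `not_sq` : `B2` is not a square in `Y`;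
* `exists_Y`, `exists_K`, `exists_r`.
-/

set_option autoImplicit false
set_option linter.all false

namespace Crest.Agent.T15.KfJ

open Polynomial Module IntermediateField
open Crest.Agent.T15.Hy Crest.Agent.T15.Kf

theorem eqs_unique {L : Type*} [Field L] {Q : Mo.Par L} {A B2 u A' B2' u' : L}
    (h : Mo.Eqs Q A B2 u) (h' : Mo.Eqs Q A' B2' u') (hz : Q.z A B2 u = Q.z A' B2' u')
    (hw : Q.w A B2 u = Q.w A' B2' u') (hb : Q.z A' B2' u' ^ 2 - Q.b ≠ 0) :
    A = A' ∧ B2 = B2' ∧ u = u' := by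
  have hu : u = u' := by rw [h.u_eq, hz, ← h'.u_eq]
  have hV : Q.V A B2 = Q.V A' B2' := by rw [h.V_eq, h'.V_eq, h.V'_eq, h'.V'_eq, hz, hu]
  have hR : Q.R A B2 = Q.R A' B2' := by rw [h.R_eq, h'.R_eq, h.R'_eq, h'.R'_eq, hz, hu]
  refine ⟨?_, ?_, hu⟩
  · rw [h.A_eq (hz ▸ hb), hz, hw, ← h'.A_eq hb]
  · rw [h.B_eq, hV, hR, ← h'.B_eq]

variable {C Y : Type*} [Field C] [Field Y] [Algebra C Y] {P : Par C} {A B2 u : Y}

theorem eqs_of {L : Type*} [Field L] [Algebra C L] {al be : C} (hr : Mo.Rt P al be) {A B2 u : L}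
    (h1 : (P.map (algebraMap C L)).E1 A B2) (h2 : (P.map (algebraMap C L)).E2 A B2 u)
    (ht : Transcendental C u) : Mo.Eqs (hr.par.up L) A B2 u where
  two := (P.map (algebraMap C L)).two
  k0 := h1
  cub := h2
  n3 := by simpa using Mo.add_const_ne ht (P.p1 * P.p2)
  n2 := by simpa using Mo.add_const_ne ht (P.p1 * P.p3)

/-- universal property of `Y` -/
theorem hom_Y [IsAlgClosed C] (h : IsY P A B2 u) {L : Type*} [Field L] [Algebra C L] {A' B2' u' : L}
    (h1 : (P.map (algebraMap C L)).E1 A' B2') (h2 : (P.map (algebraMap C L)).E2 A' B2' u')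
    (ht : Transcendental C u') : ∃ φ : Y →+* L,
      (∀ c, φ (algebraMap C Y c) = algebraMap C L c) ∧ φ A = A' ∧ φ B2 = B2' ∧ φ u = u' := by
  obtain ⟨al, be, hr⟩ := Mo.exists_rt P
  have e' := eqs_of hr h1 h2 ht
  have tz : Transcendental C (hr.par.zY A' B2' u') := fun ha =>
    ht (mem_algebraicClosure_iff.mp
      (Mo.IsY.mem_of e' (mem_algebraicClosure_iff.mpr ha)).1)
  have hb : (hr.par.up L).z A' B2' u' ^ 2 - (hr.par.up L).b ≠ 0 := fun h0 =>
    tz ⟨X ^ 2 - Polynomial.C hr.par.b, X_pow_sub_C_ne_zero two_pos _, by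
      simpa [Mo.Par.zY] using h0⟩
  obtain ⟨φ, c, hz, hw⟩ := Fa.exists_hom (hr.hyp h) (RingHom.id C)
    (x' := hr.par.zY A' B2' u') (w' := hr.par.wY A' B2' u')
    (fun p hp => by
      by_contra h0
      exact tz ⟨p, h0, by simpa using hp⟩)
    (by
      have := e'.w_sq hb
      rw [Polynomial.map_id, Mo.Par.F, Mo.aeval_Fm]
      simpa [Mo.Par.zY, Mo.Par.wY] using this)
  have hc : φ.comp (algebraMap C Y) = algebraMap C L := RingHom.ext c
  have m1 : (P.map (algebraMap C Y)).map φ = P.map (algebraMap C L) := by rw [Par.map_map, hc]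
  have m2 : (hr.par.up Y).map φ = hr.par.up L := by
    show hr.par.map (φ.comp (algebraMap C Y)) = _
    rw [hc]
  have t2 : Transcendental C (φ u) := fun ha => h.tr
    ((isAlgebraic_algHom_iff ({ φ with commutes' := c } : Y →ₐ[C] L) φ.injective).mp ha)
  have e := eqs_of hr (A := φ A) (B2 := φ B2) (u := φ u)
    (by rw [← m1, Par.map_E1]; exact h.eq1) (by rw [← m1, Par.map_E2]; exact h.eq2) t2
  refine ⟨φ, c, eqs_unique e e' ?_ ?_ hb⟩
  · rw [← m2, ← Mo.map_z, m2]; exact hz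
  · rw [← m2, ← Mo.map_w, m2]; exact hw

/-- `B2` is not a square in `Y` -/
theorem not_sq (h : IsY P A B2 u) (β : Y) : β ^ 2 ≠ B2 := by
  intro hβ
  have hm : (X ^ 2 - Polynomial.C (⟨B2, B_mem A B2⟩ : Ei C A B2)).Monic :=
    monic_X_pow_sub_C _ two_ne_zero
  have h0 : aeval β (X ^ 2 - Polynomial.C (⟨B2, B_mem A B2⟩ : Ei C A B2)) = 0 := by
    simp only [map_sub, map_pow, aeval_X, aeval_C]
    exact sub_eq_zero.mpr hβ
  have hi : IsIntegral (Ei C A B2) β := ⟨_, hm, h0⟩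
  have h4 := natDegree_le_natDegree (minpoly.min _ β hm h0)
  rw [natDegree_X_pow_sub_C] at h4
  have h5 := minpoly.degree_dvd hi
  rw [finrank_Ei h] at h5
  have h6 : (minpoly (Ei C A B2) β).natDegree = 1 := by
    rcases (Nat.dvd_prime Nat.prime_three).mp h5 with h7 | h7 <;> omega
  obtain ⟨b, rfl⟩ := minpoly.natDegree_eq_one_iff.mp h6
  have hy := hypE h
  obtain ⟨A0, B0, c, hc, he⟩ := hy.gen b
  have n1 := P.n1_ne
  have e1 : b * b = el (AE A B2) (WE P A B2) (Polynomial.C (-(P.n1 + 2 * P.n3) / P.n1) * X ^ 2)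
      (Polynomial.C P.n1⁻¹) := by
    apply (algebraMap (Ei C A B2) Y).injective
    rw [map_mul, ← sq, hβ]
    simp only [el, map_add, map_mul, map_pow, aeval_C, aeval_X, ← IsScalarTower.algebraMap_apply]
    have : algebraMap C Y P.n1 ≠ 0 := (_root_.map_ne_zero _).mpr n1
    show B2 = _ * A ^ 2 + _ * W P A B2
    simp only [W, map_div₀, map_neg, map_inv₀]
    field_simp
    ring
  have e2 : b * b * aeval (AE A B2) (c * c) = el (AE A B2) (WE P A B2) A0 B0 *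
      el (AE A B2) (WE P A B2) A0 B0 := by rw [← he, map_mul]; ring
  rw [e1, el_mul_aeval, el_mul hy.sq] at e2
  obtain ⟨e3, e4⟩ := hy.el_inj e2
  obtain ⟨e, hee⟩ : ∃ e, e = 4 * (P.t * P.d1 * P.d2 * P.d3) ^ 2 / P.n1 := ⟨_, rfl⟩
  have e0 : e ≠ 0 := hee ▸ div_ne_zero (mul_ne_zero (four_ne P) (pow_ne_zero _ (mul_ne_zero
    (mul_ne_zero (mul_ne_zero P.ht P.d1_ne) P.d2_ne) P.d3_ne))) n1
  have e5 : (Polynomial.C (-(P.n1 + 2 * P.n3) / P.n1) * X ^ 2) ^ 2 -
      Polynomial.C P.n1⁻¹ ^ 2 * G P = X ^ 4 - Polynomial.C e := by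
    have a1 : (-(P.n1 + 2 * P.n3) / P.n1) ^ 2 - P.n1⁻¹ ^ 2 * -(4 * P.n2 * P.n3) = 1 := by
      field_simp
      linear_combination 4 * P.n3 * P.n_sum
    have a2 : P.n1⁻¹ ^ 2 * -(4 * P.n2 * P.n3) *
        (P.n1 * (P.t * P.d1 * P.d2 * P.d3) ^ 2 / (P.n2 * P.n3)) = -e := by
      have := P.n2_ne; have := P.n3_ne
      rw [hee]; field_simp
    have b1 := congrArg Polynomial.C a1
    have b2 := congrArg Polynomial.C a2
    rw [C_sub, C_mul, C_pow, C_pow, C_1] at b1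
    rw [C_mul, C_mul, C_pow, C_neg (a := e)] at b2
    unfold G
    linear_combination X ^ 4 * b1 + b2
  have e6 : (A0 ^ 2 - B0 ^ 2 * G P) ^ 2 = (c ^ 2) ^ 2 * (X ^ 4 - Polynomial.C e) := by
    rw [← e5]
    generalize Polynomial.C (-(P.n1 + 2 * P.n3) / P.n1) * X ^ 2 = a at *
    generalize Polynomial.C P.n1⁻¹ = d at *
    linear_combination (-(a * (c * c)) - (A0 * A0 + B0 * B0 * G P)) * e3 +
      G P * (d * (c * c) + (A0 * B0 + B0 * A0)) * e4
  obtain ⟨D, hD⟩ := (IsIntegrallyClosed.pow_dvd_pow_iff two_ne_zero).mp ⟨_, e6⟩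
  have e7 : X ^ 4 - Polynomial.C e = D * D := by
    apply mul_left_cancel₀ (pow_ne_zero 2 (pow_ne_zero 2 hc))
    rw [← e6, hD]; ring
  have e8 : IsUnit D := (separable_X_pow_sub_C e (by exact_mod_cast four_ne P) e0).squarefree D
    (by rw [e7])
  have e9 := natDegree_eq_zero_of_isUnit (e8.mul e8)
  rw [← e7, natDegree_X_pow_sub_C] at e9
  omega

theorem isY_adjoin {L : Type*} [Field L] [Algebra C L] {A B2 u : L}
    (h1 : (P.map (algebraMap C L)).E1 A B2) (h2 : (P.map (algebraMap C L)).E2 A B2 u)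
    (ht : Transcendental C u) : ∃ a b v : adjoin C {A, B2, u}, IsY P a b v := by
  obtain ⟨S, hS⟩ : ∃ S, S = adjoin C {A, B2, u} := ⟨_, rfl⟩
  have m1 : A ∈ S := hS ▸ subset_adjoin _ _ (by simp)
  have m2 : B2 ∈ S := hS ▸ subset_adjoin _ _ (by simp)
  have m3 : u ∈ S := hS ▸ subset_adjoin _ _ (by simp)
  rw [← hS]
  have m : (P.map (algebraMap C S)).map (algebraMap S L) = P.map (algebraMap C L) := by
    rw [Par.map_map, ← IsScalarTower.algebraMap_eq]
  refine ⟨⟨A, m1⟩, ⟨B2, m2⟩, ⟨u, m3⟩, ?_, ?_, fun ha => ht (ha.algebraMap (A := L)), ?_⟩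
  · rw [← Par.map_E1 _ (algebraMap S L), m]; exact h1
  · rw [← Par.map_E2 _ (algebraMap S L), m]; exact h2
  · apply IntermediateField.map_injective S.val
    rw [adjoin_map, Set.image_insert_eq, Set.image_pair, ← AlgHom.fieldRange_eq_map,
      fieldRange_val]
    exact hS.symm

theorem exists_sol (P : Par C) {L : Type*} [Field L] [IsAlgClosed L] [Algebra C L] {u : L}
    (hu : u ≠ 0) : ∃ A B2 : L, (P.map (algebraMap C L)).E1 A B2 ∧
      (P.map (algebraMap C L)).E2 A B2 u := by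
  obtain ⟨Q, hQ⟩ : ∃ Q, Q = P.map (algebraMap C L) := ⟨_, rfl⟩
  rw [← hQ]
  have := Q.m1_ne; have := Q.m2_ne; have := Q.m3_ne
  obtain ⟨v, hv⟩ := IsAlgClosed.exists_pow_nat_eq
    ((u - 2 * Q.p3 ^ 2) * (u + Q.p1 * Q.p2) ^ 2 / (Q.m1 * Q.m2 * u)) two_pos
  obtain ⟨r, hr⟩ := IsAlgClosed.exists_pow_nat_eq (-(Q.m2 * v ^ 2 + Q.d1 ^ 2) / Q.m3) two_pos
  obtain ⟨A, hA⟩ := IsAlgClosed.exists_pow_nat_eq (Q.t * (Q.d3 * v + Q.d2 * r)) two_pos
  refine ⟨A, Q.t * (Q.d3 * v - Q.d2 * r), ?_, ?_⟩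
  · rw [Q.E1_iff, Q.V_of hA rfl, Q.R_of hA rfl, hr]; field_simp; ring
  · rw [Q.E2_iff, Q.V_of hA rfl, hv]; field_simp

theorem exists_Y {C : Type} [Field C] (P : Par C) :
    ∃ (Y : Type) (_ : Field Y) (_ : Algebra C Y) (A B2 u : Y), IsY P A B2 u := by
  have ht : Transcendental C
      (algebraMap (RatFunc C) (AlgebraicClosure (RatFunc C)) RatFunc.X) := fun ha =>
    RatFunc.transcendental_X ((isAlgebraic_algebraMap_iff
      (algebraMap (RatFunc C) (AlgebraicClosure (RatFunc C))).injective).mp ha)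
  obtain ⟨A, B2, h1, h2⟩ := exists_sol P (L := AlgebraicClosure (RatFunc C))
    ((_root_.map_ne_zero (algebraMap (RatFunc C) _)).mpr RatFunc.X_ne_zero)
  exact ⟨_, inferInstance, inferInstance, isY_adjoin h1 h2 ht⟩

theorem exists_K {C Y : Type} [Field C] [Field Y] [Algebra C Y] (B2 : Y) :
    ∃ (K : Type) (_ : Field K) (_ : Algebra C K) (_ : Algebra Y K) (_ : IsScalarTower C Y K)
      (B : K), B ^ 2 = algebraMap Y K B2 ∧ adjoin Y {B} = ⊤ := by
  obtain ⟨b, hb⟩ := IsAlgClosed.exists_pow_nat_eq (algebraMap Y (AlgebraicClosure Y) B2) two_pos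
  refine ⟨adjoin Y {b}, inferInstance, inferInstance, inferInstance, inferInstance,
    ⟨b, mem_adjoin_simple_self Y b⟩, Subtype.ext hb, ?_⟩
  apply IntermediateField.map_injective (adjoin Y {b}).val
  rw [adjoin_map, Set.image_singleton, ← AlgHom.fieldRange_eq_map, fieldRange_val]
  rfl

theorem nx_root {L : Type*} [Field L] {Q : Par L} {a B u : L} (h1 : Q.E1 a (B ^ 2))
    (h2 : Q.E2 a (B ^ 2) u) (hd : Jm.dn Q u ≠ 0) : Q.E2 a (B ^ 2) (Q.nx a B u) := by
  have s := Jm.nx_sum Q a B u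
  have p := Jm.nx_prod h1 h2 hd
  have hu := Par.u_ne h2
  unfold Par.E2 at h2 ⊢
  generalize Q.nx a B u = v at *
  generalize Q.nx a (-B) u = v' at *
  have hX : Q.X a (B ^ 2) = -(u * v + u * v' + v * v') := by
    apply mul_left_cancel₀ hu
    linear_combination -h2 + u ^ 2 * s + p
  rw [hX]
  linear_combination v ^ 2 * s + p

theorem tr_root {L : Type*} [Field L] [Algebra C L] {a b u v : L}
    (h2 : (P.map (algebraMap C L)).E2 a b u) (h3 : (P.map (algebraMap C L)).E2 a b v)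
    (ht : Transcendental C u) : Transcendental C v := by
  intro ha
  have hv : v ∈ algebraicClosure C L := mem_algebraicClosure_iff.mpr ha
  have hX := tr_of_cubic ht (cubic_eq h2)
  have e : (P.map (algebraMap C L)).X a b =
      (v ^ 3 + algebraMap C L (2 * P.q) * v ^ 2 - algebraMap C L (2 * P.pi)) / v := by
    rw [eq_div_iff (Par.u_ne h3)]
    linear_combination -cubic_eq h3
  apply hX
  rw [← mem_algebraicClosure_iff, e]
  exact div_mem (sub_mem (add_mem (pow_mem hv 3) (mul_mem (_root_.algebraMap_mem _ _)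
    (pow_mem hv 2))) (_root_.algebraMap_mem _ _)) hv

/-- the automorphism `r` -/
theorem exists_r [IsAlgClosed C] (h : IsY P A B2 u) {K : Type*} [Field K] [Algebra C K]
    [Algebra Y K] [IsScalarTower C Y K] {B : K} (hB : B ^ 2 = algebraMap Y K B2)
    (gK : adjoin Y {B} = ⊤) : ∃ r : K ≃ₐ[C] K, Jm.Md P A B2 u B r := by
  have nB : B ∉ Set.range (algebraMap Y K) := by
    rintro ⟨β, rfl⟩
    exact not_sq h β ((algebraMap Y K).injective (by rw [map_pow, hB]))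
  have mK : (P.map (algebraMap C Y)).map (algebraMap Y K) = P.map (algebraMap C K) := by
    rw [Par.map_map, ← IsScalarTower.algebraMap_eq]
  obtain ⟨a, ha⟩ : ∃ a, a = algebraMap Y K A := ⟨_, rfl⟩
  obtain ⟨v, hv⟩ : ∃ v, v = algebraMap Y K u := ⟨_, rfl⟩
  have e1 : (P.map (algebraMap C K)).E1 a (B ^ 2) := by
    rw [hB, ← mK, ha, Par.map_E1]; exact h.eq1
  have e2 : (P.map (algebraMap C K)).E2 a (B ^ 2) v := by
    rw [hB, ← mK, ha, hv, Par.map_E2]; exact h.eq2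
  have tv : Transcendental C v := fun hh => h.tr
    ((isAlgebraic_algebraMap_iff (algebraMap Y K).injective).mp (hv ▸ hh))
  have dn : ∀ {y : K}, Transcendental C y → Jm.dn (P.map (algebraMap C K)) y ≠ 0 := fun hy => by
    simp only [Jm.dn, Par.map_p1, Par.map_p2, Par.map_p3, ← map_mul]
    exact mul_ne_zero (mul_ne_zero (Mo.add_const_ne hy _) (Mo.add_const_ne hy _))
      (Mo.add_const_ne hy _)
  have e3 := nx_root e1 e2 (dn tv)
  have tx := tr_root e2 e3 tv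
  obtain ⟨φ, c, f1, f2, f3⟩ := hom_Y h (A' := -B) (B2' := a ^ 2) (u' := xu P a B v)
    (by unfold Par.E1 at e1 ⊢; linear_combination e1)
    (by
      have : (P.map (algebraMap C K)).X (-B) (a ^ 2) = (P.map (algebraMap C K)).X a (B ^ 2) := by
        simp only [Par.X, Par.V]; ring
      unfold Par.E2 at e3 ⊢
      rw [this]; exact e3) tx
  obtain ⟨ψ, g1, g2⟩ := Jm.exists_ext hB gK nB φ (b := a) f2.symm
  have gc : ∀ c, ψ (algebraMap C K c) = algebraMap C K c := fun x => by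
    rw [IsScalarTower.algebraMap_apply C Y K, g1, c, ← IsScalarTower.algebraMap_apply]
  have ga : ψ a = -B := by rw [ha, g1, f1]
  have gv : ψ v = xu P a B v := by rw [hv, g1, f3, hv]
  let ψ' : K →ₐ[C] K := { ψ with commutes' := gc }
  have r1 : a ∈ ψ'.fieldRange := ⟨B, g2⟩
  have r2 : B ∈ ψ'.fieldRange := ⟨-a, by show ψ (-a) = B; rw [map_neg, ga, neg_neg]⟩
  have r3 : v ∈ ψ'.fieldRange := by
    have s := Jm.nx_sum (P.map (algebraMap C K)) a B v
    have n := Jm.nx_nx e1 e2 (dn tv) (dn tx)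
    have m := Jm.Md.map_xu (P := P) ψ (gc _) (gc _) (gc _) B (-a) v
    rw [g2, map_neg, ga, neg_neg, gv] at m
    refine ⟨algebraMap C K (-2 * P.q) - v - xu P B (-a) v, ?_⟩
    show ψ _ = v
    rw [map_sub, map_sub, gc, m, gv]
    simp only [xu, map_mul, map_neg, map_ofNat] at *
    rw [n, ← Par.map_q]
    linear_combination -s
  have r4 : ∀ f : Y, algebraMap Y K f ∈ ψ'.fieldRange := fun f => by
    have : adjoin C {A, B2, u} ≤ ψ'.fieldRange.comap (IsScalarTower.toAlgHom C Y K) := by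
      rw [adjoin_le_iff]
      rintro z (rfl | rfl | rfl)
      · exact (ha ▸ r1 : algebraMap Y K z ∈ ψ'.fieldRange)
      · exact (hB ▸ pow_mem r2 2 : algebraMap Y K z ∈ ψ'.fieldRange)
      · exact (hv ▸ r3 : algebraMap Y K z ∈ ψ'.fieldRange)
    exact this (h.gen ▸ mem_top)
  have sj : Function.Surjective ψ' := fun y => by
    have hy : y ∈ adjoin Y {B} := gK ▸ mem_top
    show y ∈ ψ'.fieldRange
    induction hy using adjoin_induction with
    | mem z hz => exact hz ▸ r2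
    | algebraMap f => exact r4 f
    | add x y _ _ h1 h2 => exact add_mem h1 h2
    | inv x _ h1 => exact inv_mem h1
    | mul x y _ _ h1 h2 => exact mul_mem h1 h2
  refine ⟨AlgEquiv.ofBijective ψ' ⟨ψ.injective, sj⟩, h, hB, gK, nB, ?_, ?_, ?_⟩
  · rw [← ha]; exact ga
  · rw [← ha]; exact g2
  · rw [← ha, ← hv]; exact gv

end Crest.Agent.T15.KfJ
end

-- ▼ part T15/KfX_23
section

/-!
# Row 15, block Ht (helper23): leaf EX, models exist
-/

set_option autoImplicit false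
set_option linter.all false

namespace Crest.Agent.T15.KfJ

open Polynomial Module
open Crest.Agent.R013.RR20_948 (ratAlg ratAlg_tower)

/-- the parameters in the words of `Kf` -/
def kp {C : Type*} [Field C] [CharZero C] (P : Mo.Par C) : Kf.Par C :=
  ⟨P.p1, P.p2, P.p3, P.t, P.sum, two_ne_zero, P.h1, P.h2, P.h3, P.k1, P.k2, P.k3, P.ht⟩

theorem kp_rt {C : Type*} [Field C] [CharZero C] (P : Mo.Par C) : Mo.Rt (kp P) P.al P.be :=
  ⟨P.hal, P.hbe⟩

theorem exStmt : Ht.ExStmt := by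
  intro C _ _ _ P
  obtain ⟨Y, _, _, A, B2, u, h⟩ := exists_Y (kp P)
  obtain ⟨K, _, _, _, _, B, hB, gK⟩ := exists_K (C := C) B2
  obtain ⟨r, H⟩ := exists_r h hB gK
  have hy := (kp_rt P).hyp h
  letI : Algebra (RatFunc C) Y := ratAlg _ (hyp_tr hy)
  haveI : IsScalarTower C (RatFunc C) Y := ratAlg_tower _ _
  haveI : FiniteDimensional (RatFunc C) Y := hyp_finite hy
  haveI : FiniteDimensional Y K :=
    Module.finite_of_finrank_pos (by rw [Jm.finrank_two hB gK H.nB]; norm_num)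
  haveI : CharZero Y := charZero_of_injective_algebraMap (algebraMap C Y).injective
  letI : Algebra (RatFunc C) K := ((algebraMap Y K).comp (algebraMap (RatFunc C) Y)).toAlgebra
  haveI : IsScalarTower (RatFunc C) Y K := IsScalarTower.of_algebraMap_eq fun _ => rfl
  haveI : IsScalarTower C (RatFunc C) K := IsScalarTower.of_algebraMap_eq fun c => by
    rw [IsScalarTower.algebraMap_apply (RatFunc C) Y K, ← IsScalarTower.algebraMap_apply C _ Y,
      ← IsScalarTower.algebraMap_apply]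
  haveI : FiniteDimensional (RatFunc C) K := Module.Finite.trans Y K
  exact ⟨{ Y := Y, K := K, A := A, B2 := B2, u := u, B := B
           eqs := ((kp_rt P).isY h).eqs, tr := h.tr, gen := h.gen, hB := hB, genK := gK
           nB := H.nB, r := r, rA := H.rA, rB := H.rB
           ru := H.ru }⟩

end Crest.Agent.T15.KfJ
end

-- ▼ part T15/SmA_96
section

/-!
# Row 15 (helper96): twists of cusp forms and weak multiplicity one

* `Qx f a` (`q`-expansion), `Cf N a` (`a` is the expansion of a weight two cusp form on `Γ₀(N)`);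
* `Cf.twist`: multiply the coefficients by a function on `ZMod m` invariant under squares of units;
* `Cf.eq_zero_of_prime`, `Cf.eq_zero`: a form supported on multiples of primes not dividing the
  level vanishes.
-/

set_option autoImplicit false

noncomputable section

namespace Crest.Agent.T15.Sm

open UpperHalfPlane hiding I
open Complex ModularForm Filter Function Set Matrix.SpecialLinearGroup CongruenceSubgroup
open Crest.Agent.T15.Esc
open scoped MatrixGroups Manifold Topology Real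

/-- `a` is the `q`-expansion of `f` -/
def Qx (f : ℍ → ℂ) (a : ℕ → ℂ) : Prop :=
  ∀ z : ℍ, HasSum (fun n : ℕ => a n * Complex.exp (2 * Real.pi * Complex.I * n * z)) (f z)

/-- `a` is the `q`-expansion of a cusp form of weight two on `Γ₀(N)` -/
def Cf (N : ℕ) (a : ℕ → ℂ) : Prop := ∃ f ∈ CS (Gamma0 N) 2, Qx f a

variable {f g : ℍ → ℂ} {a b : ℕ → ℂ} {N : ℕ}

lemma hasSum_congr {u v : ℕ → ℂ} {s : ℂ} (h : HasSum u s) (e : ∀ n, v n = u n) :
    HasSum v s := (funext e : v = u) ▸ h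

lemma Qx.add (h : Qx f a) (h' : Qx g b) : Qx (f + g) (a + b) := fun z => by
  simpa [add_mul] using (h z).add (h' z)

lemma Qx.smul (c : ℂ) (h : Qx f a) : Qx (c • f) (c • a) := fun z => by
  simpa [mul_assoc] using (h z).mul_left c

lemma Qx.sub (h : Qx f a) (h' : Qx g b) : Qx (f - g) (a - b) := fun z => by
  simpa [sub_mul] using (h z).sub (h' z)

lemma qx_zero : Qx 0 0 := fun z => by simp

lemma Qx.qParam (h : Qx f a) (z : ℍ) :
    HasSum (fun m => a m • Periodic.qParam 1 (z : ℂ) ^ m) (f z) := by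
  convert h z using 2 with m
  rw [smul_eq_mul, Periodic.qParam, ← Complex.exp_nat_mul]
  congr 2
  push_cast
  ring

lemma Qx.eq_zero (h : Qx 0 a) : a = 0 := by
  have han : AnalyticAt ℂ (cuspFunction 1 (0 : ℍ → ℂ)) 0 :=
    analyticAt_cuspFunction_zero one_pos (fun _ => rfl) mdifferentiable_const
      zero_form_isBoundedAtImInfty
  have h1 := (hasFPowerSeriesOnBall_cuspFunction one_pos han h.qParam).hasFPowerSeriesAt
  have h2 := (hasFPowerSeriesOnBall_cuspFunction one_pos han qx_zero.qParam).hasFPowerSeriesAt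
  funext m
  have := congr_arg (FormalMultilinearSeries.coeff · m) (h1.eq_formalMultilinearSeries h2)
  simp only [FormalMultilinearSeries.coeff_ofScalars] at this
  exact this

lemma Qx.unique (h : Qx f a) (h' : Qx f b) : a = b := by
  have := h.sub h'
  rw [sub_self] at this
  exact sub_eq_zero.1 this.eq_zero

lemma Qx.fun_unique (h : Qx f a) (h' : Qx g a) : f = g := funext fun z => (h z).unique (h' z)

lemma Cf.add (h : Cf N a) (h' : Cf N b) : Cf N (a + b) := by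
  obtain ⟨f, hf, hq⟩ := h
  obtain ⟨g, hg, hq'⟩ := h'
  exact ⟨f + g, add_mem hf hg, hq.add hq'⟩

lemma Cf.sub (h : Cf N a) (h' : Cf N b) : Cf N (a - b) := by
  obtain ⟨f, hf, hq⟩ := h
  obtain ⟨g, hg, hq'⟩ := h'
  exact ⟨f - g, sub_mem hf hg, hq.sub hq'⟩

lemma Cf.smul (c : ℂ) (h : Cf N a) : Cf N (c • a) := by
  obtain ⟨f, hf, hq⟩ := h
  exact ⟨c • f, Submodule.smul_mem _ c hf, hq.smul c⟩

lemma Gamma0_le {N M : ℕ} (h : N ∣ M) : Gamma0 M ≤ Gamma0 N := fun γ hγ => by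
  rw [Gamma0_mem, ZMod.intCast_zmod_eq_zero_iff_dvd] at hγ ⊢
  exact (Int.natCast_dvd_natCast.2 h).trans hγ

lemma Cf.mono {M : ℕ} (h : Cf N a) (hM : N ∣ M) : Cf M a := by
  obtain ⟨f, hf, hq⟩ := h
  exact ⟨f, CS_anti (Gamma0_le hM) hf, hq⟩

/-! ### Mathlib's cusp forms -/

lemma mem_CS {Γ : Subgroup SL(2, ℤ)} [Γ.FiniteIndex] {k : ℤ}
    (F : CuspForm (Γ : Subgroup (GL (Fin 2) ℝ)) k) : (F : ℍ → ℂ) ∈ CS Γ k := by
  refine ⟨F.holo', fun γ hγ => F.slash_action_eq' _ ⟨γ, hγ, rfl⟩, fun s => ?_⟩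
  have hc : IsCusp (mapGL ℝ s • OnePoint.infty) (Γ : Subgroup (GL (Fin 2) ℝ)) := by
    rw [Subgroup.IsArithmetic.isCusp_iff_isCusp_SL2Z]
    exact isCusp_SL2Z_iff'.2 ⟨s, rfl⟩
  exact F.zero_at_cusps' hc _ rfl



/-! ### rational upper triangular matrices -/

/-- the matrix `(x y; 0 d)` -/
def ut (x y d : ℚ) (hx : 0 < x) (hd : 0 < d) : GL (Fin 2) ℝ :=
  Matrix.GeneralLinearGroup.mkOfDetNeZero !![(x : ℝ), y; 0, d]
    (by simp [Matrix.det_fin_two, hx.ne', hd.ne'])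

section ut

variable {x y d : ℚ} (hx : 0 < x) (hd : 0 < d)

lemma ut_val : (ut x y d hx hd).val = !![(x : ℝ), y; 0, d] := rfl

lemma ut_det : (ut x y d hx hd).det.val = x * d := by
  rw [Matrix.GeneralLinearGroup.val_det_apply, ut_val]
  simp [Matrix.det_fin_two]

lemma ut_det_pos : 0 < (ut x y d hx hd).det.val := by
  rw [ut_det]; positivity

lemma coe_ut_smul (z : ℍ) : ((ut x y d hx hd • z : ℍ) : ℂ) = (x * z + y) / d := by
  rw [coe_smul_of_det_pos (ut_det_pos hx hd)]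
  simp [num, denom, ut_val]

lemma slash_ut (f : ℍ → ℂ) (z : ℍ) :
    (f ∣[(2 : ℤ)] ut x y d hx hd) z = x / d * f (ut x y d hx hd • z) := by
  have hσ (w) : σ (ut x y d hx hd) w = w := by
    rw [σ, if_pos (ut_det_pos hx hd)]
    rfl
  have hd' : (d : ℂ) ≠ 0 := by exact_mod_cast hd.ne'
  rw [slash_apply, hσ, ut_det, abs_of_pos (by positivity)]
  have : denom (ut x y d hx hd) z = d := by simp [denom, ut_val]
  rw [this]
  push_cast
  field_simp

lemma zero_slash_ut {k : ℤ} (hf : ∀ s : SL(2, ℤ), IsZeroAtImInfty (f ∣[k] s)) (s : SL(2, ℤ)) :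
    IsZeroAtImInfty ((f ∣[k] ut x y d hx hd) ∣[k] s) := by
  have hc : IsCusp (ut x y d hx hd • mapGL ℝ s • OnePoint.infty) 𝒮ℒ := by
    obtain ⟨c, hc⟩ := isCusp_SL2Z_iff.1 (isCusp_SL2Z_iff'.2 ⟨s, rfl⟩)
    rw [← hc, isCusp_SL2Z_iff]
    cases c with
    | infty =>
      exact ⟨OnePoint.infty, by
        rw [OnePoint.map_infty]
        exact (OnePoint.smul_infty_eq_self_iff.2 (by simp [ut_val])).symm⟩
    | coe c =>
      refine ⟨(((x * c + y) / d : ℚ) : OnePoint ℚ), ?_⟩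
      rw [OnePoint.map_some, OnePoint.map_some, OnePoint.smul_some_eq_ite, if_neg]
      · simp [ut_val]
      · simp [ut_val, hd.ne']
  have h1 := (OnePoint.isZeroAt_iff_forall_SL2Z (f := f) (k := k) hc).2 fun γ _ => hf γ
  rw [OnePoint.IsZeroAt.smul_iff] at h1
  exact h1 _ rfl

end ut

/-! ### translations -/

/-- `z ↦ f (z + y)` -/
def tr (f : ℍ → ℂ) (y : ℚ) : ℍ → ℂ := f ∣[(2 : ℤ)] ut 1 y 1 one_pos one_pos

lemma Qx.tr (h : Qx f a) (y : ℚ) :
    Qx (tr f y) fun n => Complex.exp (2 * Real.pi * Complex.I * n * y) * a n := fun z => by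
  have := h (ut 1 y 1 one_pos one_pos • z)
  rw [coe_ut_smul] at this
  rw [Sm.tr, slash_ut]
  convert this using 1
  · funext n
    beta_reduce
    rw [mul_comm _ (a n), mul_assoc (a n), ← Complex.exp_add]
    congr 2
    push_cast
    ring
  · simp

lemma SL_val (γ : SL(2, ℤ)) (i j : Fin 2) : (γ : GL (Fin 2) ℝ).val i j = (γ i j : ℝ) := rfl

lemma tr_slash (hf : ∀ γ ∈ Gamma0 N, f ∣[(2 : ℤ)] γ = f) {m : ℕ} (hm : m ≠ 0) {γ : SL(2, ℤ)}
    (hγ : γ ∈ Gamma0 (N * m ^ 2)) (j : ℤ) :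
    tr f (j / m) ∣[(2 : ℤ)] γ = tr f ((j * γ 1 1 ^ 2 : ℤ) / m) := by
  rw [Gamma0_mem, ZMod.intCast_zmod_eq_zero_iff_dvd] at hγ
  obtain ⟨c, hc⟩ := hγ
  push_cast at hc
  have hdet := γ.det_coe
  rw [Matrix.det_fin_two, hc] at hdet
  have hm' : (m : ℝ) ≠ 0 := by exact_mod_cast hm
  let γ' : SL(2, ℤ) := ⟨!![γ 0 0 + j * N * m * c,
      γ 0 1 - j * γ 1 1 * γ 0 1 * N * m * c - j ^ 2 * γ 1 1 ^ 2 * N * c;
      N * m ^ 2 * c, γ 1 1 - j * γ 1 1 ^ 2 * N * m * c], by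
    rw [Matrix.det_fin_two_of]
    linear_combination (1 - j * γ 1 1 * N * m * c) * hdet⟩
  have h1 : γ' ∈ Gamma0 N := by
    rw [Gamma0_mem, ZMod.intCast_zmod_eq_zero_iff_dvd]
    exact ⟨m ^ 2 * c, by simp [γ', mul_assoc]⟩
  have hdetR : (γ 0 0 : ℝ) * γ 1 1 - γ 0 1 * (N * m ^ 2 * c) = 1 := by exact_mod_cast hdet
  have hcR : (γ 1 0 : ℝ) = N * m ^ 2 * c := by exact_mod_cast hc
  have e : ut 1 (j / m) 1 one_pos one_pos * (γ : GL (Fin 2) ℝ) =
      (γ' : GL (Fin 2) ℝ) * ut 1 ((j * γ 1 1 ^ 2 : ℤ) / m) 1 one_pos one_pos := by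
    ext i k
    simp only [Units.val_mul, Matrix.mul_apply, Fin.sum_univ_two, SL_val, ut_val]
    fin_cases i <;> fin_cases k <;> simp [γ', hcR] <;> field_simp
    · linear_combination (-(j : ℝ) * γ 1 1) * hdetR
    · ring
  rw [tr, tr, SL_slash, ← SlashAction.slash_mul, e, SlashAction.slash_mul, ← SL_slash, hf γ' h1]

theorem Cf.twist (h : Cf N a) {m : ℕ} (hm : m ≠ 0) (χ : ZMod m → ℂ)
    (hχ : ∀ (u : (ZMod m)ˣ) (n : ZMod m), χ ((u : ZMod m) ^ 2 * n) = χ n) :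
    Cf (N * m ^ 2) fun n => χ n * a n := by
  have : NeZero m := ⟨hm⟩
  obtain ⟨f, hf, hq⟩ := h
  have hmC : (m : ℂ) ≠ 0 := by exact_mod_cast hm
  have hq1 (j : ℤ) : Qx (tr f (j / m))
      fun n : ℕ => ZMod.stdAddChar ((j : ZMod m) * (n : ZMod m)) * a n := by
    convert hq.tr (j / m) using 3 with n
    rw [show (j : ZMod m) * n = ((j * n : ℤ) : ZMod m) by push_cast; ring, ZMod.stdAddChar_coe]
    congr 1
    push_cast
    ring
  let G : ZMod m → ℍ → ℂ := fun j => tr f ((j.val : ℤ) / m)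
  have hG (j : ℤ) : G j = tr f (j / m) := by
    refine (hq1 _).fun_unique ?_
    convert hq1 j using 4
    simp
  have hGq (j : ZMod m) : Qx (G j) fun n : ℕ => ZMod.stdAddChar (j * (n : ZMod m)) * a n := by
    convert hq1 (j.val : ℤ) using 4
    simp
  refine ⟨(m : ℂ)⁻¹ • ∑ j, ZMod.dft χ j • G j, Submodule.smul_mem _ _ ⟨?_, fun γ hγ => ?_,
    fun s => ?_⟩, fun z => ?_⟩
  · exact (Submodule.sum_mem (MS ⊥ 2) fun j _ => Submodule.smul_mem _ _
      ⟨hf.1.slash _ _, fun γ hγ => by rw [Subgroup.mem_bot.1 hγ]; simp,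
        fun s => (zero_slash_ut one_pos one_pos hf.2.2 s).isBoundedAtImInfty⟩).1
  · have hu : IsUnit ((γ 1 1 : ℤ) : ZMod m) := by
      have h0 : ((γ 1 0 : ℤ) : ZMod m) = 0 := by
        rw [Gamma0_mem, ZMod.intCast_zmod_eq_zero_iff_dvd] at hγ
        rw [ZMod.intCast_zmod_eq_zero_iff_dvd]
        exact Dvd.dvd.trans ⟨N * m, by push_cast; ring⟩ hγ
      have hdet := congr_arg (Int.cast : ℤ → ZMod m) γ.det_coe
      rw [Matrix.det_fin_two] at hdet
      push_cast at hdet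
      rw [h0, mul_zero, sub_zero] at hdet
      exact IsUnit.of_mul_eq_one_right _ hdet
    obtain ⟨u, hu⟩ := hu
    have hs (j : ZMod m) : G j ∣[(2 : ℤ)] γ = G ((u ^ 2 : (ZMod m)ˣ) * j) := by
      rw [show G j = tr f ((j.val : ℤ) / m) from rfl, tr_slash hf.2.1 hm hγ, ← hG]
      congr 1
      simp [hu, mul_comm]
    have hψ (j : ZMod m) : ZMod.dft χ ((u ^ 2 : (ZMod m)ˣ) * j) = ZMod.dft χ j := by
      have := ZMod.dft_comp_unitMul χ (u ^ 2) ((u ^ 2 : (ZMod m)ˣ) * j)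
      rw [Units.inv_mul_cancel_left] at this
      rw [← this, show (fun n => χ ((u ^ 2 : (ZMod m)ˣ) * n)) = χ from funext fun n => by simp [hχ]]
    rw [SlashAction.sum_slash]
    simp_rw [SL_smul_slash, hs]
    rw [← Equiv.sum_comp (u ^ 2).mulLeft fun j => ZMod.dft χ j • G j]
    exact Finset.sum_congr rfl fun j _ => by rw [Units.mulLeft_apply, hψ]
  · exact (Submodule.sum_mem (CS ⊥ 2) fun j _ => Submodule.smul_mem _ _
      ⟨hf.1.slash _ _, fun γ hγ => by rw [Subgroup.mem_bot.1 hγ]; simp,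
        fun s => zero_slash_ut one_pos one_pos hf.2.2 s⟩).2.2 s
  · have := (hasSum_sum fun j (_ : j ∈ Finset.univ) => (hGq j z).mul_left (ZMod.dft χ j)).mul_left
      (m : ℂ)⁻¹
    have e1 : ((m : ℂ)⁻¹ • ∑ j, ZMod.dft χ j • G j) z = (m : ℂ)⁻¹ * ∑ i, ZMod.dft χ i * G i z := by
      simp
    rw [e1]
    refine hasSum_congr this fun n => ?_
    have h2 := ZMod.invDFT_apply (ZMod.dft χ) (n : ZMod m)
    rw [LinearEquiv.symm_apply_apply] at h2
    beta_reduce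
    rw [h2]
    simp only [smul_eq_mul, Finset.mul_sum, Finset.sum_mul]
    exact Finset.sum_congr rfl fun j _ => by ring

open Classical in
/-- depletion -/
theorem Cf.deplete (h : Cf N a) {m : ℕ} (hm : m ≠ 0) :
    Cf (N * m ^ 2) fun n => if n.Coprime m then a n else 0 := by
  convert h.twist hm (fun n => if IsUnit n then 1 else 0) fun u n => by
    simp [← Units.val_pow_eq_pow_val] using 2 with n
  simp [ZMod.isUnit_iff_coprime]

/-! ### the operator `U` -/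

lemma Qx.U (h : Qx f a) {d : ℕ} [NeZero d] :
    Qx (∑ j : ZMod d, f ∣[(2 : ℤ)] ut 1 (j.val : ℤ) d one_pos (Nat.cast_pos.2 (NeZero.pos d)))
      fun n => a (d * n) := fun z => by
  have hd : (d : ℂ) ≠ 0 := NeZero.ne _
  have h1 := hasSum_sum fun (j : ZMod d) (_ : j ∈ Finset.univ) =>
    (h (ut 1 (j.val : ℤ) d one_pos (Nat.cast_pos.2 (NeZero.pos d)) • z)).mul_left (d : ℂ)⁻¹
  have e1 : (∑ j : ZMod d, f ∣[(2 : ℤ)] ut 1 (j.val : ℤ) d one_pos
      (Nat.cast_pos.2 (NeZero.pos d))) z = ∑ j : ZMod d, (d : ℂ)⁻¹ *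
        f (ut 1 (j.val : ℤ) d one_pos (Nat.cast_pos.2 (NeZero.pos d)) • z) := by
    rw [Finset.sum_apply]
    exact Finset.sum_congr rfl fun j _ => by rw [slash_ut]; simp
  have e2 (n : ℕ) : ∑ j : ZMod d, (d : ℂ)⁻¹ * (a n * Complex.exp (2 * Real.pi * Complex.I * n *
      ((ut 1 (j.val : ℤ) d one_pos (Nat.cast_pos.2 (NeZero.pos d)) • z : ℍ) : ℂ))) =
      if d ∣ n then a n * Complex.exp (2 * Real.pi * Complex.I * n * z / d) else 0 := by
    have h2 := AddChar.sum_mulShift (n : ZMod d) (ZMod.isPrimitive_stdAddChar d)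
    simp only [ZMod.natCast_eq_zero_iff, ZMod.card] at h2
    trans (d : ℂ)⁻¹ * (a n * Complex.exp (2 * Real.pi * Complex.I * n * z / d)) *
      ∑ j : ZMod d, ZMod.stdAddChar (j * (n : ZMod d))
    · rw [Finset.mul_sum]
      refine Finset.sum_congr rfl fun j _ => ?_
      rw [coe_ut_smul, show j * (n : ZMod d) = ((j.val * n : ℤ) : ZMod d) by simp,
        ZMod.stdAddChar_coe, mul_assoc _ (_ * _), mul_assoc (a n), ← Complex.exp_add]
      congr 3
      push_cast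
      ring
    · rw [h2]
      split_ifs
      · field_simp
      · simp
  rw [e1]
  have h3 := hasSum_congr h1 fun n => (e2 n).symm
  rw [← (mul_right_injective₀ (NeZero.ne d)).hasSum_iff] at h3
  · refine hasSum_congr h3 fun n => ?_
    simp only [comp_apply, dvd_mul_right, if_true]
    congr 2
    push_cast
    field_simp
  · intro n hn
    rw [if_neg]
    rintro ⟨c, rfl⟩
    exact hn ⟨c, rfl⟩

lemma U_slash (hf : ∀ γ ∈ Gamma0 N, f ∣[(2 : ℤ)] γ = f) {d : ℕ} (hd : (0 : ℚ) < d) (hN : d ∣ N)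
    {γ : SL(2, ℤ)} (hγ : γ ∈ Gamma0 N) {j j' : ℤ}
    (hj : (j' : ZMod d) = γ 1 1 * (γ 0 1 + j * γ 1 1)) :
    (f ∣[(2 : ℤ)] ut 1 j d one_pos hd) ∣[(2 : ℤ)] γ = f ∣[(2 : ℤ)] ut 1 j' d one_pos hd := by
  rw [Gamma0_mem, ZMod.intCast_zmod_eq_zero_iff_dvd] at hγ
  have hdet := γ.det_coe
  rw [Matrix.det_fin_two] at hdet
  obtain ⟨w, hw⟩ : (d : ℤ) ∣ γ 0 1 + j * γ 1 1 - j' * (γ 0 0 + j * γ 1 0) := by
    have h0 : ((γ 1 0 : ℤ) : ZMod d) = 0 :=
      (ZMod.intCast_zmod_eq_zero_iff_dvd _ _).2 ((Int.natCast_dvd_natCast.2 hN).trans hγ)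
    have h1 := congr_arg (Int.cast : ℤ → ZMod d) hdet
    rw [← ZMod.intCast_zmod_eq_zero_iff_dvd]
    push_cast at h1 ⊢
    rw [h0] at h1
    rw [hj, h0]
    linear_combination (-((γ 0 1 : ℤ) + j * (γ 1 1 : ℤ) : ZMod d)) * h1
  let γ' : SL(2, ℤ) := ⟨!![γ 0 0 + j * γ 1 0, w; d * γ 1 0, γ 1 1 - j' * γ 1 0], by
    rw [Matrix.det_fin_two_of]
    linear_combination hdet + γ 1 0 * hw⟩
  have h1 : γ' ∈ Gamma0 N := by
    rw [Gamma0_mem, ZMod.intCast_zmod_eq_zero_iff_dvd]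
    exact hγ.mul_left d
  have hwR : (γ 0 1 : ℝ) + j * γ 1 1 - j' * (γ 0 0 + j * γ 1 0) = d * w := by exact_mod_cast hw
  have e : ut 1 j d one_pos hd * (γ : GL (Fin 2) ℝ) =
      (γ' : GL (Fin 2) ℝ) * ut 1 j' d one_pos hd := by
    ext i k
    simp only [Units.val_mul, Matrix.mul_apply, Fin.sum_univ_two, SL_val, ut_val]
    fin_cases i <;> fin_cases k <;> simp [γ']
    · linear_combination hwR
    · ring
  rw [SL_slash, ← SlashAction.slash_mul, e, SlashAction.slash_mul, ← SL_slash, hf γ' h1]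

theorem Cf.U (h : Cf N a) {d : ℕ} (hd : d ≠ 0) (hN : d ∣ N) : Cf N fun n => a (d * n) := by
  have : NeZero d := ⟨hd⟩
  obtain ⟨f, hf, hq⟩ := h
  refine ⟨_, ⟨?_, fun γ hγ => ?_, fun s => ?_⟩, hq.U⟩
  · exact (Submodule.sum_mem (CS ⊥ 2) fun j _ =>
      ⟨hf.1.slash _ _, fun γ hγ => by rw [Subgroup.mem_bot.1 hγ]; simp,
        fun s => zero_slash_ut one_pos _ hf.2.2 s⟩).1
  · have hu : IsUnit ((γ 1 1 : ℤ) : ZMod d) := by
      have h0 : ((γ 1 0 : ℤ) : ZMod d) = 0 := by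
        rw [Gamma0_mem, ZMod.intCast_zmod_eq_zero_iff_dvd] at hγ
        rw [ZMod.intCast_zmod_eq_zero_iff_dvd]
        exact (Int.natCast_dvd_natCast.2 hN).trans hγ
      have hdet := congr_arg (Int.cast : ℤ → ZMod d) γ.det_coe
      rw [Matrix.det_fin_two] at hdet
      push_cast at hdet
      rw [h0, mul_zero, sub_zero] at hdet
      exact IsUnit.of_mul_eq_one_right _ hdet
    obtain ⟨u, hu⟩ := hu
    let e : ZMod d ≃ ZMod d :=
      u.mulRight.trans ((Equiv.addLeft ((γ 0 1 : ℤ) : ZMod d)).trans u.mulLeft)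
    rw [SlashAction.sum_slash]
    refine Eq.trans ?_ (Equiv.sum_comp e _)
    exact Finset.sum_congr rfl fun j _ => U_slash hf.2.1 _ hN hγ (by simp [e, hu])
  · exact (Submodule.sum_mem (CS ⊥ 2) fun j _ =>
      ⟨hf.1.slash _ _, fun γ hγ => by rw [Subgroup.mem_bot.1 hγ]; simp,
        fun s => zero_slash_ut one_pos _ hf.2.2 s⟩).2.2 s

/-- `U_d` for `d` a product of primes dividing the level -/
theorem Cf.U' {d : ℕ} (hd : d ≠ 0) (hN : ∀ p : ℕ, p.Prime → p ∣ d → p ∣ N) (h : Cf N a) :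
    Cf N fun n => a (d * n) := by
  induction d using induction_on_primes generalizing a with
  | zero => exact absurd rfl hd
  | one => simpa using h
  | prime_mul p d hp ih =>
    simpa only [mul_assoc] using ih (right_ne_zero_of_mul hd)
      (fun q hq h' => hN q hq (h'.mul_left p))
      (h.U hp.ne_zero (hN p hp (dvd_mul_right p d)))

/-! ### weak multiplicity one -/

lemma Qx.V (h : Qx f a) {d : ℕ} (hd : 0 < d) :
    Qx (f ∣[(2 : ℤ)] ut d 0 1 (Nat.cast_pos.2 hd) one_pos)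
      fun n => if d ∣ n then d * a (n / d) else 0 := fun z => by
  have h1 := (h (ut d 0 1 (Nat.cast_pos.2 hd) one_pos • z)).mul_left (d : ℂ)
  rw [coe_ut_smul] at h1
  rw [slash_ut, ← (mul_right_injective₀ hd.ne').hasSum_iff]
  · have e1 : ((d : ℚ) : ℂ) / ((1 : ℚ) : ℂ) = d := by simp
    rw [e1]
    refine hasSum_congr h1 fun n => ?_
    simp only [comp_apply, dvd_mul_right, if_true, Nat.mul_div_cancel_left n hd, mul_assoc]
    congr 3
    push_cast
    ring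
  · intro n hn
    beta_reduce
    rw [if_neg, zero_mul]
    rintro ⟨c, rfl⟩
    exact hn ⟨c, rfl⟩

theorem Cf.eq_zero_of_dvd (h : Cf N a) {p : ℕ} (hp : 1 < p) (hc : p.Coprime N)
    (h0 : ∀ n, ¬ p ∣ n → a n = 0) : a = 0 := by
  obtain ⟨f, hf, hq⟩ := h
  have hpC : (p : ℂ) ≠ 0 := by exact_mod_cast (zero_lt_one.trans hp).ne'
  have ht (k : ℤ) : tr f (k / p) = f := by
    refine (hq.tr _).fun_unique ?_
    convert hq using 2 with n
    by_cases hn : p ∣ n
    · obtain ⟨c, rfl⟩ := hn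
      rw [show 2 * Real.pi * Complex.I * ((p * c : ℕ) : ℂ) * ((k / p : ℚ) : ℂ) =
        ((c * k : ℤ) : ℂ) * (2 * Real.pi * Complex.I) by push_cast; field_simp,
        Complex.exp_int_mul_two_pi_mul_I, one_mul]
    · rw [h0 n hn, mul_zero]
  have hp0 : (0 : ℚ) < p := by positivity
  have hpR : (p : ℝ) ≠ 0 := by positivity
  obtain ⟨x, k, hxk⟩ := Nat.isCoprime_iff_coprime.2 hc
  let γ : SL(2, ℤ) := ⟨!![x, -k; N, p], by rw [Matrix.det_fin_two_of]; linear_combination hxk⟩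
  let L : SL(2, ℤ) := ⟨!![1, 0; -(p * N), 1], by rw [Matrix.det_fin_two_of]; ring⟩
  have hγ : γ ∈ Gamma0 N := by rw [Gamma0_mem]; simp [γ]
  have hL : L ∈ Gamma0 N := by rw [Gamma0_mem]; simp [L]
  have hR : (x : ℝ) * p + k * N = 1 := by exact_mod_cast hxk
  have e : (L : GL (Fin 2) ℝ) * ut 1 (k / p) 1 one_pos one_pos * (γ : GL (Fin 2) ℝ) =
      ut p⁻¹ 0 p (inv_pos.2 hp0) hp0 := by
    ext i j
    simp only [Units.val_mul, Matrix.mul_apply, Fin.sum_univ_two, SL_val, ut_val]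
    fin_cases i <;> fin_cases j <;> simp [γ, L] <;> field_simp
    · linear_combination hR
    · ring
    · linear_combination (-(N : ℝ)) * hR
    · ring
  have h1 : f ∣[(2 : ℤ)] ut p⁻¹ 0 p (inv_pos.2 hp0) hp0 = f := by
    rw [← e, SlashAction.slash_mul, SlashAction.slash_mul, ← SL_slash, ← SL_slash, hf.2.1 L hL]
    exact (congr_arg (· ∣[(2 : ℤ)] γ) (ht k)).trans (hf.2.1 γ hγ)
  have hp2 : 0 < p ^ 2 := by positivity
  have h2 : f ∣[(2 : ℤ)] ut (p ^ 2 : ℕ) 0 1 (Nat.cast_pos.2 hp2) one_pos = f := by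
    funext z
    rw [slash_ut, ← congr_fun h1 (_ • z), slash_ut,
      show ut p⁻¹ 0 p (inv_pos.2 hp0) hp0 • ut (p ^ 2 : ℕ) 0 1 (Nat.cast_pos.2 hp2) one_pos • z = z
        from UpperHalfPlane.ext (by rw [coe_ut_smul, coe_ut_smul]; push_cast; field_simp; ring)]
    push_cast
    field_simp
  have h3 := hq.V hp2
  rw [h2] at h3
  have h4 := hq.unique h3
  funext n
  induction n using Nat.strong_induction_on with
  | _ n ih =>
    have h5 := congr_fun h4 n
    beta_reduce at h5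
    split_ifs at h5 with h6
    · rcases Nat.eq_zero_or_pos n with rfl | hn
      · rw [Nat.zero_div] at h5
        have h7 : ((p ^ 2 : ℕ) : ℂ) - 1 ≠ 0 := by
          rw [sub_ne_zero]
          exact_mod_cast (Nat.one_lt_pow two_ne_zero hp).ne'
        exact (mul_eq_zero.1 (show (((p ^ 2 : ℕ) : ℂ) - 1) * a 0 = 0 by
          linear_combination -h5)).resolve_left h7
      · rw [h5, ih _ (Nat.div_lt_self hn (Nat.one_lt_pow two_ne_zero hp))]
        simp
    · exact h5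

/-- **weak multiplicity one** -/
theorem Cf.eq_zero (P : Finset ℕ) (hP : ∀ p ∈ P, p.Prime ∧ ¬ p ∣ N) (h : Cf N a)
    (h0 : ∀ n, (∀ p ∈ P, ¬ p ∣ n) → a n = 0) : a = 0 := by
  induction P using Finset.induction_on with
  | empty => exact funext fun n => h0 n (by simp)
  | insert p P hp ih =>
    have hP' : ∀ q ∈ P, q.Prime ∧ ¬ q ∣ N := fun q hq => hP q (Finset.mem_insert_of_mem hq)
    obtain ⟨hpp, hpN⟩ := hP p (Finset.mem_insert_self _ _)
    have hco (n : ℕ) : n.Coprime (∏ q ∈ P, q) ↔ ∀ q ∈ P, ¬ q ∣ n := by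
      rw [Nat.coprime_prod_right_iff]
      exact forall₂_congr fun q hq => by rw [Nat.coprime_comm, (hP' q hq).1.coprime_iff_not_dvd]
    have h1 := (h.deplete (m := ∏ q ∈ P, q)
      (Finset.prod_ne_zero_iff.2 fun q hq => (hP' q hq).1.ne_zero)).eq_zero_of_dvd hpp.one_lt
      (Nat.Coprime.mul_right (hpp.coprime_iff_not_dvd.2 hpN) (Nat.Coprime.pow_right _
        ((hco p).2 fun q hq hd => hp (((Nat.prime_dvd_prime_iff_eq (hP' q hq).1 hpp).1 hd) ▸ hq))))
      fun n hn => by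
        split_ifs with h2
        · exact h0 n (Finset.forall_mem_insert _ _ _ |>.2 ⟨hn, (hco n).1 h2⟩)
        · rfl
    refine ih hP' fun n hn => ?_
    have := congr_fun h1 n
    simp only [if_pos ((hco n).2 hn)] at this
    exact this

end Crest.Agent.T15.Sm
end
end

-- ▼ part T15/SmB_98
section

/-!
# Row 15, block Ht (helper98): the leaf `SmStmt`

Normalise, compare the conjugates by weak multiplicity one (`Sm.Cf.eq_zero`), split modulo `4`.
-/

set_option autoImplicit false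
set_option maxHeartbeats 400000

noncomputable section

namespace Crest.Agent.T15.SmB

open Crest.Agent.T15.Sm Crest.Agent.T15.Ht CongruenceSubgroup
open scoped UpperHalfPlane

/-- the Hecke recursion off `M` -/
def Rc (M : ℕ) (a c : ℕ → ℂ) : Prop := ∀ l : ℕ, l.Prime → ¬ l ∣ M → ∀ n : ℕ,
  c (l * n) + (if l ∣ n then (l : ℂ) * c (n / l) else 0) = a l * c n

/-- a normalised system supported on the integers prime to `M` -/
structure Nm (M : ℕ) (a c : ℕ → ℂ) : Prop where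
  one : c 1 = 1
  sup : ∀ n, ¬ n.Coprime M → c n = 0
  rc : Rc M a c

variable {M N : ℕ} {a a' c c' e : ℕ → ℂ}

lemma ind_cop (M : ℕ) (P : ℕ → Prop) (h1 : P 1)
    (hs : ∀ l n : ℕ, l.Prime → ¬ l ∣ M → n.Coprime M → P n → (l ∣ n → P (n / l)) → P (l * n)) :
    ∀ n, 0 < n → n.Coprime M → P n := by
  intro n
  induction n using Nat.strong_induction_on with
  | _ n ih =>
    intro hn hc
    by_cases h : n = 1
    · exact h ▸ h1
    obtain ⟨l, hl, m, rfl⟩ := Nat.exists_prime_and_dvd h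
    have hm : 0 < m := Nat.pos_of_mul_pos_left hn
    have hlt : m < l * m := lt_mul_left hm hl.one_lt
    have hmc : m.Coprime M := Nat.Coprime.coprime_mul_left hc
    refine hs l m hl ((Nat.Prime.coprime_iff_not_dvd hl).1 (Nat.Coprime.coprime_mul_right hc)) hmc
      (ih m hlt hm hmc) fun hd => ih _ ((Nat.div_le_self _ _).trans_lt hlt)
        (Nat.div_pos (Nat.le_of_dvd hm hd) hl.pos) (hmc.coprime_dvd_left (Nat.div_dvd_of_dvd hd))

lemma exists_d (hN : 0 < N) (h : Cf N e) (he : e ≠ 0) (hr : Rc M a e) :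
    ∃ d : ℕ, d ≠ 0 ∧ (∀ p : ℕ, p.Prime → p ∣ d → p ∣ M) ∧ e d ≠ 0 := by
  by_contra H
  push Not at H
  have key : ∀ n, 0 < n → e n = 0 := by
    intro n
    induction n using Nat.strong_induction_on with
    | _ n ih =>
      intro hn
      by_cases hd : ∀ p : ℕ, p.Prime → p ∣ n → p ∣ M
      · exact H n hn.ne' hd
      push Not at hd
      obtain ⟨l, hl, ⟨m, rfl⟩, hM⟩ := hd
      have hm : 0 < m := Nat.pos_of_mul_pos_left hn
      have hlt : m < l * m := lt_mul_left hm hl.one_lt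
      have := hr l hl hM m
      rw [ih m hlt hm] at this
      split_ifs at this with hd
      · rw [ih _ ((Nat.div_le_self _ _).trans_lt hlt) (Nat.div_pos (Nat.le_of_dvd hm hd) hl.pos)]
          at this
        simpa using this
      · simpa using this
  exact he (h.eq_zero_of_dvd (p := N + 1) (by omega) (by simp) fun n hn =>
    key n (Nat.pos_of_ne_zero (by rintro rfl; exact hn (dvd_zero _))))

lemma exists_nm (hN : 0 < N) (h : Top.Mod N a) :
    ∃ c, Cf ((6 * N) ^ 3) c ∧ Nm (6 * N) a c := by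
  obtain ⟨f, h0, hf⟩ := h
  have : NeZero N := ⟨hN.ne'⟩
  set e : ℕ → ℂ := fun n => (UpperHalfPlane.qExpansion 1 f).coeff n with he
  have hq : Qx f e := fun z => by
    have h := ModularForm.hasSum_qExpansion f (h := 1) one_pos (by simp) z
    convert h using 3 with n
    rw [Function.Periodic.qParam, ← Complex.exp_nat_mul]
    congr 1
    push_cast
    ring
  have hc : Cf N e := ⟨f, mem_CS f, hq⟩
  have hr : Rc (6 * N) a e := fun l hl hM =>
    hf l hl fun h => hM (h.trans (Nat.mul_dvd_mul_right (by norm_num) N))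
  have hne : e ≠ 0 := fun h => h0 (DFunLike.coe_injective ((h ▸ hq).fun_unique qx_zero))
  obtain ⟨d, hd, hdM, hed⟩ := exists_d hN hc hne hr
  have h1 := (((hc.mono (Dvd.intro_left 6 rfl)).U' hd hdM).deplete (m := 6 * N)
    (by positivity)).smul (e d)⁻¹
  refine ⟨_, by rwa [pow_succ' (6 * N) 2], ?_, fun n hn => ?_, fun l hl hM n => ?_⟩
  · simp [hed]
  · simp [hn]
  · have hlc : l.Coprime (6 * N) := (Nat.Prime.coprime_iff_not_dvd hl).2 hM
    have hld : ¬ l ∣ d := fun h => hM (hdM l hl h)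
    have hiff : (l * n).Coprime (6 * N) ↔ n.Coprime (6 * N) :=
      ⟨Nat.Coprime.coprime_mul_left, hlc.mul_left⟩
    simp only [Pi.smul_apply, smul_eq_mul, hiff]
    have := hr l hl hM (d * n)
    by_cases hn : n.Coprime (6 * N)
    · rw [if_pos hn, if_pos hn, mul_left_comm d l n, mul_left_comm (a l), ← this]
      by_cases hdv : l ∣ n
      · rw [if_pos hdv, if_pos (hdv.mul_left d), Nat.mul_div_assoc d hdv,
          if_pos (hn.coprime_dvd_left (Nat.div_dvd_of_dvd hdv))]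
        ring
      · rw [if_neg hdv, if_neg fun h => ((Nat.Prime.dvd_mul hl).1 h).elim hld hdv]
        ring
    · rw [if_neg hn, if_neg hn]
      by_cases hdv : l ∣ n
      · obtain ⟨m, rfl⟩ := hdv
        rw [Nat.mul_div_cancel_left m hl.pos, if_neg (c := m.Coprime (6 * N)) fun h =>
          hn (Nat.Coprime.mul_left hlc h)]
        simp
      · simp [hdv]

lemma Nm.prime (h : Nm M a c) {l : ℕ} (hl : l.Prime) (hM : ¬ l ∣ M) : c l = a l := by
  have := h.rc l hl hM 1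
  rwa [if_neg (fun h => hl.one_lt.ne' (Nat.dvd_one.1 h)), mul_one, add_zero, h.one, mul_one] at this

lemma Nm.twist (h : Nm M a c) (χ : ℕ → ℂ) (h1 : χ 1 = 1) (hm : ∀ m n, χ (m * n) = χ m * χ n)
    (h2 : ∀ l : ℕ, l.Prime → ¬ l ∣ M → χ l * χ l = 1) :
    Nm M (fun l => χ l * a l) fun n => χ n * c n := by
  refine ⟨by simp [h1, h.one], fun n hn => by simp [h.sup n hn], fun l hl hM n => ?_⟩
  have := h.rc l hl hM n
  by_cases hd : l ∣ n
  · obtain ⟨m, rfl⟩ := hd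
    simp only [dvd_mul_right, if_true, Nat.mul_div_cancel_left m hl.pos, hm] at this ⊢
    have e := h2 l hl hM
    linear_combination (χ l * (χ l * χ m)) * this - l * χ m * c m * e
  · simp only [hd, if_false, hm] at this ⊢
    linear_combination (χ l * χ n) * this

/-- weak multiplicity one -/
lemma Nm.eq {L B : ℕ} (hB : 0 < B) (hM : 1 < M) (hL : ∀ p : ℕ, p.Prime → p ∣ L → p ∣ M)
    (h : Nm M a c) (h' : Nm M a' c') (f : Cf L c) (f' : Cf L c')
    (ha : ∀ l : ℕ, l.Prime → ¬ l ∣ M → ¬ l ∣ B → a l = a' l) : c = c' := by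
  have key : ∀ n, 0 < n → n.Coprime (M * B) → c n = c' n := by
    refine ind_cop (M * B) _ (by rw [h.one, h'.one]) fun l n hl hMB _ h1 h2 => ?_
    have hlM : ¬ l ∣ M := fun h => hMB (h.mul_right B)
    have e := h.rc l hl hlM n
    have e' := h'.rc l hl hlM n
    rw [← ha l hl hlM fun h => hMB (h.mul_left M), ← h1] at e'
    by_cases hd : l ∣ n
    · rw [if_pos hd] at e e'
      rw [h2 hd] at e
      linear_combination e - e'
    · rw [if_neg hd] at e e'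
      linear_combination e - e'
  refine sub_eq_zero.1 (Cf.eq_zero (B.primeFactors.filter fun p => ¬ p ∣ L) (fun p hp =>
    ⟨(Nat.mem_primeFactors.1 (Finset.mem_filter.1 hp).1).1, (Finset.mem_filter.1 hp).2⟩)
    (f.sub f') fun n hn => ?_)
  by_cases hc : n.Coprime M
  · refine sub_eq_zero.2 (key n (Nat.pos_of_ne_zero ?_) (Nat.Coprime.mul_right hc ?_))
    · rintro rfl
      exact hM.ne' (by simpa using hc)
    · by_contra H
      obtain ⟨p, hp, h1, h2⟩ := Nat.Prime.not_coprime_iff_dvd.1 H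
      refine hn p (Finset.mem_filter.2 ⟨Nat.mem_primeFactors.2 ⟨hp, h2, hB.ne'⟩, fun h3 => ?_⟩) h1
      exact hp.one_lt.ne' (Nat.eq_one_of_dvd_coprimes hc h1 (hL p hp h3))
  · simp [h.sup n hc, h'.sup n hc]

/-- the function on `ℤ/4` with values `x` at `1` and `y` at `3` -/
def ch (x y : ℂ) (n : ZMod 4) : ℂ := if n = 1 then x else if n = 3 then y else 0

lemma ch_sq (x y : ℂ) (u : (ZMod 4)ˣ) (n : ZMod 4) : ch x y ((u : ZMod 4) ^ 2 * n) = ch x y n := by
  have : (u : ZMod 4) ^ 2 = 1 := by revert u; decide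
  rw [this, one_mul]

lemma ch_nat (x y : ℂ) (n : ℕ) :
    ch x y n = if n % 4 = 1 then x else if n % 4 = 3 then y else 0 := by
  have h1 : ((n : ZMod 4) = 1) ↔ n % 4 = 1 := (ZMod.natCast_eq_natCast_iff' n 1 4)
  have h3 : ((n : ZMod 4) = 3) ↔ n % 4 = 3 := (ZMod.natCast_eq_natCast_iff' n 3 4)
  simp only [ch, h1, h3]

lemma ch_mul {y : ℂ} (hy : y * y = 1) (m n : ℕ) :
    ch 1 y (m * n : ℕ) = ch 1 y m * ch 1 y n := by
  simp only [ch_nat, Nat.mul_mod m n 4]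
  have hm : m % 4 = 0 ∨ m % 4 = 1 ∨ m % 4 = 2 ∨ m % 4 = 3 := by omega
  have hn : n % 4 = 0 ∨ n % 4 = 1 ∨ n % 4 = 2 ∨ n % 4 = 3 := by omega
  rcases hm with hm | hm | hm | hm <;> rcases hn with hn | hn | hn | hn <;> simp [hm, hn, hy]

lemma ch_ep (y : ℂ) {l : ℕ} (hl : l % 2 = 1) : ch 1 y l = y ^ ep l := by
  have h : l % 4 = 1 ∨ l % 4 = 3 := by omega
  rcases h with h | h <;> simp [ch_nat, ep, h]

lemma odd_of {l : ℕ} (hM : 2 ∣ M) (hl : l.Coprime M) : l % 2 = 1 := by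
  have := Nat.Coprime.coprime_dvd_right hM hl
  exact Nat.odd_iff.1 (Nat.coprime_two_right.1 this)

lemma ep_mul {s : ℂ} (hs : s ^ 2 = 3) {l n : ℕ} (hl : l % 2 = 1) (hn : n % 2 = 1) :
    s ^ ep l * s ^ ep n = 3 ^ (ep l * ep n) * s ^ ep (l * n) := by
  have h : l % 4 = 1 ∨ l % 4 = 3 := by omega
  have h' : n % 4 = 1 ∨ n % 4 = 3 := by omega
  rcases h with h | h <;> rcases h' with h' | h' <;> simp [ep, Nat.mul_mod l n 4, h, h', ← hs, sq]

lemma ep_sq {l : ℕ} (hl : l % 2 = 1) (m : ℕ) : ep (l * (l * m)) = ep m := by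
  have h : l % 4 = 1 ∨ l % 4 = 3 := by omega
  have e : (l * (l * m)) % 4 = m % 4 := by
    rw [← mul_assoc, Nat.mul_mod, Nat.mul_mod l l]
    rcases h with h | h <;> simp [h]
  simp only [ep, e]

theorem smStmt_of (hI : IntStmt) : SmStmt := by
  refine ⟨16 * 6 ^ 3, 3, fun N B a s hN hB hs hmod hrat => ?_⟩
  have hs0 : s ≠ 0 := by rintro rfl; norm_num at hs
  have hM2 : 2 ∣ 6 * N := Dvd.dvd.mul_right (by norm_num) N
  have hLp : ∀ p : ℕ, p.Prime → p ∣ (6 * N) ^ 3 * 4 ^ 2 → p ∣ 6 * N := fun p hp h => by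
    rcases (Nat.Prime.dvd_mul hp).1 h with h | h
    · exact hp.dvd_of_dvd_pow h
    · exact (hp.dvd_of_dvd_pow (show p ∣ 2 ^ 4 from h)).trans hM2
  have hML : 6 * N ∣ (6 * N) ^ 3 * 4 ^ 2 := (dvd_pow_self _ three_ne_zero).mul_right _
  have hmod1 : Top.Mod N a := hmod (RingEquiv.refl ℂ)
  obtain ⟨c, hc, hn⟩ := exists_nm hN hmod1
  -- rationality at every prime
  have hall : ∀ l : ℕ, l.Prime → ¬ l ∣ 6 * N → ∃ t : ℤ, a l = t * s ^ ep l := by
    intro l hl hlM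
    have hodd := odd_of hM2 ((Nat.Prime.coprime_iff_not_dvd hl).2 hlM)
    obtain ⟨q, hq⟩ := R007.RatAlg.mem_of_fixed (Rat.castHom ℂ).fieldRange (a l / s ^ ep l)
      fun σ _ => by
        obtain ⟨c', hc', hn'⟩ := exists_nm hN (hmod σ)
        have hy : σ s / s * (σ s / s) = 1 := by
          have : σ s ^ 2 = 3 := by rw [← map_pow, hs, map_ofNat]
          field_simp
          rw [this, hs]
        have ht := hn.twist (fun n => ch 1 (σ s / s) n) (by simp [ch]) (ch_mul hy) fun p hp hpM => by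
          rw [ch_ep _ (odd_of hM2 ((Nat.Prime.coprime_iff_not_dvd hp).2 hpM)), ← mul_pow, hy,
            one_pow]
        have e := Nm.eq hB (by omega) hLp hn' ht (hc'.mono (Dvd.intro _ rfl))
          (hc.twist (m := 4) four_ne_zero _ (ch_sq _ _)) fun p hp hpM hpB => by
            obtain ⟨t, ht⟩ := hrat p hp hpB
            rw [ch_ep _ (odd_of hM2 ((Nat.Prime.coprime_iff_not_dvd hp).2 hpM)), ht, map_mul,
              map_pow, map_intCast, div_pow]
            field_simp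
        have e' := congrFun e l
        rw [hn'.prime hl hlM, hn.prime hl hlM, ch_ep _ hodd] at e'
        have : σ s ≠ 0 := (map_ne_zero σ).2 hs0
        rw [map_div₀, e', map_pow, div_pow]
        field_simp
    obtain ⟨t, ht, -⟩ := Rat.eq_int_mul (a := a l) (ε := ep l) (by unfold ep; split_ifs <;> simp) hs
      (hI N a l hN hmod1 hl fun h => hlM (h.trans (Nat.mul_dvd_mul_right (by norm_num) N)))
      (u := q.num) (v := q.den) (by exact_mod_cast q.den_ne_zero) (by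
        have h1 : (q : ℂ) = a l / s ^ ep l := hq
        rw [Rat.cast_def] at h1
        have h2 : (q.den : ℂ) ≠ 0 := by exact_mod_cast q.den_ne_zero
        field_simp at h1
        push_cast
        linear_combination -h1)
    exact ⟨t, ht⟩
  have hint : ∀ n, ∃ z : ℤ, c n = z * s ^ ep n := by
    intro n
    by_cases hcop : n.Coprime (6 * N)
    · refine ind_cop (6 * N) (fun n => ∃ z : ℤ, c n = z * s ^ ep n) ⟨1, by simp [hn.one, ep]⟩
        (fun l n hl hlM hnc ⟨z, hz⟩ h2 => ?_) n (Nat.pos_of_ne_zero ?_) hcop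
      · have hodd := odd_of hM2 ((Nat.Prime.coprime_iff_not_dvd hl).2 hlM)
        obtain ⟨t, ht⟩ := hall l hl hlM
        have e := hn.rc l hl hlM n
        have e2 := ep_mul hs hodd (odd_of hM2 hnc)
        rw [ht, hz] at e
        by_cases hd : l ∣ n
        · obtain ⟨w, hw⟩ := h2 hd
          obtain ⟨m, rfl⟩ := hd
          rw [Nat.mul_div_cancel_left m hl.pos] at hw
          rw [if_pos (dvd_mul_right l m), Nat.mul_div_cancel_left m hl.pos, hw,
            ← ep_sq hodd m] at e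
          exact ⟨3 ^ (ep l * ep (l * m)) * t * z - l * w, by
            push_cast; linear_combination e + t * z * e2⟩
        · rw [if_neg hd] at e
          exact ⟨3 ^ (ep l * ep n) * t * z, by push_cast; linear_combination e + t * z * e2⟩
      · rintro rfl
        have : 6 * N = 1 := by simpa using hcop
        omega
    · exact ⟨0, by simp [hn.sup n hcop]⟩
  choose g hg using hint
  have hg0 : ∀ n, ¬ n.Coprime (6 * N) → g n = 0 := fun n h => by
    have := hg n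
    rw [hn.sup n h] at this
    simpa [hs0] using this.symm
  obtain ⟨f1, h1, q1⟩ := hc.twist (m := 4) four_ne_zero _ (ch_sq 1 0)
  obtain ⟨f3, h3, q3⟩ := hc.twist (m := 4) four_ne_zero _ (ch_sq 0 s⁻¹)
  refine ⟨(6 * N) ^ 3 * 4 ^ 2, g, ![f1, f3], by push_cast; exact le_of_eq (by ring),
    ⟨by positivity, Dvd.intro_left _ rfl, ?_, fun n h => hg0 n fun h' => h ?_, fun l hl hL n => ?_⟩,
    ⟨fun i => ?_, ?_, ?_⟩, fun l hl hL => ?_⟩
  · have := hg 1
    rw [hn.one] at this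
    have h2 : ((g 1 : ℤ) : ℂ) = 1 := by simpa [ep] using this.symm
    exact_mod_cast h2
  · by_contra H
    obtain ⟨p, hp, h1, h2⟩ := Nat.Prime.not_coprime_iff_dvd.1 H
    exact hp.one_lt.ne' (Nat.eq_one_of_dvd_coprimes h' h1 (hLp p hp h2))
  · have hlM : ¬ l ∣ 6 * N := fun h => hL (h.trans hML)
    have hlc := (Nat.Prime.coprime_iff_not_dvd hl).2 hlM
    have hodd := odd_of hM2 hlc
    by_cases hcop : n.Coprime (6 * N)
    · have e := hn.rc l hl hlM n
      have e2 := ep_mul hs hodd (odd_of hM2 hcop)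
      rw [← hn.prime hl hlM, hg l, hg n, hg (l * n)] at e
      have hp : s ^ ep (l * n) ≠ 0 := pow_ne_zero _ hs0
      apply Int.cast_injective (α := ℂ)
      apply mul_right_cancel₀ hp
      by_cases hd : l ∣ n
      · obtain ⟨m, rfl⟩ := hd
        rw [if_pos (dvd_mul_right l m), Nat.mul_div_cancel_left m hl.pos] at e ⊢
        rw [hg m, ← ep_sq hodd m] at e
        push_cast
        linear_combination e + g l * g (l * m) * e2
      · rw [if_neg hd] at e ⊢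
        push_cast
        linear_combination e + g l * g n * e2
    · rw [hg0 n hcop, hg0 (l * n) fun h => hcop (Nat.Coprime.coprime_mul_left h)]
      split_ifs with hd
      · obtain ⟨m, rfl⟩ := hd
        rw [Nat.mul_div_cancel_left m hl.pos, hg0 m fun h => hcop (Nat.Coprime.mul_left hlc h)]
        simp
      · simp
  · fin_cases i
    · exact h1
    · exact h3
  · have : (fun n => (pc 1 g n : ℂ)) = fun n : ℕ => ch 1 0 n * c n := by
      funext n
      rw [ch_nat, hg n, pc, ep]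
      split_ifs <;> first | omega | simp
    rw [this]
    exact q1
  · have : (fun n => (pc 3 g n : ℂ)) = fun n : ℕ => ch 0 s⁻¹ n * c n := by
      funext n
      rw [ch_nat, hg n, pc, ep]
      split_ifs <;> first | omega | (simp; done) | field_simp
    rw [this]
    exact q3
  · have hlM : ¬ l ∣ 6 * N := fun h => hL ((h.trans hML).mul_left _)
    rw [← hn.prime hl hlM, hg l]

theorem intStmt_98 : IntStmt := fun _ _ _ hN h hl hL => Int.isIntegral_of_mod hN h hl hL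

/-- **leaf RATSM** -/
theorem smStmt_98 : SmStmt := smStmt_of intStmt_98

end Crest.Agent.T15.SmB
end
end

-- ▼ part T15/Dep_98

/-!
# Row 15, block Ht (helper98): the leaf `DepStmt`
-/

set_option autoImplicit false
set_option maxHeartbeats 400000

noncomputable section

namespace Crest.Agent.T15.Ht

lemma dep_pc (B i : ℕ) (g : ℕ → ℤ) :
    (fun n : ℕ => if n.Coprime B then (pc i g n : ℂ) else 0) = fun n => (pc i (dep B g) n : ℂ) := by
  funext n
  unfold pc dep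
  split_ifs <;> simp

/-- **leaf DEP** -/
theorem depStmt : DepStmt := by
  intro L B g f hL hB hf
  obtain ⟨f1, h1, q1⟩ := Sm.Cf.deplete (N := L) ⟨f 0, hf.cs 0, hf.q1⟩ hB.ne'
  obtain ⟨f3, h3, q3⟩ := Sm.Cf.deplete (N := L) ⟨f 1, hf.cs 1, hf.q3⟩ hB.ne'
  refine ⟨L * B ^ 2, ![f1, f3], by positivity, fun i => ?_, ?_, ?_⟩
  · fin_cases i
    · exact h1
    · exact h3
  · rw [← dep_pc]; exact q1
  · rw [← dep_pc]; exact q3

end Crest.Agent.T15.Ht
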