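import Crest.Agent.T15.EscA_99
import Crest.Agent.T15.Hk_62
import Crest.Agent.T15.MfA_79

/-!
# Row 15, block T (helper99): the period map and correspondences

* `Inv Λ`, `P Λ : Inv Λ →ₗ[ℂ] HH Λ ℂ`, `hk c f = ∑ f ∣ g`, `T_P : T c (P f) = P (hk c f)`;
* `hk_MS`, `hk_CS`: correspondences keep modular and cusp forms;
* `finrank_HH_le`: `dim Hom(Λ, ℂ) ≤ d + 1` for index `d` in a two-generated group.
-/

set_option autoImplicit false
set_option linter.unusedSectionVars false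
set_option linter.style.haveILetI false

noncomputable section

namespace Crest.Agent.T15.Esc

open UpperHalfPlane hiding I
open Complex ModularForm Filter Function Set Matrix.SpecialLinearGroup
open scoped MatrixGroups Manifold Topology Real ComplexConjugate
open Crest.Agent.T15.Hk Crest.Agent.T15.Mf

lemma rr_pos' (g : GQ) : 0 < (rr g).val.det := by
  rw [← Matrix.GeneralLinearGroup.val_det_apply]; exact rr_pos g

lemma slash_smul (k : ℤ) (g : GQ) (c : ℂ) (f : ℍ → ℂ) : (c • f) ∣[k] rr g = c • f ∣[k] rr g := by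
  rw [slash_eq, slash_eq]
  funext τ
  simp [mul_assoc]

variable {O : Type*} [CommRing O] [Algebra O ℂ]

/-- the slash operator as a linear map -/
def sl (O : Type*) [CommRing O] [Algebra O ℂ] (k : ℤ) (g : GQ) : (ℍ → ℂ) →ₗ[O] (ℍ → ℂ) where
  toFun f := f ∣[k] rr g
  map_add' := SlashAction.add_slash k _
  map_smul' c f := by
    rw [← algebraMap_smul ℂ c f, slash_smul, algebraMap_smul, RingHom.id_apply]

lemma sl_apply (k : ℤ) (g : GQ) (f : ℍ → ℂ) : sl O k g f = f ∣[k] rr g := rfl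

/-- action of the group ring on functions -/
def hk (k : ℤ) (c : MonoidAlgebra O GQ) (f : ℍ → ℂ) : ℍ → ℂ := lin O (fun g => f ∣[k] rr g) c

variable {k : ℤ} {f : ℍ → ℂ} {Λ Λ' : Subgroup GQ}

lemma hk_e (g : GQ) (f : ℍ → ℂ) : hk k (e O g) f = f ∣[k] rr g := lin_e _ _

lemma hk_sum {ι : Type*} (s : Finset ι) (α : ι → GQ) (f : ℍ → ℂ) :
    hk k (∑ i ∈ s, e O (α i)) f = ∑ i ∈ s, f ∣[k] rr (α i) := lin_sum_e _ _ _

lemma hk_add_left (c c' : MonoidAlgebra O GQ) (f : ℍ → ℂ) :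
    hk k (c + c') f = hk k c f + hk k c' f := map_add _ _ _

lemma hk_sub_left (c c' : MonoidAlgebra O GQ) (f : ℍ → ℂ) :
    hk k (c - c') f = hk k c f - hk k c' f := map_sub _ _ _

lemma hk_smul_left (r : O) (c : MonoidAlgebra O GQ) (f : ℍ → ℂ) :
    hk k (r • c) f = r • hk k c f := map_smul _ _ _





lemma hk_slash (c : MonoidAlgebra O GQ) (f : ℍ → ℂ) (g : GQ) :
    (hk k c f) ∣[k] rr g = hk k (c * e O g) f := by
  rw [hk, hk, lin_mul_e, ← sl_apply (O := O), map_lin]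
  simp only [sl_apply, map_mul, SlashAction.slash_mul]


lemma hk_null {z : MonoidAlgebra O GQ} (hz : z ∈ Null O Λ) (hf : ∀ g ∈ Λ, f ∣[k] rr g = f) :
    hk k z f = 0 :=
  null_lin hz fun γ hγ g => by rw [map_mul, SlashAction.slash_mul, hf γ hγ]

lemma lin_mem {G A : Type*} [Group G] [AddCommGroup A] [Module O A] (S : Submodule O A) {F : G → A}
    (h : ∀ g, F g ∈ S) (z : MonoidAlgebra O G) : lin O F z ∈ S := by
  induction z using MonoidAlgebra.induction_linear with
  | zero => simp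
  | add x y hx hy => rw [map_add]; exact S.add_mem hx hy
  | single g r => rw [single_eq, map_smul, lin_e]; exact S.smul_mem _ (h g)

lemma hk_inv {c : MonoidAlgebra O GQ} (hc : c ∈ Corr O Λ Λ') (hf : ∀ g ∈ Λ, f ∣[k] rr g = f) :
    ∀ g ∈ Λ', (hk k c f) ∣[k] rr g = hk k c f := fun g hg => by
  rw [hk_slash, ← sub_eq_zero, ← hk_sub_left, hk_null (hc g hg) hf]

lemma hk_mdiff (c : MonoidAlgebra O GQ) (hf : MDiff f) : MDiff (hk k c f) :=
  lin_mem (Hol.toSubmodule.restrictScalars O) (fun g => hf.slash k (rr g)) c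

/-- holomorphic functions invariant in weight two -/
def Inv (Λ : Subgroup GQ) : Submodule ℂ (ℍ → ℂ) where
  carrier := {f | MDiff f ∧ ∀ g ∈ Λ, f ∣[(2 : ℤ)] rr g = f}
  add_mem' {a b} ha hb := ⟨ha.1.add hb.1,
    fun g hg => by rw [SlashAction.add_slash, ha.2 g hg, hb.2 g hg]⟩
  zero_mem' := ⟨mdifferentiable_const, fun g _ => by simp⟩
  smul_mem' c a ha := ⟨ha.1.const_smul c, fun g hg => by rw [slash_smul, ha.2 g hg]⟩

/-- **the period map** -/
def P (Λ : Subgroup GQ) : Inv Λ →ₗ[ℂ] HH Λ ℂ where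
  toFun f := mk Λ (fun g => per f (rr g)) fun g hg g' _ => by
    rw [map_mul, per_mul f.2.1 (rr_pos' g) (f.2.2 g hg)]
  map_add' f f' := AddMonoidHom.ext fun _ => per_add f.2.1 f'.2.1 _
  map_smul' c f := AddMonoidHom.ext fun _ => per_smul c f.2.1 _

lemma val_P (f : Inv Λ) {g : GQ} (hg : g ∈ Λ) : val (P Λ f) g = per f (rr g) := val_eq _ hg

lemma hk_mem_Inv {c : MonoidAlgebra O GQ} (hc : c ∈ Corr O Λ Λ') (hf : f ∈ Inv Λ) :
    hk 2 c f ∈ Inv Λ' := ⟨hk_mdiff c hf.1, hk_inv hc hf.2⟩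

lemma IsPrim.lin {F : ℍ → ℂ} (h : IsPrim F f) (c : MonoidAlgebra O GQ) :
    IsPrim (lin O (fun g z => F (rr g • z)) c) (hk 2 c f) := by
  induction c using MonoidAlgebra.induction_linear with
  | zero => rw [map_zero, hk, map_zero]; exact isPrim_const 0
  | add x y hx hy => rw [map_add, hk_add_left]; exact hx.add hy
  | single g r =>
    rw [single_eq, map_smul, hk_smul_left, lin_e, hk_e, ← algebraMap_smul ℂ r,
      ← algebraMap_smul ℂ r (f ∣[(2 : ℤ)] rr g)]
    exact (h.comp_smul (rr_pos' g)).smul _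

/-- **the period map commutes with correspondences** -/
theorem T_P (c : Corr O Λ Λ') (f : Inv Λ) :
    T ℂ c (P Λ f) = P Λ' ⟨hk 2 c.1 f, hk_mem_Inv c.2 f.2⟩ := HH.ext fun γ hγ => by
  have hF := isPrim_prim f.2.1
  have h1 : IsMod (P Λ f) fun g => prim f (rr g • UpperHalfPlane.I) := fun δ hδ g => by
    simp only [map_mul, mul_smul]
    rw [hF.per_eq (rr_pos' δ) (f.2.2 δ hδ), val_P f hδ]
  have h2 := T_model c h1 γ hγ 1
  have h3 : ∀ g : GQ, lin O (fun g => prim f (rr g • UpperHalfPlane.I)) (c.1 * e O g) =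
      lin O (fun g z => prim f (rr g • z)) c.1 (rr g • UpperHalfPlane.I) := fun g => by
    rw [lin_mul_e]
    simp only [map_mul, mul_smul]
    exact (map_lin (LinearMap.proj (R := O) (φ := fun _ : ℍ => ℂ) (rr g • UpperHalfPlane.I))
      (fun g z => prim f (rr g • z)) c.1).symm
  simp only [mul_one, h3, map_one, one_smul] at h2
  rw [val_P _ hγ, (hF.lin c.1).per_def, h2, add_sub_cancel_right]

/-! ### modular and cusp forms -/

lemma exists_upper (g : GQ) : ∃ s : SL(2, ℤ), rr ((sq s)⁻¹ * g) 1 0 = 0 := by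
  obtain ⟨s, hs⟩ := OnePoint.exists_mem_SL2 ℤ ((g : GL (Fin 2) ℚ) • (OnePoint.infty : OnePoint ℚ))
  refine ⟨s, ?_⟩
  rw [eq_comm, ← inv_smul_eq_iff, ← mul_smul, OnePoint.smul_infty_eq_self_iff] at hs
  rw [rr_apply]
  exact_mod_cast hs

lemma bdd_slash (h : ∀ s : SL(2, ℤ), IsBoundedAtImInfty (f ∣[k] s)) (g : GQ) :
    IsBoundedAtImInfty (f ∣[k] rr g) := by
  obtain ⟨s, hs⟩ := exists_upper g
  have := (h s).slash k hs
  rwa [← slash_sq, ← SlashAction.slash_mul, ← map_mul, mul_inv_cancel_left] at this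

lemma zero_slash' (h : ∀ s : SL(2, ℤ), IsZeroAtImInfty (f ∣[k] s)) (g : GQ) :
    IsZeroAtImInfty (f ∣[k] rr g) := by
  obtain ⟨s, hs⟩ := exists_upper g
  have := (h s).slash k hs
  rwa [← slash_sq, ← SlashAction.slash_mul, ← map_mul, mul_inv_cancel_left] at this

variable {Γ Γ' : Subgroup SL(2, ℤ)}

lemma inv_map_iff : (∀ g ∈ Γ.map sq, f ∣[k] rr g = f) ↔ ∀ γ ∈ Γ, f ∣[k] γ = f :=
  ⟨fun h γ hγ => by rw [← slash_sq]; exact h _ ⟨γ, hγ, rfl⟩,
    fun h => by rintro _ ⟨γ, hγ, rfl⟩; rw [slash_sq, h γ hγ]⟩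

lemma MS_le_Inv : MS Γ 2 ≤ Inv (Γ.map sq) := fun _ h => ⟨h.1, inv_map_iff.2 h.2.1⟩

lemma CS_le_Inv : CS Γ 2 ≤ Inv (Γ.map sq) := CS_le_MS.trans MS_le_Inv

theorem hk_MS {c : MonoidAlgebra O GQ} (hc : c ∈ Corr O (Γ.map sq) (Γ'.map sq)) (hf : f ∈ MS Γ k) :
    hk k c f ∈ MS Γ' k := by
  refine ⟨hk_mdiff c hf.1, inv_map_iff.1 (hk_inv hc (inv_map_iff.2 hf.2.1)), fun s => ?_⟩
  rw [← slash_sq, hk_slash]
  exact lin_mem ((boundedAtImInftySubalgebra ℂ).toSubmodule.restrictScalars O)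
    (fun g => bdd_slash hf.2.2 g) _

theorem hk_CS {c : MonoidAlgebra O GQ} (hc : c ∈ Corr O (Γ.map sq) (Γ'.map sq)) (hf : f ∈ CS Γ k) :
    hk k c f ∈ CS Γ' k := by
  refine ⟨hk_mdiff c hf.1, inv_map_iff.1 (hk_inv hc (inv_map_iff.2 hf.2.1)), fun s => ?_⟩
  rw [← slash_sq, hk_slash]
  exact lin_mem ((zeroAtImInftySubmodule ℂ).restrictScalars O) (fun g => zero_slash' hf.2.2 g) _

/-! ### the dimension of `Hom(Λ, ℂ)` -/

section dim
variable {G G' : Type*} [Group G] [Group G'] {K : Type*} [Field K]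

/-- transport along an isomorphism -/
def HHcongr (K : Type*) [Field K] {Λ : Subgroup G} {Λ' : Subgroup G'} (φ : Λ ≃* Λ') :
    HH Λ' K ≃ₗ[K] HH Λ K where
  toFun ψ := ψ.comp (MulEquiv.toAdditive φ).toAddMonoidHom
  invFun ψ := ψ.comp (MulEquiv.toAdditive φ.symm).toAddMonoidHom
  map_add' _ _ := rfl
  map_smul' _ _ := rfl
  left_inv ψ := AddMonoidHom.ext fun x => by simp
  right_inv ψ := AddMonoidHom.ext fun x => by simp

lemma finrank_HH_le_top {a b : G} (h : Subgroup.closure {a, b} = ⊤) (Λ : Subgroup G)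
    [Λ.FiniteIndex] : Module.Finite K (HH Λ K) ∧ Module.finrank K (HH Λ K) ≤ Λ.index + 1 := by
  haveI : Finite (RC Λ) := Finite.of_equiv _ (QuotientGroup.quotientRightRelEquivQuotientLeftRel Λ).symm
  haveI := Fintype.ofFinite (RC Λ)
  have hcard : Fintype.card (RC Λ) = Λ.index := by
    rw [← Nat.card_eq_fintype_card,
      Nat.card_congr (QuotientGroup.quotientRightRelEquivQuotientLeftRel Λ)]
    rfl
  let Φ : HH Λ K × (RC Λ → K) →ₗ[K] G → K :=
    { toFun := fun p g => mdl p.1 g + p.2 (cs Λ g)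
      map_add' := fun p q => funext fun g => by
        simp only [mdl, Prod.fst_add, Prod.snd_add, val_add, Pi.add_apply]; ring
      map_smul' := fun r p => funext fun g => by
        simp only [mdl, Prod.smul_fst, Prod.smul_snd, val_smul, Pi.smul_apply, smul_eq_mul,
          RingHom.id_apply]; ring }
  have hΦ : ∀ p, IsMod p.1 (Φ p) := fun p γ hγ g => by
    change mdl p.1 (γ * g) + p.2 (cs Λ (γ * g)) = _ + (mdl p.1 g + p.2 (cs Λ g))
    rw [isMod_mdl p.1 γ hγ, cs_mul hγ, add_assoc]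
  let D : G → (G → K) →ₗ[K] RC Λ → K := fun g =>
    { toFun := fun u x => u (x.out * g) - u x.out
      map_add' := fun u v => funext fun x => by simp only [Pi.add_apply]; ring
      map_smul' := fun r u => funext fun x => by
        simp only [Pi.smul_apply, smul_eq_mul, RingHom.id_apply]; ring }
  let Ψ : HH Λ K × (RC Λ → K) →ₗ[K] (RC Λ → K) × (RC Λ → K) × K :=
    ((D a).prod ((D b).prod (LinearMap.proj 1))) ∘ₗ Φ
  have hΨ : Injective Ψ := by
    rw [← LinearMap.ker_eq_bot, LinearMap.ker_eq_bot']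
    intro p hp
    have key : ∀ t : G, D t (Φ p) = 0 → ∀ g, Φ p (g * t) = Φ p g := fun t ht g => by
      have h1 : Φ p ((cs Λ g).out * t) - Φ p (cs Λ g).out = 0 := congrFun ht (cs Λ g)
      have h2 := hΦ p _ (mul_out_mem Λ g) ((cs Λ g).out * t)
      have h3 := hΦ p _ (mul_out_mem Λ g) (cs Λ g).out
      rw [← mul_assoc, inv_mul_cancel_right] at h2
      rw [inv_mul_cancel_right] at h3
      linear_combination h2 - h3 + h1
    have h1 : ∀ t : G, ∀ g, Φ p (g * t) = Φ p g := fun t => by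
      have ht : t ∈ Subgroup.closure {a, b} := h ▸ Subgroup.mem_top t
      induction ht using Subgroup.closure_induction with
      | mem x hx =>
        rcases hx with rfl | rfl
        · exact key _ (congrArg Prod.fst hp)
        · exact key _ (congrArg (fun q => q.2.1) hp)
      | one => simp
      | mul x y _ _ hx hy => intro g; rw [← mul_assoc, hy, hx]
      | inv x _ hx => intro g; rw [← hx (g * x⁻¹), inv_mul_cancel_right]
    have h2 : ∀ g, Φ p g = 0 := fun g => by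
      rw [← one_mul g, h1]; exact congrArg (fun q => q.2.2) hp
    have h3 : p.1 = 0 := HH.ext fun γ hγ => by
      have := hΦ p γ hγ 1
      rw [h2, h2, add_zero] at this
      rw [← this, val_zero]
    refine Prod.ext h3 (funext fun x => ?_)
    have h4 : mdl p.1 x.out + p.2 (cs Λ x.out) = 0 := h2 x.out
    rwa [h3, mdl, val_zero, zero_add, cs, Quotient.out_eq] at h4
  haveI : Module.Finite K (HH Λ K × (RC Λ → K)) := Module.Finite.of_injective Ψ hΨ
  haveI : Module.Finite K (HH Λ K) :=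
    Module.Finite.of_surjective (LinearMap.fst K _ (RC Λ → K)) Prod.fst_surjective
  have := LinearMap.finrank_le_finrank_of_injective hΨ
  simp only [Module.finrank_prod, Module.finrank_pi, Module.finrank_self, hcard] at this
  exact ⟨inferInstance, by omega⟩

theorem finrank_HH_le {a b : G} {Λ₀ Λ : Subgroup G} (h : Subgroup.closure {a, b} = Λ₀)
    (hle : Λ ≤ Λ₀) (hd : Λ.relIndex Λ₀ ≠ 0) :
    Module.Finite K (HH Λ K) ∧ Module.finrank K (HH Λ K) ≤ Λ.relIndex Λ₀ + 1 := by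
  have ha : a ∈ Λ₀ := h ▸ Subgroup.subset_closure (by simp)
  have hb : b ∈ Λ₀ := h ▸ Subgroup.subset_closure (by simp)
  haveI : (Λ.subgroupOf Λ₀).FiniteIndex := ⟨hd⟩
  have h1 : Subgroup.closure {(⟨a, ha⟩ : Λ₀), ⟨b, hb⟩} = ⊤ := by
    apply Subgroup.map_injective Λ₀.subtype_injective
    rw [MonoidHom.map_closure, Set.image_pair, ← MonoidHom.range_eq_map, Subgroup.range_subtype]
    exact h
  obtain ⟨h2, h3⟩ := finrank_HH_le_top (K := K) h1 (Λ.subgroupOf Λ₀)
  have φ := HHcongr K (Subgroup.subgroupOfEquivOfLe hle)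
  exact ⟨Module.Finite.equiv φ.symm, φ.finrank_eq ▸ h3⟩

end dim

end Crest.Agent.T15.Esc
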