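import Mathlib

/-!
# Row 15, block Fl: flat modules at `3` (helper80)

`Ω/F` is an algebraic closure, `w` a Galois invariant valuation of `Ω` over `3`, `F` absolutely
unramified (`ℚ₃`, a finite unramified extension, `ℚ₃^nr`, or a henselisation of `ℚ`).  A finite Galois
module `V` is *flat* if it has a Hopf order, written as an algebra of functions `V → Ω`.
-/

set_option autoImplicit false

noncomputable section

namespace Crest.Agent.T15.Fl

open scoped NNReal

variable (F : Type*) {Ω : Type*} [Field F] [Field Ω] [Algebra F Ω] (w : Valuation Ω ℝ≥0)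

/-- the valuation ring of `F` -/
def OF : Subring F := (w.comap (algebraMap F Ω)).integer

/-- the local context: invariant valuation over `3`, `3` is a uniformiser of `F` -/
structure Ctx : Prop where
  inv : ∀ (σ : Ω ≃ₐ[F] Ω) (x : Ω), w (σ x) = w x
  w3 : w 3 < 1
  disc : ∀ a : F, a ≠ 0 → ∃ n : ℤ, w (algebraMap F Ω a) = w 3 ^ n

variable {F} {V : Type*} [AddCommGroup V]

/-- `A` is a Hopf order of the Galois module `(V, ρ)` -/
structure IsOrd (ρ : (Ω ≃ₐ[F] Ω) →* AddMonoid.End V) (A : Subalgebra (OF F w) (V → Ω)) : Prop where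
  fg : (Subalgebra.toSubmodule A).FG
  equiv : ∀ f ∈ A, ∀ (σ : Ω ≃ₐ[F] Ω) (v : V), f (ρ σ v) = σ (f v)
  sep : ∀ u v : V, (∀ f ∈ A, f u = f v) → u = v
  comul : ∀ f ∈ A, ∃ (n : ℕ) (g h : Fin n → V → Ω), (∀ i, g i ∈ A) ∧ (∀ i, h i ∈ A) ∧
    ∀ a b, f (a + b) = ∑ i, g i a * h i b

/-- the Galois module `(V, ρ)` is flat -/
def Flat (ρ : (Ω ≃ₐ[F] Ω) →* AddMonoid.End V) : Prop := ∃ A, IsOrd w ρ A

/-! ### the statements of the block (all over `Type`) -/






end Crest.Agent.T15.Fl
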