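import Crest.Agent.T15.Ps_28
import Crest.Agent.T15.Tan_28
import Mathlib
import Crest.Agent.R183.CohenDim
import Crest.Agent.R227.LTComplete
import Crest.Agent.T15.Inert_3

-- ▼ part T15/Blr_78
section

/-!
# Row 15, block R (helper78): Boston–Lenstra–Ribet over a commutative ring

A group `G` acts in a `T`-algebra `B` by `ρ` with the Cayley–Hamilton identity
`ρ g + d g • ρ g⁻¹ = t g`.  Then `t` is an odd pseudo-representation, and as soon as some value
`x g₀ h₀` is a unit, `ρ` factors through `σ : G →* M₂(T)` and an injective algebra map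
`M₂(T) → B`.
-/

set_option autoImplicit false

noncomputable section

namespace Crest.Agent.T15.Blr

open Matrix Crest.Agent.T15.Ps

variable {G : Type*} [Group G] {T : Type*} [CommRing T] {B : Type*} [Ring B] [Algebra T B]

/-- Cayley–Hamilton data in an algebra -/
structure CH (ρ : G →* B) (d : G →* T) (t : G → T) (h : T) (c : G) : Prop where
  ch : ∀ g, ρ g + d g • ρ g⁻¹ = t g • (1 : B)
  half : 2 * h = 1
  cc : c * c = 1
  dc : d c = -1

/-- the idempotent `(1 + c)/2` -/
def ee (ρ : G →* B) (h : T) (c : G) : B := h • (1 + ρ c)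
/-- the idempotent `(1 - c)/2` -/
def ff (ρ : G →* B) (h : T) (c : G) : B := h • (1 - ρ c)

namespace CH
variable {ρ : G →* B} {d : G →* T} {t : G → T} {h : T} {c : G} (H : CH ρ d t h c)
include H

lemma cinv : c⁻¹ = c := inv_eq_of_mul_eq_one_right H.cc
lemma JJ : ρ c * ρ c = 1 := by rw [← map_mul, H.cc, map_one]
lemma e_add_f : ee ρ h c + ff ρ h c = 1 := by
  rw [ee, ff, ← smul_add, add_add_sub_cancel, ← two_smul T, smul_smul, mul_comm, H.half, one_smul]
lemma e_mul_J : ee ρ h c * ρ c = ee ρ h c := by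
  rw [ee, smul_mul_assoc, add_mul, one_mul, H.JJ, add_comm]
lemma f_mul_J : ff ρ h c * ρ c = -ff ρ h c := by
  rw [ff, smul_mul_assoc, sub_mul, one_mul, H.JJ, ← smul_neg, neg_sub]
lemma e_mul_f : ee ρ h c * ff ρ h c = 0 := by
  rw [ff, mul_smul_comm, mul_sub, mul_one, H.e_mul_J, sub_self, smul_zero]
lemma f_mul_e : ff ρ h c * ee ρ h c = 0 := by
  conv_lhs => rw [ee, mul_smul_comm, mul_add, mul_one, H.f_mul_J, add_neg_cancel, smul_zero]
lemma e_mul_e : ee ρ h c * ee ρ h c = ee ρ h c := by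
  have := congrArg (ee ρ h c * ·) H.e_add_f
  simpa only [mul_add, H.e_mul_f, add_zero, mul_one] using this
lemma f_mul_f : ff ρ h c * ff ρ h c = ff ρ h c := by
  have := congrArg (ff ρ h c * ·) H.e_add_f
  simpa only [mul_add, H.f_mul_e, zero_add, mul_one] using this

/-- `c g + (c g)* = t (c g)` -/
lemma ch_c (g : G) : ρ c * ρ g - d g • (ρ g⁻¹ * ρ c) = t (c * g) • (1 : B) := by
  rw [← H.ch, map_mul, map_mul, H.dc, _root_.mul_inv_rev, map_mul, H.cinv, neg_one_mul, neg_smul,
    sub_eq_add_neg]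

lemma e_g (g : G) :
    ee ρ h c * ρ g + d g • (ρ g⁻¹ * ff ρ h c) = pa h c t g • (1 : B) := by
  rw [pa, mul_smul, add_smul, ← H.ch, ← H.ch_c, ee, ff]
  simp only [smul_mul_assoc, mul_smul_comm, add_mul, mul_sub, one_mul, mul_one, smul_add, smul_sub]
  rw [smul_comm h (d g), smul_comm h (d g)]
  abel

lemma f_g (g : G) :
    ff ρ h c * ρ g + d g • (ρ g⁻¹ * ee ρ h c) = pd h c t g • (1 : B) := by
  rw [pd, mul_smul, sub_smul, ← H.ch, ← H.ch_c, ee, ff]
  simp only [smul_mul_assoc, mul_smul_comm, sub_mul, mul_add, one_mul, mul_one, smul_add, smul_sub]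
  rw [smul_comm h (d g), smul_comm h (d g)]
  abel

lemma ege (g : G) : ee ρ h c * ρ g * ee ρ h c = pa h c t g • ee ρ h c := by
  have := congrArg (· * ee ρ h c) (H.e_g g)
  simpa only [add_mul, smul_mul_assoc, mul_assoc, H.f_mul_e, mul_zero, smul_zero, add_zero,
    one_mul] using this

lemma fgf (g : G) : ff ρ h c * ρ g * ff ρ h c = pd h c t g • ff ρ h c := by
  have := congrArg (· * ff ρ h c) (H.f_g g)
  simpa only [add_mul, smul_mul_assoc, mul_assoc, H.e_mul_f, mul_zero, smul_zero, add_zero,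
    one_mul] using this

lemma split (X Y : B) : X * Y = X * ee ρ h c * Y + X * ff ρ h c * Y := by
  rw [← add_mul, ← mul_add, H.e_add_f, mul_one]

lemma ege' (g : G) (X : B) :
    ee ρ h c * (ρ g * (ee ρ h c * X)) = pa h c t g • (ee ρ h c * X) := by
  rw [← mul_assoc, ← mul_assoc, H.ege, smul_mul_assoc]
lemma fgf' (g : G) (X : B) :
    ff ρ h c * (ρ g * (ff ρ h c * X)) = pd h c t g • (ff ρ h c * X) := by
  rw [← mul_assoc, ← mul_assoc, H.fgf, smul_mul_assoc]

lemma egfke (g k : G) :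
    ee ρ h c * ρ g * ff ρ h c * ρ k * ee ρ h c = px h c t g k • ee ρ h c := by
  have h1 := H.ege (g * k)
  have h2 := H.split (ee ρ h c * ρ g) (ρ k * ee ρ h c)
  rw [map_mul] at h1
  rw [H.ege, smul_mul_assoc, ← mul_assoc (ee ρ h c), H.ege, smul_smul] at h2
  rw [px, sub_smul, ← h1]
  simp only [mul_assoc] at h2 ⊢
  rw [h2]; abel

/-- `e g⁻¹ f` is minus `e g f` up to the determinant -/
lemma e_inv_f (g : G) : d g • (ee ρ h c * ρ g⁻¹ * ff ρ h c) = -(ee ρ h c * ρ g * ff ρ h c) := by
  have := congrArg (fun X => ee ρ h c * X * ff ρ h c) (H.ch g)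
  simp only [mul_add, add_mul, mul_smul_comm, smul_mul_assoc, mul_one, H.e_mul_f, smul_zero] at this
  exact eq_neg_of_add_eq_zero_right this

lemma f_inv_e (g : G) : d g • (ff ρ h c * ρ g⁻¹ * ee ρ h c) = -(ff ρ h c * ρ g * ee ρ h c) := by
  have := congrArg (fun X => ff ρ h c * X * ee ρ h c) (H.ch g)
  simp only [mul_add, add_mul, mul_smul_comm, smul_mul_assoc, mul_one, H.f_mul_e, smul_zero] at this
  exact eq_neg_of_add_eq_zero_right this

lemma f_inv_f (g : G) : d g • (ff ρ h c * ρ g⁻¹ * ff ρ h c) = pa h c t g • ff ρ h c := by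
  have := congrArg (fun X => ff ρ h c * X) (H.e_g g)
  simpa only [mul_add, mul_smul_comm, mul_one, ← mul_assoc, H.f_mul_e, zero_mul, zero_add]
    using this

lemma fkegf (g k : G) :
    ff ρ h c * ρ k * ee ρ h c * ρ g * ff ρ h c = px h c t g k • ff ρ h c := by
  -- apply the involution: `f (gk)* f = a(gk) f`
  have h1 := H.f_inv_f (g * k)
  have h2 := H.split (ff ρ h c * ρ k⁻¹) (ρ g⁻¹ * ff ρ h c)
  have h3 : d k • d g • (ff ρ h c * ρ k⁻¹ * ff ρ h c * (ρ g⁻¹ * ff ρ h c)) =
      (pa h c t g * pa h c t k) • ff ρ h c := by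
    rw [smul_comm, ← smul_mul_assoc, H.f_inv_f, smul_mul_assoc, smul_comm, ← mul_assoc,
      H.f_inv_f, smul_smul, mul_comm]
  have h4 : d k • d g • (ff ρ h c * ρ k⁻¹ * ee ρ h c * (ρ g⁻¹ * ff ρ h c)) =
      ff ρ h c * ρ k * ee ρ h c * ρ g * ff ρ h c := by
    have e1 : ff ρ h c * ρ k⁻¹ * ee ρ h c * (ρ g⁻¹ * ff ρ h c) =
        (ff ρ h c * ρ k⁻¹ * ee ρ h c) * (ee ρ h c * ρ g⁻¹ * ff ρ h c) := by
      simp only [mul_assoc]; rw [← mul_assoc (ee ρ h c) (ee ρ h c), H.e_mul_e]
    rw [e1, ← mul_smul_comm, H.e_inv_f, ← smul_mul_assoc, H.f_inv_e, neg_mul_neg]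
    simp only [mul_assoc]; rw [← mul_assoc (ee ρ h c) (ee ρ h c), H.e_mul_e]
  rw [_root_.mul_inv_rev, map_mul, map_mul, mul_comm (d g), mul_smul] at h1
  rw [px, sub_smul, ← h1, ← h3, ← h4]
  simp only [mul_assoc] at h2 ⊢
  rw [h2, smul_add, smul_add]; abel

lemma e_inv_e (g : G) : d g • (ee ρ h c * ρ g⁻¹ * ee ρ h c) = pd h c t g • ee ρ h c := by
  have := congrArg (fun X => ee ρ h c * X) (H.f_g g)
  simpa only [mul_add, mul_smul_comm, mul_one, ← mul_assoc, H.e_mul_f, zero_mul, zero_add]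
    using this

lemma egfke' (g k : G) (X : B) :
    ee ρ h c * (ρ g * (ff ρ h c * (ρ k * (ee ρ h c * X)))) = px h c t g k • (ee ρ h c * X) := by
  rw [← smul_mul_assoc, ← H.egfke]; simp only [mul_assoc]
lemma fkegf' (g k : G) (X : B) :
    ff ρ h c * (ρ k * (ee ρ h c * (ρ g * (ff ρ h c * X)))) = px h c t g k • (ff ρ h c * X) := by
  rw [← smul_mul_assoc, ← H.fkegf]; simp only [mul_assoc]

lemma ext_ef (hB : ∀ s : T, s • (1 : B) = 0 → s = 0) {s s' : T}
    (h1 : s • ee ρ h c = s' • ee ρ h c) (h2 : s • ff ρ h c = s' • ff ρ h c) : s = s' := by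
  refine sub_eq_zero.1 (hB _ ?_)
  rw [← H.e_add_f, smul_add, sub_smul, sub_smul, h1, h2, sub_self, sub_self, add_zero]

/-- **BLR/Wiles**: the Cayley–Hamilton identity makes `t` an odd pseudo-representation -/
theorem isPs (hB : ∀ s : T, s • (1 : B) = 0 → s = 0) : IsPs h c t := by
  have ee1 : ∀ X : B, ee ρ h c * (ee ρ h c * X) = ee ρ h c * X := fun X => by
    rw [← mul_assoc, H.e_mul_e]
  have ff1 : ∀ X : B, ff ρ h c * (ff ρ h c * X) = ff ρ h c * X := fun X => by
    rw [← mul_assoc, H.f_mul_f]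
  refine ⟨H.half, H.cc, ?_, ?_, fun g k g' k' => H.ext_ef hB ?_ ?_, fun g k l => H.ext_ef hB ?_ ?_,
    fun g k l => H.ext_ef hB ?_ ?_, fun g k => H.ext_ef hB ?_ ?_, fun g => H.ext_ef hB ?_ ?_⟩
  · refine sub_eq_zero.1 (hB _ ?_)
    have := H.ch 1
    simp only [map_one, inv_one, one_smul] at this
    rw [sub_smul, ← this, two_smul, sub_self]
  · refine hB _ ?_
    rw [← H.ch, H.dc, H.cinv, neg_one_smul, add_neg_cancel]
  · have a := H.egfke' g k (ρ g' * (ff ρ h c * (ρ k' * (ee ρ h c * 1))))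
    rw [H.fkegf' g' k, H.egfke' g' k', mul_smul_comm, mul_smul_comm, H.egfke', smul_smul, smul_smul,
      mul_one] at a
    rw [← a, mul_comm]
  · have a := H.fkegf' g k (ρ k' * (ee ρ h c * (ρ g' * (ff ρ h c * 1))))
    rw [H.egfke' g k', H.fkegf' g' k', mul_smul_comm, mul_smul_comm, H.fkegf', smul_smul, smul_smul,
      mul_one] at a
    rw [← a]
  · have a := H.split (ee ρ h c * ρ g) (ρ k * (ff ρ h c * (ρ l * (ee ρ h c * 1))))
    have b := H.egfke' (g * k) l 1
    simp only [map_mul, mul_assoc] at a b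
    rw [b, H.ege', H.egfke', H.fgf', mul_smul_comm, mul_smul_comm, H.egfke', smul_smul, smul_smul,
      mul_one] at a
    rw [a, add_smul, mul_comm (pd h c t k)]
  · have a := H.split (ff ρ h c * ρ l * ee ρ h c * ρ g) (ρ k * (ff ρ h c * 1))
    have b := H.fkegf' (g * k) l 1
    simp only [map_mul, mul_assoc] at a b
    rw [b, H.ege', mul_smul_comm, mul_smul_comm, H.fkegf', H.fkegf', H.fgf', smul_smul, smul_smul,
      mul_one] at a
    rw [a, add_smul]
  · have a := H.split (ee ρ h c * ρ l * ff ρ h c * ρ g) (ρ k * (ee ρ h c * 1))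
    have b := H.egfke' l (g * k) 1
    simp only [map_mul, mul_assoc] at a b
    rw [b, H.fgf', mul_smul_comm, mul_smul_comm, H.egfke', H.egfke', H.ege', smul_smul, smul_smul,
      mul_one] at a
    rw [a, add_smul]
  · have a := H.split (ff ρ h c * ρ g) (ρ k * (ee ρ h c * (ρ l * (ff ρ h c * 1))))
    have b := H.fkegf' l (g * k) 1
    simp only [map_mul, mul_assoc] at a b
    rw [b, H.fgf', H.fkegf', H.ege', mul_smul_comm, mul_smul_comm, H.fkegf', smul_smul, smul_smul,
      mul_one] at a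
    rw [a, add_smul, mul_comm (pa h c t k)]
  · have h1 := H.e_inv_e (g * k)
    have h2 := H.split (ee ρ h c * ρ k⁻¹) (ρ g⁻¹ * ee ρ h c)
    have h3 : d k • d g • (ee ρ h c * ρ k⁻¹ * ee ρ h c * (ρ g⁻¹ * ee ρ h c)) =
        (pd h c t g * pd h c t k) • ee ρ h c := by
      rw [smul_comm, ← smul_mul_assoc, H.e_inv_e, smul_mul_assoc, smul_comm, ← mul_assoc,
        H.e_inv_e, smul_smul, mul_comm]
    have h4 : d k • d g • (ee ρ h c * ρ k⁻¹ * ff ρ h c * (ρ g⁻¹ * ee ρ h c)) =
        px h c t k g • ee ρ h c := by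
      have e1 : ee ρ h c * ρ k⁻¹ * ff ρ h c * (ρ g⁻¹ * ee ρ h c) =
          (ee ρ h c * ρ k⁻¹ * ff ρ h c) * (ff ρ h c * ρ g⁻¹ * ee ρ h c) := by
        simp only [mul_assoc, ff1]
      rw [e1, ← mul_smul_comm, H.f_inv_e, ← smul_mul_assoc, H.e_inv_f, neg_mul_neg, ← H.egfke]
      simp only [mul_assoc, ff1]
    rw [_root_.mul_inv_rev, map_mul, map_mul, mul_comm (d g), mul_smul] at h1
    rw [add_smul, ← h1, ← h3, ← h4]
    simp only [mul_assoc] at h2 ⊢
    rw [h2, smul_add, smul_add, add_comm]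
  · have a := H.split (ff ρ h c * ρ g) (ρ k * (ff ρ h c * 1))
    have b := H.fgf' (g * k) 1
    simp only [map_mul, mul_assoc] at a b
    rw [b, H.fkegf', H.fgf', H.fgf', smul_smul, mul_one] at a
    rw [a, add_smul]
  · rw [← H.egfke, mul_assoc (ee ρ h c * ρ g), H.f_mul_J, mul_neg, neg_mul, mul_assoc, H.f_mul_e,
      mul_zero, neg_zero, zero_smul]
  · rw [← H.fkegf, H.f_mul_J, neg_mul, H.f_mul_e, neg_zero, zero_mul, zero_mul, zero_smul]

section unit
variable {g₀ h₀ : G} {u : T} (hu : px h c t g₀ h₀ * u = 1)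

/-- matrix unit `E₁₂` -/
def e12 (ρ : G →* B) (h : T) (c g₀ : G) : B := ee ρ h c * ρ g₀ * ff ρ h c
/-- matrix unit `E₂₁` -/
def e21 (ρ : G →* B) (h : T) (c h₀ : G) (u : T) : B := u • (ff ρ h c * ρ h₀ * ee ρ h c)

lemma e_e12 : ee ρ h c * e12 ρ h c g₀ = e12 ρ h c g₀ := by
  simp only [e12, ← mul_assoc, H.e_mul_e]
lemma f_e12 : ff ρ h c * e12 ρ h c g₀ = 0 := by
  simp only [e12, ← mul_assoc, H.f_mul_e, zero_mul]
lemma e12_e : e12 ρ h c g₀ * ee ρ h c = 0 := by
  simp only [e12, mul_assoc, H.f_mul_e, mul_zero]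
lemma e12_f : e12 ρ h c g₀ * ff ρ h c = e12 ρ h c g₀ := by
  simp only [e12, mul_assoc, H.f_mul_f]
lemma e_e21 : ee ρ h c * e21 ρ h c h₀ u = 0 := by
  simp only [e21, mul_smul_comm, ← mul_assoc, H.e_mul_f, zero_mul, smul_zero]
lemma f_e21 : ff ρ h c * e21 ρ h c h₀ u = e21 ρ h c h₀ u := by
  simp only [e21, mul_smul_comm, ← mul_assoc, H.f_mul_f]
lemma e21_e : e21 ρ h c h₀ u * ee ρ h c = e21 ρ h c h₀ u := by
  simp only [e21, smul_mul_assoc, mul_assoc, H.e_mul_e]
lemma e21_f : e21 ρ h c h₀ u * ff ρ h c = 0 := by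
  simp only [e21, smul_mul_assoc, mul_assoc, H.e_mul_f, mul_zero, smul_zero]
lemma e12_e12 : e12 ρ h c g₀ * e12 ρ h c g₀ = 0 := by
  rw [← H.e12_f (g₀ := g₀), mul_assoc, H.e12_f, H.f_e12, mul_zero]
lemma e21_e21 : e21 ρ h c h₀ u * e21 ρ h c h₀ u = 0 := by
  rw [← H.e21_e (h₀ := h₀) (u := u), mul_assoc, H.e21_e, H.e_e21, mul_zero]

include hu

lemma e12_e21 : e12 ρ h c g₀ * e21 ρ h c h₀ u = ee ρ h c := by
  have := H.egfke g₀ h₀
  rw [e21, mul_smul_comm, ← mul_assoc, ← mul_assoc, H.e12_f, e12, this, smul_smul, mul_comm, hu,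
    one_smul]
lemma e21_e12 : e21 ρ h c h₀ u * e12 ρ h c g₀ = ff ρ h c := by
  have := H.fkegf g₀ h₀
  rw [e12, ← mul_assoc, ← mul_assoc, H.e21_e, e21, smul_mul_assoc, smul_mul_assoc, this, smul_smul,
    mul_comm, hu, one_smul]

lemma egf (g : G) : ee ρ h c * ρ g * ff ρ h c = (px h c t g h₀ * u) • e12 ρ h c g₀ := by
  conv_lhs => rw [← H.f_mul_f, ← mul_assoc, ← H.e21_e12 hu, ← mul_assoc]
  nth_rewrite 1 [H.e21_e12 hu]
  rw [e21, mul_smul_comm, ← mul_assoc, ← mul_assoc, mul_assoc (ee ρ h c * ρ g), H.f_mul_f,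
    H.egfke, smul_smul, smul_mul_assoc, H.e_e12, mul_comm u]

lemma fge (g : G) : ff ρ h c * ρ g * ee ρ h c = px h c t g₀ g • e21 ρ h c h₀ u := by
  have a : ff ρ h c * ρ g * ee ρ h c =
      e21 ρ h c h₀ u * (e12 ρ h c g₀ * ρ g * ee ρ h c) := by
    rw [← mul_assoc, ← mul_assoc, H.e21_e12 hu]
  rw [a, e12, H.egfke, mul_smul_comm, H.e21_e]

/-- the algebra map `M₂(T) → B` -/
def phi : M2 T →ₐ[T] B :=
  AlgHom.ofLinearMap
    { toFun := fun M => M 0 0 • ee ρ h c + M 0 1 • e12 ρ h c g₀ + M 1 0 • e21 ρ h c h₀ u +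
        M 1 1 • ff ρ h c
      map_add' := fun M N => by simp only [Matrix.add_apply, add_smul]; abel
      map_smul' := fun s M => by
        simp only [Matrix.smul_apply, smul_eq_mul, mul_smul, smul_add, RingHom.id_apply] }
    (by simpa using H.e_add_f)
    (fun M N => by
      simp only [LinearMap.coe_mk, AddHom.coe_mk, mul_apply, Fin.sum_univ_two, add_smul, mul_add,
        add_mul, smul_mul_assoc, mul_smul_comm, H.e_mul_e, H.e_mul_f, H.f_mul_e,
        H.f_mul_f, H.e_e12, H.f_e12, H.e12_e, H.e12_f, H.e_e21, H.f_e21, H.e21_e, H.e21_f,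
        H.e12_e12, H.e21_e21, H.e12_e21 hu, H.e21_e12 hu, smul_zero, add_zero, zero_add]
      module)

lemma phi_apply (M : M2 T) : H.phi hu M = M 0 0 • ee ρ h c + M 0 1 • e12 ρ h c g₀ +
    M 1 0 • e21 ρ h c h₀ u + M 1 1 • ff ρ h c := rfl

/-- `ρ` factors through the representation attached to `t` -/
theorem phi_rep (P : IsPs h c t) (g : G) : H.phi hu (P.rep g₀ h₀ u hu g) = ρ g := by
  rw [phi_apply, IsPs.rep_apply]
  simp only [of_apply, cons_val', cons_val_zero, cons_val_one, cons_val_fin_one]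
  rw [← H.ege, ← H.fgf, ← H.egf hu, ← H.fge hu]
  conv_rhs => rw [← one_mul (ρ g), ← mul_one (1 * ρ g), ← H.e_add_f]
  simp only [add_mul, mul_add]; abel

theorem phi_injective (hB : ∀ s : T, s • (1 : B) = 0 → s = 0) :
    Function.Injective (H.phi hu) := by
  have he : ∀ s : T, s • ee ρ h c = 0 → s = 0 := fun s hs => by
    refine H.ext_ef hB (by rw [hs, zero_smul]) ?_
    rw [zero_smul, ← H.e21_e12 hu, ← H.e_e12, ← mul_smul_comm, ← smul_mul_assoc, hs, zero_mul,
      mul_zero]
  rw [injective_iff_map_eq_zero]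
  intro M hM
  have key : ∀ (i j : Fin 2), M i j = 0 := fun i j => by
    have h1 : (Matrix.single 0 i 1 * M * Matrix.single j 0 1 : M2 T) = !![M i j, 0; 0, 0] := by
      ext a b
      fin_cases a <;> fin_cases b <;> fin_cases i <;> fin_cases j <;>
        simp [mul_apply, Matrix.single]
    have h2 := congrArg (H.phi hu) h1
    rw [map_mul, map_mul, hM, mul_zero, zero_mul, phi_apply] at h2
    apply he
    simpa using h2.symm
  ext i j; exact key i j

theorem det_rep (hB : ∀ s : T, s • (1 : B) = 0 → s = 0) (P : IsPs h c t) (g : G) :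
    (P.rep g₀ h₀ u hu g).det = d g := by
  set σ := P.rep g₀ h₀ u hu with hσ
  have h1 : σ g + d g • σ g⁻¹ = t g • (1 : M2 T) := H.phi_injective hu hB (by
    rw [map_add, map_smul, map_smul, map_one, hσ, H.phi_rep hu, H.phi_rep hu, H.ch])
  have h2 : σ g * σ g⁻¹ = 1 := by rw [← map_mul, mul_inv_cancel, map_one]
  have h3 := congrArg (σ g * ·) h1
  simp only [mul_add, mul_smul_comm, h2, mul_one] at h3
  have h4 := congrFun (congrFun h3 0) 0
  have h5 := P.trace_rep hu g
  rw [← hσ, trace_fin_two] at h5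
  simp only [Matrix.add_apply, mul_apply, Fin.sum_univ_two, Matrix.smul_apply, one_apply_eq,
    smul_eq_mul, mul_one] at h4
  rw [det_fin_two]
  linear_combination σ g 0 0 * h5 - h4

end unit

end CH

/-! ### consumer form: a commutative ring of operators commuting with `G` -/

section consumer
variable {O : Type*} [CommRing O] {E : Type*} [Ring E] [Algebra O E] {R : Type*} [CommRing R]
  [Algebra O R]

/-- **BLR**, in an `O`-algebra `E` (e.g. `Module.End O H`). -/
theorem blr (ρ : G →* E) (ι : R →ₐ[O] E) (hι : Function.Injective ι)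
    (hcomm : ∀ s g, ι s * ρ g = ρ g * ι s) (d : G →* R) (t : G → R)
    (hCH : ∀ g, ρ g + ι (d g) * ρ g⁻¹ = ι (t g)) {h : R} (h2 : 2 * h = 1) {c : G}
    (hc : c * c = 1) (hd : d c = -1) :
    ∃ P : IsPs h c t, ∀ (g₀ h₀ : G) (u : R) (hu : px h c t g₀ h₀ * u = 1),
      (∀ g, (P.rep g₀ h₀ u hu g).det = d g) ∧
      ∃ Φ : M2 R →ₐ[O] E, Function.Injective Φ ∧ (∀ g, Φ (P.rep g₀ h₀ u hu g) = ρ g) ∧
        ∀ s, Φ (s • 1) = ι s := by
  let C : Subalgebra O E := Subalgebra.centralizer O (Set.range ι)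
  have hιC : ∀ s, ι s ∈ C := fun s => by
    rw [Subalgebra.mem_centralizer_iff]
    rintro _ ⟨s', rfl⟩
    rw [← map_mul, mul_comm, map_mul]
  have hρC : ∀ g, ρ g ∈ C := fun g => by
    rw [Subalgebra.mem_centralizer_iff]
    rintro _ ⟨s', rfl⟩
    exact hcomm s' g
  let ι' : R →ₐ[O] C := ι.codRestrict C hιC
  let _ : Algebra R C := ι'.toRingHom.toAlgebra' fun s x => Subtype.ext
    ((Subalgebra.mem_centralizer_iff O).1 x.2 _ ⟨s, rfl⟩)
  have hsm : ∀ (s : R) (x : C), ((s • x : C) : E) = ι s * x := fun s x => rfl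
  have _ : IsScalarTower O R C := IsScalarTower.of_algebraMap_eq fun r => (ι'.commutes r).symm
  let ρ' : G →* C := ρ.codRestrict C.toSubmonoid hρC
  have H : CH ρ' d t h c := ⟨fun g => Subtype.ext (by
    rw [hsm, Subalgebra.coe_add, hsm, Subalgebra.coe_one, mul_one]; exact hCH g), h2, hc, hd⟩
  have hB : ∀ s : R, s • (1 : C) = 0 → s = 0 := fun s hs => hι (by
    have := congrArg Subtype.val hs
    rwa [hsm, Subalgebra.coe_one, mul_one, Subalgebra.coe_zero, ← map_zero ι] at this)
  refine ⟨H.isPs hB, fun g₀ h₀ u hu => ⟨H.det_rep hu hB _, C.val.comp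
    ((H.phi hu).restrictScalars O), Subtype.val_injective.comp (H.phi_injective hu hB),
    fun g => ?_, fun s => ?_⟩⟩
  · exact congrArg Subtype.val (H.phi_rep hu _ g)
  · show ((H.phi hu (s • 1) : C) : E) = ι s
    rw [map_smul, map_one, hsm, Subalgebra.coe_one, mul_one]

variable {H : Type*} [AddCommGroup H] [Module O H]

/-- a vector as the first column of a matrix -/
def col0 (w : Fin 2 → R) : M2 R := !![w 0, 0; w 1, 0]

lemma col0_mulVec (M : M2 R) (w : Fin 2 → R) : col0 (M *ᵥ w) = M * col0 w := by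
  ext i j
  fin_cases i <;> fin_cases j <;> simp [col0, mul_apply, mulVec, dotProduct, Fin.sum_univ_two]

/-- the map `R² → H` attached to `v ∈ H` -/
def emb (Φ : M2 R →ₐ[O] Module.End O H) (v : H) : (Fin 2 → R) →ₗ[O] H where
  toFun w := Φ (col0 w) v
  map_add' w w' := by
    rw [← LinearMap.add_apply, ← map_add]; congr 2
    ext i j; fin_cases i <;> fin_cases j <;> simp [col0]
  map_smul' r w := by
    rw [RingHom.id_apply, ← LinearMap.smul_apply, ← map_smul]; congr 2
    ext i j; fin_cases i <;> fin_cases j <;> simp [col0]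

lemma emb_mulVec (Φ : M2 R →ₐ[O] Module.End O H) (v : H) (M : M2 R) (w : Fin 2 → R) :
    emb Φ v (M *ᵥ w) = Φ M (emb Φ v w) := by
  show Φ (col0 (M *ᵥ w)) v = _
  rw [col0_mulVec, map_mul]; rfl

lemma emb_smul (Φ : M2 R →ₐ[O] Module.End O H) (v : H) (s : R) (w : Fin 2 → R) :
    emb Φ v (s • w) = Φ (s • 1) (emb Φ v w) := by
  rw [← emb_mulVec, smul_mulVec, one_mulVec]

/-- `R²` embeds in `H^κ` -/
theorem emb_injective {Φ : M2 R →ₐ[O] Module.End O H} (hΦ : Function.Injective Φ) {κ : Type*}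
    {v : κ → H} (hv : Submodule.span O (Set.range v) = ⊤) :
    Function.Injective (LinearMap.pi fun i => emb Φ (v i)) := by
  rw [injective_iff_map_eq_zero]
  intro w hw
  have h1 : Φ (col0 w) = 0 := LinearMap.ext_on_range hv fun i => congrFun hw i
  have h2 : col0 w = 0 := hΦ (by rw [h1, map_zero])
  ext i
  fin_cases i
  · simpa [col0] using congrFun (congrFun h2 0) 0
  · simpa [col0] using congrFun (congrFun h2 1) 0

/-- every vector of `H` is a sum of two vectors in images of `R²` -/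
theorem emb_sum (Φ : M2 R →ₐ[O] Module.End O H) (v : H) :
    emb Φ v ![1, 0] + emb Φ (Φ !![0, 1; 0, 0] v) ![0, 1] = v := by
  show Φ (col0 _) v + (Φ (col0 _) * Φ _) v = v
  rw [← map_mul, ← LinearMap.add_apply, ← map_add]
  have : (col0 ![1, 0] + col0 ![0, 1] * !![0, 1; 0, 0] : M2 R) = 1 := by
    ext i j; fin_cases i <;> fin_cases j <;> simp [col0]
  rw [this, map_one, Module.End.one_apply]

/-- **BLR on a module**, residually irreducible local case: the representation `σ` over `R`, its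
trace, determinant, kernel, residual representation, and the equivariant maps `R² → H`, jointly
injective and jointly surjective. -/
theorem blr_mod {k : Type*} [Field k] (π : R →+* k) [IsLocalHom π] {ρ₀ : G →* M2 k} (hirr : Irr ρ₀)
    (ρ : G →* Module.End O H) (ι : R →ₐ[O] Module.End O H) (hι : Function.Injective ι)
    (hcomm : ∀ s g, ι s * ρ g = ρ g * ι s) (d : G →* R) (t : G → R)
    (hCH : ∀ g, ρ g + ι (d g) * ρ g⁻¹ = ι (t g)) (ht : ∀ g, π (t g) = (ρ₀ g).trace)
    {h : R} (h2 : 2 * h = 1) {c : G} (hc : c * c = 1) (hd : d c = -1) :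
    ∃ (σ : G →* M2 R) (P : GL (Fin 2) k) (j : H → (Fin 2 → R) →ₗ[O] H),
      (∀ g, (σ g).trace = t g) ∧ (∀ g, (σ g).det = d g) ∧ σ c = !![1, 0; 0, -1] ∧
      (∀ g g', σ g = σ g' ↔ ρ g = ρ g') ∧ (∀ g, (σ g).map π = conj ρ₀ P g) ∧
      (∀ v g w, j v (σ g *ᵥ w) = ρ g (j v w)) ∧ (∀ v s w, j v (s • w) = ι s (j v w)) ∧
      (∀ (S : Set H), Submodule.span O S = ⊤ → ∀ w, (∀ v ∈ S, j v w = 0) → w = 0) ∧
      ∃ b : Module.End O H, ∀ v, j v ![1, 0] + j (b v) ![0, 1] = v := by
  obtain ⟨P, hP⟩ := blr ρ ι hι hcomm d t hCH h2 hc hd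
  obtain ⟨g₀, h₀, hx⟩ := exists_unit π hirr ht h2 hc P.tc
  obtain ⟨u, hu⟩ := hx.exists_right_inv
  obtain ⟨hdet, Φ, hΦ, hρ, hs⟩ := hP g₀ h₀ u hu
  have h5 : 2 * π h = 1 := by simpa [map_ofNat] using congrArg π h2
  obtain ⟨Q, hQ⟩ := conj_of_trace_eq ρ₀ (π.mapMatrix.toMonoidHom.comp (P.rep g₀ h₀ u hu))
    (fun g => by rw [← ht, ← P.trace_rep hu]; simp [trace_fin_two]) h5 hc
    (by rw [← ht, P.tc, map_zero]) (g₀ := g₀) (h₀ := h₀) (by
      rw [← show π ∘ t = fun g => (ρ₀ g).trace from funext ht, ← map_px]; exact hx.map π)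
  refine ⟨P.rep g₀ h₀ u hu, Q, emb Φ, P.trace_rep hu, hdet, P.rep_c hu, fun g g' => ?_,
    fun g => by rw [hQ]; rfl, fun v g w => by rw [emb_mulVec, hρ],
    fun v s w => by rw [emb_smul, hs], fun S hS w hw => ?_, Φ !![0, 1; 0, 0], emb_sum Φ⟩
  · rw [← hρ, ← hρ, hΦ.eq_iff]
  · refine (injective_iff_map_eq_zero _).1
      (emb_injective hΦ (v := ((↑) : S → H)) (by rwa [Subtype.range_coe])) w ?_
    ext i; exact hw i i.2

end consumer

/-! ### where the hypothesis comes from -/

section source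
variable {E : Type*} [Ring E]

/-- the operator `g + D(g) g⁻¹` -/
def tr (ρ D : G →* E) (g : G) : E := ρ g + D g * ρ g⁻¹



end source

end Crest.Agent.T15.Blr

end
end

-- ▼ part T15/Tr_78
section

/-!
# Row 15, block R (helper78): the trace ring at finite level

`H` is a faithful `A`-module with a commuting action of `G` and the Cayley–Hamilton identity,
`ρ : G → M₂(C)` a second representation with the same residual representation.  After a twist by
`χ` both have determinant `ψ`.  The ring `trRing ⊆ A × C` generated by the pairs of traces is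
local and carries `σ : G → M₂(trRing)`, which embeds in a power of `H × C²`.
-/

set_option autoImplicit false

noncomputable section

namespace Crest.Agent.T15.Blr

open Matrix Crest.Agent.T15.Ps

variable {G : Type*} [Group G] (O : Type*) [CommRing O] {A C : Type*} [CommRing A] [CommRing C]
  [Algebra O A] [Algebra O C] {H : Type*} [AddCommGroup H] [Module O H] [Module A H]
  [IsScalarTower O A H]

/-- matrices acting on column vectors -/
def act (ρ : G →* M2 C) : G →* Module.End O (Fin 2 → C) where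
  toFun g := (ρ g).mulVecLin.restrictScalars O
  map_one' := LinearMap.ext fun v => by simp
  map_mul' g k := LinearMap.ext fun v => by simp

@[simp] lemma act_apply (ρ : G →* M2 C) (g : G) (v : Fin 2 → C) : act O ρ g v = ρ g *ᵥ v := rfl

variable {O}

/-- twist of an action by a character -/
def tw (χ : G →* A) (ρH : G →* Module.End O H) (hc : ∀ g (a : A) v, ρH g (a • v) = a • ρH g v) :
    G →* Module.End O H where
  toFun g := Algebra.lsmul O O H (χ g) * ρH g
  map_one' := by simp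
  map_mul' g k := by
    ext1 v
    simp only [map_mul, Module.End.mul_apply, Algebra.lsmul_coe, hc]

@[simp] lemma tw_apply (χ : G →* A) (ρH : G →* Module.End O H)
    (hc : ∀ g (a : A) v, ρH g (a • v) = a • ρH g v) (g : G) (v : H) :
    tw χ ρH hc g v = χ g • ρH g v := rfl

/-- product of two actions -/
def prodAct {H' : Type*} [AddCommGroup H'] [Module O H'] (ρ₁ : G →* Module.End O H)
    (ρ₂ : G →* Module.End O H') : G →* Module.End O (H × H') where
  toFun g := (ρ₁ g).prodMap (ρ₂ g)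
  map_one' := by ext1 <;> simp
  map_mul' g k := by simp [LinearMap.prodMap_mul]

omit [Module A H] [IsScalarTower O A H] in
@[simp] lemma prodAct_apply {H' : Type*} [AddCommGroup H'] [Module O H'] (ρ₁ : G →* Module.End O H)
    (ρ₂ : G →* Module.End O H') (g : G) (v : H × H') :
    prodAct ρ₁ ρ₂ g v = (ρ₁ g v.1, ρ₂ g v.2) := rfl

/-- a character of odd order has an inverse square root -/
lemma exists_sqrt_inv {M : Type*} [CommMonoid M] (δ : G →* M) {m : ℕ} (hm : Odd m)
    (h : ∀ g, δ g ^ m = 1) : ∃ χ : G →* M, (∀ g, χ g = δ g ^ (m / 2)) ∧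
      (∀ g, χ g ^ 2 * δ g = 1) ∧ ∀ g, χ g ^ m = 1 := by
  obtain ⟨a, rfl⟩ := hm
  have e : (2 * a + 1) / 2 = a := by omega
  refine ⟨(powMonoidHom a).comp δ, fun g => by rw [e]; rfl, fun g => ?_, fun g => ?_⟩
  · rw [← h g, MonoidHom.comp_apply, powMonoidHom_apply, ← pow_mul, pow_succ, mul_comm a]
  · rw [MonoidHom.comp_apply, powMonoidHom_apply, ← pow_mul, mul_comm, pow_mul, h, one_pow]

variable (O) in
/-- the trace ring -/
def trRing (t : G → A) (ρ : G →* M2 C) : Subalgebra O (A × C) :=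
  Algebra.adjoin O (Set.range fun g => (t g, (ρ g).trace))

variable {t : G → A} {ρ : G →* M2 C}

variable (O t ρ) in
/-- the generators -/
def trT (g : G) : trRing O t ρ := ⟨(t g, (ρ g).trace), Algebra.subset_adjoin ⟨g, rfl⟩⟩
variable (O t ρ) in
/-- the map to the Hecke side -/
def trAl : trRing O t ρ →ₐ[O] A := (AlgHom.fst O A C).comp (trRing O t ρ).val
variable (O t ρ) in
/-- the point -/
def trX : trRing O t ρ →ₐ[O] C := (AlgHom.snd O A C).comp (trRing O t ρ).val

@[simp] lemma trAl_trT (g : G) : trAl O t ρ (trT O t ρ g) = t g := rfl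
@[simp] lemma trX_trT (g : G) : trX O t ρ (trT O t ρ g) = (ρ g).trace := rfl

lemma tr_ext {r s : trRing O t ρ} (h1 : trAl O t ρ r = trAl O t ρ s)
    (h2 : trX O t ρ r = trX O t ρ s) : r = s := Subtype.ext (Prod.ext h1 h2)

lemma adjoin_trT : Algebra.adjoin O (Set.range (trT O t ρ)) = ⊤ := by
  apply Subalgebra.map_injective (f := (trRing O t ρ).val) Subtype.val_injective
  rw [AlgHom.map_adjoin, ← Set.range_comp, Algebra.map_top, Subalgebra.range_val]
  rfl


lemma tr_nil {r : trRing O t ρ} (h1 : IsNilpotent (trAl O t ρ r))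
    (h2 : IsNilpotent (trX O t ρ r)) : IsNilpotent r := by
  obtain ⟨m, hm⟩ := h1
  obtain ⟨n, hn⟩ := h2
  refine ⟨m + n, tr_ext ?_ ?_⟩
  · rw [map_pow, pow_add, hm, zero_mul, map_zero]
  · rw [map_pow, pow_add, hn, mul_zero, map_zero]

instance trFinite [IsNoetherianRing O] [Module.Finite O A] [Module.Finite O C] :
    Module.Finite O (trRing O t ρ) :=
  Module.Finite.of_injective (trRing O t ρ).val.toLinearMap Subtype.val_injective

section loc
variable {k : Type*} [Field k] [Algebra O k] (πC : C →ₐ[O] k)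
  (hnil : ∀ g, ∃ a : O, IsNilpotent (t g - algebraMap O A a) ∧ algebraMap O k a = πC (ρ g).trace)
include hnil

lemma tr_approx (r : trRing O t ρ) :
    ∃ a : O, IsNilpotent (trAl O t ρ r - algebraMap O A a) ∧
      algebraMap O k a = πC (trX O t ρ r) := by
  have hr : r ∈ Algebra.adjoin O (Set.range (trT O t ρ)) := by rw [adjoin_trT]; trivial
  induction hr using Algebra.adjoin_induction with
  | mem x hx => obtain ⟨g, rfl⟩ := hx; exact hnil g
  | algebraMap a => exact ⟨a, by simp, by simp⟩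
  | add x y _ _ hx hy =>
    obtain ⟨a, ha, ha'⟩ := hx
    obtain ⟨b, hb, hb'⟩ := hy
    refine ⟨a + b, ?_, by simp [ha', hb']⟩
    have := (Commute.all _ _).isNilpotent_add ha hb
    convert this using 1
    simp only [map_add]; ring
  | mul x y _ _ hx hy =>
    obtain ⟨a, ha, ha'⟩ := hx
    obtain ⟨b, hb, hb'⟩ := hy
    refine ⟨a * b, ?_, by simp [ha', hb']⟩
    have := (Commute.all _ _).isNilpotent_add
      ((Commute.all _ (trAl O t ρ y)).isNilpotent_mul_right ha)
      ((Commute.all (algebraMap O A a) _).isNilpotent_mul_left hb)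
    convert this using 1
    simp only [map_mul]; ring

variable (hA : ∀ a : O, algebraMap O k a = 0 → IsNilpotent (algebraMap O A a))
  (hC : ∀ z, πC z = 0 → IsNilpotent z)
include hA hC

/-- the kernel of the residue map is nil -/
lemma tr_nil_of (r : trRing O t ρ) (hr : πC (trX O t ρ r) = 0) : IsNilpotent r := by
  obtain ⟨a, ha, ha'⟩ := tr_approx πC hnil r
  refine tr_nil ?_ (hC _ hr)
  simpa using (Commute.all _ _).isNilpotent_add ha (hA a (ha'.trans hr))

lemma tr_isLocalHom [IsLocalHom (algebraMap O k)] :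
    IsLocalHom (πC.comp (trX O t ρ)).toRingHom := by
  refine ⟨fun r hr => ?_⟩
  obtain ⟨a, -, ha'⟩ := tr_approx πC hnil r
  have h1 : IsUnit a := isUnit_of_map_unit (algebraMap O k) a (ha' ▸ hr)
  have h2 := tr_nil_of πC hnil hA hC (r - algebraMap O _ a) (by simp [ha'])
  simpa using h2.isUnit_add_right_of_commute (h1.map (algebraMap O _)) (Commute.all _ _)

lemma tr_isLocalRing [IsLocalHom (algebraMap O k)] : IsLocalRing (trRing O t ρ) :=
  haveI := tr_isLocalHom πC hnil hA hC
  RingHom.domain_isLocalRing (πC.comp (trX O t ρ)).toRingHom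

end loc

variable (O H t ρ) in
/-- the trace ring acts on `H × C²` -/
def trAct : trRing O t ρ →ₐ[O] Module.End O (H × (Fin 2 → C)) :=
  (LinearMap.prodMapAlgHom O H (Fin 2 → C)).comp
    (((Algebra.lsmul O O H).comp (trAl O t ρ)).prod
      ((Algebra.lsmul O O (Fin 2 → C)).comp (trX O t ρ)))

lemma trAct_apply (r : trRing O t ρ) (v : H × (Fin 2 → C)) :
    trAct O H t ρ r v = (trAl O t ρ r • v.1, trX O t ρ r • v.2) := rfl

lemma ch_mat {d : C} {M M' : M2 C} (h : M * M' = 1) (hd : M.det = d) :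
    M + d • M' = M.trace • (1 : M2 C) := by
  have h1 : d • M' = M.adjugate := by
    rw [← one_mul M', ← smul_mul_assoc, ← hd, ← adjugate_mul, mul_assoc, h, mul_one]
  rw [h1, adjugate_fin_two, trace_fin_two]
  ext i j
  fin_cases i <;> fin_cases j <;> simp [add_comm]

/-- **the representation over the trace ring** -/
theorem trace_ring {k : Type*} [Field k] [Algebra O k] [IsLocalHom (algebraMap O k)]
    (ρH : G →* Module.End O H) (hfaith : ∀ a : A, (∀ v : H, a • v = 0) → a = 0)
    (hc : ∀ g (a : A) v, ρH g (a • v) = a • ρH g v) (ψ : G →* O)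
    (hCH : ∀ g v, ρH g v + ψ g • ρH g⁻¹ v = t g • v)
    (hdet : ∀ g, (ρ g).det = algebraMap O C (ψ g)) (πC : C →ₐ[O] k)
    (hnil : ∀ g, ∃ a : O, IsNilpotent (t g - algebraMap O A a) ∧ algebraMap O k a = πC (ρ g).trace)
    (hA : ∀ a : O, algebraMap O k a = 0 → IsNilpotent (algebraMap O A a))
    (hC : ∀ z, πC z = 0 → IsNilpotent z) {ρ₀ : G →* M2 k} (hirr : Irr ρ₀)
    (hρ₀ : ∀ g, πC (ρ g).trace = (ρ₀ g).trace) {h : O} (h2 : 2 * h = 1) {c : G} (hcc : c * c = 1)
    (hψ : ψ c = -1) :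
    ∃ (σ : G →* M2 (trRing O t ρ)) (P : GL (Fin 2) k)
      (j : H × (Fin 2 → C) → (Fin 2 → trRing O t ρ) →ₗ[O] H × (Fin 2 → C)),
      (∀ g, (σ g).trace = trT O t ρ g) ∧ (∀ g, (σ g).det = algebraMap O _ (ψ g)) ∧
      σ c = !![1, 0; 0, -1] ∧ (∀ g g', σ g = σ g' ↔ ρH g = ρH g' ∧ ρ g = ρ g') ∧
      (∀ g, (σ g).map (πC.comp (trX O t ρ)) = conj ρ₀ P g) ∧
      (∀ v g w, j v (σ g *ᵥ w) = prodAct ρH (act O ρ) g (j v w)) ∧
      (∀ v s w, j v (s • w) = trAct O H t ρ s (j v w)) ∧
      (∀ S : Set (H × (Fin 2 → C)), Submodule.span O S = ⊤ → ∀ w, (∀ v ∈ S, j v w = 0) → w = 0) := by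
  have := tr_isLocalHom πC hnil hA hC
  obtain ⟨σ, P, j, h1, h3, h4, h5, h6, h7, h8, h9, -⟩ := blr_mod (πC.comp (trX O t ρ)).toRingHom hirr
    (prodAct ρH (act O ρ)) (trAct O H t ρ) (by
      rw [injective_iff_map_eq_zero]
      intro r hr
      refine tr_ext ?_ ?_
      · rw [map_zero]
        exact hfaith _ fun v => congrArg Prod.fst (LinearMap.congr_fun hr (v, 0))
      · have := congrFun (congrArg Prod.snd (LinearMap.congr_fun hr (0, fun _ => 1))) 0
        simpa [trAct_apply] using this)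
    (fun s g => LinearMap.ext fun v => by simp [trAct_apply, hc, mulVec_smul])
    ((algebraMap O (trRing O t ρ)).toMonoidHom.comp ψ) (trT O t ρ) (fun g => by
      refine LinearMap.ext fun v => Prod.ext ?_ ?_
      · simpa [trAct_apply] using hCH g v.1
      · have := congrArg (· *ᵥ v.2) (ch_mat (M := ρ g) (M' := ρ g⁻¹)
          (by rw [← map_mul, mul_inv_cancel, map_one]) (hdet g))
        simpa [trAct_apply, add_mulVec, smul_mulVec] using this)
    hρ₀ (h := algebraMap O _ h) (by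
      simpa only [map_mul, map_ofNat, map_one] using congrArg (algebraMap O (trRing O t ρ)) h2) hcc
    (by simp [hψ])
  refine ⟨σ, P, j, h1, h3, h4, fun g g' => ?_, h6, h7, h8, h9⟩
  rw [h5]
  constructor
  · intro e
    refine ⟨LinearMap.ext fun v => congrArg Prod.fst (LinearMap.congr_fun e (v, 0)), ?_⟩
    refine Matrix.ext_of_mulVec_single fun i => ?_
    exact congrArg Prod.snd (LinearMap.congr_fun e (0, Pi.single i 1))
  · rintro ⟨e1, e2⟩
    exact LinearMap.ext fun v => by simp [e1, e2]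

/-- the twisted Cayley–Hamilton identity -/
lemma tw_ch (ρH : G →* Module.End O H) (hc : ∀ g (a : A) v, ρH g (a • v) = a • ρH g v)
    (D χ : G →* A) (t : G → A) (hCH : ∀ g v, ρH g v + D g • ρH g⁻¹ v = t g • v) (ψ : G →* O)
    (hχ : ∀ g, χ g ^ 2 * D g = algebraMap O A (ψ g)) (g : G) (v : H) :
    tw χ ρH hc g v + ψ g • tw χ ρH hc g⁻¹ v = (χ g * t g) • v := by
  have e : χ g * χ g⁻¹ = 1 := by rw [← map_mul, mul_inv_cancel, map_one]
  rw [tw_apply, tw_apply, mul_smul, ← hCH, smul_add, ← algebraMap_smul A (ψ g), ← hχ, smul_smul,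
    smul_smul]
  congr 2
  linear_combination χ g * D g * e

lemma tw_comm (ρH : G →* Module.End O H) (hc : ∀ g (a : A) v, ρH g (a • v) = a • ρH g v)
    (χ : G →* A) (g : G) (a : A) (v : H) : tw χ ρH hc g (a • v) = a • tw χ ρH hc g v := by
  rw [tw_apply, tw_apply, hc, smul_comm]

/-! ### the `p`-torsion quotient seen by the tangent space -/

section torsion
variable {R X : Type*} [CommRing R] [Algebra O R] [AddCommGroup X] [Module O X]


variable {k : Type*} [CommRing k] [Algebra R k] [Algebra O k]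

lemma bar_eq_one_of_cong (σ : G →* M2 R) {p : ℕ} (hp : (p : k) = 0) {g : G} {M : M2 R}
    (h : σ g = 1 + p • M) : bar k σ g = 1 := by
  ext a b
  rw [bar_apply, h, map_apply, Matrix.add_apply, Matrix.smul_apply, map_add, map_nsmul,
    nsmul_eq_mul, hp, zero_mul, add_zero, one_apply, one_apply]
  split_ifs <;> simp

lemma phi_eq_zero_of_cong (σ : G →* M2 R) (D : Derivation O R k) {p : ℕ} (hp : (p : k) = 0) {g : G}
    {M : M2 R} (h : σ g = 1 + p • M) : phi σ D g = 0 := by
  ext a b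
  rw [phi, h, map_apply, Matrix.add_apply, Matrix.smul_apply, map_add, map_nsmul, nsmul_eq_mul, hp,
    zero_mul, add_zero, one_apply]
  split_ifs <;> simp

end torsion

end Crest.Agent.T15.Blr

end
end

-- ▼ part T15/Tan2_28
section

/-!
# Row 15, block R (helper28): generators relative to given elements

If the derivations killing `u j` form a space of dimension `≤ r`, then `R = O[x₁, …, x_r, u]`.
-/

set_option autoImplicit false

noncomputable section

namespace Crest.Agent.T15.Ps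

open IsLocalRing TensorProduct Module

/-- derivations killing the elements `u j` -/
def Dk (O : Type*) {R : Type*} (k : Type*) [CommRing O] [CommRing R] [CommRing k] [Algebra O R]
    [Algebra R k] [Algebra O k] {κ : Type*} (u : κ → R) : Submodule k (Derivation O R k) where
  carrier := {D | ∀ j, D (u j) = 0}
  add_mem' ha hb j := by simp [ha j, hb j]
  zero_mem' j := rfl
  smul_mem' a D h j := by simp [h j]

variable {O R : Type*} [CommRing O] [IsLocalRing O] [CommRing R] [Algebra O R]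
  [Algebra R (ResidueField O)] [IsScalarTower O R (ResidueField O)]

theorem finite_der [Module.Finite O R] :
    Module.Finite (ResidueField O) (Derivation O R (ResidueField O)) := by
  let E : Derivation O R (ResidueField O) →ₗ[ResidueField O]
      Dual (ResidueField O) (ResidueField O ⊗[O] R) :=
    { toFun := fun D => LinearMap.liftBaseChangeEquiv (ResidueField O) D.toLinearMap
      map_add' := fun D D' => by rw [← map_add]; rfl
      map_smul' := fun a D => by rw [RingHom.id_apply, ← map_smul]; rfl }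
  refine Module.Finite.of_injective E fun D D' h => ?_
  have := (LinearMap.liftBaseChangeEquiv (ResidueField O)).injective h
  exact Derivation.ext fun y => DFunLike.congr_fun this y

theorem exists_cot_gens_rel [Module.Finite O R] {κ : Type*} (u : κ → R) {r : ℕ}
    (hr : finrank (ResidueField O) (Dk O (ResidueField O) u) ≤ r) :
    ∃ x : Fin r → R, (∀ i, algebraMap R (ResidueField O) (x i) = 0) ∧
      ∀ y : R, ∃ a ∈ Algebra.adjoin O (Set.range x ∪ Set.range u),
        y - a ∈ RingHom.ker (algebraMap R (ResidueField O)) ^ 2 := by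
  classical
  set m := RingHom.ker (algebraMap R (ResidueField O)) with hm
  set J : Submodule O R := (m ^ 2).restrictScalars O ⊔ Submodule.span O (insert 1 (Set.range u))
    with hJ
  have h1 : (1 : R) ∈ J := Submodule.mem_sup_right (Submodule.subset_span (Set.mem_insert _ _))
  have h1u : ∀ j, u j ∈ J := fun j =>
    Submodule.mem_sup_right (Submodule.subset_span (Set.mem_insert_of_mem _ ⟨j, rfl⟩))
  have h2 : ∀ x ∈ m ^ 2, x ∈ J := fun x hx => Submodule.mem_sup_left hx
  let F : Dual (ResidueField O) (ResidueField O ⊗[O] (R ⧸ J)) →ₗ[ResidueField O]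
      Dk O (ResidueField O) u :=
    { toFun := fun l => ⟨derOf
        (((LinearMap.liftBaseChangeEquiv (ResidueField O)).symm l).comp J.mkQ)
        (by simp [(Submodule.Quotient.mk_eq_zero J).2 h1])
        (fun x hx => by simp [(Submodule.Quotient.mk_eq_zero J).2 (h2 x hx)]), fun j => by
          change l (1 ⊗ₜ J.mkQ (u j)) = 0
          simp [(Submodule.Quotient.mk_eq_zero J).2 (h1u j)]⟩
      map_add' := fun l l' => by ext y; rfl
      map_smul' := fun a l => by ext y; rfl }
  have hF : Function.Injective F := (injective_iff_map_eq_zero _).2 fun l hl => by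
    have h3 : (LinearMap.liftBaseChangeEquiv (ResidueField O)).symm l = 0 := by
      refine Submodule.linearMap_qext _ (LinearMap.ext fun y => ?_)
      exact DFunLike.congr_fun (congrArg Subtype.val hl) y
    exact (LinearEquiv.map_eq_zero_iff _).1 h3
  have hfin := finite_der (O := O) (R := R)
  have hle := (LinearMap.finrank_le_finrank_of_injective hF).trans hr
  rw [Subspace.dual_finrank_eq] at hle
  set s := finrank (ResidueField O) (ResidueField O ⊗[O] (R ⧸ J)) with hs
  let b := Module.finBasis (ResidueField O) (ResidueField O ⊗[O] (R ⧸ J))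
  have hw : ∀ i, ∃ y : R, algebraMap R (ResidueField O) y = 0 ∧
      (1 : ResidueField O) ⊗ₜ[O] J.mkQ y = b i := fun i => by
    obtain ⟨w, hw⟩ := TensorProduct.mk_surjective O (R ⧸ J) (ResidueField O)
      Ideal.Quotient.mk_surjective (b i)
    obtain ⟨y, rfl⟩ := J.mkQ_surjective w
    obtain ⟨o, ho⟩ := exists_sub_mem_ker (O := O) y
    refine ⟨_, ho, ?_⟩
    have : J.mkQ (algebraMap O R o) = 0 := (Submodule.Quotient.mk_eq_zero J).2 (by
      rw [Algebra.algebraMap_eq_smul_one]; exact J.smul_mem _ h1)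
    rw [map_sub, this, sub_zero]
    exact hw
  choose y hy0 hy using hw
  have hspan := span_eq_top_of_tmul_eq_basis (fun i => J.mkQ (y i)) b hy
  refine ⟨fun i => if h : (i : ℕ) < s then y ⟨i, h⟩ else 0, fun i => ?_, fun z => ?_⟩
  · dsimp only; split_ifs <;> simp [hy0]
  set A := Algebra.adjoin O
    ((Set.range fun i : Fin r => if h : (i : ℕ) < s then y ⟨i, h⟩ else 0) ∪ Set.range u)
  have hyA : ∀ i, y i ∈ A := fun i =>
    Algebra.subset_adjoin (Or.inl ⟨⟨i, lt_of_lt_of_le i.2 hle⟩, dif_pos i.2⟩)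
  obtain ⟨c, hc⟩ := (Submodule.mem_span_range_iff_exists_fun O).1
    (hspan ▸ Submodule.mem_top : J.mkQ z ∈ Submodule.span O (Set.range fun i => J.mkQ (y i)))
  have h3 : z - ∑ i, c i • y i ∈ J := by
    rw [← Submodule.Quotient.eq J]
    change J.mkQ z = J.mkQ _
    rw [← hc, map_sum]; simp only [map_smul]
  obtain ⟨p, hp, v, hv, huv⟩ := Submodule.mem_sup.1 h3
  have hvA : v ∈ A := by
    refine (Submodule.span_le (p := Subalgebra.toSubmodule A)).2 ?_ hv
    rintro _ (rfl | h)
    · exact A.one_mem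
    · exact Algebra.subset_adjoin (Or.inr h)
  refine ⟨∑ i, c i • y i + v, A.add_mem (A.sum_mem fun i _ => A.smul_mem (hyA i) _) hvA, ?_⟩
  have : z - (∑ i, c i • y i + v) = p := by rw [← sub_sub, ← huv]; simp
  rw [this]; exact hp

theorem exists_gens_rel' [Module.Finite O R] {κ : Type*} (u : κ → R) {r N : ℕ}
    (hN : RingHom.ker (algebraMap R (ResidueField O)) ^ N ≤ (maximalIdeal O).map (algebraMap O R))
    (hr : finrank (ResidueField O) (Dk O (ResidueField O) u) ≤ r) :
    ∃ x : Fin r → R, (∀ i, algebraMap R (ResidueField O) (x i) = 0) ∧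
      Algebra.adjoin O (Set.range x ∪ Set.range u) = ⊤ := by
  obtain ⟨x, h0, h1⟩ := exists_cot_gens_rel u hr
  refine ⟨x, h0, ?_⟩
  have h2 := exists_sub_mem_pow (Algebra.adjoin O (Set.range x ∪ Set.range u)).toSubring _ h1 N
  have h3 : (⊤ : Submodule O R) ≤
      Subalgebra.toSubmodule (Algebra.adjoin O (Set.range x ∪ Set.range u)) := by
    refine Submodule.le_of_le_smul_of_le_jacobson_bot (I := maximalIdeal O) Module.Finite.fg_top
      (jacobson_eq_maximalIdeal _ bot_ne_top).ge fun y _ => ?_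
    obtain ⟨a, ha, h4⟩ := h2 y
    refine Submodule.mem_sup.2 ⟨a, ha, y - a, ?_, by ring⟩
    rw [Ideal.smul_top_eq_map]
    exact hN h4
  exact top_le_iff.1 fun y _ => h3 Submodule.mem_top

lemma ker_eq_maximalIdeal [IsLocalRing R] :
    RingHom.ker (algebraMap R (ResidueField O)) = maximalIdeal R :=
  eq_maximalIdeal (RingHom.ker_isMaximal_of_surjective _ fun z => by
    obtain ⟨o, rfl⟩ := residue_surjective z
    exact ⟨algebraMap O R o, (IsScalarTower.algebraMap_apply O R _ o).symm⟩)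

omit [Algebra R (ResidueField O)] [IsScalarTower O R (ResidueField O)] in
lemma exists_pow_le [Module.Finite O R] [IsLocalRing R] :
    ∃ N, maximalIdeal R ^ N ≤ (maximalIdeal O).map (algebraMap O R) := by
  have : IsArtinianRing (R ⧸ (maximalIdeal O).map (algebraMap O R)) := by
    let _ := Ideal.Quotient.field (maximalIdeal O)
    have : Module.Finite (O ⧸ maximalIdeal O) (R ⧸ (maximalIdeal O).map (algebraMap O R)) :=
      Module.Finite.of_restrictScalars_finite O _ _
    exact IsArtinianRing.of_finite (O ⧸ maximalIdeal O) _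
  exact exists_maximalIdeal_pow_le_of_isArtinianRing_quotient _

/-- **generators relative to `u`** -/
theorem exists_gens_rel [Module.Finite O R] [IsLocalRing R] {κ : Type*} (u : κ → R) {r : ℕ}
    (hr : finrank (ResidueField O) (Dk O (ResidueField O) u) ≤ r) :
    ∃ x : Fin r → R, (∀ i, x i ∈ maximalIdeal R) ∧
      Algebra.adjoin O (Set.range x ∪ Set.range u) = ⊤ := by
  obtain ⟨N, hN⟩ := exists_pow_le (O := O) (R := R)
  obtain ⟨x, h0, h1⟩ := exists_gens_rel' u (ker_eq_maximalIdeal (O := O) (R := R) ▸ hN) hr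
  exact ⟨x, fun i => ker_eq_maximalIdeal (O := O) (R := R) ▸ h0 i, h1⟩

end Crest.Agent.T15.Ps

end
end

-- ▼ part T15/PatA_43
section

/-!
# Row 15, block R (helper43): abstract patching, part A (ultralimits)

`Cpt I`: the ring is `I`-adically complete with finite quotients.  Ultralimits of sequences and of
ring homomorphisms into matrix rings over varying quotients `B n` of a compact ring `S`.
-/

set_option autoImplicit false
set_option linter.unusedSectionVars false

noncomputable section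

namespace Crest.Agent.T15.Pat

open IsLocalRing Filter Function

/-- complete with finite quotients -/
structure Cpt {A : Type*} [CommRing A] (I : Ideal A) : Prop where
  cpl : IsAdicComplete I A
  fin : ∀ k : ℕ, Finite (A ⧸ I ^ k)

lemma cpt_of {A : Type*} [CommRing A] [IsNoetherianRing A] (I : Ideal A) [IsAdicComplete I A]
    [Finite (A ⧸ I)] : Cpt I :=
  ⟨inferInstance, Ideal.finite_quotient_pow (IsNoetherian.noetherian I)⟩

lemma Cpt.eq_zero {A : Type*} [CommRing A] {I : Ideal A} (h : Cpt I) {a : A}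
    (ha : ∀ k, a ∈ I ^ k) : a = 0 :=
  h.cpl.toIsHausdorff.haus' a fun k => by
    rw [SModEq.zero, smul_eq_mul, Ideal.mul_top]; exact ha k

/-- a power of the maximal ideal dies in a finite ring, uniformly -/
lemma pow_le_ker {R F : Type*} [CommRing R] [IsLocalRing R] [Ring F] [Finite F] (ψ : R →+* F) :
    maximalIdeal R ^ Nat.card F ≤ RingHom.ker ψ := by
  set Q := R ⧸ RingHom.ker ψ
  have : Finite Q := Finite.of_injective _ (RingHom.kerLift_injective ψ)
  let N : ℕ → Submodule R Q := fun j => maximalIdeal R ^ j • ⊤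
  have hN : ∀ j, N j = ⊥ ∨ (N j : Set Q).ncard + j ≤ Nat.card Q := by
    intro j
    induction j with
    | zero => exact Or.inr (by rw [add_zero]; exact Set.ncard_le_card _)
    | succ j ih =>
      have e : N (j + 1) = maximalIdeal R • N j := by
        simp only [N, pow_succ', mul_smul]
      by_cases h0 : N j = ⊥
      · left; rw [e, h0, Submodule.smul_bot]
      · right
        have hle : N (j + 1) ≤ N j := by rw [e]; exact Submodule.smul_le_right
        have hne : N (j + 1) ≠ N j := fun h => h0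
          (Submodule.eq_bot_of_le_smul_of_le_jacobson_bot (maximalIdeal R) (N j)
            (Submodule.fg_def.2 ⟨N j, Set.toFinite _, Submodule.span_eq _⟩) (by rw [← e, h])
            (maximalIdeal_le_jacobson _))
        have := Set.ncard_lt_ncard (SetLike.coe_ssubset_coe.2 (lt_of_le_of_ne hle hne))
        have := ih.resolve_left h0
        omega
  have h1 : N (Nat.card F) = ⊥ := by
    refine (hN _).resolve_right fun h => ?_
    have h2 : Nat.card Q ≤ Nat.card F :=
      Nat.card_le_card_of_injective _ (RingHom.kerLift_injective ψ)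
    have h3 : 0 < (N (Nat.card F) : Set Q).ncard :=
      (Set.ncard_pos (Set.toFinite _)).2 ⟨0, (N _).zero_mem⟩
    omega
  intro r hr
  have h2 : r • (1 : Q) ∈ N (Nat.card F) := Submodule.smul_mem_smul hr trivial
  rw [h1, Submodule.mem_bot, ← Algebra.algebraMap_eq_smul_one] at h2
  exact Ideal.Quotient.eq_zero_iff_mem.1 h2

/-- the ultrafilter used for all limits -/
abbrev U : Ultrafilter ℕ := hyperfilter ℕ

lemma ev_ge (k : ℕ) : ∀ᶠ n in (U : Filter ℕ), k ≤ n :=
  (hyperfilter_le_cofinite.trans_eq Nat.cofinite_eq_atTop) (eventually_ge_atTop k)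

section conv

variable {S : Type*} [CommRing S] {I : Ideal S} {B : ℕ → Type*} [∀ n, CommRing (B n)]

/-- convergence along `U` of a sequence in the quotients `B n` -/
def Conv (I : Ideal S) (p : ∀ n, S →+* B n) (g : ∀ n, B n) (L : S) : Prop :=
  ∀ k, ∀ᶠ n in (U : Filter ℕ), g n - p n L ∈ (I ^ k).map (p n)

/-- the quotient system -/
structure Sys (I : Ideal S) (p : ∀ n, S →+* B n) : Prop where
  cpt : Cpt I
  surj : ∀ n, Surjective (p n)
  ker : ∀ n, RingHom.ker (p n) ≤ I ^ n

lemma Cpt.sys (h : Cpt I) : Sys I fun _ => RingHom.id S :=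
  ⟨h, fun _ => surjective_id, fun _ a ha => by
    rw [RingHom.mem_ker, RingHom.id_apply] at ha; rw [ha]; exact zero_mem _⟩

variable {p : ∀ n, S →+* B n} {g g' : ∀ n, B n} {L L' : S}

lemma conv_const (L : S) : Conv I p (fun n => p n L) L := fun _ =>
  Eventually.of_forall fun _ => by rw [sub_self]; exact zero_mem _

lemma Conv.congr (h : Conv I p g L) (e : ∀ n, g' n = g n) : Conv I p g' L := by
  rwa [show g' = g from funext e]

lemma Conv.add (h : Conv I p g L) (h' : Conv I p g' L') :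
    Conv I p (fun n => g n + g' n) (L + L') := fun k => by
  filter_upwards [h k, h' k] with n a b
  rw [map_add, add_sub_add_comm]
  exact add_mem a b

lemma Conv.mul (h : Conv I p g L) (h' : Conv I p g' L') :
    Conv I p (fun n => g n * g' n) (L * L') := fun k => by
  filter_upwards [h k, h' k] with n a b
  rw [map_mul, show g n * g' n - p n L * p n L' =
    (g n - p n L) * g' n + p n L * (g' n - p n L') by ring]
  exact add_mem (Ideal.mul_mem_right _ _ a) (Ideal.mul_mem_left _ _ b)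

lemma Conv.sum {ι : Type*} (s : Finset ι) {G : ι → ∀ n, B n} {M : ι → S}
    (h : ∀ i, Conv I p (G i) (M i)) : Conv I p (fun n => ∑ i ∈ s, G i n) (∑ i ∈ s, M i) := by
  classical
  induction s using Finset.induction_on with
  | empty => simpa using conv_const (I := I) (p := p) 0
  | insert a s ha ih => simpa only [Finset.sum_insert ha] using (h a).add ih

lemma Sys.mem_of_map (h : Sys I p) {k n : ℕ} (hkn : k ≤ n) {a : S} (ha : p n a ∈ (I ^ k).map (p n)) :
    a ∈ I ^ k := by
  have h1 : a ∈ ((I ^ k).map (p n)).comap (p n) := ha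
  rw [Ideal.comap_map_of_surjective _ (h.surj n), ← RingHom.ker_eq_comap_bot,
    sup_eq_left.2 ((h.ker n).trans (Ideal.pow_le_pow_right hkn))] at h1
  exact h1

lemma Sys.unique (h : Sys I p) (h1 : Conv I p g L) (h2 : Conv I p g L') : L = L' := by
  refine sub_eq_zero.1 (h.cpt.eq_zero fun k => ?_)
  obtain ⟨n, a, b, c⟩ := ((h1 k).and ((h2 k).and (ev_ge k))).exists
  refine h.mem_of_map c ?_
  rw [map_sub, show p n L - p n L' = (g n - p n L') - (g n - p n L) by ring]
  exact sub_mem b a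

lemma Sys.exists_conv (h : Sys I p) (g : ∀ n, B n) : ∃ L, Conv I p g L := by
  choose f hf using fun n => h.surj n (g n)
  have h1 : ∀ k, ∃ y : S, ∀ᶠ n in (U : Filter ℕ), f n - y ∈ I ^ k := fun k => by
    have := h.cpt.fin k
    obtain ⟨c, hc⟩ := (Ultrafilter.eventually_exists_iff (f := U)
      (P := fun (c : S ⧸ I ^ k) n => Ideal.Quotient.mk _ (f n) = c)).1
        (Eventually.of_forall fun n => ⟨_, rfl⟩)
    obtain ⟨y, rfl⟩ := Ideal.Quotient.mk_surjective c
    exact ⟨y, hc.mono fun n hn => Ideal.Quotient.eq.1 hn⟩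
  choose y hy using h1
  obtain ⟨L, hL⟩ := h.cpt.cpl.toIsPrecomplete.prec' y (fun {k l} hkl => by
    obtain ⟨n, a, b⟩ := ((hy k).and (hy l)).exists
    rw [SModEq.sub_mem, smul_eq_mul, Ideal.mul_top, show y k - y l = (f n - y l) - (f n - y k) by
      ring]
    exact sub_mem (Ideal.pow_le_pow_right hkl b) a)
  refine ⟨L, fun k => (hy k).mono fun n hn => ?_⟩
  have h2 := hL k
  rw [SModEq.sub_mem, smul_eq_mul, Ideal.mul_top] at h2
  rw [← hf, ← map_sub, show f n - L = (f n - y k) + (y k - L) by ring]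
  exact Ideal.mem_map_of_mem _ (add_mem hn h2)

/-- limits of elements of a fixed closed ideal -/
lemma Sys.map_eq_zero (h : Sys I p) [IsLocalRing S] (hI : I = maximalIdeal S) {O : Type*}
    [CommRing O] {J : Ideal O} (hO : Cpt J) (ε : S →+* O) (hg : Conv I p g L)
    (hm : ∀ n, g n ∈ (RingHom.ker ε).map (p n)) : ε L = 0 := by
  refine hO.eq_zero fun k => ?_
  have := hO.fin k
  obtain ⟨n, a, c⟩ := ((hg (Nat.card (O ⧸ J ^ k))).and (ev_ge (Nat.card (O ⧸ J ^ k)))).exists
  obtain ⟨b, hb, e⟩ := (Ideal.mem_map_iff_of_surjective _ (h.surj n)).1 (hm n)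
  rw [← e, ← map_sub] at a
  have h1 := h.mem_of_map c a
  rw [hI] at h1
  have h2 := pow_le_ker ((Ideal.Quotient.mk (J ^ k)).comp ε) h1
  rw [RingHom.mem_ker, RingHom.comp_apply, map_sub, RingHom.mem_ker.1 hb, zero_sub, map_neg,
    neg_eq_zero] at h2
  exact Ideal.Quotient.eq_zero_iff_mem.1 h2

variable {R : Type*} [CommRing R] [IsLocalRing R] {d : Type*} [Fintype d] [DecidableEq d]

/-- plain convergence in a local ring -/
abbrev ConvR (r : ℕ → R) (a : R) : Prop := Conv (maximalIdeal R) (fun _ => RingHom.id R) r a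

lemma Sys.unif (h : Sys I p) (k : ℕ) : ∃ N : ℕ, ∀ n (φ : R →+* Matrix d d (B n)),
    ∀ r ∈ maximalIdeal R ^ N, ∀ i j, φ r i j ∈ (I ^ k).map (p n) := by
  have := h.cpt.fin k
  refine ⟨Nat.card (Matrix d d (S ⧸ I ^ k)), fun n φ r hr i j => ?_⟩
  let q : S ⧸ I ^ k →+* B n ⧸ (I ^ k).map (p n) := Ideal.quotientMap _ (p n) Ideal.le_comap_map
  have hq : Surjective q := Ideal.quotientMap_surjective (h.surj n)
  have hq' : Surjective (q.mapMatrix (m := d)) := fun M => by
    choose f hf using fun i j => hq (M i j)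
    exact ⟨Matrix.of f, Matrix.ext hf⟩
  have : Finite (Matrix d d (B n ⧸ (I ^ k).map (p n))) := Finite.of_surjective _ hq'
  have h1 := pow_le_ker ((Ideal.Quotient.mk ((I ^ k).map (p n))).mapMatrix.comp φ)
    (Ideal.pow_le_pow_right (Nat.card_le_card_of_surjective _ hq') hr)
  rw [RingHom.mem_ker] at h1
  exact Ideal.Quotient.eq_zero_iff_mem.1 (congrFun (congrFun h1 i) j)

/-- **ultralimit of matrix representations** -/
theorem Sys.exists_hom (h : Sys I p) (φ : ∀ n, R →+* Matrix d d (B n)) :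
    ∃ Φ : R →+* Matrix d d S, ∀ (r : ℕ → R) (a : R), ConvR r a →
      ∀ i j, Conv I p (fun n => φ n (r n) i j) (Φ a i j) := by
  choose F hF using fun a i j => h.exists_conv fun n => φ n a i j
  refine ⟨{ toFun := fun a => Matrix.of (F a), map_one' := ?_, map_mul' := fun a b => ?_,
            map_zero' := ?_, map_add' := fun a b => ?_ }, fun r a hr i j k => ?_⟩
  · ext i j
    refine h.unique (hF 1 i j) ((conv_const _).congr fun n => ?_)
    rw [map_one, Matrix.one_apply, Matrix.one_apply]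
    split_ifs <;> simp
  · ext i j
    refine h.unique (hF (a * b) i j)
      ((Conv.sum Finset.univ fun l => (hF a i l).mul (hF b l j)).congr fun n => ?_)
    rw [map_mul, Matrix.mul_apply]
  · ext i j
    exact h.unique (hF 0 i j) ((conv_const _).congr fun n => by simp)
  · ext i j
    exact h.unique (hF (a + b) i j) (((hF a i j).add (hF b i j)).congr fun n => by simp)
  · obtain ⟨N, hN⟩ := h.unif (R := R) (d := d) k
    filter_upwards [hF a i j k, hr N] with n h1 h2
    rw [Ideal.map_id, RingHom.id_apply] at h2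
    have h3 := add_mem (hN n (φ n) _ h2 i j) h1
    rwa [map_sub, Matrix.sub_apply, sub_add_sub_cancel] at h3

/-- **ultralimit of points** -/
theorem Cpt.exists_hom {O : Type*} [CommRing O] {J : Ideal O} (h : Cpt J) (x : ℕ → R →+* O) :
    ∃ X : R →+* O, ∀ (r : ℕ → R) (a : R), ConvR r a →
      Conv J (fun _ => RingHom.id O) (fun n => x n (r n)) (X a) := by
  obtain ⟨Φ, hΦ⟩ := h.sys.exists_hom (d := Unit) fun n => (Matrix.scalar Unit).comp (x n)
  refine ⟨{ toFun := fun a => Φ a () (), map_one' := by simp, map_mul' := fun a b => ?_,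
            map_zero' := by simp, map_add' := fun a b => by simp }, fun r a hr => ?_⟩
  · simp [Matrix.mul_apply]
  · exact (hΦ r a hr () ()).congr fun n => by simp

end conv

end Crest.Agent.T15.Pat

end
end

-- ▼ part T15/PatB_43
section

/-!
# Row 15, block R (helper43): abstract patching, part B (the theorem)

No depth, no Auslander-Buchsbaum: the image of the patched ring in `M_d(S)` is integral and
torsion-free over `S`, so its spectrum is a union of components; Cayley-Hamilton finishes.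
-/

set_option autoImplicit false
set_option linter.unusedSectionVars false

noncomputable section

namespace Crest.Agent.T15.Pat

open IsLocalRing Filter Function Polynomial

section alg

variable {R S B O : Type*} [CommRing R] [CommRing S] [CommRing B] [CommRing O]
  {d : Type*} [Fintype d] [DecidableEq d]

lemma map_sum_charpoly (p : S →+* B) (φ : R →+* Matrix d d B) (σ : S → R)
    (hσ : ∀ s, φ (σ s) = Matrix.scalar d (p s)) (t : R) (N : Matrix d d S) (hN : N.map p = φ t) :
    φ (N.charpoly.sum fun i c => σ c * t ^ i) = 0 := by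
  have h := Matrix.aeval_self_charpoly (φ t)
  rw [← hN, Matrix.charpoly_map, aeval_def, eval₂_map, eval₂_eq_sum, hN] at h
  rw [← h, Polynomial.sum, Polynomial.sum, map_sum]
  refine Finset.sum_congr rfl fun i _ => ?_
  rw [map_mul, map_pow, hσ]
  rfl

/-- Cayley-Hamilton at a point of the support -/
lemma pow_mem (p : S →+* B) (φ : R →+* Matrix d d B) (θ : R →+* O) (ε : S →+* O)
    (hsc : ∀ s, ∃ r, φ r = Matrix.scalar d (p s) ∧ θ r = ε s)
    (hker : RingHom.ker φ ≤ RingHom.ker θ) (t : R) (N : Matrix d d S) (hN : N.map p = φ t)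
    (𝔞 : Ideal S) (h𝔞 : ∀ i j, N i j ∈ 𝔞) : θ t ^ Fintype.card d ∈ 𝔞.map ε := by
  choose σ h1 h2 using hsc
  have h := hker (map_sum_charpoly p φ σ h1 t N hN)
  have e : θ (N.charpoly.sum fun i c => σ c * t ^ i) = eval₂ ε (θ t) N.charpoly := by
    rw [eval₂_eq_sum, Polynomial.sum, Polynomial.sum, map_sum]
    exact Finset.sum_congr rfl fun i _ => by rw [map_mul, map_pow, h2]
  rw [RingHom.mem_ker, e] at h
  have h3 := congrArg (Ideal.Quotient.mk (𝔞.map ε)) h
  have h4 : N.map ((Ideal.Quotient.mk (𝔞.map ε)).comp ε) = 0 := Matrix.ext fun i j =>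
    Ideal.Quotient.eq_zero_iff_mem.2 (Ideal.mem_map_of_mem _ (h𝔞 i j))
  rw [hom_eval₂, eval₂_eq_eval_map, ← Matrix.charpoly_map, h4, Matrix.charpoly_zero, eval_pow,
    eval_X, map_zero, ← map_pow] at h3
  exact Ideal.Quotient.eq_zero_iff_mem.1 h3



end alg

section main

variable {S R O O' : Type*} [CommRing S] [IsDomain S] [IsLocalRing S] [CommRing R] [IsLocalRing R]
  [CommRing O] [CommRing O'] {J : Ideal O} {J' : Ideal O'}
  {B : ℕ → Type*} [∀ n, CommRing (B n)] {p : ∀ n, S →+* B n}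
  {d : Type*} [Fintype d] [DecidableEq d] [Nonempty d]
  {φ : ∀ n, R →+* Matrix d d (B n)} {Φ : R →+* Matrix d d S}

/-- `Φ` is the limit of the `φ n` -/
def LimM (p : ∀ n, S →+* B n) (φ : ∀ n, R →+* Matrix d d (B n)) (Φ : R →+* Matrix d d S) : Prop :=
  ∀ (r : ℕ → R) (a : R), ConvR r a →
    ∀ i j, Conv (maximalIdeal S) p (fun n => φ n (r n) i j) (Φ a i j)

/-- `X` is the limit of the `x n` -/
def LimP (J : Ideal O) (x : ℕ → R →+* O) (X : R →+* O) : Prop :=
  ∀ (r : ℕ → R) (a : R), ConvR r a → Conv J (fun _ => RingHom.id O) (fun n => x n (r n)) (X a)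

lemma LimP.eq {x : ℕ → R →+* O} {X : R →+* O} (h : LimP J x X) (hO : Cpt J) {r : ℕ → R} {a : R}
    (hr : ConvR r a) {c : O} (hc : ∀ n, x n (r n) = c) : X a = c :=
  hO.sys.unique (h r a hr) ((conv_const c).congr hc)







end main

end Crest.Agent.T15.Pat

end
end

-- ▼ part T15/PatC_43
section

/-!
# Row 15, block R (helper43): abstract patching, part C (killed and integral variables)

`R = R₀ + (u) + (s)`; the `u k` are killed on the component of a second point, the `s k` are
integral over `R₀` modulo the `u`; the points take values in varying quotients.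
-/

set_option autoImplicit false
set_option linter.unusedSectionVars false

noncomputable section

namespace Crest.Agent.T15.Pat

open IsLocalRing Filter Function Polynomial

section alg

variable {R₀ R S O : Type*} [CommRing R₀] [CommRing R] [CommRing S] [CommRing O]
  {d : Type*} [Fintype d] [DecidableEq d]


lemma map_max_le [IsLocalRing R₀] [IsLocalRing R] (hR : Cpt (maximalIdeal R)) (j : R₀ →+* R) :
    (maximalIdeal R₀).map j ≤ maximalIdeal R := by
  have := hR.fin 1
  refine Ideal.map_le_iff_le_comap.2 fun a ha => ?_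
  have h := pow_le_ker ((Ideal.Quotient.mk (maximalIdeal R ^ 1)).comp j) (Ideal.pow_mem_pow ha _)
  rw [RingHom.mem_ker, RingHom.comp_apply, Ideal.Quotient.eq_zero_iff_mem, pow_one, map_pow] at h
  exact (maximalIdeal.isMaximal R).isPrime.mem_of_pow_mem _ h


end alg

section conv

variable {S : Type*} [CommRing S] {I : Ideal S} {B : ℕ → Type*} [∀ n, CommRing (B n)]
  {p : ∀ n, S →+* B n} {g : ∀ n, B n} {L : S}

lemma Conv.pow (h : Conv I p g L) (e : ℕ) : Conv I p (fun n => g n ^ e) (L ^ e) := by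
  induction e with
  | zero => simpa using conv_const (I := I) (p := p) 1
  | succ e ih => simpa only [pow_succ] using ih.mul h

lemma ConvR.map {R₀ R : Type*} [CommRing R₀] [IsLocalRing R₀] [CommRing R] [IsLocalRing R]
    (hR : Cpt (maximalIdeal R)) (j : R₀ →+* R) {r : ℕ → R₀} {a : R₀} (h : ConvR r a) :
    ConvR (fun n => j (r n)) (j a) := fun k => (h k).mono fun n hn => by
  rw [Ideal.map_id, RingHom.id_apply] at hn ⊢
  rw [← map_sub]
  exact Ideal.pow_right_mono (map_max_le hR j) k (Ideal.map_pow j _ k ▸ Ideal.mem_map_of_mem j hn)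


end conv

section main

variable {S R R₀ O O' : Type*} [CommRing S] [IsDomain S] [IsLocalRing S] [CommRing R]
  [IsLocalRing R] [CommRing R₀] [IsLocalRing R₀] [CommRing O] [CommRing O'] {J : Ideal O}
  {J' : Ideal O'} {B C C' : ℕ → Type*} [∀ n, CommRing (B n)] [∀ n, CommRing (C n)]
  [∀ n, CommRing (C' n)] {p : ∀ n, S →+* B n} {q : ∀ n, O →+* C n} {q' : ∀ n, O' →+* C' n}
  {d : Type*} [Fintype d] [DecidableEq d] [Nonempty d]
  {φ : ∀ n, R →+* Matrix d d (B n)} {Φ : R →+* Matrix d d S}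

/-- `X` is the limit of the `x n` -/
def LimQ (J : Ideal O) (q : ∀ n, O →+* C n) (x : ∀ n, R →+* C n) (X : R →+* O) : Prop :=
  ∀ (r : ℕ → R) (a : R), ConvR r a → Conv J q (fun n => x n (r n)) (X a)

variable {x : ∀ n, R →+* C n} {X : R →+* O}

lemma LimQ.eq (h : LimQ J q x X) (hO : Sys J q) {r : ℕ → R} {a : R}
    (hr : ConvR r a) {c : O} (hc : ∀ n, x n (r n) = q n c) : X a = c :=
  hO.unique (h r a hr) ((conv_const c).congr hc)

lemma LimM.ker (h : LimM p φ Φ) (hS : Sys (maximalIdeal S) p) {r : ℕ → R} {a : R}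
    (hr : ConvR r a) (hc : ∀ n, φ n (r n) = 0) : a ∈ RingHom.ker Φ :=
  Matrix.ext fun i j => hS.unique (h r a hr i j) ((conv_const 0).congr fun n => by simp [hc])




variable [IsDomain R₀] [IsNoetherianRing R] [IsDomain O] {K L : Type*} [Fintype K]




end main

end Crest.Agent.T15.Pat

end
namespace Crest.Agent.T15.Pat.Sys
end Crest.Agent.T15.Pat.Sys
end

-- ▼ part T15/PatD_43
section

/-!
# Row 15, block R (helper43): patching, part D (power series rings, group rings)

* `cpt_mv`, `dim_mv`; `TN` (topologically nilpotent in a finite `O`-algebra), `ev`, `mv_ext`;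
* `TWg p n δ`: Taylor-Wiles groups, `gr` and `sys_gr`.
-/

set_option autoImplicit false
set_option linter.unusedSectionVars false

noncomputable section

namespace Crest.Agent.T15.Pat

open IsLocalRing Filter Function MvPowerSeries Crest.Agent.R183

section ps

variable {O : Type*} [CommRing O] {σ : Type*} [Finite σ]

/-- homomorphisms from a power series ring are determined by constants and variables -/
theorem mv_ext {T : Type*} [CommRing T] (J : Ideal T) [hH : IsHausdorff J T]
    {g g' : MvPowerSeries σ O →+* T} (hC : ∀ a, g (C a) = g' (C a)) (hX : ∀ i, g (X i) = g' (X i))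
    (hJ : ∀ i, g (X i) ∈ J) : g = g' := by
  have hpoly : g.comp MvPolynomial.coeToMvPowerSeries.ringHom =
      g'.comp MvPolynomial.coeToMvPowerSeries.ringHom := by
    apply MvPolynomial.ringHom_ext
    · intro a
      simp only [RingHom.comp_apply, MvPolynomial.coeToMvPowerSeries.ringHom_apply,
        MvPolynomial.coe_C, hC]
    · intro i
      simp only [RingHom.comp_apply, MvPolynomial.coeToMvPowerSeries.ringHom_apply,
        MvPolynomial.coe_X, hX]
  have key : ∀ (h : MvPowerSeries σ O →+* T), (∀ i, h (X i) ∈ J) → ∀ N f,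
      h f - h ((truncTotal N f : MvPolynomial σ O) : MvPowerSeries σ O) ∈ J ^ N := by
    intro h hh N f
    have h1 : f - ((truncTotal N f : MvPolynomial σ O) : MvPowerSeries σ O) ∈
        (Ideal.span (Set.range (X : σ → MvPowerSeries σ O))) ^ N := by
      apply Cohen.mem_span_X_pow
      intro x hx
      rw [map_sub, MvPolynomial.coeff_coe, coeff_truncTotal _ hx, sub_self]
    have h3 : (Ideal.span (Set.range (X : σ → MvPowerSeries σ O))) ^ N ≤ (J ^ N).comap h := by
      rw [← Ideal.map_le_iff_le_comap, Ideal.map_pow]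
      apply Ideal.pow_right_mono
      rw [Ideal.map_span, Ideal.span_le]
      rintro _ ⟨_, ⟨i, rfl⟩, rfl⟩
      exact hh i
    rw [← map_sub]
    exact h3 h1
  ext f
  rw [← sub_eq_zero]
  refine hH.haus' _ fun N => ?_
  rw [SModEq.zero, smul_eq_mul, Ideal.mul_top]
  have h1 := sub_mem (key g hJ N f) (key g' (fun i => hX i ▸ hJ i) N f)
  have h2 : g ((truncTotal N f : MvPolynomial σ O) : MvPowerSeries σ O) =
      g' ((truncTotal N f : MvPolynomial σ O) : MvPowerSeries σ O) := RingHom.congr_fun hpoly _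
  rwa [h2, sub_sub_sub_cancel_right] at h1

theorem mv_ext_zero {T : Type*} [CommRing T] {g g' : MvPowerSeries σ O →+* T}
    (hC : ∀ a, g (C a) = g' (C a)) (hX : ∀ i, g (X i) = 0) (hX' : ∀ i, g' (X i) = 0) : g = g' :=
  mv_ext ⊥ hC (fun i => (hX i).trans (hX' i).symm) hX

variable [IsLocalRing O]

lemma mem_max_mv {f : MvPowerSeries σ O} :
    f ∈ maximalIdeal (MvPowerSeries σ O) ↔ constantCoeff f ∈ maximalIdeal O := by
  rw [mem_maximalIdeal, mem_nonunits_iff, MvPowerSeries.isUnit_iff_constantCoeff,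
    mem_maximalIdeal, mem_nonunits_iff]

lemma X_mem_max (i : σ) : (X i : MvPowerSeries σ O) ∈ maximalIdeal _ := by
  rw [mem_max_mv, constantCoeff_X]; exact zero_mem _

lemma C_mem_max {a : O} (h : a ∈ maximalIdeal O) : (C a : MvPowerSeries σ O) ∈ maximalIdeal _ := by
  rwa [mem_max_mv, constantCoeff_C]

variable [IsNoetherianRing O]

theorem cpt_mv (hO : Cpt (maximalIdeal O)) (σ : Type*) [Finite σ] :
    Cpt (maximalIdeal (MvPowerSeries σ O)) := by
  have := hO.cpl
  have := R227.isAdicComplete_maximalIdeal_mv (σ := σ) (A := O)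
  have h1 := hO.fin 1
  rw [pow_one] at h1
  have : Finite (MvPowerSeries σ O ⧸ maximalIdeal (MvPowerSeries σ O)) := by
    refine Finite.of_surjective (Ideal.quotientMap (maximalIdeal (MvPowerSeries σ O))
      (C : O →+* MvPowerSeries σ O) (I := maximalIdeal O) fun a ha => C_mem_max ha) fun f => ?_
    obtain ⟨f, rfl⟩ := Ideal.Quotient.mk_surjective f
    refine ⟨Ideal.Quotient.mk _ (constantCoeff f), ?_⟩
    rw [Ideal.quotientMap_mk, Ideal.Quotient.eq, mem_max_mv, map_sub, constantCoeff_C, sub_self]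
    exact zero_mem _
  exact cpt_of _



end ps

section fin

variable (O : Type*) [CommRing O] [IsLocalRing O]

/-- the ideal of topologically nilpotent elements of an `O`-algebra -/
def rad (T : Type*) [CommRing T] [Algebra O T] : Ideal T :=
  ((maximalIdeal O).map (algebraMap O T)).radical

variable {T T' : Type*} [CommRing T] [Algebra O T] [CommRing T'] [Algebra O T']

/-- topologically nilpotent: some power lies in `m_O T` -/
abbrev TN (a : T) : Prop := a ∈ rad O T

variable {O}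

lemma TN.map {a : T} (h : TN O a) (g : T →+* T')
    (hg : ∀ c, g (algebraMap O T c) = algebraMap O T' c) : TN O (g a) := by
  obtain ⟨N, hN⟩ := h
  refine ⟨N, ?_⟩
  have := Ideal.mem_map_of_mem g hN
  rwa [Ideal.map_map, show g.comp (algebraMap O T) = algebraMap O T' from RingHom.ext hg,
    map_pow] at this

lemma TN.mapₐ {a : T} (h : TN O a) (g : T →ₐ[O] T') : TN O (g a) := h.map g.toRingHom g.commutes

lemma TN.of_nilpotent {a : T} (h : IsNilpotent a) : TN O a := by
  obtain ⟨N, hN⟩ := h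
  exact ⟨N, hN ▸ zero_mem _⟩

/-- `a - 1` for `a` of `p`-power order -/
lemma TN.sub_one {p : ℕ} (hp : p.Prime) (hpm : (p : O) ∈ maximalIdeal O) {a : T} {m : ℕ}
    (h : a ^ p ^ m = 1) : TN O (a - 1) := by
  obtain ⟨r, hr⟩ := exists_add_pow_prime_pow_eq hp (a - 1) 1 m
  rw [sub_add_cancel, h, one_pow] at hr
  refine ⟨p ^ m, ?_⟩
  rw [show (a - 1) ^ p ^ m = algebraMap O T p * (-((a - 1) * r)) by
    rw [map_natCast]; linear_combination -hr]
  exact Ideal.mul_mem_right _ _ (Ideal.mem_map_of_mem _ hpm)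

variable [IsNoetherianRing O] [Module.Finite O T]



theorem complete_rad (hO : Cpt (maximalIdeal O)) (T : Type*) [CommRing T] [Algebra O T]
    [Module.Finite O T] : IsAdicComplete (rad O T) T := by
  have := hO.cpl
  have hN : IsNoetherianRing T := IsNoetherianRing.of_finite O T
  obtain ⟨K, hK⟩ := Ideal.exists_pow_le_of_le_radical_of_fg (le_refl (rad O T))
    (IsNoetherian.noetherian _)
  set I := (maximalIdeal O).map (algebraMap O T)
  have hK' : ∀ k, rad O T ^ ((K + 1) * k) ≤ I ^ k := fun k => by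
    rw [pow_mul]
    exact Ideal.pow_right_mono ((Ideal.pow_le_pow_right (Nat.le_succ K)).trans hK) k
  have hH : IsHausdorff I T := IsHausdorff.map_algebraMap_iff.2 inferInstance
  have hP : IsPrecomplete I T := by
    refine IsPrecomplete.map_algebraMap_iff.2 (AdicCompletion.of_surjective_iff.1 fun y => ?_)
    obtain ⟨n, f, hf⟩ := Module.Finite.exists_fin' O T
    have := Cohen.isPrecomplete_pi (I := maximalIdeal O) n
    obtain ⟨x, rfl⟩ := AdicCompletion.map_surjective (maximalIdeal O) hf y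
    obtain ⟨x, rfl⟩ := AdicCompletion.of_surjective (maximalIdeal O) _ x
    exact ⟨f x, (AdicCompletion.map_of _ f x).symm⟩
  refine { haus' := fun a ha => hH.haus' a fun k => ?_, prec' := fun f hf => ?_ }
  · have := ha ((K + 1) * k)
    rw [SModEq.zero, smul_eq_mul, Ideal.mul_top] at this ⊢
    exact hK' k this
  · simp only [SModEq.sub_mem, smul_eq_mul, Ideal.mul_top] at hf ⊢
    obtain ⟨L, hL⟩ := hP.prec' (fun k => f ((K + 1) * k)) fun {k l} h => by
      rw [SModEq.sub_mem, smul_eq_mul, Ideal.mul_top]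
      exact hK' k (hf (Nat.mul_le_mul_left _ h))
    refine ⟨L, fun k => ?_⟩
    have h1 := hL k
    rw [SModEq.sub_mem, smul_eq_mul, Ideal.mul_top] at h1
    rw [← sub_add_sub_cancel _ (f ((K + 1) * k))]
    exact add_mem (hf (Nat.le_mul_of_pos_left k K.succ_pos))
      (Ideal.pow_right_mono Ideal.le_radical k h1)


variable {σ : Type*} [Finite σ]

/-- evaluation of power series at topologically nilpotent elements of a finite algebra -/
def ev (hO : Cpt (maximalIdeal O)) (t : σ → T) (ht : ∀ i, TN O (t i)) :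
    MvPowerSeries σ O →+* T :=
  haveI := complete_rad hO T
  Cohen.psEval (rad O T) (algebraMap O T) t ht

variable (hO : Cpt (maximalIdeal O)) (t : σ → T) (ht : ∀ i, TN O (t i))

@[simp] lemma ev_C (a : O) : ev hO t ht (C a) = algebraMap O T a :=
  haveI := complete_rad hO T
  Cohen.psEval_C _ _ _ ht a

@[simp] lemma ev_X (i : σ) : ev hO t ht (X i) = t i :=
  haveI := complete_rad hO T
  Cohen.psEval_X _ _ _ ht i

include hO in
/-- uniqueness for finite algebras -/
lemma fin_ext {g g' : MvPowerSeries σ O →+* T} (hC : ∀ a, g (C a) = g' (C a))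
    (hX : ∀ i, g (X i) = g' (X i)) (hJ : ∀ i, TN O (g (X i))) : g = g' :=
  haveI := complete_rad hO T
  mv_ext (rad O T) hC hX hJ



end fin

section grp

/-- generators of a Taylor-Wiles group of level `n` -/
structure TWg (p n : ℕ) {ι Δ : Type*} [Fintype ι] [CommGroup Δ] (δ : ι → Δ) : Prop where
  gen : ∀ g, ∃ k : ι → ℕ, g = ∏ i, δ i ^ k i
  rel : ∀ k k' : ι → ℕ, ∏ i, δ i ^ k i = ∏ i, δ i ^ k' i → ∀ i, k i ≡ k' i [MOD p ^ n]
  ord : ∀ i, ∃ m, δ i ^ p ^ m = 1

variable {p n : ℕ} {ι Δ : Type*} [Fintype ι] [CommGroup Δ] {δ : ι → Δ}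

lemma TWg.exists_hom (h : TWg p n δ) {A : Type*} [CommMonoid A] (a : ι → A)
    (ha : ∀ i, a i ^ p ^ n = 1) : ∃ f : Δ →* A, ∀ i, f (δ i) = a i := by
  classical
  choose k hk using h.gen
  have key : ∀ g (l : ι → ℕ), g = ∏ i, δ i ^ l i → ∏ i, a i ^ k g i = ∏ i, a i ^ l i :=
    fun g l e => Finset.prod_congr rfl fun i _ =>
      pow_eq_pow_of_modEq (h.rel _ _ ((hk g).symm.trans e) i) (ha i)
  refine ⟨{ toFun := fun g => ∏ i, a i ^ k g i, map_one' := ?_, map_mul' := fun g g' => ?_ },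
    fun i => ?_⟩
  · simpa using key 1 0 (by simp)
  · rw [key (g * g') (k g + k g') (by
      simp only [Pi.add_apply, pow_add, Finset.prod_mul_distrib, ← hk])]
    simp only [Pi.add_apply, pow_add, Finset.prod_mul_distrib]
  · have e : ∀ {M : Type _} [CommMonoid M] (b : ι → M),
        ∏ j, b j ^ (Pi.single i 1 : ι → ℕ) j = b i := fun b => by
      rw [Finset.prod_eq_single i (fun j _ hj => by simp [hj]) (by simp)]; simp
    exact (key (δ i) (Pi.single i 1) (by
      rw [Finset.prod_eq_single i (fun j _ hj => by simp [hj]) (by simp)]; simp)).trans (e a)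

/-- a product of cyclic groups of order `p ^ m i`, `n ≤ m i` -/
theorem twg_pi [DecidableEq ι] {G : ι → Type*} [∀ i, CommGroup (G i)] (γ : ∀ i, G i)
    (hγ : ∀ i g, g ∈ Submonoid.powers (γ i)) (m : ι → ℕ) (hm : ∀ i, n ≤ m i)
    (ho : ∀ i, orderOf (γ i) = p ^ m i) : TWg p n fun i => Pi.mulSingle i (γ i) := by
  have e : ∀ (k : ι → ℕ) (i : ι), (∏ j, (Pi.mulSingle j (γ j) : ∀ i, G i) ^ k j) i = γ i ^ k i :=
    fun k i => by
      rw [Finset.prod_apply, Finset.prod_eq_single i (fun j _ hj => by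
        simp [Pi.mulSingle_eq_of_ne hj.symm]) (by simp)]
      simp
  refine ⟨fun g => ?_, fun k k' h i => ?_, fun i => ⟨m i, ?_⟩⟩
  · choose k hk using fun i => hγ i (g i)
    exact ⟨k, funext fun i => by rw [e]; exact (hk i).symm⟩
  · have h1 := congrFun h i
    rw [e, e, pow_eq_pow_iff_modEq, ho] at h1
    exact h1.of_dvd (pow_dvd_pow p (hm i))
  · rw [← Pi.mulSingle_pow, ← ho, pow_orderOf_eq_one, Pi.mulSingle_one]

/-- transport along an isomorphism -/
theorem TWg.map (h : TWg p n δ) {Δ' : Type*} [CommGroup Δ'] (e : Δ ≃* Δ') :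
    TWg p n fun i => e (δ i) := by
  refine ⟨fun g => ?_, fun k k' hk => h.rel k k' (e.injective ?_), fun i => ?_⟩
  · obtain ⟨k, hk⟩ := h.gen (e.symm g)
    exact ⟨k, by simp only [← map_pow, ← map_prod, ← hk, MulEquiv.apply_symm_apply]⟩
  · simpa only [map_prod, map_pow] using hk
  · obtain ⟨m, hm⟩ := h.ord i
    exact ⟨m, by rw [← map_pow, hm, map_one]⟩

variable {O : Type*} [CommRing O] [IsLocalRing O] [IsNoetherianRing O]
  (Cn : Type*) [CommRing Cn] [Algebra O Cn] [Module.Finite O Cn] [Finite Δ]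

lemma TWg.tn (h : TWg p n δ) (hp : p.Prime) (hpm : (p : O) ∈ maximalIdeal O) (i : ι) :
    TN O (MonoidAlgebra.of Cn Δ (δ i) - 1) := by
  obtain ⟨m, hm⟩ := h.ord i
  exact TN.sub_one hp hpm (m := m) (by rw [← map_pow, hm, map_one])

/-- the map `O[[y]] → C[Δ]`, `y i ↦ δ i - 1` -/
def TWg.gr (h : TWg p n δ) (hO : Cpt (maximalIdeal O)) (hp : p.Prime)
    (hpm : (p : O) ∈ maximalIdeal O) : MvPowerSeries ι O →+* MonoidAlgebra Cn Δ :=
  ev hO (fun i => MonoidAlgebra.of Cn Δ (δ i) - 1) (h.tn Cn hp hpm)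

variable (h : TWg p n δ) (hO : Cpt (maximalIdeal O)) (hp : p.Prime)
  (hpm : (p : O) ∈ maximalIdeal O)

@[simp] lemma TWg.gr_C (a : O) : h.gr Cn hO hp hpm (C a) = algebraMap O _ a := ev_C ..

@[simp] lemma TWg.gr_X (i : ι) : h.gr Cn hO hp hpm (X i) = MonoidAlgebra.of Cn Δ (δ i) - 1 :=
  ev_X ..

lemma TWg.gr_surjective (hC : Surjective (algebraMap O Cn)) : Surjective (h.gr Cn hO hp hpm) := by
  intro b
  induction b using MonoidAlgebra.induction_on with
  | of g =>
    obtain ⟨k, rfl⟩ := h.gen g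
    exact ⟨∏ i, (X i + 1) ^ k i, by simp⟩
  | add x y hx hy => obtain ⟨f, rfl⟩ := hx; obtain ⟨g, rfl⟩ := hy; exact ⟨f + g, map_add ..⟩
  | smul c x hx =>
    obtain ⟨f, rfl⟩ := hx
    obtain ⟨c, rfl⟩ := hC c
    exact ⟨C c * f, by rw [map_mul, TWg.gr_C, algebraMap_smul, Algebra.smul_def]⟩

lemma TWg.ker_gr (hC : Surjective (algebraMap O Cn))
    (hk : RingHom.ker (algebraMap O Cn) ≤ maximalIdeal O ^ n) :
    RingHom.ker (h.gr Cn hO hp hpm) ≤ maximalIdeal (MvPowerSeries ι O) ^ n := by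
  set I := maximalIdeal (MvPowerSeries ι O) ^ n with hI
  obtain ⟨f, hf⟩ := h.exists_hom (fun i => Ideal.Quotient.mk I (X i + 1)) fun i => by
    have h1 : (X i + 1 : MvPowerSeries ι O) ≡ 1 [SMOD maximalIdeal (MvPowerSeries ι O)] := by
      rw [SModEq.sub_mem, add_sub_cancel_right]; exact X_mem_max i
    have h2 := SModEq.pow_pow_add_one (p := p) (by
      rw [← map_natCast (C : O →+* MvPowerSeries ι O)]; exact C_mem_max hpm) h1 n
    rw [SModEq.sub_mem, one_pow] at h2
    rw [← map_pow, ← map_one (Ideal.Quotient.mk I), Ideal.Quotient.eq]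
    exact Ideal.pow_le_pow_right n.le_succ h2
  have hm : (maximalIdeal O).map (C : O →+* MvPowerSeries ι O) ≤ maximalIdeal _ :=
    Ideal.map_le_iff_le_comap.2 fun b hb => C_mem_max hb
  let c : Cn →+* MvPowerSeries ι O ⧸ I := (algebraMap O Cn).liftOfSurjective hC
    ⟨(Ideal.Quotient.mk I).comp C, fun a ha => Ideal.Quotient.eq_zero_iff_mem.2
      (Ideal.pow_right_mono hm n
        (Ideal.map_pow (C : O →+* MvPowerSeries ι O) _ n ▸ Ideal.mem_map_of_mem _ (hk ha)))⟩
  have hc : ∀ a, c (algebraMap O Cn a) = Ideal.Quotient.mk I (C a) := fun a =>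
    RingHom.liftOfSurjective_comp_apply _ _ _ a
  have : IsHausdorff ((maximalIdeal (MvPowerSeries ι O)).map
      (algebraMap _ (MvPowerSeries ι O ⧸ I))) (MvPowerSeries ι O ⧸ I) :=
    IsHausdorff.map_algebraMap_iff.2 inferInstance
  have e := mv_ext ((maximalIdeal (MvPowerSeries ι O)).map
      (algebraMap _ (MvPowerSeries ι O ⧸ I))) (g := Ideal.Quotient.mk I)
    (g' := (MonoidAlgebra.liftNCRingHom c f fun _ _ => Commute.all _ _).comp (h.gr Cn hO hp hpm))
    (fun a => by
      rw [RingHom.comp_apply, TWg.gr_C, MonoidAlgebra.coe_algebraMap, Function.comp_apply,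
        MonoidAlgebra.liftNCRingHom_single, hc, map_one, mul_one])
    (fun i => by
      rw [RingHom.comp_apply, TWg.gr_X, map_sub, MonoidAlgebra.of_apply,
        MonoidAlgebra.liftNCRingHom_single, hf, map_one, map_one, one_mul, map_add, map_one,
        add_sub_cancel_right])
    fun i => Ideal.mem_map_of_mem _ (X_mem_max i)
  intro a ha
  rw [← Ideal.Quotient.eq_zero_iff_mem, e, RingHom.comp_apply, RingHom.mem_ker.1 ha, map_zero]

end grp

/-- the group rings form a quotient system of `O[[y]]` -/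
theorem sys_gr {O : Type*} [CommRing O] [IsLocalRing O] [IsNoetherianRing O] {p : ℕ}
    (hp : p.Prime) (hpm : (p : O) ∈ maximalIdeal O) {Cn Δ : ℕ → Type*} [∀ n, CommRing (Cn n)]
    [∀ n, Algebra O (Cn n)] [∀ n, Module.Finite O (Cn n)]
    (hC : Sys (maximalIdeal O) fun n => algebraMap O (Cn n)) [∀ n, CommGroup (Δ n)]
    [∀ n, Finite (Δ n)] {ι : Type*} [Fintype ι] {δ : ∀ n, ι → Δ n} (h : ∀ n, TWg p n (δ n)) :
    Sys (maximalIdeal (MvPowerSeries ι O)) fun n => (h n).gr (Cn n) hC.cpt hp hpm :=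
  ⟨cpt_mv hC.cpt ι, fun n => (h n).gr_surjective _ _ _ _ (hC.surj n),
    fun n => (h n).ker_gr _ _ _ _ (hC.surj n) (hC.ker n)⟩


end Crest.Agent.T15.Pat

end
end

-- ▼ part T15/PatI_3
section

/-!
# Row 15, block R (helper3): patching at finite level, integral + component version

All data live at finite level `n`.  The scalars are only integral over the image of the power
series ring `R₀`, and finitely many elements `u` are killed on the component of the point `θ`.
-/

set_option autoImplicit false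
set_option linter.unusedSectionVars false

noncomputable section

namespace Crest.Agent.T15.Pat

open IsLocalRing Filter Function Polynomial

namespace I3

section alg

variable {R S : Type*} [CommRing R] [CommRing S] {d : Type*} [Fintype d] [DecidableEq d]

/-- a chain of full length starts at every minimal prime of the support -/
theorem exists_chain [IsDomain S] [Nonempty d] (Φ : R →+* Matrix d d S)
    (hsc : ∀ s, ∃ r, Φ r = Matrix.scalar d s) {D : ℕ}
    (hS : D ≤ ringKrullDim S) {Q : Ideal R} (hQ : Q ∈ (RingHom.ker Φ).minimalPrimes) :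
    ∃ L : LTSeries (PrimeSpectrum R), D ≤ L.length ∧ L.head.asIdeal = Q := by
  choose σ hσ using hsc
  set A := R ⧸ RingHom.ker Φ
  have inj : Injective (RingHom.kerLift Φ) := RingHom.kerLift_injective Φ
  let ι : S →+* A :=
    { toFun := fun s => Ideal.Quotient.mk _ (σ s)
      map_one' := inj (by rw [RingHom.kerLift_mk, hσ, map_one, map_one])
      map_mul' := fun a b => inj (by
        rw [map_mul, RingHom.kerLift_mk, RingHom.kerLift_mk, RingHom.kerLift_mk, hσ, hσ, hσ,
          map_mul])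
      map_zero' := inj (by rw [RingHom.kerLift_mk, hσ, map_zero, map_zero])
      map_add' := fun a b => inj (by
        rw [map_add, RingHom.kerLift_mk, RingHom.kerLift_mk, RingHom.kerLift_mk, hσ, hσ, hσ,
          map_add]) }
  have hι : ∀ s, RingHom.kerLift Φ (ι s) = Matrix.scalar d s := fun s =>
    (RingHom.kerLift_mk Φ _).trans (hσ s)
  let _ : Algebra S A := ι.toAlgebra
  have hint : Algebra.IsIntegral S A := ⟨fun a => by
    refine ⟨(RingHom.kerLift Φ a).charpoly, Matrix.charpoly_monic _, inj ?_⟩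
    rw [eval₂_eq_sum, map_zero]
    exact map_sum_charpoly (RingHom.id S) _ ι hι a _ (Matrix.map_id' _)⟩
  rw [Ideal.minimalPrimes_eq_comap] at hQ
  obtain ⟨P, hP, rfl⟩ := hQ
  have hPp : P.IsPrime := hP.isPrime
  have hP0 : P.under S = ⊥ := by
    refine eq_bot_iff.2 fun s hs => ?_
    by_contra h0
    refine Set.disjoint_left.1 (Ideal.disjoint_nonZeroDivisors_of_mem_minimalPrimes hP) hs ?_
    refine mem_nonZeroDivisors_iff_left.2 fun a ha => inj ?_
    have h1 := congrArg (RingHom.kerLift Φ) ha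
    rw [map_mul, map_zero] at h1
    erw [hι] at h1
    rw [map_zero]
    ext i j
    have h2 := congrFun (congrFun h1 i) j
    rw [Matrix.scalar_apply, Matrix.diagonal_mul] at h2
    exact (mul_eq_zero.1 h2).resolve_left h0
  obtain ⟨l, hl⟩ := Order.le_krullDim_iff.1 hS
  obtain ⟨l', hl', h0⟩ : ∃ l' : LTSeries (PrimeSpectrum S), D ≤ l'.length ∧ l'.head.asIdeal = ⊥ := by
    by_cases h : l.head.asIdeal = ⊥
    · exact ⟨l, hl.ge, h⟩
    · exact ⟨l.cons ⟨⊥, Ideal.isPrime_bot⟩ (bot_lt_iff_ne_bot.2 h : (⊥ : Ideal S) < _),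
        by simp [hl], rfl⟩
  have : P.LiesOver l'.head.asIdeal := ⟨by rw [h0, hP0]⟩
  obtain ⟨L, hL1, hL2, -⟩ := Ideal.exists_ltSeries_of_hasGoingUp l' P
  refine ⟨L.map (PrimeSpectrum.comap (Ideal.Quotient.mk (RingHom.ker Φ)))
    (RingHom.strictMono_comap_of_surjective Ideal.Quotient.mk_surjective), ?_, ?_⟩
  · have h4 : L.length = l'.length := hL1
    rw [LTSeries.map_length]; omega
  · rw [LTSeries.head_map, hL2]; rfl

/-- an integral extension of full dimension of a quotient of a domain: the quotient is trivial,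
and every prime lifts -/
theorem exists_over {R₀ : Type*} [CommRing R₀] [IsDomain R₀] (Ψ : R₀ →+* R) {D : ℕ}
    (hR : ringKrullDim R₀ ≤ D) (L : LTSeries (PrimeSpectrum R)) (hL : D ≤ L.length)
    (hint : ((Ideal.Quotient.mk L.head.asIdeal).comp Ψ).IsIntegral) (𝔭 : Ideal R₀) [𝔭.IsPrime] :
    ∃ 𝔓 : Ideal R, 𝔓.IsPrime ∧ L.head.asIdeal ≤ 𝔓 ∧ 𝔓.comap Ψ = 𝔭 := by
  set Q := L.head.asIdeal with hQ
  have hQp : Q.IsPrime := L.head.isPrime
  let _ : Algebra R₀ (R ⧸ Q) := ((Ideal.Quotient.mk Q).comp Ψ).toAlgebra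
  have hI : Algebra.IsIntegral R₀ (R ⧸ Q) := ⟨hint⟩
  have hle : ∀ i, Q ≤ (L i).asIdeal := fun i => L.head_le i
  have hpr : ∀ i, ((L i).asIdeal.map (Ideal.Quotient.mk Q)).IsPrime := fun i =>
    Ideal.map_isPrime_of_surjective Ideal.Quotient.mk_surjective (by simpa using hle i)
  have hcm : ∀ I : Ideal R, Q ≤ I →
      (I.map (Ideal.Quotient.mk Q)).comap (algebraMap R₀ (R ⧸ Q)) = I.comap Ψ := fun I hI => by
    change (I.map _).comap ((Ideal.Quotient.mk Q).comp Ψ) = _
    rw [← Ideal.comap_comap, Ideal.comap_map_of_surjective _ Ideal.Quotient.mk_surjective,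
      ← RingHom.ker_eq_comap_bot, Ideal.mk_ker, sup_eq_left.2 hI]
  have hlt : ∀ i j, i < j → (L i).asIdeal.comap Ψ < (L j).asIdeal.comap Ψ := fun i j hij => by
    have h1 : (L i).asIdeal < (L j).asIdeal := L.strictMono hij
    have := hpr i
    rw [← hcm _ (hle i), ← hcm _ (hle j)]
    refine Ideal.IsIntegral.comap_lt_comap (lt_of_le_of_ne (Ideal.map_mono h1.le) fun h => h1.ne ?_)
    have h2 := congrArg (Ideal.comap (Ideal.Quotient.mk Q)) h
    rwa [Ideal.comap_map_of_surjective _ Ideal.Quotient.mk_surjective,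
      Ideal.comap_map_of_surjective _ Ideal.Quotient.mk_surjective,
      ← RingHom.ker_eq_comap_bot, Ideal.mk_ker, sup_eq_left.2 (hle i),
      sup_eq_left.2 (hle j)] at h2
  let L' : LTSeries (PrimeSpectrum R₀) :=
    LTSeries.mk L.length (fun i => PrimeSpectrum.comap Ψ (L i)) fun i j hij => hlt i j hij
  have hbot : Q.comap Ψ = ⊥ := by
    by_contra h
    have h1 : (⟨⊥, Ideal.isPrime_bot⟩ : PrimeSpectrum R₀) < L'.head :=
      (bot_lt_iff_ne_bot.2 h : (⊥ : Ideal R₀) < _)
    have h2 := (Order.LTSeries.length_le_krullDim (L'.cons _ h1)).trans hR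
    rw [RelSeries.cons_length] at h2
    have h3 : L'.length + 1 ≤ D := by exact_mod_cast h2
    have h4 : L'.length = L.length := rfl
    omega
  obtain ⟨P, -, hP, hPc⟩ := Ideal.exists_ideal_over_prime_of_isIntegral 𝔭 (⊥ : Ideal (R ⧸ Q)) (by
    have := hcm Q le_rfl
    rw [Ideal.map_quotient_self] at this
    rw [this, hbot]; exact bot_le)
  refine ⟨P.comap (Ideal.Quotient.mk Q), Ideal.comap_isPrime _ _, fun a ha => ?_, ?_⟩
  · rw [Ideal.mem_comap, Ideal.Quotient.eq_zero_iff_mem.2 ha]; exact zero_mem _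
  · rw [Ideal.comap_comap]; exact hPc

/-- bounded monomials span -/
theorem exists_monomials {R₀ A ι : Type*} [CommRing R₀] [CommRing A] [Fintype ι] [DecidableEq ι]
    (ψ : R₀ →+* A) (y : ι → A) {m : ℕ} (hm : 0 < m)
    (hy : ∀ i, ∃ c : Fin m → R₀, y i ^ m = ∑ k, ψ (c k) * y i ^ (k : ℕ))
    (P : MvPolynomial ι R₀) : ∃ a : (ι → Fin m) → R₀,
      MvPolynomial.eval₂Hom ψ y P = ∑ γ, ψ (a γ) * ∏ i, y i ^ (γ i : ℕ) := by
  let _ : Algebra R₀ A := ψ.toAlgebra
  let M : Submodule R₀ A := Submodule.span R₀ (Set.range fun γ : ι → Fin m => ∏ i, y i ^ (γ i : ℕ))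
  have hupd : ∀ (γ : ι → Fin m) (i : ι) (k : Fin m),
      (∏ j ∈ Finset.univ.erase i, y j ^ (γ j : ℕ)) * y i ^ (k : ℕ) ∈ M := fun γ i k => by
    refine Submodule.subset_span ⟨update γ i k, ?_⟩
    change ∏ j, y j ^ ((update γ i k j : Fin m) : ℕ) = _
    rw [← Finset.prod_erase_mul _ _ (Finset.mem_univ i), update_self]
    congr 1
    exact Finset.prod_congr rfl fun j hj => by rw [update_of_ne (Finset.ne_of_mem_erase hj)]
  have hmul : ∀ i, ∀ a ∈ M, a * y i ∈ M := fun i a ha => by
    induction ha using Submodule.span_induction with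
    | mem a ha =>
      obtain ⟨γ, rfl⟩ := ha
      change (∏ j, y j ^ (γ j : ℕ)) * y i ∈ M
      rw [← Finset.prod_erase_mul _ _ (Finset.mem_univ i), mul_assoc, ← pow_succ]
      by_cases h : (γ i : ℕ) + 1 < m
      · exact hupd γ i ⟨_, h⟩
      · obtain ⟨c, hc⟩ := hy i
        rw [show (γ i : ℕ) + 1 = m by have := (γ i).2; omega, hc, Finset.mul_sum]
        refine sum_mem fun k _ => ?_
        rw [mul_left_comm]
        exact M.smul_mem (c k) (hupd γ i k)
    | zero => rw [zero_mul]; exact zero_mem _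
    | add a b _ _ ha hb => rw [add_mul]; exact add_mem ha hb
    | smul r a _ ha => rw [smul_mul_assoc]; exact M.smul_mem r ha
  have hP : MvPolynomial.eval₂Hom ψ y P ∈ M := by
    induction P using MvPolynomial.induction_on with
    | C a =>
      rw [MvPolynomial.eval₂Hom_C, ← mul_one (ψ a)]
      exact M.smul_mem a (Submodule.subset_span ⟨fun _ => ⟨0, hm⟩, by simp⟩)
    | add P Q hP hQ => rw [map_add]; exact add_mem hP hQ
    | mul_X P i hP => rw [map_mul, MvPolynomial.eval₂Hom_X']; exact hmul i _ hP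
  obtain ⟨a, ha⟩ := (Submodule.mem_span_range_iff_exists_fun R₀).1 hP
  exact ⟨a, ha.symm⟩

lemma exists_lower {R₀ A : Type*} [CommRing R₀] [Nontrivial R₀] [CommRing A] (ψ : R₀ →+* A) (y : A)
    (w : R₀) {E : ℕ} (h : (y ^ 2 - ψ w * (1 + y)) ^ E = 0) :
    ∃ c : Fin (2 * E) → R₀, y ^ (2 * E) = ∑ k, ψ (c k) * y ^ (k : ℕ) := by
  have hm : (X ^ 2 - C w * (1 + X) : R₀[X]).Monic := by monicity!
  have hd : (X ^ 2 - C w * (1 + X) : R₀[X]).natDegree = 2 := by compute_degree!
  set P : R₀[X] := (X ^ 2 - C w * (1 + X)) ^ E with hP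
  have hPm : P.Monic := hm.pow E
  have hPd : P.natDegree = 2 * E := by rw [hP, hm.natDegree_pow, hd, mul_comm]
  have h0 : eval₂ ψ y P = 0 := by
    rw [hP, eval₂_pow, eval₂_sub, eval₂_pow, eval₂_mul, eval₂_add, eval₂_X, eval₂_C, eval₂_one, h]
  rw [eval₂_eq_sum_range, Finset.sum_range_succ, hPm.coeff_natDegree, map_one, one_mul, hPd,
    Finset.sum_range] at h0
  refine ⟨fun k => -P.coeff k, ?_⟩
  simp only [map_neg, neg_mul, Finset.sum_neg_distrib]
  linear_combination h0

end alg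

section lim

variable {S : Type*} [CommRing S] {I : Ideal S} {B : ℕ → Type*} [∀ n, CommRing (B n)]
  {p : ∀ n, S →+* B n} {A : ℕ → Type*} [∀ n, CommRing (A n)]
  {d : Type*} [Fintype d] [DecidableEq d]

/-- the limit homomorphism on the product ring -/
theorem exists_limM (h : Sys I p) (φ : ∀ n, A n →+* Matrix d d (B n)) :
    ∃ Φ : (∀ n, A n) →+* Matrix d d S, ∀ a i j, Conv I p (fun n => φ n (a n) i j) (Φ a i j) := by
  choose F hF using fun (a : ∀ n, A n) i j => h.exists_conv fun n => φ n (a n) i j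
  refine ⟨{ toFun := fun a => Matrix.of (F a), map_one' := ?_, map_mul' := fun a b => ?_,
            map_zero' := ?_, map_add' := fun a b => ?_ }, hF⟩
  · ext i j
    refine h.unique (hF 1 i j) ((conv_const _).congr fun n => ?_)
    rw [Pi.one_apply, map_one, Matrix.one_apply, Matrix.one_apply]
    split_ifs <;> simp
  · ext i j
    refine h.unique (hF (a * b) i j)
      ((Conv.sum Finset.univ fun l => (hF a i l).mul (hF b l j)).congr fun n => ?_)
    rw [Pi.mul_apply, map_mul, Matrix.mul_apply]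
  · ext i j
    exact h.unique (hF 0 i j) ((conv_const _).congr fun n => by simp)
  · ext i j
    exact h.unique (hF (a + b) i j) (((hF a i j).add (hF b i j)).congr fun n => by simp)

theorem exists_limP (h : Sys I p) (x : ∀ n, A n →+* B n) :
    ∃ X : (∀ n, A n) →+* S, ∀ a, Conv I p (fun n => x n (a n)) (X a) := by
  obtain ⟨Φ, hΦ⟩ := exists_limM h (d := Unit) fun n => (Matrix.scalar Unit).comp (x n)
  refine ⟨{ toFun := fun a => Φ a () (), map_one' := by simp, map_mul' := fun a b => ?_,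
            map_zero' := by simp, map_add' := fun a b => by simp }, fun a => ?_⟩
  · simp [Matrix.mul_apply]
  · exact (hΦ a () ()).congr fun n => by simp

variable {R₀ : Type*} [CommRing R₀] [IsLocalRing R₀]

lemma limM_cont (h : Sys I p) {φ : ∀ n, A n →+* Matrix d d (B n)}
    {Φ : (∀ n, A n) →+* Matrix d d S} (hΦ : ∀ a i j, Conv I p (fun n => φ n (a n) i j) (Φ a i j))
    (ψ : ∀ n, R₀ →+* A n) {r : ℕ → R₀} {a : R₀} (hr : ConvR r a) :
    Φ (fun n => ψ n (r n)) = Φ fun n => ψ n a := by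
  ext i j
  refine h.unique (hΦ _ i j) fun k => ?_
  obtain ⟨N, hN⟩ := h.unif (R := R₀) (d := d) k
  filter_upwards [hΦ (fun n => ψ n a) i j k, hr N] with n h1 h2
  rw [Ideal.map_id, RingHom.id_apply] at h2
  have h3 := add_mem (hN n ((φ n).comp (ψ n)) _ h2 i j) h1
  rwa [map_sub, Matrix.sub_apply, RingHom.comp_apply, RingHom.comp_apply,
    sub_add_sub_cancel] at h3

lemma limP_cont (h : Sys I p) {x : ∀ n, A n →+* B n}
    {X : (∀ n, A n) →+* S} (hX : ∀ a, Conv I p (fun n => x n (a n)) (X a))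
    (ψ : ∀ n, R₀ →+* A n) {r : ℕ → R₀} {a : R₀} (hr : ConvR r a) :
    X (fun n => ψ n (r n)) = X fun n => ψ n a := by
  have := limM_cont h (d := Unit) (φ := fun n => (Matrix.scalar Unit).comp (x n))
    (Φ := (Matrix.scalar Unit).comp X) (fun a i j => by
      have e : ((Matrix.scalar Unit).comp X) a i j = X a := by simp
      rw [e]
      exact (hX a).congr fun n => by simp) ψ hr
  simpa using congrFun (congrFun this ()) ()

/-- a high power of the maximal ideal maps into `J ^ k` -/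
lemma map_pow_le [IsLocalRing S] {O : Type*} [CommRing O] {J : Ideal O} (hO : Cpt J)
    (ε : S →+* O) (k : ℕ) : (maximalIdeal S ^ Nat.card (O ⧸ J ^ k)).map ε ≤ J ^ k := by
  have := hO.fin k
  exact Ideal.map_le_iff_le_comap.2 fun s hs => (Ideal.Quotient.eq_zero_iff_mem (I := J ^ k)).1
    (pow_le_ker ((Ideal.Quotient.mk (J ^ k)).comp ε) hs)

end lim

end I3

open I3

section main

variable {S R₀ O O' : Type*} [CommRing S] [IsDomain S] [IsLocalRing S]
  [CommRing R₀] [IsDomain R₀] [IsLocalRing R₀]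
  [CommRing O] [IsDomain O] [CommRing O'] [IsDomain O'] {J : Ideal O} {J' : Ideal O'}
  {A B C C' : ℕ → Type*} [∀ n, CommRing (A n)] [∀ n, CommRing (B n)] [∀ n, CommRing (C n)]
  [∀ n, CommRing (C' n)] {p : ∀ n, S →+* B n} {q : ∀ n, O →+* C n} {q' : ∀ n, O' →+* C' n}
  {d ι κ : Type*} [Fintype d] [DecidableEq d] [Nonempty d] [Fintype ι] [Fintype κ]

/-- **Patching at finite level.**  `A n` acts on `(B n)^d` through `φ n`, contains the scalars
(`s n`), has two points `x n`, `θ n`, the second in the support.  Modulo the elements `u n j`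
(killed by `x n` and, up to nilpotents, by elements with a fixed non-zero value at `θ`) it is
generated by the image of the domain `R₀` (of dimension at most `dim S`) and by elements `y n i`
that are integral over it.  Then `x` is in the support of the fibre at `ε`. -/
theorem patch_fin (hS : Sys (maximalIdeal S) p) (hR : Cpt (maximalIdeal R₀)) (hO : Sys J q)
    (hO' : Sys J' q') {D : ℕ} (hRD : ringKrullDim R₀ ≤ D) (hSD : D ≤ ringKrullDim S)
    (φ : ∀ n, A n →+* Matrix d d (B n)) (s : ∀ n, S →+* A n)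
    (hs : ∀ n a, φ n (s n a) = Matrix.scalar d (p n a)) (ψ : ∀ n, R₀ →+* A n)
    (x : ∀ n, A n →+* C n) (ε : S →+* O) (hx : ∀ n a, x n (s n a) = q n (ε a))
    (θ : ∀ n, A n →+* C' n) (ε' : S →+* O') (hθ : ∀ n a, θ n (s n a) = q' n (ε' a))
    (hker : ∀ n, RingHom.ker (φ n) ≤ RingHom.ker (θ n)) {E : ℕ} (hE : 0 < E)
    (u v : ∀ n, κ → A n) (cst : κ → O') (hcst : ∀ j, cst j ≠ 0)
    (huv : ∀ n j, φ n (u n j * v n j) ^ E = 0) (hv : ∀ n j, θ n (v n j) = q' n (cst j))
    (hu : ∀ n j, x n (u n j) = 0)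
    (y : ∀ n, ι → A n) (hy0 : ∀ n i, x n (y n i) = 0)
    (hy : ∀ n i, ∃ w, x n (ψ n w) = 0 ∧
      (y n i ^ 2 - ψ n w * (1 + y n i)) ^ E ∈ Ideal.span (Set.range (u n)))
    (hgen : ∀ n a, ∃ P : MvPolynomial ι R₀,
      a - MvPolynomial.eval₂Hom (ψ n) (y n) P ∈ Ideal.span (Set.range (u n))) {c : O}
    (hc : ∀ n, ∃ t, (∀ i j, φ n t i j ∈ (RingHom.ker ε).map (p n)) ∧ x n t = q n c) :
    c = 0 := by
  classical
  obtain ⟨Φ, hΦ⟩ := exists_limM hS φ
  obtain ⟨X, hX⟩ := exists_limP hO x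
  obtain ⟨Θ, hΘ⟩ := exists_limP hO' θ
  have hXc : ∀ (a : ∀ n, A n) (b : O), (∀ n, x n (a n) = q n b) → X a = b := fun a b h =>
    hO.unique (hX a) ((conv_const b).congr h)
  have hΘc : ∀ (a : ∀ n, A n) (b : O'), (∀ n, θ n (a n) = q' n b) → Θ a = b := fun a b h =>
    hO'.unique (hΘ a) ((conv_const b).congr h)
  have hΦ0 : ∀ a : ∀ n, A n, (∀ n, φ n (a n) = 0) → Φ a = 0 := fun a h => Matrix.ext fun i j =>
    hS.unique (hΦ a i j) ((conv_const 0).congr fun n => by simp [h])
  have hsc : ∀ a : S, Φ (fun n => s n a) = Matrix.scalar d a := fun a => Matrix.ext fun i j =>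
    hS.unique (hΦ _ i j) ((conv_const _).congr fun n => by
      rw [hs, Matrix.scalar_apply, Matrix.scalar_apply, Matrix.diagonal_apply,
        Matrix.diagonal_apply]
      split_ifs <;> simp)
  -- the point `Θ` is in the support
  have hsupp : RingHom.ker Φ ≤ RingHom.ker Θ := by
    intro a ha
    refine IsNilpotent.eq_zero ⟨Fintype.card d, hO'.cpt.eq_zero fun k => ?_⟩
    have h1 : ∀ᶠ n in (U : Filter ℕ), ∀ i j, φ n (a n) i j ∈
        (maximalIdeal S ^ Nat.card (O' ⧸ J' ^ k)).map (p n) := by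
      refine eventually_all.2 fun i => eventually_all.2 fun j => ?_
      have h := hΦ a i j (Nat.card (O' ⧸ J' ^ k))
      rw [RingHom.mem_ker.1 ha] at h
      simpa using h
    obtain ⟨n, h2, h3, hn⟩ := (h1.and ((hΘ a k).and (ev_ge k))).exists
    choose N hN1 hN2 using fun i j => (Ideal.mem_map_iff_of_surjective _ (hS.surj n)).1 (h2 i j)
    have h4 := pow_mem (p n) (φ n) (θ n) ((q' n).comp ε') (fun b => ⟨s n b, hs n b, hθ n b⟩)
      (hker n) (a n) (Matrix.of N) (Matrix.ext hN2) _ hN1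
    rw [← Ideal.map_map] at h4
    have h5 := Ideal.map_mono (f := q' n) (map_pow_le hO'.cpt ε' k) h4
    refine hO'.mem_of_map hn ?_
    rw [← Ideal.Quotient.eq] at h3
    rw [← Ideal.Quotient.eq_zero_iff_mem, map_pow, map_pow, ← h3, ← map_pow,
      Ideal.Quotient.eq_zero_iff_mem]
    exact h5
  have := RingHom.ker_isPrime Θ
  obtain ⟨Q, hQ, hle⟩ := Ideal.exists_minimalPrimes_le hsupp
  have hQp : Q.IsPrime := hQ.isPrime
  have hkQ : ∀ a, Φ a = 0 → a ∈ Q := fun a ha => hQ.le ha
  -- the elements `u` die on the component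
  have huQ : ∀ j, (fun n => u n j) ∈ Q := fun j => by
    have h1 : ((fun n => u n j) * fun n => v n j : ∀ n, A n) ^ E ∈ Q :=
      hkQ _ (hΦ0 _ fun n => by rw [Pi.pow_apply, map_pow]; exact huv n j)
    refine (hQp.mem_or_mem (hQp.mem_of_pow_mem _ h1)).resolve_right fun h => hcst j ?_
    rw [← hΘc (fun n => v n j) _ fun n => hv n j]
    exact hle h
  have hspan : ∀ a : ∀ n, A n, (∀ n, a n ∈ Ideal.span (Set.range (u n))) → a ∈ Q ∧ X a = 0 :=
    fun a ha => by
    choose b hb using fun n => Ideal.mem_span_range_iff_exists_fun.1 (ha n)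
    have e : a = ∑ j, (fun n => b n j) * fun n => u n j := funext fun n => by
      rw [← hb n, Finset.sum_apply]; rfl
    rw [e]
    refine ⟨sum_mem fun j _ => Q.mul_mem_left _ (huQ j), ?_⟩
    rw [map_sum]
    exact Finset.sum_eq_zero fun j _ => by
      rw [map_mul, hXc (fun n => u n j) 0 fun n => by rw [hu, map_zero], mul_zero]
  let Ψ : R₀ →+* ∀ n, A n := RingHom.pi ψ
  have hΨ : ∀ a, Ψ a = fun n => ψ n a := fun _ => rfl
  let Y : ι → ∀ n, A n := fun i n => y n i
  have hcont : ∀ r : ℕ → R₀, ∃ a, (fun n => ψ n (r n)) - Ψ a ∈ Q ∧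
      X (fun n => ψ n (r n)) = X (Ψ a) := fun r => by
    obtain ⟨a, ha⟩ := hR.sys.exists_conv r
    exact ⟨a, hkQ _ (by rw [map_sub, limM_cont hS hΦ ψ ha, hΨ, sub_self]), limP_cont hO hX ψ ha⟩
  -- every element is a bounded polynomial in the `Y i`
  have hE2 : 0 < 2 * E := by omega
  have hrep : ∀ a : ∀ n, A n, ∃ b : (ι → Fin (2 * E)) → R₀,
      a - ∑ γ, Ψ (b γ) * ∏ i, Y i ^ (γ i : ℕ) ∈ Q ∧ X a = X (Ψ (b fun _ => ⟨0, hE2⟩)) := by
    intro a
    have h1 : ∀ n, ∃ b : (ι → Fin (2 * E)) → R₀,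
        a n - ∑ γ, ψ n (b γ) * ∏ i, y n i ^ (γ i : ℕ) ∈ Ideal.span (Set.range (u n)) := fun n => by
      obtain ⟨P, hP⟩ := hgen n (a n)
      set π := Ideal.Quotient.mk (Ideal.span (Set.range (u n)))
      obtain ⟨b, hb⟩ := exists_monomials (π.comp (ψ n)) (fun i => π (y n i)) hE2 (fun i => by
        obtain ⟨w, -, hw⟩ := hy n i
        refine exists_lower _ _ w ?_
        have := Ideal.Quotient.eq_zero_iff_mem.2 hw
        simpa using this) P
      refine ⟨b, Ideal.Quotient.eq.1 ?_⟩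
      rw [Ideal.Quotient.eq.2 hP]
      change π _ = π _
      rw [MvPolynomial.map_eval₂Hom, hb]
      simp
    choose b hb using h1
    choose b' hb1 hb2 using fun γ => hcont fun n => b n γ
    obtain ⟨h2, h3⟩ := hspan (a - ∑ γ, (fun n => ψ n (b n γ)) * ∏ i, Y i ^ (γ i : ℕ)) fun n => by
      simpa [Y] using hb n
    refine ⟨b', ?_, ?_⟩
    · have h4 : ∑ γ, ((fun n => ψ n (b n γ)) - Ψ (b' γ)) * ∏ i, Y i ^ (γ i : ℕ) ∈ Q :=
        sum_mem fun γ _ => Q.mul_mem_right _ (hb1 γ)
      have h5 := add_mem h2 h4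
      simp only [sub_mul, Finset.sum_sub_distrib] at h5
      rwa [sub_add_sub_cancel] at h5
    · rw [map_sub, sub_eq_zero, map_sum] at h3
      rw [h3, Finset.sum_eq_single (fun _ => ⟨0, hE2⟩)]
      · simp [hb2]
      · intro γ _ hγ
        obtain ⟨i, hi⟩ := Function.ne_iff.1 hγ
        rw [map_mul, map_prod, Finset.prod_eq_zero (Finset.mem_univ i), mul_zero]
        rw [map_pow, hXc (Y i) 0 fun n => by rw [hy0, map_zero]]
        exact zero_pow fun h => hi (Fin.ext h)
      · simp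
  obtain ⟨L, hL, hLQ⟩ := exists_chain Φ (fun a => ⟨_, hsc a⟩) hSD hQ
  have hint : ((Ideal.Quotient.mk L.head.asIdeal).comp Ψ).IsIntegral := by
    rw [hLQ]
    refine RingHom.IsIntegral.of_finite ?_
    let _ : Algebra R₀ ((∀ n, A n) ⧸ Q) := ((Ideal.Quotient.mk Q).comp Ψ).toAlgebra
    change Module.Finite R₀ ((∀ n, A n) ⧸ Q)
    refine ⟨Submodule.fg_def.2 ⟨Set.range fun γ : ι → Fin (2 * E) =>
      Ideal.Quotient.mk Q (∏ i, Y i ^ (γ i : ℕ)), Set.finite_range _, eq_top_iff.2 fun z _ => ?_⟩⟩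
    obtain ⟨a, rfl⟩ := Ideal.Quotient.mk_surjective z
    obtain ⟨b, hb, -⟩ := hrep a
    rw [Ideal.Quotient.eq.2 hb, map_sum]
    refine sum_mem fun γ _ => ?_
    rw [map_mul]
    exact Submodule.smul_mem _ (b γ) (Submodule.subset_span ⟨γ, rfl⟩)
  have := RingHom.ker_isPrime (X.comp Ψ)
  obtain ⟨𝔓, h𝔓, hQ𝔓, hc𝔓⟩ := exists_over Ψ hRD L hL hint (RingHom.ker (X.comp Ψ))
  rw [hLQ] at hQ𝔓
  have hmem : ∀ a, Ψ a ∈ 𝔓 ↔ X (Ψ a) = 0 := fun a => by
    rw [← Ideal.mem_comap, hc𝔓]; rfl
  have hY : ∀ i, Y i ∈ 𝔓 := fun i => by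
    choose w hw1 hw2 using fun n => hy n i
    obtain ⟨w', h1, h2⟩ := hcont w
    have h3 := (hspan ((Y i ^ 2 - (fun n => ψ n (w n)) * (1 + Y i)) ^ E) fun n => hw2 n).1
    have h4 := h𝔓.mem_of_pow_mem _ (hQ𝔓 h3)
    have h5 : Ψ w' ∈ 𝔓 := (hmem w').2 (by rw [← h2]; exact hXc _ 0 fun n => by rw [hw1, map_zero])
    have h6 : (fun n => ψ n (w n)) ∈ 𝔓 := by simpa using add_mem (hQ𝔓 h1) h5
    exact h𝔓.mem_of_pow_mem 2 (by simpa using add_mem h4 (𝔓.mul_mem_right (1 + Y i) h6))
  have hkX : RingHom.ker Φ ≤ RingHom.ker X := fun a ha => by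
    obtain ⟨b, h1, h2⟩ := hrep a
    rw [RingHom.mem_ker, h2, ← hmem]
    have h3 : ∑ γ, Ψ (b γ) * ∏ i, Y i ^ (γ i : ℕ) ∈ 𝔓 := by
      simpa using sub_mem (hQ𝔓 (hkQ a ha)) (hQ𝔓 h1)
    rw [← Finset.add_sum_erase _ _ (Finset.mem_univ fun _ => ⟨0, hE2⟩)] at h3
    have h4 : ∑ γ ∈ Finset.univ.erase (fun _ => ⟨0, hE2⟩ : ι → Fin (2 * E)),
        Ψ (b γ) * ∏ i, Y i ^ (γ i : ℕ) ∈ 𝔓 := sum_mem fun γ hγ => by
      obtain ⟨i, hi⟩ := Function.ne_iff.1 (Finset.ne_of_mem_erase hγ)
      refine 𝔓.mul_mem_left _ (Ideal.prod_mem _ (Finset.mem_univ i) ?_)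
      exact 𝔓.pow_mem_of_mem (hY i) _ (Nat.pos_of_ne_zero fun h => hi (Fin.ext h))
    simpa using sub_mem h3 h4
  choose t h1 h2 using hc
  have h := pow_mem (RingHom.id S) Φ X ε (fun a => ⟨_, hsc a, hXc _ _ fun n => hx n a⟩) hkX t (Φ t)
    (Matrix.map_id' _) (RingHom.ker ε) fun i j =>
      hS.map_eq_zero rfl hO.cpt ε (hΦ t i j) fun n => h1 n i j
  rw [hXc t c h2, (Ideal.map_eq_bot_iff_le_ker ε).2 le_rfl, Ideal.mem_bot] at h
  exact pow_eq_zero_iff Fintype.card_ne_zero |>.1 h

end main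

end Crest.Agent.T15.Pat

end
end

-- ▼ part T15/RTDef_3

/-!
# Row 15, block R (helper3): statement of the abstract `R = T` theorem

`G = Gal(E/F)`, `ρ : G → GL₂(O)`.  `Glob` collects the hypotheses on `ρ`, `Lev` the data of one
Taylor-Wiles level, `Sel` the bound for the tangent space.
-/

set_option autoImplicit false

noncomputable section

namespace Crest.Agent.T15.RT

open Matrix IsLocalRing Function
open Crest.Agent.T15.Ps Crest.Agent.T15.Pat Crest.Agent.T15.Blr
open Crest.Agent.R018.Placesx484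

variable {F E : Type} [Field F] [Field E] [Algebra F E]

/-- open kernel -/
def Opn {M : Type*} [Monoid M] (f : (E ≃ₐ[F] E) →* M) : Prop :=
  ∃ L : IntermediateField F E, FiniteDimensional F L ∧ ∀ g : E ≃ₐ[F] E, (∀ x ∈ L, g x = x) → f g = 1

/-- the inertia group of a place -/
abbrev In (F : Type) {E : Type} [Field F] [Field E] [Algebra F E] (P : Place E) :
    Subgroup (E ≃ₐ[F] E) := P.ideal.inertia (E ≃ₐ[F] E)

variable {O : Type} [CommRing O] [IsLocalRing O]

/-- hypotheses on the representation `ρ` (`bar k ρ` is its reduction, `Pl l` one place above each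
prime of the level) -/
structure Glob [CharZero E] (p : ℕ) (ρ : (E ≃ₐ[F] E) →* M2 O) {Λ : Type} (Pl : Λ → Place E) : Prop where
  prime : p.Prime
  odd : p ≠ 2
  pmem : (p : O) ∈ maximalIdeal O
  cpt : Cpt (maximalIdeal O)
  irr : Irr (bar (ResidueField O) ρ)
  conjc : ∃ c, c * c = 1 ∧ (ρ c).det = -1
  rchar : ∀ l, (Pl l).rchar ≠ p
  /-- the image of inertia has order prime to `p` -/
  tame : ∀ l, ∀ g ∈ In F (Pl l), bar (ResidueField O) ρ g = 1 → ρ g = 1
  /-- inertia is not scalar -/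
  reg : ∀ l, ∃ s ∈ In F (Pl l), IsUnit ((ρ s).trace ^ 2 - 4 * (ρ s).det)

/-- **Selmer bound.**  `σ` is any lift of `ρbar` with determinant `det ρ` over a finite local ring
generated by its traces such that `R²` embeds into a power of `H × C²`, equivariantly for `ker δ`.
The tangent vectors that are unramified (over the field of `ρbar`) at the places `Pl l` span a
space of dimension at most `r`. -/
def Sel (r : ℕ) (ρ : (E ≃ₐ[F] E) →* M2 O) {Λ : Type} (Pl : Λ → Place E) (C : Type) [CommRing C]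
    [Algebra O C] {H : Type} [AddCommGroup H] [Module O H] (ρH : (E ≃ₐ[F] E) →* Module.End O H)
    {Δ : Type} [CommGroup Δ] (δ : (E ≃ₐ[F] E) →* Δ) : Prop :=
  ∀ (R : Type) [CommRing R] [IsLocalRing R] [Finite R] [Algebra O R] [Algebra R (ResidueField O)]
    [IsScalarTower O R (ResidueField O)] (σ : (E ≃ₐ[F] E) →* M2 R) (P : GL (Fin 2) (ResidueField O))
    (j : H × (Fin 2 → C) → (Fin 2 → R) →ₗ[O] H × (Fin 2 → C)),
    (∀ g, bar (ResidueField O) σ g = conj (bar (ResidueField O) ρ) P g) →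
    (∀ g, (σ g).det = algebraMap O R (ρ g).det) →
    Algebra.adjoin O (Set.range fun g => (σ g).trace) = ⊤ → Opn σ →
    (∀ v g w, δ g = 1 → j v (σ g *ᵥ w) = prodAct ρH (act O (bar C ρ)) g (j v w)) →
    (∀ w, (∀ v, j v w = 0) → w = 0) →
    ∀ W : Submodule (ResidueField O) (Derivation O R (ResidueField O)),
      (∀ D ∈ W, ∀ l, ∀ g ∈ In F (Pl l), bar (ResidueField O) ρ g = 1 → phi σ D g = 0) →
      Module.finrank (ResidueField O) W ≤ r

/-- **the data at level `n`**: `C = O/I`, `H` a `C`-module with commuting actions of `G` and of the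
commutative ring `A` (traces `t g`, diamonds `dia`), free over `C[Δ]`; `θ` a point of its support
with values in a quotient `C'` of `O'` -/
structure Lev (p n r e : ℕ) (ρ : (E ≃ₐ[F] E) →* M2 O) {Λ : Type} (Pl : Λ → Place E) (d : Type)
    {O' : Type} [CommRing O'] [Algebra O O'] (C : Type) [CommRing C] [Algebra O C]
    {C' : Type} [CommRing C'] (q' : O' →+* C') {Δ : Type} [CommGroup Δ] (del : Fin r → Δ)
    (δ : (E ≃ₐ[F] E) →* Δ) {H : Type} [AddCommGroup H] [Module O H] [Module C H]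
    (ρH : (E ≃ₐ[F] E) →* Module.End O H) {A : Type} [CommRing A] [Algebra O A]
    (ac : A →ₐ[O] Module.End O H) (dia : Δ →* A) (t : (E ≃ₐ[F] E) → A) (θ : A →+* C') : Prop where
  finC : Finite C
  surj : Surjective (algebraMap O C)
  ker : RingHom.ker (algebraMap O C) ≤ maximalIdeal O ^ (n + 1)
  twg : TWg p n del
  free : ∃ m : d → H, LinearIndependent C (fun q : Δ × d => ac (dia q.1) (m q.2)) ∧
    Submodule.span C (Set.range fun q : Δ × d => ac (dia q.1) (m q.2)) = ⊤
  comm : ∀ g a, ρH g * ac a = ac a * ρH g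
  opnH : Opn ρH
  opnδ : Opn δ
  opnρ : Opn (bar C ρ)
  /-- Eichler-Shimura (at every `g`, by Chebotarev) -/
  ch : ∀ g, ρH g + (ρ g).det • (ac (dia (δ g)) * ρH g⁻¹) = ac (t g)
  res : ∀ g, IsNilpotent (ac (t g - algebraMap O A (ρ g).trace))
  /-- inertia at the Taylor-Wiles primes -/
  tw : ∀ i, ∃ τ, δ τ = del i ∧ ρ τ = 1 ∧ ac (t τ - 1 - dia (del i)) ^ e = 0
  thO : ∀ a, θ (algebraMap O A a) = q' (algebraMap O O' a)
  thD : ∀ x, θ (dia x) = 1
  thK : ∀ a, ac a = 0 → θ a = 0
  thI : ∀ l, ∀ g ∈ In F (Pl l), bar (ResidueField O) ρ g = 1 → θ (t g) = 2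
  sel : Sel r ρ Pl C ρH δ

/-- **abstract `R = T`**: a polynomial in the traces that is killed by the norm of `Δ n` at every
level vanishes at `ρ` -/
def RTStmt : Prop :=
  ∀ (F E : Type) [Field F] [NumberField F] [Field E] [CharZero E] [IsAlgClosed E]
    [Algebra.IsAlgebraic ℚ E] [Algebra F E] [IsGalois F E]
    (O : Type) [CommRing O] [IsDomain O] [IsLocalRing O] [IsNoetherianRing O]
    (O' : Type) [CommRing O'] [IsDomain O'] [CharZero O'] [Algebra O O'] (J' : Ideal O')
    (p r e : ℕ) (ρ : (E ≃ₐ[F] E) →* M2 O) (Λ : Type) [Finite Λ] (Pl : Λ → Place E)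
    (d : Type) [Finite d] [Nonempty d]
    (C C' Δ H A : ℕ → Type) [∀ n, CommRing (C n)] [∀ n, Algebra O (C n)] [∀ n, CommRing (C' n)]
    [∀ n, CommGroup (Δ n)] [∀ n, Fintype (Δ n)] [∀ n, AddCommGroup (H n)] [∀ n, Module O (H n)]
    [∀ n, Module (C n) (H n)] [∀ n, IsScalarTower O (C n) (H n)] [∀ n, CommRing (A n)]
    [∀ n, Algebra O (A n)] (q' : ∀ n, O' →+* C' n) (del : ∀ n, Fin r → Δ n)
    (δ : ∀ n, (E ≃ₐ[F] E) →* Δ n) (ρH : ∀ n, (E ≃ₐ[F] E) →* Module.End O (H n))
    (ac : ∀ n, A n →ₐ[O] Module.End O (H n)) (dia : ∀ n, Δ n →* A n)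
    (t : ∀ n, (E ≃ₐ[F] E) → A n) (θ : ∀ n, A n →+* C' n),
    Glob p ρ Pl → Sys J' q' →
    (∀ n, Lev p n r e ρ Pl d (C n) (q' n) (del n) (δ n) (ρH n) (ac n) (dia n) (t n) (θ n)) →
    ∀ P : MvPolynomial (E ≃ₐ[F] E) O,
      (∀ n, ∑ x, ac n (dia n x * MvPolynomial.aeval (t n) P) = 0) →
      MvPolynomial.aeval (fun g => (ρ g).trace) P = 0

end Crest.Agent.T15.RT

end
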